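import Crest.Agent.R158.Jt3_785
import Crest.Agent.R158.Sp0_896

-- ▼ part R158/Sp1_896
section

/-! R158 (helper896) BLOCK SP, file 1: polar coordinates of the closed Jordan domain of S0237 and the
compactness constants used for the sandwich polygons. -/

set_option autoImplicit false

open Set Topology Filter Metric
open Crest Crest.ProbabilityR Crest.ProbabilityR.Percolation
open Crest.Agent.R158.Jt785

namespace Crest.Agent.R158.Sp896

/-- polar coordinates of `closure D` centred at `Ψ 0 0`, the boundary being `γ` -/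
structure Pol (γ : ℝ → ℂ) (Ψ : ℝ → ℝ → ℂ) (D : Set ℂ) : Prop where
  cont : ContinuousOn (fun p : ℝ × ℝ => Ψ p.1 p.2) (Icc (0:ℝ) 1 ×ˢ (univ : Set ℝ))
  per : ∀ r t, Ψ r (t + 1) = Ψ r t
  one : ∀ t ∈ Icc (0:ℝ) 1, Ψ 1 t = γ t
  zero : ∀ t, Ψ 0 t = Ψ 0 0
  inj : ∀ r ∈ Icc (0:ℝ) 1, ∀ r' ∈ Icc (0:ℝ) 1, ∀ t ∈ Icc (0:ℝ) 1, ∀ t' ∈ Icc (0:ℝ) 1,
    Ψ r t = Ψ r' t' → r = r' ∧ (r = 0 ∨ t = t' ∨ t = t' + 1 ∨ t' = t + 1)
  mem : ∀ r ∈ Icc (0:ℝ) 1, ∀ t, Ψ r t ∈ closure D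
  surj : ∀ z ∈ closure D, ∃ r ∈ Icc (0:ℝ) 1, ∃ t ∈ Icc (0:ℝ) 1, Ψ r t = z
  opn : ∀ r0 : ℝ, 0 < r0 → r0 ≤ 1 → IsOpen {z : ℂ | ∃ r ∈ Ico (0:ℝ) r0, ∃ t ∈ Icc (0:ℝ) 1, Ψ r t = z}

theorem exists_pol {γ : ℝ → ℂ} {φ : ℂ → ℂ} (h : Unif γ φ) :
    ∃ Ψ : ℝ → ℝ → ℂ, Pol γ Ψ (jordanInterior γ) := by
  obtain ⟨ψ, hc, h1, h2, h3⟩ := h.exists_inv
  set g : ℝ → ℂ := fun t => φ (γ (Int.fract t)) with hg
  have hsub : ∀ s ∈ Icc (0:ℝ) 1, γ s ∈ curveTrace γ := fun s hs => mem_image_of_mem _ hs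
  have hgc : Continuous g := by
    have h4 : ContinuousOn (fun s => φ (γ s)) (Icc 0 1) :=
      h.cont.comp h.jc.1 (fun s hs => h.tr_subset (hsub s hs))
    have h5 := ContinuousOn.comp_fract'' h4 (by show φ (γ 0) = φ (γ 1); rw [h.jc.2.2])
    exact h5
  have hfr : ∀ t : ℝ, Int.fract t ∈ Icc (0:ℝ) 1 := fun t => ⟨Int.fract_nonneg t, (Int.fract_lt_one t).le⟩
  have hgn : ∀ t, ‖g t‖ = 1 := fun t => h.norm_eq (hsub _ (hfr t))
  have hg1 : ∀ t ∈ Icc (0:ℝ) 1, g t = φ (γ t) := by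
    intro t ht
    rcases eq_or_lt_of_le ht.2 with h6 | h6
    · subst h6
      simp only [hg, Int.fract_one, h.jc.2.2]
    · simp only [hg, Int.fract_eq_self.2 ⟨ht.1, h6⟩]
  have hball : ∀ r ∈ Icc (0:ℝ) 1, ∀ t, (r : ℂ) * g t ∈ closedBall (0:ℂ) 1 := by
    intro r hr t
    rw [mem_closedBall_zero_iff, norm_mul, hgn, mul_one, Complex.norm_real, Real.norm_eq_abs,
      abs_of_nonneg hr.1]
    exact hr.2
  have hinj : ∀ t ∈ Icc (0:ℝ) 1, ∀ t' ∈ Icc (0:ℝ) 1, g t = g t' → t = t' ∨ t = t' + 1 ∨ t' = t + 1 := by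
    intro t ht t' ht' he
    rw [hg1 t ht, hg1 t' ht'] at he
    have he' := h.inj (h.tr_subset (hsub t ht)) (h.tr_subset (hsub t' ht')) he
    rcases eq_or_lt_of_le ht.2 with h6 | h6
    · rcases eq_or_lt_of_le ht'.2 with h7 | h7
      · left; rw [h6, h7]
      · subst h6
        rw [← h.jc.2.2] at he'
        have := h.jc.2.1 (⟨le_rfl, one_pos⟩ : (0:ℝ) ∈ Ico (0:ℝ) 1) ⟨ht'.1, h7⟩ he'
        right; left; rw [← this]; ring
    · rcases eq_or_lt_of_le ht'.2 with h7 | h7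
      · subst h7
        rw [← h.jc.2.2] at he'
        have := h.jc.2.1 ⟨ht.1, h6⟩ (⟨le_rfl, one_pos⟩ : (0:ℝ) ∈ Ico (0:ℝ) 1) he'
        right; right; rw [this]; ring
      · left
        exact h.jc.2.1 ⟨ht.1, h6⟩ ⟨ht'.1, h7⟩ he'
  have hsurj : ∀ w : ℂ, ‖w‖ ≤ 1 → ∃ r ∈ Icc (0:ℝ) 1, ∃ t ∈ Icc (0:ℝ) 1, (r : ℂ) * g t = w ∧ r = ‖w‖ := by
    intro w hw
    by_cases h0 : w = 0
    · exact ⟨0, ⟨le_rfl, zero_le_one⟩, 0, ⟨le_rfl, zero_le_one⟩, by rw [h0]; simp, by rw [h0]; simp⟩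
    · have hn : ‖w‖ ≠ 0 := norm_ne_zero_iff.2 h0
      have h8 : w / ‖w‖ ∈ sphere (0:ℂ) 1 := by
        rw [mem_sphere_zero_iff_norm, norm_div, Complex.norm_real, norm_norm, div_self hn]
      rw [← h.img_tr] at h8
      obtain ⟨z, ⟨t, ht, rfl⟩, hz⟩ := h8
      refine ⟨‖w‖, ⟨norm_nonneg _, hw⟩, t, ht, ?_, rfl⟩
      rw [hg1 t ht, hz, mul_div_cancel₀ _ (Complex.ofReal_ne_zero.2 hn)]
  refine ⟨fun r t => ψ (r * g t), ?_, ?_, ?_, ?_, ?_, ?_, ?_, ?_⟩
  · refine hc.comp ?_ (fun p hp => hball p.1 hp.1 p.2)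
    exact ((Complex.continuous_ofReal.comp continuous_fst).mul (hgc.comp continuous_snd)).continuousOn
  · intro r t
    simp only [hg, Int.fract_add_one]
  · intro t ht
    simp only [Complex.ofReal_one, one_mul, hg1 t ht]
    exact h1 _ (h.tr_subset (hsub t ht))
  · intro t
    simp
  · intro r hr r' hr' t ht t' ht' he
    have h4 := congrArg φ he
    simp only [(h2 _ (hball r hr t)).1, (h2 _ (hball r' hr' t')).1] at h4
    have h5 : r = r' := by
      have := congrArg norm h4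
      rw [norm_mul, norm_mul, hgn, hgn, mul_one, mul_one, Complex.norm_real, Complex.norm_real,
        Real.norm_eq_abs, Real.norm_eq_abs, abs_of_nonneg hr.1, abs_of_nonneg hr'.1] at this
      exact this
    refine ⟨h5, ?_⟩
    by_cases h0 : r = 0
    · exact Or.inl h0
    · right
      rw [← h5] at h4
      exact hinj t ht t' ht' (mul_left_cancel₀ (Complex.ofReal_ne_zero.2 h0) h4)
  · intro r hr t
    exact (h2 _ (hball r hr t)).2
  · intro z hz
    have h4 : φ z ∈ closedBall (0:ℂ) 1 := by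
      rw [← h.img_closure]
      exact mem_image_of_mem _ hz
    obtain ⟨r, hr, t, ht, he, -⟩ := hsurj (φ z) (by simpa using h4)
    exact ⟨r, hr, t, ht, by simp only [he]; exact h1 z hz⟩
  · intro r0 hr0 hr1
    have h4 : {z : ℂ | ∃ r ∈ Ico (0:ℝ) r0, ∃ t ∈ Icc (0:ℝ) 1, ψ (r * g t) = z} =
        jordanInterior γ ∩ φ ⁻¹' (ball 0 r0) := by
      ext z
      constructor
      · rintro ⟨r, hr, t, -, rfl⟩
        have hr' : r ∈ Icc (0:ℝ) 1 := ⟨hr.1, hr.2.le.trans hr1⟩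
        have hw : (r : ℂ) * g t ∈ ball (0:ℂ) 1 := by
          rw [mem_ball_zero_iff, norm_mul, hgn, mul_one, Complex.norm_real, Real.norm_eq_abs,
            abs_of_nonneg hr.1]
          exact hr.2.trans_le hr1
        refine ⟨h3 ▸ mem_image_of_mem _ hw, ?_⟩
        rw [mem_preimage, (h2 _ (hball r hr' t)).1, mem_ball_zero_iff, norm_mul, hgn, mul_one,
          Complex.norm_real, Real.norm_eq_abs, abs_of_nonneg hr.1]
        exact hr.2
      · rintro ⟨hz, hz'⟩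
        rw [mem_preimage, mem_ball_zero_iff] at hz'
        obtain ⟨r, hr, t, ht, he, hn⟩ := hsurj (φ z) (hz'.le.trans hr1)
        exact ⟨r, ⟨hr.1, by rw [hn]; exact hz'⟩, t, ht, by rw [he]; exact h1 z (subset_closure hz)⟩
    rw [h4]
    exact (h.cont.mono subset_closure).isOpen_inter_preimage (isOpen_ji h.jc) isOpen_ball

namespace Pol

variable {γ : ℝ → ℂ} {Ψ : ℝ → ℝ → ℂ} {D : Set ℂ}

theorem per_int (h : Pol γ Ψ D) (r t : ℝ) (n : ℤ) : Ψ r (t + n) = Ψ r t := by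
  induction n using Int.induction_on with
  | zero => simp
  | succ i ih =>
    have : t + ((i : ℤ) + 1 : ℤ) = (t + (i : ℤ)) + 1 := by push_cast; ring
    rw [this, h.per, ih]
  | pred i ih =>
    have : t + ((-(i : ℤ) : ℤ) : ℝ) = (t + ((-(i:ℤ) - 1 : ℤ) : ℝ)) + 1 := by push_cast; ring
    rw [this, h.per] at ih
    exact ih

/-- closeness modulo 1 for parameters in `[0,1]` -/
def near (η t t' : ℝ) : Prop := |t - t'| < η ∨ |t - t' - 1| < η ∨ |t - t' + 1| < η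

/-- quantitative injectivity -/
theorem inv_unif (h : Pol γ Ψ D) {η : ℝ} (hη : 0 < η) : ∃ δ : ℝ, 0 < δ ∧
    ∀ r ∈ Icc (0:ℝ) 1, ∀ r' ∈ Icc (0:ℝ) 1, ∀ t ∈ Icc (0:ℝ) 1, ∀ t' ∈ Icc (0:ℝ) 1,
    ‖Ψ r t - Ψ r' t'‖ < δ → |r - r'| < η ∧ (r < η ∨ near η t t') := by
  let X : Set ((ℝ × ℝ) × (ℝ × ℝ)) := (Icc (0:ℝ) 1 ×ˢ Icc (0:ℝ) 1) ×ˢ (Icc (0:ℝ) 1 ×ˢ Icc (0:ℝ) 1)
  have hX : IsCompact X := (isCompact_Icc.prod isCompact_Icc).prod (isCompact_Icc.prod isCompact_Icc)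
  let O : Set ((ℝ × ℝ) × (ℝ × ℝ)) := {p | |p.1.1 - p.2.1| < η ∧
    (p.1.1 < η ∨ (|p.1.2 - p.2.2| < η ∨ |p.1.2 - p.2.2 - 1| < η ∨ |p.1.2 - p.2.2 + 1| < η))}
  have hO : IsOpen O := by
    have e1 : Continuous fun p : (ℝ × ℝ) × (ℝ × ℝ) => |p.1.1 - p.2.1| := by fun_prop
    have e2 : Continuous fun p : (ℝ × ℝ) × (ℝ × ℝ) => p.1.1 := by fun_prop
    have e3 : Continuous fun p : (ℝ × ℝ) × (ℝ × ℝ) => |p.1.2 - p.2.2| := by fun_prop
    have e4 : Continuous fun p : (ℝ × ℝ) × (ℝ × ℝ) => |p.1.2 - p.2.2 - 1| := by fun_prop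
    have e5 : Continuous fun p : (ℝ × ℝ) × (ℝ × ℝ) => |p.1.2 - p.2.2 + 1| := by fun_prop
    exact (isOpen_lt e1 continuous_const).inter ((isOpen_lt e2 continuous_const).union
      ((isOpen_lt e3 continuous_const).union ((isOpen_lt e4 continuous_const).union
        (isOpen_lt e5 continuous_const))))
  have hK : IsCompact (X \ O) := hX.diff hO
  let F : ((ℝ × ℝ) × (ℝ × ℝ)) → ℝ := fun p => ‖Ψ p.1.1 p.1.2 - Ψ p.2.1 p.2.2‖
  have hF : ContinuousOn F (X \ O) := by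
    refine ContinuousOn.norm (ContinuousOn.sub ?_ ?_)
    · exact h.cont.comp continuous_fst.continuousOn (fun p hp => ⟨hp.1.1.1, mem_univ _⟩)
    · exact h.cont.comp continuous_snd.continuousOn (fun p hp => ⟨hp.1.2.1, mem_univ _⟩)
  rcases (X \ O).eq_empty_or_nonempty with he | hne
  · refine ⟨1, one_pos, fun r hr r' hr' t ht t' ht' _ => ?_⟩
    by_contra hcon
    have : ((r, t), (r', t')) ∈ X \ O := ⟨⟨⟨hr, ht⟩, ⟨hr', ht'⟩⟩, hcon⟩
    rw [he] at this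
    exact this
  · obtain ⟨p, hp, hmin⟩ := hK.exists_isMinOn hne hF
    refine ⟨F p, ?_, fun r hr r' hr' t ht t' ht' hlt => ?_⟩
    · refine lt_of_le_of_ne (norm_nonneg _) (fun h0 => hp.2 ?_)
      have h1 : Ψ p.1.1 p.1.2 = Ψ p.2.1 p.2.2 := sub_eq_zero.1 (norm_eq_zero.1 h0.symm)
      obtain ⟨h2, h3⟩ := h.inj _ hp.1.1.1 _ hp.1.2.1 _ hp.1.1.2 _ hp.1.2.2 h1
      refine ⟨by rw [h2]; simpa using hη, ?_⟩
      rcases h3 with h3 | h3 | h3 | h3
      · left; rw [h3]; exact hη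
      · right; left; rw [h3]; simpa using hη
      · right; right; left; rw [h3]; simpa using hη
      · right; right; right; rw [h3]; simpa using hη
    · by_contra hcon
      have : ((r, t), (r', t')) ∈ X \ O := ⟨⟨⟨hr, ht⟩, ⟨hr', ht'⟩⟩, hcon⟩
      exact absurd hlt (not_lt.2 (hmin this))

/-- uniform continuity -/
theorem unif (h : Pol γ Ψ D) {ε : ℝ} (hε : 0 < ε) : ∃ η : ℝ, 0 < η ∧
    ∀ r ∈ Icc (0:ℝ) 1, ∀ r' ∈ Icc (0:ℝ) 1, ∀ t ∈ Icc (-1:ℝ) 2, ∀ t' ∈ Icc (-1:ℝ) 2,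
    |r - r'| < η → |t - t'| < η → ‖Ψ r t - Ψ r' t'‖ < ε := by
  have hK : IsCompact (Icc (0:ℝ) 1 ×ˢ Icc (-1:ℝ) 2) := isCompact_Icc.prod isCompact_Icc
  have hu := hK.uniformContinuousOn_of_continuous (h.cont.mono (prod_mono_right (subset_univ _)))
  rw [Metric.uniformContinuousOn_iff] at hu
  obtain ⟨η, hη, hu⟩ := hu ε hε
  refine ⟨η, hη, fun r hr r' hr' t ht t' ht' h1 h2 => ?_⟩
  have := hu (r, t) ⟨hr, ht⟩ (r', t') ⟨hr', ht'⟩ (by
    rw [Prod.dist_eq, max_lt_iff]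
    exact ⟨h1, h2⟩)
  rwa [dist_eq_norm] at this

/-- points of radius at most `r1 < r0` have a uniform ball inside the points of radius below `r0` -/
theorem deep (h : Pol γ Ψ D) {r1 r0 : ℝ} (h1 : r1 < r0) (h0 : 0 < r0) (h0' : r0 ≤ 1) :
    ∃ δ : ℝ, 0 < δ ∧ ∀ r ∈ Icc (0:ℝ) r1, ∀ t ∈ Icc (0:ℝ) 1, ∀ z : ℂ, ‖z - Ψ r t‖ < δ →
      ∃ r' ∈ Ico (0:ℝ) r0, ∃ t' ∈ Icc (0:ℝ) 1, Ψ r' t' = z := by
  have hO := h.opn r0 h0 h0'
  have hK : IsCompact ((fun p : ℝ × ℝ => Ψ p.1 p.2) '' (Icc (0:ℝ) r1 ×ˢ Icc (0:ℝ) 1)) :=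
    (isCompact_Icc.prod isCompact_Icc).image_of_continuousOn
      (h.cont.mono (prod_mono (Icc_subset_Icc_right (h1.le.trans h0')) (subset_univ _)))
  have hsub : (fun p : ℝ × ℝ => Ψ p.1 p.2) '' (Icc (0:ℝ) r1 ×ˢ Icc (0:ℝ) 1) ⊆
      {z : ℂ | ∃ r ∈ Ico (0:ℝ) r0, ∃ t ∈ Icc (0:ℝ) 1, Ψ r t = z} := by
    rintro z ⟨p, hp, rfl⟩
    exact ⟨p.1, ⟨hp.1.1, hp.1.2.trans_lt h1⟩, p.2, hp.2, rfl⟩
  obtain ⟨δ, hδ, hth⟩ := hK.exists_thickening_subset_open hO hsub
  refine ⟨δ, hδ, fun r hr t ht z hz => hth ?_⟩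
  rw [mem_thickening_iff]
  exact ⟨Ψ r t, ⟨(r, t), ⟨hr, ht⟩, rfl⟩, by rwa [dist_eq_norm]⟩

end Pol

end Crest.Agent.R158.Sp896
end

-- ▼ part R158/Sp2_896
section

/-! R158 (helper896) BLOCK SP, file 2: closed cells of the grid of mesh `s`, the cells meeting a
connected set, the outer complement of a finite set of cells. -/

set_option autoImplicit false

open Set Topology Filter Metric

namespace Crest.Agent.R158.Sp896

/-- closed cell -/
def sq (s : ℝ) (q : V) : Set ℂ :=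
  {z | s * q.1 ≤ z.re ∧ z.re ≤ s * (q.1 + 1) ∧ s * q.2 ≤ z.im ∧ z.im ≤ s * (q.2 + 1)}

theorem isClosed_sq (s : ℝ) (q : V) : IsClosed (sq s q) := by
  refine (isClosed_le continuous_const Complex.continuous_re).inter
    ((isClosed_le Complex.continuous_re continuous_const).inter
      ((isClosed_le continuous_const Complex.continuous_im).inter
        (isClosed_le Complex.continuous_im continuous_const)))

theorem convex_sq (s : ℝ) (q : V) : Convex ℝ (sq s q) := by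
  intro z hz w hw a b ha hb hab
  obtain ⟨h1, h2, h3, h4⟩ := hz
  obtain ⟨k1, k2, k3, k4⟩ := hw
  refine ⟨?_, ?_, ?_, ?_⟩
  all_goals
    simp only [Complex.add_re, Complex.add_im, Complex.real_smul, Complex.mul_re, Complex.mul_im,
      Complex.ofReal_re, Complex.ofReal_im, zero_mul, sub_zero, add_zero]
    have e : b = 1 - a := by linarith
    subst e
    nlinarith

theorem sq_dist {s : ℝ} {q : V} {z w : ℂ} (hz : z ∈ sq s q) (hw : w ∈ sq s q) :
    ‖z - w‖ ≤ 2 * s := by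
  obtain ⟨h1, h2, h3, h4⟩ := hz
  obtain ⟨k1, k2, k3, k4⟩ := hw
  have h5 := Complex.norm_le_abs_re_add_abs_im (z - w)
  have h6 : |(z - w).re| ≤ s := by
    rw [Complex.sub_re, abs_le]
    constructor <;> linarith
  have h7 : |(z - w).im| ≤ s := by
    rw [Complex.sub_im, abs_le]
    constructor <;> linarith
  linarith

theorem sq_norm {s : ℝ} {q : V} {z : ℂ} (hs : 0 < s) (hz : z ∈ sq s q) :
    s * |(q.1 : ℝ)| ≤ ‖z‖ + s ∧ s * |(q.2 : ℝ)| ≤ ‖z‖ + s := by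
  obtain ⟨h1, h2, h3, h4⟩ := hz
  have h5 := abs_le.1 (Complex.abs_re_le_norm z)
  have h6 := abs_le.1 (Complex.abs_im_le_norm z)
  constructor
  · rw [← abs_of_pos hs, ← abs_mul, abs_of_pos hs, abs_le]
    constructor <;> linarith [h5.1, h5.2]
  · rw [← abs_of_pos hs, ← abs_mul, abs_of_pos hs, abs_le]
    constructor <;> linarith [h6.1, h6.2]

/-- the cell of a point -/
noncomputable def cellOf (s : ℝ) (z : ℂ) : V := (⌊z.re / s⌋, ⌊z.im / s⌋)

theorem mem_cellOf {s : ℝ} (hs : 0 < s) (z : ℂ) : z ∈ sq s (cellOf s z) := by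
  have h1 := Int.floor_le (z.re / s)
  have h2 := (Int.lt_floor_add_one (z.re / s)).le
  have h3 := Int.floor_le (z.im / s)
  have h4 := (Int.lt_floor_add_one (z.im / s)).le
  rw [le_div_iff₀ hs] at h1 h3
  rw [div_le_iff₀ hs] at h2 h4
  refine ⟨?_, ?_, ?_, ?_⟩ <;> · simp only [cellOf]; linarith

/-- the cells meeting `K` -/
def cells (s : ℝ) (K : Set ℂ) : Set V := {q | (sq s q ∩ K).Nonempty}

theorem cells_mono {s : ℝ} {K K' : Set ℂ} (h : K ⊆ K') : cells s K ⊆ cells s K' :=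
  fun _ hq => hq.mono (inter_subset_inter_right _ h)

theorem cellOf_mem {s : ℝ} (hs : 0 < s) {K : Set ℂ} {z : ℂ} (hz : z ∈ K) : cellOf s z ∈ cells s K :=
  ⟨z, mem_cellOf hs z, hz⟩

theorem cells_box {s M : ℝ} (hs : 0 < s) {K : Set ℂ} (hK : ∀ z ∈ K, ‖z‖ ≤ M) {q : V}
    (hq : q ∈ cells s K) : |(q.1 : ℝ)| ≤ M / s + 1 ∧ |(q.2 : ℝ)| ≤ M / s + 1 := by
  obtain ⟨z, hz, hzK⟩ := hq
  have h1 := sq_norm hs hz
  have h2 := hK z hzK
  have e : M / s + 1 = (M + s) / s := by field_simp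
  rw [e]
  constructor
  · rw [le_div_iff₀ hs]; linarith [h1.1]
  · rw [le_div_iff₀ hs]; linarith [h1.2]

theorem cells_finite {s : ℝ} (hs : 0 < s) {K : Set ℂ} (hK : Bornology.IsBounded K) :
    (cells s K).Finite := by
  obtain ⟨M, hM⟩ := hK.exists_norm_le
  refine Set.Finite.subset ((Set.finite_Icc (-⌈M / s + 1⌉) ⌈M / s + 1⌉).prod
    (Set.finite_Icc (-⌈M / s + 1⌉) ⌈M / s + 1⌉)) ?_
  intro q hq
  obtain ⟨h1, h2⟩ := cells_box hs hM hq
  have h3 := Int.le_ceil (M / s + 1)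
  rw [abs_le] at h1 h2
  refine ⟨⟨?_, ?_⟩, ⟨?_, ?_⟩⟩
  · have : -(⌈M / s + 1⌉ : ℝ) ≤ q.1 := by linarith [h1.1]
    exact_mod_cast this
  · have : (q.1 : ℝ) ≤ (⌈M / s + 1⌉ : ℝ) := by linarith [h1.2]
    exact_mod_cast this
  · have : -(⌈M / s + 1⌉ : ℝ) ≤ q.2 := by linarith [h2.1]
    exact_mod_cast this
  · have : (q.2 : ℝ) ≤ (⌈M / s + 1⌉ : ℝ) := by linarith [h2.2]
    exact_mod_cast this

/-! ### moves -/

theorem con_le_one {S : Set V} {x y : V} (h2 : x.2 = y.2) (h1 : x.1 ≤ y.1 + 1) (h1' : y.1 ≤ x.1 + 1)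
    (hy : y ∈ S) : Con S x y := by
  by_cases he : x = y
  · rw [he]; exact Con.refl S y
  · refine Con.one ?_ hy
    have : x.1 ≠ y.1 := fun h => he (Prod.ext h h2)
    unfold Adj
    omega

theorem con_le_one' {S : Set V} {x y : V} (h2 : x.1 = y.1) (h1 : x.2 ≤ y.2 + 1) (h1' : y.2 ≤ x.2 + 1)
    (hy : y ∈ S) : Con S x y := by
  by_cases he : x = y
  · rw [he]; exact Con.refl S y
  · refine Con.one ?_ hy
    have : x.2 ≠ y.2 := fun h => he (Prod.ext h2 h)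
    unfold Adj
    omega

theorem int_le_of {s r : ℝ} (hs : 0 < s) {a b : ℤ} (h1 : s * a ≤ r) (h2 : r ≤ s * (b + 1)) :
    a ≤ b + 1 := by
  have : s * a ≤ s * (b + 1) := h1.trans h2
  have := le_of_mul_le_mul_left this hs
  exact_mod_cast this

/-- two cells with a common point of `K` are connected -/
theorem con_of_point {s : ℝ} (hs : 0 < s) {K : Set ℂ} {p : ℂ} (hp : p ∈ K) {x y : V}
    (hx : p ∈ sq s x) (hy : p ∈ sq s y) : Con (cells s K) x y := by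
  obtain ⟨h1, h2, h3, h4⟩ := hx
  obtain ⟨k1, k2, k3, k4⟩ := hy
  have hm : ((y.1, x.2) : V) ∈ cells s K := ⟨p, ⟨k1, k2, h3, h4⟩, hp⟩
  have hyK : y ∈ cells s K := ⟨p, ⟨k1, k2, k3, k4⟩, hp⟩
  refine (con_le_one (x := x) (y := (y.1, x.2)) rfl ?_ ?_ hm).trans
    (con_le_one' (x := (y.1, x.2)) (y := y) rfl ?_ ?_ hyK)
  · exact int_le_of hs h1 k2
  · exact int_le_of hs k1 h2
  · exact int_le_of hs h3 k4
  · exact int_le_of hs k3 h4

/-- the cells meeting a bounded connected set are connected through edges -/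
theorem cells_con {s : ℝ} (hs : 0 < s) {K : Set ℂ} (hK : IsPreconnected K)
    (hb : Bornology.IsBounded K) : ∀ q ∈ cells s K, ∀ q' ∈ cells s K, Con (cells s K) q q' := by
  intro q hq q' hq'
  by_contra hcon
  have hfin := cells_finite hs hb
  set X : Set V := {x | x ∈ cells s K ∧ Con (cells s K) q x} with hX
  set Y : Set V := {x | x ∈ cells s K ∧ ¬ Con (cells s K) q x} with hY
  have hXf : X.Finite := hfin.subset fun x hx => hx.1
  have hYf : Y.Finite := hfin.subset fun x hx => hx.1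
  have hC1 : IsClosed (⋃ x ∈ X, sq s x) := hXf.isClosed_biUnion fun x _ => isClosed_sq s x
  have hC2 : IsClosed (⋃ x ∈ Y, sq s x) := hYf.isClosed_biUnion fun x _ => isClosed_sq s x
  have hcov : K ⊆ (⋃ x ∈ X, sq s x) ∪ (⋃ x ∈ Y, sq s x) := by
    intro z hz
    have h1 := cellOf_mem hs hz
    by_cases h2 : Con (cells s K) q (cellOf s z)
    · left
      exact mem_biUnion (x := cellOf s z) ⟨h1, h2⟩ (mem_cellOf hs z)
    · right
      exact mem_biUnion (x := cellOf s z) ⟨h1, h2⟩ (mem_cellOf hs z)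
  have hn1 : (K ∩ ⋃ x ∈ X, sq s x).Nonempty := by
    obtain ⟨z, hz, hzK⟩ := hq
    exact ⟨z, hzK, mem_biUnion (x := q) ⟨⟨z, hz, hzK⟩, Con.refl _ q⟩ hz⟩
  have hn2 : (K ∩ ⋃ x ∈ Y, sq s x).Nonempty := by
    obtain ⟨z, hz, hzK⟩ := hq'
    exact ⟨z, hzK, mem_biUnion (x := q') ⟨⟨z, hz, hzK⟩, hcon⟩ hz⟩
  obtain ⟨p, hp, hp1, hp2⟩ := (isPreconnected_closed_iff.1 hK) _ _ hC1 hC2 hcov hn1 hn2
  rw [mem_iUnion₂] at hp1 hp2
  obtain ⟨x, hx, hpx⟩ := hp1
  obtain ⟨y, hy, hpy⟩ := hp2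
  exact hy.2 (hx.2.trans (con_of_point hs hp hpx hpy))

/-! ### the outer complement -/

/-- cells that can reach arbitrarily far to the right avoiding `F0` -/
def Out (F0 : Set V) : Set V := {q | q ∉ F0 ∧ ∀ N : ℤ, ∃ q' : V, N < q'.1 ∧ Con F0ᶜ q q'}

theorem con_right {S : Set V} (x y : ℤ) (n : ℕ) (h : ∀ i : ℕ, i ≤ n → ((x + i, y) : V) ∈ S) :
    Con S (x, y) (x + n, y) := by
  induction n with
  | zero => simpa using Con.refl S (x, y)
  | succ n ih =>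
    refine (ih fun i hi => h i (hi.trans (Nat.le_succ n))).trans (Con.one ?_ (h (n + 1) le_rfl))
    unfold Adj
    push_cast
    omega

theorem con_left {S : Set V} (x y : ℤ) (n : ℕ) (h : ∀ i : ℕ, i ≤ n → ((x - i, y) : V) ∈ S) :
    Con S (x, y) (x - n, y) := by
  induction n with
  | zero => simpa using Con.refl S (x, y)
  | succ n ih =>
    refine (ih fun i hi => h i (hi.trans (Nat.le_succ n))).trans (Con.one ?_ (h (n + 1) le_rfl))
    unfold Adj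
    push_cast
    omega

theorem con_up {S : Set V} (x y : ℤ) (n : ℕ) (h : ∀ i : ℕ, i ≤ n → ((x, y + i) : V) ∈ S) :
    Con S (x, y) (x, y + n) := by
  induction n with
  | zero => simpa using Con.refl S (x, y)
  | succ n ih =>
    refine (ih fun i hi => h i (hi.trans (Nat.le_succ n))).trans (Con.one ?_ (h (n + 1) le_rfl))
    unfold Adj
    push_cast
    omega

theorem con_down {S : Set V} (x y : ℤ) (n : ℕ) (h : ∀ i : ℕ, i ≤ n → ((x, y - i) : V) ∈ S) :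
    Con S (x, y) (x, y - n) := by
  induction n with
  | zero => simpa using Con.refl S (x, y)
  | succ n ih =>
    refine (ih fun i hi => h i (hi.trans (Nat.le_succ n))).trans (Con.one ?_ (h (n + 1) le_rfl))
    unfold Adj
    push_cast
    omega

/-- moving in a half plane `x > M` contained in `S` -/
theorem con_half {S : Set V} {M : ℤ} (hS : ∀ q : V, M < q.1 → q ∈ S) {p p' : V} (hp : M < p.1)
    (hp' : M < p'.1) : Con S p p' := by
  have h1 : Con S (p.1, p.2) (p.1, p'.2) := by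
    rcases le_total p.2 p'.2 with h | h
    · obtain ⟨n, hn⟩ := Int.eq_ofNat_of_zero_le (sub_nonneg.2 h)
      have := con_up (S := S) p.1 p.2 n fun i _ => hS _ hp
      rwa [show p.2 + (n : ℤ) = p'.2 by omega] at this
    · obtain ⟨n, hn⟩ := Int.eq_ofNat_of_zero_le (sub_nonneg.2 h)
      have := con_down (S := S) p.1 p.2 n fun i _ => hS _ hp
      rwa [show p.2 - (n : ℤ) = p'.2 by omega] at this
  have h2 : Con S (p.1, p'.2) (p'.1, p'.2) := by
    rcases le_total p.1 p'.1 with h | h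
    · obtain ⟨n, hn⟩ := Int.eq_ofNat_of_zero_le (sub_nonneg.2 h)
      have := con_right (S := S) p.1 p'.2 n fun i _ => hS _ (by show M < p.1 + i; omega)
      rwa [show p.1 + (n : ℤ) = p'.1 by omega] at this
    · obtain ⟨n, hn⟩ := Int.eq_ofNat_of_zero_le (sub_nonneg.2 h)
      have := con_left (S := S) p.1 p'.2 n fun i hi => hS _ (by show M < p.1 - i; omega)
      rwa [show p.1 - (n : ℤ) = p'.1 by omega] at this
  exact h1.trans h2

section outer

variable {F0 : Set V}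

theorem out_of_con {q q' : V} (hq : q ∈ Out F0) (h : Con F0ᶜ q q') : q' ∈ Out F0 := by
  refine ⟨Con.mem h hq.1, fun N => ?_⟩
  obtain ⟨p, hp, hc⟩ := hq.2 N
  exact ⟨p, hp, (Con.symm h hq.1).trans hc⟩

theorem out_lift {q q' : V} (hq : q ∈ Out F0) (h : Con F0ᶜ q q') : Con (Out F0) q q' := by
  induction h with
  | refl => exact Con.refl _ q
  | tail h1 h2 ih => exact ih.trans (Con.one h2.1 (out_of_con hq (h1.trans (Con.one h2.1 h2.2))))

theorem exists_box (hf : F0.Finite) : ∃ M : ℤ, ∀ q ∈ F0, |q.1| ≤ M ∧ |q.2| ≤ M := by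
  obtain ⟨M1, h1⟩ := (hf.image fun q : V => |q.1|).bddAbove
  obtain ⟨M2, h2⟩ := (hf.image fun q : V => |q.2|).bddAbove
  exact ⟨max M1 M2, fun q hq => ⟨(h1 (mem_image_of_mem _ hq)).trans (le_max_left _ _),
    (h2 (mem_image_of_mem _ hq)).trans (le_max_right _ _)⟩⟩

theorem out_con (hf : F0.Finite) : ∀ q ∈ Out F0, ∀ q' ∈ Out F0, Con (Out F0) q q' := by
  intro q hq q' hq'
  obtain ⟨M, hM⟩ := exists_box hf
  obtain ⟨p, hp, hc⟩ := hq.2 M
  obtain ⟨p', hp', hc'⟩ := hq'.2 M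
  have h1 : Con F0ᶜ p p' := con_half (S := F0ᶜ) (M := M) (fun x hx hx' => by
    have := (hM x hx').1
    have := le_abs_self x.1
    omega) hp hp'
  exact out_lift hq ((hc.trans h1).trans (Con.symm hc' hq'.1))

theorem out_far {M : ℤ} (hM : ∀ q ∈ F0, |q.1| ≤ M ∧ |q.2| ≤ M) {q : V} (hq : M < |q.1| ∨ M < |q.2|) :
    q ∈ Out F0 := by
  have hrow : ∀ y : ℤ, M < |y| → ∀ x : ℤ, ((x, y) : V) ∈ Out F0 := by
    intro y hy x
    have hS : ∀ x : ℤ, ((x, y) : V) ∈ F0ᶜ := fun x hx => absurd (hM _ hx).2 (not_le.2 hy)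
    refine ⟨hS x, fun N => ?_⟩
    refine ⟨(x + ((N - x).toNat + 1 : ℕ), y), ?_, con_right x y _ fun i _ => hS _⟩
    show N < x + ((N - x).toNat + 1 : ℕ)
    omega
  have hright : ∀ q : V, M < q.1 → q ∈ Out F0 := by
    intro q hq
    have hS : ∀ q : V, M < q.1 → q ∈ F0ᶜ := fun q hq hx => by
      have := (hM _ hx).1
      have := le_abs_self q.1
      omega
    refine ⟨hS q hq, fun N => ?_⟩
    exact ⟨(max N M + 1, q.2), by show N < max N M + 1; omega,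
      con_half hS hq (by show M < max N M + 1; omega)⟩
  rcases hq with h | h
  · rcases lt_abs.1 h with h1 | h1
    · exact hright q h1
    · have hS : ∀ y : ℤ, ((q.1, y) : V) ∈ F0ᶜ := fun y hy => absurd (hM _ hy).1 (not_le.2 h)
      -- go up
      have h2 : ((q.1, q.2 + ((M - q.2).toNat + (-M - q.2).toNat + 1 : ℕ)) : V) ∈ Out F0 := by
        apply hrow
        have : M < q.2 + ((M - q.2).toNat + (-M - q.2).toNat + 1 : ℕ) := by omega
        exact this.trans_le (le_abs_self _)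
      have h3 : Con F0ᶜ q (q.1, q.2 + ((M - q.2).toNat + (-M - q.2).toNat + 1 : ℕ)) :=
        con_up q.1 q.2 _ fun i _ => hS _
      exact out_of_con h2 (Con.symm h3 (hS q.2))
  · exact hrow q.2 h q.1

theorem out_compl_finite (hf : F0.Finite) : (Out F0)ᶜ.Finite := by
  obtain ⟨M, hM⟩ := exists_box hf
  refine Set.Finite.subset ((Set.finite_Icc (-M) M).prod (Set.finite_Icc (-M) M)) ?_
  intro q hq
  by_contra hcon
  apply hq
  apply out_far hM
  by_contra hno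
  push Not at hno
  apply hcon
  exact ⟨abs_le.1 hno.1, abs_le.1 hno.2⟩

theorem subset_out_compl : F0 ⊆ (Out F0)ᶜ := fun _ hq h => h.1 hq

/-- a non-outer cell adjacent to an outer cell is in `F0` -/
theorem mem_of_adj {a b : V} (h : Adj a b) (ha : a ∉ Out F0) (hb : b ∈ Out F0) : a ∈ F0 := by
  by_contra h0
  exact ha (out_of_con hb (Con.one h.symm h0))

theorem compl_con (hf : F0.Finite) (hc : ∀ q ∈ F0, ∀ q' ∈ F0, Con F0 q q') :
    ∀ q ∉ Out F0, ∀ q' ∉ Out F0, Con (Out F0)ᶜ q q' := by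
  classical
  obtain ⟨M, hM⟩ := exists_box hf
  have key : ∀ q ∉ Out F0, ∃ f ∈ F0, Con (Out F0)ᶜ q f := by
    intro q hq
    by_cases h0 : ∃ i : ℕ, ((q.1 - i, q.2) : V) ∈ F0
    · have h1 := Nat.find_spec h0
      set n := Nat.find h0 with hn
      have h2 : ∀ i < n, ((q.1 - i, q.2) : V) ∉ F0 := fun i hi => Nat.find_min h0 hi
      refine ⟨_, h1, con_left q.1 q.2 n fun i hi => ?_⟩
      rcases eq_or_lt_of_le hi with h3 | h3
      · subst h3
        exact subset_out_compl h1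
      · intro h4
        apply hq
        have h5 : Con F0ᶜ (q.1, q.2) (q.1 - i, q.2) :=
          con_left q.1 q.2 i fun j hj => h2 j (hj.trans_lt h3)
        have h6 : ((q.1, q.2) : V) ∈ F0ᶜ := by
          have := h2 0 (by omega)
          simpa using this
        exact out_of_con h4 (Con.symm h5 h6)
    · exfalso
      push Not at h0
      apply hq
      have h1 : ((q.1 - ((q.1 + M).toNat + 1 + (M).toNat : ℕ), q.2) : V) ∈ Out F0 := by
        apply out_far hM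
        left
        show M < |q.1 - (((q.1 + M).toNat + 1 + M.toNat : ℕ) : ℤ)|
        rw [lt_abs]
        right
        omega
      have h2 : Con F0ᶜ (q.1, q.2) (q.1 - ((q.1 + M).toNat + 1 + (M).toNat : ℕ), q.2) :=
        con_left q.1 q.2 _ fun j _ => h0 j
      have h3 : ((q.1, q.2) : V) ∈ F0ᶜ := by
        have := h0 0
        simpa using this
      exact out_of_con h1 (Con.symm h2 h3)
  intro q hq q' hq'
  obtain ⟨f, hf1, hf2⟩ := key q hq
  obtain ⟨f', hf1', hf2'⟩ := key q' hq'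
  exact (hf2.trans ((hc f hf1 f' hf1').mono subset_out_compl)).trans (Con.symm hf2' hq')

end outer

end Crest.Agent.R158.Sp896
end

-- ▼ part R158/Sp4_896

/-! R158 (helper896) BLOCK SP, file 4: edges of cells as segments, compact paths in the exterior of the
Jordan curve, and the cells they meet. -/

set_option autoImplicit false

open Set Topology Filter Metric
open Crest Crest.ProbabilityR Crest.ProbabilityR.Percolation
open Crest.Agent.R158.Jt785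

namespace Crest.Agent.R158.Sp896

/-- the mesh point of a vertex -/
def pt (s : ℝ) (a : V) : ℂ := ⟨s * a.1, s * a.2⟩

/-- closed edge -/
def ed (s : ℝ) (a b : V) : Set ℂ := segment ℝ (pt s a) (pt s b)

theorem pt_mem {s : ℝ} (hs : 0 < s) {a b : V} (h : Adj a b) :
    pt s a ∈ sq s (lc a b) ∧ pt s b ∈ sq s (lc a b) ∧ pt s a ∈ sq s (rc a b) ∧ pt s b ∈ sq s (rc a b) := by
  have hb : b = (b.1, b.2) := rfl
  rcases h with ⟨h1, h2⟩ | ⟨h1, h2⟩ | ⟨h1, h2⟩ | ⟨h1, h2⟩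
  · have e1 : lc a b = (a.1, a.2) := by unfold lc; ext <;> simp only <;> omega
    have e2 : rc a b = (a.1, a.2 - 1) := by unfold rc; ext <;> simp only <;> omega
    rw [e1, e2, hb, h1, h2]
    refine ⟨⟨?_, ?_, ?_, ?_⟩, ⟨?_, ?_, ?_, ?_⟩, ⟨?_, ?_, ?_, ?_⟩, ⟨?_, ?_, ?_, ?_⟩⟩ <;>
      · simp only [pt]; push_cast; nlinarith
  · have e1 : lc a b = (a.1 - 1, a.2 - 1) := by unfold lc; ext <;> simp only <;> omega
    have e2 : rc a b = (a.1 - 1, a.2) := by unfold rc; ext <;> simp only <;> omega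
    rw [e1, e2, hb, h1, h2]
    refine ⟨⟨?_, ?_, ?_, ?_⟩, ⟨?_, ?_, ?_, ?_⟩, ⟨?_, ?_, ?_, ?_⟩, ⟨?_, ?_, ?_, ?_⟩⟩ <;>
      · simp only [pt]; push_cast; nlinarith
  · have e1 : lc a b = (a.1 - 1, a.2) := by unfold lc; ext <;> simp only <;> omega
    have e2 : rc a b = (a.1, a.2) := by unfold rc; ext <;> simp only <;> omega
    rw [e1, e2, hb, h1, h2]
    refine ⟨⟨?_, ?_, ?_, ?_⟩, ⟨?_, ?_, ?_, ?_⟩, ⟨?_, ?_, ?_, ?_⟩, ⟨?_, ?_, ?_, ?_⟩⟩ <;>
      · simp only [pt]; push_cast; nlinarith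
  · have e1 : lc a b = (a.1, a.2 - 1) := by unfold lc; ext <;> simp only <;> omega
    have e2 : rc a b = (a.1 - 1, a.2 - 1) := by unfold rc; ext <;> simp only <;> omega
    rw [e1, e2, hb, h1, h2]
    refine ⟨⟨?_, ?_, ?_, ?_⟩, ⟨?_, ?_, ?_, ?_⟩, ⟨?_, ?_, ?_, ?_⟩, ⟨?_, ?_, ?_, ?_⟩⟩ <;>
      · simp only [pt]; push_cast; nlinarith

theorem ed_sub_lc {s : ℝ} (hs : 0 < s) {a b : V} (h : Adj a b) : ed s a b ⊆ sq s (lc a b) :=
  (convex_sq s _).segment_subset (pt_mem hs h).1 (pt_mem hs h).2.1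

theorem ed_sub_rc {s : ℝ} (hs : 0 < s) {a b : V} (h : Adj a b) : ed s a b ⊆ sq s (rc a b) :=
  (convex_sq s _).segment_subset (pt_mem hs h).2.2.1 (pt_mem hs h).2.2.2

theorem adj_common {s : ℝ} (hs : 0 < s) {q q' : V} (h : Adj q q') : ∃ p, p ∈ sq s q ∧ p ∈ sq s q' := by
  obtain ⟨a, b, hab, rfl, rfl⟩ := exists_dart h
  exact ⟨pt s a, (pt_mem hs hab).1, (pt_mem hs hab).2.2.1⟩

theorem adj_dist {s : ℝ} (hs : 0 < s) {q q' : V} (h : Adj q q') {z w : ℂ} (hz : z ∈ sq s q)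
    (hw : w ∈ sq s q') : ‖z - w‖ ≤ 4 * s := by
  obtain ⟨p, hp, hp'⟩ := adj_common hs h
  have h1 := sq_dist hz hp
  have h2 := sq_dist hp' hw
  have h3 : z - w = (z - p) + (p - w) := by ring
  rw [h3]
  exact (norm_add_le _ _).trans (by linarith)

theorem sq_nonempty {s : ℝ} (hs : 0 < s) (q : V) : (sq s q).Nonempty :=
  ⟨pt s q, by simp only [pt]; constructor; exact le_rfl; refine ⟨?_, le_rfl, ?_⟩ <;> nlinarith⟩

/-! ### interior of a union of cells -/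

theorem mem_interior_cells {s : ℝ} (hs : 0 < s) {F : Set V} {z : ℂ}
    (h : ∀ q : V, z ∈ sq s q → q ∈ F) : z ∈ interior (⋃ q ∈ F, sq s q) := by
  have hfin := cells_finite hs (isBounded_ball : Bornology.IsBounded (ball z 1))
  set Y : Set V := {q | q ∈ cells s (ball z 1) ∧ z ∉ sq s q} with hY
  have hYf : Y.Finite := hfin.subset fun q hq => hq.1
  have hC : IsClosed (⋃ q ∈ Y, sq s q) := hYf.isClosed_biUnion fun q _ => isClosed_sq s q
  rw [mem_interior]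
  refine ⟨ball z 1 ∩ (⋃ q ∈ Y, sq s q)ᶜ, ?_, isOpen_ball.inter hC.isOpen_compl,
    mem_ball_self one_pos, ?_⟩
  · rintro w ⟨hw1, hw2⟩
    refine mem_biUnion (x := cellOf s w) (h _ ?_) (mem_cellOf hs w)
    by_contra hcon
    apply hw2
    exact mem_biUnion (x := cellOf s w) ⟨cellOf_mem hs hw1, hcon⟩ (mem_cellOf hs w)
  · intro hz
    rw [mem_iUnion₂] at hz
    obtain ⟨q, hq, hzq⟩ := hz
    exact hq.2 hzq

/-! ### distance constants -/

theorem pos_dist {K S : Set ℂ} (hK : IsCompact K) (hS : IsClosed S) (hd : Disjoint K S) :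
    ∃ δ : ℝ, 0 < δ ∧ ∀ x ∈ K, ∀ y ∈ S, δ ≤ ‖x - y‖ := by
  obtain ⟨δ, hδ, hth⟩ := hK.exists_thickening_subset_open hS.isOpen_compl
    (fun x hx hxS => disjoint_left.1 hd hx hxS)
  refine ⟨δ, hδ, fun x hx y hy => ?_⟩
  by_contra hcon
  push Not at hcon
  have : y ∈ thickening δ K := by
    rw [mem_thickening_iff]
    exact ⟨x, hx, by rw [dist_eq_norm, norm_sub_rev]; exact hcon⟩
  exact hth this hy

section ext

variable {γ : ℝ → ℂ} {φ : ℂ → ℂ}

theorem exists_R (h : Unif γ φ) : ∃ R : ℝ, 0 ≤ R ∧ (∀ z ∈ closure (jordanInterior γ), ‖z‖ ≤ R) ∧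
    ∀ z : ℂ, R < ‖z‖ → z ∈ ext γ := by
  obtain ⟨R, hR⟩ := (h.isCompact).isBounded.exists_norm_le
  refine ⟨max R 0, le_max_right _ _, fun z hz => (hR z hz).trans (le_max_left _ _), fun z hz => ?_⟩
  rcases cover h.jc z with h1 | h1 | h1
  · exact absurd (hR z (h.tr_subset h1)) (not_le.2 ((le_max_left _ _).trans_lt hz))
  · exact absurd (hR z (subset_closure h1)) (not_le.2 ((le_max_left _ _).trans_lt hz))
  · exact h1

theorem ext_disj (h : Unif γ φ) : Disjoint (ext γ) (closure (jordanInterior γ)) := by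
  refine disjoint_left.2 fun z h1 h2 => ?_
  rcases closure_ji_subset h.jc h2 with h3 | h3
  · exact disjoint_left.1 (disj_ji_ext h.jc) h3 h1
  · exact disjoint_left.1 (disj_ext_tr γ) h1 h3

theorem ext_or (h : Unif γ φ) (z : ℂ) : z ∈ ext γ ∨ z ∈ closure (jordanInterior γ) := by
  rcases cover h.jc z with h1 | h1 | h1
  · exact Or.inr (h.tr_subset h1)
  · exact Or.inr (subset_closure h1)
  · exact Or.inl h1

/-- compact connected sets joining exterior points -/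
theorem ext_path (h : Unif γ φ) {z w : ℂ} (hz : z ∈ ext γ) (hw : w ∈ ext γ) :
    ∃ K : Set ℂ, IsCompact K ∧ IsPreconnected K ∧ z ∈ K ∧ w ∈ K ∧ K ⊆ ext γ := by
  have hc : IsConnected (ext γ) := ⟨⟨z, hz⟩, isPreconnected_ext h.jc⟩
  have hp := (isOpen_ext h.jc).isConnected_iff_isPathConnected.1 hc
  obtain ⟨f, hf⟩ := hp.joinedIn z hz w hw
  refine ⟨range f, isCompact_range f.continuous, isPreconnected_range f.continuous,
    ⟨0, f.source⟩, ⟨1, f.target⟩, ?_⟩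
  rintro x ⟨t, rfl⟩
  exact hf t

theorem near_ext (h : Unif γ φ) {t : ℝ} (ht : t ∈ Icc (0:ℝ) 1) {δ : ℝ} (hδ : 0 < δ) :
    ∃ p ∈ ext γ, ‖p - γ t‖ < δ := by
  have h1 : γ t ∈ frontier (ext γ) := by
    rw [frontier_ext h.jc h.ne]
    exact mem_image_of_mem _ ht
  obtain ⟨p, hp, hd⟩ := Metric.mem_closure_iff.1 (frontier_subset_closure h1) δ hδ
  exact ⟨p, hp, by rw [← dist_eq_norm, dist_comm]; exact hd⟩

end ext

/-- cells meeting a connected set that reaches the far point and stays away from `Sg` are outer -/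
theorem far_out {s R : ℝ} (hs : 0 < s) (hs1 : s ≤ 1) {Sg : Set ℂ} (hR : ∀ z ∈ Sg, ‖z‖ ≤ R)
    {K : Set ℂ} (hK : IsPreconnected K) (hKb : Bornology.IsBounded K)
    (hd : ∀ x ∈ K, ∀ y ∈ Sg, 2 * s < ‖x - y‖) (hz : ((R + 3 : ℝ) : ℂ) ∈ K) :
    ∀ q ∈ cells s K, q ∈ Out (cells s Sg) := by
  have h1 : cells s K ⊆ (cells s Sg)ᶜ := by
    rintro q ⟨x, hx, hxK⟩ ⟨y, hy, hyS⟩
    exact absurd (sq_dist hx hy) (not_le.2 (hd x hxK y hyS))
  have hM : ∀ q ∈ cells s Sg, |q.1| ≤ ⌊R / s + 1⌋ ∧ |q.2| ≤ ⌊R / s + 1⌋ := by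
    intro q hq
    obtain ⟨h2, h3⟩ := cells_box hs hR hq
    constructor
    · apply Int.le_floor.2
      push_cast
      exact h2
    · apply Int.le_floor.2
      push_cast
      exact h3
  have h4 : cellOf s ((R + 3 : ℝ) : ℂ) ∈ Out (cells s Sg) := by
    apply out_far hM
    left
    refine lt_of_lt_of_le ?_ (le_abs_self _)
    show ⌊R / s + 1⌋ < ⌊((R + 3 : ℝ) : ℂ).re / s⌋
    rw [Complex.ofReal_re, Int.floor_lt]
    have h5 := Int.lt_floor_add_one ((R + 3) / s)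
    have h6 : (3 : ℝ) ≤ 3 / s := by rw [le_div_iff₀ hs]; linarith
    have h7 : (R + 3) / s = R / s + 3 / s := by rw [add_div]
    linarith
  intro q hq
  have h8 := cells_con hs hK hKb (cellOf s ((R + 3 : ℝ) : ℂ)) (cellOf_mem hs hz) q hq
  exact out_of_con h4 (h8.mono h1)

/-- a cell containing a point of large norm is outer -/
theorem norm_out {s R : ℝ} (hs : 0 < s) (hs1 : s ≤ 1) {Sg : Set ℂ} (hR : ∀ z ∈ Sg, ‖z‖ ≤ R)
    {q : V} {z : ℂ} (hz : z ∈ sq s q) (hn : 2 * R + 6 < ‖z‖) : q ∈ Out (cells s Sg) := by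
  have hM : ∀ q ∈ cells s Sg, |q.1| ≤ ⌊R / s + 1⌋ ∧ |q.2| ≤ ⌊R / s + 1⌋ := by
    intro q hq
    obtain ⟨h2, h3⟩ := cells_box hs hR hq
    constructor
    · apply Int.le_floor.2
      push_cast
      exact h2
    · apply Int.le_floor.2
      push_cast
      exact h3
  apply out_far hM
  obtain ⟨h1, h2, h3, h4⟩ := hz
  have h5 := Complex.norm_le_abs_re_add_abs_im z
  have h6 : R + 3 < |z.re| ∨ R + 3 < |z.im| := by
    by_contra hcon
    push Not at hcon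
    linarith [hcon.1, hcon.2]
  have key : ∀ (x : ℝ) (a : ℤ), s * a ≤ x → x ≤ s * (a + 1) → R + 3 < |x| → ⌊R / s + 1⌋ < |a| := by
    intro x a k1 k2 k3
    rw [Int.floor_lt]
    push_cast
    have k4 : R / s + 1 = (R + s) / s := by field_simp
    rw [k4, div_lt_iff₀ hs]
    rcases lt_abs.1 k3 with k5 | k5
    · have : (a : ℝ) ≤ |(a : ℝ)| := le_abs_self _
      nlinarith
    · have : -(a : ℝ) ≤ |(a : ℝ)| := neg_le_abs _
      nlinarith
  rcases h6 with h6 | h6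
  · exact Or.inl (key z.re q.1 h1 h2 h6)
  · exact Or.inr (key z.im q.2 h3 h4 h6)

end Crest.Agent.R158.Sp896
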