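import Crest.Agent.R158.Sp3_896
import Crest.Agent.R158.Sp4_896
import Crest.Agent.R158.SpD_331

-- ▼ part R158/Sp5_896
section

/-! R158 (helper896) BLOCK SP, file 5: the star-shaped set `Sig`, the boundary edges of its outer
polygon, the separation property. -/

set_option autoImplicit false

open Set Topology Filter Metric
open Crest Crest.ProbabilityR Crest.ProbabilityR.Percolation
open Crest.Agent.R158.Jt785

namespace Crest.Agent.R158.Sp896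

/-- parameters where the star reaches the boundary -/
def TT (κ t : ℝ) : Prop := (1 / 4 + κ ≤ t ∧ t ≤ 1 / 2 - κ) ∨ (3 / 4 + κ ≤ t ∧ t ≤ 1 - κ)

/-- condition on the polar coordinates -/
def SC (κ r t : ℝ) : Prop := r ≤ 1 - κ ∨ TT κ t

/-- the star-shaped compact set -/
def Sig (Ψ : ℝ → ℝ → ℂ) (κ : ℝ) : Set ℂ :=
  {z | ∃ r ∈ Icc (0:ℝ) 1, ∃ t ∈ Icc (0:ℝ) 1, SC κ r t ∧ Ψ r t = z}

/-- radial segment -/
def rad (Ψ : ℝ → ℝ → ℂ) (r1 r2 t : ℝ) : Set ℂ := (fun r => Ψ r t) '' Icc r1 r2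

/-- circular arc -/
def circ (Ψ : ℝ → ℝ → ℂ) (r a b : ℝ) : Set ℂ := (fun t => Ψ r t) '' uIcc a b

section basic

variable {γ : ℝ → ℂ} {Ψ : ℝ → ℝ → ℂ} {D : Set ℂ}

theorem isClosed_TT (κ : ℝ) : IsClosed {t : ℝ | TT κ t} :=
  (isClosed_Icc (a := 1 / 4 + κ) (b := 1 / 2 - κ)).union (isClosed_Icc (a := 3 / 4 + κ) (b := 1 - κ))

theorem sig_compact (P : Pol γ Ψ D) (κ : ℝ) : IsCompact (Sig Ψ κ) := by
  have h1 : IsCompact ((Icc (0:ℝ) 1 ×ˢ Icc (0:ℝ) 1) ∩ {p : ℝ × ℝ | p.1 ≤ 1 - κ ∨ TT κ p.2}) := by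
    refine (isCompact_Icc.prod isCompact_Icc).inter_right ?_
    exact (isClosed_le continuous_fst continuous_const).union ((isClosed_TT κ).preimage continuous_snd)
  have h2 : Sig Ψ κ = (fun p : ℝ × ℝ => Ψ p.1 p.2) ''
      ((Icc (0:ℝ) 1 ×ˢ Icc (0:ℝ) 1) ∩ {p : ℝ × ℝ | p.1 ≤ 1 - κ ∨ TT κ p.2}) := by
    ext z
    constructor
    · rintro ⟨r, hr, t, ht, hc, rfl⟩
      exact ⟨(r, t), ⟨⟨hr, ht⟩, hc⟩, rfl⟩
    · rintro ⟨p, ⟨⟨hr, ht⟩, hc⟩, rfl⟩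
      exact ⟨p.1, hr, p.2, ht, hc, rfl⟩
  rw [h2]
  exact h1.image_of_continuousOn (P.cont.mono fun p hp => ⟨hp.1.1, mem_univ _⟩)

theorem sig_sub (P : Pol γ Ψ D) (κ : ℝ) : Sig Ψ κ ⊆ closure D := by
  rintro z ⟨r, hr, t, -, -, rfl⟩
  exact P.mem r hr t

theorem rad_cont (P : Pol γ Ψ D) {r1 r2 : ℝ} (h1 : 0 ≤ r1) (h2 : r2 ≤ 1) (t : ℝ) :
    ContinuousOn (fun r => Ψ r t) (Icc r1 r2) := by
  have h : ContinuousOn (fun r : ℝ => (r, t)) (Icc r1 r2) := by fun_prop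
  exact P.cont.comp h fun r hr => ⟨⟨h1.trans hr.1, hr.2.trans h2⟩, mem_univ _⟩

theorem circ_cont (P : Pol γ Ψ D) {r : ℝ} (hr : r ∈ Icc (0:ℝ) 1) (S : Set ℝ) :
    ContinuousOn (fun t => Ψ r t) S := by
  have h : ContinuousOn (fun t : ℝ => (r, t)) S := by fun_prop
  exact P.cont.comp h fun _ _ => ⟨hr, mem_univ _⟩

theorem rad_preconn (P : Pol γ Ψ D) {r1 r2 : ℝ} (h1 : 0 ≤ r1) (h2 : r2 ≤ 1) (t : ℝ) :
    IsPreconnected (rad Ψ r1 r2 t) :=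
  isPreconnected_Icc.image _ (rad_cont P h1 h2 t)

theorem rad_compact (P : Pol γ Ψ D) {r1 r2 : ℝ} (h1 : 0 ≤ r1) (h2 : r2 ≤ 1) (t : ℝ) :
    IsCompact (rad Ψ r1 r2 t) :=
  isCompact_Icc.image_of_continuousOn (rad_cont P h1 h2 t)

theorem circ_preconn (P : Pol γ Ψ D) {r : ℝ} (hr : r ∈ Icc (0:ℝ) 1) (a b : ℝ) :
    IsPreconnected (circ Ψ r a b) :=
  isPreconnected_uIcc.image _ (circ_cont P hr _)

theorem circ_compact (P : Pol γ Ψ D) {r : ℝ} (hr : r ∈ Icc (0:ℝ) 1) (a b : ℝ) :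
    IsCompact (circ Ψ r a b) :=
  isCompact_uIcc.image_of_continuousOn (circ_cont P hr _)

theorem rad_sub_sig {κ r1 r2 t : ℝ} (h1 : 0 ≤ r1) (h2 : r2 ≤ 1) (ht : t ∈ Icc (0:ℝ) 1)
    (hc : SC κ r2 t) : rad Ψ r1 r2 t ⊆ Sig Ψ κ := by
  rintro z ⟨r, hr, rfl⟩
  refine ⟨r, ⟨h1.trans hr.1, hr.2.trans h2⟩, t, ht, ?_, rfl⟩
  rcases hc with h | h
  · exact Or.inl (hr.2.trans h)
  · exact Or.inr h

theorem sig_preconn (P : Pol γ Ψ D) {κ : ℝ} : IsPreconnected (Sig Ψ κ) := by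
  refine isPreconnected_of_forall (Ψ 0 0) fun z hz => ?_
  obtain ⟨r, hr, t, ht, hc, rfl⟩ := hz
  refine ⟨rad Ψ 0 r t, rad_sub_sig le_rfl hr.2 ht hc, ⟨0, ⟨le_rfl, hr.1⟩, P.zero t⟩,
    ⟨r, ⟨hr.1, le_rfl⟩, rfl⟩, rad_preconn P le_rfl hr.2 t⟩

theorem sig_nonempty {κ : ℝ} (hκ : κ ≤ 1) : (Sig Ψ κ).Nonempty :=
  ⟨Ψ 0 0, 0, ⟨le_rfl, zero_le_one⟩, 0, ⟨le_rfl, zero_le_one⟩, Or.inl (by linarith), rfl⟩

/-- reduction of the angle modulo 1 -/
theorem per_fract (P : Pol γ Ψ D) (r t : ℝ) : Ψ r (Int.fract t) = Ψ r t := by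
  have h1 := P.per_int r (Int.fract t) ⌊t⌋
  rw [Int.fract_add_floor] at h1
  exact h1.symm

end basic

/-- everything about one polygon at fixed scale -/
structure Stg (γ : ℝ → ℂ) (Ψ : ℝ → ℝ → ℂ) (D : Set ℂ) (κ η δ s : ℝ) (L : ℕ) (v : ℕ → V) : Prop where
  P : Pol γ Ψ D
  κ0 : 0 < κ
  κ1 : κ ≤ 1 / 200
  η0 : 0 < η
  ηκ : η ≤ κ
  s0 : 0 < s
  s1 : s ≤ 1
  sδ : 4 * s < δ
  inv : ∀ r ∈ Icc (0:ℝ) 1, ∀ r' ∈ Icc (0:ℝ) 1, ∀ t ∈ Icc (0:ℝ) 1, ∀ t' ∈ Icc (0:ℝ) 1,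
    ‖Ψ r t - Ψ r' t'‖ < δ → |r - r'| < η ∧ (r < η ∨ Pol.near η t t')
  deep1 : ∀ r ∈ Icc (0:ℝ) (1 - 2 * κ), ∀ t ∈ Icc (0:ℝ) 1, ∀ z : ℂ, ‖z - Ψ r t‖ < δ → z ∈ Sig Ψ κ
  deep2 : ∀ r ∈ Icc (0:ℝ) (1 - κ), ∀ t ∈ Icc (0:ℝ) 1, ∀ z : ℂ, ‖z - Ψ r t‖ < δ → z ∈ closure D
  cyc : Cyc (Out (cells s (Sig Ψ κ)))ᶜ L v

namespace Stg

variable {γ : ℝ → ℂ} {Ψ : ℝ → ℝ → ℂ} {D : Set ℂ} {κ η δ s : ℝ} {L : ℕ} {v : ℕ → V}

/-- left cell of the `m`-th boundary edge -/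
def lf (v : ℕ → V) (m : ℕ) : V := lc (v m) (v (m + 1))

/-- right cell -/
def rt (v : ℕ → V) (m : ℕ) : V := rc (v m) (v (m + 1))

theorem fin0 (S : Stg γ Ψ D κ η δ s L v) : (cells s (Sig Ψ κ)).Finite :=
  cells_finite S.s0 (sig_compact S.P κ).isBounded


theorem rt_out (S : Stg γ Ψ D κ η δ s L v) (m : ℕ) : rt v m ∈ Out (cells s (Sig Ψ κ)) := by
  have := S.cyc.right m
  rwa [notMem_compl_iff] at this

theorem lf_mem (S : Stg γ Ψ D κ η δ s L v) (m : ℕ) : lf v m ∈ cells s (Sig Ψ κ) :=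
  mem_of_adj (adj_lc_rc (S.cyc.step m)) (S.cyc.left m) (S.rt_out m)

theorem rt_notMem (S : Stg γ Ψ D κ η δ s L v) (m : ℕ) : rt v m ∉ cells s (Sig Ψ κ) := (S.rt_out m).1

/-- polar coordinates of a point of `Sig` in the left cell -/
theorem exists_rt (S : Stg γ Ψ D κ η δ s L v) (m : ℕ) : ∃ r t : ℝ, r ∈ Icc (0:ℝ) 1 ∧ t ∈ Icc (0:ℝ) 1 ∧
    SC κ r t ∧ Ψ r t ∈ sq s (lf v m) ∧ 1 - 2 * κ < r := by
  obtain ⟨z, hz, r, hr, t, ht, hc, rfl⟩ := S.lf_mem m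
  refine ⟨r, t, hr, ht, hc, hz, ?_⟩
  by_contra hcon
  push Not at hcon
  obtain ⟨y, hy⟩ := sq_nonempty S.s0 (rt v m)
  have h1 := adj_dist S.s0 (adj_lc_rc (S.cyc.step m)) hz hy
  apply S.rt_notMem m
  refine ⟨y, hy, S.deep1 r ⟨hr.1, hcon⟩ t ht y ?_⟩
  rw [norm_sub_rev]
  exact h1.trans_lt S.sδ

/-- an edge whose right cell misses `closure D` has its parameter in `TT` -/
theorem tt_of_out (S : Stg γ Ψ D κ η δ s L v) {m : ℕ} {r t : ℝ} (hr : r ∈ Icc (0:ℝ) 1)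
    (ht : t ∈ Icc (0:ℝ) 1) (hc : SC κ r t) (hz : Ψ r t ∈ sq s (lf v m))
    (hO : Disjoint (sq s (rt v m)) (closure D)) : TT κ t := by
  rcases hc with h | h
  · exfalso
    obtain ⟨y, hy⟩ := sq_nonempty S.s0 (rt v m)
    have h1 := adj_dist S.s0 (adj_lc_rc (S.cyc.step m)) hz hy
    refine disjoint_left.1 hO hy (S.deep2 r ⟨hr.1, h⟩ t ht y ?_)
    rw [norm_sub_rev]
    exact h1.trans_lt S.sδ
  · exact h

/-- an edge whose right cell meets `closure D` has its parameter near the two other arcs -/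
theorem tt_of_not_out (S : Stg γ Ψ D κ η δ s L v) {m : ℕ} {r t : ℝ} (hr : r ∈ Icc (0:ℝ) 1)
    (ht : t ∈ Icc (0:ℝ) 1) (hz : Ψ r t ∈ sq s (lf v m)) (hr2 : 1 - 2 * κ < r)
    (hO : ¬ Disjoint (sq s (rt v m)) (closure D)) :
    t ≤ 1 / 4 + 2 * κ ∨ (1 / 2 - 2 * κ ≤ t ∧ t ≤ 3 / 4 + 2 * κ) ∨ 1 - 2 * κ ≤ t := by
  rw [not_disjoint_iff] at hO
  obtain ⟨y, hy, hyD⟩ := hO
  obtain ⟨r', hr', t', ht', rfl⟩ := S.P.surj y hyD
  have h1 := adj_dist S.s0 (adj_lc_rc (S.cyc.step m)) hz hy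
  obtain ⟨h2, h3⟩ := S.inv r hr r' hr' t ht t' ht' (h1.trans_lt S.sδ)
  have h4 : ¬ SC κ r' t' := fun hc => S.rt_notMem m ⟨_, hy, r', hr', t', ht', hc, rfl⟩
  have h5 : ¬ TT κ t' := fun hc => h4 (Or.inr hc)
  have hη := S.ηκ
  have hκ1 := S.κ1
  have hκ0 := S.κ0
  have h6 : Pol.near η t t' := by
    rcases h3 with h3 | h3
    · exfalso; linarith
    · exact h3
  unfold TT at h5
  push Not at h5
  rcases h6 with h6 | h6 | h6
  · rw [abs_lt] at h6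
    rcases lt_or_ge t' (1 / 4 + κ) with h7 | h7
    · left; linarith
    · have h8 := h5.1 h7
      rcases lt_or_ge t' (3 / 4 + κ) with h9 | h9
      · right; left; constructor <;> linarith
      · have h10 := h5.2 h9
        right; right; linarith
  · rw [abs_lt] at h6
    right; right; linarith [ht'.1]
  · rw [abs_lt] at h6
    left; linarith [ht'.2]

/-- choice of the polar coordinates -/
noncomputable def rr (S : Stg γ Ψ D κ η δ s L v) (m : ℕ) : ℝ := (S.exists_rt m).choose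

/-- choice of the parameter of an edge -/
noncomputable def tp (S : Stg γ Ψ D κ η δ s L v) (m : ℕ) : ℝ := (S.exists_rt m).choose_spec.choose

theorem rr_tp (S : Stg γ Ψ D κ η δ s L v) (m : ℕ) : S.rr m ∈ Icc (0:ℝ) 1 ∧ S.tp m ∈ Icc (0:ℝ) 1 ∧
    SC κ (S.rr m) (S.tp m) ∧ Ψ (S.rr m) (S.tp m) ∈ sq s (lf v m) ∧ 1 - 2 * κ < S.rr m :=
  (S.exists_rt m).choose_spec.choose_spec

/-- a point at a parameter avoiding `p` is not close to the radius at `p` -/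
theorem not_close (S : Stg γ Ψ D κ η δ s L v) {r r' θ p : ℝ} (hr : r ∈ Icc (1/2:ℝ) 1)
    (hr' : r' ∈ Icc (0:ℝ) 1) (hp : p ∈ Icc (0:ℝ) 1) (ha : Avd η p θ) : 2 * s < ‖Ψ r θ - Ψ r' p‖ := by
  by_contra hcon
  push Not at hcon
  have hη := S.ηκ
  have hκ1 := S.κ1
  have hs0 := S.s0
  have hsδ := S.sδ
  have hf : Int.fract θ ∈ Icc (0:ℝ) 1 := ⟨Int.fract_nonneg θ, (Int.fract_lt_one θ).le⟩
  rw [← per_fract S.P r θ] at hcon
  obtain ⟨-, h3⟩ := S.inv r ⟨by linarith [hr.1], hr.2⟩ r' hr' (Int.fract θ) hf p hp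
    (by linarith)
  rcases h3 with h3 | h3 | h3 | h3
  · linarith [hr.1]
  · have h4 := ha ⌊θ⌋
    have h5 : θ - p - ⌊θ⌋ = Int.fract θ - p := by rw [Int.fract]; ring
    rw [h5] at h4
    linarith
  · have h4 := ha (⌊θ⌋ + 1)
    have h5 : θ - p - ((⌊θ⌋ + 1 : ℤ) : ℝ) = Int.fract θ - p - 1 := by rw [Int.fract]; push_cast; ring
    rw [h5] at h4
    linarith
  · have h4 := ha (⌊θ⌋ - 1)
    have h5 : θ - p - ((⌊θ⌋ - 1 : ℤ) : ℝ) = Int.fract θ - p + 1 := by rw [Int.fract]; push_cast; ring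
    rw [h5] at h4
    linarith

/-- the separation property of the parameters of the boundary edges -/
theorem sprop (S : Stg γ Ψ D κ η δ s L v) : SProp η L S.tp := by
  intro i j k k' hij hj hk hk' n hx
  have hη := S.ηκ
  have hκ1 := S.κ1
  have hκ0 := S.κ0
  obtain ⟨ri, ti, ci, zi, -⟩ := S.rr_tp i
  obtain ⟨rj, tj, cj, zj, -⟩ := S.rr_tp j
  obtain ⟨rk, tk, ck, zk, lk⟩ := S.rr_tp k
  obtain ⟨rk', tk', ck', zk', lk'⟩ := S.rr_tp k'
  set Ki : Set ℂ := rad Ψ 0 (S.rr i) (S.tp i) with hKi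
  set Kj : Set ℂ := rad Ψ 0 (S.rr j) (S.tp j) with hKj
  have hKi0 : Ψ 0 0 ∈ Ki := ⟨0, ⟨le_rfl, ri.1⟩, S.P.zero _⟩
  have hKj0 : Ψ 0 0 ∈ Kj := ⟨0, ⟨le_rfl, rj.1⟩, S.P.zero _⟩
  have hlam1 : IsPreconnected (Ki ∪ Kj) :=
    (rad_preconn S.P le_rfl ri.2 _).union _ hKi0 hKj0 (rad_preconn S.P le_rfl rj.2 _)
  have hlam2 : Bornology.IsBounded (Ki ∪ Kj) :=
    ((rad_compact S.P le_rfl ri.2 _).union (rad_compact S.P le_rfl rj.2 _)).isBounded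
  have hlam3 : Ki ∪ Kj ⊆ Sig Ψ κ :=
    union_subset (rad_sub_sig le_rfl ri.2 ti ci) (rad_sub_sig le_rfl rj.2 tj cj)
  have hF0 : cells s (Sig Ψ κ) ⊆ (Out (cells s (Sig Ψ κ)))ᶜ := subset_out_compl
  -- the connecting set
  set K : Set ℂ := rad Ψ (1/2) (S.rr k) (S.tp k) ∪ circ Ψ (1/2) (S.tp k) (S.tp k' + n) ∪
    rad Ψ (1/2) (S.rr k') (S.tp k') with hK
  have hhalf : (1/2:ℝ) ∈ Icc (0:ℝ) 1 := by constructor <;> norm_num
  have m1 : Ψ (1/2) (S.tp k) ∈ rad Ψ (1/2) (S.rr k) (S.tp k) := ⟨1/2, ⟨le_rfl, by linarith⟩, rfl⟩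
  have m2 : Ψ (1/2) (S.tp k) ∈ circ Ψ (1/2) (S.tp k) (S.tp k' + n) := ⟨S.tp k, left_mem_uIcc, rfl⟩
  have m3 : Ψ (1/2) (S.tp k') ∈ circ Ψ (1/2) (S.tp k) (S.tp k' + n) :=
    ⟨S.tp k' + n, right_mem_uIcc, S.P.per_int _ _ _⟩
  have m4 : Ψ (1/2) (S.tp k') ∈ rad Ψ (1/2) (S.rr k') (S.tp k') := ⟨1/2, ⟨le_rfl, by linarith⟩, rfl⟩
  have hK1 : IsPreconnected K :=
    (((rad_preconn S.P hhalf.1 rk.2 _).union _ m1 m2 (circ_preconn S.P hhalf _ _)).union _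
      (Or.inr m3) m4 (rad_preconn S.P hhalf.1 rk'.2 _))
  have hK2 : Bornology.IsBounded K :=
    (((rad_compact S.P hhalf.1 rk.2 _).union (circ_compact S.P hhalf _ _)).union
      (rad_compact S.P hhalf.1 rk'.2 _)).isBounded
  have hK3 : ∀ z ∈ K, ∃ r ∈ Icc (1/2:ℝ) 1, ∃ θ ∈ uIcc (S.tp k) (S.tp k' + n), Ψ r θ = z := by
    rintro z ((⟨r, hr, rfl⟩ | ⟨θ, hθ, rfl⟩) | ⟨r, hr, rfl⟩)
    · exact ⟨r, ⟨hr.1, hr.2.trans rk.2⟩, S.tp k, left_mem_uIcc, rfl⟩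
    · exact ⟨1/2, ⟨le_rfl, by norm_num⟩, θ, hθ, rfl⟩
    · exact ⟨r, ⟨hr.1, hr.2.trans rk'.2⟩, S.tp k' + n, right_mem_uIcc, S.P.per_int _ _ _⟩
  have hK4 : K ⊆ Sig Ψ κ := by
    refine union_subset (union_subset (rad_sub_sig hhalf.1 rk.2 tk ck) ?_)
      (rad_sub_sig hhalf.1 rk'.2 tk' ck')
    rintro z ⟨θ, -, rfl⟩
    exact ⟨1/2, hhalf, Int.fract θ, ⟨Int.fract_nonneg θ, (Int.fract_lt_one θ).le⟩,
      Or.inl (by linarith), per_fract S.P _ _⟩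
  have hK5 : cells s K ⊆ (cells s (Ki ∪ Kj))ᶜ := by
    rintro q ⟨x, hx1, hx2⟩ ⟨y, hy1, hy2⟩
    obtain ⟨r, hr, θ, hθ, rfl⟩ := hK3 x hx2
    have hd := sq_dist hx1 hy1
    obtain ⟨a1, a2⟩ := hx θ hθ
    rcases hy2 with ⟨r', hr', rfl⟩ | ⟨r', hr', rfl⟩
    · exact absurd hd (not_le.2 (S.not_close hr ⟨hr'.1, hr'.2.trans ri.2⟩ ti a1))
    · exact absurd hd (not_le.2 (S.not_close hr ⟨hr'.1, hr'.2.trans rj.2⟩ tj a2))
  have hK6 : cells s K ⊆ (Out (cells s (Sig Ψ κ)))ᶜ \ cells s (Ki ∪ Kj) := fun q hq =>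
    ⟨hF0 (cells_mono hK4 hq), hK5 hq⟩
  have e1 : lf v k ∈ cells s K := ⟨_, zk, Or.inl (Or.inl ⟨S.rr k, ⟨by linarith, le_rfl⟩, rfl⟩)⟩
  have e2 : lf v k' ∈ cells s K := ⟨_, zk', Or.inr ⟨S.rr k', ⟨by linarith, le_rfl⟩, rfl⟩⟩
  refine SpD331.sep896 (lam := cells s (Ki ∪ Kj)) S.cyc ?_ hij hj ?_ ?_ ?_ ?_ hk hk'
    (hK5 e1) (hK5 e2) ?_
  · intro q hq q' hq'
    rw [notMem_compl_iff] at hq hq'
    rw [compl_compl]
    exact out_con S.fin0 q hq q' hq'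
  · exact (cells_mono hlam3).trans hF0
  · exact cells_con S.s0 hlam1 hlam2
  · exact ⟨_, zi, Or.inl ⟨S.rr i, ⟨ri.1, le_rfl⟩, rfl⟩⟩
  · exact ⟨_, zj, Or.inr ⟨S.rr j, ⟨rj.1, le_rfl⟩, rfl⟩⟩
  · exact (cells_con S.s0 hK1 hK2 _ e1 _ e2).mono hK6

end Stg

end Crest.Agent.R158.Sp896
end

-- ▼ part R158/Sp6_896

/-! R158 (helper896) BLOCK SP, file 6: uniform outer cells, target edges, rotation of the boundary
walk, and the combinatorial end: from four contiguous runs to marked edges. -/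

set_option autoImplicit false

open Set Topology Filter Metric
open Crest Crest.ProbabilityR Crest.ProbabilityR.Percolation
open Crest.Agent.R158.Jt785

namespace Crest.Agent.R158.Sp896

/-- within `ε` of the set `K` -/
def Nr (ε : ℝ) (K : Set ℂ) (z : ℂ) : Prop := ∃ y ∈ K, ‖z - y‖ < ε

theorem Nr.mono {ε ε' : ℝ} (h : ε ≤ ε') {K : Set ℂ} {z : ℂ} (hz : Nr ε K z) : Nr ε' K z := by
  obtain ⟨y, hy, hd⟩ := hz
  exact ⟨y, hy, hd.trans_le h⟩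

theorem Nr.move {ε d : ℝ} {K : Set ℂ} {z w : ℂ} (hz : Nr ε K z) (hw : ‖w - z‖ ≤ d) : Nr (ε + d) K w := by
  obtain ⟨y, hy, hd⟩ := hz
  refine ⟨y, hy, ?_⟩
  have : w - y = (w - z) + (z - y) := by ring
  rw [this]
  exact (norm_add_le _ _).trans_lt (by linarith)

/-- `z` is joined to the far point off `Sg` -/
def Kp (Sg : Set ℂ) (R : ℝ) (z : ℂ) : Prop :=
  ∃ K : Set ℂ, IsCompact K ∧ IsPreconnected K ∧ z ∈ K ∧ ((R + 3 : ℝ) : ℂ) ∈ K ∧ Disjoint K Sg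

theorem unif_out {Sg : Set ℂ} (hSg : IsCompact Sg) {R : ℝ} (hR : ∀ z ∈ Sg, ‖z‖ ≤ R) {X : Set ℂ}
    (hX : IsCompact X) (hK : ∀ z ∈ X, Kp Sg R z) :
    ∃ s1 : ℝ, 0 < s1 ∧ ∀ s : ℝ, 0 < s → s < s1 → s ≤ 1 → ∀ w ∈ X, ∀ q : V, w ∈ sq s q →
      q ∈ Out (cells s Sg) := by
  refine hX.induction_on (p := fun X => ∃ s1 : ℝ, 0 < s1 ∧ ∀ s : ℝ, 0 < s → s < s1 → s ≤ 1 →
    ∀ w ∈ X, ∀ q : V, w ∈ sq s q → q ∈ Out (cells s Sg)) ?_ ?_ ?_ ?_
  · exact ⟨1, one_pos, fun s _ _ _ w hw => absurd hw (notMem_empty w)⟩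
  · rintro S T hST ⟨s1, h1, h2⟩
    exact ⟨s1, h1, fun s a b c w hw => h2 s a b c w (hST hw)⟩
  · rintro S T ⟨s1, h1, h2⟩ ⟨s2, k1, k2⟩
    refine ⟨min s1 s2, lt_min h1 k1, fun s a b c w hw => ?_⟩
    rcases hw with hw | hw
    · exact h2 s a (b.trans_le (min_le_left _ _)) c w hw
    · exact k2 s a (b.trans_le (min_le_right _ _)) c w hw
  · intro z hz
    obtain ⟨K, hKc, hKp, hzK, hfar, hdis⟩ := hK z hz
    obtain ⟨δ, hδ, hd⟩ := pos_dist hKc hSg.isClosed hdis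
    refine ⟨ball z (δ / 2), mem_nhdsWithin_of_mem_nhds (ball_mem_nhds z (by linarith)),
      δ / 4, by linarith, fun s hs hs' hs1 w hw q hq => ?_⟩
    rw [mem_ball, dist_eq_norm] at hw
    have hseg : IsPreconnected (segment ℝ z w) := (convex_segment z w).isPreconnected
    have hK' : IsPreconnected (K ∪ segment ℝ z w) :=
      hKp.union z hzK (left_mem_segment ℝ z w) hseg
    have hKb : Bornology.IsBounded (K ∪ segment ℝ z w) := by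
      refine (hKc.isBounded).union ?_
      rw [segment_eq_image_lineMap]
      exact (isCompact_Icc.image AffineMap.lineMap_continuous).isBounded
    refine far_out hs hs1 hR hK' hKb ?_ (Or.inl hfar) q ⟨w, hq, Or.inr (right_mem_segment ℝ z w)⟩
    intro x hx y hy
    rcases hx with hx | hx
    · have := hd x hx y hy
      linarith
    · have h1 := hd z hzK y hy
      have h2 : ‖x - z‖ ≤ ‖w - z‖ := by
        have h3 := norm_sub_le_of_mem_segment hx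
        rw [norm_sub_rev x z, norm_sub_rev w z]
        rw [norm_sub_rev] at h3
        rw [norm_sub_rev z w]
        exact h3
      have h4 : z - y = (z - x) + (x - y) := by ring
      have h5 : ‖z - y‖ ≤ ‖z - x‖ + ‖x - y‖ := by rw [h4]; exact norm_add_le _ _
      rw [norm_sub_rev z x] at h5
      linarith

section kp

variable {γ : ℝ → ℂ} {φ : ℂ → ℂ} {Ψ : ℝ → ℝ → ℂ}

theorem kp_ext (h : Unif γ φ) (P : Pol γ Ψ (jordanInterior γ)) {κ R : ℝ} (hR0 : 0 ≤ R)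
    (hR : ∀ z : ℂ, R < ‖z‖ → z ∈ ext γ) {z : ℂ} (hz : z ∈ ext γ) : Kp (Sig Ψ κ) R z := by
  have hf : ((R + 3 : ℝ) : ℂ) ∈ ext γ := by
    apply hR
    rw [Complex.norm_real, Real.norm_eq_abs, abs_of_nonneg (by linarith)]
    linarith
  obtain ⟨K, h1, h2, h3, h4, h5⟩ := ext_path h hz hf
  exact ⟨K, h1, h2, h3, h4, (ext_disj h).mono h5 (sig_sub P κ)⟩

theorem kp_arc (h : Unif γ φ) (P : Pol γ Ψ (jordanInterior γ)) {κ R : ℝ} (hR0 : 0 ≤ R)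
    (hR : ∀ z : ℂ, R < ‖z‖ → z ∈ ext γ) {a b : ℝ} (ha : 0 ≤ a) (hab : a ≤ b) (hb : b ≤ 1)
    (hd : Disjoint (γ '' Icc a b) (Sig Ψ κ)) {z : ℂ} (hz : z ∈ γ '' Icc a b) :
    Kp (Sig Ψ κ) R z := by
  have hsub : Icc a b ⊆ Icc (0:ℝ) 1 := Icc_subset_Icc ha hb
  have hAc : IsCompact (γ '' Icc a b) := isCompact_Icc.image_of_continuousOn (h.jc.1.mono hsub)
  have hAp : IsPreconnected (γ '' Icc a b) := isPreconnected_Icc.image _ (h.jc.1.mono hsub)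
  obtain ⟨δ, hδ, hdist⟩ := pos_dist hAc (sig_compact P κ).isClosed hd
  have haI : a ∈ Icc a b := ⟨le_rfl, hab⟩
  obtain ⟨p, hp, hpd⟩ := near_ext h (hsub haI) hδ
  obtain ⟨K, h1, h2, h3, h4, h5⟩ := kp_ext h P (κ := κ) hR0 hR hp
  have hseg : IsPreconnected (segment ℝ (γ a) p) := (convex_segment _ _).isPreconnected
  have hsc : IsCompact (segment ℝ (γ a) p) := by
    rw [segment_eq_image_lineMap]
    exact isCompact_Icc.image AffineMap.lineMap_continuous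
  refine ⟨γ '' Icc a b ∪ segment ℝ (γ a) p ∪ K, (hAc.union hsc).union h1, ?_, Or.inl (Or.inl hz),
    Or.inr h4, ?_⟩
  · exact (hAp.union (γ a) (mem_image_of_mem _ haI) (left_mem_segment ℝ _ _) hseg).union p
      (Or.inr (right_mem_segment ℝ _ _)) h3 h2
  · refine disjoint_left.2 ?_
    rintro x ((hx | hx) | hx) hxS
    · exact disjoint_left.1 hd hx hxS
    · have h6 := hdist (γ a) (mem_image_of_mem _ haI) x hxS
      have h7 : ‖x - γ a‖ ≤ ‖p - γ a‖ := by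
        obtain ⟨t, ht, rfl⟩ : ∃ t ∈ Icc (0:ℝ) 1, AffineMap.lineMap (γ a) p t = x := by
          rw [segment_eq_image_lineMap] at hx
          exact hx
        have e : AffineMap.lineMap (γ a) p t - γ a = t • (p - γ a) := by
          rw [AffineMap.lineMap_apply]
          simp
        rw [e, norm_smul, Real.norm_eq_abs, abs_of_nonneg ht.1]
        exact mul_le_of_le_one_left (norm_nonneg _) ht.2
      rw [norm_sub_rev] at h6
      linarith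
    · exact disjoint_left.1 h5 hx hxS

/-- boundary points with parameter outside the two arcs are not in the star -/
theorem sig_miss (P : Pol γ Ψ (jordanInterior γ)) {κ : ℝ} (hκ : 0 < κ) {t : ℝ} (ht : t ∈ Icc (0:ℝ) 1)
    (h : t ≤ 1 / 4 ∨ (1 / 2 ≤ t ∧ t ≤ 3 / 4)) : γ t ∉ Sig Ψ κ := by
  rintro ⟨r, hr, t', ht', hc, he⟩
  rw [← P.one t ht] at he
  obtain ⟨h1, h2⟩ := P.inj r hr 1 ⟨zero_le_one, le_rfl⟩ t' ht' t ht he
  subst h1
  rcases hc with hc | hc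
  · linarith
  · unfold TT at hc
    rcases h2 with h2 | h2 | h2 | h2
    · norm_num at h2
    · subst h2
      rcases hc with hc | hc <;> rcases h with h | h
      · linarith [hc.1]
      · linarith [hc.2, h.1]
      · linarith [hc.1]
      · linarith [hc.1, h.2]
    · rcases hc with hc | hc
      · linarith [hc.2, ht.1]
      · linarith [hc.2, ht.1]
    · rcases hc with hc | hc
      · linarith [hc.1, ht.2]
      · linarith [hc.1, ht.2]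

/-- existence of boundary edges near a given parameter -/
theorem target {κ η δ s : ℝ} {L : ℕ} {v : ℕ → V} (S : Stg γ Ψ (jordanInterior γ) κ η δ s L v)
    {t : ℝ} (ht : 1 / 8 ≤ t) (ht' : t ≤ 7 / 8) {p : ℂ} (hp : ‖p - γ t‖ < δ / 2)
    (hpo : ∀ q : V, p ∈ sq s q → q ∈ Out (cells s (Sig Ψ κ))) :
    ∃ m < L, ∀ r ∈ Icc (0:ℝ) 1, ∀ t' ∈ Icc (0:ℝ) 1, Ψ r t' ∈ sq s (Stg.lf v m) → 1 - 2 * κ < r →
      |t' - t| < η := by
  have htI : t ∈ Icc (0:ℝ) 1 := ⟨by linarith, by linarith⟩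
  have hκ0 := S.κ0
  have hκ1 := S.κ1
  have hη := S.ηκ
  have hη0 := S.η0
  have hsδ := S.sδ
  have hs0 := S.s0
  have hseg : IsPreconnected (segment ℝ (γ t) p) := (convex_segment _ _).isPreconnected
  have hsc : IsCompact (segment ℝ (γ t) p) := by
    rw [segment_eq_image_lineMap]
    exact isCompact_Icc.image AffineMap.lineMap_continuous
  have h0 : (0:ℝ) ≤ 1 - κ := by linarith
  set K : Set ℂ := rad Ψ (1 - κ) 1 t ∪ segment ℝ (γ t) p with hK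
  have m1 : γ t ∈ rad Ψ (1 - κ) 1 t := ⟨1, ⟨by linarith, le_rfl⟩, S.P.one t htI⟩
  have hK1 : IsPreconnected K := (rad_preconn S.P h0 le_rfl t).union _ m1 (left_mem_segment ℝ _ _) hseg
  have hK2 : Bornology.IsBounded K := ((rad_compact S.P h0 le_rfl t).union hsc).isBounded
  have m2 : Ψ (1 - κ) t ∈ K := Or.inl ⟨1 - κ, ⟨le_rfl, by linarith⟩, rfl⟩
  have m3 : p ∈ K := Or.inr (right_mem_segment ℝ _ _)
  have m4 : Ψ (1 - κ) t ∈ Sig Ψ κ := ⟨1 - κ, ⟨h0, by linarith⟩, t, htI, Or.inl le_rfl, rfl⟩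
  have hcon := cells_con hs0 hK1 hK2 _ (cellOf_mem hs0 m2) _ (cellOf_mem hs0 m3)
  obtain ⟨a, b, hab, haK, hbK, ha, hb⟩ := Con.cross (S := (Out (cells s (Sig Ψ κ)))ᶜ) hcon
    (cellOf_mem hs0 m2) (subset_out_compl (cellOf_mem hs0 m4))
    (by rw [notMem_compl_iff]; exact hpo _ (mem_cellOf hs0 p))
  obtain ⟨x, y, hxy, rfl, rfl⟩ := exists_dart hab
  obtain ⟨m, hm, rfl, rfl⟩ := S.cyc.all x y hxy ha hb
  refine ⟨m, hm, fun r hr t' ht' hz hr2 => ?_⟩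
  obtain ⟨z, hz1, hz2⟩ := haK
  have hd := sq_dist hz hz1
  have hn : Pol.near η t' t := by
    have key : ∀ r0 ∈ Icc (0:ℝ) 1, ‖Ψ r t' - Ψ r0 t‖ < δ → Pol.near η t' t := by
      intro r0 hr0 hlt
      obtain ⟨-, h2⟩ := S.inv r hr r0 hr0 t' ht' t htI hlt
      rcases h2 with h2 | h2
      · exfalso; linarith
      · exact h2
    rcases hz2 with ⟨r0, hr0, rfl⟩ | hz2
    · exact key r0 ⟨by linarith [hr0.1], hr0.2⟩ (by linarith)
    · have h7 : ‖z - γ t‖ ≤ ‖p - γ t‖ := by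
        obtain ⟨τ, hτ, rfl⟩ : ∃ τ ∈ Icc (0:ℝ) 1, AffineMap.lineMap (γ t) p τ = z := by
          rw [segment_eq_image_lineMap] at hz2
          exact hz2
        have e : AffineMap.lineMap (γ t) p τ - γ t = τ • (p - γ t) := by
          rw [AffineMap.lineMap_apply]
          simp
        rw [e, norm_smul, Real.norm_eq_abs, abs_of_nonneg hτ.1]
        exact mul_le_of_le_one_left (norm_nonneg _) hτ.2
      apply key 1 ⟨zero_le_one, le_rfl⟩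
      rw [S.P.one t htI]
      have e : Ψ r t' - γ t = (Ψ r t' - z) + (z - γ t) := by ring
      rw [e]
      exact (norm_add_le _ _).trans_lt (by linarith)
  rcases hn with hn | hn | hn
  · exact hn
  · rw [abs_lt] at hn; linarith [ht'.2]
  · rw [abs_lt] at hn; linarith [ht'.1]

end kp

/-! ### rotation of the boundary walk -/

theorem Cyc.per_mul {F : Set V} {L : ℕ} {v : ℕ → V} (h : Cyc F L v) (i n : ℕ) : v (i + L * n) = v i := by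
  induction n with
  | zero => simp
  | succ n ih => rw [Nat.mul_succ, ← Nat.add_assoc, h.per, ih]

theorem Cyc.mod {F : Set V} {L : ℕ} {v : ℕ → V} (h : Cyc F L v) (i : ℕ) : v (i % L) = v i := by
  conv_rhs => rw [← Nat.mod_add_div i L]
  rw [h.per_mul]

theorem Cyc.rot {F : Set V} {L : ℕ} {v : ℕ → V} (h : Cyc F L v) (c : ℕ) :
    Cyc F L (fun m => v (m + c)) := by
  have hL : 0 < L := by have := h.four_le; omega
  refine ⟨h.four_le, ?_, ?_, ?_, ?_, ?_, ?_⟩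
  · intro i
    show v (i + L + c) = v (i + c)
    rw [show i + L + c = (i + c) + L by omega, h.per]
  · intro i hi j hj he
    have he' : v ((i + c) % L) = v ((j + c) % L) := by rw [h.mod, h.mod]; exact he
    have h1 := h.inj _ (Nat.mod_lt _ hL) _ (Nat.mod_lt _ hL) he'
    have h2 : (i + c) ≡ (j + c) [MOD L] := h1
    have h3 := Nat.ModEq.add_right_cancel' c h2
    rwa [Nat.ModEq, Nat.mod_eq_of_lt hi, Nat.mod_eq_of_lt hj] at h3
  · intro i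
    show Adj (v (i + c)) (v (i + 1 + c))
    rw [show i + 1 + c = (i + c) + 1 by omega]
    exact h.step _
  · intro i
    show lc (v (i + c)) (v (i + 1 + c)) ∈ F
    rw [show i + 1 + c = (i + c) + 1 by omega]
    exact h.left _
  · intro i
    show rc (v (i + c)) (v (i + 1 + c)) ∉ F
    rw [show i + 1 + c = (i + c) + 1 by omega]
    exact h.right _
  · intro a b hab ha hb
    obtain ⟨i, hi, h1, h2⟩ := h.all a b hab ha hb
    refine ⟨(i + L * c - c) % L, Nat.mod_lt _ hL, ?_, ?_⟩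
    · have hle : c ≤ L * c := Nat.le_mul_of_pos_left c hL
      show v ((i + L * c - c) % L + c) = a
      rw [← h.mod ((i + L * c - c) % L + c), Nat.mod_add_mod,
        show i + L * c - c + c = i + L * c by omega, h.mod, h.per_mul, h1]
    · have hle : c ≤ L * c := Nat.le_mul_of_pos_left c hL
      show v ((i + L * c - c) % L + 1 + c) = b
      rw [show (i + L * c - c) % L + 1 + c = (i + L * c - c) % L + (1 + c) by omega,
        ← h.mod ((i + L * c - c) % L + (1 + c)), Nat.mod_add_mod,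
        show i + L * c - c + (1 + c) = (i + 1) + L * c by omega, h.mod, h.per_mul, h2]

end Crest.Agent.R158.Sp896
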