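import Mathlib
import Crest.Agent.R036.Sweep
import Crest.Agent.R144.Geo1_268
import Crest.Prelude.Def_PlanarPerc

-- ▼ part R158/Jt1_785
section

/-! R158 (helper785) BLOCK J, file 1: winding numbers (times `2π`) of continuous closed curves on the
parameter interval `[0, 1]`, and Borsuk's lemma (a bounded open set with frontier in a closed set `K`
carries no continuous argument of `x - z₀` on `K`). -/

set_option autoImplicit false

open Set Topology Filter Metric

namespace Crest.Agent.R158.Jt785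

open Crest.Agent.R036.Sweep Crest.Agent.R144.Geo268

/-- continuous closed curve on `[0,1]` -/
structure Lp (c : ℝ → ℂ) : Prop where
  cont : ContinuousOn c (Icc 0 1)
  eq : c 0 = c 1

/-- winding number times `2π` -/
noncomputable def wd (c : ℝ → ℂ) (z : ℂ) : ℝ := sweep (fun s => c s - z) 0 1

/-- the trace -/
def tr (c : ℝ → ℂ) : Set ℂ := c '' Icc 0 1

theorem Lp.isCompact {c : ℝ → ℂ} (hc : Lp c) : IsCompact (tr c) := isCompact_Icc.image_of_continuousOn hc.cont

theorem Lp.isClosed {c : ℝ → ℂ} (hc : Lp c) : IsClosed (tr c) := hc.isCompact.isClosed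

theorem mem_tr {c : ℝ → ℂ} {s : ℝ} (hs : s ∈ Icc (0:ℝ) 1) : c s ∈ tr c := mem_image_of_mem _ hs

theorem ne_of_notMem {c : ℝ → ℂ} {z : ℂ} (hz : z ∉ tr c) {s : ℝ} (hs : s ∈ Icc (0:ℝ) 1) :
    c s - z ≠ 0 := fun h => hz ⟨s, hs, sub_eq_zero.1 h⟩

theorem Lp.subc {c : ℝ → ℂ} (hc : Lp c) (z : ℂ) : ContinuousOn (fun s => c s - z) (Icc 0 1) :=
  hc.cont.sub continuousOn_const

/-- the winding number is an integer -/
theorem wd_int {c : ℝ → ℂ} (hc : Lp c) {z : ℂ} (hz : z ∉ tr c) : ∃ k : ℤ, wd c z = 2 * Real.pi * k := by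
  obtain ⟨k, hk⟩ := sweep_mod zero_le_one (hc.subc z) (fun x hx => ne_of_notMem hz hx)
  refine ⟨k, ?_⟩
  unfold wd
  rw [hk]
  simp only [hc.eq]
  ring

/-- COMPARISON: if `(c' s - z') / (c s - z)` avoids the closed negative axis, the winding numbers
agree. -/
theorem wd_congr {c c' : ℝ → ℂ} (hc : Lp c) (hc' : Lp c') {z z' : ℂ}
    (h : z ∉ tr c) (h' : z' ∉ tr c')
    (hs : ∀ s ∈ Icc (0:ℝ) 1, (c' s - z') / (c s - z) ∈ Complex.slitPlane) : wd c' z' = wd c z := by
  have h1 := sweep_div (F := fun s => c' s - z') (G := fun s => c s - z) zero_le_one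
    (hc'.subc z') (hc.subc z)
    (fun x hx => ne_of_notMem h' hx) (fun x hx => ne_of_notMem h hx)
  have h2 : sweep (fun s => (c' s - z') / (c s - z)) 0 1 = 0 := by
    refine sweep_slit_loop zero_le_one ?_ hs ?_
    · exact (hc'.subc z').div (hc.subc z) (fun x hx => ne_of_notMem h hx)
    · simp only [hc.eq, hc'.eq]
  rw [h2] at h1
  unfold wd
  linarith

/-- stability under perturbation of the curve -/
theorem wd_close {c c' : ℝ → ℂ} (hc : Lp c) (hc' : Lp c') {z : ℂ}
    (h : ∀ s ∈ Icc (0:ℝ) 1, ‖c' s - c s‖ < ‖c s - z‖) :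
    z ∉ tr c ∧ z ∉ tr c' ∧ wd c' z = wd c z := by
  have h0 : z ∉ tr c := by
    rintro ⟨s, hs, rfl⟩
    have := h s hs
    rw [sub_self, norm_zero] at this
    exact absurd (norm_nonneg _) (not_le.2 this)
  have h1 : z ∉ tr c' := by
    rintro ⟨s, hs, rfl⟩
    have := h s hs
    rw [← norm_neg, neg_sub] at this
    exact lt_irrefl _ this
  refine ⟨h0, h1, wd_congr hc hc' h0 h1 fun s hs => slit_of_norm_sub_one_lt ?_⟩
  have hne := ne_of_notMem h0 hs
  have h2 : (c' s - z) / (c s - z) - 1 = (c' s - c s) / (c s - z) := by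
    field_simp
    ring
  rw [h2, norm_div, div_lt_one (norm_pos_iff.2 hne)]
  exact h s hs

/-- local constancy in the point -/
theorem wd_point_close {c : ℝ → ℂ} (hc : Lp c) {z z' : ℂ}
    (h : ∀ s ∈ Icc (0:ℝ) 1, ‖z' - z‖ < ‖c s - z‖) : z' ∉ tr c ∧ wd c z' = wd c z := by
  have h0 : z ∉ tr c := by
    rintro ⟨s, hs, rfl⟩
    have := h s hs
    rw [sub_self, norm_zero] at this
    exact absurd (norm_nonneg _) (not_le.2 this)
  have h1 : z' ∉ tr c := by
    rintro ⟨s, hs, rfl⟩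
    exact lt_irrefl _ (h s hs)
  refine ⟨h1, wd_congr hc hc h0 h1 fun s hs => slit_of_norm_sub_one_lt ?_⟩
  have hne := ne_of_notMem h0 hs
  have h2 : (c s - z') / (c s - z) - 1 = -((z' - z) / (c s - z)) := by
    field_simp
    ring
  rw [h2, norm_neg, norm_div, div_lt_one (norm_pos_iff.2 hne)]
  exact h s hs

/-- positive distance to the curve -/
theorem exists_dist {c : ℝ → ℂ} (hc : Lp c) {z : ℂ} (hz : z ∉ tr c) :
    ∃ r > 0, ∀ s ∈ Icc (0:ℝ) 1, r < ‖c s - z‖ := by
  have h1 : IsOpen (tr c)ᶜ := hc.isClosed.isOpen_compl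
  obtain ⟨r, hr, h⟩ := Metric.isOpen_iff.1 h1 z hz
  refine ⟨r / 2, by positivity, fun s hs => ?_⟩
  by_contra h2
  rw [not_lt] at h2
  have h3 : c s ∈ ball z r := by
    rw [mem_ball, dist_eq_norm]
    linarith
  exact h h3 (mem_tr hs)

/-- the set of points off the curve with a given property of the winding number is open -/
theorem isOpen_wd {c : ℝ → ℂ} (hc : Lp c) (P : ℝ → Prop) :
    IsOpen {z : ℂ | z ∉ tr c ∧ P (wd c z)} := by
  rw [Metric.isOpen_iff]
  rintro z ⟨hz, hP⟩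
  obtain ⟨r, hr, h⟩ := exists_dist hc hz
  refine ⟨r, hr, fun w hw => ?_⟩
  rw [mem_ball, dist_eq_norm] at hw
  obtain ⟨h1, h2⟩ := wd_point_close hc (fun s hs => hw.trans (h s hs))
  exact ⟨h1, by rw [h2]; exact hP⟩

/-- constant on preconnected sets off the curve -/
theorem wd_const {c : ℝ → ℂ} (hc : Lp c) {S : Set ℂ} (hS : IsPreconnected S)
    (hd : Disjoint S (tr c)) {z z' : ℂ} (hz : z ∈ S) (hz' : z' ∈ S) : wd c z = wd c z' := by
  by_contra hne
  obtain ⟨w, -, h1, h2⟩ := hS {w : ℂ | w ∉ tr c ∧ wd c w = wd c z'}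
    {w : ℂ | w ∉ tr c ∧ ¬ wd c w = wd c z'} (isOpen_wd hc (fun x => x = wd c z'))
    (isOpen_wd hc (fun x => ¬ x = wd c z'))
    (fun w hw => by
      have h3 : w ∉ tr c := disjoint_left.1 hd hw
      by_cases h4 : wd c w = wd c z'
      · exact Or.inl ⟨h3, h4⟩
      · exact Or.inr ⟨h3, h4⟩)
    ⟨z', hz', disjoint_left.1 hd hz', rfl⟩ ⟨z, hz, disjoint_left.1 hd hz, hne⟩
  exact h2.2 h1.2

theorem wd_const_curve (w z : ℂ) (h : w ≠ z) : wd (fun _ => w) z = 0 := by
  have h1 : sweep (fun _ : ℝ => w - z) 0 1 =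
      (fun _ : ℝ => Complex.arg (w - z)) 1 - (fun _ : ℝ => Complex.arg (w - z)) 0 :=
    sweep_eq zero_le_one (fun _ _ => sub_ne_zero.2 h)
      ⟨continuousOn_const, fun x _ => (Complex.norm_mul_exp_arg_mul_I (w - z)).symm⟩
  unfold wd
  rw [h1]
  simp

/-- winding number of a far point -/
theorem wd_far {c : ℝ → ℂ} (hc : Lp c) {z : ℂ} (h : ∀ s ∈ Icc (0:ℝ) 1, ‖c s‖ < ‖z‖) :
    wd c z = 0 := by
  have h0 : (0 : ℂ) ≠ z := by
    rintro rfl
    have := h 0 (by simp)
    rw [norm_zero] at this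
    exact absurd (norm_nonneg _) (not_le.2 this)
  have h1 : Lp (fun _ : ℝ => (0 : ℂ)) := ⟨continuousOn_const, rfl⟩
  rw [(wd_close h1 hc (z := z) (fun s hs => by simpa using h s hs)).2.2, wd_const_curve 0 z h0]

theorem Lp.exists_bound {c : ℝ → ℂ} (hc : Lp c) : ∃ M : ℝ, 0 < M ∧ ∀ s ∈ Icc (0:ℝ) 1, ‖c s‖ < M := by
  obtain ⟨M, hM⟩ := hc.isCompact.isBounded.exists_norm_le
  refine ⟨|M| + 1, by positivity, fun s hs => ?_⟩
  have h1 := hM (c s) (mem_tr hs)
  have h2 := le_abs_self M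
  linarith

/-- winding number `0` on unbounded preconnected sets off the curve -/
theorem wd_unbounded {c : ℝ → ℂ} (hc : Lp c) {S : Set ℂ} (hS : IsPreconnected S)
    (hd : Disjoint S (tr c)) (hu : ¬ Bornology.IsBounded S) {z : ℂ} (hz : z ∈ S) :
    wd c z = 0 := by
  obtain ⟨M, -, hM⟩ := hc.exists_bound
  have h1 : ∃ w ∈ S, M ≤ ‖w‖ := by
    by_contra h
    push Not at h
    exact hu (isBounded_iff_forall_norm_le.2 ⟨M, fun w hw => (h w hw).le⟩)
  obtain ⟨w, hw, hw1⟩ := h1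
  rw [wd_const hc hS hd hz hw]
  exact wd_far hc fun s hs => (hM s hs).trans_le hw1

/-! ### Borsuk's lemma -/

/-- BORSUK: `C` bounded open, `z₀ ∈ C`, `frontier C ⊆ K`, `K` closed: there is no continuous argument of
`x - z₀` on `K`. -/
theorem borsuk {C K : Set ℂ} (hCo : IsOpen C) (hCb : Bornology.IsBounded C) {z₀ : ℂ} (hz : z₀ ∈ C)
    (hf : frontier C ⊆ K) (hK : IsClosed K) {θ : ℂ → ℝ} (hθ : ContinuousOn θ K)
    (h : ∀ x ∈ K, x - z₀ = ‖x - z₀‖ * Complex.exp (θ x * Complex.I)) : False := by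
  classical
  -- Tietze extension
  obtain ⟨g, hg⟩ := ContinuousMap.exists_restrict_eq hK (⟨K.domRestrict θ, hθ.domRestrict⟩ : C(K, ℝ))
  have hgK : ∀ x ∈ K, g x = θ x := fun x hx => by
    exact congrArg (fun f : C(K, ℝ) => f ⟨x, hx⟩) hg
  let F : ℂ → ℂ := fun x => if x ∈ C then Complex.exp (g x * Complex.I) else (x - z₀) / ‖x - z₀‖
  have hFc : Continuous F := by
    refine continuous_if ?_ ?_ ?_
    · intro a ha
      have haK : a ∈ K := hf ha
      have haC : a ∉ C := fun h' => by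
        have h2 : a ∈ frontier C := ha
        rw [hCo.frontier_eq] at h2
        exact h2.2 h'
      have hne : a - z₀ ≠ 0 := sub_ne_zero.2 (fun h' => haC (h' ▸ hz))
      have hn : (‖a - z₀‖ : ℂ) ≠ 0 := by exact_mod_cast (norm_pos_iff.2 hne).ne'
      rw [hgK a haK, eq_div_iff hn, mul_comm]
      exact (h a haK).symm
    · exact (Complex.continuous_exp.comp ((Complex.continuous_ofReal.comp g.continuous).mul
        continuous_const)).continuousOn
    · have hcl : closure {x | ¬ x ∈ C} = Cᶜ := (hCo.isClosed_compl).closure_eq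
      rw [hcl]
      refine ContinuousOn.div (continuous_id.sub continuous_const).continuousOn
        (Complex.continuous_ofReal.comp (continuous_id.sub continuous_const).norm).continuousOn ?_
      intro x hx
      have hne : x - z₀ ≠ 0 := sub_ne_zero.2 (fun h' => hx (h' ▸ hz))
      exact_mod_cast (norm_pos_iff.2 hne).ne'
  have hF0 : ∀ x, F x ≠ 0 := fun x => by
    by_cases hx : x ∈ C
    · simp only [F, if_pos hx]
      exact Complex.exp_ne_zero _
    · simp only [F, if_neg hx]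
      have hne : x - z₀ ≠ 0 := sub_ne_zero.2 (fun h' => hx (h' ▸ hz))
      have hn : (‖x - z₀‖ : ℂ) ≠ 0 := by exact_mod_cast (norm_pos_iff.2 hne).ne'
      exact div_ne_zero hne hn
  obtain ⟨ψ, hψc, hψ⟩ := exists_arg F hFc hF0
  obtain ⟨R, hR0, hR⟩ : ∃ R : ℝ, 0 < R ∧ ∀ x ∈ C, ‖x - z₀‖ < R := by
    obtain ⟨M, hM⟩ := hCb.exists_norm_le
    refine ⟨|M| + ‖z₀‖ + 1, by positivity, fun x hx => ?_⟩
    have h1 := hM x hx
    have h2 := le_abs_self M
    have h3 := norm_sub_le x z₀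
    linarith
  let c : ℝ → ℂ := fun s => z₀ + R * Complex.exp ((2 * Real.pi * s : ℝ) * Complex.I)
  have hcc : Continuous c := by
    simp only [c]
    fun_prop
  have hcn : ∀ s, c s - z₀ = R * Complex.exp ((2 * Real.pi * s : ℝ) * Complex.I) := fun s => by
    simp only [c]; ring
  have hcn2 : ∀ s, ‖c s - z₀‖ = R := fun s => by
    rw [hcn, norm_mul, Complex.norm_exp_ofReal_mul_I, mul_one, Complex.norm_real,
      Real.norm_of_nonneg hR0.le]
  have hcC : ∀ s, c s ∉ C := fun s hs => by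
    have := hR _ hs
    rw [hcn2] at this
    exact lt_irrefl _ this
  have hRC : (R : ℂ) ≠ 0 := by exact_mod_cast hR0.ne'
  have hFcs : ∀ s, F (c s) = Complex.exp ((2 * Real.pi * s : ℝ) * Complex.I) := fun s => by
    simp only [F, if_neg (hcC s)]
    rw [hcn2, hcn]
    field_simp
  have hA1 : ArgOn (fun s => F (c s)) (fun s => ψ (c s)) (Icc (0:ℝ) 1) :=
    ⟨(hψc.comp hcc).continuousOn, fun s _ => hψ (c s)⟩
  have hA2 : ArgOn (fun s => F (c s)) (fun s => 2 * Real.pi * s) (Icc (0:ℝ) 1) := by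
    refine ⟨by fun_prop, fun s _ => ?_⟩
    simp only [hFcs]
    rw [Complex.norm_exp_ofReal_mul_I]
    simp
  have hd := ArgOn.diff_const isPreconnected_Icc (fun s _ => hF0 (c s)) hA1 hA2
    (left_mem_Icc.2 zero_le_one) (right_mem_Icc.2 zero_le_one)
  have hc01 : c 0 = c 1 := by
    simp only [c]
    congr 2
    push_cast
    rw [mul_zero, zero_mul, Complex.exp_zero, mul_one]
    exact Complex.exp_two_pi_mul_I.symm
  simp only [hc01] at hd
  have := Real.pi_pos
  linarith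

/-- descent of a continuous function on a compact parameter set through `c` -/
theorem exists_descent {P : Set ℝ} (hP : IsCompact P) {c : ℝ → ℂ} (hc : ContinuousOn c P) {g : ℝ → ℝ}
    (hg : ContinuousOn g P)
    (h : ∀ s ∈ P, ∀ t ∈ P, c s = c t → g s = g t) :
    ∃ θ : ℂ → ℝ, ContinuousOn θ (c '' P) ∧ ∀ s ∈ P, θ (c s) = g s := by
  classical
  let θ : ℂ → ℝ := fun x => g (Function.invFunOn c P x)
  have hθ : ∀ s ∈ P, θ (c s) = g s := fun s hs => by
    have hm : c s ∈ c '' P := mem_image_of_mem _ hs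
    exact h _ (Function.invFunOn_mem hm) _ hs (Function.invFunOn_eq hm)
  refine ⟨θ, ?_, hθ⟩
  rw [continuousOn_iff_isClosed]
  intro t ht
  have hcl : IsClosed (P ∩ g ⁻¹' t) := hg.preimage_isClosed_of_isClosed hP.isClosed ht
  have hcomp : IsCompact (P ∩ g ⁻¹' t) := hP.of_isClosed_subset hcl inter_subset_left
  refine ⟨c '' (P ∩ g ⁻¹' t),
    (hcomp.image_of_continuousOn (hc.mono inter_subset_left)).isClosed, ?_⟩
  ext x
  constructor
  · rintro ⟨h1, s, hs, rfl⟩
    refine ⟨⟨s, ⟨hs, ?_⟩, rfl⟩, s, hs, rfl⟩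
    rw [mem_preimage, hθ s hs] at h1
    exact h1
  · rintro ⟨⟨s, hs, rfl⟩, -⟩
    refine ⟨?_, s, hs.1, rfl⟩
    rw [mem_preimage, hθ s hs.1]
    exact hs.2


end Crest.Agent.R158.Jt785
end

-- ▼ part R158/Jt2_785

/-! R158 (helper785) BLOCK J, file 2: `jordanInterior` through winding numbers, frontier of the inner
and outer regions of a Jordan curve. -/

set_option autoImplicit false

open Set Topology Filter Metric
open Crest.ProbabilityR.Percolation

namespace Crest.Agent.R158.Jt785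

open Crest.Agent.R036.Sweep Crest.Agent.R144.Geo268

theorem tr_eq (γ : ℝ → ℂ) : tr γ = curveTrace γ := rfl

theorem lp_of {γ : ℝ → ℂ} (h : IsJordanCurve γ) : Lp γ := ⟨h.1, h.2.2⟩

/-- injectivity up to the endpoints -/
theorem inj_of {γ : ℝ → ℂ} (h : IsJordanCurve γ) {s t : ℝ} (hs : s ∈ Icc (0:ℝ) 1)
    (ht : t ∈ Icc (0:ℝ) 1) (e : γ s = γ t) : s = t ∨ (s = 0 ∧ t = 1) ∨ (s = 1 ∧ t = 0) := by
  rcases eq_or_lt_of_le hs.2 with h1 | h1
  · rcases eq_or_lt_of_le ht.2 with h2 | h2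
    · left; rw [h1, h2]
    · right; right
      refine ⟨h1, ?_⟩
      rw [h1, ← h.2.2] at e
      exact (h.2.1 (left_mem_Ico.2 zero_lt_one) ⟨ht.1, h2⟩ e).symm
  · rcases eq_or_lt_of_le ht.2 with h2 | h2
    · right; left
      refine ⟨?_, h2⟩
      rw [h2, ← h.2.2] at e
      exact h.2.1 ⟨hs.1, h1⟩ (left_mem_Ico.2 zero_lt_one) e
    · left
      exact h.2.1 ⟨hs.1, h1⟩ ⟨ht.1, h2⟩ e

/-- a continuous argument exists on closed subsets of the trace that miss a point, and on the whole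
trace if the winding number vanishes -/
theorem exists_arg_off {γ : ℝ → ℂ} (h : IsJordanCurve γ) {z₀ : ℂ} (hz : z₀ ∉ tr γ) {K : Set ℂ}
    (hK : IsClosed K) (hKt : K ⊆ tr γ) {x₀ : ℂ} (hx : x₀ ∈ tr γ) (hxK : x₀ ∉ K) :
    ∃ θ : ℂ → ℝ, ContinuousOn θ K ∧
      ∀ x ∈ K, x - z₀ = ‖x - z₀‖ * Complex.exp (θ x * Complex.I) := by
  classical
  have hc := lp_of h
  obtain ⟨t₀, ht₀, rfl⟩ : ∃ t ∈ Ico (0:ℝ) 1, γ t = x₀ := by
    obtain ⟨t, ht, rfl⟩ := hx
    rcases eq_or_lt_of_le ht.2 with h1 | h1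
    · exact ⟨0, left_mem_Ico.2 zero_lt_one, by rw [h1]; exact h.2.2⟩
    · exact ⟨t, ⟨ht.1, h1⟩, rfl⟩
  obtain ⟨g, hgc, hg⟩ := exists_argOn_Icc zero_le_one (hc.subc z₀)
    (fun s hs => ne_of_notMem hz hs)
  have hwd : wd γ z₀ = g 1 - g 0 := sweep_eq zero_le_one (fun s hs => ne_of_notMem hz hs) hg
  obtain ⟨k, hk⟩ := wd_int hc hz
  let P : Set ℝ := Icc (0:ℝ) 1 ∩ γ ⁻¹' K
  have hPc : IsCompact P := isCompact_Icc.of_isClosed_subset
    (hc.cont.preimage_isClosed_of_isClosed isClosed_Icc hK) inter_subset_left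
  have hPt : ∀ s ∈ P, s ≠ t₀ := fun s hs e => hxK (e ▸ hs.2)
  let G : ℝ → ℝ := fun s => if s ≤ t₀ then g s + wd γ z₀ else g s
  have hGc : ContinuousOn G P := by
    intro s hs
    rcases lt_or_gt_of_ne (hPt s hs) with h1 | h1
    · have h2 : ContinuousWithinAt (fun s => g s + wd γ z₀) P s :=
        (hgc.add continuous_const).continuousWithinAt
      refine h2.congr_of_eventuallyEq ?_ ?_
      · filter_upwards [mem_nhdsWithin_of_mem_nhds (Iio_mem_nhds h1)] with u hu
        simp only [G, if_pos (le_of_lt (show u < t₀ from hu))]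
      · simp only [G, if_pos h1.le]
    · have h2 : ContinuousWithinAt g P s := hgc.continuousWithinAt
      refine h2.congr_of_eventuallyEq ?_ ?_
      · filter_upwards [mem_nhdsWithin_of_mem_nhds (Ioi_mem_nhds h1)] with u hu
        simp only [G, if_neg (not_le.2 (show t₀ < u from hu))]
      · simp only [G, if_neg (not_le.2 h1)]
  have hGi : ∀ s ∈ P, ∀ t ∈ P, γ s = γ t → G s = G t := by
    have key : ∀ s ∈ P, ∀ t ∈ P, s = 0 → t = 1 → G s = G t := by
      intro s hs t ht h1 h2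
      have h3 : 0 < t₀ := lt_of_le_of_ne ht₀.1 (by rw [← h1]; exact hPt s hs)
      rw [h1, h2]
      simp only [G]
      rw [if_pos h3.le, if_neg (not_le.2 ht₀.2), hwd]
      ring
    intro s hs t ht e
    rcases inj_of h hs.1 ht.1 e with h1 | ⟨h1, h2⟩ | ⟨h1, h2⟩
    · rw [h1]
    · exact key s hs t ht h1 h2
    · exact (key t ht s hs h2 h1).symm
  obtain ⟨θ, h1, h2⟩ := exists_descent hPc (hc.cont.mono inter_subset_left) hGc hGi
  have hKP : K = γ '' P := by
    ext x
    constructor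
    · intro hx
      obtain ⟨s, hs, rfl⟩ := hKt hx
      exact ⟨s, ⟨hs, hx⟩, rfl⟩
    · rintro ⟨s, hs, rfl⟩
      exact hs.2
  rw [hKP]
  refine ⟨θ, h1, ?_⟩
  rintro _ ⟨s, hs, rfl⟩
  rw [h2 s hs]
  have h3 : γ s - z₀ = ‖γ s - z₀‖ * Complex.exp (g s * Complex.I) := hg.2 s hs.1
  by_cases h4 : s ≤ t₀
  · simp only [G, if_pos h4]
    have e : Complex.exp (((g s + wd γ z₀ : ℝ) : ℂ) * Complex.I) = Complex.exp (g s * Complex.I) := by
      rw [hk, Complex.exp_eq_exp_iff_exists_int]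
      refine ⟨k, ?_⟩
      push_cast
      ring
    rw [e]
    exact h3
  · simp only [G, if_neg h4]
    exact h3

theorem exists_arg_loop {γ : ℝ → ℂ} (h : IsJordanCurve γ) {z₀ : ℂ} (hz : z₀ ∉ tr γ)
    (h0 : wd γ z₀ = 0) :
    ∃ θ : ℂ → ℝ, ContinuousOn θ (tr γ) ∧
      ∀ x ∈ tr γ, x - z₀ = ‖x - z₀‖ * Complex.exp (θ x * Complex.I) := by
  have hc := lp_of h
  obtain ⟨g, hgc, hg⟩ := exists_argOn_Icc zero_le_one (hc.subc z₀)
    (fun s hs => ne_of_notMem hz hs)
  have hwd : wd γ z₀ = g 1 - g 0 := sweep_eq zero_le_one (fun s hs => ne_of_notMem hz hs) hg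
  have h01 : g 1 = g 0 := by linarith
  obtain ⟨θ, h1, h2⟩ := exists_descent isCompact_Icc hc.cont hg.1 (fun s hs t ht e => by
    rcases inj_of h hs ht e with h1 | ⟨h1, h2⟩ | ⟨h1, h2⟩
    · rw [h1]
    · rw [h1, h2, h01]
    · rw [h1, h2, h01])
  refine ⟨θ, h1, ?_⟩
  rintro _ ⟨s, hs, rfl⟩
  rw [h2 s hs]
  exact hg.2 s hs

/-! ### components -/

theorem frontier_component {U : Set ℂ} (hU : IsOpen U) (z : ℂ) :
    frontier (connectedComponentIn U z) ⊆ Uᶜ := by
  intro x hx hxU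
  have ho : IsOpen (connectedComponentIn U z) := hU.connectedComponentIn
  have hox : IsOpen (connectedComponentIn U x) := hU.connectedComponentIn
  have hxm : x ∈ connectedComponentIn U x := mem_connectedComponentIn hxU
  rw [ho.frontier_eq] at hx
  obtain ⟨y, hy1, hy2⟩ := mem_closure_iff.1 hx.1 _ hox hxm
  have e1 := connectedComponentIn_eq hy1
  have e2 := connectedComponentIn_eq hy2
  have e : connectedComponentIn U z = connectedComponentIn U x := e2.trans e1.symm
  exact hx.2 (by rw [e]; exact hxm)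

theorem isPreconnected_far (M : ℝ) : IsPreconnected {z : ℂ | M < ‖z‖} := by
  rcases lt_or_ge M 0 with h | h
  · have : {z : ℂ | M < ‖z‖} = univ := by
      ext z
      simp only [mem_ofPred_eq, mem_univ, iff_true]
      exact h.trans_le (norm_nonneg z)
    rw [this]
    exact isPreconnected_univ
  · have h1 : {z : ℂ | M < ‖z‖} =
        (fun p : ℝ × ℝ => (p.1 : ℂ) * Complex.exp (p.2 * Complex.I)) '' (Ioi M ×ˢ univ) := by
      ext z
      constructor
      · intro hz
        refine ⟨(‖z‖, Complex.arg z), ⟨hz, mem_univ _⟩, Complex.norm_mul_exp_arg_mul_I z⟩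
      · rintro ⟨⟨r, t⟩, ⟨hr, -⟩, rfl⟩
        have hr' : M < r := hr
        simp only [mem_ofPred_eq, norm_mul, Complex.norm_exp_ofReal_mul_I, mul_one,
          Complex.norm_real]
        rwa [Real.norm_of_nonneg (h.trans hr'.le)]
    rw [h1]
    refine IsPreconnected.image ?_ _ ?_
    · exact isPreconnected_Ioi.prod isPreconnected_univ
    · fun_prop

theorem not_isBounded_far (M : ℝ) : ¬ Bornology.IsBounded {z : ℂ | M < ‖z‖} := by
  intro h
  obtain ⟨R, hR⟩ := h.exists_norm_le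
  have h1 : ((|M| + |R| + 1 : ℝ) : ℂ) ∈ {z : ℂ | M < ‖z‖} := by
    simp only [mem_ofPred_eq, Complex.norm_real]
    rw [Real.norm_of_nonneg (by positivity)]
    have := le_abs_self M
    have := abs_nonneg R
    linarith
  have h2 := hR _ h1
  rw [Complex.norm_real, Real.norm_of_nonneg (by positivity)] at h2
  have := abs_nonneg M
  have := le_abs_self R
  linarith

/-- **`jordanInterior` through winding numbers** -/
theorem mem_ji {γ : ℝ → ℂ} (h : IsJordanCurve γ) (z : ℂ) :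
    z ∈ jordanInterior γ ↔ z ∉ curveTrace γ ∧ wd γ z ≠ 0 := by
  have hc := lp_of h
  have hU : IsOpen (curveTrace γ)ᶜ := hc.isClosed.isOpen_compl
  constructor
  · rintro ⟨h1, h2⟩
    refine ⟨h1, fun h3 => ?_⟩
    obtain ⟨θ, h4, h5⟩ := exists_arg_loop h h1 h3
    refine borsuk (C := connectedComponentIn (curveTrace γ)ᶜ z) hU.connectedComponentIn h2
      (mem_connectedComponentIn h1) ?_ hc.isClosed h4 h5
    have := frontier_component hU z
    rwa [compl_compl] at this
  · rintro ⟨h1, h2⟩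
    refine ⟨h1, ?_⟩
    by_contra h3
    refine h2 (wd_unbounded hc isPreconnected_connectedComponentIn ?_ h3
      (mem_connectedComponentIn h1))
    exact disjoint_left.2 fun x hx => connectedComponentIn_subset _ _ hx

theorem isOpen_ji {γ : ℝ → ℂ} (h : IsJordanCurve γ) : IsOpen (jordanInterior γ) := by
  have : jordanInterior γ = {z : ℂ | z ∉ tr γ ∧ wd γ z ≠ 0} := by
    ext z
    exact mem_ji h z
  rw [this]
  exact isOpen_wd (lp_of h) (fun x => x ≠ 0)

/-- the exterior -/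
def ext (γ : ℝ → ℂ) : Set ℂ := {z : ℂ | z ∉ tr γ ∧ wd γ z = 0}

theorem isOpen_ext {γ : ℝ → ℂ} (h : IsJordanCurve γ) : IsOpen (ext γ) :=
  isOpen_wd (lp_of h) (fun x => x = 0)

theorem disj_ji_tr (γ : ℝ → ℂ) : Disjoint (jordanInterior γ) (tr γ) :=
  disjoint_left.2 fun _ h1 h2 => h1.1 h2

theorem disj_ext_tr (γ : ℝ → ℂ) : Disjoint (ext γ) (tr γ) :=
  disjoint_left.2 fun _ h1 h2 => h1.1 h2

theorem disj_ji_ext {γ : ℝ → ℂ} (h : IsJordanCurve γ) : Disjoint (jordanInterior γ) (ext γ) :=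
  disjoint_left.2 fun z h1 h2 => ((mem_ji h z).1 h1).2 h2.2

theorem cover {γ : ℝ → ℂ} (h : IsJordanCurve γ) (z : ℂ) :
    z ∈ tr γ ∨ z ∈ jordanInterior γ ∨ z ∈ ext γ := by
  by_cases h1 : z ∈ tr γ
  · exact Or.inl h1
  · by_cases h2 : wd γ z = 0
    · exact Or.inr (Or.inr ⟨h1, h2⟩)
    · exact Or.inr (Or.inl ((mem_ji h z).2 ⟨h1, h2⟩))

theorem far_mem_ext {γ : ℝ → ℂ} (h : IsJordanCurve γ) {M : ℝ}
    (hM : ∀ s ∈ Icc (0:ℝ) 1, ‖γ s‖ < M) {z : ℂ} (hz : M ≤ ‖z‖) : z ∈ ext γ := by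
  refine ⟨?_, wd_far (lp_of h) fun s hs => (hM s hs).trans_le hz⟩
  rintro ⟨s, hs, rfl⟩
  exact absurd (hM s hs) (not_lt.2 hz)

theorem isBounded_ji {γ : ℝ → ℂ} (h : IsJordanCurve γ) : Bornology.IsBounded (jordanInterior γ) := by
  obtain ⟨M, -, hM⟩ := (lp_of h).exists_bound
  refine isBounded_iff_forall_norm_le.2 ⟨M, fun z hz => ?_⟩
  by_contra h2
  exact disjoint_left.1 (disj_ji_ext h) hz (far_mem_ext h hM (le_of_lt (not_le.1 h2)))

theorem closure_ji_subset {γ : ℝ → ℂ} (h : IsJordanCurve γ) :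
    closure (jordanInterior γ) ⊆ jordanInterior γ ∪ tr γ := by
  intro z hz
  rcases cover h z with h1 | h1 | h1
  · exact Or.inr h1
  · exact Or.inl h1
  · obtain ⟨y, hy1, hy2⟩ := mem_closure_iff.1 hz _ (isOpen_ext h) h1
    exact absurd hy1 (disjoint_left.1 (disj_ji_ext h) hy2)

theorem closure_ext_subset {γ : ℝ → ℂ} (h : IsJordanCurve γ) :
    closure (ext γ) ⊆ ext γ ∪ tr γ := by
  intro z hz
  rcases cover h z with h1 | h1 | h1
  · exact Or.inr h1
  · obtain ⟨y, hy1, hy2⟩ := mem_closure_iff.1 hz _ (isOpen_ji h) h1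
    exact absurd hy2 (disjoint_left.1 (disj_ji_ext h) hy1)
  · exact Or.inl h1

/-- every exterior point has an unbounded component -/
theorem ext_unbounded {γ : ℝ → ℂ} (h : IsJordanCurve γ) {z : ℂ} (hz : z ∈ ext γ) :
    ¬ Bornology.IsBounded (connectedComponentIn (curveTrace γ)ᶜ z) := fun hb =>
  ((mem_ji h z).1 ⟨hz.1, hb⟩).2 hz.2

/-- the exterior is connected -/
theorem isPreconnected_ext {γ : ℝ → ℂ} (h : IsJordanCurve γ) : IsPreconnected (ext γ) := by
  obtain ⟨M, hM0, hM⟩ := (lp_of h).exists_bound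
  have hfar : {z : ℂ | M < ‖z‖} ⊆ ext γ := fun z hz => far_mem_ext h hM (le_of_lt hz)
  have hp := isPreconnected_far M
  have hne : ∃ w : ℂ, M < ‖w‖ := by
    refine ⟨((M + 1 : ℝ) : ℂ), ?_⟩
    rw [Complex.norm_real, Real.norm_of_nonneg (by linarith)]
    linarith
  obtain ⟨w, hw⟩ := hne
  have hsub : {z : ℂ | M < ‖z‖} ⊆ connectedComponentIn (curveTrace γ)ᶜ w :=
    hp.subset_connectedComponentIn hw (fun z hz => (hfar hz).1)
  have key : ext γ = connectedComponentIn (curveTrace γ)ᶜ w := by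
    ext z
    constructor
    · intro hz
      have h1 := ext_unbounded h hz
      obtain ⟨y, hy, hy2⟩ : ∃ y ∈ connectedComponentIn (curveTrace γ)ᶜ z, M < ‖y‖ := by
        by_contra h3
        push Not at h3
        exact h1 (isBounded_iff_forall_norm_le.2 ⟨M, h3⟩)
      have e1 := connectedComponentIn_eq hy
      have e2 := connectedComponentIn_eq (hsub hy2)
      rw [e2, ← e1]
      exact mem_connectedComponentIn hz.1
    · intro hz
      have h1 : z ∉ tr γ := connectedComponentIn_subset _ _ hz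
      refine ⟨h1, ?_⟩
      refine wd_unbounded (lp_of h) isPreconnected_connectedComponentIn
        (disjoint_left.2 fun x hx => connectedComponentIn_subset _ _ hx) ?_ hz
      exact fun hb => not_isBounded_far M (hb.subset hsub)
  rw [key]
  exact isPreconnected_connectedComponentIn

/-- **frontier of every bounded component is the whole curve** -/
theorem frontier_comp_eq {γ : ℝ → ℂ} (h : IsJordanCurve γ) {z : ℂ} (hz : z ∈ jordanInterior γ) :
    frontier (connectedComponentIn (curveTrace γ)ᶜ z) = curveTrace γ := by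
  have hc := lp_of h
  have hU : IsOpen (curveTrace γ)ᶜ := hc.isClosed.isOpen_compl
  have h1 := frontier_component hU z
  rw [compl_compl] at h1
  refine subset_antisymm h1 fun x hx => ?_
  by_contra hxf
  obtain ⟨θ, h4, h5⟩ := exists_arg_off h hz.1 isClosed_frontier h1 hx hxf
  exact borsuk hU.connectedComponentIn hz.2 (mem_connectedComponentIn hz.1) subset_rfl
    isClosed_frontier h4 h5

theorem comp_subset_ji {γ : ℝ → ℂ} {z : ℂ} (hz : z ∈ jordanInterior γ) :
    connectedComponentIn (curveTrace γ)ᶜ z ⊆ jordanInterior γ := fun w hw =>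
  ⟨connectedComponentIn_subset _ _ hw, by rw [← connectedComponentIn_eq hw]; exact hz.2⟩

/-- the trace is in the closure of the interior -/
theorem tr_subset_closure_ji {γ : ℝ → ℂ} (h : IsJordanCurve γ) (hne : (jordanInterior γ).Nonempty) :
    curveTrace γ ⊆ closure (jordanInterior γ) := by
  obtain ⟨z, hz⟩ := hne
  rw [← frontier_comp_eq h hz]
  exact frontier_subset_closure.trans (closure_mono (comp_subset_ji hz))

theorem closure_ji {γ : ℝ → ℂ} (h : IsJordanCurve γ) (hne : (jordanInterior γ).Nonempty) :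
    closure (jordanInterior γ) = jordanInterior γ ∪ curveTrace γ :=
  subset_antisymm (closure_ji_subset h) (union_subset subset_closure (tr_subset_closure_ji h hne))

theorem frontier_ji {γ : ℝ → ℂ} (h : IsJordanCurve γ) (hne : (jordanInterior γ).Nonempty) :
    frontier (jordanInterior γ) = curveTrace γ := by
  rw [(isOpen_ji h).frontier_eq, closure_ji h hne, union_sdiff_left]
  exact (disj_ji_tr γ).symm.sdiff_eq_left

/-- frontier of the exterior -/
theorem frontier_ext {γ : ℝ → ℂ} (h : IsJordanCurve γ) (hne : (jordanInterior γ).Nonempty) :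
    frontier (ext γ) = curveTrace γ := by
  have hc := lp_of h
  have hsub : frontier (ext γ) ⊆ curveTrace γ := by
    rw [(isOpen_ext h).frontier_eq]
    rintro x ⟨h1, h2⟩
    rcases closure_ext_subset h h1 with h3 | h3
    · exact absurd h3 h2
    · exact h3
  refine subset_antisymm hsub fun x hx => ?_
  by_contra hxf
  have hxe : x ∉ closure (ext γ) := fun h1 => by
    refine hxf ?_
    rw [(isOpen_ext h).frontier_eq]
    exact ⟨h1, fun h2 => h2.1 hx⟩
  obtain ⟨r, hr, hball⟩ := Metric.isOpen_iff.1 isClosed_closure.isOpen_compl x hxe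
  obtain ⟨z, hz⟩ := hne
  set K : Set ℂ := tr γ \ ball x r with hKdef
  have hK : IsClosed K := hc.isClosed.sdiff isOpen_ball
  obtain ⟨θ, h4, h5⟩ := exists_arg_off h hz.1 hK sdiff_subset hx
    (fun h1 => h1.2 (mem_ball_self hr))
  have hzK : z ∈ Kᶜ := fun h1 => hz.1 h1.1
  have hU : IsOpen Kᶜ := hK.isOpen_compl
  have hub : ¬ Bornology.IsBounded (connectedComponentIn Kᶜ z) := fun hb => by
    have h6 := frontier_component hU z
    rw [compl_compl] at h6
    exact borsuk hU.connectedComponentIn hb (mem_connectedComponentIn hzK) h6 hK h4 h5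
  obtain ⟨M, hM0, hM⟩ := hc.exists_bound
  obtain ⟨y, hy, hy2⟩ : ∃ y ∈ connectedComponentIn Kᶜ z, M < ‖y‖ := by
    by_contra h3
    push Not at h3
    exact hub (isBounded_iff_forall_norm_le.2 ⟨M, h3⟩)
  obtain ⟨w, -, hw1, hw2⟩ := (isPreconnected_connectedComponentIn (x := z) (F := Kᶜ))
    (jordanInterior γ ∪ ball x r) (ext γ) ((isOpen_ji h).union isOpen_ball) (isOpen_ext h)
    (fun w hw => by
      rcases cover h w with h6 | h6 | h6
      · left; right
        by_contra h7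
        exact connectedComponentIn_subset _ _ hw ⟨h6, h7⟩
      · exact Or.inl (Or.inl h6)
      · exact Or.inr h6)
    ⟨z, mem_connectedComponentIn hzK, Or.inl hz⟩ ⟨y, hy, far_mem_ext h hM hy2.le⟩
  rcases hw1 with h6 | h6
  · exact disjoint_left.1 (disj_ji_ext h) h6 hw2
  · exact hball h6 (subset_closure hw2)

end Crest.Agent.R158.Jt785
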