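import Crest.Agent.R158.Rs6_689

-- ▼ part R158/Rs7_689
section

/-!
# Row 158, Block R (helper689): conditional Harris inequality

* `IncOff S A` : the event is increasing in the coordinates outside the finite set `S`
* `harris_off` : `P(X) P(C) ≤ P(X ∩ C)` if `X`, `C` are increasing outside `S` and `C` does not depend on `S`
* `harris_cond` : `P(A ∩ B) P(C) ≤ P(A ∩ B ∩ C)`, `A` arbitrary event of `S`, `B` increasing,
  `C` increasing and not depending on `S`
-/

set_option autoImplicit false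

noncomputable section

namespace Crest.Agent.R158.Rs689

open MeasureTheory ProbabilityTheory unitInterval
open scoped ENNReal

variable {ι : Type*}

/-- increasing in the coordinates outside `S` -/
def IncOff (S : Finset ι) (A : Set (ι → Bool)) : Prop :=
  ∀ z z' : ι → Bool, (∀ e ∈ S, z e = z' e) → (∀ e, z e = true → z' e = true) → z ∈ A → z' ∈ A

theorem Inc.incOff {A : Set (ι → Bool)} (hA : Inc A) (S : Finset ι) : IncOff S A :=
  fun z z' _ h hz => hA z z' h hz

theorem Dep.incOff {S : Finset ι} {A : Set (ι → Bool)} (hA : Dep S A) : IncOff S A :=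
  fun z z' h _ hz => (hA z z' h).1 hz

theorem IncOff.inter {S : Finset ι} {A B : Set (ι → Bool)} (hA : IncOff S A) (hB : IncOff S B) :
    IncOff S (A ∩ B) := fun z z' h h' hz => ⟨hA z z' h h' hz.1, hB z z' h h' hz.2⟩

theorem IncOff.union {S : Finset ι} {A B : Set (ι → Bool)} (hA : IncOff S A) (hB : IncOff S B) :
    IncOff S (A ∪ B) := fun z z' h h' hz => hz.imp (hA z z' h h') (hB z z' h h')

theorem IncOff.mono {S T : Finset ι} (h : S ⊆ T) {A : Set (ι → Bool)} (hA : IncOff S A) :
    IncOff T A := fun z z' h1 h2 hz => hA z z' (fun e he => h1 e (h he)) h2 hz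

theorem IncOff.iInter {κ : Sort*} {S : Finset ι} {A : κ → Set (ι → Bool)}
    (hA : ∀ k, IncOff S (A k)) : IncOff S (⋂ k, A k) := fun z z' h h' hz => by
  simp only [Set.mem_iInter] at hz ⊢
  exact fun k => hA k z z' h h' (hz k)

/-- overwrite the coordinates in `S` -/
def ovr (S : Finset ι) (y : S → Bool) (z : ι → Bool) : ι → Bool := by
  classical
  exact fun e => if h : e ∈ S then y ⟨e, h⟩ else z e

theorem ovr_mem {S : Finset ι} {y : S → Bool} {z : ι → Bool} {e : ι} (h : e ∈ S) :
    ovr S y z e = y ⟨e, h⟩ := by simp [ovr, h]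

theorem ovr_notMem {S : Finset ι} {y : S → Bool} {z : ι → Bool} {e : ι} (h : e ∉ S) :
    ovr S y z e = z e := by simp [ovr, h]

/-- section of an event -/
def sct (S : Finset ι) (y : S → Bool) (A : Set (ι → Bool)) : Set (ι → Bool) := ovr S y ⁻¹' A

/-- cylinder -/
def cyl (S : Finset ι) (y : S → Bool) : Set (ι → Bool) := S.restrict ⁻¹' {y}

theorem mem_cyl {S : Finset ι} {y : S → Bool} {z : ι → Bool} :
    z ∈ cyl S y ↔ ∀ e : S, z e = y e := by
  simp only [cyl, Set.mem_preimage, Set.mem_singleton_iff, funext_iff, Finset.restrict]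

theorem cyl_dep (S : Finset ι) (y : S → Bool) : Dep S (cyl S y) := fun z z' h => by
  rw [mem_cyl, mem_cyl]
  exact forall_congr' fun e => by rw [h e e.2]

theorem ovr_self {S : Finset ι} {y : S → Bool} {z : ι → Bool} (h : z ∈ cyl S y) :
    ovr S y z = z := by
  funext e
  by_cases he : e ∈ S
  · rw [ovr_mem he]; exact (mem_cyl.1 h ⟨e, he⟩).symm
  · rw [ovr_notMem he]

theorem cyl_inter_sct (S : Finset ι) (y : S → Bool) (A : Set (ι → Bool)) :
    cyl S y ∩ sct S y A = A ∩ cyl S y := by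
  ext z
  constructor
  · rintro ⟨h1, h2⟩
    have h3 : ovr S y z ∈ A := h2
    rw [ovr_self h1] at h3
    exact ⟨h3, h1⟩
  · rintro ⟨h1, h2⟩
    refine ⟨h2, ?_⟩
    show ovr S y z ∈ A
    rw [ovr_self h2]
    exact h1

theorem Dep.sct [DecidableEq ι] {S T : Finset ι} {A : Set (ι → Bool)} (hA : Dep T A) (y : S → Bool) :
    Dep (T \ S) (sct S y A) := fun z z' h => by
  refine hA _ _ fun e he => ?_
  by_cases heS : e ∈ S
  · rw [ovr_mem heS, ovr_mem heS]
  · rw [ovr_notMem heS, ovr_notMem heS]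
    exact h e (Finset.mem_sdiff.2 ⟨he, heS⟩)

theorem IncOff.sct {S : Finset ι} {A : Set (ι → Bool)} (hA : IncOff S A) (y : S → Bool) :
    Inc (sct S y A) := fun z z' h hz => by
  refine hA _ _ (fun e he => ?_) (fun e => ?_) hz
  · rw [ovr_mem he, ovr_mem he]
  · by_cases heS : e ∈ S
    · rw [ovr_mem heS, ovr_mem heS]; exact id
    · rw [ovr_notMem heS, ovr_notMem heS]; exact h e

theorem sct_of_dep {S U : Finset ι} (hd : Disjoint S U) {A : Set (ι → Bool)} (hA : Dep U A)
    (y : S → Bool) : Rs689.sct S y A = A := by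
  ext z
  refine hA _ _ fun e he => ?_
  exact ovr_notMem fun h => Finset.disjoint_left.1 hd h he

theorem sct_inter (S : Finset ι) (y : S → Bool) (A B : Set (ι → Bool)) :
    sct S y (A ∩ B) = sct S y A ∩ sct S y B := rfl

open Classical in
/-- decomposition over the configurations of `S` -/
theorem sum_cyl (w : ι → I) (S : Finset ι) {A : Set (ι → Bool)} (hA : MeasurableSet A) :
    (PB w).real A = ∑ y : S → Bool, (PB w).real (A ∩ cyl S y) := by
  classical
  have hm : ∀ y : S → Bool, MeasurableSet (A ∩ cyl S y) := fun y =>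
    hA.inter (cyl_dep S y).measurableSet
  rw [← measureReal_biUnion_finset (s := Finset.univ) (f := fun y => A ∩ cyl S y)]
  · congr 1
    ext z
    simp only [Finset.mem_univ, Set.iUnion_true, Set.mem_iUnion, Set.mem_inter_iff]
    constructor
    · intro h
      exact ⟨S.restrict z, h, rfl⟩
    · rintro ⟨y, h, _⟩
      exact h
  · intro y _ y' _ hyy
    rw [Function.onFun, Set.disjoint_left]
    rintro z ⟨_, h1⟩ ⟨_, h2⟩
    exact hyy ((show S.restrict z = y from h1).symm.trans h2)
  · intro y _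
    exact hm y



/-- decreasing in the coordinates outside `S` -/
def DecOff (S : Finset ι) (A : Set (ι → Bool)) : Prop := IncOff S Aᶜ


end Crest.Agent.R158.Rs689
end
end

-- ▼ part R158/Rs8_689

/-!
# Row 158, Block R / SEP (helper689): generalised FKG inequality (S3)

* `Decr A` : decreasing event; `harris_dec` : Harris for decreasing events
* `gen_fkg` : `P(A⁺ ∩ A⁻) P(E⁺) P(E⁻) ≤ P(A⁺ ∩ A⁻ ∩ E⁺ ∩ E⁻)` if `A⁺` (increasing outside `S`) depends on
  `S ∪ S⁺`, `A⁻` (decreasing outside `S`) on `S ∪ S⁻`, `E⁺` increasing on `S⁺`, `E⁻` decreasing on `S⁻`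
* `gen_fkg'` : the same with "`A⁺` does not depend on `S⁻`, `A⁻` does not depend on `S⁺`"
* `gen_fkg_prod` : finitely many forced events
-/

set_option autoImplicit false

noncomputable section

namespace Crest.Agent.R158.Rs689

open MeasureTheory ProbabilityTheory unitInterval
open scoped ENNReal

variable {ι : Type*}

/-- decreasing event -/
def Decr (A : Set (ι → Bool)) : Prop :=
  ∀ z z' : ι → Bool, (∀ e, z' e = true → z e = true) → z ∈ A → z' ∈ A

theorem Decr.compl {A : Set (ι → Bool)} (hA : Decr A) : Inc Aᶜ :=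
  fun z z' h hz hz' => hz (hA z' z h hz')

theorem Inc.compl {A : Set (ι → Bool)} (hA : Inc A) : Decr Aᶜ :=
  fun z z' h hz hz' => hz (hA z' z h hz')

theorem decr_iff {A : Set (ι → Bool)} : Decr A ↔ Inc Aᶜ :=
  ⟨Decr.compl, fun h => by simpa using h.compl⟩

theorem Decr.inter {A B : Set (ι → Bool)} (hA : Decr A) (hB : Decr B) : Decr (A ∩ B) :=
  fun z z' h hz => ⟨hA z z' h hz.1, hB z z' h hz.2⟩

theorem Decr.union {A B : Set (ι → Bool)} (hA : Decr A) (hB : Decr B) : Decr (A ∪ B) :=
  fun z z' h hz => hz.imp (hA z z' h) (hB z z' h)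

theorem Decr.iInter {κ : Sort*} {A : κ → Set (ι → Bool)} (hA : ∀ k, Decr (A k)) :
    Decr (⋂ k, A k) := fun z z' h hz => by
  simp only [Set.mem_iInter] at hz ⊢
  exact fun k => hA k z z' h (hz k)

theorem Inc.univ : Inc (Set.univ : Set (ι → Bool)) := fun _ _ _ _ => trivial

theorem Decr.univ : Decr (Set.univ : Set (ι → Bool)) := fun _ _ _ _ => trivial

theorem PB_compl (w : ι → I) {S : Finset ι} {A : Set (ι → Bool)} (hA : Dep S A) :
    (PB w).real Aᶜ = 1 - (PB w).real A := by
  rw [measureReal_compl hA.measurableSet]; simp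

/-- Harris' inequality for decreasing events -/
theorem harris_dec (w : ι → I) {S T : Finset ι} {A B : Set (ι → Bool)} (hA : Dep S A)
    (hB : Dep T B) (iA : Decr A) (iB : Decr B) :
    (PB w).real A * (PB w).real B ≤ (PB w).real (A ∩ B) := by
  classical
  have h := harris w hA.compl hB.compl iA.compl iB.compl
  have hAB : Dep (S ∪ T) (A ∪ B) := (hA.mono Finset.subset_union_left).union
    (hB.mono Finset.subset_union_right)
  rw [← Set.compl_union, PB_compl w hA, PB_compl w hB, PB_compl w hAB] at h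
  have h2 : (PB w).real (A ∪ B) + (PB w).real (A ∩ B) = (PB w).real A + (PB w).real B :=
    measureReal_union_add_inter hB.measurableSet
  nlinarith

/-- Harris' inequality, opposite monotonicities -/
theorem harris_opp (w : ι → I) {S T : Finset ι} {A B : Set (ι → Bool)} (hA : Dep S A)
    (hB : Dep T B) (iA : Inc A) (iB : Decr B) :
    (PB w).real (A ∩ B) ≤ (PB w).real A * (PB w).real B := by
  have h := harris w hA hB.compl iA iB.compl
  have h2 : (PB w).real (A ∩ B) + (PB w).real (A ∩ Bᶜ) = (PB w).real A := by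
    have := measureReal_inter_add_sdiff (μ := PB w) (s := A) (t := B) hB.measurableSet
    exact this
  rw [PB_compl w hB] at h
  nlinarith

theorem DecOff.sct {S : Finset ι} {A : Set (ι → Bool)} (hA : DecOff S A) (y : S → Bool) :
    Decr (sct S y A) := by
  rw [decr_iff]
  exact IncOff.sct hA y

theorem Decr.decOff {A : Set (ι → Bool)} (hA : Decr A) (S : Finset ι) : DecOff S A :=
  hA.compl.incOff S

theorem Dep.decOff {S : Finset ι} {A : Set (ι → Bool)} (hA : Dep S A) : DecOff S A :=
  hA.compl.incOff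

theorem DecOff.inter {S : Finset ι} {A B : Set (ι → Bool)} (hA : DecOff S A) (hB : DecOff S B) :
    DecOff S (A ∩ B) := by
  unfold DecOff
  rw [Set.compl_inter]
  exact IncOff.union hA hB

/-- **Generalised FKG inequality** -/
theorem gen_fkg (w : ι → I) {S Sp Sm Tp Tm : Finset ι} {Ap Am Ep Em : Set (ι → Bool)}
    (hAp : Dep Tp Ap) (hAm : Dep Tm Am) (hEp : Dep Sp Ep) (hEm : Dep Sm Em)
    (hTp : ∀ e ∈ Tp, e ∉ S → e ∈ Sp) (hTm : ∀ e ∈ Tm, e ∉ S → e ∈ Sm)
    (d1 : Disjoint S Sp) (d2 : Disjoint S Sm) (d3 : Disjoint Sp Sm)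
    (iAp : IncOff S Ap) (iAm : DecOff S Am) (iEp : Inc Ep) (iEm : Decr Em) :
    (PB w).real (Ap ∩ Am) * ((PB w).real Ep * (PB w).real Em) ≤
      (PB w).real ((Ap ∩ Am) ∩ (Ep ∩ Em)) := by
  classical
  have hA : Dep (Tp ∪ Tm) (Ap ∩ Am) := (hAp.mono Finset.subset_union_left).inter
    (hAm.mono Finset.subset_union_right)
  have hE : Dep (Sp ∪ Sm) (Ep ∩ Em) := (hEp.mono Finset.subset_union_left).inter
    (hEm.mono Finset.subset_union_right)
  have hAE : Dep ((Tp ∪ Tm) ∪ (Sp ∪ Sm)) ((Ap ∩ Am) ∩ (Ep ∩ Em)) :=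
    (hA.mono Finset.subset_union_left).inter (hE.mono Finset.subset_union_right)
  rw [sum_cyl w S hA.measurableSet, sum_cyl w S hAE.measurableSet, Finset.sum_mul]
  refine Finset.sum_le_sum fun y _ => ?_
  rw [← cyl_inter_sct, ← cyl_inter_sct]
  -- the sections
  have e1 : Dep Sp (sct S y Ap) := (hAp.sct y).mono fun e he => by
    rw [Finset.mem_sdiff] at he
    exact hTp e he.1 he.2
  have e2 : Dep Sm (sct S y Am) := (hAm.sct y).mono fun e he => by
    rw [Finset.mem_sdiff] at he
    exact hTm e he.1 he.2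
  have hU : Disjoint S (Sp ∪ Sm) := Finset.disjoint_union_right.2 ⟨d1, d2⟩
  have e3 : sct S y ((Ap ∩ Am) ∩ (Ep ∩ Em)) =
      (sct S y Ap ∩ Ep) ∩ (sct S y Am ∩ Em) := by
    rw [sct_inter, sct_inter, sct_inter, sct_of_dep d1 hEp, sct_of_dep d2 hEm]
    exact Set.inter_inter_inter_comm _ _ _ _
  rw [e3, sct_inter]
  have f1 : Dep Sp (sct S y Ap ∩ Ep) := e1.inter hEp
  have f2 : Dep Sm (sct S y Am ∩ Em) := e2.inter hEm
  rw [PB_indep_real w hU (cyl_dep S y) ((e1.mono Finset.subset_union_left).inter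
      (e2.mono Finset.subset_union_right)),
    PB_indep_real w hU (cyl_dep S y) ((f1.mono Finset.subset_union_left).inter
      (f2.mono Finset.subset_union_right)),
    PB_indep_real w d3 e1 e2, PB_indep_real w d3 f1 f2, mul_assoc]
  refine mul_le_mul_of_nonneg_left ?_ measureReal_nonneg
  have g1 : (PB w).real (sct S y Ap) * (PB w).real Ep ≤ (PB w).real (sct S y Ap ∩ Ep) :=
    harris w e1 hEp (IncOff.sct iAp y) iEp
  have g2 : (PB w).real (sct S y Am) * (PB w).real Em ≤ (PB w).real (sct S y Am ∩ Em) :=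
    harris_dec w e2 hEm (DecOff.sct iAm y) iEm
  calc (PB w).real (sct S y Ap) * (PB w).real (sct S y Am) * ((PB w).real Ep * (PB w).real Em)
      = ((PB w).real (sct S y Ap) * (PB w).real Ep) *
          ((PB w).real (sct S y Am) * (PB w).real Em) := by ring
    _ ≤ _ := mul_le_mul g1 g2 (mul_nonneg measureReal_nonneg measureReal_nonneg)
        measureReal_nonneg

/-- **Generalised FKG inequality**, version "`A⁺` does not depend on `S⁻` and `A⁻` not on `S⁺`". -/
theorem gen_fkg' (w : ι → I) {Sp Sm Tp Tm : Finset ι} {Ap Am Ep Em : Set (ι → Bool)}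
    (hAp : Dep Tp Ap) (hAm : Dep Tm Am) (hEp : Dep Sp Ep) (hEm : Dep Sm Em)
    (d1 : Disjoint Tp Sm) (d2 : Disjoint Tm Sp) (d3 : Disjoint Sp Sm)
    (iAp : Inc Ap) (iAm : Decr Am) (iEp : Inc Ep) (iEm : Decr Em) :
    (PB w).real (Ap ∩ Am) * ((PB w).real Ep * (PB w).real Em) ≤
      (PB w).real ((Ap ∩ Am) ∩ (Ep ∩ Em)) := by
  classical
  refine gen_fkg w (S := (Tp ∪ Tm) \ (Sp ∪ Sm)) hAp hAm hEp hEm ?_ ?_ ?_ ?_ d3
    (iAp.incOff _) (iAm.decOff _) iEp iEm
  · intro e he hS
    simp only [Finset.mem_sdiff, Finset.mem_union, not_and, not_not] at hS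
    rcases hS (Or.inl he) with h | h
    · exact h
    · exact absurd h (Finset.disjoint_left.1 d1 he)
  · intro e he hS
    simp only [Finset.mem_sdiff, Finset.mem_union, not_and, not_not] at hS
    rcases hS (Or.inr he) with h | h
    · exact absurd h (Finset.disjoint_left.1 d2 he)
    · exact h
  · refine Finset.disjoint_left.2 fun e he he' => ?_
    simp only [Finset.mem_sdiff, Finset.mem_union] at he
    exact he.2 (Or.inl he')
  · refine Finset.disjoint_left.2 fun e he he' => ?_
    simp only [Finset.mem_sdiff, Finset.mem_union] at he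
    exact he.2 (Or.inr he')



/-! ### dual events -/

open Crest.Agent.R161.Geo729 in
theorem Inc.dual {A : Set Cfz} (hA : Inc A) : Decr (dual ⁻¹' A) := by
  intro z z' h hz
  refine hA _ _ (fun e he => ?_) hz
  rw [dual_eq_true] at he ⊢
  by_contra h1
  rw [Bool.not_eq_false] at h1
  rw [h _ h1] at he
  exact absurd he (by simp)

open Crest.Agent.R161.Geo729 in
/-- generalised FKG, primal forced event `Ep` and dual forced event `dual z ∈ F` -/
theorem gen_fkg_dual (p : I) {Sp Sm Tp Tm : Finset Edge} {Ap Am Ep F : Set Cfz}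
    (hAp : Dep Tp Ap) (hAm : Dep Tm Am) (hEp : Dep Sp Ep) (hF : Dep Sm F)
    (d1 : Disjoint Tp (Sm.map dE.symm.toEmbedding)) (d2 : Disjoint Tm Sp)
    (d3 : Disjoint Sp (Sm.map dE.symm.toEmbedding))
    (iAp : Inc Ap) (iAm : Decr Am) (iEp : Inc Ep) (iF : Inc F) :
    (nu p).real (Ap ∩ Am) * ((nu p).real Ep * (nu (σ p)).real F) ≤
      (nu p).real ((Ap ∩ Am) ∩ (Ep ∩ Rs689.dual ⁻¹' F)) := by
  have h := gen_fkg' (fun _ : Edge => p) hAp hAm hEp hF.dual d1 d2 d3 iAp iAm iEp iF.dual
  rw [← nu_dual p hF.measurableSet]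
  exact h

end Crest.Agent.R158.Rs689
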