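import Crest.Agent.R158.Ru_874

/-!
# Row 158, Block G (helper874): pivotal edges and pivotal blocks see two clusters in every annulus

Pure graph theory (no duality, no planarity).

* `edF D`        : the (finite set of) edges with both ends in the finite vertex set `D`
* `frS H b z`    : `z` with all edges of `H` forced to `b`
* `BPiv H F`     : the block `H` is pivotal for `F`
* `TT D I O`     : two distinct open clusters of `D` join `I` to `O`
* `TW D I O W`   : some open cluster of `D` joins `I` to `O` and does not touch `W`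
* `bpiv_TT`      : `H` pivotal for `EV S A B`, `A`, `B` far away: two clusters cross `S ∩ An c l m`
* `bpiv_TW`      : `H` pivotal for `EV S A B`, only `B` far away: a cluster crosses `S ∩ An c l m`
                   and does not touch `A` there
* `dep_oc`, `dep_EV`, `dep_TT`, `dep_TW`, `edF_disj` : locality
-/

set_option autoImplicit false

noncomputable section

namespace Crest.Agent.R158.Ru874

open Crest.Agent.R158.Rs689 Crest.Agent.R161.Geo729 Crest.Agent.R161.Topo374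
open Crest.Agent.R161.Dual374 Crest.Agent.R161.Tas682

/-! ### edges of a vertex set -/

/-- the edges with both ends in `D` (`∅` if `D` is infinite) -/
def edF (D : Set P2) : Finset Edge := by
  classical
  exact if h : D.Finite then (h.toFinset ×ˢ Finset.univ).filter (fun e => tgt e ∈ D) else ∅

theorem mem_edF {D : Set P2} (hD : D.Finite) {e : Edge} :
    e ∈ edF D ↔ src e ∈ D ∧ tgt e ∈ D := by
  classical
  unfold edF
  rw [dif_pos hD]
  simp [src]

theorem of_mem_edF {D : Set P2} {e : Edge} (h : e ∈ edF D) : src e ∈ D ∧ tgt e ∈ D := by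
  classical
  by_cases hD : D.Finite
  · exact (mem_edF hD).1 h
  · unfold edF at h
    rw [dif_neg hD] at h
    simp at h

theorem edF_mono {D D' : Set P2} (hD' : D'.Finite) (h : D ⊆ D') : edF D ⊆ edF D' := fun _ he =>
  (mem_edF hD').2 ⟨h (of_mem_edF he).1, h (of_mem_edF he).2⟩

theorem edF_disj {D D' : Set P2} (h : Disjoint D D') : Disjoint (edF D) (edF D') := by
  rw [Finset.disjoint_left]
  intro e he he'
  exact Set.disjoint_left.1 h (of_mem_edF he).1 (of_mem_edF he').1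

/-! ### locality -/

theorem oc_congr {z z' : Cf} {S : Set P2} (hz : ∀ e, src e ∈ S → tgt e ∈ S → z e = z' e)
    {u v : P2} (h : OC z S u v) : OC z' S u v := by
  refine ⟨h.1, Relation.ReflTransGen.mono (fun a b hab => ?_) _ _ h.2⟩
  obtain ⟨⟨e, he, h1⟩, ha, hb⟩ := hab
  refine ⟨⟨e, ?_, h1⟩, ha, hb⟩
  have h2 : z e = z' e := by
    rcases h1 with ⟨rfl, rfl⟩ | ⟨rfl, rfl⟩
    · exact hz e ha hb
    · exact hz e hb ha
  show z' e = true
  rw [← h2]
  exact he

theorem oc_iff {z z' : Cf} {S : Set P2} (hz : ∀ e, src e ∈ S → tgt e ∈ S → z e = z' e)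
    {u v : P2} : OC z S u v ↔ OC z' S u v :=
  ⟨oc_congr hz, oc_congr fun e h1 h2 => (hz e h1 h2).symm⟩

/-- everything expressed by connections inside `D` depends on the edges of `D` -/
theorem dep_oc {D : Set P2} (hD : D.Finite) (F : (P2 → P2 → Prop) → Prop) :
    Dep (edF D) {z : Cf | F (OC z D)} := by
  intro z z' h
  have h1 : OC z D = OC z' D := by
    funext u v
    exact propext (oc_iff fun e h2 h3 => h e ((mem_edF hD).2 ⟨h2, h3⟩))
  show F (OC z D) ↔ F (OC z' D)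
  rw [h1]

/-- two distinct open clusters of `D` join `I` to `O` -/
def TT (D I O : Set P2) : Set Cf :=
  {z | ∃ u ∈ I, ∃ v ∈ O, ∃ u' ∈ I, ∃ v' ∈ O, OC z D u v ∧ OC z D u' v' ∧ ¬ OC z D u u'}

/-- some open cluster of `D` joins `I` to `O` and does not touch `W` -/
def TW (D I O W : Set P2) : Set Cf :=
  {z | ∃ u ∈ I, ∃ v ∈ O, OC z D u v ∧ ∀ w ∈ W, ¬ OC z D u w}

theorem dep_EV {D : Set P2} (hD : D.Finite) (A B : Set P2) : Dep (edF D) (EV D A B) :=
  dep_oc hD fun R => ∃ u ∈ A, ∃ v ∈ B, R u v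

theorem dep_TT {D : Set P2} (hD : D.Finite) (I O : Set P2) : Dep (edF D) (TT D I O) :=
  dep_oc hD fun R => ∃ u ∈ I, ∃ v ∈ O, ∃ u' ∈ I, ∃ v' ∈ O, R u v ∧ R u' v' ∧ ¬ R u u'

theorem dep_TW {D : Set P2} (hD : D.Finite) (I O W : Set P2) : Dep (edF D) (TW D I O W) :=
  dep_oc hD fun R => ∃ u ∈ I, ∃ v ∈ O, R u v ∧ ∀ w ∈ W, ¬ R u w

theorem inc_EV (D A B : Set P2) : Inc (EV D A B) := by
  rintro z z' h ⟨u, hu, v, hv, huv⟩
  refine ⟨u, hu, v, hv, huv.mono (fun e => ?_) subset_rfl⟩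
  rcases hz : z e with _ | _
  · exact Bool.false_le _
  · rw [h e hz]

theorem TT_sub_EV (D I O : Set P2) : TT D I O ⊆ EV D I O := by
  rintro z ⟨u, hu, v, hv, -, -, -, -, h, -⟩
  exact ⟨u, hu, v, hv, h⟩




/-! ### shrinking the annulus -/

section Shrink

variable {z : Cf} {S : Set P2} (f : P2 → ℤ) (hf : ∀ a b : P2, Nbr a b → f b ≤ f a + 1)
  {l m : ℤ}

include hf in
/-- a connection from `{f ≤ l}` to `{m ≤ f}` crosses `S ∩ {l ≤ f ≤ m}` -/
theorem oc_shrink (hlm : l ≤ m) {a b : P2} (h : OC z S a b) (ha : f a ≤ l) (hb : m ≤ f b) :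
    ∃ u v : P2, f u = l ∧ f v = m ∧ OC z (S ∩ {p | l ≤ f p ∧ f p ≤ m}) u v ∧ OC z S a u := by
  obtain ⟨v, hv, h1⟩ := first_hit f hf m h (ha.trans hlm) hb
  obtain ⟨u, hu, h2, h3⟩ := last_exit f hf l h1 ha (hv ▸ hlm)
  refine ⟨u, v, hu, hv, h2.monoS ?_, h3.monoS fun p hp => hp.1⟩
  rintro p ⟨⟨hp1, hp2⟩, hp3⟩
  exact ⟨hp1, hp3, hp2⟩

include hf in
theorem EV_shrink (hlm : l ≤ m) {A B : Set P2} (hA : ∀ a ∈ A, f a ≤ l) (hB : ∀ b ∈ B, m ≤ f b) :
    EV S A B ⊆ EV (S ∩ {p | l ≤ f p ∧ f p ≤ m}) {p | f p = l} {p | f p = m} := by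
  rintro z ⟨a, ha, b, hb, h⟩
  obtain ⟨u, v, hu, hv, h1, -⟩ := oc_shrink f hf hlm h (hA a ha) (hB b hb)
  exact ⟨u, hu, v, hv, h1⟩

include hf in
theorem TT_shrink (hlm : l ≤ m) {A B : Set P2} (hA : ∀ a ∈ A, f a ≤ l) (hB : ∀ b ∈ B, m ≤ f b) :
    TT S A B ⊆ TT (S ∩ {p | l ≤ f p ∧ f p ≤ m}) {p | f p = l} {p | f p = m} := by
  rintro z ⟨a, ha, b, hb, a', ha', b', hb', h, h', hn⟩
  obtain ⟨u, v, hu, hv, h1, h2⟩ := oc_shrink f hf hlm h (hA a ha) (hB b hb)
  obtain ⟨u', v', hu', hv', h1', h2'⟩ := oc_shrink f hf hlm h' (hA a' ha') (hB b' hb')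
  refine ⟨u, hu, v, hv, u', hu', v', hv', h1, h1', fun h3 => hn ?_⟩
  exact (h2.trans (h3.monoS Set.inter_subset_left)).trans h2'.symm


end Shrink

/-! ### blocks -/

open Classical in
/-- `z` with the edges of `H` forced to `b` -/
def frS (H : Set Edge) (b : Bool) (z : Cf) : Cf := fun e => if e ∈ H then b else z e

theorem frS_mem {H : Set Edge} {b : Bool} {z : Cf} {e : Edge} (h : e ∈ H) : frS H b z e = b := by
  classical
  simp [frS, h]

theorem frS_notMem {H : Set Edge} {b : Bool} {z : Cf} {e : Edge} (h : e ∉ H) :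
    frS H b z e = z e := by
  classical
  simp [frS, h]


/-- the block `H` is pivotal for `F` -/
def BPiv (H : Set Edge) (F : Set Cf) : Set Cf :=
  {z | ∃ z1 z2 : Cf, (∀ e ∉ H, z1 e = z e) ∧ (∀ e ∉ H, z2 e = z e) ∧ z1 ∈ F ∧ z2 ∉ F}

theorem bpiv_inc {H : Set Edge} {F : Set Cf} (hF : Inc F) {z : Cf} :
    z ∈ BPiv H F ↔ frS H true z ∈ F ∧ frS H false z ∉ F := by
  constructor
  · rintro ⟨z1, z2, h1, h2, h3, h4⟩
    refine ⟨hF _ _ (fun e he => ?_) h3, fun h5 => h4 (hF _ _ (fun e he => ?_) h5)⟩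
    · by_cases hH : e ∈ H
      · exact frS_mem hH
      · rw [frS_notMem hH, ← h1 e hH]
        exact he
    · by_cases hH : e ∈ H
      · rw [frS_mem hH] at he
        cases he
      · rw [frS_notMem hH] at he
        rw [h2 e hH]
        exact he
  · rintro ⟨h1, h2⟩
    exact ⟨_, _, fun e he => frS_notMem he, fun e he => frS_notMem he, h1, h2⟩

theorem bpiv_mono {H H' : Set Edge} (h : H ⊆ H') (F : Set Cf) : BPiv H F ⊆ BPiv H' F := by
  rintro z ⟨z1, z2, h1, h2, h3⟩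
  exact ⟨z1, z2, fun e he => h1 e fun h' => he (h h'), fun e he => h2 e fun h' => he (h h'), h3⟩


theorem dep_bpiv {S : Finset Edge} {F : Set Cf} (hF : Dep S F) (H : Set Edge) :
    Dep S (BPiv H F) := by
  have key : ∀ z z' : Cf, (∀ e ∈ S, z e = z' e) → z ∈ BPiv H F → z' ∈ BPiv H F := by
    rintro z z' h ⟨z1, z2, h1, h2, h3, h4⟩
    classical
    refine ⟨fun e => if e ∈ H then z1 e else z' e, fun e => if e ∈ H then z2 e else z' e,
      fun e he => by simp [he], fun e he => by simp [he], ?_, ?_⟩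
    · refine (hF z1 _ fun e he => ?_).1 h3
      by_cases hH : e ∈ H
      · simp [hH]
      · simp only [hH, if_false]
        rw [h1 e hH, h e he]
    · refine fun h5 => h4 ((hF _ z2 fun e he => ?_).1 h5)
      by_cases hH : e ∈ H
      · simp [hH]
      · simp only [hH, if_false]
        rw [h2 e hH, h e he]
  exact fun z z' h => ⟨key z z' h, key z' z fun e he => (h e he).symm⟩


/-- opening the block `H`: either nothing happens, or the cluster of `x` reaches an end of an edge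
of `H` -/
theorem oc_open {H : Set Edge} {z : Cf} {S : Set P2} {x y : P2} (h : OC (frS H true z) S x y) :
    OC (frS H false z) S x y ∨
      ∃ a : P2, (∃ e ∈ H, a = src e ∨ a = tgt e) ∧ OC (frS H false z) S x a := by
  obtain ⟨hx, h⟩ := h
  induction h with
  | refl => exact Or.inl (OC.refl hx)
  | @tail b c _ h2 ih =>
    rcases ih with ih | ih
    · obtain ⟨⟨e, he, h3⟩, hb, hc⟩ := h2
      by_cases hH : e ∈ H
      · refine Or.inr ⟨b, ⟨e, hH, ?_⟩, ih⟩
        rcases h3 with h3 | h3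
        · exact Or.inl h3.1
        · exact Or.inr h3.1
      · refine Or.inl ⟨hx, ih.2.tail ⟨⟨e, ?_, h3⟩, hb, hc⟩⟩
        have he' : frS H true z e = true := he
        show frS H false z e = true
        rw [frS_notMem hH] at he' ⊢
        exact he'
    · exact Or.inr ih

/-- **a pivotal block sees two clusters**: the clusters (with `H` closed) of two ends of edges of `H`
reach `A` resp. `B`, and are not joined to the other target. -/
theorem bpiv_EV {H : Set Edge} {S A B : Set P2} {z : Cf} (hz : z ∈ BPiv H (EV S A B)) :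
    ∃ a b : P2, (∃ e ∈ H, a = src e ∨ a = tgt e) ∧ (∃ e ∈ H, b = src e ∨ b = tgt e) ∧
      (∃ v ∈ A, OC (frS H false z) S a v) ∧ (∃ v ∈ B, OC (frS H false z) S b v) ∧
      (∀ v ∈ B, ¬ OC (frS H false z) S a v) ∧ (∀ v ∈ A, ¬ OC (frS H false z) S b v) ∧
      ¬ OC (frS H false z) S a b := by
  rw [bpiv_inc (inc_EV S A B)] at hz
  obtain ⟨⟨x, hx, y, hy, h⟩, hn⟩ := hz
  have hn' : ∀ x ∈ A, ∀ y ∈ B, ¬ OC (frS H false z) S x y := fun x hx y hy h =>
    hn ⟨x, hx, y, hy, h⟩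
  rcases oc_open h with h1 | ⟨a, ha, h1⟩
  · exact absurd h1 (hn' x hx y hy)
  rcases oc_open h.symm with h2 | ⟨b, hb, h2⟩
  · exact absurd h2.symm (hn' x hx y hy)
  refine ⟨a, b, ha, hb, ⟨x, hx, h1.symm⟩, ⟨y, hy, h2.symm⟩, fun v hv h3 => ?_, fun v hv h3 => ?_,
    fun h3 => ?_⟩
  · exact hn' x hx v hv (h1.trans h3)
  · exact hn' v hv y hy (h2.trans h3).symm
  · exact hn' x hx y hy ((h1.trans h3).trans h2.symm)

/-- the annulus `l ≤ sd c · ≤ m` -/
def An (c : P2) (l m : ℤ) : Set P2 := {p | l ≤ sd c p ∧ sd c p ≤ m}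

theorem an_finite (c : P2) (l m : ℤ) : (An c l m).Finite := by
  refine (rect_finite (c.1 - m) (c.1 + m) (c.2 - m) (c.2 + m)).subset ?_
  intro p hp
  have := sd_le.1 hp.2
  exact this

theorem an_mono {c : P2} {l m l' m' : ℤ} (h1 : l' ≤ l) (h2 : m ≤ m') : An c l m ⊆ An c l' m' :=
  fun _ hp => ⟨h1.trans hp.1, hp.2.trans h2⟩

/-- no edge of `H` has both ends outside the open ball -/
theorem frS_oc {H : Set Edge} {S : Set P2} {c : P2} {l m : ℤ} {z : Cf} (b : Bool)
    (hD : ∀ e ∈ H, ¬ (l ≤ sd c (src e) ∧ l ≤ sd c (tgt e))) {u v : P2} :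
    OC (frS H b z) (S ∩ An c l m) u v ↔ OC z (S ∩ An c l m) u v := by
  refine oc_iff fun e h1 h2 => ?_
  by_cases hH : e ∈ H
  · exact absurd ⟨h1.2.1, h2.2.1⟩ (hD e hH)
  · exact frS_notMem hH

/-- **bulk and free sides**: if both targets are at distance at least `m` from `c`, a pivotal block
inside the ball of radius `l` around `c` sees two distinct clusters crossing `S ∩ An c l m`. -/
theorem bpiv_TT {H : Set Edge} {S A B : Set P2} {c : P2} {l m : ℤ} (hlm : l ≤ m)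
    (hH : ∀ e ∈ H, sd c (src e) ≤ l ∧ sd c (tgt e) ≤ l)
    (hD : ∀ e ∈ H, ¬ (l ≤ sd c (src e) ∧ l ≤ sd c (tgt e)))
    (hA : ∀ a ∈ A, m ≤ sd c a) (hB : ∀ b ∈ B, m ≤ sd c b) :
    BPiv H (EV S A B) ⊆ TT (S ∩ An c l m) {p | sd c p = l} {p | sd c p = m} := by
  intro z hz
  obtain ⟨a, b, ⟨e, he, ha⟩, ⟨e', he', hb⟩, ⟨x, hx, h1⟩, ⟨y, hy, h2⟩, -, -, h3⟩ := bpiv_EV hz
  have hal : sd c a ≤ l := by
    rcases ha with rfl | rfl
    · exact (hH e he).1
    · exact (hH e he).2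
  have hbl : sd c b ≤ l := by
    rcases hb with rfl | rfl
    · exact (hH e' he').1
    · exact (hH e' he').2
  obtain ⟨u, v, hu, hv, h4, h5⟩ := oc_shrink (sd c) (sd_nbr c) hlm h1 hal (hA x hx)
  obtain ⟨u', v', hu', hv', h4', h5'⟩ := oc_shrink (sd c) (sd_nbr c) hlm h2 hbl (hB y hy)
  refine ⟨u, hu, v, hv, u', hu', v', hv', (frS_oc false hD).1 h4, (frS_oc false hD).1 h4',
    fun h6 => h3 ?_⟩
  have h7 := (frS_oc (S := S) (z := z) false hD).2 h6
  exact (h5.trans (h7.monoS Set.inter_subset_left)).trans h5'.symm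

/-- **near the target `A`**: if `B` is at distance at least `m` from `c`, a pivotal block inside the
ball of radius `l` around `c` sees a cluster crossing `S ∩ An c l m` which does not touch `A`
inside `S ∩ An c l m`. -/
theorem bpiv_TW {H : Set Edge} {S A B : Set P2} {c : P2} {l m : ℤ} (hlm : l ≤ m)
    (hH : ∀ e ∈ H, sd c (src e) ≤ l ∧ sd c (tgt e) ≤ l)
    (hD : ∀ e ∈ H, ¬ (l ≤ sd c (src e) ∧ l ≤ sd c (tgt e)))
    (hB : ∀ b ∈ B, m ≤ sd c b) :
    BPiv H (EV S A B) ⊆ TW (S ∩ An c l m) {p | sd c p = l} {p | sd c p = m} A := by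
  intro z hz
  obtain ⟨a, b, -, ⟨e', he', hb⟩, -, ⟨y, hy, h2⟩, -, h3, -⟩ := bpiv_EV hz
  have hbl : sd c b ≤ l := by
    rcases hb with rfl | rfl
    · exact (hH e' he').1
    · exact (hH e' he').2
  obtain ⟨u', v', hu', hv', h4', h5'⟩ := oc_shrink (sd c) (sd_nbr c) hlm h2 hbl (hB y hy)
  refine ⟨u', hu', v', hv', (frS_oc false hD).1 h4', fun w hw h6 => h3 w hw ?_⟩
  have h7 := (frS_oc (S := S) (z := z) false hD).2 h6
  exact h5'.trans (h7.monoS Set.inter_subset_left)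

/-- near the target `B` -/
theorem bpiv_TW' {H : Set Edge} {S A B : Set P2} {c : P2} {l m : ℤ} (hlm : l ≤ m)
    (hH : ∀ e ∈ H, sd c (src e) ≤ l ∧ sd c (tgt e) ≤ l)
    (hD : ∀ e ∈ H, ¬ (l ≤ sd c (src e) ∧ l ≤ sd c (tgt e)))
    (hA : ∀ a ∈ A, m ≤ sd c a) :
    BPiv H (EV S A B) ⊆ TW (S ∩ An c l m) {p | sd c p = l} {p | sd c p = m} B := by
  rw [EV_symm]
  exact bpiv_TW hlm hH hD hA


/-! ### one edge -/


end Crest.Agent.R158.Ru874
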