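import Crest.Agent.R158.Rs10_689
import Crest.Agent.R158.Ru2_874
import Crest.Agent.R158.Rs8_689

/-!
# Row 158, BLOCK A4 (helper109): arm comparisons at `p = 1/2` ((I5) of doc 1912)

* `P1 s R` : one-arm probability; `parm_P1`, `darm_P1` (any centre, both colours)
* `parm_ann`, `dep_parm`, `dep_darm`, `inc_parm`, `decr_darm` : annulus support
* `P1_le`, `P1_ge`, `P1_mul_le`, `P1_qm`, `P1_ext`
* `opp_le`, `two_le` : a primal and a dual arm
-/

set_option autoImplicit false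

noncomputable section

namespace Crest.Agent.R158.Ac109

open MeasureTheory ProbabilityTheory unitInterval
open Crest.Agent.R161.Geo729 Crest.Agent.R161.Topo374 Crest.Agent.R161.Dual374
open Crest.Agent.R161.Tas682 Crest.Agent.R158.Rs689
open Crest.Agent.R158.Qm522 Crest.Agent.R158.Ru874

/-- one-arm probability at `p = 1/2` -/
def P1 (s R : ℤ) : ℝ := (nu hf).real (AR (0, 0) s R)

theorem parm_P1 (x : P2) {s R : ℤ} (h : s ≤ R) : (nu hf).real (PArm x s R) = P1 s R :=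
  parm_prob hf x h

theorem darm_P1 (x : P2) {s R : ℤ} (h : s ≤ R) : (nu hf).real (DArm x s R) = P1 s R := by
  rw [darm_prob hf x h, sigma_hf]; rfl


theorem P1_nonneg (s R : ℤ) : 0 ≤ P1 s R := measureReal_nonneg



theorem P1_anti {s R R' : ℤ} (h : s ≤ R) (h' : R ≤ R') : P1 s R' ≤ P1 s R :=
  measureReal_mono (ar_anti h h')


/-! ### the annulus form -/

/-- a primal arm is a crossing of the closed annulus -/
theorem parm_ann {x : P2} {s R : ℤ} (h : s ≤ R) :
    PArm x s R = EV (An x s R) {p | sd x p = s} {p | sd x p = R} := by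
  apply Set.Subset.antisymm
  · rw [parm_eq h]
    have h1 := EV_shrink (S := Bl x R) (fun p => sd x p) (sd_nbr x) h (A := Bl x s) (B := Fr x R)
      (fun _ ha => ha) (fun _ hb => hb)
    refine h1.trans ?_
    rintro z ⟨u, hu, v, hv, h2⟩
    exact ⟨u, hu, v, hv, h2.monoS Set.inter_subset_right⟩
  · rintro z ⟨u, hu, v, hv, h2⟩
    exact ⟨u, v, le_of_eq hu, ge_of_eq hv,
      Relation.ReflTransGen.mono (fun _ _ h => h.1) _ _ h2.2⟩

theorem dep_parm {x : P2} {s R : ℤ} (h : s ≤ R) : Dep (edF (An x s R)) (PArm x s R) := by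
  rw [parm_ann h]
  exact dep_EV (an_finite _ _ _) _ _

theorem inc_parm {x : P2} {s R : ℤ} (h : s ≤ R) : Inc (PArm x s R) := by
  rw [parm_ann h]
  exact inc_EV _ _ _

theorem sd_tri (x y w : P2) : sd x w ≤ sd x y + sd y w := by
  unfold sd
  have h1 : |w.1 - x.1| ≤ |y.1 - x.1| + |w.1 - y.1| := by
    have := abs_add_le (y.1 - x.1) (w.1 - y.1)
    rw [show y.1 - x.1 + (w.1 - y.1) = w.1 - x.1 by ring] at this
    exact this
  have h2 : |w.2 - x.2| ≤ |y.2 - x.2| + |w.2 - y.2| := by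
    have := abs_add_le (y.2 - x.2) (w.2 - y.2)
    rw [show y.2 - x.2 + (w.2 - y.2) = w.2 - x.2 by ring] at this
    exact this
  have a1 := le_max_left |y.1 - x.1| |y.2 - x.2|
  have a2 := le_max_right |y.1 - x.1| |y.2 - x.2|
  have b1 := le_max_left |w.1 - y.1| |w.2 - y.2|
  have b2 := le_max_right |w.1 - y.1| |w.2 - y.2|
  exact max_le (by linarith) (by linarith)

theorem sd_symm' (x y : P2) : sd x y = sd y x := by
  unfold sd; rw [abs_sub_comm, abs_sub_comm y.2]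

theorem dE_near (e : Edge) : sd (src e) (src (dE.symm e)) ≤ 1 ∧ sd (src e) (tgt (dE.symm e)) ≤ 1 := by
  obtain ⟨⟨a, b⟩, k⟩ := e
  cases k <;> simp [sd, src, tgt]

theorem edF_map_sub {x : P2} {s R : ℤ} :
    (edF (An x s R)).map dE.symm.toEmbedding ⊆ edF (An x (s - 1) (R + 1)) := by
  intro e he
  rw [Finset.mem_map] at he
  obtain ⟨e', he', rfl⟩ := he
  obtain ⟨⟨h1, h2⟩, -⟩ := of_mem_edF he'
  obtain ⟨h3, h4⟩ := dE_near e'
  rw [mem_edF (an_finite _ _ _)]
  have t1 := sd_tri x (src e') (src (dE.symm e'))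
  have t2 := sd_tri x (src e') (tgt (dE.symm e'))
  have t3 := sd_tri x (src (dE.symm e')) (src e')
  have t4 := sd_tri x (tgt (dE.symm e')) (src e')
  rw [sd_symm' (src (dE.symm e'))] at t3
  rw [sd_symm' (tgt (dE.symm e'))] at t4
  exact ⟨⟨by show s - 1 ≤ sd x (src (dE.symm e')); linarith,
    by show sd x (src (dE.symm e')) ≤ R + 1; linarith⟩,
    ⟨by show s - 1 ≤ sd x (tgt (dE.symm e')); linarith,
    by show sd x (tgt (dE.symm e')) ≤ R + 1; linarith⟩⟩

theorem dep_darm {x : P2} {s R : ℤ} (h : s ≤ R) :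
    Dep (edF (An x (s - 1) (R + 1))) (DArm x s R) := by
  rw [darm_eq']
  exact (dep_parm h).dual.mono edF_map_sub

theorem decr_darm {x : P2} {s R : ℤ} (h : s ≤ R) : Decr (DArm x s R) := by
  intro z z' hz hd
  rw [darm_eq'] at hd ⊢
  refine inc_parm h _ _ ?_ hd
  intro e he
  rw [dual_eq_true] at he ⊢
  by_contra hcon
  have := hz (dE.symm e) (by simpa using hcon)
  rw [he] at this
  exact absurd this (by simp)

theorem dep_parm' {x : P2} {s R : ℤ} (h : s ≤ R) :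
    Dep (edF (An x (s - 1) (R + 1))) (PArm x s R) :=
  (dep_parm h).mono (edF_mono (an_finite _ _ _) (an_mono (by omega) (by omega)))

theorem an_disj {x : P2} {s R s' R' : ℤ} (h : R < s') : Disjoint (edF (An x s R)) (edF (An x s' R')) := by
  refine edF_disj ?_
  rw [Set.disjoint_left]
  rintro p ⟨_, h1⟩ ⟨h2, _⟩
  linarith


/-- an annulus around `y` inside the hole of an annulus around `x` -/
theorem an_disj_in {x y : P2} {s R s' R' : ℤ} (h : sd x y + R' < s) :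
    Disjoint (edF (An x s R)) (edF (An y s' R')) := by
  refine edF_disj ?_
  rw [Set.disjoint_left]
  rintro p ⟨h0, _⟩ ⟨_, h2⟩
  have h3 : sd x p ≤ sd x y + sd y p := sd_tri x y p
  linarith

/-! ### one-arm bounds -/

theorem P1_le : ∃ C a : ℝ, 0 < C ∧ 0 < a ∧ ∀ s R : ℤ, 1 ≤ s → s ≤ R →
    P1 s R ≤ C * ((s : ℝ) / R) ^ a := by
  obtain ⟨C, a, hC, ha, h⟩ := arm_half
  refine ⟨C, a, hC, ha, fun s R hs hR => ?_⟩
  have h1 := h (0, 0) s.toNat R.toNat (by omega) (by omega)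
  have e1 : ((s.toNat : ℕ) : ℝ) = s := by
    have : ((s.toNat : ℕ) : ℤ) = s := Int.toNat_of_nonneg (by omega)
    exact_mod_cast this
  have e2 : ((R.toNat : ℕ) : ℝ) = R := by
    have : ((R.toNat : ℕ) : ℤ) = R := Int.toNat_of_nonneg (by omega)
    exact_mod_cast this
  rw [e1, e2] at h1
  refine le_trans ?_ h1
  rw [← parm_P1 (0, 0) hR]
  refine measureReal_mono ?_
  rintro z ⟨u, v, h3, h4, h5⟩
  refine ⟨u, v, ?_, ?_, ?_, h5⟩
  · rw [Int.toNat_of_nonneg (by omega)]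
    unfold sd at h3
    exact (le_max_left _ _).trans h3
  · rw [Int.toNat_of_nonneg (by omega)]
    unfold sd at h3
    exact (le_max_right _ _).trans h3
  · rw [Int.toNat_of_nonneg (by omega)]
    unfold sd at h4
    exact le_max_iff.1 h4

/-- hard-way crossings, all scales -/
theorem rs_half : ∃ c : ℝ, 0 < c ∧ c ≤ 1 ∧ ∀ N : ℤ, RS (fun A => ((nu hf) A).toReal) c N := by
  obtain ⟨c, hc, h⟩ := rsw_long 3
  refine ⟨min c 1, lt_min hc one_pos, min_le_right _ _, fun N n h1 _ => ?_⟩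
  have h2 := h n.toNat (by omega)
  rw [Int.toNat_of_nonneg (by omega)] at h2
  refine (min_le_left _ _).trans ?_
  simpa [xpr] using h2

/-- **change of radii by a constant factor** -/
theorem P1_ext (j : ℕ) : ∃ c : ℝ, 0 < c ∧ ∀ s R s' R' : ℤ, 1 ≤ s' → s' ≤ s → s ≤ 2 ^ j * s' →
    s ≤ R → R ≤ R' → R' ≤ 2 ^ j * R → c * P1 s R ≤ P1 s' R' := by
  obtain ⟨c, hc, hc1, hR⟩ := rs_half
  refine ⟨(c / 2) ^ (34 + 18 * j) * ((c / 2) ^ 18) ^ j, by positivity,
    fun s R s' R' h1 h2 h3 h4 h5 h6 => ?_⟩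
  have k1 := ext_in (perc hf) hc (hR R') (0, 0) j (r := s') (s := s) (R := R) h1 h2 h3 h4
    (h4.trans h5)
  have k2 := ext_out (perc hf) hc (hR R') (0, 0) j (a := s') (r := R) (s := R') (by omega)
    (h2.trans h4) (by omega) h5 le_rfl h6
  have k3 : ((c / 2) ^ 18) ^ j * ((c / 2) ^ (34 + 18 * j) * P1 s R) ≤ P1 s' R' :=
    (mul_le_mul_of_nonneg_left k1 (by positivity)).trans k2
  linarith [k3]

/-- **quasi-multiplicativity** -/
theorem P1_qm (j : ℕ) : ∃ c : ℝ, 0 < c ∧ ∀ a r s R : ℤ, 0 ≤ a → a ≤ r → 1 ≤ r → r ≤ s →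
    s ≤ 2 ^ j * r → s ≤ R → c * (P1 a r * P1 s R) ≤ P1 a R := by
  obtain ⟨c, hc, hc1, hR⟩ := rs_half
  refine ⟨(c / 2) ^ (34 + 18 * j), by positivity, fun a r s R h0 h1 h2 h3 h4 h5 => ?_⟩
  exact qm (perc hf) hc (hR R) (0, 0) j h0 h1 h2 h3 h4 h5 h5

/-- **submultiplicativity** -/
theorem P1_mul_le {a r s R : ℤ} (h1 : a ≤ r) (h2 : r < s) (h3 : s ≤ R) :
    P1 a R ≤ P1 a r * P1 s R := by
  have hi := PB_indep_real (fun _ : Edge => hf) (an_disj (x := (0, 0)) (s := a) (R := r) (s' := s)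
    (R' := R) h2) (dep_parm h1) (dep_parm h3)
  rw [← parm_P1 (0, 0) (h1.trans (h2.le.trans h3)), ← parm_P1 (0, 0) h1, ← parm_P1 (0, 0) h3]
  refine le_trans ?_ (le_of_eq hi)
  refine measureReal_mono ?_
  rintro z ⟨u, v, h4, h5, h6⟩
  exact ⟨⟨u, v, h4, by linarith, h6⟩, ⟨u, v, by linarith, h5, h6⟩⟩

theorem P1_ge : ∃ c : ℝ, 0 < c ∧ ∀ s R : ℤ, 1 ≤ s → s ≤ R → c * ((s : ℝ) / R) ≤ P1 s R := by
  refine ⟨1 / 8, by norm_num, fun s R hs hR => ?_⟩
  obtain ⟨s, rfl⟩ : ∃ k : ℕ, s = k := ⟨s.toNat, by omega⟩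
  obtain ⟨R, rfl⟩ : ∃ k : ℕ, R = k := ⟨R.toNat, by omega⟩
  have h1 := xpr_sq R (by omega)
  have h2 : xpr hf R R = (nu hf).real {z | LRc z 0 R 0 R} := by
    rw [lr_eq_xpr]; simp
  set M : ℕ := R / s + 1 with hM
  have h3 : {z : Cfz | LRc z 0 R 0 R} ⊆
      ⋃ j ∈ Finset.range M, PArm (0, (j : ℤ) * s) s R := by
    rintro z ⟨u, v, hu, hv, h⟩
    have hu' := h.left
    rw [mem_rect] at hu'
    simp only [Set.mem_iUnion, Finset.mem_range]
    have hs0 : (0 : ℤ) < s := by omega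
    refine ⟨(u.2 / s).toNat, ?_, u, v, ?_, ?_, Relation.ReflTransGen.mono (fun a b hab => hab.1) _ _ h.2⟩
    · have a1 : u.2 / s ≤ (R : ℤ) / s := Int.ediv_le_ediv hs0 hu'.2.2.2
      have a2 : (((R / s : ℕ) : ℤ)) = (R : ℤ) / s := by push_cast; rfl
      have a3 : 0 ≤ u.2 / s := Int.ediv_nonneg hu'.2.2.1 hs0.le
      omega
    · have a3 : 0 ≤ u.2 / s := Int.ediv_nonneg hu'.2.2.1 hs0.le
      rw [Int.toNat_of_nonneg a3]
      unfold sd
      have a4 : u.2 / s * s ≤ u.2 := Int.ediv_mul_le _ (by omega)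
      have a5 : u.2 < u.2 / s * s + s := Int.lt_ediv_add_one_mul_self u.2 hs0 |>.trans_eq (by ring)
      simp only [hu]
      refine max_le (by simp) ?_
      rw [abs_le]
      constructor <;> linarith
    · have a3 : 0 ≤ u.2 / s := Int.ediv_nonneg hu'.2.2.1 hs0.le
      unfold sd
      refine le_trans ?_ (le_max_left _ _)
      simp only [hv, sub_zero]
      exact le_abs_self _
  have h5 : (nu hf).real {z | LRc z 0 R 0 R} ≤ M * P1 s R := by
    calc (nu hf).real {z | LRc z 0 R 0 R}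
        ≤ (nu hf).real (⋃ j ∈ Finset.range M, PArm (0, (j : ℤ) * s) s R) :=
          measureReal_mono h3 (measure_ne_top _ _)
      _ ≤ ∑ j ∈ Finset.range M, (nu hf).real (PArm (0, (j : ℤ) * s) s R) :=
          measureReal_biUnion_finset_le _ _
      _ = M * P1 s R := by
          have e : ∀ j ∈ Finset.range M, (nu hf).real (PArm (0, (j : ℤ) * s) s R) = P1 s R :=
            fun j _ => parm_P1 (0, (j : ℤ) * s) hR
          rw [Finset.sum_congr rfl e, Finset.sum_const, Finset.card_range, nsmul_eq_mul]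
  have hs0 : (0 : ℝ) < s := by exact_mod_cast (by omega : 0 < s)
  have hR0 : (0 : ℝ) < R := by exact_mod_cast (by omega : 0 < R)
  have h6 : (M : ℝ) ≤ 2 * (R / s) := by
    have a1 : ((R / s : ℕ) : ℝ) ≤ R / s := Nat.cast_div_le
    have a2 : (1 : ℝ) ≤ R / s := by
      rw [le_div_iff₀ hs0, one_mul]; exact_mod_cast hR
    rw [hM]
    push_cast
    linarith
  rw [h2] at h1
  have h7 : 1 / 2 ≤ 2 * ((R : ℝ) / s) * P1 s R :=
    h1.trans (h5.trans (mul_le_mul_of_nonneg_right h6 (P1_nonneg _ _)))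
  push_cast
  rw [← mul_div_assoc, div_le_iff₀ hR0]
  have h8 : 2 * ((R : ℝ) / s) * P1 s R * s = 2 * R * P1 s R := by field_simp
  have h9 : 1 / 2 * (s : ℝ) ≤ 2 * ((R : ℝ) / s) * P1 s R * s :=
    mul_le_mul_of_nonneg_right h7 hs0.le
  rw [h8] at h9
  have h10 : 0 ≤ P1 s R := P1_nonneg _ _
  nlinarith

/-! ### two arms of different colours -/

/-- a primal and a dual arm are negatively correlated -/
theorem opp_le {x x' : P2} {s R s' R' : ℤ} (h : s ≤ R) (h' : s' ≤ R') :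
    (nu hf).real (PArm x s R ∩ DArm x' s' R') ≤ P1 s R * P1 s' R' := by
  rw [← parm_P1 x h, ← darm_P1 x' h']
  exact harris_opp _ (dep_parm h) (dep_darm h') (inc_parm h) (decr_darm h')


/-- a primal or a dual arm -/
theorem any_le {x x' : P2} {s R : ℤ} (h : s ≤ R) :
    (nu hf).real (PArm x s R ∪ DArm x' s R) ≤ 2 * P1 s R := by
  refine (measureReal_union_le _ _).trans ?_
  rw [parm_P1 x h, darm_P1 x' h]
  linarith

end Crest.Agent.R158.Ac109
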