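import Mathlib

/-!
# R158, block XR (helper249), file Xr1: parity (Stokes) lemma for glued regions of the square lattice

Tiles are points of `ℤ × ℤ`.  `h (x,y)`: the tiles `(x,y)`, `(x+1,y)` are glued; `v (x,y)`: the tiles
`(x,y)`, `(x,y+1)` are glued.  Face `(x,y)` is the unit square with corners the four tiles
`(x,y)`, `(x+1,y)`, `(x,y+1)`, `(x+1,y+1)`.

* `Reg` : a finite glued region, `Reg.SC` : every face with an unglued side is joined to infinity
  through unglued sides (all slits are attached to the outside, no holes)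
* `WN R Q p q N` : there is a walk in `Q` from `p` to `q` with crossing function `N : face → ZMod 2`
* `below_below`, `above_above`, `below_above` : a maximal horizontal run is glued to a connected set
  along one interval on one side
-/

set_option autoImplicit false
set_option linter.unusedVariables false

namespace Crest.Agent.R158.Xr249

/-- a glued region of the square lattice -/
structure Reg where
  /-- the tiles -/
  P : Finset (ℤ × ℤ)
  /-- `h (x,y)`: `(x,y)` and `(x+1,y)` are glued -/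
  h : ℤ × ℤ → Prop
  /-- `v (x,y)`: `(x,y)` and `(x,y+1)` are glued -/
  v : ℤ × ℤ → Prop
  hP : ∀ x y, h (x, y) → (x, y) ∈ P ∧ (x + 1, y) ∈ P
  vP : ∀ x y, v (x, y) → (x, y) ∈ P ∧ (x, y + 1) ∈ P

namespace Reg

variable (R : Reg)

/-- two faces that share an unglued side -/
inductive FAdj : ℤ × ℤ → ℤ × ℤ → Prop
  | right {x y : ℤ} : ¬ R.v (x + 1, y) → FAdj (x, y) (x + 1, y)
  | left {x y : ℤ} : ¬ R.v (x + 1, y) → FAdj (x + 1, y) (x, y)
  | up {x y : ℤ} : ¬ R.h (x, y + 1) → FAdj (x, y) (x, y + 1)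
  | down {x y : ℤ} : ¬ R.h (x, y + 1) → FAdj (x, y + 1) (x, y)

/-- the face is joined to infinity through unglued sides -/
def Out (f : ℤ × ℤ) : Prop := ∃ g, Relation.ReflTransGen R.FAdj f g ∧ ∀ p ∈ R.P, p.2 ≤ g.2

/-- every face with an unglued side is joined to infinity -/
def SC : Prop := ∀ x y : ℤ, (¬ R.h (x, y) ∨ ¬ R.h (x, y + 1) ∨ ¬ R.v (x, y) ∨ ¬ R.v (x + 1, y)) →
  R.Out (x, y)

/-- one glued step, with its crossing function: the step `(a,b) - (a+1,b)` crosses the upward rays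
of the faces `(a, y)`, `y + 1 ≤ b` -/
inductive Stp : ℤ × ℤ → ℤ × ℤ → (ℤ × ℤ → ZMod 2) → Prop
  | right {a b : ℤ} : R.h (a, b) → Stp (a, b) (a + 1, b) (fun f => if f.1 = a ∧ f.2 + 1 ≤ b then 1 else 0)
  | left {a b : ℤ} : R.h (a, b) → Stp (a + 1, b) (a, b) (fun f => if f.1 = a ∧ f.2 + 1 ≤ b then 1 else 0)
  | up {a b : ℤ} : R.v (a, b) → Stp (a, b) (a, b + 1) (fun _ => 0)
  | down {a b : ℤ} : R.v (a, b) → Stp (a, b + 1) (a, b) (fun _ => 0)

/-- walks inside `Q` with their crossing function -/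
inductive WN (Q : Set (ℤ × ℤ)) : ℤ × ℤ → ℤ × ℤ → (ℤ × ℤ → ZMod 2) → Prop
  | nil {p : ℤ × ℤ} : p ∈ Q → WN Q p p 0
  | cons {p q r : ℤ × ℤ} {N M : ℤ × ℤ → ZMod 2} : WN Q p q N → R.Stp q r M → r ∈ Q → WN Q p r (N + M)

variable {R}

lemma Stp.symm {p q : ℤ × ℤ} {M : ℤ × ℤ → ZMod 2} (h : R.Stp p q M) : R.Stp q p M := by
  cases h with
  | right h => exact .left h
  | left h => exact .right h
  | up h => exact .down h
  | down h => exact .up h

lemma Stp.mem {p q : ℤ × ℤ} {M : ℤ × ℤ → ZMod 2} (h : R.Stp p q M) : p ∈ R.P ∧ q ∈ R.P := by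
  cases h with
  | right h => exact R.hP _ _ h
  | left h => exact (R.hP _ _ h).symm
  | up h => exact R.vP _ _ h
  | down h => exact (R.vP _ _ h).symm

lemma WN.right_mem {Q : Set (ℤ × ℤ)} {p q : ℤ × ℤ} {N : ℤ × ℤ → ZMod 2} (h : R.WN Q p q N) : q ∈ Q := by
  cases h with
  | nil h => exact h
  | cons _ _ h => exact h


lemma WN.trans {Q : Set (ℤ × ℤ)} {p q r : ℤ × ℤ} {N M : ℤ × ℤ → ZMod 2} (h1 : R.WN Q p q N)
    (h2 : R.WN Q q r M) : R.WN Q p r (N + M) := by
  induction h2 with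
  | nil _ => simpa using h1
  | cons _ h3 h4 ih =>
    rw [← add_assoc]
    exact ih.cons h3 h4

lemma WN.symm {Q : Set (ℤ × ℤ)} {p q : ℤ × ℤ} {N : ℤ × ℤ → ZMod 2} (h : R.WN Q p q N) :
    R.WN Q q p N := by
  induction h with
  | nil h => exact .nil h
  | cons h1 h2 h3 ih =>
    have h4 : R.WN Q _ _ _ := (WN.nil h3).cons h2.symm h1.right_mem
    have h5 := h4.trans ih
    simpa [add_comm] using h5

lemma WN.mono {Q Q' : Set (ℤ × ℤ)} (hQ : Q ⊆ Q') {p q : ℤ × ℤ} {N : ℤ × ℤ → ZMod 2}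
    (h : R.WN Q p q N) : R.WN Q' p q N := by
  induction h with
  | nil h => exact .nil (hQ h)
  | cons _ h2 h3 ih => exact ih.cons h2 (hQ h3)

/-- indicator of the half column `{(X, y') : y + 1 ≤ y'}` -/
def Cc (X y : ℤ) (p : ℤ × ℤ) : ZMod 2 := if p.1 = X ∧ y + 1 ≤ p.2 then 1 else 0

lemma two_eq (a : ZMod 2) : a + a = 0 := CharTwo.add_self_eq_zero a

lemma abc (a b c : ZMod 2) : a + b + (b + c) = a + c := by
  revert a b c; decide

lemma Stp.v_up {p q : ℤ × ℤ} {M : ℤ × ℤ → ZMod 2} (h : R.Stp p q M) {x y : ℤ} (hp : p = (x, y))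
    (hq : q = (x, y + 1)) : R.v (x, y) := by
  cases h with
  | right h => simp only [Prod.mk.injEq] at hp hq; omega
  | left h => simp only [Prod.mk.injEq] at hp hq; omega
  | up h => rw [← hp]; exact h
  | down h => simp only [Prod.mk.injEq] at hp hq; omega

lemma Stp.v_down {p q : ℤ × ℤ} {M : ℤ × ℤ → ZMod 2} (h : R.Stp p q M) {x y : ℤ} (hp : p = (x, y + 1))
    (hq : q = (x, y)) : R.v (x, y) := h.symm.v_up hq hp

lemma Stp.h_right {p q : ℤ × ℤ} {M : ℤ × ℤ → ZMod 2} (h : R.Stp p q M) {x y : ℤ} (hp : p = (x, y))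
    (hq : q = (x + 1, y)) : R.h (x, y) := by
  cases h with
  | right h => rw [← hp]; exact h
  | left h => simp only [Prod.mk.injEq] at hp hq; omega
  | up h => simp only [Prod.mk.injEq] at hp hq; omega
  | down h => simp only [Prod.mk.injEq] at hp hq; omega

lemma Stp.h_left {p q : ℤ × ℤ} {M : ℤ × ℤ → ZMod 2} (h : R.Stp p q M) {x y : ℤ} (hp : p = (x + 1, y))
    (hq : q = (x, y)) : R.h (x, y) := h.symm.h_right hq hp

/-- Stokes for one step: horizontal neighbours -/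
lemma Stp.hor {p q : ℤ × ℤ} {M : ℤ × ℤ → ZMod 2} (h : R.Stp p q M) {x y : ℤ}
    (hv : ¬ (p = (x + 1, y) ∧ q = (x + 1, y + 1)) ∧ ¬ (q = (x + 1, y) ∧ p = (x + 1, y + 1))) :
    M (x, y) + M (x + 1, y) = Cc (x + 1) y p + Cc (x + 1) y q := by
  obtain ⟨h1, h2⟩ := hv
  cases h with
  | @right a b h =>
    simp only [Cc]
    split_ifs <;> first | rfl | (exfalso; omega)
  | @left a b h =>
    simp only [Cc]
    split_ifs <;> first | rfl | (exfalso; omega)
  | @up a b h =>
    have h3 : ¬ (a = x + 1 ∧ b = y) := by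
      rintro ⟨rfl, rfl⟩; exact h1 ⟨rfl, rfl⟩
    simp only [Cc]
    split_ifs <;> first | rfl | (exfalso; omega)
  | @down a b h =>
    have h3 : ¬ (a = x + 1 ∧ b = y) := by
      rintro ⟨rfl, rfl⟩; exact h2 ⟨rfl, rfl⟩
    simp only [Cc]
    split_ifs <;> first | rfl | (exfalso; omega)

/-- Stokes for one step: vertical neighbours -/
lemma Stp.ver {p q : ℤ × ℤ} {M : ℤ × ℤ → ZMod 2} (h : R.Stp p q M) {x y : ℤ}
    (hv : ¬ (p = (x, y + 1) ∧ q = (x + 1, y + 1)) ∧ ¬ (q = (x, y + 1) ∧ p = (x + 1, y + 1))) :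
    M (x, y) = M (x, y + 1) := by
  obtain ⟨h1, h2⟩ := hv
  cases h with
  | @right a b h =>
    have h3 : ¬ (a = x ∧ b = y + 1) := by
      rintro ⟨rfl, rfl⟩; exact h1 ⟨rfl, rfl⟩
    simp only
    split_ifs <;> first | rfl | (exfalso; omega)
  | @left a b h =>
    have h3 : ¬ (a = x ∧ b = y + 1) := by
      rintro ⟨rfl, rfl⟩; exact h2 ⟨rfl, rfl⟩
    simp only
    split_ifs <;> first | rfl | (exfalso; omega)
  | up h => rfl
  | down h => rfl

/-- Stokes along a walk, horizontal neighbours; the side `(x+1,y)-(x+1,y+1)` is not used -/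
lemma WN.hor {Q : Set (ℤ × ℤ)} {p q : ℤ × ℤ} {N : ℤ × ℤ → ZMod 2} (h : R.WN Q p q N) {x y : ℤ}
    (hv : ¬ R.v (x + 1, y) ∨ (x + 1, y) ∉ Q ∨ (x + 1, y + 1) ∉ Q) :
    N (x, y) + N (x + 1, y) = Cc (x + 1) y p + Cc (x + 1) y q := by
  induction h with
  | nil _ => simp [two_eq]
  | @cons q r N M h1 h2 h3 ih =>
    have h4 := h1.right_mem
    have h5 : M (x, y) + M (x + 1, y) = Cc (x + 1) y q + Cc (x + 1) y r := by
      refine h2.hor ⟨?_, ?_⟩
      · rintro ⟨e1, e2⟩
        rcases hv with hv | hv | hv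
        · exact hv (h2.v_up e1 e2)
        · exact hv (e1 ▸ h4)
        · exact hv (e2 ▸ h3)
      · rintro ⟨e1, e2⟩
        rcases hv with hv | hv | hv
        · exact hv (h2.v_down e2 e1)
        · exact hv (e1 ▸ h3)
        · exact hv (e2 ▸ h4)
    simp only [Pi.add_apply]
    have e : N (x, y) + M (x, y) + (N (x + 1, y) + M (x + 1, y)) =
        (N (x, y) + N (x + 1, y)) + (M (x, y) + M (x + 1, y)) := by ring
    rw [e, ih, h5, abc]

/-- Stokes along a walk, vertical neighbours; the side `(x,y+1)-(x+1,y+1)` is not used -/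
lemma WN.ver {Q : Set (ℤ × ℤ)} {p q : ℤ × ℤ} {N : ℤ × ℤ → ZMod 2} (h : R.WN Q p q N) {x y : ℤ}
    (hv : ¬ R.h (x, y + 1) ∨ (x, y + 1) ∉ Q ∨ (x + 1, y + 1) ∉ Q) :
    N (x, y) = N (x, y + 1) := by
  induction h with
  | nil _ => rfl
  | @cons q r N M h1 h2 h3 ih =>
    have h4 := h1.right_mem
    have h5 : M (x, y) = M (x, y + 1) := by
      refine h2.ver ⟨?_, ?_⟩
      · rintro ⟨e1, e2⟩
        rcases hv with hv | hv | hv
        · exact hv (h2.h_right e1 e2)
        · exact hv (e1 ▸ h4)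
        · exact hv (e2 ▸ h3)
      · rintro ⟨e1, e2⟩
        rcases hv with hv | hv | hv
        · exact hv (h2.h_left e2 e1)
        · exact hv (e1 ▸ h3)
        · exact hv (e2 ▸ h4)
    simp only [Pi.add_apply]
    rw [ih, h5]

/-- far faces are not crossed -/
lemma WN.far {Q : Set (ℤ × ℤ)} {p q : ℤ × ℤ} {N : ℤ × ℤ → ZMod 2} (h : R.WN Q p q N) {f : ℤ × ℤ}
    (hf : ∀ p ∈ R.P, p.2 ≤ f.2) : N f = 0 := by
  induction h with
  | nil _ => rfl
  | @cons q r N M h1 h2 h3 ih =>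
    simp only [Pi.add_apply]
    rw [ih, zero_add]
    have h5 := hf _ h2.mem.1
    cases h2 with
    | @right a b h => exact if_neg (fun h => by simp only at h5; omega)
    | @left a b h => exact if_neg (fun h => by simp only at h5; omega)
    | up h => rfl
    | down h => rfl

/-- the crossing function of a closed walk is constant along unglued sides -/
lemma WN.closed_fadj {Q : Set (ℤ × ℤ)} {p : ℤ × ℤ} {N : ℤ × ℤ → ZMod 2} (h : R.WN Q p p N)
    {f g : ℤ × ℤ} (hfg : R.FAdj f g) : N f = N g := by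
  have e : ∀ a b : ZMod 2, a + b = 0 → a = b := by decide
  cases hfg with
  | @right x y hv =>
    have := h.hor (x := x) (y := y) (Or.inl hv)
    rw [two_eq] at this
    exact e _ _ this
  | @left x y hv =>
    have := h.hor (x := x) (y := y) (Or.inl hv)
    rw [two_eq] at this
    exact (e _ _ this).symm
  | @up x y hv => exact h.ver (Or.inl hv)
  | @down x y hv => exact (h.ver (Or.inl hv)).symm

lemma WN.closed_out {Q : Set (ℤ × ℤ)} {p : ℤ × ℤ} {N : ℤ × ℤ → ZMod 2} (h : R.WN Q p p N)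
    {f : ℤ × ℤ} (hf : R.Out f) : N f = 0 := by
  obtain ⟨g, h1, h2⟩ := hf
  have h3 : N f = N g := by
    clear h2
    induction h1 with
    | refl => rfl
    | tail _ h4 ih =>
      rw [ih, h.closed_fadj h4]
  rw [h3]
  exact h.far h2

/-- the walk along a row -/
lemma row_walk {x1 t : ℤ} (n : ℕ) (hh : ∀ x, x1 ≤ x → x < x1 + n → R.h (x, t)) (hm : (x1, t) ∈ R.P) :
    R.WN (R.P : Set (ℤ × ℤ)) (x1, t) (x1 + n, t)
      (fun f => if x1 ≤ f.1 ∧ f.1 < x1 + n ∧ f.2 + 1 ≤ t then 1 else 0) := by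
  induction n with
  | zero =>
    have e : (fun f : ℤ × ℤ => if x1 ≤ f.1 ∧ f.1 < x1 + ((0 : ℕ) : ℤ) ∧ f.2 + 1 ≤ t then (1 : ZMod 2) else 0)
        = 0 := by
      funext f
      rw [if_neg (by push_cast; omega)]
      rfl
    rw [e]
    simpa using WN.nil (by exact_mod_cast hm)
  | succ n ih =>
    have h1 := ih fun x h1 h2 => hh x h1 (by push_cast; omega)
    have h2 : R.h (x1 + n, t) := hh _ (by omega) (by push_cast; omega)
    have h3 := h1.cons (.right h2) (by exact_mod_cast (R.hP _ _ h2).2)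
    have e : (x1 + ((n + 1 : ℕ) : ℤ), t) = (x1 + (n : ℤ) + 1, t) := by push_cast; ring_nf
    rw [e]
    convert h3 using 1
    funext f
    simp only [Pi.add_apply]
    push_cast
    split_ifs <;> first | rfl | (exfalso; omega)

/-- data of a maximal run `[a,b] × {t}` disjoint from `Q` -/
structure IsRun (R : Reg) (a b t : ℤ) : Prop where
  hab : a ≤ b
  memP : (a, t) ∈ R.P
  gl : ∀ x, a ≤ x → x < b → R.h (x, t)
  la : ¬ R.h (a - 1, t)
  lb : ¬ R.h (b, t)

lemma IsRun.mem {a b t : ℤ} (hr : R.IsRun a b t) {x : ℤ} (h1 : a ≤ x) (h2 : x ≤ b) : (x, t) ∈ R.P := by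
  rcases eq_or_lt_of_le h1 with rfl | h3
  · exact hr.memP
  · have := (R.hP _ _ (hr.gl (x - 1) (by omega) (by omega))).2
    simpa using this

lemma IsRun.walk {a b t : ℤ} (hr : R.IsRun a b t) {x1 x2 : ℤ} (h1 : a ≤ x1) (h12 : x1 ≤ x2)
    (h2 : x2 ≤ b) : R.WN (R.P : Set (ℤ × ℤ)) (x1, t) (x2, t)
      (fun f => if x1 ≤ f.1 ∧ f.1 < x2 ∧ f.2 + 1 ≤ t then 1 else 0) := by
  obtain ⟨n, rfl⟩ := Int.le.dest h12
  exact row_walk n (fun x h3 h4 => hr.gl x (by omega) (by omega)) (hr.mem h1 (by omega))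

/-- the crossing function of a walk that avoids the run is constant above the run -/
lemma IsRun.const_above {a b t : ℤ} (hr : R.IsRun a b t) {Q : Set (ℤ × ℤ)}
    (hQ : ∀ x, a ≤ x → x ≤ b → (x, t) ∉ Q) {p q : ℤ × ℤ} {N : ℤ × ℤ → ZMod 2} (h : R.WN Q p q N)
    {x : ℤ} (h1 : a ≤ x + 1) (h2 : x + 1 ≤ b) :
    N (x, t) + N (x + 1, t) = Cc (x + 1) t p + Cc (x + 1) t q :=
  h.hor (Or.inr (Or.inl (hQ _ h1 h2)))

/-- the crossing function of a walk that avoids the run is constant below the run -/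
lemma IsRun.const_below {a b t : ℤ} (hr : R.IsRun a b t) {Q : Set (ℤ × ℤ)}
    (hQ : ∀ x, a ≤ x → x ≤ b → (x, t) ∉ Q) {p q : ℤ × ℤ} {N : ℤ × ℤ → ZMod 2} (h : R.WN Q p q N)
    {x : ℤ} (h1 : a ≤ x + 1) (h2 : x + 1 ≤ b) :
    N (x, t - 1) + N (x + 1, t - 1) = Cc (x + 1) (t - 1) p + Cc (x + 1) (t - 1) q :=
  h.hor (Or.inr (Or.inr (by rw [sub_add_cancel]; exact hQ _ h1 h2)))


/-- **both contacts below**: all the columns between are glued -/
theorem below_below (hsc : R.SC) {a b t : ℤ} (hr : R.IsRun a b t) {Q : Set (ℤ × ℤ)}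
    (hQP : Q ⊆ R.P) (hQ : ∀ x, a ≤ x → x ≤ b → (x, t) ∉ Q) {x1 x2 : ℤ} (h1 : a ≤ x1) (h12 : x1 < x2)
    (h2 : x2 ≤ b) {M : ℤ × ℤ → ZMod 2} (hw : R.WN Q (x1, t - 1) (x2, t - 1) M)
    (v1 : R.v (x1, t - 1)) (v2 : R.v (x2, t - 1)) {x : ℤ} (hx1 : x1 ≤ x) (hx2 : x < x2) :
    R.h (x, t - 1) ∧ R.v (x, t - 1) ∧ R.v (x + 1, t - 1) := by
  -- the closed walk
  have s1 : R.Stp (x1, t - 1) (x1, t) (fun _ => 0) := by
    have := Stp.up v1
    simpa using this
  have s2 : R.Stp (x2, t) (x2, t - 1) (fun _ => 0) := by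
    have := Stp.down v2
    simpa using this
  have hP : ∀ {p q : ℤ × ℤ} {N : ℤ × ℤ → ZMod 2}, R.Stp p q N → q ∈ (R.P : Set (ℤ × ℤ)) := fun h => by
    exact_mod_cast h.mem.2
  have hP' : ∀ {p q : ℤ × ℤ} {N : ℤ × ℤ → ZMod 2}, R.Stp p q N → p ∈ (R.P : Set (ℤ × ℤ)) := fun h => by
    exact_mod_cast h.mem.1
  have w1 := (WN.nil (hP' s1)).cons s1 (hP s1)
  have w2 := (w1.trans (hr.walk h1 h12.le h2)).cons s2 (hP s2)
  have w3 := w2.trans (hw.symm.mono hQP)
  set K : ℤ × ℤ → ZMod 2 := fun f => if x1 ≤ f.1 ∧ f.1 < x2 ∧ f.2 + 1 ≤ t then 1 else 0 with hK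
  have w4 : R.WN (R.P : Set (ℤ × ℤ)) (x1, t - 1) (x1, t - 1) (K + M) := by
    convert w3 using 1
    funext f
    simp [hK]
  -- `M` vanishes below the run
  have hout : R.Out (a - 1, t - 1) := hsc _ _ (Or.inr (Or.inl (by rw [sub_add_cancel]; exact hr.la)))
  have z0 : M (a - 1, t - 1) = 0 := by
    have := w4.closed_out hout
    simp only [Pi.add_apply, hK] at this
    rw [if_neg (by omega), zero_add] at this
    exact this
  have z1 : ∀ n : ℕ, a - 1 + n ≤ b → M (a - 1 + n, t - 1) = 0 := by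
    intro n
    induction n with
    | zero => intro _; simpa using z0
    | succ n ih =>
      intro hn
      push_cast at hn
      have e1 := hr.const_below hQ hw (x := a - 1 + n) (by omega) (by omega)
      rw [ih (by omega)] at e1
      simp only [Cc] at e1
      rw [if_neg (by omega), if_neg (by omega)] at e1
      simp only [zero_add, add_zero] at e1
      rw [show a - 1 + ((n + 1 : ℕ) : ℤ) = a - 1 + n + 1 by push_cast; ring]
      exact e1
  have z2 : M (x, t - 1) = 0 := by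
    have := z1 (x - (a - 1)).toNat (by omega)
    rw [Int.toNat_of_nonneg (by omega)] at this
    simpa using this
  have z3 : (K + M) (x, t - 1) = 1 := by
    simp only [Pi.add_apply, z2, hK]
    rw [if_pos (by omega), add_zero]
  by_contra hcon
  have hout2 : R.Out (x, t - 1) := by
    refine hsc _ _ ?_
    by_cases c1 : R.h (x, t - 1)
    · by_cases c2 : R.v (x, t - 1)
      · by_cases c3 : R.v (x + 1, t - 1)
        · exact absurd ⟨c1, c2, c3⟩ hcon
        · exact Or.inr (Or.inr (Or.inr c3))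
      · exact Or.inr (Or.inr (Or.inl c2))
    · exact Or.inl c1
  have := w4.closed_out hout2
  rw [z3] at this
  exact one_ne_zero this

/-- **both contacts above**: all the columns between are glued -/
theorem above_above (hsc : R.SC) {a b t : ℤ} (hr : R.IsRun a b t) {Q : Set (ℤ × ℤ)}
    (hQP : Q ⊆ R.P) (hQ : ∀ x, a ≤ x → x ≤ b → (x, t) ∉ Q) {x1 x2 : ℤ} (h1 : a ≤ x1) (h12 : x1 < x2)
    (h2 : x2 ≤ b) {M : ℤ × ℤ → ZMod 2} (hw : R.WN Q (x1, t + 1) (x2, t + 1) M)
    (v1 : R.v (x1, t)) (v2 : R.v (x2, t)) {x : ℤ} (hx1 : x1 ≤ x) (hx2 : x < x2) :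
    R.h (x, t + 1) ∧ R.v (x, t) ∧ R.v (x + 1, t) := by
  have s1 : R.Stp (x1, t + 1) (x1, t) (fun _ => 0) := .down v1
  have s2 : R.Stp (x2, t) (x2, t + 1) (fun _ => 0) := .up v2
  have hP : ∀ {p q : ℤ × ℤ} {N : ℤ × ℤ → ZMod 2}, R.Stp p q N → q ∈ (R.P : Set (ℤ × ℤ)) := fun h => by
    exact_mod_cast h.mem.2
  have hP' : ∀ {p q : ℤ × ℤ} {N : ℤ × ℤ → ZMod 2}, R.Stp p q N → p ∈ (R.P : Set (ℤ × ℤ)) := fun h => by
    exact_mod_cast h.mem.1
  have w1 := (WN.nil (hP' s1)).cons s1 (hP s1)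
  have w2 := (w1.trans (hr.walk h1 h12.le h2)).cons s2 (hP s2)
  have w3 := w2.trans (hw.symm.mono hQP)
  set K : ℤ × ℤ → ZMod 2 := fun f => if x1 ≤ f.1 ∧ f.1 < x2 ∧ f.2 + 1 ≤ t then 1 else 0 with hK
  have w4 : R.WN (R.P : Set (ℤ × ℤ)) (x1, t + 1) (x1, t + 1) (K + M) := by
    convert w3 using 1
    funext f
    simp [hK]
  have hout : R.Out (a - 1, t) := hsc _ _ (Or.inl hr.la)
  have z0 : M (a - 1, t) = 0 := by
    have := w4.closed_out hout
    simp only [Pi.add_apply, hK] at this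
    rw [if_neg (by omega), zero_add] at this
    exact this
  have z1 : ∀ n : ℕ, a - 1 + n ≤ b → M (a - 1 + n, t) =
      if x1 ≤ a - 1 + n ∧ a - 1 + n < x2 then 1 else 0 := by
    intro n
    induction n with
    | zero =>
      intro _
      rw [if_neg (by push_cast; omega)]
      simpa using z0
    | succ n ih =>
      intro hn
      push_cast at hn
      have e1 := hr.const_above hQ hw (x := a - 1 + n) (by omega) (by omega)
      rw [ih (by omega)] at e1
      simp only [Cc] at e1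
      rw [show a - 1 + ((n + 1 : ℕ) : ℤ) = a - 1 + n + 1 by push_cast; ring]
      have e2 : ∀ u w s : ZMod 2, u + w = s → w = s + u := by decide
      rw [e2 _ _ _ e1]
      split_ifs <;> first | rfl | (exfalso; omega)
  have z2 : M (x, t) = 1 := by
    have := z1 (x - (a - 1)).toNat (by omega)
    rw [Int.toNat_of_nonneg (by omega)] at this
    rw [show a - 1 + (x - (a - 1)) = x by ring, if_pos ⟨hx1, hx2⟩] at this
    exact this
  have z3 : (K + M) (x, t) = 1 := by
    simp only [Pi.add_apply, z2, hK]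
    rw [if_neg (by omega), zero_add]
  by_contra hcon
  have hout2 : R.Out (x, t) := by
    refine hsc _ _ ?_
    by_cases c1 : R.h (x, t + 1)
    · by_cases c2 : R.v (x, t)
      · by_cases c3 : R.v (x + 1, t)
        · exact absurd ⟨c1, c2, c3⟩ hcon
        · exact Or.inr (Or.inr (Or.inr c3))
      · exact Or.inr (Or.inr (Or.inl c2))
    · exact Or.inr (Or.inl c1)
  have := w4.closed_out hout2
  rw [z3] at this
  exact one_ne_zero this

/-- **one contact below and one above is impossible** -/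
theorem below_above (hsc : R.SC) {a b t : ℤ} (hr : R.IsRun a b t) {Q : Set (ℤ × ℤ)}
    (hQP : Q ⊆ R.P) (hQ : ∀ x, a ≤ x → x ≤ b → (x, t) ∉ Q) {x1 x2 : ℤ} (h1 : a ≤ x1) (h1' : x1 ≤ b)
    (h2 : a ≤ x2) (h2' : x2 ≤ b) {M : ℤ × ℤ → ZMod 2} (hw : R.WN Q (x1, t - 1) (x2, t + 1) M)
    (v1 : R.v (x1, t - 1)) (v2 : R.v (x2, t)) : False := by
  have s1 : R.Stp (x1, t - 1) (x1, t) (fun _ => 0) := by
    have := Stp.up v1
    simpa using this
  have s2 : R.Stp (x2, t) (x2, t + 1) (fun _ => 0) := .up v2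
  have hP : ∀ {p q : ℤ × ℤ} {N : ℤ × ℤ → ZMod 2}, R.Stp p q N → q ∈ (R.P : Set (ℤ × ℤ)) := fun h => by
    exact_mod_cast h.mem.2
  have hP' : ∀ {p q : ℤ × ℤ} {N : ℤ × ℤ → ZMod 2}, R.Stp p q N → p ∈ (R.P : Set (ℤ × ℤ)) := fun h => by
    exact_mod_cast h.mem.1
  -- the walk along the run, in either direction
  obtain ⟨K, hK0, hKw⟩ : ∃ K : ℤ × ℤ → ZMod 2, (∀ x, K (x, t) = 0) ∧
      R.WN (R.P : Set (ℤ × ℤ)) (x1, t) (x2, t) K := by
    rcases le_total x1 x2 with hle | hle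
    · exact ⟨_, fun x => if_neg (by simp), hr.walk h1 hle h2'⟩
    · exact ⟨_, fun x => if_neg (by simp), (hr.walk h2 hle h1').symm⟩
  have w1 := (WN.nil (hP' s1)).cons s1 (hP s1)
  have w2 := (w1.trans hKw).cons s2 (hP s2)
  have w3 := w2.trans (hw.symm.mono hQP)
  have w4 : R.WN (R.P : Set (ℤ × ℤ)) (x1, t - 1) (x1, t - 1) (K + M) := by
    convert w3 using 1
    funext f
    simp
  have z0 : M (a - 1, t) = 0 := by
    have := w4.closed_out (hsc _ _ (Or.inl hr.la))
    simpa [hK0] using this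
  have zb : M (b, t) = 0 := by
    have := w4.closed_out (hsc _ _ (Or.inl hr.lb))
    simpa [hK0] using this
  have z1 : ∀ n : ℕ, a - 1 + n ≤ b → M (a - 1 + n, t) = if x2 ≤ a - 1 + n then 1 else 0 := by
    intro n
    induction n with
    | zero =>
      intro _
      rw [if_neg (by push_cast; omega)]
      simpa using z0
    | succ n ih =>
      intro hn
      push_cast at hn
      have e1 := hr.const_above hQ hw (x := a - 1 + n) (by omega) (by omega)
      rw [ih (by omega)] at e1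
      simp only [Cc] at e1
      rw [show a - 1 + ((n + 1 : ℕ) : ℤ) = a - 1 + n + 1 by push_cast; ring]
      have e2 : ∀ u w s : ZMod 2, u + w = s → w = s + u := by decide
      rw [e2 _ _ _ e1]
      split_ifs <;> first | rfl | (exfalso; omega)
  have z2 : M (b, t) = 1 := by
    have := z1 (b - (a - 1)).toNat (by omega)
    rw [Int.toNat_of_nonneg (by omega)] at this
    rw [show a - 1 + (b - (a - 1)) = b by ring, if_pos h2'] at this
    exact this
  rw [zb] at z2
  exact zero_ne_one z2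

end Reg

end Crest.Agent.R158.Xr249
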