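import Mathlib

/-!
# R158, exact lattice layer, OFFICIAL CARRIER (helper300)

Words of tiles.  A tile has four sides `W = 0, N = 1, E = 2, S = 3` (clockwise); a splitting
`s : T → Bool` joins `W-N` and `E-S` (`true`) or `W-S` and `N-E` (`false`).

* `L w`    : the free ends of the word `w`, in clockwise cyclic order (as a list, fixed base point);
* `phi w`  : lifted direction of the ports (`side` mod 4);
* `M s w`  : the partner map (strands) for the splitting `s`; exactly one unmatched end `u s w`
             (the leg end, or the inert marker `none` of a word without leg);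
* `S s w`  : `true` at the start of an arc, where every arc is oriented so that the clockwise
             interval from its start to its end does not contain `u s w`;
* `Ok w`   : admissible words (only planarity, no geometry);
* `Fc w`   : glued ports face each other.
-/

set_option autoImplicit false

namespace Crest.Agent.R158.Sw300

/-- ports: `some (t, d)` = side `d` of the tile `t`; `none` = leg (words with leg), marker
(words without leg) -/
abbrev Port (T : Type*) := Option (T × ZMod 4)

/-- side where a strand that enters through side `d` leaves -/
def thru (b : Bool) (d : ZMod 4) : ZMod 4 := if b then 1 - d else 3 - d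

/-- words of tiles -/
inductive Wd (T : Type*) : Type _
  /-- only the leg end `none` -/
  | leg : Wd T
  /-- one tile and the marker `none` before its west side -/
  | tile (t : T) : Wd T
  /-- glue side `d` of the new tile `t` to the end `p` -/
  | att (w : Wd T) (p : Port T) (t : T) (d : ZMod 4) : Wd T
  /-- glue the cyclically consecutive ends `p`, `q` (`p` first, clockwise) -/
  | con (w : Wd T) (p q : Port T) : Wd T

/-- tile of a port -/
def tl {T : Type*} (x : Port T) : Option T := x.map Prod.fst

/-- side of a port (`N` for the leg) -/
def sd {T : Type*} (x : Port T) : ZMod 4 := x.elim 1 Prod.snd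

/-- tiles of a word -/
def tls {T : Type*} : Wd T → List T
  | .leg => []
  | .tile t => [t]
  | .att w _ t _ => t :: tls w
  | .con w _ _ => tls w

variable {T : Type*} [DecidableEq T]

/-- the free ends in clockwise order -/
def L : Wd T → List (Port T)
  | .leg => [none]
  | .tile t => [none, some (t, 0), some (t, 1), some (t, 2), some (t, 3)]
  | .att w p t d => (L w).flatMap fun x =>
      if x = p then [some (t, d + 1), some (t, d + 2), some (t, d + 3)] else [x]
  | .con w p q => (L w).filter fun x => x ≠ p ∧ x ≠ q

/-- lifted direction of a port -/
def phi : Wd T → Port T → ℤ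
  | .leg, _ => 1
  | .tile _, x => x.elim (-1) fun y => (y.2.val : ℤ)
  | .att w p t d, x =>
      if x = some (t, d + 1) then phi w p - 1
      else if x = some (t, d + 2) then phi w p
      else if x = some (t, d + 3) then phi w p + 1
      else phi w x
  | .con w _ _, x => phi w x

/-- partner of an end; the unmatched end is a fixed point -/
def M (s : T → Bool) : Wd T → Port T → Port T
  | .leg, x => x
  | .tile t, x => if tl x = some t then some (t, thru (s t) (sd x)) else x
  | .att w p t d, x =>
      if tl x = some t then
        if x = some (t, thru (s t) d) then (if M s w p = p then x else M s w p)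
        else some (t, thru (s t) (sd x))
      else if M s w x = p then some (t, thru (s t) d) else M s w x
  | .con w p q, x =>
      if M s w x = p then (if M s w q = q then x else M s w q)
      else if M s w x = q then (if M s w p = p then x else M s w p)
      else M s w x

/-- the unmatched end -/
def u (s : T → Bool) : Wd T → Port T
  | .leg => none
  | .tile _ => none
  | .att w p t d => if u s w = p then some (t, thru (s t) d) else u s w
  | .con w p q => if u s w = p then M s w q else if u s w = q then M s w p else u s w

/-- start of an arc -/
def S (s : T → Bool) : Wd T → Port T → Bool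
  | .leg, _ => false
  | .tile t, x => decide (x = some (t, 0) ∨ x = some (t, if s t then 2 else 1))
  | .att w p t d, x =>
      if tl x = some t then
        if x = some (t, thru (s t) d) then S s w p
        else decide (x = some (t, d + 1) ∨ (x = some (t, d + 2) ∧ thru (s t) d = d + 1))
      else S s w x
  | .con w p q, x =>
      if M s w x = p then !(S s w p) && S s w q
      else if M s w x = q then S s w p || !(S s w q)
      else S s w x

/-- clockwise turning (in quarter turns) of the passage `d → thru b d` -/
def tn (b : Bool) (d : ZMod 4) : ℤ := if thru b d = d + 1 then -1 else 1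

/-- clockwise turning of the strand from the end `x` (entering) to its partner (leaving), plus the
seam values `phi q - phi p + 2` (`0` for a flat glueing) of the glueings `p → q` of type `con`;
for the unmatched end: from the end to the source of the leg -/
def tau (s : T → Bool) : Wd T → Port T → ℤ
  | .leg, _ => 0
  | .tile t, x => if tl x = some t then tn (s t) (sd x) else 0
  | .att w p t d, x =>
      if tl x = some t then
        if x = some (t, thru (s t) d) then tn (s t) (thru (s t) d) + tau s w p
        else tn (s t) (sd x)
      else if M s w x = p then tau s w x + tn (s t) d else tau s w x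
  | .con w p q, x =>
      if M s w x = p then tau s w x + (phi w q - phi w p + 2) + tau s w q
      else if M s w x = q then tau s w x - (phi w q - phi w p + 2) + tau s w p
      else tau s w x

/-- glueing involution of the ports -/
def be : Wd T → Port T → Port T
  | .leg, x => x
  | .tile _, x => x
  | .att w p t d, x => if x = p then some (t, d) else if x = some (t, d) then p else be w x
  | .con w p q, x => if x = p then q else if x = q then p else be w x

/-- seam value of the passage from `x` to `be w x` -/
def ge : Wd T → Port T → ℤ
  | .leg, _ => 0
  | .tile _, _ => 0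
  | .att w p t d, x => if x = p ∨ x = some (t, d) then 0 else ge w x
  | .con w p q, x => if x = p then phi w q - phi w p + 2
      else if x = q then -(phi w q - phi w p + 2) else ge w x

/-- number of closed loops -/
def lp (s : T → Bool) : Wd T → ℕ
  | .leg => 0
  | .tile _ => 0
  | .att w _ _ _ => lp s w
  | .con w p q => lp s w + if M s w p = q then 1 else 0

/-- `q` follows `p` in the cyclic list `l` -/
def Adj {α : Type*} (l : List α) (p q : α) : Prop :=
  (∃ l1 l2, l = l1 ++ p :: q :: l2) ∨ (∃ l1, l = q :: l1 ++ [p])

/-- admissible words -/
def Ok : Wd T → Prop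
  | .leg => True
  | .tile _ => True
  | .att w p t _ => Ok w ∧ p ∈ L w ∧ t ∉ tls w ∧ (p = none → w = .leg)
  | .con w p q => Ok w ∧ p ≠ none ∧ q ≠ none ∧ p ≠ q ∧ Adj (L w) p q

/-- glued ports face each other -/
def Fc : Wd T → Prop
  | .leg => True
  | .tile _ => True
  | .att w p _ d => Fc w ∧ d = sd p + 2
  | .con w p q => Fc w ∧ sd q = sd p + 2

/-- integer positions of the ends (increasing along `L w`) -/
def pos : Wd T → Port T → ℤ
  | .leg, _ => 0
  | .tile _, x => x.elim 0 fun y => (y.2.val : ℤ) + 1
  | .att w p t d, x =>
      if x = some (t, d + 1) then 4 * pos w p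
      else if x = some (t, d + 2) then 4 * pos w p + 1
      else if x = some (t, d + 3) then 4 * pos w p + 2
      else 4 * pos w x
  | .con w _ _, x => pos w x

omit [DecidableEq T] in
@[simp] theorem tl_none : tl (none : Port T) = none := rfl
omit [DecidableEq T] in
@[simp] theorem tl_some (t : T) (d : ZMod 4) : tl (some (t, d) : Port T) = some t := rfl
omit [DecidableEq T] in
@[simp] theorem sd_some (t : T) (d : ZMod 4) : sd (some (t, d) : Port T) = d := rfl
omit [DecidableEq T] in
@[simp] theorem sd_none : sd (none : Port T) = 1 := rfl

theorem tn_thru (b : Bool) (d : ZMod 4) : tn b (thru b d) = - tn b d := by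
  revert b d; decide

theorem thru_thru (b : Bool) (d : ZMod 4) : thru b (thru b d) = d := by
  revert b d; decide

theorem thru_ne (b : Bool) (d : ZMod 4) : thru b d ≠ d := by
  revert b d; decide

theorem thru_cases (b : Bool) (d : ZMod 4) : thru b d = d + 1 ∨ thru b d = d + 3 := by
  revert b d; decide

end Crest.Agent.R158.Sw300
private theorem rz_9e85048479 : type_of% @_root_.Crest.Agent.R158.Sw300.L.eq_def := @_root_.Crest.Agent.R158.Sw300.L.eq_def -- L57
private theorem rz_e3e9221d70 : type_of% @_root_.Crest.Agent.R158.Sw300.L.eq_1 := @_root_.Crest.Agent.R158.Sw300.L.eq_1 -- L57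
private theorem rz_d8dfa6156b : type_of% @_root_.Crest.Agent.R158.Sw300.M.eq_def := @_root_.Crest.Agent.R158.Sw300.M.eq_def -- L76
private theorem rz_1f9da0cbca : type_of% @_root_.Crest.Agent.R158.Sw300.M.eq_1 := @_root_.Crest.Agent.R158.Sw300.M.eq_1 -- L76
private theorem rz_c1d3760782 : type_of% @_root_.Crest.Agent.R158.Sw300.S.eq_def := @_root_.Crest.Agent.R158.Sw300.S.eq_def -- L97
private theorem rz_44d890f44a : type_of% @_root_.Crest.Agent.R158.Sw300.S.eq_1 := @_root_.Crest.Agent.R158.Sw300.S.eq_1 -- L97
private theorem rz_efcbe40420 : type_of% @_root_.Crest.Agent.R158.Sw300.be.eq_def := @_root_.Crest.Agent.R158.Sw300.be.eq_def -- L130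
private theorem rz_20c014c890 : type_of% @_root_.Crest.Agent.R158.Sw300.be.eq_1 := @_root_.Crest.Agent.R158.Sw300.be.eq_1 -- L130
private theorem rz_509f1291cc : type_of% @_root_.Crest.Agent.R158.Sw300.phi.eq_def := @_root_.Crest.Agent.R158.Sw300.phi.eq_def -- L65
private theorem rz_0a494b1898 : type_of% @_root_.Crest.Agent.R158.Sw300.phi.eq_1 := @_root_.Crest.Agent.R158.Sw300.phi.eq_1 -- L65
private theorem rz_927be3c5bf : type_of% @_root_.Crest.Agent.R158.Sw300.pos.eq_def := @_root_.Crest.Agent.R158.Sw300.pos.eq_def -- L170
private theorem rz_608e6b9fa7 : type_of% @_root_.Crest.Agent.R158.Sw300.pos.eq_1 := @_root_.Crest.Agent.R158.Sw300.pos.eq_1 -- L170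
private theorem rz_b657b09e8c : type_of% @_root_.Crest.Agent.R158.Sw300.tau.eq_def := @_root_.Crest.Agent.R158.Sw300.tau.eq_def -- L116
private theorem rz_c534af05b5 : type_of% @_root_.Crest.Agent.R158.Sw300.tau.eq_1 := @_root_.Crest.Agent.R158.Sw300.tau.eq_1 -- L116
private theorem rz_a44a3f20f1 : type_of% @_root_.Crest.Agent.R158.Sw300.tls.eq_def := @_root_.Crest.Agent.R158.Sw300.tls.eq_def -- L48
private theorem rz_f914060c6c : type_of% @_root_.Crest.Agent.R158.Sw300.tls.eq_1 := @_root_.Crest.Agent.R158.Sw300.tls.eq_1 -- L48
private theorem rz_b1c7d269f5 : type_of% @_root_.Crest.Agent.R158.Sw300.u.eq_def := @_root_.Crest.Agent.R158.Sw300.u.eq_def -- L90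
private theorem rz_eac821b988 : type_of% @_root_.Crest.Agent.R158.Sw300.u.eq_1 := @_root_.Crest.Agent.R158.Sw300.u.eq_1 -- L90
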