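import Crest.Agent.R158.Nm7_211
import Crest.Agent.R158.Sw0_300

/-!
R158, leaf F1 + deterministic half of F2 (helper470), part 1: walks in charts.

A *chart* of a glued complex of tiles (ports `T × ZMod 4`, glueing relation `G`) is a map from a
finite region `R` of `ℤ × ℤ` to the tiles which respects the glueings inside `R`; tiles may be
reflected (`F v = true`, sides `N` and `S` exchanged).  A strand that starts at a free end in a chart
either reaches sup-distance `n` (counted by helper211's `Mac`) or stays in the ball of radius `n` of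
the chart and ends at a free end there.
-/

set_option autoImplicit false

namespace Crest.Agent.R158.Ka470

open Crest.Agent.R158.Nm211
open Crest.Agent.R158.Sw300 (thru)

variable {T : Type*}

/-- the strand that enters through `x` (first element of `l`), visits the tiles of `l` (entering
through the ports of `l`) and is about to leave through `y` -/
inductive Wk (s : T → Bool) (G : T × ZMod 4 → T × ZMod 4 → Prop) (x : T × ZMod 4) :
    T × ZMod 4 → List (T × ZMod 4) → Prop
  | one : Wk s G x (x.1, thru (s x.1) x.2) [x]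
  | snoc {q r : T × ZMod 4} {l : List (T × ZMod 4)} : Wk s G x q l → G q r →
      Wk s G x (r.1, thru (s r.1) r.2) (l ++ [r])

/-- entering side of a strand moving in direction `d` -/
def en (d : Dir) : ZMod 4 :=
  match d with
  | 0 => 3
  | 1 => 0
  | 2 => 1
  | 3 => 2

/-- leaving side of a strand moving in direction `d` -/
def ex (d : Dir) : ZMod 4 :=
  match d with
  | 0 => 1
  | 1 => 2
  | 2 => 3
  | 3 => 0

/-- side of a (possibly reflected) tile -/
def sg (F : Bool) (a : ZMod 4) : ZMod 4 := if F then -a else a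

theorem sg_sg (F : Bool) (a : ZMod 4) : sg F (sg F a) = a := by
  cases F <;> simp [sg]

theorem sg_inj (F : Bool) {a b : ZMod 4} (h : sg F a = sg F b) : a = b := by
  have := congrArg (sg F) h
  rwa [sg_sg, sg_sg] at this

theorem ex_en (d : Dir) : ex (opp d) = en d := by fin_cases d <;> rfl

theorem en_inj {d e : Dir} (h : en d = en e) : d = e := by
  revert d e; decide

theorem ex_inj {d e : Dir} (h : ex d = ex e) : d = e := by
  revert d e; decide

/-- `thru` and `trn` -/
theorem thru_sg (F b : Bool) (d : Dir) : thru b (sg F (en d)) = sg F (ex (trn (xor (!F) b) d)) := by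
  cases F <;> cases b <;> fin_cases d <;> rfl

/-- charts -/
structure Ch (T : Type*) (G : T × ZMod 4 → T × ZMod 4 → Prop) where
  /-- tile at a position -/
  emb : ℤ × ℤ → T
  /-- reflected tiles -/
  F : ℤ × ℤ → Bool
  /-- region -/
  R : Finset (ℤ × ℤ)
  inj : Set.InjOn emb R
  glue : ∀ v ∈ R, ∀ d : Dir, mv v d ∈ R →
    G (emb v, sg (F v) (ex d)) (emb (mv v d), sg (F (mv v d)) (en d))

namespace Ch

variable {G : T × ZMod 4 → T × ZMod 4 → Prop} (C : Ch T G)

/-- port through which the state `c` enters its tile -/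
def pe (c : St ℤ) : T × ZMod 4 := (C.emb c.1, sg (C.F c.1) (en c.2))

/-- side `a` of the tile at `v` -/
def pt (v : ℤ × ℤ) (a : ZMod 4) : T × ZMod 4 := (C.emb v, sg (C.F v) a)

/-- flips for `rd` -/
def Fn (v : ℤ × ℤ) : Bool := !(C.F v)

/-- walk in the chart -/
def f (s : T → Bool) : St ℤ → St ℤ := nx6 (rd C.emb C.Fn s)

/-- states in the region -/
def D : Set (St ℤ) := {c | c.1 ∈ C.R}

theorem f_eq (s : T → Bool) (c : St ℤ) :
    C.f s c = (mv c.1 (trn (xor (C.Fn c.1) (s (C.emb c.1))) c.2),
      trn (xor (C.Fn c.1) (s (C.emb c.1))) c.2) := rfl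

/-- exit port of the tile of a state -/
theorem exit_eq (s : T → Bool) (c : St ℤ) :
    ((C.pe c).1, thru (s (C.pe c).1) (C.pe c).2) = C.pt c.1 (ex (C.f s c).2) := by
  simp only [pe, pt, f_eq, Fn]
  rw [thru_sg]

/-- the next state enters through the glued port -/
theorem glue_next (s : T → Bool) {c : St ℤ} (hc : c.1 ∈ C.R) (hc' : (C.f s c).1 ∈ C.R) :
    G (C.pt c.1 (ex (C.f s c).2)) (C.pe (C.f s c)) := by
  have h : (C.f s c).1 = mv c.1 (C.f s c).2 := rfl
  have h2 := C.glue c.1 hc (C.f s c).2 (h ▸ hc')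
  exact h2

theorem pe_inj {c c' : St ℤ} (hc : c.1 ∈ C.R) (hc' : c'.1 ∈ C.R) (h : C.pe c = C.pe c') :
    c = c' := by
  obtain ⟨v, d⟩ := c
  obtain ⟨w, e⟩ := c'
  simp only [pe, Prod.mk.injEq] at h
  have hv : v = w := C.inj hc hc' h.1
  subst hv
  rw [en_inj (sg_inj _ h.2)]

end Ch

variable {G : T × ZMod 4 → T × ZMod 4 → Prop}


/-- the port is free -/
def Free (G : T × ZMod 4 → T × ZMod 4 → Prop) (p : T × ZMod 4) : Prop := ∀ r, ¬ G p r








end Crest.Agent.R158.Ka470
private theorem rz_5a2523329f : type_of% @_root_.Crest.Agent.R158.Ka470.en.eq_1 := @_root_.Crest.Agent.R158.Ka470.en.eq_1 -- L32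
private theorem rz_b4ba78475e : type_of% @_root_.Crest.Agent.R158.Ka470.ex.eq_1 := @_root_.Crest.Agent.R158.Ka470.ex.eq_1 -- L40
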