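import Crest.Agent.R158.Zg1_180
import Crest.Agent.R158.Ka1_470
import Crest.Agent.R158.Env_664

-- ▼ part R158/Zg2_180
section

/-!
# Row 158 (helper180): gates, 2: closed gates separate the strands of a glued complex

A `Gate` is a chart (helper470's `Ch`) of a box of columns `x0 .. x1 + 1`, rows `(y0, y1]`, such that
all sides of the tiles of the columns `x0 < x ≤ x1` which leave the box are free.  It is closed if
there is an even bottom-top crossing of the columns `(x0, x1]`.

* `Gate.enter`, `Gate.cont` : strands in the box of a gate are chart walks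
* `sep` : a strand that starts in `A` never reaches `B` if `A` and `B` are only joined by closed gates
-/

set_option autoImplicit false

noncomputable section

namespace Crest.Agent.R158.Zg180

open unitInterval
open Crest.Agent.R161.Geo729
open Crest.Agent.R158.Rs689 Crest.Agent.R158.Mr679
open Crest.Agent.R158.Nm211 (Dir dx dy trn St mv nx6 rd opp)
open Crest.Agent.R158.Cb771 (FS FP xg)
open Crest.Agent.R158.Ka470 (Ch Wk en ex sg sg_sg Free ex_en ex_inj)
open Crest.Agent.R158.Sw300 (thru)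

variable {T : Type*} {G : T × ZMod 4 → T × ZMod 4 → Prop}

/-- gates -/
structure Gate (T : Type*) (G : T × ZMod 4 → T × ZMod 4 → Prop) where
  /-- the chart -/
  C : Ch T G
  x0 : ℤ
  x1 : ℤ
  y0 : ℤ
  y1 : ℤ
  h01 : x0 < x1
  hR : ∀ v : ℤ × ℤ, v ∈ C.R ↔ x0 ≤ v.1 ∧ v.1 ≤ x1 + 1 ∧ y0 < v.2 ∧ v.2 ≤ y1
  fr : ∀ v ∈ C.R, x0 < v.1 → v.1 ≤ x1 → ∀ d : Dir, mv v d ∉ C.R → Free G (C.pt v (ex d))

namespace Gate

variable (g : Gate T G)

/-- positions in the box -/
def Bx (v : ℤ × ℤ) : Prop := v ∈ g.C.R ∧ g.x0 < v.1 ∧ v.1 ≤ g.x1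

/-- tiles of the gate -/
def Z : Set T := {t | ∃ v, g.Bx v ∧ g.C.emb v = t}

/-- the gate is closed -/
def Closed (s : T → Bool) : Prop :=
  xg (gn (rd g.C.emb g.C.Fn s)) ∈ BX 0 g.x0 g.x1 g.y0 g.y1

variable {g}

theorem mem_Z_iff {v : ℤ × ℤ} (hv : v ∈ g.C.R) : g.C.emb v ∈ g.Z ↔ g.Bx v := by
  constructor
  · rintro ⟨w, hw, e⟩
    rw [← g.C.inj hw.1 hv e]
    exact hw
  · intro h
    exact ⟨v, h, rfl⟩

theorem en_surj (a : ZMod 4) : ∃ d : Dir, en d = a := by revert a; decide

theorem exists_state (v : ℤ × ℤ) (a : ZMod 4) : ∃ d : Dir, g.C.pe (v, d) = (g.C.emb v, a) := by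
  obtain ⟨d, hd⟩ := en_surj (sg (g.C.F v) a)
  refine ⟨d, ?_⟩
  simp only [Ch.pe, hd, sg_sg]

/-- a strand in the box continues in the chart -/
theorem cont (hG : ∀ p q r, G p q → G p r → q = r) {s : T → Bool} {c : St ℤ} (hc : g.Bx c.1)
    {r : T × ZMod 4} (h : G ((g.C.pe c).1, thru (s (g.C.pe c).1) (g.C.pe c).2) r) :
    (g.C.f s c).1 ∈ g.C.R ∧ r = g.C.pe (g.C.f s c) := by
  rw [g.C.exit_eq] at h
  have h1 : (g.C.f s c).1 ∈ g.C.R := by
    by_contra hcon
    have h2 : (g.C.f s c).1 = mv c.1 (g.C.f s c).2 := rfl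
    rw [h2] at hcon
    exact g.fr c.1 hc.1 hc.2.1 hc.2.2 _ hcon _ h
  exact ⟨h1, hG _ _ _ h (g.C.glue_next s hc.1 h1)⟩

/-- a strand enters the box from one of the two border columns, along the chart -/
theorem enter (hS : ∀ p q, G p q → G q p) (hG : ∀ p q r, G p q → G p r → q = r) {s : T → Bool}
    {q r : T × ZMod 4} (hq : q.1 ∉ g.Z) (hr : r.1 ∈ g.Z)
    (h : G (q.1, thru (s q.1) q.2) r) :
    ∃ c : St ℤ, c.1 ∈ g.C.R ∧ (c.1.1 = g.x0 ∨ c.1.1 = g.x1 + 1) ∧ g.C.pe c = q ∧
      r = g.C.pe (g.C.f s c) ∧ g.Bx (g.C.f s c).1 := by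
  obtain ⟨v', hv', hrv⟩ := hr
  obtain ⟨d', hd'⟩ := exists_state (g := g) v' r.2
  have hr' : r = g.C.pe (v', d') := by
    rw [hd', hrv]
  -- the previous position
  have hmv : mv (mv v' (opp d')) d' = v' := by
    obtain ⟨x, y⟩ := v'
    fin_cases d' <;> simp [mv, opp, dx, dy]
  have hin : mv v' (opp d') ∈ g.C.R := by
    by_contra hcon
    have h1 := g.fr v' hv'.1 hv'.2.1 hv'.2.2 (opp d') hcon
    have h2 : g.C.pt v' (ex (opp d')) = r := by
      rw [hr']
      simp only [Ch.pt, Ch.pe, ex_en]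
    rw [h2] at h1
    exact h1 _ (hS _ _ h)
  have hgl := g.C.glue (mv v' (opp d')) hin d' (by rw [hmv]; exact hv'.1)
  rw [hmv] at hgl
  have e1 : (q.1, thru (s q.1) q.2) = g.C.pt (mv v' (opp d')) (ex d') := by
    refine hG r _ _ (hS _ _ h) ?_
    rw [hr']
    exact hS _ _ hgl
  have e2 : q.1 = g.C.emb (mv v' (opp d')) := congrArg Prod.fst e1
  have hnot : ¬ g.Bx (mv v' (opp d')) := by
    intro hb
    exact hq (e2 ▸ (mem_Z_iff hin).2 hb)
  obtain ⟨e, he⟩ := exists_state (g := g) (mv v' (opp d')) q.2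
  have hpe : g.C.pe (mv v' (opp d'), e) = q := by
    rw [he, ← e2]
  have hex := g.C.exit_eq s (mv v' (opp d'), e)
  rw [hpe, e1] at hex
  have hdir : (g.C.f s (mv v' (opp d'), e)).2 = d' := by
    have h1 := congrArg Prod.snd hex
    simp only [Ch.pt] at h1
    exact (ex_inj (Crest.Agent.R158.Ka470.sg_inj _ h1)).symm
  have hf : g.C.f s (mv v' (opp d'), e) = (v', d') := by
    have h1 : (g.C.f s (mv v' (opp d'), e)).1 =
        mv (mv v' (opp d')) (g.C.f s (mv v' (opp d'), e)).2 := rfl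
    rw [hdir, hmv] at h1
    exact Prod.ext h1 hdir
  refine ⟨(mv v' (opp d'), e), hin, ?_, hpe, ?_, ?_⟩
  · have h1 := (g.hR _).1 hin
    unfold Bx at hnot
    by_contra hcon
    dsimp only at hcon
    refine hnot ⟨hin, ?_, ?_⟩ <;> omega
  · rw [hf]; exact hr'
  · rw [hf]; exact hv'

/-- the strand has entered the box from the left (`b = true`) or from the right -/
def Inv (g : Gate T G) (s : T → Bool) (b : Bool) (r : T × ZMod 4) : Prop :=
  ∃ (c : St ℤ) (m : ℕ), 0 < m ∧ c.1 ∈ g.C.R ∧ (c.1.1 = if b then g.x0 else g.x1 + 1) ∧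
    (∀ j, 0 < j → j ≤ m → g.Bx ((g.C.f s)^[j] c).1) ∧ g.C.pe ((g.C.f s)^[m] c) = r

/-- one step from the inside of a closed gate -/
theorem inv_step (hG : ∀ p q r, G p q → G p r → q = r) {s : T → Bool} (hcl : g.Closed s) {b : Bool}
    {q r : T × ZMod 4} (hq : Inv g s b q) (h : G (q.1, thru (s q.1) q.2) r) :
    Inv g s b r ∨ ∃ v ∈ g.C.R, (v.1 = if b then g.x0 else g.x1 + 1) ∧ r.1 = g.C.emb v := by
  obtain ⟨c, m, hm, hc, hcx, hj, hpe⟩ := hq
  rw [← hpe] at h
  obtain ⟨h1, h2⟩ := cont hG (hj m hm le_rfl) h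
  rw [← Function.iterate_succ_apply' (g.C.f s), Nat.succ_eq_add_one] at h1 h2
  by_cases hb : g.Bx ((g.C.f s)^[m + 1] c).1
  · refine Or.inl ⟨c, m + 1, by omega, hc, hcx, fun j h0 hj' => ?_, h2.symm⟩
    rcases Nat.lt_or_ge m j with h3 | h3
    · have : j = m + 1 := by omega
      rw [this]; exact hb
    · exact hj j h0 h3
  · refine Or.inr ⟨_, h1, ?_, congrArg Prod.fst h2⟩
    have h3 := (g.hR _).1 h1
    have h4 : ((g.C.f s)^[m + 1] c).1.1 = g.x0 ∨ ((g.C.f s)^[m + 1] c).1.1 = g.x1 + 1 := by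
      unfold Bx at hb
      by_contra hcon
      refine hb ⟨h1, ?_, ?_⟩ <;> omega
    have hrow : ∀ j < m + 1, g.x0 < ((g.C.f s)^[j] c).1.1 → ((g.C.f s)^[j] c).1.1 ≤ g.x1 →
        g.y0 < ((g.C.f s)^[j] c).1.2 ∧ ((g.C.f s)^[j] c).1.2 ≤ g.y1 := by
      intro j hj' _ _
      rcases Nat.eq_zero_or_pos j with h0 | h0
      · subst h0
        have := (g.hR _).1 hc
        exact this.2.2
      · exact ((g.hR _).1 (hj j h0 (by omega)).1).2.2
    have h01 := g.h01
    cases b
    · simp only [Bool.false_eq_true, if_false] at hcx ⊢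
      rcases h4 with h4 | h4
      · exact (no_cross' hcl g.h01 (c := c) (m := m + 1) hrow (by omega) (le_of_eq h4)).elim
      · exact h4
    · simp only [if_true] at hcx ⊢
      rcases h4 with h4 | h4
      · exact h4
      · refine (no_cross hcl g.h01 (c := c) (m := m + 1) hrow (by omega) ?_).elim
        have h5 : ((nx6 (rd g.C.emb g.C.Fn s))^[m + 1] c).1.1 = g.x1 + 1 := h4
        omega

end Gate

/-- **separation by closed gates**: the gates `k` with `o k = true` have `A` on the left and `B` on the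
right, the others `B` on the left and `A` on the right -/
theorem sep (hS : ∀ p q, G p q → G q p) (hG : ∀ p q r, G p q → G p r → q = r) {κ : Type*}
    (g : κ → Gate T G) (o : κ → Bool) {A B : Set T} (hA : ∀ k, Disjoint A (g k).Z)
    (hAB : Disjoint A B) (hB : ∀ k, Disjoint B (g k).Z)
    (hcov : ∀ q r, G q r → q.1 ∈ A → r.1 ∈ A ∨ ∃ k, r.1 ∈ (g k).Z)
    (hl : ∀ k, ∀ v ∈ (g k).C.R, v.1 = (g k).x0 → (g k).C.emb v ∈ if o k then A else B)
    (hr : ∀ k, ∀ v ∈ (g k).C.R, v.1 = (g k).x1 + 1 → (g k).C.emb v ∈ if o k then B else A)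
    {s : T → Bool} (hcl : ∀ k, (g k).Closed s) {x y : T × ZMod 4} {l : List (T × ZMod 4)}
    (hx : x.1 ∈ A) (hw : Wk s G x y l) : ∀ r ∈ l, r.1 ∉ B := by
  have key : (∃ r, y = (r.1, thru (s r.1) r.2) ∧ (r.1 ∈ A ∨ ∃ k, (g k).Inv s (o k) r)) ∧
      ∀ r ∈ l, r.1 ∉ B := by
    have hxB : x.1 ∉ B := fun h => Set.disjoint_left.1 hAB hx h
    induction hw with
    | one =>
      refine ⟨⟨x, rfl, Or.inl hx⟩, ?_⟩
      intro r hr'
      rw [List.mem_singleton] at hr'
      rw [hr']; exact hxB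
    | @snoc q r l _ hgl ih =>
      obtain ⟨⟨r0, hr0, hinv⟩, hl0⟩ := ih
      subst hr0
      have hgoal : r.1 ∈ A ∨ ∃ k, (g k).Inv s (o k) r := by
        rcases hinv with h0 | ⟨k, h0⟩
        · rcases hcov _ _ hgl h0 with h1 | ⟨k, h1⟩
          · exact Or.inl h1
          · obtain ⟨c, c1, c2, c3, c4, c5⟩ := Gate.enter hS hG
              (fun h => Set.disjoint_left.1 (hA k) h0 h) h1 hgl
            refine Or.inr ⟨k, c, 1, by omega, c1, ?_, ?_, c4.symm⟩
            · have hemb : (g k).C.emb c.1 = r0.1 := congrArg Prod.fst c3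
              cases ho : o k
              · simp only [Bool.false_eq_true, if_false]
                rcases c2 with c2 | c2
                · have := hl k c.1 c1 c2
                  rw [ho] at this
                  simp only [Bool.false_eq_true, if_false, hemb] at this
                  exact (Set.disjoint_left.1 hAB h0 this).elim
                · exact c2
              · simp only [if_true]
                rcases c2 with c2 | c2
                · exact c2
                · have := hr k c.1 c1 c2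
                  rw [ho] at this
                  simp only [if_true, hemb] at this
                  exact (Set.disjoint_left.1 hAB h0 this).elim
            · intro j h2 h3
              have : j = 1 := by omega
              subst this
              exact c5
        · rcases Gate.inv_step hG (hcl k) h0 hgl with h1 | ⟨v, hv, hv1, hv2⟩
          · exact Or.inr ⟨k, h1⟩
          · left
            rw [hv2]
            cases ho : o k
            · rw [ho] at hv1
              simp only [Bool.false_eq_true, if_false] at hv1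
              have := hr k v hv hv1
              rwa [ho] at this
            · rw [ho] at hv1
              simp only [if_true] at hv1
              have := hl k v hv hv1
              rwa [ho] at this
      refine ⟨⟨r, rfl, hgoal⟩, ?_⟩
      intro r' hr'
      rw [List.mem_append, List.mem_singleton] at hr'
      rcases hr' with hr' | rfl
      · exact hl0 r' hr'
      · rcases hgoal with h1 | ⟨k, c, m, hm, _, _, hj, hpe⟩
        · exact fun h => Set.disjoint_left.1 hAB h1 h
        · have h2 := hj m hm le_rfl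
          have h3 : r'.1 = (g k).C.emb (((g k).C.f s)^[m] c).1 := congrArg Prod.fst hpe.symm
          intro h
          refine Set.disjoint_left.1 (hB k) h ?_
          rw [h3]
          exact ⟨_, h2, rfl⟩
  exact key.2

end Crest.Agent.R158.Zg180
end
end

-- ▼ part R158/Zg3_180
section

/-!
# Row 158 (helper180): gates, 3: the strip of the environment `G^(z)`

* `Gq be q r` : the ports `q ≠ r` of tiles are glued
* `uc y0 v` : the column of the strip tile `v` in the undislocated chart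
* `gate` : the gate in the columns `(a0, a1]` of the strip
* `Near`, `Far` : the tiles outside and between the two gates
* `gates` : **no strand visits both `Near` and `Far` if both gates are closed**
-/

set_option autoImplicit false

noncomputable section

namespace Crest.Agent.R158.Zg180

open unitInterval
open Crest.Agent.R161.Geo729
open Crest.Agent.R158.Rs689 Crest.Agent.R158.Mr679
open Crest.Agent.R158.Nm211 (Dir dx dy trn St mv nx6 rd opp)
open Crest.Agent.R158.Ka470 (Ch Wk en ex sg sg_sg Free ex_en ex_inj)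
open Crest.Agent.R158.Sw300 (thru Port)
open Crest.Agent.R158.Env664

/-- glued ports of tiles -/
def Gq {T : Type*} (be : Port T → Port T) (q r : T × ZMod 4) : Prop :=
  be (some q) = some r ∧ q ≠ r

theorem Gq.fn {T : Type*} {be : Port T → Port T} : ∀ p q r, Gq be p q → Gq be p r → q = r := by
  intro p q r h1 h2
  have := h1.1.symm.trans h2.1
  simpa using this

theorem Gq.symm {T : Type*} {be : Port T → Port T} (hb : ∀ x, be (be x) = x) :
    ∀ p q, Gq be p q → Gq be q p := by
  intro p q h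
  refine ⟨?_, h.2.symm⟩
  rw [← h.1, hb]

/-- a suffix of a strand is a strand -/
theorem wk_suffix {T : Type*} {s : T → Bool} {G : T × ZMod 4 → T × ZMod 4 → Prop}
    {x y : T × ZMod 4} {l : List (T × ZMod 4)} (h : Wk s G x y l) :
    ∀ (l1 l2 : List (T × ZMod 4)) (r : T × ZMod 4), l = l1 ++ r :: l2 → Wk s G r y (r :: l2) := by
  induction h with
  | one =>
    intro l1 l2 r h
    rcases l1 with _ | ⟨a, l1⟩
    · simp only [List.nil_append, List.cons.injEq] at h
      obtain ⟨rfl, rfl⟩ := h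
      exact Wk.one
    · simp at h
  | @snoc q r' l _ hg ih =>
    intro l1 l2 r h
    rcases List.eq_nil_or_concat l2 with rfl | ⟨l2', z, rfl⟩
    · have h1 := List.append_inj' h (by simp)
      simp only [List.cons.injEq, and_true] at h1
      rw [← h1.2]
      exact Wk.one
    · have h0 : l ++ [r'] = (l1 ++ r :: l2') ++ [z] := by
        rw [h]; simp
      have h1 := List.append_inj' h0 (by simp)
      simp only [List.cons.injEq, and_true] at h1
      have h2 := ih l1 l2' r h1.1
      have h3 := Wk.snoc h2 hg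
      rw [← h1.2]
      simpa using h3

variable {A : Finset (ℤ × ℤ)} (B : Band A) (y0 : ℤ)

/-- position in the strip -/
def se (y0 : ℤ) (v : ℤ × ℤ) : TG := Sum.inr (if v.2 < y0 then v.1 else v.1 + 1, v.2)

/-- column of a strip tile in the chart -/
def uc (y0 : ℤ) (v : ℤ × ℤ) : ℤ := if v.2 < y0 then v.1 else v.1 - 1

theorem se_uc (v : ℤ × ℤ) : se y0 (uc y0 v, v.2) = Sum.inr v := by
  obtain ⟨i, y⟩ := v
  unfold se uc
  by_cases h : y < y0 <;> simp [h]

/-- region of the gate -/
def gR (a0 a1 : ℤ) : Finset (ℤ × ℤ) :=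
  Finset.Icc a0 (a1 + 1) ×ˢ Finset.Ico B.y1 B.y2

theorem mem_gR {a0 a1 : ℤ} {v : ℤ × ℤ} : v ∈ gR B a0 a1 ↔
    a0 ≤ v.1 ∧ v.1 ≤ a1 + 1 ∧ B.y1 ≤ v.2 ∧ v.2 < B.y2 := by
  unfold gR
  rw [Finset.mem_product, Finset.mem_Icc, Finset.mem_Ico]
  tauto

variable {B y0}

theorem se_mem {v : ℤ × ℤ} (h1 : 0 ≤ v.1) (h2 : v.1 < B.R) (h3 : B.y1 ≤ v.2) (h4 : v.2 < B.y2) :
    se y0 v ∈ B.tG y0 := by
  unfold se
  rw [Band.inr_mem]
  unfold Band.wd
  by_cases h : v.2 < y0 <;> simp [h] <;> omega

/-- glueing inside the strip -/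
theorem se_glue {p : ℤ} {v : ℤ × ℤ} {d : Dir} (h1 : 0 ≤ v.1) (h2 : v.1 < B.R)
    (h3 : B.y1 ≤ v.2) (h4 : v.2 < B.y2) (h1' : 0 ≤ (mv v d).1) (h2' : (mv v d).1 < B.R)
    (h3' : B.y1 ≤ (mv v d).2) (h4' : (mv v d).2 < B.y2) :
    B.beG p y0 (some (se y0 v, ex d)) = some (se y0 (mv v d), en d) := by
  have key : B.nbG p y0 (some (se y0 v, ex d)) = some (se y0 (mv v d), en d) := by
    obtain ⟨u, y⟩ := v
    fin_cases d
    · -- N
      simp only [mv, dx, dy, add_zero, Int.cast_zero, se, ex, en] at *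
      by_cases hy : y = y0 - 1
      · rw [if_pos (by omega), if_neg (by omega), Band.nbG_rN1 B hy]
        simp [hy]
      · rw [Band.nbG_rN B hy]
        by_cases h : y < y0
        · rw [if_pos h, if_pos (by omega)]
        · rw [if_neg h, if_neg (by omega)]
    · -- E
      simp only [mv, dx, dy, add_zero, Int.cast_one, se, ex, en] at *
      rw [Band.nbG_rE B]
      · by_cases h : y < y0
        · simp [h]
        · simp [h]
      · unfold Band.wd
        by_cases h : y < y0 <;> simp only [h, if_true, if_false] <;> omega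
    · -- S
      simp only [mv, dx, dy, add_zero, Int.cast_zero, se, ex, en] at *
      by_cases hy : y = y0
      · rw [if_neg (by omega), if_pos (by omega), Band.nbG_rS2 B ⟨hy, by omega⟩]
        have : y + -1 = y0 - 1 := by omega
        rw [this, add_sub_cancel_right]
      · rw [Band.nbG_rS B hy]
        have e : y + -1 = y - 1 := by ring
        rw [e]
        by_cases h : y < y0
        · rw [if_pos h, if_pos (by omega)]
        · rw [if_neg h, if_neg (by omega)]
    · -- W
      simp only [mv, dx, dy, add_zero, Int.cast_neg, Int.cast_one, se, ex, en] at *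
      rw [Band.nbG_rW B]
      · by_cases h : y < y0
        · simp only [h, if_true]; congr 3
        · simp only [h, if_false]
          have : u + 1 - 1 = u + -1 + 1 := by ring
          rw [this]
      · by_cases h : y < y0 <;> simp only [h, if_true, if_false] <;> omega
  unfold Band.beG
  rw [res_of (portOf_some.2 (se_mem h1 h2 h3 h4)), key]
  rw [key]
  exact portOf_some.2 (se_mem h1' h2' h3' h4')

theorem se_inj {v w : ℤ × ℤ} (h : se y0 v = se y0 w) : v = w := by
  obtain ⟨a, b⟩ := v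
  obtain ⟨c, d⟩ := w
  unfold se at h
  have h1 := Sum.inr_injective h
  simp only [Prod.mk.injEq] at h1
  obtain ⟨h2, rfl⟩ := h1
  by_cases hb : b < y0
  · simp only [hb, if_true] at h2; rw [h2]
  · simp only [hb, if_false, add_left_inj] at h2; rw [h2]

/-- **the gate in the columns `(a0, a1]` of the strip** -/
def gate {p : ℤ} (hz : B.At p y0) {a0 a1 : ℤ} (h0 : 0 ≤ a0) (h01 : a0 < a1) (h1 : a1 + 1 < B.R) :
    Gate TG (Gq (B.beG p y0)) where
  C := { emb := se y0
         F := fun _ => false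
         R := gR B a0 a1
         inj := fun v _ w _ h => se_inj h
         glue := by
          intro v hv d hd
          rw [mem_gR] at hv hd
          refine ⟨?_, ?_⟩
          · show B.beG p y0 (some (se y0 v, ex d)) = some (se y0 (mv v d), en d)
            exact se_glue (by omega) (by omega) (by omega) (by omega) (by omega) (by omega)
              (by omega) (by omega)
          · intro h
            have h2 : v = mv v d := se_inj (congrArg Prod.fst h)
            obtain ⟨x, y⟩ := v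
            fin_cases d <;> simp [mv, dx, dy] at h2 }
  x0 := a0
  x1 := a1
  y0 := B.y1 - 1
  y1 := B.y2 - 1
  h01 := h01
  hR := by
    intro v
    show v ∈ gR B a0 a1 ↔ _
    rw [mem_gR]
    omega
  fr := by
    intro v hv e0 e1 d hd r hr
    replace hv : v ∈ gR B a0 a1 := hv
    replace hd : mv v d ∉ gR B a0 a1 := hd
    rw [mem_gR] at hv hd
    replace hr : Gq (B.beG p y0) (se y0 v, ex d) r := hr
    obtain ⟨hy1, hy2, _, _⟩ := hz
    obtain ⟨hr1, hr2⟩ := hr
    -- the partner is outside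
    have key : ∀ (q : TG × ZMod 4), B.nbG p y0 (some (se y0 v, ex d)) = some q → q.1 ∉ B.tG y0 →
        False := by
      intro q hq hq'
      unfold Band.beG res at hr1
      rw [hq] at hr1
      have hn : ¬ (PortOf (B.tG y0) (some (se y0 v, ex d) : Port TG) ∧
          PortOf (B.tG y0) (some q : Port TG)) := by
        rintro ⟨-, h⟩
        exact hq' (h q rfl)
      rw [if_neg hn] at hr1
      exact hr2 (Option.some_injective _ hr1)
    obtain ⟨u, y⟩ := v
    fin_cases d
    · simp only [mv, dx, dy, Int.cast_zero, add_zero] at hd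
      have hy : y = B.y2 - 1 := by omega
      refine key _ (by
        show B.nbG p y0 (some (Sum.inr _, 1)) = _
        exact Band.nbG_rN B (show y ≠ y0 - 1 by omega)) ?_
      intro h
      have := (Band.inr_mem B).1 h
      omega
    · simp only [mv, dx, dy, Int.cast_one, add_zero] at hd
      dsimp only at e0 e1
      omega
    · simp only [mv, dx, dy, Int.cast_zero, add_zero] at hd
      have hy : y = B.y1 := by omega
      refine key _ (by
        show B.nbG p y0 (some (Sum.inr _, 3)) = _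
        exact Band.nbG_rS B (show y ≠ y0 by omega)) ?_
      intro h
      have := (Band.inr_mem B).1 h
      omega
    · simp only [mv, dx, dy, Int.cast_neg, Int.cast_one, add_zero] at hd
      dsimp only at e0 e1
      omega

end Crest.Agent.R158.Zg180
end
end

-- ▼ part R158/Zg4_180

/-!
# Row 158 (helper180): gates, 4: two closed gates separate `G^(z)`

* `Near y0 a0 b1`, `Far y0 a1 b0` : the tiles outside and between the gates `(a0, a1]`, `(b0, b1]`
* `gates` : **no strand visits both `Near` and `Far` if both gates are closed**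
-/

set_option autoImplicit false

noncomputable section

namespace Crest.Agent.R158.Zg180

open unitInterval
open Crest.Agent.R161.Geo729
open Crest.Agent.R158.Rs689 Crest.Agent.R158.Mr679
open Crest.Agent.R158.Nm211 (Dir dx dy trn St mv nx6 rd opp)
open Crest.Agent.R158.Ka470 (Ch Wk en ex sg sg_sg Free ex_en ex_inj)
open Crest.Agent.R158.Sw300 (thru Port)
open Crest.Agent.R158.Env664

variable {A : Finset (ℤ × ℤ)} {B : Band A} {y0 : ℤ}

theorem gq_nb {p : ℤ} {q r : TG × ZMod 4} (h : Gq (B.beG p y0) q r) :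
    B.nbG p y0 (some q) = some r ∧ q.1 ∈ B.tG y0 ∧ r.1 ∈ B.tG y0 := by
  obtain ⟨h1, h2⟩ := h
  unfold Band.beG res at h1
  split_ifs at h1 with hc
  · refine ⟨h1, hc.1 q rfl, ?_⟩
    have := hc.2
    rw [h1] at this
    exact this r rfl
  · exact absurd (Option.some_injective _ h1) h2

theorem uc_lt {i y : ℤ} (h : y < y0) : uc y0 (i, y) = i := if_pos h
theorem uc_ge {i y : ℤ} (h : ¬ y < y0) : uc y0 (i, y) = i - 1 := if_neg h

/-- glued strip tiles have neighbouring columns -/
theorem adj_rr {p : ℤ} {v w : ℤ × ℤ} {d e : ZMod 4}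
    (h : Gq (B.beG p y0) (Sum.inr v, d) (Sum.inr w, e)) :
    uc y0 v ≤ uc y0 w + 1 ∧ uc y0 w ≤ uc y0 v + 1 := by
  obtain ⟨h1, -, -⟩ := gq_nb h
  obtain ⟨i, y⟩ := v
  rcases z4 d with rfl | rfl | rfl | rfl
  · by_cases hi : i = 0
    · subst hi
      rw [Band.nbG_rW1] at h1
      simp at h1
    · rw [Band.nbG_rW B hi] at h1
      simp only [Option.some.injEq, Prod.mk.injEq, Sum.inr.injEq] at h1
      rw [← h1.1]
      by_cases hy : y < y0
      · rw [uc_lt hy, uc_lt hy]; omega
      · rw [uc_ge hy, uc_ge hy]; omega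
  · by_cases hy : y = y0 - 1
    · rw [Band.nbG_rN1 B hy] at h1
      simp only [Option.some.injEq, Prod.mk.injEq, Sum.inr.injEq] at h1
      rw [← h1.1, uc_lt (show y < y0 by omega), uc_ge (show ¬ y0 < y0 by omega)]
      omega
    · rw [Band.nbG_rN B hy] at h1
      simp only [Option.some.injEq, Prod.mk.injEq, Sum.inr.injEq] at h1
      rw [← h1.1]
      by_cases hy' : y < y0
      · rw [uc_lt hy', uc_lt (show y + 1 < y0 by omega)]; omega
      · rw [uc_ge hy', uc_ge (show ¬ y + 1 < y0 by omega)]; omega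
  · by_cases hi : i = B.wd y0 y - 1
    · rw [Band.nbG_rE1 B hi] at h1
      simp at h1
    · rw [Band.nbG_rE B hi] at h1
      simp only [Option.some.injEq, Prod.mk.injEq, Sum.inr.injEq] at h1
      rw [← h1.1]
      by_cases hy : y < y0
      · rw [uc_lt hy, uc_lt hy]; omega
      · rw [uc_ge hy, uc_ge hy]; omega
  · by_cases hc : y = y0 ∧ i = 0
    · rw [Band.nbG_rS1 B hc] at h1
      simp at h1
    by_cases hy : y = y0
    · have hi : i ≠ 0 := fun h' => hc ⟨hy, h'⟩
      rw [Band.nbG_rS2 B ⟨hy, hi⟩] at h1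
      simp only [Option.some.injEq, Prod.mk.injEq, Sum.inr.injEq] at h1
      rw [← h1.1, uc_ge (show ¬ y < y0 by omega), uc_lt (show y0 - 1 < y0 by omega)]
      omega
    · rw [Band.nbG_rS B hy] at h1
      simp only [Option.some.injEq, Prod.mk.injEq, Sum.inr.injEq] at h1
      rw [← h1.1]
      by_cases hy' : y < y0
      · rw [uc_lt hy', uc_lt (show y - 1 < y0 by omega)]; omega
      · rw [uc_ge hy', uc_ge (show ¬ y - 1 < y0 by omega)]; omega

/-- the domain is only glued to the two end columns of the strip -/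
theorem adj_lr {p : ℤ} {v w : ℤ × ℤ} {d e : ZMod 4}
    (h : Gq (B.beG p y0) (Sum.inl v, d) (Sum.inr w, e)) :
    uc y0 w ≤ 0 ∨ uc y0 w = B.R - 1 := by
  obtain ⟨h1, -, -⟩ := gq_nb h
  obtain ⟨x, y⟩ := v
  rcases z4 d with rfl | rfl | rfl | rfl
  · by_cases hc : x = B.xl ∧ B.y1 ≤ y ∧ y < B.y2
    · rw [Band.nbG_W1 B hc] at h1
      simp only [Option.some.injEq, Prod.mk.injEq, Sum.inr.injEq] at h1
      rw [← h1.1]
      right
      unfold Band.wd uc
      by_cases hy : y < y0 <;> simp only [hy, if_true, if_false] <;> ring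
    · rw [Band.nbG_W B hc] at h1
      simp at h1
  · by_cases hc : y = y0 - 1 ∧ p ≤ x ∧ x < B.xr
    · rw [Band.nbG_N1 B hc] at h1
      simp at h1
    by_cases hc2 : y = y0 - 1 ∧ x = B.xr
    · rw [Band.nbG_N2 B hc2] at h1
      simp only [Option.some.injEq, Prod.mk.injEq, Sum.inr.injEq] at h1
      rw [← h1.1, uc_ge (show ¬ y0 < y0 by omega)]
      omega
    · rw [Band.nbG_N B ⟨hc, hc2⟩] at h1
      simp at h1
  · by_cases hc : x = B.xr ∧ B.y1 ≤ y ∧ y < B.y2
    · rw [Band.nbG_E1 B hc] at h1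
      simp only [Option.some.injEq, Prod.mk.injEq, Sum.inr.injEq] at h1
      rw [← h1.1]
      left
      by_cases hy : y < y0
      · rw [uc_lt hy]
      · rw [uc_ge hy]; omega
    · rw [Band.nbG_E B hc] at h1
      simp at h1
  · by_cases hc : y = y0 ∧ x = p
    · rw [Band.nbG_Sleg B hc] at h1
      simp at h1
    by_cases hc2 : y = y0 ∧ p < x ∧ x ≤ B.xr
    · rw [Band.nbG_S1 B hc2] at h1
      simp at h1
    · rw [Band.nbG_S B ⟨hc2, hc⟩] at h1
      simp at h1

/-- the domain and the strip outside the gates -/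
def Near (y0 a0 b1 : ℤ) : Set TG :=
  {t | (∃ v, t = Sum.inl v) ∨ ∃ v, t = Sum.inr v ∧ (uc y0 v ≤ a0 ∨ b1 < uc y0 v)}

/-- the strip between the gates -/
def Far (y0 a1 b0 : ℤ) : Set TG := {t | ∃ v, t = Sum.inr v ∧ a1 < uc y0 v ∧ uc y0 v ≤ b0}

theorem mem_gate {p : ℤ} (hz : B.At p y0) {a0 a1 : ℤ} (h0 : 0 ≤ a0) (h01 : a0 < a1)
    (h1 : a1 + 1 < B.R) {v : ℤ × ℤ} (hv : (Sum.inr v : TG) ∈ B.tG y0) (h2 : a0 < uc y0 v)
    (h3 : uc y0 v ≤ a1) : (Sum.inr v : TG) ∈ (gate hz h0 h01 h1).Z := by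
  refine ⟨(uc y0 v, v.2), ⟨?_, h2, h3⟩, se_uc y0 v⟩
  show (uc y0 v, v.2) ∈ gR B a0 a1
  rw [mem_gR]
  obtain ⟨i, y⟩ := v
  have := (Band.inr_mem B).1 hv
  dsimp only
  omega

theorem gate_Z {p : ℤ} (hz : B.At p y0) {a0 a1 : ℤ} (h0 : 0 ≤ a0) (h01 : a0 < a1)
    (h1 : a1 + 1 < B.R) {t : TG} (ht : t ∈ (gate hz h0 h01 h1).Z) :
    ∃ v, t = Sum.inr v ∧ a0 < uc y0 v ∧ uc y0 v ≤ a1 := by
  obtain ⟨w, ⟨-, h2, h3⟩, rfl⟩ := ht
  refine ⟨(if w.2 < y0 then w.1 else w.1 + 1, w.2), rfl, ?_⟩
  have e : uc y0 (if w.2 < y0 then w.1 else w.1 + 1, w.2) = w.1 := by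
    by_cases h : w.2 < y0
    · simp only [h, if_true]; exact uc_lt h
    · simp only [h, if_false]; rw [uc_ge h]; ring
  rw [e]
  exact ⟨h2, h3⟩

theorem uc_se (w : ℤ × ℤ) : ∃ v, se y0 w = Sum.inr v ∧ uc y0 v = w.1 := by
  refine ⟨(if w.2 < y0 then w.1 else w.1 + 1, w.2), rfl, ?_⟩
  by_cases h : w.2 < y0
  · simp only [h, if_true]; exact uc_lt h
  · simp only [h, if_false]; rw [uc_ge h]; ring

/-- **two closed gates**: no strand visits both sides -/
theorem gates {p : ℤ} (hz : B.At p y0) {a0 a1 b0 b1 : ℤ} (h0 : 0 ≤ a0) (ha : a0 < a1) (hab : a1 < b0)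
    (hb : b0 < b1) (hR : b1 + 1 < B.R) {s : TG → Bool}
    (ca : (gate hz h0 ha (by omega : a1 + 1 < B.R)).Closed s)
    (cb : (gate hz (by omega : 0 ≤ b0) hb hR).Closed s) {x y : TG × ZMod 4}
    {l : List (TG × ZMod 4)} (hw : Wk s (Gq (B.beG p y0)) x y l) :
    ¬ ((∃ q ∈ l, q.1 ∈ Near y0 a0 b1) ∧ ∃ r ∈ l, r.1 ∈ Far y0 a1 b0) := by
  have hS := Gq.symm (be := B.beG p y0) (Band.beG_invol B hz)
  have hG := Gq.fn (be := B.beG p y0)
  set ga := gate hz h0 ha (by omega : a1 + 1 < B.R) with hga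
  set gb := gate hz (by omega : 0 ≤ b0) hb hR with hgb
  let g : Bool → Gate TG (Gq (B.beG p y0)) := fun k => if k then ga else gb
  have hgt : g true = ga := rfl
  have hgf : g false = gb := rfl
  have hdis : Disjoint (Near y0 a0 b1) (Far y0 a1 b0) := by
    rw [Set.disjoint_left]
    rintro t (⟨v, rfl⟩ | ⟨v, rfl, h⟩) ⟨w, hw, h'⟩
    · simp at hw
    · have := Sum.inr_injective hw
      subst this
      omega
  have hZ : ∀ k, ∀ t ∈ (g k).Z, ∃ v, t = Sum.inr v ∧
      ((a0 < uc y0 v ∧ uc y0 v ≤ a1) ∨ (b0 < uc y0 v ∧ uc y0 v ≤ b1)) := by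
    intro k t ht
    cases k
    · obtain ⟨v, e1, e2⟩ := gate_Z hz (by omega : 0 ≤ b0) hb hR ht
      exact ⟨v, e1, Or.inr e2⟩
    · obtain ⟨v, e1, e2⟩ := gate_Z hz h0 ha (by omega : a1 + 1 < B.R) ht
      exact ⟨v, e1, Or.inl e2⟩
  have hNZ : ∀ k, Disjoint (Near y0 a0 b1) (g k).Z := by
    intro k
    rw [Set.disjoint_left]
    rintro t (⟨v, rfl⟩ | ⟨v, rfl, h⟩) ht
    · obtain ⟨w, hw, _⟩ := hZ k _ ht
      simp at hw
    · obtain ⟨w, hw, h'⟩ := hZ k _ ht
      have := Sum.inr_injective hw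
      subst this
      omega
  have hFZ : ∀ k, Disjoint (Far y0 a1 b0) (g k).Z := by
    intro k
    rw [Set.disjoint_left]
    rintro t ⟨v, rfl, h⟩ ht
    obtain ⟨w, hw, h'⟩ := hZ k _ ht
    have := Sum.inr_injective hw
    subst this
    omega
  -- every tile of the complex
  have hall : ∀ t ∈ B.tG y0, t ∈ Near y0 a0 b1 ∨ t ∈ Far y0 a1 b0 ∨ ∃ k, t ∈ (g k).Z := by
    intro t ht
    rcases t with v | v
    · exact Or.inl (Or.inl ⟨v, rfl⟩)
    · by_cases e1 : uc y0 v ≤ a0 ∨ b1 < uc y0 v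
      · exact Or.inl (Or.inr ⟨v, rfl, e1⟩)
      by_cases e2 : a1 < uc y0 v ∧ uc y0 v ≤ b0
      · exact Or.inr (Or.inl ⟨v, rfl, e2⟩)
      right; right
      by_cases e3 : uc y0 v ≤ a1
      · exact ⟨true, mem_gate hz h0 ha (by omega) ht (by omega) e3⟩
      · exact ⟨false, mem_gate hz (by omega) hb hR ht (by omega) (by omega)⟩
  -- `Near` and `Far` are not glued
  have hNF : ∀ q r, Gq (B.beG p y0) q r → q.1 ∈ Near y0 a0 b1 → r.1 ∈ Far y0 a1 b0 → False := by
    rintro ⟨q, d⟩ ⟨r, e⟩ hgl (⟨v, hv⟩ | ⟨v, hv, h⟩) ⟨w, hw, h'⟩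
    · dsimp only at hv hw
      subst hv; subst hw
      have := adj_lr hgl
      omega
    · dsimp only at hv hw
      subst hv; subst hw
      have := adj_rr hgl
      omega
  have hcovN : ∀ q r, Gq (B.beG p y0) q r → q.1 ∈ Near y0 a0 b1 →
      r.1 ∈ Near y0 a0 b1 ∨ ∃ k, r.1 ∈ (g k).Z := by
    intro q r hgl hq
    rcases hall r.1 (gq_nb hgl).2.2 with h | h | h
    · exact Or.inl h
    · exact (hNF q r hgl hq h).elim
    · exact Or.inr h
  have hcovF : ∀ q r, Gq (B.beG p y0) q r → q.1 ∈ Far y0 a1 b0 →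
      r.1 ∈ Far y0 a1 b0 ∨ ∃ k, r.1 ∈ (g k).Z := by
    intro q r hgl hq
    rcases hall r.1 (gq_nb hgl).2.2 with h | h | h
    · exact (hNF r q (hS _ _ hgl) h hq).elim
    · exact Or.inl h
    · exact Or.inr h
  have hcl : ∀ k, (g k).Closed s := by
    intro k
    cases k
    · exact cb
    · exact ca
  have hL : ∀ k, ∀ v ∈ (g k).C.R, v.1 = (g k).x0 →
      (g k).C.emb v ∈ if k then Near y0 a0 b1 else Far y0 a1 b0 := by
    intro k v _ hv
    obtain ⟨w, e1, e2⟩ := uc_se (y0 := y0) v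
    cases k
    · show se y0 v ∈ Far y0 a1 b0
      refine ⟨w, e1, ?_⟩
      replace hv : v.1 = b0 := hv
      omega
    · show se y0 v ∈ Near y0 a0 b1
      refine Or.inr ⟨w, e1, ?_⟩
      replace hv : v.1 = a0 := hv
      omega
  have hRt : ∀ k, ∀ v ∈ (g k).C.R, v.1 = (g k).x1 + 1 →
      (g k).C.emb v ∈ if k then Far y0 a1 b0 else Near y0 a0 b1 := by
    intro k v _ hv
    obtain ⟨w, e1, e2⟩ := uc_se (y0 := y0) v
    cases k
    · show se y0 v ∈ Near y0 a0 b1
      refine Or.inr ⟨w, e1, ?_⟩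
      replace hv : v.1 = b1 + 1 := hv
      omega
    · show se y0 v ∈ Far y0 a1 b0
      refine ⟨w, e1, ?_⟩
      replace hv : v.1 = a1 + 1 := hv
      omega
  have sepN : ∀ {x y : TG × ZMod 4} {l : List (TG × ZMod 4)}, Wk s (Gq (B.beG p y0)) x y l →
      x.1 ∈ Near y0 a0 b1 → ∀ r ∈ l, r.1 ∉ Far y0 a1 b0 := fun hw hx =>
    sep hS hG g (fun k => k) hNZ hdis hFZ hcovN hL hRt hcl hx hw
  have sepF : ∀ {x y : TG × ZMod 4} {l : List (TG × ZMod 4)}, Wk s (Gq (B.beG p y0)) x y l →
      x.1 ∈ Far y0 a1 b0 → ∀ r ∈ l, r.1 ∉ Near y0 a0 b1 := fun hw hx => by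
    refine sep hS hG g (fun k => !k) hFZ hdis.symm hNZ hcovF ?_ ?_ hcl hx hw
    · intro k v hv h
      have := hL k v hv h
      cases k <;> simpa using this
    · intro k v hv h
      have := hRt k v hv h
      cases k <;> simpa using this
  rintro ⟨⟨q, hq, hqN⟩, ⟨r, hr, hrF⟩⟩
  obtain ⟨l1, l2, rfl⟩ := List.append_of_mem hq
  have hr' := List.mem_append.1 hr
  rcases hr' with hr' | hr'
  · obtain ⟨l3, l4, rfl⟩ := List.append_of_mem hr'
    have h1 := wk_suffix hw l3 (l4 ++ q :: l2) r (by simp)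
    exact sepF h1 hrF q (by simp) hqN
  · have h1 := wk_suffix hw l1 l2 q rfl
    exact sepN h1 hqN r hr' hrF

end Crest.Agent.R158.Zg180
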