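import Crest.Agent.R158.Ad9_350
import Crest.Agent.R158.Xr13_249
import Crest.Agent.R158.Zg4_180
import Crest.Agent.R158.Pt6_266

-- ▼ part R158/Ad10_350
section

/-!
# Block AD, strands that stay in the strip (helper350)

* `hole_rct`, `tt_flat`, `tt_round` : turning of the strands of a rectangle
* `psS b'` : natural phases of the ceiling (`1` left of `b'`, `5` right of `b'`) and of the floor (`3`)
* `strip_arc` : an arc of a rectangle has phase `±2` (in units `π/12`), or `±6` if it joins a ceiling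
  port left of `b'` to a ceiling port right of `b'`
* `pull` : a walk of `netN` in the strip comes from a strand of the rectangle
* `zn_strip` : value of the classes of `netN` in the strip
-/

set_option autoImplicit false
set_option linter.unusedSectionVars false
set_option linter.unusedVariables false

noncomputable section

open Finset

namespace Crest.Agent.R158.Ad350

open Crest.Agent.R158.Pt266 (Hole FFree gl_full rg_full RG tt tt_rv rv CwR CwC full_both full_loop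
  run runL mem_runL FRun chain_flat chain_convex run_zero dir Wk pass)
open Crest.Agent.R158.Xr249 (rct mem_rct full CPath eS)
open Crest.Agent.R158.Sw300 (Port thru)

namespace Net

variable {P : Type*} [DecidableEq P] {N : Net P}

/-- a loop has no cut ends -/
lemma loop_ends (h : N.Ok) {x y : P} (hx : x ∈ N.V) {l : List P} (w : N.Wa x y l)
    (h1 : N.be y = x) (hl : l.Nodup) : N.ends (N.cls x) = ∅ := by
  have hc := (z_loop h hx w h1 hl).1
  obtain ⟨n, rfl, rfl, h3⟩ := w.data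
  have hne := it_ne h hx h3
  have hxy : N.be x = N.al (N.g^[n] x) := by
    have := h.be2 _ (h.alV _ (it_mem h hx n))
    rwa [h1] at this
  rw [list_Iw, list_Ow] at hc
  rw [Finset.eq_empty_iff_forall_notMem]
  intro p hp
  obtain ⟨hp1, hp2⟩ := Finset.mem_filter.1 hp
  rw [hc] at hp1
  rcases Finset.mem_union.1 hp1 with hp1 | hp1
  · obtain ⟨i, hi, rfl⟩ := mem_Iw.1 hp1
    cases i with
    | zero =>
      rw [Function.iterate_zero, id_eq] at hp2
      exact hne n 0 le_rfl (Nat.zero_le _) (hxy.symm.trans hp2)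
    | succ i =>
      have e : N.g^[i + 1] x = N.be (N.al (N.g^[i] x)) := by
        rw [Function.iterate_succ_apply']; rfl
      have hb := h.be2 _ (h.alV _ (it_mem h hx i))
      rw [← e, hp2] at hb
      exact hne i (i + 1) (by omega) hi hb.symm
  · obtain ⟨i, hi, rfl⟩ := mem_Ow.1 hp1
    rcases Nat.lt_or_ge i n with hin | hin
    · exact h3 i hin hp2
    · have e : i = n := by omega
      subst e
      rw [h1] at hp2
      exact hne i 0 le_rfl (Nat.zero_le _) hp2.symm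

end Net

/-! ### rectangles -/

section rect

lemma hole_rct (x1 x2 y1 y2 : ℤ) : Hole (rct x1 x2 y1 y2) := by
  rintro ⟨x, y⟩ hc
  have hX : ∀ {a b : ℤ}, ¬ ((x1 ≤ a ∧ a < x2) ∧ y1 ≤ b ∧ b < y2) →
      (a, b) ∈ {t : ℤ × ℤ | t ∉ rct x1 x2 y1 y2} := fun h h' => h (mem_rct.1 h')
  rw [mem_rct] at hc
  have top : ∀ t ∈ rct x1 x2 y1 y2, ∀ d : ℤ, y2 ≤ d → t.2 ≤ d := by
    rintro ⟨a, b⟩ ht d hd
    have := (mem_rct.1 ht).2.2
    simp only; omega
  have goup : ∀ z w : ℤ, (z < x1 ∨ x2 ≤ z ∨ y2 ≤ w) →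
      ∃ d, CPath {t | t ∉ rct x1 x2 y1 y2} (z, w) d ∧ ∀ t ∈ rct x1 x2 y1 y2, t.2 ≤ d.2 := by
    intro z w hz
    refine ⟨(z, max w y2), CPath.ver (le_max_left _ _) fun u h1 h2 => hX (by omega),
      fun t ht => top t ht _ (le_max_right _ _)⟩
  by_cases h1 : x < x1 ∨ x2 ≤ x ∨ y2 ≤ y
  · exact goup x y h1
  · have h2 : y < y1 := by omega
    obtain ⟨d, hd, hd2⟩ := goup (x1 - 1) y (Or.inl (by omega))
    refine ⟨d, CPath.trans ?_ hd, hd2⟩
    exact (CPath.hor (X := {t | t ∉ rct x1 x2 y1 y2}) (x1 := x1 - 1) (x2 := x) (by omega)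
      fun u h3 h4 => hX (by omega)).symm

variable {A : Finset (ℤ × ℤ)} {s : ℤ × ℤ → Bool} {k : List ((ℤ × ℤ) × ZMod 4)}

lemma frun_free {t : ℤ × ℤ} {d : ZMod 4} {n : ℕ} (h : FRun A t d n) {i : ℕ} (hi : i ≤ n) :
    FFree A (Pt266.run t d i) := h i hi

lemma smul_dir_ne {d : ZMod 4} {i : ℕ} (hi : 0 < i) : i • dir d ≠ 0 := by
  have := Pt266.dir_ne d
  rcases h : dir d with ⟨u, v⟩
  rw [h] at this
  rw [Prod.smul_mk, Ne, Prod.mk_eq_zero, smul_eq_zero, smul_eq_zero]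
  rw [Ne, Prod.mk_eq_zero] at this
  omega

/-- a strand between two ports of a flat side -/
lemma tt_flat (hA : Hole A) {t : ℤ × ℤ} {d : ZMod 4} {n : ℕ} (hn : 0 < n) (h : FRun A t d n)
    (w : Wk s (RG (full A)) (t, d) (run t d n) k) : tt s k = -2 := by
  have h1 := chain_flat h
  rw [run_zero] at h1
  have hne : runL t d n ≠ [] := by
    intro e
    have : run t d n ∈ runL t d n := mem_runL.2 ⟨n, hn, le_rfl, rfl⟩
    rw [e] at this
    simp at this
  obtain ⟨h2, -⟩ := h1.toC hne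
  have hx : ∀ z ∈ runL t d n, z ≠ (t, d) := by
    intro z hz e
    obtain ⟨i, hi, -, rfl⟩ := mem_runL.1 hz
    have := congrArg Prod.fst e
    simp only [run, add_eq_left] at this
    exact smul_dir_ne hi this
  have h0 := frun_free h (Nat.zero_le n)
  rw [run_zero] at h0
  have := (full_both hA h0 (frun_free h le_rfl) w h2
    (hx _ (mem_runL.2 ⟨n, hn, le_rfl, rfl⟩))
    (fun hm => hx _ (List.dropLast_subset _ hm) rfl)).1
  rw [this]; norm_num

lemma d1 (d : ZMod 4) : d + 1 ≠ d ∧ d + 1 + 1 ≠ d := by revert d; decide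

/-- a strand around two convex corners -/
lemma tt_round (hA : Hole A) {t : ℤ × ℤ} {d : ZMod 4} {n m j : ℕ} (h : FRun A t d n)
    (hc : t + n • dir (d + 1) + dir (d + 1) ∉ A) (h' : FRun A (t + n • dir (d + 1)) (d + 1) m)
    (hc' : t + n • dir (d + 1) + m • dir (d + 1 + 1) + dir (d + 1 + 1) ∉ A)
    (h'' : FRun A (t + n • dir (d + 1) + m • dir (d + 1 + 1)) (d + 1 + 1) j)
    (w : Wk s (RG (full A)) (t, d)
      (run (t + n • dir (d + 1) + m • dir (d + 1 + 1)) (d + 1 + 1) j) k) : tt s k = 0 := by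
  have g1 := chain_convex h hc (h'.mono (Nat.zero_le m))
  have g2 := chain_convex h' hc' h''
  have g3 := g1.trans g2
  rw [run_zero] at g3
  set l := (runL t d n ++ (t + n • dir (d + 1), d + 1) :: runL (t + n • dir (d + 1)) (d + 1) 0) ++
    (runL (t + n • dir (d + 1)) (d + 1) m ++
      (t + n • dir (d + 1) + m • dir (d + 1 + 1), d + 1 + 1) ::
        runL (t + n • dir (d + 1) + m • dir (d + 1 + 1)) (d + 1 + 1) j) with hl
  have hne : l ≠ [] := by simp [hl]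
  obtain ⟨g4, -⟩ := g3.toC hne
  obtain ⟨e1, e2⟩ := d1 d
  have hx : ∀ z ∈ l, z ≠ (t, d) := by
    intro z hz e
    rw [hl] at hz
    simp only [List.mem_append, List.mem_cons] at hz
    rcases hz with (hz | rfl | hz) | (hz | rfl | hz)
    · obtain ⟨i, hi, -, rfl⟩ := mem_runL.1 hz
      have := congrArg Prod.fst e
      simp only [run, add_eq_left] at this
      exact smul_dir_ne hi this
    · exact e1 (congrArg Prod.snd e)
    · obtain ⟨i, hi, -, rfl⟩ := mem_runL.1 hz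
      exact e1 (congrArg Prod.snd e)
    · obtain ⟨i, hi, -, rfl⟩ := mem_runL.1 hz
      exact e1 (congrArg Prod.snd e)
    · exact e2 (congrArg Prod.snd e)
    · obtain ⟨i, hi, -, rfl⟩ := mem_runL.1 hz
      exact e2 (congrArg Prod.snd e)
  have h0 := frun_free h (Nat.zero_le n)
  rw [run_zero] at h0
  have hy : run (t + n • dir (d + 1) + m • dir (d + 1 + 1)) (d + 1 + 1) j ≠ (t, d) :=
    fun e => e2 (congrArg Prod.snd e)
  have := (full_both hA h0 (frun_free h'' le_rfl) w g4 hy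
    (fun hm => hx _ (List.dropLast_subset _ hm) rfl)).1
  rw [this]; norm_num

lemma dir0 : dir 0 = (-1, 0) := by decide
lemma dir1 : dir 1 = (0, 1) := by decide
lemma dir2 : dir 2 = (1, 0) := by decide
lemma dir3 : dir 3 = (0, -1) := by decide

variable {x1 x2 y1 y2 : ℤ}

/-- ceiling, from left to right -/
lemma tt_ceil {i j : ℤ} (hi : x1 ≤ i) (hij : i < j) (hj : j < x2) (hy : y1 < y2)
    (w : Wk s (RG (full (rct x1 x2 y1 y2))) ((i, y2 - 1), 1) ((j, y2 - 1), 1) k) :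
    tt s k = -2 := by
  obtain ⟨n, rfl⟩ := Int.le.dest hij.le
  have e : (1 : ZMod 4) + 1 = 2 := by decide
  refine tt_flat (hole_rct x1 x2 y1 y2) (t := (i, y2 - 1)) (d := 1) (n := n) (by omega) ?_ ?_
  · intro m hm
    rw [e, dir2, dir1]
    simp only [Prod.smul_mk, Prod.mk_add_mk, nsmul_eq_mul, mul_one, mul_zero, add_zero]
    rw [mem_rct, mem_rct]
    omega
  · have : run (i, y2 - 1) 1 n = ((i + n, y2 - 1), 1) := by
      unfold Pt266.run
      rw [e, dir2]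
      simp
    rw [this]
    exact w

/-- floor, from right to left -/
lemma tt_floor {i j : ℤ} (hi : x1 ≤ i) (hij : i < j) (hj : j < x2) (hy : y1 < y2)
    (w : Wk s (RG (full (rct x1 x2 y1 y2))) ((j, y1), 3) ((i, y1), 3) k) :
    tt s k = -2 := by
  obtain ⟨n, rfl⟩ := Int.le.dest hij.le
  have e : (3 : ZMod 4) + 1 = 0 := by decide
  refine tt_flat (hole_rct x1 x2 y1 y2) (t := (i + n, y1)) (d := 3) (n := n) (by omega) ?_ ?_
  · intro m hm
    rw [e, dir0, dir3]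
    simp only [Prod.smul_mk, Prod.mk_add_mk, nsmul_eq_mul, mul_neg, mul_one, mul_zero, add_zero]
    rw [mem_rct, mem_rct]
    omega
  · have : run (i + n, y1) 3 n = ((i, y1), 3) := by
      unfold Pt266.run
      rw [e, dir0]
      simp
    rw [this]
    exact w

/-- from the ceiling to the floor -/
lemma tt_cf {i j : ℤ} (hi : x1 ≤ i) (hi' : i < x2) (hj : x1 ≤ j) (hj' : j < x2) (hy : y1 < y2)
    (w : Wk s (RG (full (rct x1 x2 y1 y2))) ((i, y2 - 1), 1) ((j, y1), 3) k) :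
    tt s k = 0 := by
  obtain ⟨n, hn⟩ := Int.le.dest (show i ≤ x2 - 1 by omega)
  obtain ⟨m, hm⟩ := Int.le.dest (show y1 ≤ y2 - 1 by omega)
  obtain ⟨r, hr⟩ := Int.le.dest (show j ≤ x2 - 1 by omega)
  have e : (1 : ZMod 4) + 1 = 2 := by decide
  have e' : (2 : ZMod 4) + 1 = 3 := by decide
  have e'' : (3 : ZMod 4) + 1 = 0 := by decide
  refine tt_round (hole_rct x1 x2 y1 y2) (t := (i, y2 - 1)) (d := 1) (n := n) (m := m) (j := r)
    ?_ ?_ ?_ ?_ ?_ ?_
  · intro m hm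
    rw [e, dir2, dir1]
    simp only [Prod.smul_mk, Prod.mk_add_mk, nsmul_eq_mul, mul_one, mul_zero, add_zero]
    rw [mem_rct, mem_rct]
    omega
  · rw [e, dir2]
    simp only [Prod.smul_mk, Prod.mk_add_mk, nsmul_eq_mul, mul_one, mul_zero, add_zero]
    rw [mem_rct]
    omega
  · intro u hu
    rw [e, e', dir2, dir3]
    simp only [Prod.smul_mk, Prod.mk_add_mk, nsmul_eq_mul, mul_neg, mul_one, mul_zero, add_zero]
    rw [mem_rct, mem_rct]
    omega
  · rw [e, e', dir2, dir3]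
    simp only [Prod.smul_mk, Prod.mk_add_mk, nsmul_eq_mul, mul_neg, mul_one, mul_zero, add_zero]
    rw [mem_rct]
    omega
  · intro u hu
    rw [e, e', e'', dir2, dir3, dir0]
    simp only [Prod.smul_mk, Prod.mk_add_mk, nsmul_eq_mul, mul_neg, mul_one, mul_zero, add_zero]
    rw [mem_rct, mem_rct]
    omega
  · have : run ((i, y2 - 1) + n • dir (1 + 1) + m • dir (1 + 1 + 1)) (1 + 1 + 1) r =
        ((j, y1), 3) := by
      unfold Pt266.run
      rw [e, e', e'', dir2, dir3, dir0]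
      simp only [Prod.smul_mk, Prod.mk_add_mk, nsmul_eq_mul, mul_neg, mul_one, mul_zero, add_zero]
      congr 2 <;> omega
    rw [this]
    exact w

/-- natural phases of the strip (in units `π/12`) -/
def psS (b' : ℤ) (q : (ℤ × ℤ) × ZMod 4) : ℤ :=
  if q.2 = 3 then 3 else if q.1.1 < b' then 1 else 5

/-- ceiling or floor port -/
def VE (y1 y2 : ℤ) (q : (ℤ × ℤ) × ZMod 4) : Prop :=
  (q.2 = 1 ∧ q.1.2 = y2 - 1) ∨ (q.2 = 3 ∧ q.1.2 = y1)

/-- two ceiling ports on different sides of `b'` -/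
def Ovr (b' : ℤ) (x y : (ℤ × ℤ) × ZMod 4) : Prop :=
  x.2 = 1 ∧ y.2 = 1 ∧ ((x.1.1 < b' ∧ b' ≤ y.1.1) ∨ (y.1.1 < b' ∧ b' ≤ x.1.1))

lemma rg_symm (A : Finset (ℤ × ℤ)) : ∀ a b, RG (full A) a b → RG (full A) b a :=
  (Pt266.rg_glu (full A)).sym

/-- **phase of an arc of the strip** -/
theorem strip_arc {b' : ℤ} {x y : (ℤ × ℤ) × ZMod 4} (hx : x.1 ∈ rct x1 x2 y1 y2)
    (hy : y.1 ∈ rct x1 x2 y1 y2) (vx : VE y1 y2 x) (vy : VE y1 y2 y) (hne : x ≠ y)
    (w : Wk s (RG (full (rct x1 x2 y1 y2))) x y k) :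
    (Ovr b' x y ∧ (-tt s k + psS b' y - psS b' x = 6 ∨ -tt s k + psS b' y - psS b' x = -6)) ∨
    (¬ Ovr b' x y ∧
      (-tt s k + psS b' y - psS b' x = 2 ∨ -tt s k + psS b' y - psS b' x = -2)) := by
  obtain ⟨⟨i, u⟩, d⟩ := x
  obtain ⟨⟨j, v⟩, e⟩ := y
  rw [mem_rct] at hx hy
  obtain ⟨⟨hi1, hi2⟩, hu1, hu2⟩ := hx
  obtain ⟨⟨hj1, hj2⟩, hv1, hv2⟩ := hy
  have w' := w.reverse (rg_symm _)
  have n13 : (1 : ZMod 4) ≠ 3 := by decide
  rcases vx with ⟨rfl, vx⟩ | ⟨rfl, vx⟩ <;> rcases vy with ⟨rfl, vy⟩ | ⟨rfl, vy⟩ <;>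
    simp only at vx vy <;> subst vx <;> subst vy
  · -- ceiling, ceiling
    have e1 : psS b' ((i, y2 - 1), 1) = if i < b' then 1 else 5 := by
      simp [psS, n13]
    have e2 : psS b' ((j, y2 - 1), 1) = if j < b' then 1 else 5 := by
      simp [psS, n13]
    rw [e1, e2]
    have e3 : Ovr b' ((i, y2 - 1), 1) ((j, y2 - 1), 1) ↔
        ((i < b' ∧ b' ≤ j) ∨ (j < b' ∧ b' ≤ i)) := by simp [Ovr]
    rw [e3]
    rcases lt_trichotomy i j with h | h | h
    · have := tt_ceil hi1 h hj2 (by omega) w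
      rw [this]
      split_ifs <;> omega
    · exact absurd (by rw [h]) hne
    · have := tt_ceil hj1 h hi2 (by omega) w'
      rw [tt_rv] at this
      split_ifs <;> omega
  · -- ceiling, floor
    have e1 : psS b' ((i, y2 - 1), 1) = if i < b' then 1 else 5 := by
      simp [psS, n13]
    have e2 : psS b' ((j, v), 3) = 3 := by simp [psS]
    rw [e1, e2]
    have := tt_cf hi1 hi2 hj1 hj2 (by omega) w
    rw [this]
    have e3 : ¬ Ovr b' ((i, y2 - 1), 1) ((j, v), 3) := fun h => n13 h.2.1.symm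
    refine Or.inr ⟨e3, ?_⟩
    split_ifs <;> omega
  · -- floor, ceiling
    have e1 : psS b' ((i, u), 3) = 3 := by simp [psS]
    have e2 : psS b' ((j, y2 - 1), 1) = if j < b' then 1 else 5 := by
      simp [psS, n13]
    rw [e1, e2]
    have := tt_cf hj1 hj2 hi1 hi2 (by omega) w'
    rw [tt_rv] at this
    have e3 : ¬ Ovr b' ((i, u), 3) ((j, y2 - 1), 1) := fun h => n13 h.1.symm
    refine Or.inr ⟨e3, ?_⟩
    split_ifs <;> omega
  · -- floor, floor
    have e1 : psS b' ((i, v), 3) = 3 := by simp [psS]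
    have e2 : psS b' ((j, v), 3) = 3 := by simp [psS]
    rw [e1, e2]
    have e3 : ¬ Ovr b' ((i, v), 3) ((j, v), 3) := fun h => n13 h.1.symm
    refine Or.inr ⟨e3, ?_⟩
    rcases lt_trichotomy i j with h | h | h
    · have := tt_floor hi1 h hj2 (by omega) w'
      rw [tt_rv] at this
      omega
    · exact absurd (by rw [h]) hne
    · have := tt_floor hj1 h hi2 (by omega) w
      omega

end rect

/-! ### the strip of `G^(z)` -/

section strip

open Crest.Agent.R158.Env664 (TG Band PortOf portOf_some nbP res res_of)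
open Crest.Agent.R158.Ao857 (legP beL chL beL_ne chL_ne chG beG_fix)

/-- glueing of the plain region -/
lemma gb_beP {A : Finset (ℤ × ℤ)} {q r : (ℤ × ℤ) × ZMod 4} :
    Xr249.gb (Env664.beP A) (some q) (some r) ↔ RG (full A) q r := by
  obtain ⟨t, d⟩ := q
  have hn : nbP (some (t, d)) = some (t + dir d, d + 2) := by
    obtain ⟨x, y⟩ := t
    have e0 : (0 : ZMod 4) + 2 = 2 := by decide
    have e1 : (1 : ZMod 4) + 2 = 3 := by decide
    have e2 : (2 : ZMod 4) + 2 = 0 := by decide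
    have e3 : (3 : ZMod 4) + 2 = 1 := by decide
    rcases Xr249.Reg.d4 d with rfl | rfl | rfl | rfl
    · rw [Env664.nbP_W, dir0, e0]; simp [sub_eq_add_neg]
    · rw [Env664.nbP_N, dir1, e1]; simp
    · rw [Env664.nbP_E, dir2, e2]; simp
    · rw [Env664.nbP_S, dir3, e3]; simp [sub_eq_add_neg]
  rw [rg_full]
  unfold Xr249.gb Env664.beP res
  rw [hn]
  have hp : (PortOf A (some (t, d) : Port (ℤ × ℤ)) ∧ PortOf A (some (t + dir d, d + 2))) ↔
      (t ∈ A ∧ t + dir d ∈ A) := by rw [portOf_some, portOf_some]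
  have hne : (some (t, d) : Port (ℤ × ℤ)) ≠ some (t + dir d, d + 2) := by
    intro e
    have h2 : ∀ d : ZMod 4, d ≠ d + 2 := by decide
    exact h2 d (congrArg Prod.snd (Option.some.inj e))
  constructor
  · rintro ⟨h1, h2⟩
    by_cases h : t ∈ A ∧ t + dir d ∈ A
    · rw [if_pos (hp.2 h)] at h1
      exact ⟨h.1, h.2, (Option.some.inj h1).symm⟩
    · rw [if_neg (fun k => h (hp.1 k))] at h1
      exact absurd h1 h2
  · rintro ⟨h1, h2, rfl⟩
    rw [if_pos (hp.2 ⟨h1, h2⟩)]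
    exact ⟨rfl, hne⟩

/-- ports of the strip -/
def pS (y0 : ℤ) (q : (ℤ × ℤ) × ZMod 4) : Port TG := some (eS y0 q.1, q.2)

lemma pS_inj {y0 : ℤ} {q r : (ℤ × ℤ) × ZMod 4} (h : pS y0 q = pS y0 r) : q = r := by
  obtain ⟨h1, h2⟩ := Prod.mk.inj (Option.some.inj h)
  exact Prod.ext (Xr249.eS_inj h1) h2

lemma pS_leg {y0 p : ℤ} {q : (ℤ × ℤ) × ZMod 4} : pS y0 q ≠ legP p y0 := by
  intro h
  have := (Prod.mk.inj (Option.some.inj h)).1
  unfold Xr249.eS at this
  simp at this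

variable {A : Finset (ℤ × ℤ)} {B : Band A} {p y0 : ℤ}

/-- glued ports of a rectangle of the strip -/
lemma be_strip {r1 r2 : ℤ} (h1 : 0 ≤ r1) (h2 : r2 ≤ B.R) {q r : (ℤ × ℤ) × ZMod 4}
    (hq : q.1 ∈ rct r1 r2 B.y1 B.y2) (hr : r.1 ∈ rct r1 r2 B.y1 B.y2) :
    RG (full (rct r1 r2 B.y1 B.y2)) q r ↔ beL B p y0 (pS y0 q) = pS y0 r ∧ pS y0 q ≠ pS y0 r := by
  rw [← gb_beP]
  have := Xr249.eS_glue (p := p) (y0 := y0) (d := q.2) (d' := r.2) h1 h2 hq hr
  rw [show (some q : Port (ℤ × ℤ)) = some (q.1, q.2) from rfl,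
    show (some r : Port (ℤ × ℤ)) = some (r.1, r.2) from rfl, this, beL_ne B pS_leg]
  rfl

variable {a0 b1 : ℤ}

/-- a port of the open strip is a ceiling or floor port, or it is glued inside the strip -/
lemma strip_nb (hz : B.At p y0) (h0 : 0 ≤ a0) (h1 : b1 + 1 < B.R) {q : (ℤ × ℤ) × ZMod 4}
    (hq : q.1 ∈ rct (a0 + 1) (b1 + 1) B.y1 B.y2) :
    (beL B p y0 (pS y0 q) = pS y0 q ∧ VE B.y1 B.y2 q) ∨
    ∃ r : (ℤ × ℤ) × ZMod 4, r.1 ∈ rct a0 (b1 + 2) B.y1 B.y2 ∧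
      beL B p y0 (pS y0 q) = pS y0 r ∧ pS y0 q ≠ pS y0 r := by
  obtain ⟨g1, g2, -, -⟩ := hz
  have hq' : q.1 ∈ rct a0 (b1 + 2) B.y1 B.y2 := by
    obtain ⟨⟨x, y⟩, d⟩ := q
    rw [mem_rct] at hq ⊢
    omega
  by_cases hr : q.1 + dir q.2 ∈ rct a0 (b1 + 2) B.y1 B.y2
  · right
    refine ⟨(q.1 + dir q.2, q.2 + 2), hr, ?_⟩
    exact (be_strip h0 (by omega) hq' hr).1 (rg_full.2 ⟨hq', hr, rfl⟩)
  · left
    obtain ⟨⟨x, y⟩, d⟩ := q
    rw [mem_rct] at hq
    rcases Xr249.Reg.d4 d with rfl | rfl | rfl | rfl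
    · exfalso
      apply hr
      rw [dir0, Prod.mk_add_mk, mem_rct]
      omega
    · have hy : y = B.y2 - 1 := by
        rw [dir1, Prod.mk_add_mk, mem_rct] at hr
        omega
      refine ⟨?_, Or.inl ⟨rfl, hy⟩⟩
      rw [beL_ne B pS_leg]
      show B.beG p y0 (some (eS y0 (x, y), 1)) = some (eS y0 (x, y), 1)
      refine beG_fix B (t := Sum.inr (if y < y0 then x else x + 1, y + 1)) (d' := 3)
        (B.nbG_rN (by omega)) ?_
      rw [B.inr_mem]
      omega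
    · exfalso
      apply hr
      rw [dir2, Prod.mk_add_mk, mem_rct]
      omega
    · have hy : y = B.y1 := by
        rw [dir3, Prod.mk_add_mk, mem_rct] at hr
        omega
      refine ⟨?_, Or.inr ⟨rfl, hy⟩⟩
      rw [beL_ne B pS_leg]
      show B.beG p y0 (some (eS y0 (x, y), 3)) = some (eS y0 (x, y), 3)
      refine beG_fix B (t := Sum.inr (if y < y0 then x else x + 1, y - 1)) (d' := 1)
        (B.nbG_rS (by omega)) ?_
      rw [B.inr_mem]
      omega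

/-- no seam in the strip -/
lemma seam_strip (hz : B.At p y0) (h0 : 0 ≤ a0) (h1 : b1 + 1 < B.R) (c c' : ℝ)
    (φ : Port TG → ℝ) {q : (ℤ × ℤ) × ZMod 4} (hq : q.1 ∈ rct (a0 + 1) (b1 + 1) B.y1 B.y2) :
    chL B p y0 c c' φ (beL B p y0 (pS y0 q)) = chL B p y0 c c' φ (pS y0 q) := by
  rcases strip_nb hz h0 h1 hq with ⟨h, -⟩ | ⟨r, -, h2, h3⟩
  · rw [h]
  · rw [h2, chL_ne B pS_leg, chL_ne B pS_leg]
    rw [beL_ne B pS_leg] at h2
    have h4 : B.beG p y0 (pS y0 r) = pS y0 q := by rw [← h2, B.beG_invol hz]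
    unfold chG
    rw [if_neg (by rw [h4]; exact h3), if_neg (by rw [h2]; exact h3.symm)]
    rfl

/-- phases of the glued ports of the strip -/
lemma chL_glued (c c' : ℝ) (φ : Port TG → ℝ) {q : (ℤ × ℤ) × ZMod 4}
    (hq : beL B p y0 (pS y0 q) ≠ pS y0 q) : chL B p y0 c c' φ (pS y0 q) = 0 := by
  rw [chL_ne B pS_leg]
  rw [beL_ne B pS_leg] at hq
  unfold chG
  rw [if_neg hq]
  rfl

/-- phases of the free ports of the strip -/
lemma chL_free (c c' : ℝ) (φ : Port TG → ℝ) {q : (ℤ × ℤ) × ZMod 4}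
    (hq : beL B p y0 (pS y0 q) = pS y0 q) : chL B p y0 c c' φ (pS y0 q) = φ (pS y0 q) := by
  rw [chL_ne B pS_leg]
  rw [beL_ne B pS_leg] at hq
  unfold chG
  rw [if_pos hq]

variable (c c' : ℝ) (φ : Port TG → ℝ) (s : TG → Bool)

/-- strands of a rectangle are walks of the network -/
lemma push {r1 r2 : ℤ} (h1 : 0 ≤ r1) (h2 : r2 ≤ B.R) {x y : (ℤ × ℤ) × ZMod 4}
    {k : List ((ℤ × ℤ) × ZMod 4)}
    (w : Wk (fun t => s (eS y0 t)) (RG (full (rct r1 r2 B.y1 B.y2))) x y k) :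
    (netN B p y0 c c' φ s).Wa (pS y0 x) (pS y0 y) (k.map (pS y0)) := by
  induction w with
  | one => exact Net.Wa.one _
  | @snoc q r l w hg ih =>
    have hg' := rg_full.1 hg
    have hr : r.1 ∈ rct r1 r2 B.y1 B.y2 := by rw [hg'.2.2]; exact hg'.2.1
    obtain ⟨e1, e2⟩ := (be_strip (p := p) (y0 := y0) h1 h2 hg'.1 hr).1 hg
    rw [List.map_append, List.map_singleton]
    have := Net.Wa.snoc ih (by
      show beL B p y0 (pS y0 q) ≠ pS y0 q
      rw [e1]
      exact e2.symm)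
    have e : (netN B p y0 c c' φ s).be (pS y0 q) = pS y0 r := e1
    rw [e] at this
    exact this

/-- walks of the network in a rectangle of the strip are strands -/
lemma pull {r1 r2 : ℤ} (h1 : 0 ≤ r1) (h2 : r2 ≤ B.R) {x y : Port TG} {l : List (Port TG)}
    (w : (netN B p y0 c c' φ s).Wa x y l)
    (hl : ∀ z ∈ l, ∃ q : (ℤ × ℤ) × ZMod 4, q.1 ∈ rct r1 r2 B.y1 B.y2 ∧ z = pS y0 q) :
    ∃ x' y' : (ℤ × ℤ) × ZMod 4, ∃ k, x = pS y0 x' ∧ y = pS y0 y' ∧ l = k.map (pS y0) ∧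
      (∀ q ∈ k, q.1 ∈ rct r1 r2 B.y1 B.y2) ∧ y'.1 ∈ rct r1 r2 B.y1 B.y2 ∧
      Wk (fun t => s (eS y0 t)) (RG (full (rct r1 r2 B.y1 B.y2))) x' y' k := by
  induction w with
  | one =>
    obtain ⟨q, hq, rfl⟩ := hl x (List.mem_singleton_self _)
    refine ⟨q, pass (fun t => s (eS y0 t)) q, [q], rfl, rfl, rfl, ?_, hq, Wk.one⟩
    intro r hr
    rw [List.mem_singleton] at hr
    rw [hr]; exact hq
  | @snoc q l w hb ih =>
    obtain ⟨x', y', k, rfl, rfl, rfl, h3, h4, h5⟩ := ih fun z hz => hl z (by simp [hz])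
    obtain ⟨r, hr, er⟩ := hl _ (List.mem_append_right _ (List.mem_singleton_self _))
    have hg : RG (full (rct r1 r2 B.y1 B.y2)) y' r := by
      refine (be_strip (p := p) (y0 := y0) h1 h2 h4 hr).2 ⟨er, ?_⟩
      rw [← er]
      exact hb.symm
    refine ⟨x', pass (fun t => s (eS y0 t)) r, k ++ [r], rfl, ?_, ?_, ?_, hr, h5.snoc hg⟩
    · rw [er]; rfl
    · rw [er, List.map_append, List.map_singleton]
    · intro z hz
      rcases List.mem_append.1 hz with hz | hz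
      · exact h3 z hz
      · rw [List.mem_singleton] at hz
        rw [hz]; exact hr

/-- phase of a walk in the strip -/
lemma wl_strip (hz : B.At p y0) (h0 : 0 ≤ a0) (h1 : b1 + 1 < B.R) {x y : (ℤ × ℤ) × ZMod 4}
    {k : List ((ℤ × ℤ) × ZMod 4)} (hx : x.1 ∈ rct (a0 + 1) (b1 + 1) B.y1 B.y2)
    (w : Wk (fun t => s (eS y0 t)) (RG (full (rct (a0 + 1) (b1 + 1) B.y1 B.y2))) x y k) :
    (∀ q ∈ k, q.1 ∈ rct (a0 + 1) (b1 + 1) B.y1 B.y2) ∧
    (netN B p y0 c c' φ s).wl (k.map (pS y0)) =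
      Real.pi / 12 * (-(tt (fun t => s (eS y0 t)) k : ℝ)) +
        (-chL B p y0 c c' φ (pS y0 y) + chL B p y0 c c' φ (pS y0 x)) := by
  have hk : ∀ q ∈ k, q.1 ∈ rct (a0 + 1) (b1 + 1) B.y1 B.y2 := by
    induction w with
    | one =>
      intro q hq
      rw [List.mem_singleton] at hq
      rw [hq]; exact hx
    | @snoc q r l w hg ih =>
      intro z hzz
      rcases List.mem_append.1 hzz with hzz | hzz
      · exact ih z hzz
      · rw [List.mem_singleton] at hzz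
        rw [hzz, (rg_full.1 hg).2.2]
        exact (rg_full.1 hg).2.1
  refine ⟨hk, ?_⟩
  have hW := push (p := p) c c' φ s (by omega : 0 ≤ a0 + 1) (by omega : b1 + 1 ≤ B.R) w
  have hok := netN_ok hz c c' φ s
  have hxV : pS y0 x ∈ ports (B.tG y0) :=
    mem_ports.2 (Xr249.eS_mem (by omega : 0 ≤ a0 + 1) (by omega : b1 + 1 ≤ B.R) hx)
  have h2 := (Wa_wl (be := beL B p y0) (ch := fun q => -chL B p y0 c c' φ q)
    (fun z hz' => Ao857.beL_invol B hz (fun e => none_ports (e ▸ hz')))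
    (fun z hz' => Ao857.beL_ports B hz hz') hxV hW).2
  have h3 : seam (beL B p y0) (fun q => -chL B p y0 c c' φ q) (k.map (pS y0)).tail = 0 := by
    unfold seam
    apply List.sum_eq_zero
    intro v hv
    obtain ⟨z, hz1, rfl⟩ := List.mem_map.1 hv
    obtain ⟨q, hq, rfl⟩ := List.mem_map.1 (List.mem_of_mem_tail hz1)
    show -chL B p y0 c c' φ (beL B p y0 (pS y0 q)) - -chL B p y0 c c' φ (pS y0 q) = 0
    rw [seam_strip hz h0 h1 c c' φ (hk q hq)]
    ring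
  have h4 : tql s (k.map (pS y0)) = -(tt (fun t => s (eS y0 t)) k : ℝ) := by
    have e : k.map (pS y0) = (k.map fun q => (eS y0 q.1, q.2)).map some := by
      rw [List.map_map]; rfl
    rw [e, tql_tt]
    unfold Pt266.tt
    rw [List.map_map]
    rfl
  rw [show (netN B p y0 c c' φ s).wl (k.map (pS y0)) = _ from h2, h3, h4]
  ring

/-- ceiling and floor ports are free -/
lemma be_VE (hz : B.At p y0) (h0 : 0 ≤ a0) (h1 : b1 + 1 < B.R) {q : (ℤ × ℤ) × ZMod 4}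
    (hq : q.1 ∈ rct (a0 + 1) (b1 + 1) B.y1 B.y2) (hv : VE B.y1 B.y2 q) :
    beL B p y0 (pS y0 q) = pS y0 q := by
  rcases strip_nb hz h0 h1 hq with ⟨h, -⟩ | ⟨r, h2, h3, h4⟩
  · exact h
  · exfalso
    have hq' : q.1 ∈ rct a0 (b1 + 2) B.y1 B.y2 := by
      obtain ⟨⟨x, y⟩, d⟩ := q
      rw [mem_rct] at hq ⊢
      omega
    have h5 := (rg_full.1 ((be_strip (p := p) (y0 := y0) h0 (by omega) hq' h2).2 ⟨h3, h4⟩)).2.1
    obtain ⟨⟨x, y⟩, d⟩ := q
    rcases hv with ⟨hd, hy⟩ | ⟨hd, hy⟩ <;> simp only at hd hy <;> subst hd <;> subst hy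
    · rw [dir1, Prod.mk_add_mk, mem_rct] at h5
      omega
    · rw [dir3, Prod.mk_add_mk, mem_rct] at h5
      omega

/-- the phases of the strip -/
def PhS (B : Band A) (y0 a0 b1 b' : ℤ) (φ : Port TG → ℝ) : Prop :=
  ∀ q : (ℤ × ℤ) × ZMod 4, q.1 ∈ rct (a0 + 1) (b1 + 1) B.y1 B.y2 → VE B.y1 B.y2 q →
    φ (pS y0 q) = -(Real.pi / 12 * psS b' q)

lemma strip_V {r1 r2 : ℤ} (h1 : 0 ≤ r1) (h2 : r2 ≤ B.R) {q : (ℤ × ℤ) × ZMod 4}
    (hq : q.1 ∈ rct r1 r2 B.y1 B.y2) : pS y0 q ∈ (netN B p y0 c c' φ s).V :=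
  mem_ports.2 (Xr249.eS_mem h1 h2 hq)

variable {c c' φ s}

/-- **value of an arc of the strip** -/
theorem zn_arc (hz : B.At p y0) (h0 : 0 ≤ a0) (h1 : b1 + 1 < B.R) {b' : ℤ}
    (hφ : PhS B y0 a0 b1 b' φ) {x y : (ℤ × ℤ) × ZMod 4} {k : List ((ℤ × ℤ) × ZMod 4)}
    (hx : x.1 ∈ rct (a0 + 1) (b1 + 1) B.y1 B.y2) (hy : y.1 ∈ rct (a0 + 1) (b1 + 1) B.y1 B.y2)
    (vx : VE B.y1 B.y2 x) (vy : VE B.y1 B.y2 y) (hne : x ≠ y)
    (w : Wk (fun t => s (eS y0 t)) (RG (full (rct (a0 + 1) (b1 + 1) B.y1 B.y2))) x y k) :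
    (Ovr b' x y → (netN B p y0 c c' φ s).zn ((netN B p y0 c c' φ s).cls (pS y0 x)) = 0) ∧
    (¬ Ovr b' x y → (netN B p y0 c c' φ s).zn ((netN B p y0 c c' φ s).cls (pS y0 x)) = 1) := by
  have hok := netN_ok hz c c' φ s
  have hxV : pS y0 x ∈ (netN B p y0 c c' φ s).V := strip_V c c' φ s (by omega) (by omega) hx
  have bx := be_VE hz h0 h1 hx vx
  have by' := be_VE hz h0 h1 hy vy
  have hW := push (p := p) c c' φ s (by omega : 0 ≤ a0 + 1) (by omega : b1 + 1 ≤ B.R) w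
  obtain ⟨-, -, hzv⟩ := Net.z_arc hok hxV hW bx by'
  have hwl := (wl_strip c c' φ s hz h0 h1 hx w).2
  rw [chL_free c c' φ bx, chL_free c c' φ by', hφ x hx vx, hφ y hy vy] at hwl
  have hen : ((netN B p y0 c c' φ s).ends ((netN B p y0 c c' φ s).cls (pS y0 x))).Nonempty :=
    ⟨pS y0 x, Finset.mem_filter.2 ⟨Net.self_mem_cls hxV, bx⟩⟩
  set W : ℤ := -tt (fun t => s (eS y0 t)) k + psS b' y - psS b' x with hWd
  have hwl' : (netN B p y0 c c' φ s).wl (k.map (pS y0)) = Real.pi / 12 * (W : ℝ) := by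
    rw [hwl, hWd]
    push_cast
    ring
  unfold Net.zn
  rw [if_pos hen, hzv, hwl']
  rcases strip_arc (b' := b') hx hy vx vy hne w with ⟨hO, hv⟩ | ⟨hO, hv⟩
  · refine ⟨fun _ => ?_, fun h => absurd hO h⟩
    have : Real.cos (Real.pi / 12 * (W : ℝ)) = 0 := by
      rcases hv with hv | hv <;> rw [hWd, hv]
      · rw [show Real.pi / 12 * ((6 : ℤ) : ℝ) = Real.pi / 2 by push_cast; ring,
          Real.cos_pi_div_two]
      · rw [show Real.pi / 12 * ((-6 : ℤ) : ℝ) = -(Real.pi / 2) by push_cast; ring,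
          Real.cos_neg, Real.cos_pi_div_two]
    rw [this]
    simp
  · refine ⟨fun h => absurd h hO, fun _ => ?_⟩
    have : Real.cos (Real.pi / 12 * (W : ℝ)) = Real.sqrt 3 / 2 := by
      rcases hv with hv | hv <;> rw [hWd, hv]
      · rw [show Real.pi / 12 * ((2 : ℤ) : ℝ) = Real.pi / 6 by push_cast; ring,
          Real.cos_pi_div_six]
      · rw [show Real.pi / 12 * ((-2 : ℤ) : ℝ) = -(Real.pi / 6) by push_cast; ring,
          Real.cos_neg, Real.cos_pi_div_six]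
    rw [this]
    push_cast
    rw [mul_div_cancel₀ _ (two_ne_zero)]
    exact div_self Net.sqrt3_ne

/-- **value of a loop of the strip** -/
theorem zn_loop (hz : B.At p y0) (h0 : 0 ≤ a0) (h1 : b1 + 1 < B.R)
    {x y : (ℤ × ℤ) × ZMod 4} {k : List ((ℤ × ℤ) × ZMod 4)}
    (hx : x.1 ∈ rct (a0 + 1) (b1 + 1) B.y1 B.y2) (hk : k.Nodup)
    (w : Wk (fun t => s (eS y0 t)) (RG (full (rct (a0 + 1) (b1 + 1) B.y1 B.y2))) x y k)
    (hg : RG (full (rct (a0 + 1) (b1 + 1) B.y1 B.y2)) y x) :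
    (netN B p y0 c c' φ s).zn ((netN B p y0 c c' φ s).cls (pS y0 x)) = 1 := by
  have hok := netN_ok hz c c' φ s
  have hxV : pS y0 x ∈ (netN B p y0 c c' φ s).V := strip_V c c' φ s (by omega) (by omega) hx
  have hg' := rg_full.1 hg
  obtain ⟨e1, e2⟩ := (be_strip (p := p) (y0 := y0) (by omega : 0 ≤ a0 + 1)
    (by omega : b1 + 1 ≤ B.R) hg'.1 hx).1 hg
  have e3 : beL B p y0 (pS y0 x) = pS y0 y := by
    rw [← e1]
    exact hok.be2 _ (strip_V c c' φ s (by omega : 0 ≤ a0 + 1) (by omega : b1 + 1 ≤ B.R) hg'.1)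
  have hW := push (p := p) c c' φ s (by omega : 0 ≤ a0 + 1) (by omega : b1 + 1 ≤ B.R) w
  have hkN : (k.map (pS y0)).Nodup := hk.map fun a b => pS_inj
  obtain ⟨-, hzv⟩ := Net.z_loop hok hxV hW e1 hkN
  have hem := Net.loop_ends hok hxV hW e1 hkN
  obtain ⟨hkS, hwl⟩ := wl_strip c c' φ s hz h0 h1 hx w
  rw [chL_glued c c' φ (by rw [e1]; exact e2.symm), chL_glued c c' φ (by rw [e3]; exact e2),
    neg_zero, add_zero, add_zero] at hwl
  have htt := full_loop (hole_rct (a0 + 1) (b1 + 1) B.y1 B.y2) ⟨hk, x, y, w, hg⟩ hkS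
  unfold Net.zn
  rw [if_neg (by rw [hem]; simp), hzv, hwl]
  have : Real.cos (Real.pi / 12 * (-(tt (fun t => s (eS y0 t)) k : ℝ))) = 1 / 2 := by
    rcases htt with h | h <;> rw [h]
    · rw [show Real.pi / 12 * (-((4 : ℤ) : ℝ)) = -(Real.pi / 3) by push_cast; ring,
        Real.cos_neg, Real.cos_pi_div_three]
    · rw [show Real.pi / 12 * (-((-4 : ℤ) : ℝ)) = Real.pi / 3 by push_cast; ring,
        Real.cos_pi_div_three]
  rw [this]
  norm_num

end strip

end Crest.Agent.R158.Ad350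
end
end

-- ▼ part R158/Ad11_350
section

/-!
# Block AD, the classes of `netN` and the gates of helper180 (helper350)

* `Net.zvn`, `Net.zv_zvn` : normalised value with an entering arrow
* `Wa_Wk` : walks of `netN` are strands of `Gq (beG)`
* `near_far` : closed gates: no class visits both `Near` and `Far`
* `OverR B y0 r1 r2 b' s` : a strand of the rectangle `r1 ≤ u < r2` of the strip joins a ceiling port left
  of `b'` to a ceiling port right of `b'`
* `over_far` : on closed far gates the strands over `b'` stay in the far rectangle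
* `strip_prod` : product over the classes that do not visit `Near`
-/

set_option autoImplicit false
set_option linter.unusedSectionVars false
set_option linter.unusedVariables false

noncomputable section

open Finset

namespace Crest.Agent.R158.Ad350

open Crest.Agent.R158.Pt266 (gl_full rg_full RG tt tt_rv rv dir Wk pass)
open Crest.Agent.R158.Xr249 (rct mem_rct full eS)
open Crest.Agent.R158.Sw300 (Port thru)

namespace Net

variable {P : Type*} [DecidableEq P] {N : Net P}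

/-- normalised value with an entering arrow at `x` -/
def zvn (N : Net P) (x : P) : ℂ :=
  N.zv (N.cls x) x false * ∏ c ∈ (N.classes N.V).erase (N.cls x), N.zn c

theorem zv_zvn (h : N.Ok) {x : P} (hx : x ∈ N.V) (hb : N.be x = x) :
    N.zv N.V x false = ((Real.sqrt 3 : ℝ) : ℂ) ^ ((N.ends N.V).card / 2 - 1) * N.zvn x := by
  obtain ⟨y, l, w, h2, -⟩ := exists_leg h hx hb
  rw [zv_norm h hx w hb h2, zvn, zv_leg h hx w hb h2]
  simp

lemma Wa.memV (h : N.Ok) {x y : P} (hx : x ∈ N.V) {l : List P} (w : N.Wa x y l) :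
    (∀ z ∈ l, z ∈ N.V) ∧ y ∈ N.V ∧ y ≠ x := by
  obtain ⟨n, rfl, rfl, h3⟩ := w.data
  refine ⟨fun z hz => ?_, h.alV _ (it_mem h hx n), it_ne h hx h3 n 0 le_rfl (Nat.zero_le _)⟩
  obtain ⟨i, -, rfl⟩ := List.mem_map.1 hz
  exact it_mem h hx i

/-- every class is the set of the ports of a walk -/
theorem class_walk (h : N.Ok) {z : P} (hz : z ∈ N.V) : ∃ x ∈ N.V, ∃ y l, N.Wa x y l ∧ l.Nodup ∧
    N.cls z = N.cls x ∧ N.cls x = l.toFinset ∪ (l.map N.al).toFinset ∧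
    ((N.be x = x ∧ N.be y = y) ∨ N.be y = x) := by
  obtain ⟨x, hx, y, l, w, hl, e, k⟩ := exists_walk h hz
  refine ⟨x, hx, y, l, w, hl, e, ?_, k⟩
  rcases k with ⟨k1, k2⟩ | k
  · exact (z_arc h hx w k1 k2).2.1
  · exact (z_loop h hx w k hl).1

end Net

/-! ### gates -/

section gates

open Crest.Agent.R158.Env664 (TG Band PortOf portOf_some nbP res res_of)
open Crest.Agent.R158.Ao857 (legP beL chL beL_ne chL_ne chG beG_fix)
open Crest.Agent.R158.Zg180 (Gq Near Far gate uc se)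

variable {A : Finset (ℤ × ℤ)} {B : Band A} {p y0 : ℤ} {c c' : ℝ} {φ : Port TG → ℝ}
  {s : TG → Bool}

/-- walks of the network are strands -/
lemma Wa_Wk (hz : B.At p y0) {x y : Port TG} {l : List (Port TG)}
    (hx : x ∈ (netN B p y0 c c' φ s).V) (w : (netN B p y0 c c' φ s).Wa x y l) :
    ∃ x' y' k, x = some x' ∧ y = some y' ∧ l = k.map some ∧
      Ka470.Wk s (Gq (B.beG p y0)) x' y' k := by
  have hok := netN_ok hz c c' φ s
  induction w with
  | one =>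
    obtain ⟨t, d, rfl, ht⟩ := mem_ports' hx
    exact ⟨(t, d), (t, thru (s t) d), [(t, d)], rfl, rfl, rfl, Ka470.Wk.one⟩
  | @snoc q l w hb ih =>
    obtain ⟨x', y', k, rfl, rfl, rfl, h3⟩ := ih
    have hqV := (Net.Wa.memV hok hx w).2.1
    have hrV := hok.beV _ hqV
    obtain ⟨t, d, er, ht⟩ := mem_ports' hrV
    have hne : (some y' : Port TG) ≠ legP p y0 := by
      intro e
      apply hb
      show beL B p y0 (some y') = some y'
      rw [e, Ao857.beL_leg]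
    have hbe : B.beG p y0 (some y') = some (t, d) := by
      rw [← beL_ne B hne]
      exact er
    have hg : Gq (B.beG p y0) y' (t, d) := by
      refine ⟨hbe, ?_⟩
      intro e
      apply hb
      rw [er, e]
    refine ⟨x', (t, thru (s t) d), k ++ [(t, d)], rfl, ?_, ?_, h3.snoc hg⟩
    · rw [er]; rfl
    · rw [er, List.map_append]; rfl

/-- the tile of the port is in `Q` -/
def TQ (Q : Set TG) (z : Port TG) : Prop := ∃ t d, z = some (t, d) ∧ t ∈ Q

/-- a class that visits `Q` has a walk with a tile in `Q` -/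
lemma vis_walk {Q : Set TG} {k : List (TG × ZMod 4)}
    (h : Net.Vis (TQ Q) ((k.map some).toFinset ∪
      ((k.map some).map (netN B p y0 c c' φ s).al).toFinset)) : ∃ q ∈ k, q.1 ∈ Q := by
  obtain ⟨z, hz, t, d, rfl, ht⟩ := h
  rcases Finset.mem_union.1 hz with hz | hz
  · rw [List.mem_toFinset, List.mem_map] at hz
    obtain ⟨q, hq, e⟩ := hz
    rw [Option.some.inj e] at hq
    exact ⟨_, hq, ht⟩
  · rw [List.mem_toFinset, List.map_map, List.mem_map] at hz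
    obtain ⟨q, hq, e⟩ := hz
    have e' : (q.1, thru (s q.1) q.2) = (t, d) := Option.some.inj e
    refine ⟨q, hq, ?_⟩
    rw [show q.1 = t from congrArg Prod.fst e']
    exact ht

/-- **closed gates: no class visits both sides** -/
theorem near_far (hz : B.At p y0) {a0 a1 b0 b1 : ℤ} (h0 : 0 ≤ a0) (ha : a0 < a1) (hab : a1 < b0)
    (hb : b0 < b1) (hR : b1 + 1 < B.R)
    (ca : (gate hz h0 ha (by omega : a1 + 1 < B.R)).Closed s)
    (cb : (gate hz (by omega : 0 ≤ b0) hb hR).Closed s) {z : Port TG}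
    (hzV : z ∈ (netN B p y0 c c' φ s).V)
    (h1 : Net.Vis (TQ (Near y0 a0 b1)) ((netN B p y0 c c' φ s).cls z)) :
    ¬ Net.Vis (TQ (Far y0 a1 b0)) ((netN B p y0 c c' φ s).cls z) := by
  have hok := netN_ok hz c c' φ s
  intro h2
  obtain ⟨x, hx, y, l, w, -, e, e', -⟩ := Net.class_walk hok hzV
  obtain ⟨x', y', k, rfl, rfl, rfl, hw⟩ := Wa_Wk hz hx w
  rw [e, e'] at h1 h2
  exact Zg180.gates hz h0 ha hab hb hR ca cb hw ⟨vis_walk h1, vis_walk h2⟩

/-- a class that does not visit `Near` stays in the strip -/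
lemma in_strip (hz : B.At p y0) {a0 b1 : ℤ} {C : Finset (Port TG)}
    (hC : C ∈ (netN B p y0 c c' φ s).classes (netN B p y0 c c' φ s).V)
    (h : ¬ Net.Vis (TQ (Near y0 a0 b1)) C) : ∀ z ∈ C, ∃ q : (ℤ × ℤ) × ZMod 4,
      q.1 ∈ rct (a0 + 1) (b1 + 1) B.y1 B.y2 ∧ z = pS y0 q := by
  have hok := netN_ok hz c c' φ s
  intro z hzC
  have hzV := (Net.classes_sub hok hok.clV hC).1 hzC
  obtain ⟨t, d, rfl, ht⟩ := mem_ports' hzV
  have hn : t ∉ Near y0 a0 b1 := fun k => h ⟨_, hzC, t, d, rfl, k⟩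
  rcases t with v | v
  · exact absurd (Or.inl ⟨v, rfl⟩) hn
  · have h1 : ¬ (uc y0 v ≤ a0 ∨ b1 < uc y0 v) := fun k => hn (Or.inr ⟨v, rfl, k⟩)
    have h2 := (B.inr_mem (y0 := y0) (i := v.1) (y := v.2)).1 ht
    refine ⟨((uc y0 v, v.2), d), ?_, ?_⟩
    · rw [mem_rct]
      omega
    · show (some (Sum.inr v, d) : Port TG) = some (eS y0 (uc y0 v, v.2), d)
      rw [← Zg180.se_uc y0 v]
      rfl

/-- a strand of the rectangle over `b'` -/
def OverR (B : Band A) (y0 r1 r2 b' : ℤ) (s : TG → Bool) : Prop :=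
  ∃ i j k, (r1 ≤ i ∧ i < b') ∧ (b' ≤ j ∧ j < r2) ∧
    Wk (fun t => s (eS y0 t)) (RG (full (rct r1 r2 B.y1 B.y2))) ((i, B.y2 - 1), 1)
      ((j, B.y2 - 1), 1) k

/-- strands of a rectangle stay in the rectangle -/
lemma wk_rct {r1 r2 y1 y2 : ℤ} {s' : ℤ × ℤ → Bool} {x y : (ℤ × ℤ) × ZMod 4}
    {k : List ((ℤ × ℤ) × ZMod 4)} (hx : x.1 ∈ rct r1 r2 y1 y2)
    (w : Wk s' (RG (full (rct r1 r2 y1 y2))) x y k) : ∀ q ∈ k, q.1 ∈ rct r1 r2 y1 y2 := by
  induction w with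
  | one =>
    intro q hq
    rw [List.mem_singleton] at hq
    rw [hq]; exact hx
  | @snoc q r l w hg ih =>
    intro z hzz
    rcases List.mem_append.1 hzz with hzz | hzz
    · exact ih z hzz
    · rw [List.mem_singleton] at hzz
      rw [hzz, (rg_full.1 hg).2.2]
      exact (rg_full.1 hg).2.1

lemma dir_le (d : ZMod 4) : (dir d).1 ≤ 1 := by
  rcases Xr249.Reg.d4 d with rfl | rfl | rfl | rfl
  · rw [dir0]; norm_num
  · rw [dir1]; norm_num
  · rw [dir2]
  · rw [dir3]; norm_num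

/-- a strand from the left of the column `b'` to the right visits it -/
lemma wk_ivt {r1 r2 y1 y2 : ℤ} {s' : ℤ × ℤ → Bool} {b' : ℤ} {x y : (ℤ × ℤ) × ZMod 4}
    {k : List ((ℤ × ℤ) × ZMod 4)} (hx : x.1.1 < b')
    (w : Wk s' (RG (full (rct r1 r2 y1 y2))) x y k) (hy : b' ≤ y.1.1) :
    ∃ q ∈ k, q.1.1 = b' := by
  induction w with
  | one =>
    have : x.1.1 < b' := hx
    have h2 : b' ≤ x.1.1 := hy
    omega
  | @snoc q r l w hg ih =>
    by_cases h : b' ≤ q.1.1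
    · obtain ⟨z, hz1, hz2⟩ := ih h
      exact ⟨z, List.mem_append_left _ hz1, hz2⟩
    · refine ⟨r, List.mem_append_right _ (List.mem_singleton_self r), ?_⟩
      have h2 : b' ≤ r.1.1 := hy
      have h3 := (rg_full.1 hg).2.2
      have h4 : r.1.1 = q.1.1 + (dir q.2).1 := by rw [h3]; rfl
      have h5 := dir_le q.2
      omega

/-- strands of a rectangle of the strip are strands -/
lemma push_K {r1 r2 : ℤ} (h1 : 0 ≤ r1) (h2 : r2 ≤ B.R) {x y : (ℤ × ℤ) × ZMod 4}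
    {k : List ((ℤ × ℤ) × ZMod 4)}
    (w : Wk (fun t => s (eS y0 t)) (RG (full (rct r1 r2 B.y1 B.y2))) x y k) :
    Ka470.Wk s (Gq (B.beG p y0)) (eS y0 x.1, x.2) (eS y0 y.1, y.2)
      (k.map fun q => (eS y0 q.1, q.2)) := by
  induction w with
  | one => exact Ka470.Wk.one
  | @snoc q r l w hg ih =>
    have hg' := rg_full.1 hg
    have hr : r.1 ∈ rct r1 r2 B.y1 B.y2 := by rw [hg'.2.2]; exact hg'.2.1
    obtain ⟨e1, e2⟩ := (be_strip (p := p) (y0 := y0) h1 h2 hg'.1 hr).1 hg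
    rw [beL_ne B pS_leg] at e1
    rw [List.map_append, List.map_singleton]
    exact ih.snoc ⟨e1, fun e => e2 (congrArg some e)⟩

/-- **closed far gates: the strands over `b'` stay in the far rectangle** -/
theorem over_far (hz : B.At p y0) {f0 f1 g0 g1 : ℤ} (h0 : 0 ≤ f0) (ha : f0 < f1) (hab : f1 < g0)
    (hb : g0 < g1) (hR : g1 + 1 < B.R)
    (ca : (gate hz h0 ha (by omega : f1 + 1 < B.R)).Closed s)
    (cb : (gate hz (by omega : 0 ≤ g0) hb hR).Closed s) {b' r1 r2 R1 R2 : ℤ} (hf : f1 < b')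
    (hg : b' ≤ g0) (hr1 : r1 ≤ f0 + 1) (hr2 : g1 + 1 ≤ r2) (h1 : 0 ≤ R1) (h2 : R2 ≤ B.R)
    (h : OverR B y0 R1 R2 b' s) : OverR B y0 r1 r2 b' s := by
  obtain ⟨i, j, k, hi, hj, w⟩ := h
  have hy1 : B.y1 < B.y2 := lt_trans hz.hy1 hz.hy2
  have hxS : ((i, B.y2 - 1) : ℤ × ℤ) ∈ rct R1 R2 B.y1 B.y2 := by rw [mem_rct]; omega
  have hk := wk_rct hxS w
  obtain ⟨q, hq, hqb⟩ := wk_ivt (b' := b') hi.2 w hj.1
  have hno := Zg180.gates hz h0 ha hab hb hR ca cb (push_K (p := p) h1 h2 w)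
  have hfar : ∃ r ∈ k.map fun q => (eS y0 q.1, q.2), r.1 ∈ Far y0 f1 g0 := by
    refine ⟨_, List.mem_map.2 ⟨q, hq, rfl⟩, ?_⟩
    obtain ⟨v, e1, e2⟩ := Zg180.uc_se (y0 := y0) q.1
    exact ⟨v, e1, by omega, by omega⟩
  have hin : ∀ q ∈ k, q.1 ∈ rct r1 r2 B.y1 B.y2 := by
    intro q hq
    have h3 := hk q hq
    have h4 : ¬ (q.1.1 ≤ f0 ∨ g1 < q.1.1) := by
      intro h5
      refine hno ⟨⟨_, List.mem_map.2 ⟨q, hq, rfl⟩, ?_⟩, hfar⟩
      obtain ⟨v, e1, e2⟩ := Zg180.uc_se (y0 := y0) q.1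
      exact Or.inr ⟨v, e1, by omega⟩
    obtain ⟨⟨u, v⟩, d⟩ := q
    rw [mem_rct] at h3 ⊢
    simp only at h4
    omega
  have hj2 : ((j, B.y2 - 1) : ℤ × ℤ) ∈ rct r1 r2 B.y1 B.y2 := hin _ w.mem_right
  rw [mem_rct] at hj2
  have hi2 : ((i, B.y2 - 1) : ℤ × ℤ) ∈ rct r1 r2 B.y1 B.y2 := hin _ w.mem_left
  rw [mem_rct] at hi2
  refine ⟨i, j, k, ⟨hi2.1.1, hi.2⟩, ⟨hj.1, hj2.1.2⟩, w.congr ?_⟩
  intro a b ha' hb' hab'
  obtain ⟨a', ha1, ha2⟩ := List.mem_map.1 ha'
  obtain ⟨b'', hb1, hb2⟩ := List.mem_map.1 hb'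
  obtain ⟨-, -, g3⟩ := rg_full.1 hab'
  refine rg_full.2 ⟨ha2 ▸ hin _ ha1, ?_, g3⟩
  have : b.1 = a.1 + dir a.2 := by rw [g3]
  rw [← this, ← hb2]
  exact hin _ hb1

lemma OverR.mono {b' r1 r2 R1 R2 : ℤ} (h1 : R1 ≤ r1) (h2 : r2 ≤ R2)
    (h : OverR B y0 r1 r2 b' s) : OverR B y0 R1 R2 b' s := by
  obtain ⟨i, j, k, hi, hj, w⟩ := h
  refine ⟨i, j, k, ⟨by omega, hi.2⟩, ⟨hj.1, by omega⟩, w.mono ?_⟩
  have hs : ∀ t ∈ rct r1 r2 B.y1 B.y2, t ∈ rct R1 R2 B.y1 B.y2 := by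
    rintro ⟨u, v⟩ ht
    rw [mem_rct] at ht ⊢
    omega
  intro a b hab
  obtain ⟨g1, g2, g3⟩ := rg_full.1 hab
  exact rg_full.2 ⟨hs _ g1, hs _ g2, g3⟩

/-- the classes of the strip -/
theorem strip_class (hz : B.At p y0) {a0 b1 b' : ℤ} (h0 : 0 ≤ a0) (h1 : b1 + 1 < B.R)
    (hφ : PhS B y0 a0 b1 b' φ) {C : Finset (Port TG)}
    (hC : C ∈ (netN B p y0 c c' φ s).classes (netN B p y0 c c' φ s).V)
    (hS : ∀ z ∈ C, ∃ q : (ℤ × ℤ) × ZMod 4, q.1 ∈ rct (a0 + 1) (b1 + 1) B.y1 B.y2 ∧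
      z = pS y0 q) :
    (netN B p y0 c c' φ s).zn C = 1 ∨ OverR B y0 (a0 + 1) (b1 + 1) b' s := by
  have hok := netN_ok hz c c' φ s
  obtain ⟨z, hzV, rfl⟩ := Finset.mem_image.1 hC
  obtain ⟨x, hx, y, l, w, hl, e, e', hcase⟩ := Net.class_walk hok hzV
  rw [e] at hS ⊢
  have hlC : ∀ z ∈ l, z ∈ (netN B p y0 c c' φ s).cls x := fun z hz' => by
    rw [e']
    exact Finset.mem_union_left _ (List.mem_toFinset.2 hz')
  obtain ⟨x', y', k, rfl, rfl, rfl, hk, hyS, w'⟩ := pull c c' φ s (by omega : 0 ≤ a0 + 1)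
    (by omega : b1 + 1 ≤ B.R) w fun z hz' => hS z (hlC z hz')
  have hxS := hk _ w'.mem_left
  rcases hcase with ⟨k1, k2⟩ | k1
  · -- arc
    have hne : x' ≠ y' := fun h => (Net.Wa.memV hok hx w).2.2 (by rw [h])
    have vx : VE B.y1 B.y2 x' := by
      rcases strip_nb hz h0 h1 hxS with ⟨-, h⟩ | ⟨r, -, h3, h4⟩
      · exact h
      · exact absurd (k1.symm.trans h3) h4
    have vy : VE B.y1 B.y2 y' := by
      rcases strip_nb hz h0 h1 hyS with ⟨-, h⟩ | ⟨r, -, h3, h4⟩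
      · exact h
      · exact absurd (k2.symm.trans h3) h4
    by_cases hO : Ovr b' x' y'
    · right
      obtain ⟨⟨i, u⟩, d⟩ := x'
      obtain ⟨⟨j, v⟩, e⟩ := y'
      obtain ⟨o1, o2, o3⟩ := hO
      simp only at o1 o2 o3
      subst o1
      subst o2
      have n13 : (1 : ZMod 4) ≠ 3 := by decide
      have hu : u = B.y2 - 1 := by
        rcases vx with h | h
        · exact h.2
        · exact absurd h.1 n13
      have hv : v = B.y2 - 1 := by
        rcases vy with h | h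
        · exact h.2
        · exact absurd h.1 n13
      subst hu
      subst hv
      rw [mem_rct] at hxS hyS
      rcases o3 with ⟨o3, o4⟩ | ⟨o3, o4⟩
      · exact ⟨i, j, k, ⟨hxS.1.1, o3⟩, ⟨o4, hyS.1.2⟩, w'⟩
      · exact ⟨j, i, _, ⟨hyS.1.1, o3⟩, ⟨o4, hxS.1.2⟩, w'.reverse (rg_symm _)⟩
    · exact Or.inl ((zn_arc hz h0 h1 hφ hxS hyS vx vy hne w').2 hO)
  · -- loop
    left
    have hkN : k.Nodup := hl.of_map _
    refine zn_loop hz h0 h1 hxS hkN w' ?_
    refine (be_strip (p := p) (y0 := y0) (by omega : 0 ≤ a0 + 1) (by omega : b1 + 1 ≤ B.R)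
      hyS hxS).2 ⟨k1, ?_⟩
    exact fun h => (Net.Wa.memV hok hx w).2.2 h

/-- the class of a strand over `b'` -/
theorem over_class (hz : B.At p y0) {a0 b1 b' : ℤ} (h0 : 0 ≤ a0) (h1 : b1 + 1 < B.R)
    (hφ : PhS B y0 a0 b1 b' φ) (h : OverR B y0 (a0 + 1) (b1 + 1) b' s) :
    ∃ C ∈ (netN B p y0 c c' φ s).classes (netN B p y0 c c' φ s).V,
      (netN B p y0 c c' φ s).zn C = 0 ∧ ∀ z ∈ C, ∃ q : (ℤ × ℤ) × ZMod 4,
        q.1 ∈ rct (a0 + 1) (b1 + 1) B.y1 B.y2 ∧ z = pS y0 q := by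
  have hok := netN_ok hz c c' φ s
  have hy1 : B.y1 < B.y2 := lt_trans hz.hy1 hz.hy2
  obtain ⟨i, j, k, hi, hj, w⟩ := h
  have hxS : ((i, B.y2 - 1) : ℤ × ℤ) ∈ rct (a0 + 1) (b1 + 1) B.y1 B.y2 := by
    rw [mem_rct]; omega
  have hyS : ((j, B.y2 - 1) : ℤ × ℤ) ∈ rct (a0 + 1) (b1 + 1) B.y1 B.y2 := by
    rw [mem_rct]; omega
  have vx : VE B.y1 B.y2 ((i, B.y2 - 1), 1) := Or.inl ⟨rfl, rfl⟩
  have vy : VE B.y1 B.y2 ((j, B.y2 - 1), 1) := Or.inl ⟨rfl, rfl⟩
  have hne : (((i, B.y2 - 1), 1) : (ℤ × ℤ) × ZMod 4) ≠ ((j, B.y2 - 1), 1) := by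
    intro e
    have : i = j := congrArg (fun q : (ℤ × ℤ) × ZMod 4 => q.1.1) e
    omega
  have hO : Ovr b' ((i, B.y2 - 1), 1) ((j, B.y2 - 1), 1) := ⟨rfl, rfl, Or.inl ⟨hi.2, hj.1⟩⟩
  have hxV : pS y0 ((i, B.y2 - 1), 1) ∈ (netN B p y0 c c' φ s).V :=
    strip_V c c' φ s (by omega) (by omega) hxS
  refine ⟨(netN B p y0 c c' φ s).cls (pS y0 ((i, B.y2 - 1), 1)), Finset.mem_image_of_mem _ hxV,
    (zn_arc hz h0 h1 hφ hxS hyS vx vy hne w).1 hO, ?_⟩
  have hW := push (p := p) c c' φ s (by omega : 0 ≤ a0 + 1) (by omega : b1 + 1 ≤ B.R) w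
  obtain ⟨-, hcls, -⟩ := Net.z_arc hok hxV hW (be_VE hz h0 h1 hxS vx) (be_VE hz h0 h1 hyS vy)
  have hk := wk_rct hxS w
  intro z hzC
  rw [hcls] at hzC
  rcases Finset.mem_union.1 hzC with hzC | hzC
  · rw [List.mem_toFinset, List.mem_map] at hzC
    obtain ⟨q, hq, rfl⟩ := hzC
    exact ⟨q, hk q hq, rfl⟩
  · rw [List.mem_toFinset, List.map_map, List.mem_map] at hzC
    obtain ⟨q, hq, rfl⟩ := hzC
    exact ⟨pass (fun t => s (eS y0 t)) q, hk q hq, rfl⟩

open Classical in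
/-- **product over the classes that do not visit `Near`** -/
theorem strip_prod (hz : B.At p y0) {a0 b1 b' : ℤ} (h0 : 0 ≤ a0) (h1 : b1 + 1 < B.R)
    (hφ : PhS B y0 a0 b1 b' φ) :
    ∏ C ∈ (((netN B p y0 c c' φ s).classes (netN B p y0 c c' φ s).V).erase
      ((netN B p y0 c c' φ s).cls (legP p y0))).filter
        (fun C => ¬ Net.Vis (TQ (Near y0 a0 b1)) C), (netN B p y0 c c' φ s).zn C =
      if OverR B y0 (a0 + 1) (b1 + 1) b' s then 0 else 1 := by
  have hok := netN_ok hz c c' φ s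
  have hleg : legP p y0 ∈ (netN B p y0 c c' φ s).V := legP_mem hz
  split_ifs with hO
  · obtain ⟨C, hC, hC0, hS⟩ := over_class (c := c) (c' := c') hz h0 h1 hφ hO
    refine Finset.prod_eq_zero (i := C) ?_ hC0
    refine Finset.mem_filter.2 ⟨Finset.mem_erase.2 ⟨?_, hC⟩, ?_⟩
    · intro e
      have : legP p y0 ∈ C := by rw [e]; exact Net.self_mem_cls hleg
      obtain ⟨q, -, hq⟩ := hS _ this
      exact pS_leg hq.symm
    · rintro ⟨z, hzC, t, d, rfl, ht⟩
      obtain ⟨q, hq, e⟩ := hS _ hzC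
      obtain ⟨e1, -⟩ := Prod.mk.inj (Option.some.inj e)
      rcases ht with ⟨v, rfl⟩ | ⟨v, rfl, hv⟩
      · unfold Xr249.eS at e1
        simp at e1
      · obtain ⟨v', e2, e3⟩ := Zg180.uc_se (y0 := y0) q.1
        have e4 : (Sum.inr v : TG) = Sum.inr v' := e1.trans e2
        have e5 := Sum.inr_injective e4
        rw [e5] at hv
        obtain ⟨⟨u, v⟩, d⟩ := q
        rw [mem_rct] at hq
        simp only at e3
        omega
  · refine Finset.prod_eq_one fun C hC => ?_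
    obtain ⟨hC1, hC2⟩ := Finset.mem_filter.1 hC
    have hC3 := Finset.mem_of_mem_erase hC1
    exact (strip_class hz h0 h1 hφ hC3 (in_strip hz hC3 hC2)).resolve_right hO

end gates

end Crest.Agent.R158.Ad350
end
end

-- ▼ part R158/Ad12_350

/-!
# Block AD, the network of `D` with two stubs inside `G^(z)` (helper350)

`be'`, `ch'` = glueing and phases of the network `ND` on the tiles of `Dp` (leg port cut):
`be' = beD` outside the leg port, `ch' = -chL` at the ports whose partner in `G^(z)` lies in `Dp`.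

* `im_eD` : the tiles of `G^(z)` in the image of `Dp`
* `ndNet`, `nd_ok`, `nd_emb`
* **`gate_point`** : closed near gates: `zvn N leg = zvn ND leg * 1[no strand over b']`
* `over_iff_far` : on closed far gates the strand over `b'` stays in the far rectangle
-/

set_option autoImplicit false
set_option linter.unusedSectionVars false
set_option linter.unusedVariables false

noncomputable section

open Finset

namespace Crest.Agent.R158.Ad350

open Crest.Agent.R158.Pt266 (gl_full rg_full RG tt tt_rv rv dir Wk pass)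
open Crest.Agent.R158.Xr249 (rct mem_rct full eS eD Dp mem_Dp pm Dp_cases eD_in eD_r eD_l eD_A
  wd_cases pm_inj pm_portOf eD_glue)
open Crest.Agent.R158.Sw300 (Port thru)
open Crest.Agent.R158.Env664 (TG Band PortOf portOf_some portOf_none nbP nbD beD res res_of Run)
open Crest.Agent.R158.Ao857 (legP beL chL beL_ne chL_ne chG beG_fix)
open Crest.Agent.R158.Zg180 (Gq Near Far gate uc se)

variable {A : Finset (ℤ × ℤ)} {B : Band A} {p y0 k : ℤ} {c c' : ℝ} {φ : Port TG → ℝ}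
  {s : TG → Bool}

/-- tiles of `G^(z)` in the image of `Dp` -/
lemma im_eD (hf : Xr249.Free A B.xl B.xr B.y1 B.y2 k) (hR : 2 * k < B.R) {t : TG}
    (ht : t ∈ B.tG y0)
    (h : ∀ v, t = Sum.inr v → uc y0 v ≤ k - 2 ∨ B.R - 1 - k < uc y0 v) :
    ∃ v ∈ Dp A B.xl B.xr B.y1 B.y2 k, eD B y0 k v = t := by
  rcases t with v | ⟨i, y⟩
  · rw [B.inl_mem] at ht
    exact ⟨v, mem_Dp.2 (Or.inl ht), eD_A hf ht⟩
  · obtain ⟨h1, h2, h3, h4⟩ := B.inr_mem.1 ht
    have hu := h _ rfl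
    have hw := wd_cases B y0 y
    have hcase : i < k ∨ B.wd y0 y - k ≤ i := by
      rcases hw with ⟨e1, e2⟩ | ⟨e1, e2⟩
      · rw [Zg180.uc_lt e1] at hu
        omega
      · rw [Zg180.uc_ge (by omega)] at hu
        omega
    rcases hcase with hc | hc
    · refine ⟨(B.xr + 1 + i, y), mem_Dp.2 (Or.inr (Or.inl ⟨⟨by omega, by omega⟩, h1, h2⟩)), ?_⟩
      rw [eD_r ⟨⟨h1, h2⟩, by omega, by omega⟩]
      congr 2
      ring
    · refine ⟨(B.xl - (B.wd y0 y - i), y),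
        mem_Dp.2 (Or.inr (Or.inr ⟨⟨by omega, by omega⟩, h1, h2⟩)), ?_⟩
      rw [eD_l hf.le ⟨⟨h1, h2⟩, by omega, by omega⟩]
      congr 2
      ring

/-- the leg port of `Dp` -/
def lpD (p y0 : ℤ) : Port (ℤ × ℤ) := some ((p, y0), 3)

/-- glueing of `Dp`, the leg port is cut -/
def NdBe (B : Band A) (p y0 k : ℤ) (be' : Port (ℤ × ℤ) → Port (ℤ × ℤ)) : Prop :=
  ∀ x ∈ ports (Dp A B.xl B.xr B.y1 B.y2 k), be' x = if x = lpD p y0 then x
    else beD (Dp A B.xl B.xr B.y1 B.y2 k) p y0 (B.xr + k) x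

/-- phases of `Dp` : the phases of `netN` at the ports whose partner lies in `Dp` -/
def NdCh (B : Band A) (p y0 k : ℤ) (c c' : ℝ) (φ : Port TG → ℝ) (ch' : Port (ℤ × ℤ) → ℝ) :
    Prop :=
  ∀ x ∈ ports (Dp A B.xl B.xr B.y1 B.y2 k), beL B p y0 (pm (eD B y0 k) x) ∈
    (ports (Dp A B.xl B.xr B.y1 B.y2 k)).image (pm (eD B y0 k)) →
      ch' x = -chL B p y0 c c' φ (pm (eD B y0 k) x)

/-- the network of `Dp` -/
def ndNet (B : Band A) (y0 k : ℤ) (s : TG → Bool) (be' : Port (ℤ × ℤ) → Port (ℤ × ℤ))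
    (ch' : Port (ℤ × ℤ) → ℝ) : Net (Port (ℤ × ℤ)) :=
  tnet (Dp A B.xl B.xr B.y1 B.y2 k) (fun t => s (eD B y0 k t)) be' ch'

section nd

variable {be' : Port (ℤ × ℤ) → Port (ℤ × ℤ)} {ch' : Port (ℤ × ℤ) → ℝ}

lemma z_mem (hz : B.At p y0) : (p, y0) ∈ A :=
  (B.run y0 hz.hy1.le hz.hy2).mem p hz.hp1.le hz.hp2

lemma pm_lp (hf : Xr249.Free A B.xl B.xr B.y1 B.y2 k) (hz : B.At p y0) :
    pm (eD B y0 k) (lpD p y0) = legP p y0 := by
  unfold lpD legP
  rw [Xr249.pm_some, eD_A hf (z_mem hz)]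

lemma lp_mem (hz : B.At p y0) : lpD p y0 ∈ ports (Dp A B.xl B.xr B.y1 B.y2 k) :=
  mem_ports.2 (mem_Dp.2 (Or.inl (z_mem hz)))

lemma portOf_ports {T : Type*} [DecidableEq T] {D : Finset T} {x : Port T} (hx : x ∈ ports D) :
    PortOf D x := by
  obtain ⟨t, d, rfl, ht⟩ := mem_ports' hx
  exact portOf_some.2 ht

/-- glued ports of `Dp` other than the leg port -/
lemma beD_cases (hf : Xr249.Free A B.xl B.xr B.y1 B.y2 k) (hz : B.At p y0)
    {x : Port (ℤ × ℤ)} (hx : x ∈ ports (Dp A B.xl B.xr B.y1 B.y2 k)) (hne : x ≠ lpD p y0) :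
    beD (Dp A B.xl B.xr B.y1 B.y2 k) p y0 (B.xr + k) x ∈ ports (Dp A B.xl B.xr B.y1 B.y2 k) ∧
    beD (Dp A B.xl B.xr B.y1 B.y2 k) p y0 (B.xr + k) x ≠ lpD p y0 ∧
    beD (Dp A B.xl B.xr B.y1 B.y2 k) p y0 (B.xr + k)
      (beD (Dp A B.xl B.xr B.y1 B.y2 k) p y0 (B.xr + k) x) = x := by
  have hk := hf.k0
  have hfree : (B.xr + k + 1, y0) ∉ Dp A B.xl B.xr B.y1 B.y2 k := by
    rw [mem_Dp]
    have h1 := hz.hy1
    have h2 := hz.hy2
    have h3 := hf.le
    rintro (h | h | h)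
    · exact hf.right _ _ (by omega) (by omega) (by omega) (by omega) h
    · omega
    · omega
  have hinv := Env664.beD_invol (A := Dp A B.xl B.xr B.y1 B.y2 k) (p := p) (y0 := y0)
    (xr := B.xr + k) (by have := hz.hp2; omega) hfree
  have hlp : beD (Dp A B.xl B.xr B.y1 B.y2 k) p y0 (B.xr + k) (lpD p y0) = none := by
    have h1 : nbD p y0 (B.xr + k) (lpD p y0) = none := Env664.nbD_Sleg ⟨rfl, rfl⟩
    unfold Env664.beD
    rw [res_of (portOf_ports (lp_mem hz)) (by rw [h1]; exact portOf_none _), h1]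
  have hne1 : beD (Dp A B.xl B.xr B.y1 B.y2 k) p y0 (B.xr + k) x ≠ none := by
    intro e
    apply hne
    rw [← hinv x, e, ← hlp, hinv]
  refine ⟨?_, ?_, hinv x⟩
  · by_cases h : beD (Dp A B.xl B.xr B.y1 B.y2 k) p y0 (B.xr + k) x = x
    · rw [h]; exact hx
    · have h4 : PortOf (Dp A B.xl B.xr B.y1 B.y2 k)
          (beD (Dp A B.xl B.xr B.y1 B.y2 k) p y0 (B.xr + k) x) := by
        by_cases h5 : PortOf (Dp A B.xl B.xr B.y1 B.y2 k) x ∧
            PortOf (Dp A B.xl B.xr B.y1 B.y2 k) (nbD p y0 (B.xr + k) x)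
        · unfold Env664.beD
          rw [res_of h5.1 h5.2]
          exact h5.2
        · exfalso
          apply h
          unfold Env664.beD res
          rw [if_neg h5]
      rcases h6 : beD (Dp A B.xl B.xr B.y1 B.y2 k) p y0 (B.xr + k) x with _ | ⟨t, d⟩
      · exact absurd h6 hne1
      · rw [h6] at h4
        exact mem_ports.2 (portOf_some.1 h4)
  · intro e
    have := hinv x
    rw [e, hlp] at this
    rw [← this] at hx
    exact none_ports hx

lemma nd_ok (hf : Xr249.Free A B.xl B.xr B.y1 B.y2 k) (hz : B.At p y0) (hbe : NdBe B p y0 k be') :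
    (ndNet B y0 k s be' ch').Ok := by
  have hb : ∀ x ∈ ports (Dp A B.xl B.xr B.y1 B.y2 k),
      be' x ∈ ports (Dp A B.xl B.xr B.y1 B.y2 k) := by
    intro x hx
    rw [hbe x hx]
    split_ifs with h
    · exact hx
    · exact (beD_cases hf hz hx h).1
  refine tnet_ok hb fun x hx => ?_
  rw [hbe _ (hb x hx), hbe x hx]
  split_ifs with h h1
  · rfl
  · exact absurd h1 (beD_cases hf hz hx h).2.1
  · exact (beD_cases hf hz hx h).2.2

lemma nd_emb (hf : Xr249.Free A B.xl B.xr B.y1 B.y2 k) (hR : 2 * k < B.R) (hz : B.At p y0)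
    (hbe : NdBe B p y0 k be') (hch : NdCh B p y0 k c c' φ ch') :
    Net.Emb (ndNet B y0 k s be' ch') (netN B p y0 c c' φ s) (pm (eD B y0 k)) := by
  have hlp := pm_lp hf hz
  have hinj : ∀ {a b : Port (ℤ × ℤ)}, a ∈ ports (Dp A B.xl B.xr B.y1 B.y2 k) →
      b ∈ ports (Dp A B.xl B.xr B.y1 B.y2 k) → pm (eD B y0 k) a = pm (eD B y0 k) b → a = b :=
    fun ha hb h => pm_inj hf hR (portOf_ports ha) (portOf_ports hb) h
  -- partner of a port other than the leg
  have key : ∀ x ∈ ports (Dp A B.xl B.xr B.y1 B.y2 k), x ≠ lpD p y0 →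
      pm (eD B y0 k) x ≠ legP p y0 ∧
      (beL B p y0 (pm (eD B y0 k) x) ∈
          (ports (Dp A B.xl B.xr B.y1 B.y2 k)).image (pm (eD B y0 k)) →
        beL B p y0 (pm (eD B y0 k) x) = pm (eD B y0 k)
          (beD (Dp A B.xl B.xr B.y1 B.y2 k) p y0 (B.xr + k) x)) ∧
      (beL B p y0 (pm (eD B y0 k) x) ∉
          (ports (Dp A B.xl B.xr B.y1 B.y2 k)).image (pm (eD B y0 k)) →
        beD (Dp A B.xl B.xr B.y1 B.y2 k) p y0 (B.xr + k) x = x) := by
    intro x hx hne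
    have h1 : pm (eD B y0 k) x ≠ legP p y0 := by
      rw [← hlp]
      exact fun e => hne (hinj hx (lp_mem hz) e)
    obtain ⟨h2, h3, h4⟩ := beD_cases hf hz hx hne
    have hg : ∀ b ∈ ports (Dp A B.xl B.xr B.y1 B.y2 k),
        (Xr249.gb (beD (Dp A B.xl B.xr B.y1 B.y2 k) p y0 (B.xr + k)) x b ↔
          Xr249.gb (B.beG p y0) (pm (eD B y0 k) x) (pm (eD B y0 k) b)) :=
      fun b hb => eD_glue hf hR hz (portOf_ports hx) (portOf_ports hb)
    refine ⟨h1, fun him => ?_, fun him => ?_⟩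
    · rw [beL_ne B h1] at him ⊢
      obtain ⟨r, hr, er⟩ := Finset.mem_image.1 him
      by_cases hxr : pm (eD B y0 k) x = pm (eD B y0 k) r
      · have : beD (Dp A B.xl B.xr B.y1 B.y2 k) p y0 (B.xr + k) x = x := by
          by_contra hcon
          have h5 := (hg _ h2).1 ⟨rfl, fun e => hcon e.symm⟩
          apply h5.2
          rw [hxr, er, h5.1]
        rw [this, ← er, hxr]
      · have h5 := (hg r hr).2 ⟨er.symm, hxr⟩
        rw [h5.1, er]
    · by_contra hcon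
      apply him
      have h5 := (hg _ h2).1 ⟨rfl, fun e => hcon e.symm⟩
      rw [beL_ne B h1, h5.1]
      exact Finset.mem_image_of_mem _ h2
  refine ⟨nd_ok hf hz hbe, netN_ok hz c c' φ s, fun a ha b hb h => hinj ha hb h, ?_, ?_, ?_, ?_,
    ?_⟩
  · intro q hq
    obtain ⟨t, d, rfl, ht⟩ := mem_ports' hq
    exact mem_ports.2 (portOf_some.1 (pm_portOf hf hR (portOf_some.2 ht)))
  · intro q hq
    obtain ⟨t, d, rfl, ht⟩ := mem_ports' hq
    rfl
  · intro q hq him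
    show beL B p y0 (pm (eD B y0 k) q) = pm (eD B y0 k) (be' q)
    rw [hbe q hq]
    split_ifs with h
    · rw [h, hlp, Ao857.beL_leg]
    · exact (key q hq h).2.1 him
  · intro q hq him
    show be' q = q
    rw [hbe q hq]
    split_ifs with h
    · rfl
    · exact (key q hq h).2.2 him
  · intro q hq him
    show -chL B p y0 c c' φ (pm (eD B y0 k) q) - (ts _ s).θ (pm (eD B y0 k) q) / 2 =
      ch' q - (ts _ _).θ q / 2
    rw [hch q hq him]
    obtain ⟨t, d, rfl, ht⟩ := mem_ports' hq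
    rfl

/-- a class of `Dp` that does not visit `Near` -/
def StubCls (B : Band A) (y0 k a0 b1 : ℤ) (C : Finset (Port (ℤ × ℤ))) : Prop :=
  ¬ Net.Vis (fun q => TQ (Near y0 a0 b1) (pm (eD B y0 k) q)) C

open Classical in
/-- **the pointwise identity on closed near gates** -/
theorem gate_point (hf : Xr249.Free A B.xl B.xr B.y1 B.y2 k) (hR : 2 * k < B.R) (hz : B.At p y0)
    (hbe : NdBe B p y0 k be') (hch : NdCh B p y0 k c c' φ ch') {a0 a1 b0 b1 b' : ℤ}
    (h0 : 0 ≤ a0) (ha : a0 < a1) (hab : a1 < b0) (hb : b0 < b1) (hb1 : b1 + 1 < B.R)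
    (ha1 : a1 ≤ k - 2) (hb0 : B.R - 1 - k ≤ b0)
    (ca : (gate hz h0 ha (by omega : a1 + 1 < B.R)).Closed s)
    (cb : (gate hz (by omega : 0 ≤ b0) hb hb1).Closed s)
    (hφ : PhS B y0 a0 b1 b' φ)
    (hB : ∀ C ∈ ((ndNet B y0 k s be' ch').classes (ndNet B y0 k s be' ch').V).erase
      ((ndNet B y0 k s be' ch').cls (lpD p y0)), StubCls B y0 k a0 b1 C →
        (ndNet B y0 k s be' ch').zn C = 1) :
    (netN B p y0 c c' φ s).zvn (legP p y0) = (ndNet B y0 k s be' ch').zvn (lpD p y0) *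
      if OverR B y0 (a0 + 1) (b1 + 1) b' s then 0 else 1 := by
  have E := nd_emb (s := s) hf hR hz hbe hch
  have hok := netN_ok hz c c' φ s
  have hlp := pm_lp hf hz
  have hlegQ : TQ (Near y0 a0 b1) (pm (eD B y0 k) (lpD p y0)) := by
    rw [hlp]
    exact ⟨_, _, rfl, Or.inl ⟨_, rfl⟩⟩
  have hQ : ∀ q ∈ (netN B p y0 c c' φ s).V, TQ (Near y0 a0 b1) q →
      (netN B p y0 c c' φ s).cls q ⊆ (ndNet B y0 k s be' ch').V.image (pm (eD B y0 k)) := by
    intro q hq hqQ z hzC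
    have hzV := (Net.mem_cls.1 hzC).1
    have hnf := near_far hz h0 ha hab hb hb1 ca cb hq ⟨q, Net.self_mem_cls hq, hqQ⟩
    obtain ⟨t, d, rfl, ht⟩ := mem_ports' hzV
    have h5 : ∀ v, t = Sum.inr v → uc y0 v ≤ k - 2 ∨ B.R - 1 - k < uc y0 v := by
      rintro v rfl
      by_contra hcon
      push Not at hcon
      exact hnf ⟨_, hzC, _, _, rfl, v, rfl, by omega, by omega⟩
    obtain ⟨v, hv, e⟩ := im_eD hf hR ht h5
    refine Finset.mem_image.2 ⟨some (v, d), mem_ports.2 hv, ?_⟩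
    rw [Xr249.pm_some, e]
  obtain ⟨h1, h2⟩ := E.prod_near hQ (lp_mem hz) hlegQ
  unfold Net.zvn
  rw [← Finset.prod_filter_mul_prod_filter_not
    (((netN B p y0 c c' φ s).classes (netN B p y0 c c' φ s).V).erase
      ((netN B p y0 c c' φ s).cls (legP p y0))) (Net.Vis (TQ (Near y0 a0 b1))),
    ← Finset.prod_filter_mul_prod_filter_not
    (((ndNet B y0 k s be' ch').classes (ndNet B y0 k s be' ch').V).erase
      ((ndNet B y0 k s be' ch').cls (lpD p y0)))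
      (Net.Vis fun q => TQ (Near y0 a0 b1) (pm (eD B y0 k) q))]
  have h3 : ∏ C ∈ (((ndNet B y0 k s be' ch').classes (ndNet B y0 k s be' ch').V).erase
      ((ndNet B y0 k s be' ch').cls (lpD p y0))).filter
        (fun C => ¬ Net.Vis (fun q => TQ (Near y0 a0 b1) (pm (eD B y0 k) q)) C),
      (ndNet B y0 k s be' ch').zn C = 1 := by
    refine Finset.prod_eq_one fun C hC => ?_
    obtain ⟨hC1, hC2⟩ := Finset.mem_filter.1 hC
    exact hB C hC1 hC2
  rw [h3, strip_prod hz h0 hb1 hφ]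
  rw [hlp] at h1
  have h4 := h2 false
  rw [hlp] at h4
  rw [h1, h4]
  ring

end nd

/-- **far gates**: the strand over `b'` stays in the far rectangle -/
theorem over_iff_far (hz : B.At p y0) {f0 f1 g0 g1 : ℤ} (h0 : 0 ≤ f0) (ha : f0 < f1)
    (hab : f1 < g0) (hb : g0 < g1) (hR : g1 + 1 < B.R)
    (ca : (gate hz h0 ha (by omega : f1 + 1 < B.R)).Closed s)
    (cb : (gate hz (by omega : 0 ≤ g0) hb hR).Closed s) {b' a0 b1 : ℤ} (hf : f1 < b')
    (hg : b' ≤ g0) (h1 : 0 ≤ a0) (h2 : b1 + 1 < B.R) (h3 : a0 ≤ f0) (h4 : g1 ≤ b1) :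
    OverR B y0 (a0 + 1) (b1 + 1) b' s ↔ OverR B y0 (f0 + 1) (g1 + 1) b' s :=
  ⟨fun h => over_far hz h0 ha hab hb hR ca cb hf hg le_rfl le_rfl (by omega) (by omega) h,
    fun h => h.mono (by omega) (by omega)⟩

end Crest.Agent.R158.Ad350
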