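import Crest.Agent.R158.Xr8_249

/-!
# R158, block XR (helper249), file Xr9: words of the environments of `Env_664`

* `Wrd w l A be` : `IsWord w A be`, the boundary list, its members, its order (`Nx`)
* **`wordP`** : rectangle / macroscopic polyomino with the plain glueing `beP`
* **`wordD`** : the same with leg and option W, `beD`
-/

set_option autoImplicit false
set_option linter.unusedVariables false

noncomputable section

namespace Crest.Agent.R158.Xr249

open Env664 (Adj4 Mac D mem_D div_iff PortOf portOf_some portOf_none res nbP beP nbD beD IsWord)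

/-- the glued pairs of a partner map -/
def gb {T : Type*} (b : Port T → Port T) : Port T → Port T → Prop := fun x y => b x = y ∧ x ≠ y

/-- all facts on a word: `l` = the free ends in clockwise order (without the marker) -/
structure Wrd {T : Type*} [DecidableEq T] (w : Sw300.Wd T) (l : List (Port T)) (A : Finset T)
    (b : Port T → Port T) : Prop where
  isWord : IsWord w A b
  tnd : (Sw300.tls w).Nodup
  L : Sw300.L w = mk (bas w) ++ l
  nd : l.Nodup
  mem : ∀ x, x ∈ l ↔ (x ≠ none ∧ PortOf A x) ∧ b x = x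
  chain : Cycle.Chain (Nx (gb b)) (l : Cycle (Port T))

lemma Wrd.ok {T : Type*} [DecidableEq T] {w : Sw300.Wd T} {l : List (Port T)} {A : Finset T}
    {b : Port T → Port T} (h : Wrd w l A b) : Sw300.Ok w := h.isWord.1

/-- from the adapter to `Wrd` -/
lemma Ad.wrd {T : Type*} [DecidableEq T] {b0 : Option T} {w : Sw300.Wd T} {c : Cycle (Port T)}
    {B : Set (Option T)} {A : Finset T} {b : Port T → Port T} (h : Ad b0 w c B (gb b)) (hi : Inv c B (gb b))
    (hA : ∀ t, some t ∈ B ↔ t ∈ A) (hb : ∀ x, ¬ PortOf A x → b x = x)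
    (hface : ∀ x, b x ≠ x → Sw300.sd (b x) = Sw300.sd x + 2) (hnone : none ∉ c) :
    ∃ l, Wrd w l A b ∧ c = (l : Cycle (Port T)) ∧ ∀ t, b0 = some t → ∃ l', l = some (t, 0) :: l' := by
  obtain ⟨l, hL, hc, hl⟩ := h.L
  refine ⟨l, ⟨⟨h.ok, ?_, ?_, ?_⟩, h.nod, ?_, ?_, ?_, ?_⟩, hc, hl⟩
  · refine h.fc ?_
    rintro p q ⟨h1, h2⟩
    rw [← h1]
    exact hface p fun h => h2 (by rw [← h1, h])
  · intro t
    rw [h.tls, hA]
  · intro x
    by_cases hx : b x = x
    · by_contra h2
      have h3 := (h.be x (Sw300.be w x)).2 ⟨rfl, fun h => h2 (by rw [← h, hx])⟩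
      exact h2 h3.1.symm
    · exact ((h.be x (b x)).1 ⟨rfl, fun h => hx h.symm⟩).1
  · rw [h.bas]; exact hL
  · have := hi.nd
    rwa [hc, Cycle.nodup_coe_iff] at this
  · intro x
    rw [← Cycle.mem_coe_iff, ← hc]
    constructor
    · intro hx
      have h1 := (hi.mem x).1 hx
      refine ⟨⟨fun h => hnone (h ▸ hx), ?_⟩, ?_⟩
      · rcases x with - | ⟨t, d⟩
        · exact portOf_none A
        · exact portOf_some.2 ((hA t).1 h1.1)
      · by_contra h2
        exact h1.2 (b x) ⟨rfl, fun h => h2 h.symm⟩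
    · rintro ⟨⟨h1, h2⟩, h3⟩
      refine (hi.mem x).2 ⟨?_, ?_⟩
      · rcases x with - | ⟨t, d⟩
        · exact absurd rfl h1
        · exact (hA t).2 (portOf_some.1 h2)
      · rintro q ⟨h4, h5⟩
        exact h5 (by rw [← h4, h3])
  · rw [← hc]; exact hi.chain

/-- glued pairs of a restricted partner map -/
lemma gb_res {T : Type*} [DecidableEq T] {A : Finset T} {nb : Port T → Port T} {x q r : Port T}
    (h1 : nb x = r) (h2 : x ≠ r) : gb (res A nb) x q ↔ (PortOf A x ∧ PortOf A r) ∧ q = r := by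
  rw [gb, res, h1]
  split_ifs with h3
  · constructor
    · rintro ⟨h4, h5⟩
      exact ⟨h3, h4.symm⟩
    · rintro ⟨h4, h5⟩
      exact ⟨h5.symm, h5 ▸ h2⟩
  · constructor
    · rintro ⟨h4, h5⟩
      exact absurd h4 h5
    · rintro ⟨h4, h5⟩
      exact absurd h4 h3

section plain

variable {A : Finset (ℤ × ℤ)}

/-- plain glueing = glueing of `full A` -/
lemma gb_beP : gb (beP A) = (full A).gl := by
  funext p q
  refine propext ?_
  rcases p with - | ⟨⟨x, y⟩, d⟩
  · constructor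
    · rintro ⟨h1, h2⟩
      refine absurd ?_ h2
      rw [← h1, beP, res]
      split_ifs
      · rfl
      · rfl
    · intro h; exact h.elim
  · have key : ∀ r : Port (ℤ × ℤ), nbP (some ((x, y), d)) = r → some ((x, y), d) ≠ r →
        ∀ t e, r = some (t, e) → (gb (beP A) (some ((x, y), d)) q ↔ ((x, y) ∈ A ∧ t ∈ A) ∧ q = r) := by
      rintro r h1 h2 t e rfl
      rw [beP, gb_res h1 h2, portOf_some, portOf_some]
    rcases Reg.d4 d with rfl | rfl | rfl | rfl
    · rw [Reg.gl_0, key _ (Env664.nbP_W x y) (by simp; omega) _ _ rfl]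
      refine and_congr ?_ Iff.rfl
      rw [full_h, sub_add_cancel, and_comm]
    · rw [Reg.gl_1, key _ (Env664.nbP_N x y) (by simp) _ _ rfl]
      exact Iff.rfl
    · rw [Reg.gl_2, key _ (Env664.nbP_E x y) (by simp) _ _ rfl]
      exact Iff.rfl
    · rw [Reg.gl_3, key _ (Env664.nbP_S x y) (by simp; omega) _ _ rfl]
      refine and_congr ?_ Iff.rfl
      rw [full_v, sub_add_cancel, and_comm]

/-- glueing with leg = `glz` of `full A` -/
lemma gb_beD {p y0 xr : ℤ} (hpr : p ≤ xr) (hv : ∀ x, p ≤ x → x ≤ xr → (x, y0 - 1) ∈ A ∧ (x, y0) ∈ A)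
    (hw : (xr + 1, y0) ∉ A) : gb (beD A p y0 xr) = (full A).glz p y0 xr := by
  have hp0 := (hv p (le_refl _) hpr).2
  funext a q
  refine propext ?_
  rcases a with - | ⟨⟨x, y⟩, d⟩
  · rw [Reg.glz_none, gb, beD, res, Env664.nbD_leg, if_pos ⟨portOf_none A, portOf_some.2 hp0⟩]
    constructor
    · rintro ⟨h1, -⟩; exact h1.symm
    · rintro rfl; exact ⟨rfl, by simp⟩
  · have key : ∀ r : Port (ℤ × ℤ), nbD p y0 xr (some ((x, y), d)) = r → some ((x, y), d) ≠ r →
        (gb (beD A p y0 xr) (some ((x, y), d)) q ↔ ((x, y) ∈ A ∧ PortOf A r) ∧ q = r) := by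
      rintro r h1 h2
      rw [beD, gb_res h1 h2, portOf_some]
    rcases Reg.d4 d with rfl | rfl | rfl | rfl
    · rw [Reg.glz_0, key _ Env664.nbD_W (by simp; omega), portOf_some]
      refine and_congr ?_ Iff.rfl
      rw [full_h, sub_add_cancel, and_comm]
    · by_cases hc : y = y0 - 1 ∧ p ≤ x ∧ x ≤ xr
      · rw [Reg.glz_1, key _ (Env664.nbD_N1 hc) (by simp), portOf_some]
        obtain ⟨rfl, hc1, hc2⟩ := hc
        constructor
        · rintro ⟨⟨h1, h2⟩, h3⟩
          have h4 : x ≠ xr := by rintro rfl; exact hw h2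
          exact Or.inl ⟨rfl, hc1, by omega, h3⟩
        · rintro (⟨-, -, h1, h2⟩ | ⟨h1, -⟩)
          · exact ⟨⟨(hv x hc1 hc2).1, (hv (x + 1) (by omega) (by omega)).2⟩, h2⟩
          · exact absurd ⟨rfl, hc1, hc2⟩ h1
      · rw [Reg.glz_1, key _ (Env664.nbD_N hc) (by simp), portOf_some]
        constructor
        · rintro ⟨h1, h2⟩
          exact Or.inr ⟨hc, h1, h2⟩
        · rintro (⟨h1, h2, h3, -⟩ | ⟨-, h1, h2⟩)
          · exact absurd ⟨h1, h2, h3.le⟩ hc
          · exact ⟨h1, h2⟩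
    · rw [Reg.glz_2, key _ Env664.nbD_E (by simp), portOf_some]
      exact Iff.rfl
    · rw [Reg.glz_3]
      by_cases hc : y = y0 ∧ x = p
      · rw [key _ (Env664.nbD_Sleg hc) (by simp)]
        obtain ⟨rfl, rfl⟩ := hc
        constructor
        · rintro ⟨-, h1⟩
          exact Or.inl ⟨rfl, rfl, h1⟩
        · rintro (⟨-, -, h1⟩ | ⟨-, h1, -⟩ | ⟨h1, -⟩)
          · exact ⟨⟨hp0, portOf_none A⟩, h1⟩
          · omega
          · exact absurd ⟨rfl, le_refl _, hpr⟩ h1
      · by_cases hc2 : y = y0 ∧ p < x ∧ x ≤ xr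
        · rw [key _ (Env664.nbD_S1 hc2) (by simp; omega), portOf_some]
          obtain ⟨rfl, h1, h2⟩ := hc2
          constructor
          · rintro ⟨-, h3⟩
            exact Or.inr (Or.inl ⟨rfl, h1, h2, h3⟩)
          · rintro (⟨-, h3, -⟩ | ⟨-, -, -, h3⟩ | ⟨h3, -⟩)
            · omega
            · exact ⟨⟨(hv x h1.le h2).2, (hv (x - 1) (by omega) (by omega)).1⟩, h3⟩
            · exact absurd ⟨rfl, h1.le, h2⟩ h3
        · rw [key _ (Env664.nbD_S ⟨by omega, hc⟩) (by simp; omega), portOf_some]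
          constructor
          · rintro ⟨h1, h2⟩
            refine Or.inr (Or.inr ⟨by omega, ?_, h2⟩)
            rw [full_v, sub_add_cancel]
            exact h1.symm
          · rintro (⟨h1, h2, -⟩ | ⟨h1, h2, h3, -⟩ | ⟨-, h1, h2⟩)
            · exact absurd ⟨h1, h2⟩ hc
            · exact absurd ⟨h1, h2, h3⟩ hc2
            · rw [full_v, sub_add_cancel] at h1
              exact ⟨h1.symm, h2⟩

lemma res_not {T : Type*} [DecidableEq T] {A : Finset T} {nb : Port T → Port T} {x : Port T}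
    (h : ¬ PortOf A x) : res A nb x = x := by
  unfold res
  rw [if_neg fun h' => h h'.1]

lemma GA_full : GA (full A).gl (some '' ((full A).P : Set (ℤ × ℤ))) = (full A).gl := by
  funext p q
  exact propext ⟨fun h => h.1, fun h => Reg.gl_GA h⟩

/-- **plain region as a word**, base tile = left end of the row of `(a0, t0)`, marker before its side
`W` -/
theorem wordP (hsc : (full A).SC) (hc : (full A).Conn) {a0 t0 : ℤ} (h1 : (a0, t0) ∈ A)
    (h2 : (a0 - 1, t0) ∉ A) :
    ∃ w l, Wrd w (some ((a0, t0), 0) :: l) A (beP A) ∧ bas w = some (a0, t0) := by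
  obtain ⟨a, b, h3, h4, hr⟩ := Reg.exists_run (R := full A) h1
  have ha : a = a0 := by
    by_contra h
    exact h2 (hr.gl (a0 - 1) (by omega) (by omega)).1
  subst ha
  obtain ⟨c, hw⟩ := Reg.st hsc hc hr
  rw [GA_full, ← gb_beP] at hw
  obtain ⟨w, hw2⟩ := hw.adapt (by
    rintro t ht q hq
    cases ht
    rw [gb_beP] at hq
    exact hr.la (Reg.gl_0.1 hq).1)
  obtain ⟨l, h5, -, h6⟩ := hw2.wrd hw.inv (A := A)
    (fun t => by rw [Reg.mem_some]; exact_mod_cast Iff.rfl) (fun x hx => res_not hx)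
    (fun x hx => by
      have h7 : gb (beP A) x (beP A x) := ⟨rfl, fun h => hx h.symm⟩
      rw [gb_beP] at h7
      exact Reg.gl_face h7)
    (fun h => by
      have := hw.none_mem.1 (by simpa using ((hw.inv.mem none).1 h).1)
      cases this)
  obtain ⟨l', rfl⟩ := h6 _ rfl
  exact ⟨w, l', h5, hw2.bas⟩

/-- **region with leg (option W) as a word** -/
theorem wordD (hsc : (full A).SC) (hc : (full A).Conn) {p y0 xr : ℤ} (hpr : p ≤ xr)
    (hv : ∀ x, p ≤ x → x ≤ xr → (x, y0 - 1) ∈ A ∧ (x, y0) ∈ A) (hw : (xr + 1, y0) ∉ A)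
    (hcon : p < xr ∨ ((p - 1, y0 - 1) ∈ A ∧ (p - 1, y0) ∈ A)) :
    ∃ w l, Wrd w l A (beD A p y0 xr) ∧ bas w = none ∧ Sw300.L w = l ∧
      some ((xr, y0 - 1), 1) ∈ l := by
  have hs : (full A).Slit p y0 xr := by
    refine ⟨hpr, ?_, ?_, ?_, ?_, ?_⟩
    · intro x h1 h2
      rw [full_v, sub_add_cancel]
      exact hv x h1 h2
    · intro x h1 h2
      exact ⟨(hv x h1 h2.le).1, (hv (x + 1) (by omega) (by omega)).1⟩
    · intro x h1 h2
      exact ⟨(hv x h1 h2.le).2, (hv (x + 1) (by omega) (by omega)).2⟩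
    · rintro ⟨-, h1, -⟩
      exact hw h1.2
    · rcases hcon with h1 | ⟨h1, h2⟩
      · exact Or.inl h1
      · refine Or.inr ⟨?_, ?_, ?_⟩
        · rw [full_v, sub_add_cancel]; exact ⟨h1, h2⟩
        · rw [full_h, sub_add_cancel]; exact ⟨h1, (hv p (le_refl _) hpr).1⟩
        · rw [full_h, sub_add_cancel]; exact ⟨h2, (hv p (le_refl _) hpr).2⟩
  have e := gb_beD hpr hv hw
  obtain ⟨c, hw'⟩ := Reg.stz hs hsc hc
  rw [Reg.glz_GA hs, ← e] at hw'
  obtain ⟨w, hw2⟩ := hw'.adapt (by intro t ht; cases ht)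
  have hnone : none ∉ c := by
    intro h
    refine ((hw'.inv.mem none).1 h).2 (some ((p, y0), 3)) ?_
    rw [e]
    exact Reg.glz_none.2 rfl
  obtain ⟨l, h5, -, -⟩ := hw2.wrd hw'.inv (A := A)
    (fun t => by rw [Reg.mem_A0]; exact_mod_cast Iff.rfl) (fun x hx => res_not hx)
    (fun x hx => by
      have h7 : gb (beD A p y0 xr) x (beD A p y0 xr x) := ⟨rfl, fun h => hx h.symm⟩
      rw [e] at h7
      exact Reg.glz_face h7) hnone
  refine ⟨w, l, h5, hw2.bas, ?_, ?_⟩
  · have := h5.L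
    rw [hw2.bas] at this
    simpa [mk] using this
  · rw [h5.mem]
    refine ⟨⟨by simp, portOf_some.2 (hv xr hpr (le_refl _)).1⟩, ?_⟩
    by_contra h
    have h7 : gb (beD A p y0 xr) (some ((xr, y0 - 1), 1)) (beD A p y0 xr (some ((xr, y0 - 1), 1))) :=
      ⟨rfl, fun h' => h h'.symm⟩
    rw [e] at h7
    rcases Reg.glz_1.1 h7 with ⟨-, -, h1, -⟩ | ⟨h1, -⟩
    · omega
    · exact h1 ⟨rfl, hpr, le_refl _⟩

end plain

/-- **`D^(z)` of a macroscopic polyomino is a leg word** -/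
theorem wordD_mac (M : Mac) {L : ℤ} (hL : 0 < L) {p y0 xr : ℤ} (hpr : p ≤ xr)
    (hv : ∀ x, p ≤ x → x ≤ xr → (x, y0 - 1) ∈ D M.F L ∧ (x, y0) ∈ D M.F L)
    (hw : (xr + 1, y0) ∉ D M.F L)
    (hcon : p < xr ∨ ((p - 1, y0 - 1) ∈ D M.F L ∧ (p - 1, y0) ∈ D M.F L)) :
    ∃ w l, Wrd w l (D M.F L) (beD (D M.F L) p y0 xr) ∧ bas w = none ∧ Sw300.L w = l ∧
      some ((xr, y0 - 1), 1) ∈ l :=
  wordD (D_SC M hL) (D_Conn M hL) hpr hv hw hcon



end Crest.Agent.R158.Xr249
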