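import Mathlib

-- ▼ part R158/Vt1_300
section

/-!
# R158 block V: combinatorics of the triangle observable (doc 1777 (A1))

Non-crossing perfect matchings of a linearly ordered set of points are coded by Catalan trees
`NC`.  The forest `F` started at `s` has the points `s, ..., s + sz F - 1` and the gaps
`s, ..., s + sz F` (gap `g` is just before point `g`).  The arc `(i, j)` has the gap `g` inside iff
`i < g ∧ g ≤ j`.
-/

namespace Crest.Agent.R158.Vt300

/-- Catalan trees: `cons a b` = an arc around `a`, followed by `b`. -/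
inductive NC : Type
  | nil : NC
  | cons : NC → NC → NC
deriving DecidableEq, Repr, Inhabited

namespace NC

/-- number of points -/
def sz : NC → ℕ
  | nil => 0
  | cons a b => sz a + sz b + 2

/-- the arcs of the forest whose first point is `s` -/
def arcs : NC → ℕ → List (ℕ × ℕ)
  | nil, _ => []
  | cons a b, s => (s, s + sz a + 1) :: (arcs a (s + 1) ++ arcs b (s + sz a + 2))

end NC

open NC

/-- gap `x` lies inside the arc `(i, j)` -/
def ins (x : ℕ) (e : ℕ × ℕ) : Prop := e.1 < x ∧ x ≤ e.2

instance (x : ℕ) (e : ℕ × ℕ) : Decidable (ins x e) := inferInstanceAs (Decidable (_ ∧ _))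

/-- indicator of `ins` -/
def ind (x : ℕ) (e : ℕ × ℕ) : ℤ := if ins x e then 1 else 0

/-- the arc weight in units of `π / 3` -/
def wz (k : ℤ) : ℤ := if k = 0 ∨ k = 1 then 1 else if k = -2 then -1 else 0

@[simp] lemma wz_0 : wz 0 = 1 := by decide
@[simp] lemma wz_1 : wz 1 = 1 := by decide
@[simp] lemma wz_2 : wz 2 = 0 := by decide
@[simp] lemma wz_m1 : wz (-1) = 0 := by decide
@[simp] lemma wz_m2 : wz (-2) = -1 := by decide

/-- the product functional `h_m` (without phase): charges `+1` at `x1, x2`, `-2` at `m`. -/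
def hh (x1 x2 m : ℕ) (F : NC) (s : ℕ) : ℤ :=
  ((F.arcs s).map fun e => wz (ind x1 e + ind x2 e - 2 * ind m e)).prod

/-- the product functional with `m` outside -/
def PP (x1 x2 : ℕ) : NC → ℕ → ℤ
  | nil, _ => 1
  | cons a b, s => wz (ind x1 (s, s + sz a + 1) + ind x2 (s, s + sz a + 1))
      * PP x1 x2 a (s + 1) * PP x1 x2 b (s + sz a + 2)

/-- the weighted sum over all positions of `m` (recursive form) -/
def SS (φ : ℕ → ℤ) (x1 x2 : ℕ) : NC → ℕ → ℤ
  | nil, s => φ s
  | cons a b, s =>
      φ s * (wz (ind x1 (s, s + sz a + 1) + ind x2 (s, s + sz a + 1))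
        * PP x1 x2 a (s + 1) * PP x1 x2 b (s + sz a + 2))
      + wz (ind x1 (s, s + sz a + 1) + ind x2 (s, s + sz a + 1) - 2)
        * SS φ x1 x2 a (s + 1) * PP x1 x2 b (s + sz a + 2)
      + wz (ind x1 (s, s + sz a + 1) + ind x2 (s, s + sz a + 1))
        * PP x1 x2 a (s + 1) * SS φ x1 x2 b (s + sz a + 2)

/-- arcs stay in the range of the forest -/
lemma arcs_range {F : NC} {s : ℕ} {e : ℕ × ℕ} (he : e ∈ F.arcs s) :
    s ≤ e.1 ∧ e.1 < e.2 ∧ e.2 < s + sz F := by
  induction F generalizing s with
  | nil => simp [arcs] at he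
  | cons a b iha ihb =>
    simp only [arcs, List.mem_cons, List.mem_append] at he
    rcases he with rfl | he | he
    · simp only [sz]; omega
    · have := iha he; simp only [sz]; omega
    · have := ihb he; simp only [sz]; omega

/-- `m` is outside `F` : `hh = PP` -/
lemma hh_out {x1 x2 m : ℕ} {F : NC} {s : ℕ} (hm : m ≤ s ∨ s + sz F ≤ m) :
    hh x1 x2 m F s = PP x1 x2 F s := by
  induction F generalizing s with
  | nil => simp [hh, PP, arcs]
  | cons a b iha ihb =>
    have h1 : ¬ ins m (s, s + sz a + 1) := by simp only [ins, sz] at *; omega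
    have ha := iha (s := s + 1) (by simp only [sz] at hm; omega)
    have hb := ihb (s := s + sz a + 2) (by simp only [sz] at hm; omega)
    simp only [hh, PP, arcs, List.map_cons, List.map_append, List.prod_cons,
      List.prod_append] at *
    rw [ha, hb]
    have h2 : ind m (s, s + sz a + 1) = 0 := by simp [ind, h1]
    rw [h2]; ring_nf

/-- recursive evaluation of the sum over `m` -/
theorem SS_eq (φ : ℕ → ℤ) (x1 x2 : ℕ) (F : NC) (s : ℕ) :
    SS φ x1 x2 F s = ∑ m ∈ Finset.Icc s (s + sz F), φ m * hh x1 x2 m F s := by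
  induction F generalizing s with
  | nil => simp [SS, sz, hh, arcs]
  | cons a b iha ihb =>
    have hsplit : Finset.Icc s (s + sz (cons a b)) =
        insert s (Finset.Icc (s + 1) (s + 1 + sz a) ∪
          Finset.Icc (s + sz a + 2) (s + sz a + 2 + sz b)) := by
      ext t; simp only [sz, Finset.mem_Icc, Finset.mem_insert, Finset.mem_union]; omega
    rw [hsplit, Finset.sum_insert, Finset.sum_union]
    · have e0 : hh x1 x2 s (cons a b) s = wz (ind x1 (s, s + sz a + 1) + ind x2 (s, s + sz a + 1))
          * PP x1 x2 a (s + 1) * PP x1 x2 b (s + sz a + 2) := by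
        rw [hh_out (Or.inl le_rfl)]; rfl
      have ea : ∀ m ∈ Finset.Icc (s + 1) (s + 1 + sz a), φ m * hh x1 x2 m (cons a b) s =
          wz (ind x1 (s, s + sz a + 1) + ind x2 (s, s + sz a + 1) - 2)
          * (φ m * hh x1 x2 m a (s + 1)) * PP x1 x2 b (s + sz a + 2) := by
        intro m hm
        rw [Finset.mem_Icc] at hm
        have hi : ind m (s, s + sz a + 1) = 1 := by
          have : ins m (s, s + sz a + 1) := by simp only [ins]; omega
          simp [ind, this]
        have hb : hh x1 x2 m b (s + sz a + 2) = PP x1 x2 b (s + sz a + 2) :=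
          hh_out (Or.inl (by omega))
        rw [← hb]
        simp only [hh, arcs, List.map_cons, List.map_append, List.prod_cons, List.prod_append, hi]
        ring_nf
      have eb : ∀ m ∈ Finset.Icc (s + sz a + 2) (s + sz a + 2 + sz b),
          φ m * hh x1 x2 m (cons a b) s =
          wz (ind x1 (s, s + sz a + 1) + ind x2 (s, s + sz a + 1)) * PP x1 x2 a (s + 1)
          * (φ m * hh x1 x2 m b (s + sz a + 2)) := by
        intro m hm
        rw [Finset.mem_Icc] at hm
        have hi : ind m (s, s + sz a + 1) = 0 := by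
          have : ¬ ins m (s, s + sz a + 1) := by simp only [ins]; omega
          simp [ind, this]
        have ha : hh x1 x2 m a (s + 1) = PP x1 x2 a (s + 1) := hh_out (Or.inr (by omega))
        rw [← ha]
        simp only [hh, arcs, List.map_cons, List.map_append, List.prod_cons, List.prod_append, hi]
        ring_nf
      rw [Finset.sum_congr rfl ea, Finset.sum_congr rfl eb, e0]
      simp only [SS]
      rw [iha, ihb, Finset.mul_sum, Finset.sum_mul, Finset.mul_sum, add_assoc]
    · rw [Finset.disjoint_left]; intro t ht; simp only [Finset.mem_Icc] at ht ⊢; omega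
    · simp only [Finset.mem_union, Finset.mem_Icc]; omega

/-- some arc contains both `x` and `y` and not `z` -/
def sep (F : NC) (s : ℕ) (x y z : ℕ) : Prop := ∃ e ∈ F.arcs s, ins x e ∧ ins y e ∧ ¬ ins z e

instance (F : NC) (s x y z : ℕ) : Decidable (sep F s x y z) :=
  inferInstanceAs (Decidable (∃ e ∈ F.arcs s, ins x e ∧ ins y e ∧ ¬ ins z e))

end Crest.Agent.R158.Vt300
private theorem rz_6ca1715ece : type_of% @_root_.Crest.Agent.R158.Vt300.NC.arcs.eq_def := @_root_.Crest.Agent.R158.Vt300.NC.arcs.eq_def -- L28
private theorem rz_1053704c54 : type_of% @_root_.Crest.Agent.R158.Vt300.NC.arcs.eq_1 := @_root_.Crest.Agent.R158.Vt300.NC.arcs.eq_1 -- L28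
private theorem rz_fde0a034a3 : type_of% @_root_.Crest.Agent.R158.Vt300.NC.sz.eq_def := @_root_.Crest.Agent.R158.Vt300.NC.sz.eq_def -- L23
private theorem rz_a24df47ddf : type_of% @_root_.Crest.Agent.R158.Vt300.NC.sz.eq_1 := @_root_.Crest.Agent.R158.Vt300.NC.sz.eq_1 -- L23
private theorem rz_f6b40802e0 : type_of% @_root_.Crest.Agent.R158.Vt300.PP.eq_def := @_root_.Crest.Agent.R158.Vt300.PP.eq_def -- L58
private theorem rz_266ed9c5b7 : type_of% @_root_.Crest.Agent.R158.Vt300.PP.eq_1 := @_root_.Crest.Agent.R158.Vt300.PP.eq_1 -- L58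
private theorem rz_6799861922 : type_of% @_root_.Crest.Agent.R158.Vt300.SS.eq_def := @_root_.Crest.Agent.R158.Vt300.SS.eq_def -- L64
private theorem rz_17794f7f3a : type_of% @_root_.Crest.Agent.R158.Vt300.SS.eq_1 := @_root_.Crest.Agent.R158.Vt300.SS.eq_1 -- L64
end

-- ▼ part R158/Vt2_300
section

/-!
# R158 block V: proof of (A1) of doc 1777 by structural induction
-/

namespace Crest.Agent.R158.Vt300

open NC

lemma ind_one {x i j : ℕ} (h : i < x ∧ x ≤ j) : ind x (i, j) = 1 := by
  have : ins x (i, j) := h
  simp [ind, this]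

lemma ind_zero {x i j : ℕ} (h : ¬ (i < x ∧ x ≤ j)) : ind x (i, j) = 0 := by
  have : ¬ ins x (i, j) := h
  simp [ind, this]

/-- `x` is in no arc of the forest -/
def Out (x : ℕ) (F : NC) (s : ℕ) : Prop := x ≤ s ∨ s + sz F ≤ x

lemma sep_cons {a b : NC} {s x y z : ℕ} : sep (cons a b) s x y z ↔
    ((s < x ∧ x ≤ s + sz a + 1) ∧ (s < y ∧ y ≤ s + sz a + 1) ∧ ¬ (s < z ∧ z ≤ s + sz a + 1))
      ∨ sep a (s + 1) x y z ∨ sep b (s + sz a + 2) x y z := by
  simp only [sep, arcs, List.mem_cons, List.mem_append]
  constructor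
  · rintro ⟨e, rfl | h | h, h2⟩
    · exact Or.inl h2
    · exact Or.inr (Or.inl ⟨e, h, h2⟩)
    · exact Or.inr (Or.inr ⟨e, h, h2⟩)
  · rintro (h | ⟨e, h, h2⟩ | ⟨e, h, h2⟩)
    · exact ⟨_, Or.inl rfl, h⟩
    · exact ⟨e, Or.inr (Or.inl h), h2⟩
    · exact ⟨e, Or.inr (Or.inr h), h2⟩

lemma not_sep {F : NC} {s x y z : ℕ} (h : Out x F s ∨ Out y F s) : ¬ sep F s x y z := by
  rintro ⟨e, he, h1, h2, -⟩
  have := arcs_range he
  simp only [ins, Out] at *
  omega

/-- at most one of the two marks inside: `PP = 1` -/
lemma PP_one {x1 x2 : ℕ} {F : NC} {s : ℕ}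
    (h : Out x1 F s ∨ Out x2 F s) : PP x1 x2 F s = 1 := by
  induction F generalizing s with
  | nil => rfl
  | cons a b iha ihb =>
    simp only [Out, sz] at h iha ihb
    simp only [PP]
    rw [iha (by omega), ihb (by omega)]
    rcases h with h | h
    · rw [ind_zero (x := x1) (by omega)]
      by_cases h2 : s < x2 ∧ x2 ≤ s + sz a + 1
      · rw [ind_one h2]; simp
      · rw [ind_zero h2]; simp
    · rw [ind_zero (x := x2) (by omega)]
      by_cases h2 : s < x1 ∧ x1 ≤ s + sz a + 1
      · rw [ind_one h2]; simp
      · rw [ind_zero h2]; simp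

/-- position trichotomy inside `cons a b` -/
lemma tri {x s p q : ℕ} (h1 : s ≤ x) (h2 : x ≤ s + (p + q + 2)) :
    x = s ∨ (s + 1 ≤ x ∧ x ≤ s + 1 + p) ∨ (s + p + 2 ≤ x ∧ x ≤ s + p + 2 + q) := by omega

lemma PP_eq {x1 x2 z : ℕ} {F : NC} {s : ℕ} (hz : Out z F s) :
    PP x1 x2 F s = if sep F s x1 x2 z then 0 else 1 := by
  induction F generalizing s with
  | nil => simp [PP, sep, arcs]
  | cons a b iha ihb =>
    simp only [Out, sz] at hz iha ihb
    simp only [PP]
    rw [iha (by omega), ihb (by omega)]
    by_cases h1 : s < x1 ∧ x1 ≤ s + sz a + 1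
    · by_cases h2 : s < x2 ∧ x2 ≤ s + sz a + 1
      · have : sep (cons a b) s x1 x2 z := sep_cons.2 (Or.inl ⟨h1, h2, by omega⟩)
        rw [ind_one h1, ind_one h2, if_pos this]; simp
      · rw [ind_one h1, ind_zero h2]
        have ha : ¬ sep a (s + 1) x1 x2 z := not_sep (by simp only [Out]; omega)
        have hb : ¬ sep b (s + sz a + 2) x1 x2 z := not_sep (by simp only [Out]; omega)
        have : ¬ sep (cons a b) s x1 x2 z := by rw [sep_cons]; tauto
        simp [ha, hb, this]
    · by_cases h2 : s < x2 ∧ x2 ≤ s + sz a + 1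
      · rw [ind_zero h1, ind_one h2]
        have ha : ¬ sep a (s + 1) x1 x2 z := not_sep (by simp only [Out]; omega)
        have hb : ¬ sep b (s + sz a + 2) x1 x2 z := not_sep (by simp only [Out]; omega)
        have : ¬ sep (cons a b) s x1 x2 z := by rw [sep_cons]; tauto
        simp [ha, hb, this]
      · rw [ind_zero h1, ind_zero h2]
        have ha : ¬ sep a (s + 1) x1 x2 z := not_sep (by simp only [Out]; omega)
        by_cases hb : sep b (s + sz a + 2) x1 x2 z
        · have : sep (cons a b) s x1 x2 z := sep_cons.2 (Or.inr (Or.inr hb))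
          simp [hb, this]
        · have : ¬ sep (cons a b) s x1 x2 z := by rw [sep_cons]; tauto
          simp [ha, hb, this]

/-- no weight: the sum vanishes (marks anywhere) -/
lemma SS_zero {φ : ℕ → ℤ} {x1 x2 : ℕ} {F : NC} {s : ℕ}
    (hφ : ∀ m, s ≤ m → m ≤ s + sz F → φ m = 0) : SS φ x1 x2 F s = 0 := by
  induction F generalizing s with
  | nil => exact hφ s le_rfl (by simp)
  | cons a b iha ihb =>
    simp only [sz] at hφ
    simp only [SS]
    rw [hφ s le_rfl (by omega), iha (fun m h1 h2 => hφ m (by omega) (by omega)),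
      ihb (fun m h1 h2 => hφ m (by omega) (by omega))]
    ring

/-- constant weight, no marks: the sum is the constant -/
lemma SS_const {φ : ℕ → ℤ} {c : ℤ} {x1 x2 : ℕ} {F : NC} {s : ℕ}
    (h1 : Out x1 F s) (h2 : Out x2 F s)
    (hφ : ∀ m, s ≤ m → m ≤ s + sz F → φ m = c) : SS φ x1 x2 F s = c := by
  induction F generalizing s with
  | nil => exact hφ s le_rfl (by simp)
  | cons a b iha ihb =>
    simp only [Out, sz] at *
    simp only [SS]
    rw [hφ s le_rfl (by omega), iha (by omega) (by omega) (fun m h1 h2 => hφ m (by omega) (by omega)),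
      ihb (by omega) (by omega) (fun m h1 h2 => hφ m (by omega) (by omega)),
      PP_one (Or.inl (by simp only [Out]; omega)), PP_one (Or.inl (by simp only [Out]; omega)),
      ind_zero (x := x1) (by omega), ind_zero (x := x2) (by omega)]
    simp

/-- weight `2` below `x3`, `1` at `x3`, `0` above; `x1, x2` in no arc -/
lemma SS_3 {φ : ℕ → ℤ} {x1 x2 x3 : ℕ} {F : NC} {s : ℕ}
    (h1 : Out x1 F s) (h2 : Out x2 F s) (h3 : s ≤ x3) (h3' : x3 ≤ s + sz F)
    (hφ : ∀ m, s ≤ m → m ≤ s + sz F → φ m = if m < x3 then 2 else if m = x3 then 1 else 0) :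
    SS φ x1 x2 F s = 1 := by
  induction F generalizing s with
  | nil =>
    simp only [sz] at h3'
    have : x3 = s := by omega
    rw [show SS φ x1 x2 nil s = φ s from rfl, hφ s le_rfl (by simp)]; simp [this]
  | cons a b iha ihb =>
    have hPa : PP x1 x2 a (s + 1) = 1 := PP_one (Or.inl (by simp only [Out, sz] at *; omega))
    have hPb : PP x1 x2 b (s + sz a + 2) = 1 :=
      PP_one (Or.inl (by simp only [Out, sz] at *; omega))
    simp only [Out, sz] at *
    have hi1 : ind x1 (s, s + sz a + 1) = 0 := ind_zero (by omega)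
    have hi2 : ind x2 (s, s + sz a + 1) = 0 := ind_zero (by omega)
    have hs := hφ s le_rfl (by omega)
    simp only [SS, hPa, hPb, hi1, hi2, hs]
    rcases tri h3 h3' with h | h | h
    · have ea : SS φ x1 x2 a (s + 1) = 0 := SS_zero (fun m ha hb => by
        rw [hφ m (by omega) (by omega), if_neg (by omega), if_neg (by omega)])
      have eb : SS φ x1 x2 b (s + sz a + 2) = 0 := SS_zero (fun m ha hb => by
        rw [hφ m (by omega) (by omega), if_neg (by omega), if_neg (by omega)])
      rw [ea, eb]
      simp [h]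
    · have eb : SS φ x1 x2 b (s + sz a + 2) = 0 := SS_zero (fun m ha hb => by
        rw [hφ m (by omega) (by omega), if_neg (by omega), if_neg (by omega)])
      rw [iha (by omega) (by omega) (by omega) (by omega)
          (fun m ha hb => hφ m (by omega) (by omega)), eb]
      simp [show s < x3 by omega]
    · have ea : SS φ x1 x2 a (s + 1) = 2 := SS_const (by simp only [Out]; omega)
        (by simp only [Out]; omega) (fun m ha hb => by
          rw [hφ m (by omega) (by omega), if_pos (by omega)])
      rw [ea, ihb (by omega) (by omega) (by omega) (by omega)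
          (fun m ha hb => hφ m (by omega) (by omega))]
      simp [show s < x3 by omega]

/-- weight `0` below `x2`, `2` from `x2` on; `x1` in no arc -/
lemma SS_2 {φ : ℕ → ℤ} {x1 x2 : ℕ} {F : NC} {s : ℕ}
    (h1 : Out x1 F s) (h2 : s ≤ x2) (h2' : x2 ≤ s + sz F)
    (hφ : ∀ m, s ≤ m → m ≤ s + sz F → φ m = if m < x2 then 0 else 2) :
    SS φ x1 x2 F s = 2 := by
  induction F generalizing s with
  | nil =>
    simp only [sz] at h2'
    have : x2 = s := by omega
    rw [show SS φ x1 x2 nil s = φ s from rfl, hφ s le_rfl (by simp)]; simp [this]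
  | cons a b iha ihb =>
    have hPa : PP x1 x2 a (s + 1) = 1 := PP_one (Or.inl (by simp only [Out, sz] at *; omega))
    have hPb : PP x1 x2 b (s + sz a + 2) = 1 :=
      PP_one (Or.inl (by simp only [Out, sz] at *; omega))
    simp only [Out, sz] at *
    have hi1 : ind x1 (s, s + sz a + 1) = 0 := ind_zero (by omega)
    have hs := hφ s le_rfl (by omega)
    simp only [SS, hPa, hPb, hi1, hs]
    rcases tri h2 h2' with h | h | h
    · rw [SS_const (F := a) (c := 2) (by simp only [Out]; omega) (by simp only [Out]; omega)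
          (fun m ha hb => by rw [hφ m (by omega) (by omega)]; simp; omega),
        SS_const (F := b) (c := 2) (by simp only [Out]; omega) (by simp only [Out]; omega)
          (fun m ha hb => by rw [hφ m (by omega) (by omega)]; simp; omega),
        ind_zero (x := x2) (by omega)]
      simp [h]
    · rw [SS_const (F := b) (c := 2) (by simp only [Out]; omega) (by simp only [Out]; omega)
          (fun m ha hb => by rw [hφ m (by omega) (by omega)]; simp; omega),
        ind_one (x := x2) (by omega)]
      simp [show s < x2 by omega]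
    · rw [SS_zero (F := a) (fun m ha hb => by rw [hφ m (by omega) (by omega)]; simp; omega),
        ihb (by omega) (by omega) (by omega)
          (fun m ha hb => hφ m (by omega) (by omega)),
        ind_zero (x := x2) (by omega)]
      simp [show s < x2 by omega]

/-- `x1 ≤ x2` inside, weight `0` below `x2`, `2` from `x2` on -/
lemma SS_12 {φ : ℕ → ℤ} {x1 x2 : ℕ} {F : NC} {s : ℕ}
    (h1 : s ≤ x1) (h12 : x1 ≤ x2) (h2' : x2 ≤ s + sz F)
    (hφ : ∀ m, s ≤ m → m ≤ s + sz F → φ m = if m < x2 then 0 else 2) :
    SS φ x1 x2 F s = 2 := by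
  induction F generalizing s with
  | nil => exact SS_2 (by simp only [Out, sz] at *; omega) (by omega) h2' hφ
  | cons a b iha ihb =>
    by_cases hx1 : x1 ≤ s
    · exact SS_2 (Or.inl hx1) (by omega) h2' hφ
    simp only [Out, sz] at *
    have hs := hφ s le_rfl (by omega)
    simp only [SS, hs]
    rw [if_pos (show s < x2 by omega)]
    rcases tri h1 (show x1 ≤ s + (sz a + sz b + 2) by omega) with h | h | h
    · omega
    · rcases tri (show s ≤ x2 by omega) h2' with h' | h' | h'
      · omega
      · rw [iha (by omega) (by omega) (fun m ha hb => hφ m (by omega) (by omega)),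
          PP_one (F := b) (Or.inl (by simp only [Out]; omega)),
          ind_one (x := x1) (by omega), ind_one (x := x2) (by omega)]
        simp
      · rw [PP_one (F := a) (Or.inr (by simp only [Out]; omega)),
          SS_2 (F := b) (by simp only [Out]; omega) (by omega) (by omega)
            (fun m ha hb => hφ m (by omega) (by omega)),
          ind_one (x := x1) (by omega), ind_zero (x := x2) (by omega)]
        simp
    · rw [SS_zero (F := a) (fun m ha hb => by rw [hφ m (by omega) (by omega)]; simp; omega),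
        PP_one (F := a) (Or.inl (by simp only [Out]; omega)),
        ihb (by omega) (by omega) (fun m ha hb => hφ m (by omega) (by omega)),
        ind_zero (x := x1) (by omega), ind_zero (x := x2) (by omega)]
      simp

/-- the standard weight: `0` below `x2`, `2` on `[x2, x3)`, `1` at `x3`, `0` above -/
def ph (x2 x3 m : ℕ) : ℤ := if m < x2 then 0 else if m < x3 then 2 else if m = x3 then 1 else 0

/-- `x2 ≤ x3` inside, `x1` in no arc -/
lemma SS_23 {φ : ℕ → ℤ} {x1 x2 x3 : ℕ} {F : NC} {s : ℕ}
    (h1 : Out x1 F s) (h2 : s ≤ x2) (h23 : x2 ≤ x3) (h3' : x3 ≤ s + sz F)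
    (hφ : ∀ m, s ≤ m → m ≤ s + sz F → φ m = ph x2 x3 m) :
    SS φ x1 x2 F s = if sep F s x2 x3 x1 then 0 else 1 := by
  induction F generalizing s with
  | nil =>
    simp only [sz] at h3'
    rw [show SS φ x1 x2 nil s = φ s from rfl, hφ s le_rfl (by simp)]
    simp [ph, sep, arcs, show x2 = s by omega, show x3 = s by omega]
  | cons a b iha ihb =>
    by_cases hx2 : x2 ≤ s
    · rw [if_neg (not_sep (Or.inl (Or.inl hx2)))]
      exact SS_3 h1 (Or.inl hx2) (by omega) h3' (fun m ha hb => by
        rw [hφ m ha hb]; simp only [ph]; rw [if_neg (by omega)])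
    have hPa : PP x1 x2 a (s + 1) = 1 := PP_one (Or.inl (by simp only [Out, sz] at *; omega))
    have hPb : PP x1 x2 b (s + sz a + 2) = 1 :=
      PP_one (Or.inl (by simp only [Out, sz] at *; omega))
    simp only [Out, sz] at *
    have hi1 : ind x1 (s, s + sz a + 1) = 0 := ind_zero (by omega)
    have hs : φ s = 0 := by rw [hφ s le_rfl (by omega)]; simp [ph]; omega
    simp only [SS, hPa, hPb, hi1, hs]
    rcases tri h2 (show x2 ≤ s + (sz a + sz b + 2) by omega) with h | h | h
    · omega
    · rcases tri (show s ≤ x3 by omega) h3' with h' | h' | h'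
      · omega
      · rw [ind_one (x := x2) (by omega),
          SS_zero (F := b) (fun m ha hb => by
            rw [hφ m (by omega) (by omega)]; simp only [ph]
            rw [if_neg (by omega), if_neg (by omega), if_neg (by omega)]),
          if_pos (sep_cons.2 (Or.inl ⟨by omega, by omega, by omega⟩))]
        simp
      · have hns : ¬ sep (cons a b) s x2 x3 x1 := by
          rw [sep_cons]
          have ha : ¬ sep a (s + 1) x2 x3 x1 := not_sep (by simp only [Out]; omega)
          have hb : ¬ sep b (s + sz a + 2) x2 x3 x1 := not_sep (by simp only [Out]; omega)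
          rintro (h | h | h)
          · omega
          · exact ha h
          · exact hb h
        have eb : SS φ x1 x2 b (s + sz a + 2) = 1 :=
          SS_3 (x3 := x3) (by simp only [Out]; omega) (by simp only [Out]; omega) (by omega)
            (by omega) (fun m ha hb => by
              rw [hφ m (by omega) (by omega)]; simp only [ph]; rw [if_neg (by omega)])
        rw [ind_one (x := x2) (by omega), eb, if_neg hns]
        simp
    · have hiff : sep (cons a b) s x2 x3 x1 ↔ sep b (s + sz a + 2) x2 x3 x1 := by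
        rw [sep_cons]
        have ha : ¬ sep a (s + 1) x2 x3 x1 := not_sep (by simp only [Out]; omega)
        constructor
        · rintro (h | h | h)
          · omega
          · exact absurd h ha
          · exact h
        · exact fun h => Or.inr (Or.inr h)
      rw [ind_zero (x := x2) (by omega),
        SS_zero (F := a) (fun m ha hb => by
            rw [hφ m (by omega) (by omega)]; simp only [ph]
            rw [if_pos (by omega)]),
        ihb (by omega) (by omega) (by omega) (fun m ha hb => hφ m (by omega) (by omega))]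
      simp [hiff]

/-- `x1 ≤ x2 ≤ x3` all inside -/
theorem SS_123 {φ : ℕ → ℤ} {x1 x2 x3 : ℕ} {F : NC} {s : ℕ}
    (h1 : s ≤ x1) (h12 : x1 ≤ x2) (h23 : x2 ≤ x3) (h3' : x3 ≤ s + sz F)
    (hφ : ∀ m, s ≤ m → m ≤ s + sz F → φ m = ph x2 x3 m) :
    SS φ x1 x2 F s = if sep F s x2 x3 x1 then 0 else if sep F s x1 x2 x3 then 2 else 1 := by
  induction F generalizing s with
  | nil =>
    rw [SS_23 (by simp only [Out, sz] at *; omega) (by omega) h23 h3' hφ]
    simp [sep, arcs]
  | cons a b iha ihb =>
    by_cases hx1 : x1 ≤ s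
    · rw [SS_23 (Or.inl hx1) (by omega) h23 h3' hφ,
        if_neg (not_sep (Or.inl (Or.inl hx1)) : ¬ sep (cons a b) s x1 x2 x3)]
    simp only [Out, sz] at *
    have hs : φ s = 0 := by rw [hφ s le_rfl (by omega)]; simp [ph]; omega
    simp only [SS, hs]
    rcases tri h1 (show x1 ≤ s + (sz a + sz b + 2) by omega) with h | h | h
    · omega
    · rcases tri (show s ≤ x2 by omega) (show x2 ≤ s + (sz a + sz b + 2) by omega) with h' | h' | h'
      · omega
      · rcases tri (show s ≤ x3 by omega) h3' with h'' | h'' | h''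
        · omega
        · -- all in a
          have e1 : sep (cons a b) s x2 x3 x1 ↔ sep a (s + 1) x2 x3 x1 := by
            rw [sep_cons]
            have hb : ¬ sep b (s + sz a + 2) x2 x3 x1 := not_sep (by simp only [Out]; omega)
            constructor
            · rintro (h | h | h)
              · omega
              · exact h
              · exact absurd h hb
            · exact fun h => Or.inr (Or.inl h)
          have e2 : sep (cons a b) s x1 x2 x3 ↔ sep a (s + 1) x1 x2 x3 := by
            rw [sep_cons]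
            have hb : ¬ sep b (s + sz a + 2) x1 x2 x3 := not_sep (by simp only [Out]; omega)
            constructor
            · rintro (h | h | h)
              · omega
              · exact h
              · exact absurd h hb
            · exact fun h => Or.inr (Or.inl h)
          rw [iha (by omega) (by omega) (fun m ha hb => hφ m (by omega) (by omega)),
            PP_one (F := b) (Or.inl (by simp only [Out]; omega)),
            ind_one (x := x1) (by omega), ind_one (x := x2) (by omega)]
          simp [e1, e2]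
        · -- x1, x2 in a, x3 in b
          have e1 : ¬ sep (cons a b) s x2 x3 x1 := by
            rw [sep_cons]
            have ha : ¬ sep a (s + 1) x2 x3 x1 := not_sep (by simp only [Out]; omega)
            have hb : ¬ sep b (s + sz a + 2) x2 x3 x1 := not_sep (by simp only [Out]; omega)
            rintro (h | h | h)
            · omega
            · exact ha h
            · exact hb h
          have e2 : sep (cons a b) s x1 x2 x3 := sep_cons.2 (Or.inl ⟨by omega, by omega, by omega⟩)
          rw [SS_12 (F := a) (by omega) (by omega) (by omega) (fun m ha hb => by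
              rw [hφ m (by omega) (by omega)]; simp only [ph]
              by_cases hm : m < x2
              · simp [hm]
              · rw [if_neg hm, if_pos (by omega), if_neg hm]),
            PP_one (F := b) (Or.inl (by simp only [Out]; omega)),
            ind_one (x := x1) (by omega), ind_one (x := x2) (by omega), if_neg e1, if_pos e2]
          simp
      · -- x1 in a, x2, x3 in b
        have e1 : sep (cons a b) s x2 x3 x1 ↔ sep b (s + sz a + 2) x2 x3 x1 := by
          rw [sep_cons]
          have ha : ¬ sep a (s + 1) x2 x3 x1 := not_sep (by simp only [Out]; omega)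
          constructor
          · rintro (h | h | h)
            · omega
            · exact absurd h ha
            · exact h
          · exact fun h => Or.inr (Or.inr h)
        have e2 : ¬ sep (cons a b) s x1 x2 x3 := by
          rw [sep_cons]
          have ha : ¬ sep a (s + 1) x1 x2 x3 := not_sep (by simp only [Out]; omega)
          have hb : ¬ sep b (s + sz a + 2) x1 x2 x3 := not_sep (by simp only [Out]; omega)
          rintro (h | h | h)
          · omega
          · exact ha h
          · exact hb h
        rw [PP_one (F := a) (Or.inr (by simp only [Out]; omega)),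
          SS_23 (F := b) (by simp only [Out]; omega) (by omega) (by omega) (by omega)
            (fun m ha hb => hφ m (by omega) (by omega)),
          ind_one (x := x1) (by omega), ind_zero (x := x2) (by omega)]
        simp [e1, e2]
    · -- all in b
      have e1 : sep (cons a b) s x2 x3 x1 ↔ sep b (s + sz a + 2) x2 x3 x1 := by
        rw [sep_cons]
        have ha : ¬ sep a (s + 1) x2 x3 x1 := not_sep (by simp only [Out]; omega)
        constructor
        · rintro (h | h | h)
          · omega
          · exact absurd h ha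
          · exact h
        · exact fun h => Or.inr (Or.inr h)
      have e2 : sep (cons a b) s x1 x2 x3 ↔ sep b (s + sz a + 2) x1 x2 x3 := by
        rw [sep_cons]
        have ha : ¬ sep a (s + 1) x1 x2 x3 := not_sep (by simp only [Out]; omega)
        constructor
        · rintro (h | h | h)
          · omega
          · exact absurd h ha
          · exact h
        · exact fun h => Or.inr (Or.inr h)
      rw [SS_zero (F := a) (fun m ha hb => by
            rw [hφ m (by omega) (by omega)]; simp only [ph]
            rw [if_pos (by omega)]),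
        PP_one (F := a) (Or.inl (by simp only [Out]; omega)),
        ihb (by omega) (by omega) (fun m ha hb => hφ m (by omega) (by omega)),
        ind_zero (x := x1) (by omega), ind_zero (x := x2) (by omega)]
      simp [e1, e2]

end Crest.Agent.R158.Vt300
end

-- ▼ part R158/Vt3_300
section

/-!
# R158 block V: (A1) of doc 1777 for the two other positions of the leg
-/

namespace Crest.Agent.R158.Vt300

open NC

/-- reduction of `sep` to the left part -/
lemma sep_left {a b : NC} {s x y z : ℕ}
    (h0 : ¬ ((s < x ∧ x ≤ s + sz a + 1) ∧ (s < y ∧ y ≤ s + sz a + 1) ∧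
      ¬ (s < z ∧ z ≤ s + sz a + 1)))
    (hb : Out x b (s + sz a + 2) ∨ Out y b (s + sz a + 2)) :
    sep (cons a b) s x y z ↔ sep a (s + 1) x y z := by
  rw [sep_cons]
  have hb' : ¬ sep b (s + sz a + 2) x y z := not_sep hb
  tauto

/-- reduction of `sep` to the right part -/
lemma sep_right {a b : NC} {s x y z : ℕ}
    (h0 : ¬ ((s < x ∧ x ≤ s + sz a + 1) ∧ (s < y ∧ y ≤ s + sz a + 1) ∧
      ¬ (s < z ∧ z ≤ s + sz a + 1)))
    (ha : Out x a (s + 1) ∨ Out y a (s + 1)) :
    sep (cons a b) s x y z ↔ sep b (s + sz a + 2) x y z := by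
  rw [sep_cons]
  have ha' : ¬ sep a (s + 1) x y z := not_sep ha
  tauto

lemma sep_none {a b : NC} {s x y z : ℕ}
    (h0 : ¬ ((s < x ∧ x ≤ s + sz a + 1) ∧ (s < y ∧ y ≤ s + sz a + 1) ∧
      ¬ (s < z ∧ z ≤ s + sz a + 1)))
    (ha : Out x a (s + 1) ∨ Out y a (s + 1))
    (hb : Out x b (s + sz a + 2) ∨ Out y b (s + sz a + 2)) :
    ¬ sep (cons a b) s x y z := by
  rw [sep_right h0 ha]; exact not_sep hb

/-- low weight: `2` below `x3`, `1` at `x3`, `0` above -/
def pl (x3 m : ℕ) : ℤ := if m < x3 then 2 else if m = x3 then 1 else 0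

lemma pl_lo {x3 m : ℕ} (h : m < x3) : pl x3 m = 2 := if_pos h
lemma pl_eq {x3 m : ℕ} (h : m = x3) : pl x3 m = 1 := by simp [pl, h]
lemma pl_hi {x3 m : ℕ} (h : x3 < m) : pl x3 m = 0 := by
  unfold pl; rw [if_neg (by omega), if_neg (by omega)]

/-- `x3 ≤ x1` inside, `x2` in no arc -/
lemma SS_31 {φ : ℕ → ℤ} {x1 x2 x3 : ℕ} {F : NC} {s : ℕ}
    (h2 : Out x2 F s) (h3 : s ≤ x3) (h31 : x3 ≤ x1) (h1' : x1 ≤ s + sz F)
    (hφ : ∀ m, s ≤ m → m ≤ s + sz F → φ m = pl x3 m) :
    SS φ x1 x2 F s = if sep F s x3 x1 x2 then 2 else 1 := by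
  induction F generalizing s with
  | nil =>
    simp only [sz] at h1'
    rw [show SS φ x1 x2 nil s = φ s from rfl, hφ s le_rfl (by simp), pl_eq (by omega)]
    simp [sep, arcs]
  | cons a b iha ihb =>
    have hPa : PP x1 x2 a (s + 1) = 1 := PP_one (Or.inr (by simp only [Out, sz] at *; omega))
    have hPb : PP x1 x2 b (s + sz a + 2) = 1 :=
      PP_one (Or.inr (by simp only [Out, sz] at *; omega))
    simp only [Out, sz] at h2 h1' hφ iha ihb
    have hi2 : ind x2 (s, s + sz a + 1) = 0 := ind_zero (by omega)
    have hs := hφ s le_rfl (by omega)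
    simp only [SS, hPa, hPb, hi2, hs]
    rcases tri h3 (show x3 ≤ s + (sz a + sz b + 2) by omega) with h | h | h
    · -- x3 = s
      have ea : SS φ x1 x2 a (s + 1) = 0 := SS_zero (fun m ha hb => by
        rw [hφ m (by omega) (by omega), pl_hi (by omega)])
      have eb : SS φ x1 x2 b (s + sz a + 2) = 0 := SS_zero (fun m ha hb => by
        rw [hφ m (by omega) (by omega), pl_hi (by omega)])
      have e1 : ¬ sep (cons a b) s x3 x1 x2 := not_sep (Or.inl (Or.inl (by omega)))
      rw [ea, eb, if_neg e1, pl_eq (by omega)]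
      by_cases h4 : s < x1 ∧ x1 ≤ s + sz a + 1
      · rw [ind_one h4]; simp
      · rw [ind_zero h4]; simp
    · have eb : SS φ x1 x2 b (s + sz a + 2) = 0 := SS_zero (fun m ha hb => by
        rw [hφ m (by omega) (by omega), pl_hi (by omega)])
      rcases tri (show s ≤ x1 by omega) h1' with h' | h' | h'
      · omega
      · have e1 : sep (cons a b) s x3 x1 x2 := sep_cons.2 (Or.inl ⟨by omega, by omega, by omega⟩)
        rw [eb, pl_lo (by omega), ind_one (x := x1) (by omega), if_pos e1]
        simp
      · have ea : SS φ x1 x2 a (s + 1) = 1 := SS_3 (x3 := x3) (by simp only [Out]; omega)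
          (by simp only [Out]; omega) (by omega) (by omega)
          (fun m ha hb => by rw [hφ m (by omega) (by omega)]; rfl)
        have e1 : ¬ sep (cons a b) s x3 x1 x2 := sep_none (by omega)
          (by simp only [Out]; omega) (by simp only [Out]; omega)
        rw [ea, eb, pl_lo (by omega), ind_zero (x := x1) (by omega), if_neg e1]
        simp
    · have ea : SS φ x1 x2 a (s + 1) = 2 := SS_const (by simp only [Out]; omega)
        (by simp only [Out]; omega) (fun m ha hb => by
          rw [hφ m (by omega) (by omega), pl_lo (by omega)])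
      have e1 : sep (cons a b) s x3 x1 x2 ↔ sep b (s + sz a + 2) x3 x1 x2 :=
        sep_right (by omega) (by simp only [Out]; omega)
      rw [ea, ihb (by omega) (by omega) (by omega) (fun m ha hb => hφ m (by omega) (by omega)),
        pl_lo (by omega), ind_zero (x := x1) (by omega)]
      simp [e1]

/-- `x2 ≤ x3 ≤ x1` all inside -/
theorem SS_231 {φ : ℕ → ℤ} {x1 x2 x3 : ℕ} {F : NC} {s : ℕ}
    (h2 : s ≤ x2) (h23 : x2 ≤ x3) (h31 : x3 ≤ x1) (h1' : x1 ≤ s + sz F)
    (hφ : ∀ m, s ≤ m → m ≤ s + sz F → φ m = ph x2 x3 m) :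
    SS φ x1 x2 F s = if sep F s x2 x3 x1 then 0 else if sep F s x3 x1 x2 then 2 else 1 := by
  induction F generalizing s with
  | nil =>
    simp only [sz] at h1'
    rw [show SS φ x1 x2 nil s = φ s from rfl, hφ s le_rfl (by simp)]
    simp [ph, sep, arcs, show x2 = s by omega, show x3 = s by omega]
  | cons a b iha ihb =>
    by_cases hx2 : x2 ≤ s
    · rw [if_neg (not_sep (Or.inl (Or.inl hx2)) : ¬ sep (cons a b) s x2 x3 x1)]
      exact SS_31 (Or.inl hx2) (by omega) h31 h1' (fun m ha hb => by
        rw [hφ m ha hb]; simp only [ph, pl]; rw [if_neg (by omega)])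
    simp only [sz] at h1' hφ iha ihb
    have hs : φ s = 0 := by rw [hφ s le_rfl (by omega)]; simp only [ph]; rw [if_pos (by omega)]
    simp only [SS, hs]
    rcases tri h2 (show x2 ≤ s + (sz a + sz b + 2) by omega) with h | h | h
    · omega
    · rcases tri (show s ≤ x3 by omega) (show x3 ≤ s + (sz a + sz b + 2) by omega) with h' | h' | h'
      · omega
      · rcases tri (show s ≤ x1 by omega) h1' with h'' | h'' | h''
        · omega
        · -- all in a
          have e1 : sep (cons a b) s x2 x3 x1 ↔ sep a (s + 1) x2 x3 x1 :=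
            sep_left (by omega) (by simp only [Out]; omega)
          have e2 : sep (cons a b) s x3 x1 x2 ↔ sep a (s + 1) x3 x1 x2 :=
            sep_left (by omega) (by simp only [Out]; omega)
          have hPb : PP x1 x2 b (s + sz a + 2) = 1 := PP_one (by simp only [Out]; omega)
          rw [iha (by omega) (by omega) (fun m ha hb => hφ m (by omega) (by omega)), hPb,
            ind_one (x := x1) (by omega), ind_one (x := x2) (by omega)]
          simp [e1, e2]
        · -- x2, x3 in a, x1 in b
          have e1 : sep (cons a b) s x2 x3 x1 := sep_cons.2 (Or.inl ⟨by omega, by omega, by omega⟩)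
          have eb : SS φ x1 x2 b (s + sz a + 2) = 0 := SS_zero (fun m ha hb => by
            rw [hφ m (by omega) (by omega)]; simp only [ph]
            rw [if_neg (by omega), if_neg (by omega), if_neg (by omega)])
          rw [eb, ind_zero (x := x1) (by omega), ind_one (x := x2) (by omega), if_pos e1]
          simp
      · -- x2 in a, x3, x1 in b
        have e1 : ¬ sep (cons a b) s x2 x3 x1 := sep_none (by omega)
          (by simp only [Out]; omega) (by simp only [Out]; omega)
        have e2 : sep (cons a b) s x3 x1 x2 ↔ sep b (s + sz a + 2) x3 x1 x2 :=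
          sep_right (by omega) (by simp only [Out]; omega)
        have hPa : PP x1 x2 a (s + 1) = 1 := PP_one (by simp only [Out]; omega)
        have eb : SS φ x1 x2 b (s + sz a + 2) =
            if sep b (s + sz a + 2) x3 x1 x2 then 2 else 1 :=
          SS_31 (by simp only [Out]; omega) (by omega) (by omega) (by omega)
            (fun m ha hb => by
              rw [hφ m (by omega) (by omega)]; simp only [ph, pl]; rw [if_neg (by omega)])
        rw [eb, hPa, ind_zero (x := x1) (by omega), ind_one (x := x2) (by omega), if_neg e1]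
        simp [e2]
    · -- all in b
      have e1 : sep (cons a b) s x2 x3 x1 ↔ sep b (s + sz a + 2) x2 x3 x1 :=
        sep_right (by omega) (by simp only [Out]; omega)
      have e2 : sep (cons a b) s x3 x1 x2 ↔ sep b (s + sz a + 2) x3 x1 x2 :=
        sep_right (by omega) (by simp only [Out]; omega)
      have ea : SS φ x1 x2 a (s + 1) = 0 := SS_zero (fun m ha hb => by
            rw [hφ m (by omega) (by omega)]; simp only [ph]
            rw [if_pos (by omega)])
      have hPa : PP x1 x2 a (s + 1) = 1 := PP_one (by simp only [Out]; omega)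
      rw [ea, hPa, ihb (by omega) (by omega) (fun m ha hb => hφ m (by omega) (by omega)),
        ind_zero (x := x1) (by omega), ind_zero (x := x2) (by omega)]
      simp [e1, e2]

/-- `x3 ≤ x1 ≤ x2` all inside, low sum -/
theorem SS_312 {φ : ℕ → ℤ} {x1 x2 x3 : ℕ} {F : NC} {s : ℕ}
    (h3 : s ≤ x3) (h31 : x3 ≤ x1) (h12 : x1 ≤ x2) (h2' : x2 ≤ s + sz F)
    (hφ : ∀ m, s ≤ m → m ≤ s + sz F → φ m = pl x3 m) :
    SS φ x1 x2 F s = if sep F s x1 x2 x3 then 0 else if sep F s x3 x1 x2 then 2 else 1 := by
  induction F generalizing s with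
  | nil =>
    simp only [sz] at h2'
    rw [show SS φ x1 x2 nil s = φ s from rfl, hφ s le_rfl (by simp), pl_eq (by omega)]
    simp [sep, arcs]
  | cons a b iha ihb =>
    simp only [sz] at h2' hφ iha ihb
    have hs := hφ s le_rfl (by omega)
    rcases tri h3 (show x3 ≤ s + (sz a + sz b + 2) by omega) with h | h | h
    · -- x3 = s
      have ea : SS φ x1 x2 a (s + 1) = 0 := SS_zero (fun m ha hb => by
        rw [hφ m (by omega) (by omega), pl_hi (by omega)])
      have eb : SS φ x1 x2 b (s + sz a + 2) = 0 := SS_zero (fun m ha hb => by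
        rw [hφ m (by omega) (by omega), pl_hi (by omega)])
      have e2 : ¬ sep (cons a b) s x3 x1 x2 := not_sep (Or.inl (Or.inl (by omega)))
      have e3 : PP x1 x2 (cons a b) s = if sep (cons a b) s x1 x2 x3 then 0 else 1 :=
        PP_eq (Or.inl (by omega))
      simp only [PP] at e3
      simp only [SS, hs]
      rw [ea, eb, if_neg e2, pl_eq (by omega), e3]
      ring
    · have eb : SS φ x1 x2 b (s + sz a + 2) = 0 := SS_zero (fun m ha hb => by
        rw [hφ m (by omega) (by omega), pl_hi (by omega)])
      simp only [SS, hs]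
      rcases tri (show s ≤ x1 by omega) (show x1 ≤ s + (sz a + sz b + 2) by omega) with h' | h' | h'
      · omega
      · rcases tri (show s ≤ x2 by omega) h2' with h'' | h'' | h''
        · omega
        · -- all in a
          have e1 : sep (cons a b) s x1 x2 x3 ↔ sep a (s + 1) x1 x2 x3 :=
            sep_left (by omega) (by simp only [Out]; omega)
          have e2 : sep (cons a b) s x3 x1 x2 ↔ sep a (s + 1) x3 x1 x2 :=
            sep_left (by omega) (by simp only [Out]; omega)
          have hPb : PP x1 x2 b (s + sz a + 2) = 1 := PP_one (by simp only [Out]; omega)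
          rw [iha (by omega) (by omega) (fun m ha hb => hφ m (by omega) (by omega)), eb, hPb,
            ind_one (x := x1) (by omega), ind_one (x := x2) (by omega)]
          simp [e1, e2]
        · -- x3, x1 in a, x2 in b
          have e1 : ¬ sep (cons a b) s x1 x2 x3 := sep_none (by omega)
            (by simp only [Out]; omega) (by simp only [Out]; omega)
          have e2 : sep (cons a b) s x3 x1 x2 := sep_cons.2 (Or.inl ⟨by omega, by omega, by omega⟩)
          have hPa : PP x1 x2 a (s + 1) = 1 := PP_one (by simp only [Out]; omega)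
          have hPb : PP x1 x2 b (s + sz a + 2) = 1 := PP_one (by simp only [Out]; omega)
          rw [eb, hPa, hPb, ind_one (x := x1) (by omega), ind_zero (x := x2) (by omega),
            if_neg e1, if_pos e2, pl_lo (by omega)]
          simp
      · -- x3 in a, x1, x2 in b
        have e1 : sep (cons a b) s x1 x2 x3 ↔ sep b (s + sz a + 2) x1 x2 x3 :=
          sep_right (by omega) (by simp only [Out]; omega)
        have e2 : ¬ sep (cons a b) s x3 x1 x2 := sep_none (by omega)
            (by simp only [Out]; omega) (by simp only [Out]; omega)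
        have hPa : PP x1 x2 a (s + 1) = 1 := PP_one (by simp only [Out]; omega)
        have hPb : PP x1 x2 b (s + sz a + 2) = if sep b (s + sz a + 2) x1 x2 x3 then 0 else 1 :=
          PP_eq (Or.inl (by omega))
        have ea : SS φ x1 x2 a (s + 1) = 1 := SS_3 (x3 := x3) (by simp only [Out]; omega)
          (by simp only [Out]; omega) (by omega) (by omega)
          (fun m ha hb => by rw [hφ m (by omega) (by omega)]; rfl)
        rw [ea, eb, hPa, hPb, ind_zero (x := x1) (by omega), ind_zero (x := x2) (by omega),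
            if_neg e2, pl_lo (by omega)]
        by_cases h5 : sep b (s + sz a + 2) x1 x2 x3 <;> simp [e1, h5]
    · -- all in b
      have e1 : sep (cons a b) s x1 x2 x3 ↔ sep b (s + sz a + 2) x1 x2 x3 :=
        sep_right (by omega) (by simp only [Out]; omega)
      have e2 : sep (cons a b) s x3 x1 x2 ↔ sep b (s + sz a + 2) x3 x1 x2 :=
        sep_right (by omega) (by simp only [Out]; omega)
      have ea : SS φ x1 x2 a (s + 1) = 2 := SS_const (by simp only [Out]; omega)
        (by simp only [Out]; omega) (fun m ha hb => by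
          rw [hφ m (by omega) (by omega), pl_lo (by omega)])
      have hPa : PP x1 x2 a (s + 1) = 1 := PP_one (by simp only [Out]; omega)
      simp only [SS, hs]
      rw [ea, hPa, ihb (by omega) (by omega) (fun m ha hb => hφ m (by omega) (by omega)),
        ind_zero (x := x1) (by omega), ind_zero (x := x2) (by omega), pl_lo (by omega)]
      simp only [e1, e2]
      simp

end Crest.Agent.R158.Vt300
end

-- ▼ part R158/Vt4_300

/-!
# R158 block V: (A1) of doc 1777, complex form; non-crossing involutions and Catalan trees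
-/

namespace Crest.Agent.R158.Vt300

open NC Finset

/-! ### complex form of (A1) -/

/-- the vertex `v₂ = e^{iπ/3}` -/
noncomputable def v2 : ℂ := Complex.exp (Complex.I * (Real.pi / 3))

lemma v2_eq : v2 = 1 / 2 + (Real.sqrt 3 / 2 : ℝ) * Complex.I := by
  have h : Complex.I * (Real.pi / 3) = ((Real.pi / 3 : ℝ) : ℂ) * Complex.I := by
    push_cast; ring
  rw [v2, h, Complex.exp_mul_I, ← Complex.ofReal_cos, ← Complex.ofReal_sin,
    Real.cos_pi_div_three, Real.sin_pi_div_three]
  push_cast; ring

lemma v2_sq : v2 ^ 2 = v2 - 1 := by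
  have h3 : ((Real.sqrt 3 : ℝ) : ℂ) ^ 2 = 3 := by
    rw [← Complex.ofReal_pow, Real.sq_sqrt (by norm_num)]; norm_num
  rw [v2_eq]
  push_cast
  linear_combination (1 / 4) * Complex.I ^ 2 * h3 + (3 / 4) * Complex.I_sq


lemma wz_cos {k : ℤ} (h : -2 ≤ k ∧ k ≤ 2) :
    Real.cos (Real.pi / 6 - k * (Real.pi / 3)) / Real.cos (Real.pi / 6) = wz k := by
  have h3 : Real.sqrt 3 ≠ 0 := by positivity
  have hk : k = -2 ∨ k = -1 ∨ k = 0 ∨ k = 1 ∨ k = 2 := by omega
  rcases hk with rfl | rfl | rfl | rfl | rfl
  · rw [show Real.pi / 6 - ((-2 : ℤ) : ℝ) * (Real.pi / 3) = Real.pi - Real.pi / 6 by push_cast; ring,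
      Real.cos_pi_sub, Real.cos_pi_div_six]
    simp only [wz_m2]; push_cast; field_simp
  · rw [show Real.pi / 6 - ((-1 : ℤ) : ℝ) * (Real.pi / 3) = Real.pi / 2 by push_cast; ring,
      Real.cos_pi_div_two]
    simp
  · rw [show Real.pi / 6 - ((0 : ℤ) : ℝ) * (Real.pi / 3) = Real.pi / 6 by push_cast; ring,
      Real.cos_pi_div_six]
    simp only [wz_0]; push_cast; field_simp
  · rw [show Real.pi / 6 - ((1 : ℤ) : ℝ) * (Real.pi / 3) = -(Real.pi / 6) by push_cast; ring,
      Real.cos_neg, Real.cos_pi_div_six]
    simp only [wz_1]; push_cast; field_simp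
  · rw [show Real.pi / 6 - ((2 : ℤ) : ℝ) * (Real.pi / 3) = -(Real.pi / 2) by push_cast; ring,
      Real.cos_neg, Real.cos_pi_div_two]
    simp

lemma sum_ph {x2 x3 n : ℕ} (h23 : x2 ≤ x3) (h3 : x3 ≤ n) (f : ℕ → ℤ) :
    ∑ m ∈ Icc 0 (0 + n), ph x2 x3 m * f m = 2 * ∑ m ∈ Icc x2 x3, f m - f x3 := by
  rw [zero_add, mul_sum]
  have h1 : ∑ m ∈ Icc 0 n, ph x2 x3 m * f m = ∑ m ∈ Icc x2 x3, ph x2 x3 m * f m := by
    symm
    apply sum_subset
    · intro t; simp only [mem_Icc]; omega
    · intro t ht ht'
      simp only [mem_Icc] at ht ht'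
      simp only [ph]
      by_cases h : t < x2
      · simp [h]
      · rw [if_neg h, if_neg (by omega), if_neg (by omega)]; simp
  have h2 : ∑ m ∈ Icc x2 x3, ph x2 x3 m * f m = ∑ m ∈ Icc x2 x3, (2 * f m - if m = x3 then f x3 else 0) := by
    apply sum_congr rfl
    intro t ht
    simp only [mem_Icc] at ht
    simp only [ph]
    rw [if_neg (by omega)]
    by_cases h : t = x3
    · subst h; simp; ring
    · rw [if_pos (by omega), if_neg h]; ring
  rw [h1, h2, sum_sub_distrib]
  simp [h23]

lemma sum_pl {x3 n : ℕ} (h3 : x3 ≤ n) (f : ℕ → ℤ) :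
    ∑ m ∈ Icc 0 (0 + n), pl x3 m * f m = 2 * ∑ m ∈ Icc 0 x3, f m - f x3 := by
  rw [← sum_ph (x2 := 0) (Nat.zero_le _) h3 f]
  apply sum_congr rfl
  intro t _
  simp [ph, pl]

lemma sum_up {x2 n : ℕ} (h2 : x2 ≤ n) (f : ℕ → ℤ) :
    ∑ m ∈ Icc 0 (0 + n), (if m < x2 then 0 else 2) * f m = 2 * ∑ m ∈ Icc x2 n, f m := by
  rw [zero_add, mul_sum]
  symm
  have h1 : ∑ m ∈ Icc x2 n, 2 * f m = ∑ m ∈ Icc x2 n, (if m < x2 then 0 else 2) * f m := by
    apply sum_congr rfl
    intro t ht
    simp only [mem_Icc] at ht
    rw [if_neg (by omega)]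
  rw [h1]
  apply sum_subset
  · intro t; simp only [mem_Icc]; omega
  · intro t ht ht'
    simp only [mem_Icc] at ht ht'
    rw [if_pos (by omega)]; simp

/-- (A1), leg in `(x3, x1)`: linear order `y1 ≤ y2 ≤ y3` seen from the leg. -/
theorem A1_31 {y1 y2 y3 : ℕ} {F : NC} (h12 : y1 ≤ y2) (h23 : y2 ≤ y3) (h3 : y3 ≤ sz F) :
    (∑ m ∈ Icc y2 y3, (hh y1 y2 m F 0 : ℂ)) - hh y1 y2 y3 F 0 / 2 =
      if sep F 0 y2 y3 y1 then 0 else if sep F 0 y1 y2 y3 then 1 else 1 / 2 := by
  have h := SS_123 (φ := ph y2 y3) (F := F) (s := 0) (Nat.zero_le _) h12 h23 (by omega)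
    (fun m _ _ => rfl)
  rw [SS_eq, sum_ph h23 h3] at h
  have h' := congrArg (fun z : ℤ => (z : ℂ)) h
  push_cast at h'
  have h4 : (∑ m ∈ Icc y2 y3, (hh y1 y2 m F 0 : ℂ)) - hh y1 y2 y3 F 0 / 2 =
      (2 * ∑ m ∈ Icc y2 y3, (hh y1 y2 m F 0 : ℂ) - hh y1 y2 y3 F 0) / 2 := by ring
  rw [h4, h']
  split_ifs <;> norm_num

/-- (A1), leg in `(x1, x2)`: linear order `y2 ≤ y3 ≤ y1` seen from the leg. -/
theorem A1_12 {y1 y2 y3 : ℕ} {F : NC} (h23 : y2 ≤ y3) (h31 : y3 ≤ y1) (h1 : y1 ≤ sz F) :
    v2 * ((∑ m ∈ Icc y2 y3, (hh y1 y2 m F 0 : ℂ)) - hh y1 y2 y3 F 0 / 2) =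
      if sep F 0 y2 y3 y1 then 0 else if sep F 0 y3 y1 y2 then v2 else v2 / 2 := by
  have h := SS_231 (φ := ph y2 y3) (F := F) (s := 0) (Nat.zero_le _) h23 h31 (by omega)
    (fun m _ _ => rfl)
  rw [SS_eq, sum_ph h23 (by omega)] at h
  have h' := congrArg (fun z : ℤ => (z : ℂ)) h
  push_cast at h'
  have h4 : (∑ m ∈ Icc y2 y3, (hh y1 y2 m F 0 : ℂ)) - hh y1 y2 y3 F 0 / 2 =
      (2 * ∑ m ∈ Icc y2 y3, (hh y1 y2 m F 0 : ℂ) - hh y1 y2 y3 F 0) / 2 := by ring
  rw [h4, h']
  split_ifs <;> ring

/-- (A1), leg in `(x2, x3)`: linear order `y3 ≤ y1 ≤ y2` seen from the leg. -/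
theorem A1_23 {y1 y2 y3 : ℕ} {F : NC} (h31 : y3 ≤ y1) (h12 : y1 ≤ y2) (h2 : y2 ≤ sz F) :
    (∑ m ∈ Icc y2 (sz F), (hh y1 y2 m F 0 : ℂ)) +
      (v2 - 1) * ((∑ m ∈ Icc 0 y3, (hh y1 y2 m F 0 : ℂ)) - hh y1 y2 y3 F 0 / 2) =
      if sep F 0 y1 y2 y3 then 1 else if sep F 0 y3 y1 y2 then v2 else (v2 + 1) / 2 := by
  have h := SS_312 (φ := pl y3) (F := F) (s := 0) (Nat.zero_le _) h31 h12 (by omega)
    (fun m _ _ => rfl)
  rw [SS_eq, sum_pl (by omega)] at h
  have hu := SS_12 (φ := fun m => if m < y2 then 0 else 2) (F := F) (s := 0) (Nat.zero_le _)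
    h12 (by omega) (fun m _ _ => rfl)
  rw [SS_eq, sum_up (by omega)] at hu
  have h' := congrArg (fun z : ℤ => (z : ℂ)) h
  have hu' := congrArg (fun z : ℤ => (z : ℂ)) hu
  push_cast at h' hu'
  have h4 : (∑ m ∈ Icc 0 y3, (hh y1 y2 m F 0 : ℂ)) - hh y1 y2 y3 F 0 / 2 =
      (2 * ∑ m ∈ Icc 0 y3, (hh y1 y2 m F 0 : ℂ) - hh y1 y2 y3 F 0) / 2 := by ring
  have h5 : (∑ m ∈ Icc y2 (sz F), (hh y1 y2 m F 0 : ℂ)) = 1 := by
    linear_combination (1 / 2) * hu'
  rw [h4, h', h5]
  split_ifs <;> ring

/-! ### non-crossing involutions -/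

/-- `π` is a non-crossing perfect matching of `[s, s + n)` -/
structure NCM (π : ℕ → ℕ) (s n : ℕ) : Prop where
  mem : ∀ i, s ≤ i → i < s + n → s ≤ π i ∧ π i < s + n
  ne : ∀ i, s ≤ i → i < s + n → π i ≠ i
  inv : ∀ i, s ≤ i → i < s + n → π (π i) = i
  nc : ∀ i j, s ≤ i → i < j → j < π i → π i < s + n → i < π j ∧ π j < π i

/-- every non-crossing perfect matching of an interval comes from a Catalan tree -/
theorem NCM.exists_tree {π : ℕ → ℕ} {s n : ℕ} (h : NCM π s n) :
    ∃ F : NC, sz F = n ∧
      (∀ e : ℕ × ℕ, e ∈ F.arcs s ↔ s ≤ e.1 ∧ e.1 < e.2 ∧ e.2 < s + n ∧ π e.1 = e.2) ∧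
      (∀ f : ℕ × ℕ → ℤ, ((F.arcs s).map f).prod =
        ∏ i ∈ (Ico s (s + n)).filter (fun i => i < π i), f (i, π i)) := by
  induction n using Nat.strong_induction_on generalizing s with
  | _ n ih =>
    rcases Nat.eq_zero_or_pos n with rfl | hn
    · refine ⟨nil, rfl, ?_, ?_⟩
      · intro e; simp only [arcs, List.not_mem_nil, false_iff]; omega
      · intro f; simp [arcs]
    · have hs := h.mem s le_rfl (by omega)
      have hne := h.ne s le_rfl (by omega)
      have hinv := h.inv s le_rfl (by omega)
      set j := π s with hj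
      have hsj : s < j := by omega
      -- inner part
      have inj : ∀ i, s < i → i < j → s < π i ∧ π i < j := fun i h1 h2 =>
        h.nc s i le_rfl h1 (by omega) (by omega)
      have hA : NCM π (s + 1) (j - s - 1) := by
        refine ⟨fun i h1 h2 => ?_, fun i h1 h2 => h.ne i (by omega) (by omega),
          fun i h1 h2 => h.inv i (by omega) (by omega),
          fun i k h1 h2 h3 h4 => h.nc i k (by omega) h2 h3 (by omega)⟩
        have := inj i (by omega) (by omega)
        omega
      have hB : NCM π (j + 1) (s + n - j - 1) := by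
        refine ⟨fun i h1 h2 => ?_, fun i h1 h2 => h.ne i (by omega) (by omega),
          fun i h1 h2 => h.inv i (by omega) (by omega),
          fun i k h1 h2 h3 h4 => h.nc i k (by omega) h2 h3 (by omega)⟩
        have hm := h.mem i (by omega) (by omega)
        have hi := h.inv i (by omega) (by omega)
        have h3 : π i ≠ s := by intro h3; rw [h3] at hi; omega
        have h4 : π i ≠ j := by intro h4; rw [h4] at hi; omega
        have h5 : ¬ (s < π i ∧ π i < j) := by
          rintro ⟨h5, h6⟩
          have := inj (π i) h5 h6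
          omega
        omega
      obtain ⟨a, ha1, ha2, ha3⟩ := ih (j - s - 1) (by omega) hA
      obtain ⟨b, hb1, hb2, hb3⟩ := ih (s + n - j - 1) (by omega) hB
      have e1 : s + sz a + 1 = j := by omega
      have e2 : s + sz a + 2 = j + 1 := by omega
      refine ⟨cons a b, by simp only [sz]; omega, ?_, ?_⟩
      · intro e
        simp only [arcs, e1, e2, List.mem_cons, List.mem_append, ha2, hb2]
        constructor
        · rintro (rfl | h1 | h1)
          · exact ⟨le_rfl, hsj, by omega, hj.symm⟩
          · exact ⟨by omega, h1.2.1, by omega, h1.2.2.2⟩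
          · exact ⟨by omega, h1.2.1, by omega, h1.2.2.2⟩
        · rintro ⟨h1, h2, h3, h4⟩
          rcases Nat.lt_or_ge s e.1 with h5 | h5
          · right
            rcases Nat.lt_trichotomy e.1 j with h6 | h6 | h6
            · left
              have := inj e.1 h5 h6
              exact ⟨by omega, h2, by omega, h4⟩
            · rw [h6] at h4; omega
            · right
              exact ⟨by omega, h2, by omega, h4⟩
          · left
            have h6 : e.1 = s := by omega
            ext
            · exact h6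
            · rw [← h4, h6]
      · intro f
        have hsplit : (Ico s (s + n)).filter (fun i => i < π i) =
            insert s ((Ico (s + 1) (s + 1 + (j - s - 1))).filter (fun i => i < π i) ∪
              (Ico (j + 1) (j + 1 + (s + n - j - 1))).filter (fun i => i < π i)) := by
          ext t
          simp only [mem_filter, mem_Ico, mem_insert, mem_union]
          constructor
          · rintro ⟨⟨h1, h2⟩, h3⟩
            rcases Nat.lt_trichotomy t j with h6 | h6 | h6
            · by_cases h7 : t = s
              · exact Or.inl h7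
              · exact Or.inr (Or.inl ⟨by omega, h3⟩)
            · rw [h6, hinv] at h3; omega
            · exact Or.inr (Or.inr ⟨by omega, h3⟩)
          · rintro (h1 | ⟨h1, h2⟩ | ⟨h1, h2⟩)
            · subst h1; exact ⟨by omega, by omega⟩
            · exact ⟨by omega, h2⟩
            · exact ⟨by omega, h2⟩
        rw [hsplit, prod_insert, prod_union, ← ha3, ← hb3]
        · simp only [arcs, e1, e2, List.map_cons, List.map_append, List.prod_cons,
            List.prod_append]
          rw [← hj]
        · rw [disjoint_left]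
          intro t ht
          simp only [mem_filter, mem_Ico] at ht ⊢
          omega
        · simp only [mem_union, mem_filter, mem_Ico]
          omega

end Crest.Agent.R158.Vt300
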