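import Crest.Agent.R158.Ao8_857

-- ▼ part R158/Ao9_857
section

/-!
# Row 158: compatibility with `beG`, canonical lists of the plain parts (helper857)

* `seamG`, `chG` : phases with `chG a - chG b = χ` for every glueing, `chG q = φ q` for every cut end
* `OpOk be ch o`
* `bandOps_ok`, `joinLow_ok`, `joinUp_ok`


-/

set_option autoImplicit false

noncomputable section

open Finset Matrix

namespace Crest.Agent.R158.Ao857

open Crest.Agent.R158.Ad350
open Crest.Agent.R158.Sw300 (Port)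
open Crest.Agent.R158.Bd932 (e3)
open Crest.Agent.R158.Env664 (TG Band Run PortOf portOf_some portOf_none nbP res res_of Adj4 z4)

variable {A : Finset (ℤ × ℤ)} (B : Band A)

/-- seamG phases -/
def seamG (p y0 : ℤ) (c c' : ℝ) : Port TG → ℝ
  | none => 0
  | some (Sum.inl (x, y), d) =>
      if d = 0 ∧ x = B.xl ∧ B.y1 ≤ y ∧ y < B.y2 then (if y < y0 then c else c')
      else if d = 1 ∧ y = y0 - 1 ∧ B.xl ≤ x ∧ x < p then -e3 else 0
  | some (Sum.inr _, _) => 0

/-- phases of the ports of `G^(z)` -/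
def chG (p y0 : ℤ) (c c' : ℝ) (φ : Port TG → ℝ) (q : Port TG) : ℝ :=
  if B.beG p y0 q = q then φ q else seamG B p y0 c c' q

/-- compatibility of an operation with a glueing map and port phases -/
def OpOk (be : Port TG → Port TG) (ch : Port TG → ℝ) : Op (Port TG) → Prop
  | Sum.inl e => be e.2.1 = e.2.2 ∧ be e.2.2 = e.2.1 ∧ ch e.2.1 - ch e.2.2 = e.1
  | Sum.inr e => be e.2 = e.2 ∧ ch e.2 = e.1

lemma band_sub {p y0 : ℤ} (h : B.At p y0) {t : TG} (ht : t ∈ bandM B y0) : t ∈ B.tG y0 := by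
  rcases t with ⟨x, y⟩ | ⟨i, y⟩
  · rw [inl_mem_band B h] at ht
    rw [B.inl_mem]
    exact (B.run y ht.2.2.1 ht.2.2.2).mem x ht.1 ht.2.1
  · rw [inr_mem_band B h] at ht
    rw [B.inr_mem]
    exact ht

lemma beG_of {p y0 : ℤ} (h : B.At p y0) {s t : TG} {d d' : ZMod 4} (hs : s ∈ B.tG y0)
    (ht : t ∈ B.tG y0) (hn : B.nbG p y0 (some (s, d)) = some (t, d')) :
    B.beG p y0 (some (s, d)) = some (t, d') ∧ B.beG p y0 (some (t, d')) = some (s, d) := by
  have h1 : B.beG p y0 (some (s, d)) = some (t, d') := by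
    unfold Band.beG
    rw [res_of (portOf_some.2 hs) (by rw [hn]; exact portOf_some.2 ht), hn]
  refine ⟨h1, ?_⟩
  rw [← h1, B.beG_invol h]

lemma beG_fix {p y0 : ℤ} {s t : TG} {d d' : ZMod 4}
    (hn : B.nbG p y0 (some (s, d)) = some (t, d')) (ht : t ∉ B.tG y0) :
    B.beG p y0 (some (s, d)) = some (s, d) := by
  unfold Band.beG res
  rw [if_neg]
  rintro ⟨-, h2⟩
  rw [hn] at h2
  exact ht (portOf_some.1 h2)

lemma ok_glue {p y0 : ℤ} {c c' : ℝ} {φ : Port TG → ℝ} {χ : ℝ} {a b : Port TG} (hab : a ≠ b)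
    (h : B.beG p y0 a = b ∧ B.beG p y0 b = a)
    (hs : seamG B p y0 c c' a - seamG B p y0 c c' b = χ) :
    OpOk (B.beG p y0) (chG B p y0 c c' φ) (Sum.inl (χ, a, b)) := by
  refine ⟨h.1, h.2, ?_⟩
  show chG B p y0 c c' φ a - chG B p y0 c c' φ b = χ
  unfold chG
  rw [if_neg (by rw [h.1]; exact hab.symm), if_neg (by rw [h.2]; exact hab), hs]

lemma ok_cut {p y0 : ℤ} {c c' : ℝ} {φ : Port TG → ℝ} {q : Port TG} (h : B.beG p y0 q = q) :
    OpOk (B.beG p y0) (chG B p y0 c c' φ) (Sum.inr (φ q, q)) := by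
  refine ⟨h, ?_⟩
  show chG B p y0 c c' φ q = φ q
  unfold chG
  rw [if_pos h]

lemma seamG_inl0 {p y0 x y : ℤ} {c c' : ℝ} {d : ZMod 4}
    (h1 : ¬ (d = 0 ∧ x = B.xl ∧ B.y1 ≤ y ∧ y < B.y2))
    (h2 : ¬ (d = 1 ∧ y = y0 - 1 ∧ B.xl ≤ x ∧ x < p)) :
    seamG B p y0 c c' (some (Sum.inl (x, y), d)) = 0 := by
  simp only [seamG]; rw [if_neg h1, if_neg h2]

lemma seamG_gI {p y0 y : ℤ} {c c' : ℝ} {i : ℕ} {d : ZMod 4}
    (h1 : (i : ℤ) ≤ B.xr - B.xl → ¬ (d = 0 ∧ B.xl + (i : ℤ) = B.xl ∧ B.y1 ≤ y ∧ y < B.y2))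
    (h2 : (i : ℤ) ≤ B.xr - B.xl → ¬ (d = 1 ∧ y = y0 - 1 ∧ B.xl ≤ B.xl + (i : ℤ) ∧
      B.xl + (i : ℤ) < p)) :
    seamG B p y0 c c' (some (gI B i y, d)) = 0 := by
  by_cases hi : (i : ℤ) ≤ B.xr - B.xl
  · rw [gI_le B hi]
    exact seamG_inl0 B (h1 hi) (h2 hi)
  · rw [gI_gt B hi]
    rfl

lemma seamG_W {p y0 x y : ℤ} {c c' : ℝ} (h1 : x = B.xl) (h2 : B.y1 ≤ y) (h3 : y < B.y2) :
    seamG B p y0 c c' (some (Sum.inl (x, y), 0)) = if y < y0 then c else c' := by
  unfold seamG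
  exact if_pos ⟨rfl, h1, h2, h3⟩

lemma seamG_N {p y0 x y : ℤ} {c c' : ℝ} (h1 : y = y0 - 1) (h2 : B.xl ≤ x) (h3 : x < p) :
    seamG B p y0 c c' (some (Sum.inl (x, y), 1)) = -e3 := by
  unfold seamG
  show (if (1 : ZMod 4) = 0 ∧ x = B.xl ∧ B.y1 ≤ y ∧ y < B.y2 then (if y < y0 then c else c')
      else if (1 : ZMod 4) = 1 ∧ y = y0 - 1 ∧ B.xl ≤ x ∧ x < p then -e3 else 0) = -e3
  rw [if_neg (fun h => absurd h.1 (by decide)), if_pos ⟨rfl, h1, h2, h3⟩]

lemma z01 : (0 : ZMod 4) ≠ 1 := by decide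
lemma z20 : (2 : ZMod 4) ≠ 0 := by decide
lemma z21 : (2 : ZMod 4) ≠ 1 := by decide
lemma z30 : (3 : ZMod 4) ≠ 0 := by decide
lemma z31 : (3 : ZMod 4) ≠ 1 := by decide
lemma z10 : (1 : ZMod 4) ≠ 0 := by decide
lemma z02 : (0 : ZMod 4) ≠ 2 := by decide

/-- the horizontal glueings of a ring row -/
lemma row_ok {p y0 : ℤ} (h : B.At p y0) {c c' : ℝ} {φ : Port TG → ℝ} {m : ℕ} {y : ℤ}
    (hy1 : B.y1 ≤ y) (hy2 : y < B.y2) (hm : (m : ℤ) = B.xr - B.xl + B.wd y0 y)
    (i : Fin (m + 1)) :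
    OpOk (B.beG p y0) (chG B p y0 c c' φ) (Sum.inl (if i = 0 then (if y < y0 then c else c') else 0,
      some (gI B i y, 0), some (gI B ((i - 1 : Fin (m + 1)) : ℕ) y, 2))) := by
  have hwd : B.wd y0 y = if y < y0 then B.R else B.R + 1 := rfl
  have hR := B.hR
  have hle := le_run B h
  have hn := nn_eq B h
  have hmem : ∀ j : ℕ, j ≤ m → gI B j y ∈ B.tG y0 := by
    intro j hj
    apply band_sub B h
    rw [gI_mem_band B h]
    by_cases hy : y < y0
    · rw [if_pos hy] at hwd; omega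
    · rw [if_neg hy] at hwd; omega
  have hi := i.2
  have hi1 := (i - 1 : Fin (m + 1)).2
  have hval : ((i - 1 : Fin (m + 1)) : ℕ) = if i = 0 then m else (i : ℕ) - 1 := Fin.coe_sub_one i
  have hwp : 0 < B.wd y0 y := B.wd_pos y0 y
  apply ok_glue
  · exact fun h => z02 (by have := congrArg (fun q => Option.map Prod.snd q) h; simpa using this)
  · apply beG_of B h (hmem _ (by omega)) (hmem _ (by omega))
    by_cases h0 : i = 0
    · rw [if_pos h0] at hval
      have hi0 : (i : ℕ) = 0 := by rw [h0]; rfl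
      rw [hval, hi0, gI_le B (by omega), gI_gt B (by omega),
        B.nbG_W1 ⟨by simp, hy1, hy2⟩]
      congr 3
      simp only [Prod.mk.injEq, and_true]
      omega
    · rw [if_neg h0] at hval
      have hi0 : (i : ℕ) ≠ 0 := fun e => h0 (Fin.ext e)
      rw [hval]
      by_cases h1 : ((i : ℕ) : ℤ) ≤ B.xr - B.xl
      · rw [gI_le B h1, gI_le B (by omega), B.nbG_W (by omega)]
        congr 3
        simp only [Prod.mk.injEq, and_true]
        omega
      · by_cases h2 : ((i : ℕ) : ℤ) = B.xr - B.xl + 1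
        · rw [gI_gt B h1, gI_le B (by omega)]
          have e1 : ((i : ℕ) : ℤ) - (B.xr - B.xl + 1) = 0 := by omega
          rw [e1, B.nbG_rW1]
          congr 3
          simp only [Prod.mk.injEq, and_true]
          omega
        · rw [gI_gt B h1, gI_gt B (by omega), B.nbG_rW (by omega)]
          congr 3
          simp only [Prod.mk.injEq, and_true]
          omega
  · have s2 : seamG B p y0 c c' (some (gI B ((i - 1 : Fin (m + 1)) : ℕ) y, 2)) = 0 :=
      seamG_gI B (fun _ h => z20 h.1) (fun _ h => z21 h.1)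
    rw [s2, sub_zero]
    by_cases h0 : i = 0
    · have hi0 : (i : ℕ) = 0 := by rw [h0]; rfl
      rw [if_pos h0, hi0, gI_le B (by omega), seamG_W B (by simp) hy1 hy2]
    · have hi0 : (i : ℕ) ≠ 0 := fun e => h0 (Fin.ext e)
      rw [if_neg h0]
      exact seamG_gI B (fun _ h => by have := h.2.1; omega) (fun _ h => z01 h.1)

theorem bandOps_ok {p y0 : ℤ} (h : B.At p y0) (c c' : ℝ) (φ : Port TG → ℝ) :
    ∀ o ∈ bandOps B p y0 c c', OpOk (B.beG p y0) (chG B p y0 c c' φ) o := by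
  have hn := nn_eq B h
  have ha := aa_eq B h
  have hb := bb_eq B h
  have hpp := pp_eq B h
  have hR := B.hR
  have hle := le_run B h
  have hy1 := h.hy1
  have hy2 := h.hy2
  have hp1 := h.hp1
  have hp2 := h.hp2
  intro o ho
  unfold bandOps at ho
  rw [List.map_map, List.mem_map] at ho
  obtain ⟨e, he, rfl⟩ := ho
  -- rows
  have hrow : ∀ {m : ℕ} {k : ℝ} {y : ℕ}, e ∈ rowL m k y → (y : ℤ) < B.y2 - B.y1 →
      (m : ℤ) = B.xr - B.xl + B.wd y0 (B.y1 + y) → k = (if B.y1 + (y : ℤ) < y0 then c else c') →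
      OpOk (B.beG p y0) (chG B p y0 c c' φ) ((Op.ren (tpm (gB B)) ∘ Sum.inl) e) := by
    intro m k y he hy hm hk
    obtain ⟨i, rfl⟩ := mem_rowL.1 he
    have := row_ok B h (c := c) (c' := c') (φ := φ) (m := m) (y := B.y1 + y) (by omega) (by omega)
      hm i
    rw [← hk] at this
    exact this
  have hver : ∀ {m : ℕ} {y : ℕ}, e ∈ verL m y → (y : ℤ) + 1 < B.y2 - B.y1 →
      B.y1 + (y : ℤ) ≠ y0 - 1 → (m : ℤ) = B.xr - B.xl + B.wd y0 (B.y1 + y) →
      OpOk (B.beG p y0) (chG B p y0 c c' φ) ((Op.ren (tpm (gB B)) ∘ Sum.inl) e) := by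
    intro m y he hy hyn hm
    obtain ⟨i, rfl⟩ := mem_verL.1 he
    have hwd : B.wd y0 (B.y1 + y) = if B.y1 + (y : ℤ) < y0 then B.R else B.R + 1 := rfl
    have hi := i.2
    have hmem : ∀ k : ℤ, (k = 0 ∨ k = 1) → gI B i (B.y1 + (y : ℤ) + k) ∈ B.tG y0 := by
      intro k hk
      apply band_sub B h
      rw [gI_mem_band B h]
      by_cases hy : B.y1 + (y : ℤ) < y0
      · rw [if_pos hy] at hwd; omega
      · rw [if_neg hy] at hwd; omega
    have e2 : B.y1 + ((y + 1 : ℕ) : ℤ) = B.y1 + (y : ℤ) + 1 := by push_cast; ring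
    show OpOk _ _ (Sum.inl (0, some (gI B i (B.y1 + (y : ℤ)), 1),
      some (gI B i (B.y1 + ((y + 1 : ℕ) : ℤ)), 3)))
    rw [e2]
    apply ok_glue
    · exact some_ne fun h => by have := h.2; exact absurd this (by decide)
    · apply beG_of B h (by simpa using hmem 0 (Or.inl rfl)) (hmem 1 (Or.inr rfl))
      by_cases h1 : ((i : ℕ) : ℤ) ≤ B.xr - B.xl
      · rw [gI_le B h1, gI_le B h1, B.nbG_N (by omega)]
      · rw [gI_gt B h1, gI_gt B h1, B.nbG_rN hyn]
    · rw [seamG_gI B (fun _ h => z10 h.1) (fun _ h => hyn h.2.1),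
        seamG_gI B (fun _ h => z30 h.1) (fun _ h => z31 h.1), sub_zero]
  rcases mem_bandL.1 he with h1 | h1 | h1
  · rcases mem_blockL.1 h1 with ⟨y, k1, k2, k3⟩ | ⟨y, k1, k2, k3⟩
    · have hy : B.y1 + (y : ℤ) < y0 := by omega
      have hwd : B.wd y0 (B.y1 + y) = B.R := if_pos hy
      exact hrow k3 (by omega) (by rw [hwd]; omega) (by rw [if_pos hy])
    · have hy : B.y1 + (y : ℤ) < y0 := by omega
      have hwd : B.wd y0 (B.y1 + y) = B.R := if_pos hy
      exact hver k3 (by omega) (by omega) (by rw [hwd]; omega)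
  · rcases mem_blockL.1 h1 with ⟨y, k1, k2, k3⟩ | ⟨y, k1, k2, k3⟩
    · have hy : ¬ B.y1 + (y : ℤ) < y0 := by omega
      have hwd : B.wd y0 (B.y1 + y) = B.R + 1 := if_neg hy
      exact hrow k3 (by omega) (by rw [hwd]; omega) (by rw [if_neg hy])
    · have hy : ¬ B.y1 + (y : ℤ) < y0 := by omega
      have hwd : B.wd y0 (B.y1 + y) = B.R + 1 := if_neg hy
      exact hver k3 (by omega) (by omega) (by rw [hwd]; omega)
  · obtain ⟨i, rfl⟩ := mem_insL.1 h1
    have hi := i.2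
    have hja : ((pp B p).succAbove i : ℕ) = if (i : ℕ) < (pp B p : ℕ) then (i : ℕ) else i + 1 := by
      by_cases hc : (i : ℕ) < (pp B p : ℕ)
      · rw [if_pos hc, Fin.succAbove_of_castSucc_lt _ _ (Fin.lt_def.2 (by simpa using hc))]
        rfl
      · rw [if_neg hc, Fin.succAbove_of_le_castSucc _ _ (Fin.le_def.2 (by simpa using hc))]
        rfl
    have hlt : ((pp B p).succAbove i < pp B p) ↔ (i : ℕ) < (pp B p : ℕ) := by
      rw [Fin.lt_def, hja]
      split_ifs <;> omega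
    have a1 : B.y1 + ((aa B y0 : ℕ) : ℤ) = y0 - 1 := by omega
    have a2 : B.y1 + ((aa B y0 + 1 : ℕ) : ℤ) = y0 := by push_cast; omega
    show OpOk _ _ (Sum.inl (if (pp B p).succAbove i < pp B p then -e3 else 0,
      some (gI B i (B.y1 + ((aa B y0 : ℕ) : ℤ)), 1),
      some (gI B ((pp B p).succAbove i) (B.y1 + ((aa B y0 + 1 : ℕ) : ℤ)), 3)))
    rw [a1, a2, hja]
    have m1 : gI B i (y0 - 1) ∈ B.tG y0 := band_sub B h ((gI_mem_band B h).2 (by omega))
    have m2 : gI B (if (i : ℕ) < (pp B p : ℕ) then (i : ℕ) else i + 1) y0 ∈ B.tG y0 :=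
      band_sub B h ((gI_mem_band B h).2 (by split_ifs <;> omega))
    apply ok_glue
    · exact some_ne fun h => by have := h.2; exact absurd this (by decide)
    · apply beG_of B h m1 m2
      by_cases hc : (i : ℕ) < (pp B p : ℕ)
      · rw [if_pos hc, gI_le B (by omega), gI_le B (by omega), B.nbG_N (by omega)]
        congr 3
        simp only [Prod.mk.injEq, true_and]
        omega
      · rw [if_neg hc]
        by_cases h2 : ((i : ℕ) : ℤ) < B.xr - B.xl
        · rw [gI_le B (by omega), gI_le B (by omega), B.nbG_N1 ⟨rfl, by omega, by omega⟩]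
          congr 3
          simp only [Prod.mk.injEq, and_true]
          omega
        · by_cases h3 : ((i : ℕ) : ℤ) = B.xr - B.xl
          · rw [gI_le B (by omega), gI_gt B (by omega), B.nbG_N2 ⟨rfl, by omega⟩]
            congr 3
            simp only [Prod.mk.injEq, and_true]
            omega
          · rw [gI_gt B (by omega), gI_gt B (by omega), B.nbG_rN1 rfl]
            congr 3
            simp only [Prod.mk.injEq, and_true]
            omega
    · have s2 : seamG B p y0 c c' (some (gI B (if (i : ℕ) < (pp B p : ℕ) then (i : ℕ) else i + 1)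
          y0, 3)) = 0 := seamG_gI B (fun _ h => z30 h.1) (fun _ h => z31 h.1)
      rw [s2, sub_zero]
      by_cases hc : (i : ℕ) < (pp B p : ℕ)
      · rw [if_pos (hlt.2 hc), gI_le B (by omega), seamG_N B rfl (by omega) (by omega)]
      · rw [if_neg (fun h => hc (hlt.1 h))]
        exact seamG_gI B (fun _ h => z10 h.1) (fun _ h => by have := h.2.2.2; omega)

theorem joinLow_ok {p y0 : ℤ} (h : B.At p y0) {Al Au : Finset (ℤ × ℤ)} (hs : Split B Al Au)
    (c c' : ℝ) (φ : Port TG → ℝ) :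
    ∀ o ∈ joinLow B Al φ, OpOk (B.beG p y0) (chG B p y0 c c' φ) o := by
  have hn := nn_eq B h
  have hR := B.hR
  have hle := le_run B h
  have hy1 := h.hy1
  have hy2 := h.hy2
  intro o ho
  unfold joinLow joinOps at ho
  rw [List.mem_ofFn] at ho
  obtain ⟨i, rfl⟩ := ho
  have hi := i.2
  have mu : gI B i B.y1 ∈ B.tG y0 := band_sub B h ((gI_mem_band B h).2 (by omega))
  by_cases hD : Dl B Al i
  · rw [if_pos hD]
    have mx : gI B i (B.y1 - 1) ∈ B.tG y0 := by
      rw [gI_le B hD.1, B.inl_mem, hs.part]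
      exact Or.inl hD.2
    apply ok_glue
    · exact some_ne fun h => d13 h.2
    · refine beG_of B h mx mu ?_
      rw [gI_le B hD.1, gI_le B hD.1, B.nbG_N (by omega)]
      congr 3
      simp only [Prod.mk.injEq, true_and]
      omega
    · unfold xP uP
      rw [seamG_gI B (fun _ h => z10 h.1) (fun _ h => by have := h.2.1; omega),
        seamG_gI B (fun _ h => z30 h.1) (fun _ h => z31 h.1), sub_zero]
  · rw [if_neg hD]
    apply ok_cut
    unfold uP
    by_cases hi2 : ((i : ℕ) : ℤ) ≤ B.xr - B.xl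
    · refine beG_fix B (t := Sum.inl (B.xl + ((i : ℕ) : ℤ), B.y1 - 1)) (d' := 1) ?_ ?_
      · rw [gI_le B hi2, B.nbG_S (by omega)]
      · rw [B.inl_mem, hs.part]
        rintro (k | k | k)
        · exact hD ⟨hi2, k⟩
        · exact hs.nu _ (by omega) (by omega) k
        · omega
    · refine beG_fix B (t := Sum.inr (((i : ℕ) : ℤ) - (B.xr - B.xl + 1), B.y1 - 1)) (d' := 1) ?_ ?_
      · rw [gI_gt B hi2, B.nbG_rS (by omega)]
      · rw [B.inr_mem]
        omega

theorem joinUp_ok {p y0 : ℤ} (h : B.At p y0) {Al Au : Finset (ℤ × ℤ)} (hs : Split B Al Au)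
    (c c' : ℝ) (φ : Port TG → ℝ) :
    ∀ o ∈ joinUp B Au φ, OpOk (B.beG p y0) (chG B p y0 c c' φ) o := by
  have hn := nn_eq B h
  have hR := B.hR
  have hle := le_run B h
  have hy1 := h.hy1
  have hy2 := h.hy2
  intro o ho
  unfold joinUp joinOps at ho
  rw [List.mem_ofFn] at ho
  obtain ⟨i, rfl⟩ := ho
  have hi := i.2
  have mw : gI B i (B.y2 - 1) ∈ B.tG y0 := band_sub B h ((gI_mem_band B h).2 (by omega))
  by_cases hD : Du B Au i
  · rw [if_pos hD]
    have mv : gI B i B.y2 ∈ B.tG y0 := by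
      rw [gI_le B hD.1, B.inl_mem, hs.part]
      exact Or.inr (Or.inl hD.2)
    apply ok_glue
    · exact some_ne fun h => d13 h.2.symm
    · refine beG_of B h mv mw ?_
      rw [gI_le B hD.1, gI_le B hD.1, B.nbG_S (by omega)]
    · unfold vP wP
      rw [seamG_gI B (fun _ h => z30 h.1) (fun _ h => z31 h.1),
        seamG_gI B (fun _ h => z10 h.1) (fun _ h => by have := h.2.1; omega), sub_zero]
  · rw [if_neg hD]
    apply ok_cut
    unfold wP
    by_cases hi2 : ((i : ℕ) : ℤ) ≤ B.xr - B.xl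
    · refine beG_fix B (t := Sum.inl (B.xl + ((i : ℕ) : ℤ), B.y2 - 1 + 1)) (d' := 3) ?_ ?_
      · rw [gI_le B hi2, B.nbG_N (by omega)]
      · rw [B.inl_mem, hs.part, sub_add_cancel]
        rintro (k | k | k)
        · exact hs.nl _ (by omega) (by omega) k
        · exact hD ⟨hi2, k⟩
        · omega
    · refine beG_fix B (t := Sum.inr (((i : ℕ) : ℤ) - (B.xr - B.xl + 1), B.y2 - 1 + 1)) (d' := 3)
        ?_ ?_
      · rw [gI_gt B hi2, B.nbG_rN (by omega)]
      · rw [B.inr_mem]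
        omega

end Crest.Agent.R158.Ao857
end
private theorem rz_d1b2cb370b : type_of% @_root_.Crest.Agent.R158.Ao857.seamG.eq_1 := @_root_.Crest.Agent.R158.Ao857.seamG.eq_1 -- L29
end

-- ▼ part R158/Ao10_857

/-!
# Row 158: canonical lists of the plain parts, the closed network of `G^(z)` (helper857)

* `plainL A C φ` : glueings inside `C` (plain lattice, `χ = 0`), cuts at the ports of `C` whose
  neighbour is not in `A`
* `mem_flat_plainL`, `nodup_flat_plainL`, `plain_low`, `plain_up` (hypotheses of `cover`),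
  `plainL_ok`
* `beL`, `chL` : glueing and phases with the leg port as a free end
* `ampL`, `amp_eq`, `amp_nodup`, `amp_toFinset`, `amp_ok`
-/

set_option autoImplicit false

noncomputable section

open Finset Matrix

namespace Crest.Agent.R158.Ao857

open Crest.Agent.R158.Ad350
open Crest.Agent.R158.Sw300 (Port)
open Crest.Agent.R158.Bd932 (e3)
open Crest.Agent.R158.Env664 (TG Band Run PortOf portOf_some portOf_none nbP res res_of Adj4 z4
  nbP_W nbP_N nbP_E nbP_S)

/-- east-west glueings inside `C` -/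
def ewL (C : Finset (ℤ × ℤ)) : List (Op (Port TG)) :=
  (C.filter fun t => (t.1 + 1, t.2) ∈ C).toList.map fun t =>
    Sum.inl (0, some (Sum.inl (t.1, t.2), 2), some (Sum.inl (t.1 + 1, t.2), 0))

/-- north-south glueings inside `C` -/
def nsL (C : Finset (ℤ × ℤ)) : List (Op (Port TG)) :=
  (C.filter fun t => (t.1, t.2 + 1) ∈ C).toList.map fun t =>
    Sum.inl (0, some (Sum.inl (t.1, t.2), 1), some (Sum.inl (t.1, t.2 + 1), 3))

/-- cuts at the free ends of `C` -/
def freeL (A C : Finset (ℤ × ℤ)) (φ : Port TG → ℝ) : List (Op (Port TG)) :=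
  ((ports C).filter fun q => ¬ PortOf A (nbP q)).toList.map fun q =>
    Sum.inr (φ (tpm inlE q), tpm inlE q)

/-- operations of a plain part -/
def plainL (A C : Finset (ℤ × ℤ)) (φ : Port TG → ℝ) : List (Op (Port TG)) :=
  ewL C ++ (nsL C ++ freeL A C φ)

lemma mem_ewL {C : Finset (ℤ × ℤ)} {q : Port TG} : q ∈ flat (ewL C) ↔ ∃ x y : ℤ, (x, y) ∈ C ∧
    (x + 1, y) ∈ C ∧ (q = some (Sum.inl (x, y), 2) ∨ q = some (Sum.inl (x + 1, y), 0)) := by
  rw [mem_flat]
  unfold ewL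
  constructor
  · rintro ⟨o, ho, hq⟩
    rw [List.mem_map] at ho
    obtain ⟨⟨x, y⟩, ht, rfl⟩ := ho
    rw [Finset.mem_toList, Finset.mem_filter] at ht
    refine ⟨x, y, ht.1, ht.2, ?_⟩
    simpa [Op.pts] using hq
  · rintro ⟨x, y, h1, h2, h3⟩
    refine ⟨_, List.mem_map.2 ⟨(x, y), Finset.mem_toList.2 (Finset.mem_filter.2 ⟨h1, h2⟩), rfl⟩, ?_⟩
    simpa [Op.pts] using h3

lemma mem_nsL {C : Finset (ℤ × ℤ)} {q : Port TG} : q ∈ flat (nsL C) ↔ ∃ x y : ℤ, (x, y) ∈ C ∧
    (x, y + 1) ∈ C ∧ (q = some (Sum.inl (x, y), 1) ∨ q = some (Sum.inl (x, y + 1), 3)) := by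
  rw [mem_flat]
  unfold nsL
  constructor
  · rintro ⟨o, ho, hq⟩
    rw [List.mem_map] at ho
    obtain ⟨⟨x, y⟩, ht, rfl⟩ := ho
    rw [Finset.mem_toList, Finset.mem_filter] at ht
    refine ⟨x, y, ht.1, ht.2, ?_⟩
    simpa [Op.pts] using hq
  · rintro ⟨x, y, h1, h2, h3⟩
    refine ⟨_, List.mem_map.2 ⟨(x, y), Finset.mem_toList.2 (Finset.mem_filter.2 ⟨h1, h2⟩), rfl⟩, ?_⟩
    simpa [Op.pts] using h3

lemma mem_freeL {A C : Finset (ℤ × ℤ)} {φ : Port TG → ℝ} {q : Port TG} :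
    q ∈ flat (freeL A C φ) ↔ ∃ q0 ∈ ports C, ¬ PortOf A (nbP q0) ∧ q = tpm inlE q0 := by
  rw [mem_flat]
  unfold freeL
  constructor
  · rintro ⟨o, ho, hq⟩
    rw [List.mem_map] at ho
    obtain ⟨q0, ht, rfl⟩ := ho
    rw [Finset.mem_toList, Finset.mem_filter] at ht
    refine ⟨q0, ht.1, ht.2, ?_⟩
    simpa [Op.pts] using hq
  · rintro ⟨q0, h1, h2, h3⟩
    refine ⟨_, List.mem_map.2 ⟨q0, Finset.mem_toList.2 (Finset.mem_filter.2 ⟨h1, h2⟩), rfl⟩, ?_⟩
    simpa [Op.pts] using h3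

theorem mem_flat_plainL {A C : Finset (ℤ × ℤ)} {φ : Port TG → ℝ} {q : Port TG} :
    q ∈ flat (plainL A C φ) ↔ ∃ q0 ∈ ports C, q = tpm inlE q0 ∧
      (PortOf C (nbP q0) ∨ ¬ PortOf A (nbP q0)) := by
  unfold plainL
  rw [flat_append, flat_append, List.mem_append, List.mem_append, mem_ewL, mem_nsL, mem_freeL]
  constructor
  · rintro (⟨x, y, h1, h2, h3 | h3⟩ | ⟨x, y, h1, h2, h3 | h3⟩ | ⟨q0, h1, h2, h3⟩)
    · exact ⟨some ((x, y), 2), mem_ports.2 h1, h3, Or.inl (portOf_some.2 h2)⟩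
    · refine ⟨some ((x + 1, y), 0), mem_ports.2 h2, h3, Or.inl ?_⟩
      rw [nbP_W]
      exact portOf_some.2 (by rw [add_sub_cancel_right]; exact h1)
    · exact ⟨some ((x, y), 1), mem_ports.2 h1, h3, Or.inl (portOf_some.2 h2)⟩
    · refine ⟨some ((x, y + 1), 3), mem_ports.2 h2, h3, Or.inl ?_⟩
      rw [nbP_S]
      exact portOf_some.2 (by rw [add_sub_cancel_right]; exact h1)
    · exact ⟨q0, h1, h3, Or.inr h2⟩
  · rintro ⟨q0, h1, h3, h2 | h2⟩
    · obtain ⟨⟨x, y⟩, d, rfl, hm⟩ := mem_ports' h1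
      rcases z4 d with rfl | rfl | rfl | rfl
      · rw [nbP_W, portOf_some] at h2
        exact Or.inl ⟨x - 1, y, h2, by rw [sub_add_cancel]; exact hm,
          Or.inr (by rw [sub_add_cancel]; exact h3)⟩
      · rw [nbP_N, portOf_some] at h2
        exact Or.inr (Or.inl ⟨x, y, hm, h2, Or.inl h3⟩)
      · rw [nbP_E, portOf_some] at h2
        exact Or.inl ⟨x, y, hm, h2, Or.inl h3⟩
      · rw [nbP_S, portOf_some] at h2
        exact Or.inr (Or.inl ⟨x, y - 1, h2, by rw [sub_add_cancel]; exact hm,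
          Or.inr (by rw [sub_add_cancel]; exact h3)⟩)
    · exact Or.inr (Or.inr ⟨q0, h1, h2, h3⟩)

lemma nodup_flat_map {α P : Type*} {l : List α} (hl : l.Nodup) {f : α → Op P}
    (h1 : ∀ a ∈ l, (f a).pts.Nodup)
    (h2 : ∀ a ∈ l, ∀ b ∈ l, a ≠ b → ∀ q ∈ (f a).pts, q ∉ (f b).pts) :
    (flat (l.map f)).Nodup := by
  unfold flat
  rw [List.nodup_flatMap]
  refine ⟨?_, ?_⟩
  · intro o ho
    obtain ⟨a, ha, rfl⟩ := List.mem_map.1 ho
    exact h1 a ha
  · rw [List.pairwise_map]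
    exact hl.pairwise_of_forall_ne fun a ha b hb hab => fun q hq hq' => h2 a ha b hb hab q hq hq'

lemma nodup_ewL (C : Finset (ℤ × ℤ)) : (flat (ewL C)).Nodup := by
  unfold ewL
  refine nodup_flat_map (Finset.nodup_toList _) ?_ ?_
  · rintro ⟨x, y⟩ -
    simp only [Op.pts, List.nodup_cons, List.mem_cons, List.not_mem_nil, or_false,
      List.nodup_nil, not_false_eq_true, and_true]
    exact some_ne fun h => z20 h.2
  · rintro ⟨x, y⟩ - ⟨x', y'⟩ - hne q hq hq'
    simp only [Op.pts, List.mem_cons, List.not_mem_nil, or_false] at hq hq'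
    rcases hq with rfl | rfl <;> rcases hq' with h | h <;>
      simp only [Option.some.injEq, Prod.mk.injEq, Sum.inl.injEq] at h
    · exact hne (by rw [h.1.1, h.1.2])
    · exact z20 h.2
    · exact z02 h.2
    · exact hne (by rw [h.1.2, show x = x' by omega])

lemma nodup_nsL (C : Finset (ℤ × ℤ)) : (flat (nsL C)).Nodup := by
  unfold nsL
  refine nodup_flat_map (Finset.nodup_toList _) ?_ ?_
  · rintro ⟨x, y⟩ -
    simp only [Op.pts, List.nodup_cons, List.mem_cons, List.not_mem_nil, or_false,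
      List.nodup_nil, not_false_eq_true, and_true]
    exact some_ne fun h => d13 h.2
  · rintro ⟨x, y⟩ - ⟨x', y'⟩ - hne q hq hq'
    simp only [Op.pts, List.mem_cons, List.not_mem_nil, or_false] at hq hq'
    rcases hq with rfl | rfl <;> rcases hq' with h | h <;>
      simp only [Option.some.injEq, Prod.mk.injEq, Sum.inl.injEq] at h
    · exact hne (by rw [h.1.1, h.1.2])
    · exact d13 h.2
    · exact d13 h.2.symm
    · exact hne (by rw [h.1.1, show y = y' by omega])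

lemma nodup_freeL (A C : Finset (ℤ × ℤ)) (φ : Port TG → ℝ) : (flat (freeL A C φ)).Nodup := by
  unfold freeL
  refine nodup_flat_map (Finset.nodup_toList _) ?_ ?_
  · intro q0 _
    simp [Op.pts]
  · intro q0 _ q1 _ hne q hq hq'
    simp only [Op.pts, List.mem_cons, List.not_mem_nil, or_false] at hq hq'
    exact hne (tpm_inj inlE.injective (hq.symm.trans hq'))

theorem nodup_flat_plainL {A C : Finset (ℤ × ℤ)} (hCA : C ⊆ A) (φ : Port TG → ℝ) :
    (flat (plainL A C φ)).Nodup := by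
  unfold plainL
  rw [flat_append, flat_append, List.nodup_append', List.nodup_append']
  refine ⟨nodup_ewL C, ⟨nodup_nsL C, nodup_freeL A C φ, ?_⟩, ?_⟩
  · intro q h1 h2
    rw [mem_nsL] at h1
    rw [mem_freeL] at h2
    obtain ⟨q0, hq0, h3, rfl⟩ := h2
    obtain ⟨⟨x', y'⟩, d, rfl, hm⟩ := mem_ports' hq0
    obtain ⟨x, y, k1, k2, h | h⟩ := h1 <;>
      simp only [tpm, inlE, Option.map_some, Function.Embedding.coeFn_mk, Option.some.injEq,
        Prod.mk.injEq, Sum.inl.injEq] at h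
    · obtain ⟨⟨rfl, rfl⟩, rfl⟩ := h
      exact h3 (portOf_some.2 (hCA k2))
    · obtain ⟨⟨rfl, rfl⟩, rfl⟩ := h
      refine h3 ?_
      rw [nbP_S, add_sub_cancel_right]
      exact portOf_some.2 (hCA k1)
  · intro q h1 h2
    rw [mem_ewL] at h1
    rw [List.mem_append, mem_nsL, mem_freeL] at h2
    rcases h2 with h2 | h2
    · obtain ⟨x, y, k1, k2, h | h⟩ := h1 <;> obtain ⟨x', y', k1', k2', h' | h'⟩ := h2 <;>
        rw [h] at h' <;> simp only [Option.some.injEq, Prod.mk.injEq, Sum.inl.injEq] at h'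
      · exact z21 h'.2
      · exact absurd h'.2 (by decide)
      · exact z01 h'.2
      · exact absurd h'.2 (by decide)
    · obtain ⟨q0, hq0, h3, rfl⟩ := h2
      obtain ⟨⟨x', y'⟩, d, rfl, hm⟩ := mem_ports' hq0
      obtain ⟨x, y, k1, k2, h | h⟩ := h1 <;>
        simp only [tpm, inlE, Option.map_some, Function.Embedding.coeFn_mk, Option.some.injEq,
          Prod.mk.injEq, Sum.inl.injEq] at h
      · obtain ⟨⟨rfl, rfl⟩, rfl⟩ := h
        exact h3 (portOf_some.2 (hCA k2))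
      · obtain ⟨⟨rfl, rfl⟩, rfl⟩ := h
        refine h3 ?_
        rw [nbP_W, add_sub_cancel_right]
        exact portOf_some.2 (hCA k1)

variable {A : Finset (ℤ × ℤ)} (B : Band A)

theorem plain_low {p y0 : ℤ} (h : B.At p y0) {Al Au : Finset (ℤ × ℤ)} (hs : Split B Al Au)
    (hadj : ∀ s ∈ Al, ∀ t ∈ Au, ¬ Adj4 s t) (φ : Port TG → ℝ) (q : Port TG) :
    q ∈ flat (plainL A Al φ) ↔ q ∈ ports (Al.map inlE) ∧ ∀ i, q ≠ xP B i := by
  have hn := nn_eq B h
  have hR := B.hR
  have hy1 := h.hy1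
  have hy2 := h.hy2
  have hle := le_run B h
  rw [mem_flat_plainL]
  constructor
  · rintro ⟨q0, hq0, rfl, h3⟩
    refine ⟨ports_map _ hq0, fun i hi => ?_⟩
    obtain ⟨⟨x, y⟩, d, rfl, hm⟩ := mem_ports' hq0
    have hi' : (some (Sum.inl (x, y), d) : Port TG) = some (gI B i (B.y1 - 1), 1) := hi
    by_cases k1 : ((i : ℕ) : ℤ) ≤ B.xr - B.xl
    · rw [gI_le B k1] at hi'
      simp only [Option.some.injEq, Prod.mk.injEq, Sum.inl.injEq] at hi'
      obtain ⟨⟨rfl, rfl⟩, rfl⟩ := hi'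
      rw [nbP_N, portOf_some, portOf_some, sub_add_cancel] at h3
      rcases h3 with h3 | h3
      · exact hs.dl _ _ h3 (by omega)
      · exact h3 ((hs.part _ _).2 (Or.inr (Or.inr (by omega))))
    · rw [gI_gt B k1] at hi'
      simp at hi'
  · rintro ⟨hq, h3⟩
    obtain ⟨t, d, rfl, ht⟩ := mem_ports' hq
    rcases t with ⟨x, y⟩ | t
    swap
    · exact absurd ht not_inlE
    rw [mem_inlE] at ht
    refine ⟨some ((x, y), d), mem_ports.2 ht, rfl, ?_⟩
    have hnb := hs.dl _ _ ht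
    by_contra hc
    push Not at hc
    obtain ⟨hc1, hc2⟩ := hc
    rcases z4 d with rfl | rfl | rfl | rfl
    · rw [nbP_W, portOf_some] at hc1 hc2
      rcases (hs.part _ _).1 hc2 with k | k | k
      · exact hc1 k
      · exact hadj _ ht _ k (by unfold Adj4; simp)
      · have := (B.run y k.2.2.1 k.2.2.2).right
        have e : x = B.xr + 1 := by omega
        exact this (by rw [← e]; exact (hs.part _ _).2 (Or.inl ht))
    · rw [nbP_N, portOf_some] at hc1 hc2
      rcases (hs.part _ _).1 hc2 with k | k | k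
      · exact hc1 k
      · exact hadj _ ht _ k (by unfold Adj4; simp)
      · have e : y = B.y1 - 1 := by omega
        have hlt : (x - B.xl).toNat < nn B + 1 := by omega
        refine h3 ⟨(x - B.xl).toNat, hlt⟩ ?_
        show (some (Sum.inl (x, y), 1) : Port TG) = some (gI B (x - B.xl).toNat (B.y1 - 1), 1)
        rw [gI_le B (by omega), e, show B.xl + (((x - B.xl).toNat : ℕ) : ℤ) = x by omega]
    · rw [nbP_E, portOf_some] at hc1 hc2
      rcases (hs.part _ _).1 hc2 with k | k | k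
      · exact hc1 k
      · exact hadj _ ht _ k (by unfold Adj4; simp)
      · have := (B.run y k.2.2.1 k.2.2.2).left
        have e : x = B.xl - 1 := by omega
        exact this (by rw [← e]; exact (hs.part _ _).2 (Or.inl ht))
    · rw [nbP_S, portOf_some] at hc1 hc2
      rcases (hs.part _ _).1 hc2 with k | k | k
      · exact hc1 k
      · exact hadj _ ht _ k (by unfold Adj4; simp)
      · have e : y = B.y2 := by omega
        exact hs.nl x k.1 k.2.1 (by rw [← e]; exact ht)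

theorem plain_up {p y0 : ℤ} (h : B.At p y0) {Al Au : Finset (ℤ × ℤ)} (hs : Split B Al Au)
    (hadj : ∀ s ∈ Al, ∀ t ∈ Au, ¬ Adj4 s t) (φ : Port TG → ℝ) (q : Port TG) :
    q ∈ flat (plainL A Au φ) ↔ q ∈ ports (Au.map inlE) ∧ ∀ i, q ≠ vP B i := by
  have hn := nn_eq B h
  have hR := B.hR
  have hy1 := h.hy1
  have hy2 := h.hy2
  have hle := le_run B h
  rw [mem_flat_plainL]
  constructor
  · rintro ⟨q0, hq0, rfl, h3⟩
    refine ⟨ports_map _ hq0, fun i hi => ?_⟩
    obtain ⟨⟨x, y⟩, d, rfl, hm⟩ := mem_ports' hq0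
    have hi' : (some (Sum.inl (x, y), d) : Port TG) = some (gI B i B.y2, 3) := hi
    by_cases k1 : ((i : ℕ) : ℤ) ≤ B.xr - B.xl
    · rw [gI_le B k1] at hi'
      simp only [Option.some.injEq, Prod.mk.injEq, Sum.inl.injEq] at hi'
      obtain ⟨⟨rfl, rfl⟩, rfl⟩ := hi'
      rw [nbP_S, portOf_some, portOf_some] at h3
      rcases h3 with h3 | h3
      · exact hs.du _ _ h3 (by omega)
      · exact h3 ((hs.part _ _).2 (Or.inr (Or.inr (by omega))))
    · rw [gI_gt B k1] at hi'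
      simp at hi'
  · rintro ⟨hq, h3⟩
    obtain ⟨t, d, rfl, ht⟩ := mem_ports' hq
    rcases t with ⟨x, y⟩ | t
    swap
    · exact absurd ht not_inlE
    rw [mem_inlE] at ht
    refine ⟨some ((x, y), d), mem_ports.2 ht, rfl, ?_⟩
    have hnb := hs.du _ _ ht
    by_contra hc
    push Not at hc
    obtain ⟨hc1, hc2⟩ := hc
    rcases z4 d with rfl | rfl | rfl | rfl
    · rw [nbP_W, portOf_some] at hc1 hc2
      rcases (hs.part _ _).1 hc2 with k | k | k
      · exact hadj _ k _ ht (by unfold Adj4; simp)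
      · exact hc1 k
      · have := (B.run y k.2.2.1 k.2.2.2).right
        have e : x = B.xr + 1 := by omega
        exact this (by rw [← e]; exact (hs.part _ _).2 (Or.inr (Or.inl ht)))
    · rw [nbP_N, portOf_some] at hc1 hc2
      rcases (hs.part _ _).1 hc2 with k | k | k
      · exact hadj _ k _ ht (by unfold Adj4; simp)
      · exact hc1 k
      · have e : y = B.y1 - 1 := by omega
        exact hs.nu x k.1 k.2.1 (by rw [← e]; exact ht)
    · rw [nbP_E, portOf_some] at hc1 hc2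
      rcases (hs.part _ _).1 hc2 with k | k | k
      · exact hadj _ k _ ht (by unfold Adj4; simp)
      · exact hc1 k
      · have := (B.run y k.2.2.1 k.2.2.2).left
        have e : x = B.xl - 1 := by omega
        exact this (by rw [← e]; exact (hs.part _ _).2 (Or.inr (Or.inl ht)))
    · rw [nbP_S, portOf_some] at hc1 hc2
      rcases (hs.part _ _).1 hc2 with k | k | k
      · exact hadj _ k _ ht (by unfold Adj4; simp)
      · exact hc1 k
      · have e : y = B.y2 := by omega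
        have hlt : (x - B.xl).toNat < nn B + 2 := by omega
        refine h3 ⟨(x - B.xl).toNat, hlt⟩ ?_
        show (some (Sum.inl (x, y), 3) : Port TG) = some (gI B (x - B.xl).toNat B.y2, 3)
        rw [gI_le B (by omega), e, show B.xl + (((x - B.xl).toNat : ℕ) : ℤ) = x by omega]

/-- outside the band the glueing is plain -/
lemma nbG_plain {p y0 : ℤ} (h : B.At p y0) {x y : ℤ} (d : ZMod 4)
    (hb : ¬ (B.xl ≤ x ∧ x ≤ B.xr ∧ B.y1 ≤ y ∧ y < B.y2)) :
    B.nbG p y0 (some (Sum.inl (x, y), d)) = tpm inlE (nbP (some ((x, y), d))) := by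
  obtain ⟨hy1, hy2, hp1, hp2⟩ := h
  rcases z4 d with rfl | rfl | rfl | rfl
  · rw [B.nbG_W (by omega)]; rfl
  · rw [B.nbG_N (by omega)]; rfl
  · rw [B.nbG_E (by omega)]; rfl
  · rw [B.nbG_S (by omega)]; rfl

lemma seamG_plain {p y0 : ℤ} (h : B.At p y0) {c c' : ℝ} {x y : ℤ} (d : ZMod 4)
    (hb : ¬ (B.xl ≤ x ∧ x ≤ B.xr ∧ B.y1 ≤ y ∧ y < B.y2)) :
    seamG B p y0 c c' (some (Sum.inl (x, y), d)) = 0 := by
  obtain ⟨hy1, hy2, hp1, hp2⟩ := h
  exact seamG_inl0 B (by omega) (by omega)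

theorem plainL_ok {p y0 : ℤ} (h : B.At p y0) (c c' : ℝ) (φ : Port TG → ℝ) {C : Finset (ℤ × ℤ)}
    (hCA : C ⊆ A) (hb : ∀ x y : ℤ, (x, y) ∈ C → ¬ (B.xl ≤ x ∧ x ≤ B.xr ∧ B.y1 ≤ y ∧ y < B.y2)) :
    ∀ o ∈ plainL A C φ, OpOk (B.beG p y0) (chG B p y0 c c' φ) o := by
  intro o ho
  unfold plainL at ho
  rw [List.mem_append, List.mem_append] at ho
  rcases ho with ho | ho | ho
  · unfold ewL at ho
    rw [List.mem_map] at ho
    obtain ⟨⟨x, y⟩, ht, rfl⟩ := ho
    rw [Finset.mem_toList, Finset.mem_filter] at ht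
    apply ok_glue
    · exact some_ne fun h => z20 h.2
    · refine beG_of B h (B.inl_mem.2 (hCA ht.1)) (B.inl_mem.2 (hCA ht.2)) ?_
      rw [nbG_plain B h _ (hb _ _ ht.1)]
      rfl
    · rw [seamG_plain B h _ (hb _ _ ht.1), seamG_plain B h _ (hb _ _ ht.2), sub_zero]
  · unfold nsL at ho
    rw [List.mem_map] at ho
    obtain ⟨⟨x, y⟩, ht, rfl⟩ := ho
    rw [Finset.mem_toList, Finset.mem_filter] at ht
    apply ok_glue
    · exact some_ne fun h => d13 h.2
    · refine beG_of B h (B.inl_mem.2 (hCA ht.1)) (B.inl_mem.2 (hCA ht.2)) ?_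
      rw [nbG_plain B h _ (hb _ _ ht.1)]
      rfl
    · rw [seamG_plain B h _ (hb _ _ ht.1), seamG_plain B h _ (hb _ _ ht.2), sub_zero]
  · unfold freeL at ho
    rw [List.mem_map] at ho
    obtain ⟨q0, ht, rfl⟩ := ho
    rw [Finset.mem_toList, Finset.mem_filter] at ht
    obtain ⟨⟨x, y⟩, d, rfl, hm⟩ := mem_ports' ht.1
    apply ok_cut
    have h1 := nbG_plain B h d (hb _ _ hm)
    show B.beG p y0 (some (Sum.inl (x, y), d)) = some (Sum.inl (x, y), d)
    rcases hq : nbP (some ((x, y), d)) with _ | ⟨t', d'⟩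
    · rw [hq] at ht
      exact absurd (portOf_none A) ht.2
    · rw [hq] at h1 ht
      refine beG_fix B (t := Sum.inl t') (d' := d') h1 ?_
      rw [B.inl_mem]
      exact fun k => ht.2 (portOf_some.2 k)

/-! ### The closed network -/

/-- glueing of the network: the leg port is a free end -/
def beL (p y0 : ℤ) (q : Port TG) : Port TG := if q = legP p y0 then q else B.beG p y0 q

/-- phases of the network, zero at the leg port -/
def chL (p y0 : ℤ) (c c' : ℝ) (φ : Port TG → ℝ) (q : Port TG) : ℝ :=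
  if q = legP p y0 then 0 else chG B p y0 c c' φ q

@[simp] lemma beL_leg (p y0 : ℤ) : beL B p y0 (legP p y0) = legP p y0 := if_pos rfl
@[simp] lemma chL_leg (p y0 : ℤ) (c c' : ℝ) (φ : Port TG → ℝ) :
    chL B p y0 c c' φ (legP p y0) = 0 := if_pos rfl
lemma beL_ne {p y0 : ℤ} {q : Port TG} (h : q ≠ legP p y0) : beL B p y0 q = B.beG p y0 q :=
  if_neg h
lemma chL_ne {p y0 : ℤ} {c c' : ℝ} {φ : Port TG → ℝ} {q : Port TG} (h : q ≠ legP p y0) :
    chL B p y0 c c' φ q = chG B p y0 c c' φ q := if_neg h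

lemma beG_leg {p y0 : ℤ} (h : B.At p y0) : B.beG p y0 none = legP p y0 := by
  unfold Band.beG legP
  have hm : (p, y0) ∈ A := (B.run y0 h.hy1.le h.hy2).mem p (by have := h.hp1; omega) h.hp2
  rw [res_of (portOf_none _) (by rw [B.nbG_leg]; exact portOf_some.2 (B.inl_mem.2 hm)), B.nbG_leg]

lemma beL_invol {p y0 : ℤ} (h : B.At p y0) {q : Port TG} (hq : q ≠ none) :
    beL B p y0 (beL B p y0 q) = q := by
  by_cases h1 : q = legP p y0
  · rw [h1, beL_leg, beL_leg]
  · rw [beL_ne B h1, beL_ne B, B.beG_invol h]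
    intro h2
    apply hq
    rw [← B.beG_invol h q, h2, ← beG_leg B h, B.beG_invol h]

lemma beL_ports {p y0 : ℤ} (h : B.At p y0) {q : Port TG} (hq : q ∈ ports (B.tG y0)) :
    beL B p y0 q ∈ ports (B.tG y0) := by
  by_cases h1 : q = legP p y0
  · rw [h1, beL_leg, ← h1]; exact hq
  · rw [beL_ne B h1]
    by_cases h2 : B.beG p y0 q = q
    · rw [h2]; exact hq
    · rcases h3 : B.beG p y0 q with _ | ⟨t, d⟩
      · exfalso
        apply h1
        rw [← B.beG_invol h q, h3, beG_leg B h]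
      · rw [mem_ports]
        have h4 : PortOf (B.tG y0) (B.nbG p y0 q) ∧ B.beG p y0 q = B.nbG p y0 q := by
          unfold Band.beG res at h2 ⊢
          by_cases k : PortOf (B.tG y0) q ∧ PortOf (B.tG y0) (B.nbG p y0 q)
          · exact ⟨k.2, if_pos k⟩
          · rw [if_neg k] at h2
            exact absurd rfl h2
        rw [← h4.2, h3] at h4
        exact portOf_some.1 h4.1

/-- all operations of the network -/
def ampL (Al Au : Finset (ℤ × ℤ)) (p y0 : ℤ) (c c' : ℝ) (φ : Port TG → ℝ) : List (Op (Port TG)) :=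
  plainL A Al φ ++ (plainL A Au φ ++ (bandOps B p y0 c c' ++ (joinLow B Al φ ++ joinUp B Au φ)))

lemma Split.subl {B : Band A} {Al Au : Finset (ℤ × ℤ)} (hs : Split B Al Au) : Al ⊆ A :=
  fun t ht => (hs.part t.1 t.2).2 (Or.inl ht)
lemma Split.subu {B : Band A} {Al Au : Finset (ℤ × ℤ)} (hs : Split B Al Au) : Au ⊆ A :=
  fun t ht => (hs.part t.1 t.2).2 (Or.inr (Or.inl ht))

theorem amp_cover {p y0 : ℤ} (h : B.At p y0) {Al Au : Finset (ℤ × ℤ)} (hs : Split B Al Au)
    (hadj : ∀ s ∈ Al, ∀ t ∈ Au, ¬ Adj4 s t) (c c' : ℝ) (φ : Port TG → ℝ) :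
    (flat (ampL B Al Au p y0 c c' φ)).Nodup ∧
    (flat (ampL B Al Au p y0 c c' φ)).toFinset = (ports (B.tG y0)).erase (legP p y0) := by
  have := cover B h hs c c' φ (nodup_flat_plainL hs.subl φ) (nodup_flat_plainL hs.subu φ)
    (plain_low B h hs hadj φ) (plain_up B h hs hadj φ)
  refine ⟨this.1, ?_⟩
  ext q
  rw [List.mem_toFinset, Finset.mem_erase]
  exact (this.2 q).trans and_comm

theorem amp_ok {p y0 : ℤ} (h : B.At p y0) {Al Au : Finset (ℤ × ℤ)} (hs : Split B Al Au)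
    (hadj : ∀ s ∈ Al, ∀ t ∈ Au, ¬ Adj4 s t) (c c' : ℝ) (φ : Port TG → ℝ) :
    ∀ o ∈ ampL B Al Au p y0 c c' φ, OpOk (beL B p y0) (chL B p y0 c c' φ) o := by
  have hcov := amp_cover B h hs hadj c c' φ
  have h0 : ∀ o ∈ ampL B Al Au p y0 c c' φ, OpOk (B.beG p y0) (chG B p y0 c c' φ) o := by
    intro o ho
    unfold ampL at ho
    simp only [List.mem_append] at ho
    rcases ho with ho | ho | ho | ho | ho
    · exact plainL_ok B h c c' φ hs.subl hs.dl o ho
    · exact plainL_ok B h c c' φ hs.subu hs.du o ho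
    · exact bandOps_ok B h c c' φ o ho
    · exact joinLow_ok B h hs c c' φ o ho
    · exact joinUp_ok B h hs c c' φ o ho
  intro o ho
  have h1 := h0 o ho
  have h2 : ∀ q ∈ o.pts, q ≠ legP p y0 := by
    intro q hq
    have : q ∈ (flat (ampL B Al Au p y0 c c' φ)).toFinset :=
      List.mem_toFinset.2 (mem_flat.2 ⟨o, ho, hq⟩)
    rw [hcov.2] at this
    exact (Finset.mem_erase.1 this).1
  rcases o with ⟨χ, a, b⟩ | ⟨ψ, a⟩
  · have ha := h2 a (by simp [Op.pts])
    have hb := h2 b (by simp [Op.pts])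
    refine ⟨?_, ?_, ?_⟩
    · show beL B p y0 a = b
      rw [beL_ne B ha]; exact h1.1
    · show beL B p y0 b = a
      rw [beL_ne B hb]; exact h1.2.1
    · show chL B p y0 c c' φ a - chL B p y0 c c' φ b = χ
      rw [chL_ne B ha, chL_ne B hb]; exact h1.2.2
  · have ha := h2 a (by simp [Op.pts])
    refine ⟨?_, ?_⟩
    · show beL B p y0 a = a
      rw [beL_ne B ha]; exact h1.1
    · show chL B p y0 c c' φ a = ψ
      rw [chL_ne B ha]; exact h1.2

theorem plainL_ports {C : Finset (ℤ × ℤ)} {φ : Port TG → ℝ} :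
    ∀ o ∈ plainL A C φ, ∀ q ∈ o.pts, q ∈ ports (C.map inlE) := by
  intro o ho q hq
  have : q ∈ flat (plainL A C φ) := mem_flat.2 ⟨o, ho, hq⟩
  rw [mem_flat_plainL] at this
  obtain ⟨q0, h1, rfl, -⟩ := this
  exact ports_map _ h1

/-- **the amplitude with the canonical lists** -/
theorem amp_eq {p y0 : ℤ} (h : B.At p y0) {Al Au : Finset (ℤ × ℤ)} (hs : Split B Al Au)
    (c c' : ℝ) (φ : Port TG → ℝ) (σ : Port TG → Bool) (hσ : σ (legP p y0) = false) :
    opL (ampL B Al Au p y0 c c' φ) (tilesF (B.tG y0)) σ =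
      OutZ B Au φ (plainL A Au φ) σ ⬝ᵥ (Kz B p y0 c c' *ᵥ InZ B Al φ (plainL A Al φ) σ) :=
  env_amp B h hs c c' φ plainL_ports plainL_ports σ hσ

end Crest.Agent.R158.Ao857
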