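import Crest.Agent.R158.Ad5_350
import Crest.Agent.R158.Ao10_857

-- ▼ part R158/Ad7_350
section

/-!
# Block AD, the amplitude of `G^(z)` with the canonical lists (helper350)

* `Net.exists_leg` : the walk of an end; `Net.zv_prod`
* `netZ` : the network `G^(z)` (glueing `Ao857.beL`, phases `Ao857.chL`)
* `amp_int` : `⟨Out| K |In⟩ = ∫ s, zv (ports (B.tG y0)) leg false`
-/

set_option autoImplicit false
set_option linter.unusedSectionVars false

noncomputable section

open Finset Matrix MeasureTheory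
open Crest.Agent.R158.Sw300 (Port thru thru_thru thru_ne tn)

namespace Crest.Agent.R158.Ad350

namespace Net

variable {P : Type*} [DecidableEq P] {N : Net P}

/-- the strand that starts at an end -/
theorem exists_leg (h : N.Ok) {x : P} (hx : x ∈ N.V) (hb : N.be x = x) : ∃ y l, N.Wa x y l ∧
    N.be y = y ∧ y ∈ N.V ∧ y ≠ x ∧ y ∈ N.cls x := by
  classical
  have hex := exists_fail h hx hb
  have hn : ∀ i < Nat.find hex, N.be (N.al (N.g^[i] x)) ≠ N.al (N.g^[i] x) :=
    fun i hi => Nat.find_min hex hi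
  refine ⟨_, _, Wa.of_it (Nat.find hex) hn, Nat.find_spec hex, h.alV _ (it_mem h hx _), ?_, ?_⟩
  · exact it_ne h hx hn _ 0 le_rfl (Nat.zero_le _)
  · exact mem_cls.2 ⟨h.alV _ (it_mem h hx _), (Cn_it x _).trans (Cn.al _)⟩

/-- **value with an entering arrow at `x`** -/
theorem zv_prod (h : N.Ok) {x y : P} (hx : x ∈ N.V) {l : List P} (w : N.Wa x y l)
    (h1 : N.be x = x) (h2 : N.be y = y) : N.zv N.V x false =
      ei (N.wl l) * ∏ c ∈ (N.classes N.V).erase (N.cls x), N.z c := by
  rw [zv_classes h h.clV hx, zv_leg h hx w h1 h2]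
  simp


end Net

open Crest.Agent.R158.Rs689 (PB hf)
open Crest.Agent.R158.Env664 (TG Band Adj4)
open Crest.Agent.R158.Ao857 (Op Op.pts opL flat OpOk legP InZ OutZ Kz Split ampL amp_cover amp_ok
  amp_eq plainL)

variable {A : Finset (ℤ × ℤ)} (B : Band A)


variable {B}


lemma legP_mem {p y0 : ℤ} (h : B.At p y0) : legP p y0 ∈ ports (B.tG y0) := by
  refine mem_ports.2 ?_
  rw [B.inl_mem]
  exact (B.run y0 (le_of_lt h.hy1) h.hy2).mem p (le_of_lt h.hp1) h.hp2


end Crest.Agent.R158.Ad350
end
end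

-- ▼ part R158/Ad8_350

/-!
# Block AD, natural sign and counting (helper350)

* `tilesF_star` : the tiles are real, so `Φ (tilesF A) σ = star (value with the phases -ch)`
* `netN`, `amp_nat` : `⟨Out| K |In⟩ = star ∫ s, (netN s).zv V leg false`, phases `-chL`
* `Net.ends`, `Net.arcs`, `Net.two_mul_arcs` : every arc has two ends
* `Net.zn`, `Net.z_norm`, `Net.zv_norm` : factor `√3 ^ #arcs`
-/

set_option autoImplicit false
set_option linter.unusedSectionVars false

noncomputable section

open Finset Matrix MeasureTheory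
open Crest.Agent.R158.Sw300 (Port thru thru_thru thru_ne tn)

namespace Crest.Agent.R158.Ad350

open Crest.Agent.R158.Rs689 (PB hf)

/-! ### natural sign -/

section star

variable {T : Type*} [DecidableEq T]

lemma tilesF_star (A : Finset T) (σ : Port T → Bool) : star (tilesF A σ) = tilesF A σ := by
  unfold tilesF
  rw [star_prod]
  refine Finset.prod_congr rfl fun t _ => ?_
  unfold w6
  split_ifs <;> simp

/-- the operation with the opposite phases -/
lemma Rep.neg {be : Port T → Port T} {ch : Port T → ℝ}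
    {Φ : ((Port T → Bool) → ℂ) → (Port T → Bool) → ℂ} {D : Finset (Port T)}
    (h : Rep be ch Φ D) : Rep be (fun q => -ch q)
      (fun F σ => ∑ B ∈ D.powerset with gb be D B, ei (pb (fun q => -ch q) D B) * F (ov D B σ)) D :=
  ⟨h.1, fun _ _ => rfl⟩

lemma Rep.star_tiles {be : Port T → Port T} {ch : Port T → ℝ}
    {Φ : ((Port T → Bool) → ℂ) → (Port T → Bool) → ℂ} {D : Finset (Port T)} (A : Finset T)
    (h : Rep be ch Φ D) (σ : Port T → Bool) : Φ (tilesF A) σ =
      star (∑ B ∈ D.powerset with gb be D B,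
        ei (pb (fun q => -ch q) D B) * tilesF A (ov D B σ)) := by
  rw [h.2, star_sum]
  refine Finset.sum_congr rfl fun B _ => ?_
  rw [star_mul', tilesF_star, star_ei]
  congr 2
  unfold pb
  rw [← Finset.sum_neg_distrib]
  exact Finset.sum_congr rfl fun p _ => by ring


/-- one open end, opposite phases -/
theorem Rep.tiles_leg_int_neg {be : Port T → Port T} {ch : Port T → ℝ}
    {Φ : ((Port T → Bool) → ℂ) → (Port T → Bool) → ℂ} {A : Finset T} {x₀ : Port T}
    (h : Rep be ch Φ ((ports A).erase x₀)) (hx : x₀ ∈ ports A) (hb0 : be x₀ = x₀)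
    (hc0 : ch x₀ = 0) (σ : Port T → Bool) : Φ (tilesF A) σ =
      star (∫ s, (tnet A s be fun q => -ch q).zv (ports A) x₀ (σ x₀) ∂(PB fun _ : T => hf)) := by
  rw [h.star_tiles A σ, ← h.neg.tiles_leg_int hx hb0 (by simp [hc0]) σ]

end star

section amp

open Crest.Agent.R158.Env664 (TG Band Adj4)
open Crest.Agent.R158.Ao857 (Op Op.pts opL flat OpOk legP InZ OutZ Kz Split ampL amp_cover amp_ok
  amp_eq plainL)

variable {A : Finset (ℤ × ℤ)} (B : Band A)

/-- the network `G^(z)`, opposite phases (natural sign) -/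
def netN (p y0 : ℤ) (c c' : ℝ) (φ : Port TG → ℝ) (s : TG → Bool) : Net (Port TG) :=
  tnet (B.tG y0) s (Ao857.beL B p y0) fun q => -Ao857.chL B p y0 c c' φ q

variable {B}

lemma netN_ok {p y0 : ℤ} (h : B.At p y0) (c c' : ℝ) (φ : Port TG → ℝ) (s : TG → Bool) :
    (netN B p y0 c c' φ s).Ok :=
  tnet_ok (fun _ hx => Ao857.beL_ports B h hx) fun _ hx =>
    Ao857.beL_invol B h (fun e => none_ports (e ▸ hx))

/-- **the amplitude of `G^(z)`, natural sign** -/
theorem amp_nat {p y0 : ℤ} (h : B.At p y0) {Al Au : Finset (ℤ × ℤ)} (hs : Split B Al Au)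
    (hadj : ∀ s ∈ Al, ∀ t ∈ Au, ¬ Adj4 s t) (c c' : ℝ) (φ : Port TG → ℝ)
    (σ : Port TG → Bool) (hσ : σ (legP p y0) = false) :
    OutZ B Au φ (plainL A Au φ) σ ⬝ᵥ (Kz B p y0 c c' *ᵥ InZ B Al φ (plainL A Al φ) σ) =
      star (∫ s, (netN B p y0 c c' φ s).zv (ports (B.tG y0)) (legP p y0) false
        ∂(PB fun _ : TG => hf)) := by
  rw [← amp_eq B h hs c c' φ σ hσ]
  obtain ⟨k1, k2⟩ := amp_cover B h hs hadj c c' φ
  have hrep : Rep (Ao857.beL B p y0) (Ao857.chL B p y0 c c' φ)
      (opL (ampL B Al Au p y0 c c' φ)) (flat (ampL B Al Au p y0 c c' φ)).toFinset := by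
    refine rep_opL k1 fun o ho => ?_
    have h1 := amp_ok B h hs hadj c c' φ o ho
    cases o with
    | inl e => exact h1
    | inr e => exact h1
  rw [k2] at hrep
  have := hrep.tiles_leg_int_neg (legP_mem h) (Ao857.beL_leg B p y0)
    (Ao857.chL_leg B p y0 c c' φ) σ
  rw [hσ] at this
  exact this

end amp

/-! ### counting -/

namespace Net

variable {P : Type*} [DecidableEq P] {N : Net P}

/-- cut ends of `C` -/
def ends (N : Net P) (C : Finset P) : Finset P := C.filter fun p => N.be p = p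

/-- classes of `C` that contain a cut end -/
def arcs (N : Net P) (C : Finset P) : Finset (Finset P) :=
  (N.classes C).filter fun c => (N.ends c).Nonempty

lemma Strand.ends_arc (h : N.Ok) {x : P} (hx : x ∈ N.V) {n : ℕ} (hs : N.Strand x n)
    (h1 : N.be x = x) : N.ends (N.cls x) = {x, N.al (N.g^[n] x)} := by
  have h2 : N.be (N.al (N.g^[n] x)) = N.al (N.g^[n] x) := by
    rcases hs.2 with ⟨_, k⟩ | ⟨k, _⟩
    · exact k
    · have hm := h.be2 _ (h.alV _ (it_mem h hx n))
      rw [k, h1] at hm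
      rw [k]
      exact hm
  ext p
  simp only [ends, Finset.mem_filter, Finset.mem_insert, Finset.mem_singleton]
  constructor
  · rintro ⟨hp, hb⟩
    rw [hs.cls h hx] at hp
    rcases Finset.mem_union.1 hp with hp | hp
    · obtain ⟨i, hi, rfl⟩ := mem_Iw.1 hp
      left
      cases i with
      | zero => rfl
      | succ i =>
        exfalso
        have hb' := h.be2 _ (h.alV _ (it_mem h hx i))
        have e : N.g^[i + 1] x = N.be (N.al (N.g^[i] x)) := by
          rw [Function.iterate_succ_apply']; rfl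
        rw [e, hb'] at hb
        exact hs.1 i (by omega) hb.symm
    · obtain ⟨i, hi, rfl⟩ := mem_Ow.1 hp
      right
      rcases Nat.lt_or_ge i n with hin | hin
      · exact absurd hb (hs.1 i hin)
      · rw [show i = n by omega]
  · rintro (rfl | rfl)
    · exact ⟨self_mem_cls hx, h1⟩
    · refine ⟨?_, h2⟩
      rw [hs.cls h hx]
      exact Finset.mem_union_right _ (mem_Ow.2 ⟨n, le_rfl, rfl⟩)

/-- a class has two cut ends or none -/
theorem card_ends_cls (h : N.Ok) {p : P} (hp : p ∈ N.V) :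
    (N.ends (N.cls p)).card = if (N.ends (N.cls p)).Nonempty then 2 else 0 := by
  split_ifs with hne
  · obtain ⟨x, hx⟩ := hne
    obtain ⟨hx1, hx2⟩ := Finset.mem_filter.1 hx
    have hxV := (mem_cls.1 hx1).1
    have hex := exists_fail h hxV hx2
    classical
    have hs : N.Strand x (Nat.find hex) :=
      ⟨fun j hj => Nat.find_min hex hj, Or.inl ⟨hx2, Nat.find_spec hex⟩⟩
    rw [← cls_eq_of_mem h hp hx1, hs.ends_arc h hxV hx2, Finset.card_pair]
    exact (it_ne h hxV hs.1 _ 0 le_rfl (Nat.zero_le _)).symm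
  · rw [Finset.not_nonempty_iff_eq_empty] at hne
    rw [hne, Finset.card_empty]

/-- **every arc has two ends** -/
theorem two_mul_arcs (h : N.Ok) {C : Finset P} (hC : N.Cl C) :
    (N.ends C).card = 2 * (N.arcs C).card := by
  have e1 : N.ends C = (N.classes C).biUnion fun c => N.ends c := by
    ext p
    simp only [ends, Finset.mem_biUnion, Finset.mem_filter]
    constructor
    · rintro ⟨hp, hb⟩
      exact ⟨N.cls p, Finset.mem_image_of_mem _ hp, self_mem_cls (hC.sub hp), hb⟩
    · rintro ⟨c, hc, hp, hb⟩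
      exact ⟨(classes_sub h hC hc).1 hp, hb⟩
  rw [e1, Finset.card_biUnion]
  · have e2 : ∀ c ∈ N.classes C, (N.ends c).card = if (N.ends c).Nonempty then 2 else 0 := by
      intro c hc
      obtain ⟨p, hp, rfl⟩ := Finset.mem_image.1 hc
      exact card_ends_cls h (hC.sub hp)
    rw [Finset.sum_congr rfl e2, Finset.sum_ite, Finset.sum_const_zero, add_zero,
      Finset.sum_const, smul_eq_mul, mul_comm]
    rfl
  · intro c hc d hd hne
    refine Finset.disjoint_of_subset_left (Finset.filter_subset _ _)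
      (Finset.disjoint_of_subset_right (Finset.filter_subset _ _) ?_)
    obtain ⟨p, hp, rfl⟩ := Finset.mem_image.1 hc
    obtain ⟨q, hq, rfl⟩ := Finset.mem_image.1 hd
    exact cls_disj h (hC.sub hp) (hC.sub hq) hne

/-- normalised value : arcs divided by `√3` -/
def zn (N : Net P) (c : Finset P) : ℂ :=
  if (N.ends c).Nonempty then N.z c / (Real.sqrt 3 : ℝ) else N.z c

lemma sqrt3_ne : ((Real.sqrt 3 : ℝ) : ℂ) ≠ 0 := by
  rw [Ne, Complex.ofReal_eq_zero]
  positivity

/-- **normalisation** -/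
theorem z_norm (S : Finset (Finset P)) :
    ∏ c ∈ S, N.z c = ((Real.sqrt 3 : ℝ) : ℂ) ^ (S.filter fun c => (N.ends c).Nonempty).card *
      ∏ c ∈ S, N.zn c := by
  rw [← Finset.prod_const, Finset.prod_filter, ← Finset.prod_mul_distrib]
  refine Finset.prod_congr rfl fun c _ => ?_
  unfold zn
  split_ifs
  · rw [mul_div_cancel₀ _ sqrt3_ne]
  · rw [one_mul]

/-- **normalised value with an entering arrow** : `n` = number of cut ends of `V` -/
theorem zv_norm (h : N.Ok) {x y : P} (hx : x ∈ N.V) {l : List P} (w : N.Wa x y l)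
    (h1 : N.be x = x) (h2 : N.be y = y) : N.zv N.V x false =
      ((Real.sqrt 3 : ℝ) : ℂ) ^ ((N.ends N.V).card / 2 - 1) *
        (ei (N.wl l) * ∏ c ∈ (N.classes N.V).erase (N.cls x), N.zn c) := by
  rw [zv_prod h hx w h1 h2, z_norm]
  have e1 : (((N.classes N.V).erase (N.cls x)).filter fun c => (N.ends c).Nonempty) =
      (N.arcs N.V).erase (N.cls x) := by
    unfold arcs
    rw [Finset.filter_erase]
  have e2 : N.cls x ∈ N.arcs N.V := by
    refine Finset.mem_filter.2 ⟨Finset.mem_image_of_mem _ hx, x, ?_⟩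
    exact Finset.mem_filter.2 ⟨self_mem_cls hx, h1⟩
  rw [e1, Finset.card_erase_of_mem e2, two_mul_arcs h h.clV, Nat.mul_div_cancel_left _ (by norm_num)]
  ring

end Net

end Crest.Agent.R158.Ad350
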