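import Crest.Agent.R158.Ad5_350
import Crest.Agent.R158.Qc2_405
import Crest.Agent.R158.Al4_194
import Crest.Agent.R158.Ad8_350
import Crest.Agent.R158.Env_664

-- ▼ part R158/Pc1_194
section

/-!
# R158, Q1c pointwise core (N3), part 1: an admissible word inside a closed tile network

`em` = embedding of the tiles of the word `w` into the tiles of the network `tnet A s be ch`.

* `Emb`, `Phs` : compatibility of the glueings and of the phases
* `z_sub` : value of a closed set of ports over the tiles of the word (without the leg port)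
* `zv_sub` : the same with the leg port (entering arrow)
-/

set_option autoImplicit false
set_option linter.unusedVariables false
set_option linter.unusedSectionVars false

noncomputable section

namespace Crest.Agent.R158.Pc194

open Finset
open Crest.Agent.R158.Sw300
open Crest.Agent.R158.Gc748 (gl bs ts gd_wd pt)
open Crest.Agent.R158.Pt266 (Wk tt Gw Gs Gp Fr rv mem_L not_glued fr_of_mem glu_Gw gl_mem be_iff)
open Crest.Agent.R158.Qc405 (psi FlW An de sm sc walkS legS loopS sm_app sm_one)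
open Crest.Agent.R158.Ad350 (Net ports tnet tnet_ok ei sg tql seam mem_ports mem_ports' none_ports
  Wk_Wa tql_tt Wa_wl)
open Crest.Agent.R158.Al194 (hL wr er)

variable {T T' : Type*} [DecidableEq T] [DecidableEq T']

/-- image of a port of a tile -/
def pe (em : T' → T) (a : T' × ZMod 4) : Port T := some (em a.1, a.2)

/-- image of a port -/
def po (em : T' → T) (x : Port T') : Port T := x.map fun a => (em a.1, a.2)

@[simp] lemma po_some (em : T' → T) (a : T' × ZMod 4) : po em (some a) = pe em a := rfl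
@[simp] lemma po_none (em : T' → T) : po em none = none := rfl

/-- ports over the tiles of the word -/
def ep (em : T' → T) (w : Wd T') : Finset (Port T) := ports ((tls w).toFinset.image em)

lemma mem_ep {em : T' → T} {w : Wd T'} {q : Port T} :
    q ∈ ep em w ↔ ∃ a : T' × ZMod 4, a.1 ∈ tls w ∧ q = pe em a := by
  constructor
  · intro h
    obtain ⟨t, d, rfl, ht⟩ := mem_ports' h
    obtain ⟨t', ht', rfl⟩ := mem_image.1 ht
    exact ⟨(t', d), List.mem_toFinset.1 ht', rfl⟩
  · rintro ⟨a, ha, rfl⟩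
    exact mem_ports.2 (mem_image_of_mem em (List.mem_toFinset.2 ha))

/-- an admissible word inside a glueing `be` of the tiles `A` -/
structure Emb (A : Finset T) (be : Port T → Port T) (w : Wd T') (em : T' → T) : Prop where
  ok : Ok w
  inj : ∀ t ∈ tls w, ∀ t' ∈ tls w, em t = em t' → t = t'
  mem : ∀ t ∈ tls w, em t ∈ A
  glue : ∀ a b : T' × ZMod 4, a.1 ∈ tls w → b.1 ∈ tls w →
    (Gw w a b ↔ be (pe em a) = pe em b ∧ a ≠ b)

/-- phases: seam `σ`, tile gauge `g`, boundary charges `c` -/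
structure Phs (be : Port T → Port T) (ch : Port T → ℝ) (w : Wd T') (em : T' → T)
    (σ : Port T' → ℤ) (g : T' → ℝ) (c : Port T' → ℝ) : Prop where
  an : An σ w
  fl : FlW σ w
  seam : ∀ a b : T' × ZMod 4, Gw w a b →
    ch (pe em a) - ch (pe em b) = -(Real.pi / 12) * (σ (some a) : ℝ) + g a.1 - g b.1
  cut : ∀ a : T' × ZMod 4, (some a : Port T') ∈ L w → be (pe em a) = pe em a →
    ch (pe em a) = Real.pi / 12 * (psi σ w (some a) : ℝ) - Real.pi / 3 * c (some a) + g a.1

/-- the leg port -/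
structure Lg (be : Port T → Port T) (ch : Port T → ℝ) (w : Wd T') (em : T' → T)
    (σ : Port T' → ℤ) (g : T' → ℝ) (x0 : Port T) : Prop where
  leg : isLeg w
  nl : w ≠ .leg
  eq : ∀ b : T' × ZMod 4, Gs w (some b) none → x0 = pe em b ∧ σ (some b) = 0 ∧ g b.1 = 0
  be : be x0 = x0
  ch : ch x0 = 0

variable {A : Finset T} {be : Port T → Port T} {ch : Port T → ℝ} {w : Wd T'} {em : T' → T}
  {σ : Port T' → ℤ} {g : T' → ℝ} {c : Port T' → ℝ} {s : T → Bool} {x0 : Port T}

lemma Gw_mem (h : Ok w) {a b : T' × ZMod 4} (hG : Gw w a b) : a.1 ∈ tls w ∧ b.1 ∈ tls w := by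
  rcases a with ⟨t, d⟩
  rcases b with ⟨t', d'⟩
  exact ⟨gl_mem h hG, gl_mem h (Or.symm hG)⟩

lemma Gw_ne (h : Ok w) {a b : T' × ZMod 4} (hG : Gw w a b) : a ≠ b := by
  have := ((be_iff h (some a) (some b)).1 hG).2
  rintro rfl
  exact this rfl

lemma Emb.ginj (E : Emb A be w em) {a b : T' × ZMod 4} (ha : a.1 ∈ tls w) (hb : b.1 ∈ tls w)
    (e : pe em a = pe em b) : a = b := by
  unfold pe at e
  simp only [Option.some.injEq, Prod.mk.injEq] at e
  exact Prod.ext (E.inj _ ha _ hb e.1) e.2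

lemma Emb.glu (E : Emb A be w em) {a b : T' × ZMod 4} (hG : Gw w a b) :
    be (pe em a) = pe em b ∧ pe em a ≠ pe em b := by
  obtain ⟨h1, h2⟩ := Gw_mem E.ok hG
  refine ⟨((E.glue a b h1 h2).1 hG).1, fun e => Gw_ne E.ok hG (E.ginj h1 h2 e)⟩

/-- strands of the word are walks of the network -/
lemma Emb.walk (E : Emb A be w em) {a b : T' × ZMod 4} {l : List (T' × ZMod 4)}
    (h : Wk (s ∘ em) (Gw w) a b l) :
    (tnet A s be ch).Wa (pe em a) (pe em b) (l.map (pe em)) := by
  have h1 : Wk s (fun u v => be (some u) = some v ∧ u ≠ v) (Pt266.mp em a) (Pt266.mp em b)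
      (l.map (Pt266.mp em)) := by
    refine Wk.map em (fun u v huv => ?_) h
    obtain ⟨k1, k2⟩ := E.glu huv
    exact ⟨k1, fun e => k2 (congrArg some e)⟩
  have h2 := Wk_Wa (A := A) (be := be) (ch := ch) (fun _ _ h => h) h1
  rw [List.map_map] at h2
  exact h2

/-- the seams along a strand -/
lemma Phs.seam_eq (P : Phs be ch w em σ g c) (E : Emb A be w em) {a b : T' × ZMod 4}
    {l : List (T' × ZMod 4)} {s' : T' → Bool} (h : Wk s' (Gw w) a b l) :
    Ad350.seam be ch (l.map (pe em)).tail = -(Real.pi / 12) * (sm σ l : ℝ) + g a.1 - g b.1 := by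
  induction h with
  | one => simp [Ad350.seam, sm, Pt266.pass]
  | @snoc q r l h1 h2 ih =>
    obtain ⟨e1, e2⟩ := E.glu h2
    have hbe : be (pe em r) = pe em q := (E.glu (Or.symm h2)).1
    have e3 : ((l ++ [r]).map (pe em)).tail = (l.map (pe em)).tail ++ [pe em r] := by
      rw [List.map_append, List.map_singleton]
      exact List.tail_append_of_ne_nil (by simpa using h1.ne_nil)
    have e4 : Ad350.seam be ch ((l.map (pe em)).tail ++ [pe em r]) =
        Ad350.seam be ch (l.map (pe em)).tail + (ch (pe em q) - ch (pe em r)) := by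
      simp [Ad350.seam, hbe]
    have e5 : (sm σ (l ++ [r]) : ℤ) = sm σ l - σ (some r) := by
      rw [sm_app σ h1.ne_nil, sm_one]; ring
    have e6 : σ (some r) = -σ (some q) := by
      rcases h2 with h2 | h2
      · exact P.an _ _ h2
      · have := P.an _ _ h2
        omega
    rw [e3, e4, ih, P.seam q r h2, e5, e6]
    have e7 : (Pt266.pass s' r).1 = r.1 := rfl
    rw [e7]
    push_cast
    ring

/-- seam sum of the reversed strand -/
lemma sm_rv (P : Phs be ch w em σ g c) (E : Emb A be w em) {a b : T' × ZMod 4}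
    {l : List (T' × ZMod 4)} {s' : T' → Bool} (h : Wk s' (Gw w) a b l) :
    sm σ (rv s' l) = - sm σ l := by
  induction h with
  | one => simp [rv, sm]
  | @snoc q r l h1 h2 ih =>
    have e1 : rv s' (l ++ [r]) = Pt266.pass s' r :: rv s' l := by simp [rv]
    have hr := Wk.reverse (glu_Gw E.ok).sym h1
    obtain ⟨m, hm⟩ := hr.exists_cons
    rw [e1, hm, Qc405.sm_cons, ← hm, ih, sm_app σ h1.ne_nil, sm_one]
    have e6 : σ (some r) = -σ (some q) := by
      rcases h2 with h2 | h2
      · exact P.an _ _ h2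
      · have := P.an _ _ h2
        omega
    rw [e6]; ring

lemma tql_pe (em : T' → T) (s : T → Bool) (l : List (T' × ZMod 4)) :
    tql s (l.map (pe em)) = -(tt (s ∘ em) l : ℝ) := by
  have e : l.map (pe em) = (l.map (Pt266.mp em)).map some := by rw [List.map_map]; rfl
  rw [e, tql_tt, Pt266.tt_map]


/-- an end of the word that lies in a closed set over the tiles of the word is cut -/
lemma Emb.cut_of_mem (E : Emb A be w em) {C : Finset (Port T)} (hC : (tnet A s be ch).Cl C)
    (hCe : C ⊆ ep em w) {a : T' × ZMod 4} (ha : (some a : Port T') ∈ L w) (hm : pe em a ∈ C) :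
    be (pe em a) = pe em a := by
  obtain ⟨b, hb, e⟩ := mem_ep.1 (hCe (hC.be _ hm))
  have e' : be (pe em a) = pe em b := e
  by_contra hne
  have hab : a ≠ b := by
    rintro rfl
    exact hne e'
  exact fr_of_mem E.ok ha b ((E.glue a b ((mem_L E.ok a).1 ha).1 hb).2 ⟨e', hab⟩)


/-- a cut port of a closed set over the word is an end of the word or the leg port -/
lemma Emb.mem_L_of_cut (E : Emb A be w em) {a : T' × ZMod 4} (ha : a.1 ∈ tls w)
    (hb : be (pe em a) = pe em a) (hx : ∀ b : T' × ZMod 4, Gs w (some b) none → b ≠ a) :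
    (some a : Port T') ∈ L w := by
  rw [mem_L E.ok]
  refine ⟨ha, ?_⟩
  rintro ⟨y, hy⟩
  cases y with
  | none => exact hx a hy rfl
  | some b =>
    obtain ⟨h1, h2⟩ := E.glu (show Gw w a b from hy)
    exact h2 (by rw [← h1, hb])

lemma Wa_cn {P : Type*} [DecidableEq P] {N : Net P} {x y : P} {l : List P} (h : N.Wa x y l) :
    N.Cn x y := by
  induction h with
  | one => exact Net.Cn.al _
  | snoc _ _ ih => exact (ih.trans (Net.Cn.be _)).trans (Net.Cn.al _)

/-- the cut ends of an arc class -/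
lemma arc_ends {P : Type*} [DecidableEq P] {N : Net P} (hN : N.Ok) {x y q : P} {l : List P}
    (hx : x ∈ N.V) (h : N.Wa x y l) (h1 : N.be x = x) (h2 : N.be y = y) (hq : q ∈ N.cls x)
    (hqb : N.be q = q) : q = x ∨ q = y := by
  obtain ⟨n, rfl, rfl, h3⟩ := h.data
  have hs : N.Strand x n := ⟨h3, Or.inl ⟨h1, h2⟩⟩
  rw [hs.cls hN hx, mem_union] at hq
  rcases hq with hq | hq
  · obtain ⟨i, hi, rfl⟩ := Net.mem_Iw.1 hq
    cases i with
    | zero => exact Or.inl rfl
    | succ i =>
      exfalso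
      rw [Function.iterate_succ_apply'] at hqb
      have e1 : N.be (N.be (N.al (N.g^[i] x))) = N.al (N.g^[i] x) :=
        hN.be2 _ (hN.alV _ (Net.it_mem hN hx i))
      have e2 : N.be (N.be (N.al (N.g^[i] x))) = N.be (N.al (N.g^[i] x)) := hqb
      exact h3 i (by omega) (e2.symm.trans e1)
  · obtain ⟨i, hi, rfl⟩ := Net.mem_Ow.1 hq
    rcases Nat.lt_or_ge i n with hin | hin
    · exact absurd hqb (h3 i hin)
    · obtain rfl : i = n := by omega
      exact Or.inr rfl

lemma wl_walk (hN : (tnet A s be ch).Ok) {x y : Port T} {l : List (Port T)} (hx : x ∈ ports A)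
    (h : (tnet A s be ch).Wa x y l) : (tnet A s be ch).wl l =
      Real.pi / 12 * tql s l + (ch y - ch x) + Ad350.seam be ch l.tail :=
  (Wa_wl (show ∀ p ∈ ports A, be (be p) = p from hN.be2)
    (show ∀ p ∈ ports A, be p ∈ ports A from hN.beV) hx h).2

lemma Wk_mem {s' : T' → Bool} (h : Ok w) {a b : T' × ZMod 4} {l : List (T' × ZMod 4)}
    (hl : Wk s' (Gw w) a b l) (ha : a.1 ∈ tls w) : ∀ r ∈ l, r.1 ∈ tls w := by
  induction hl with
  | one => simpa using ha
  | @snoc q r l h1 h2 ih =>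
    intro r' hr'
    rcases List.mem_append.1 hr' with k | k
    · exact ih r' k
    · rw [List.mem_singleton.1 k]; exact (Gw_mem h h2).2

lemma map_pe_mem {l : List (T' × ZMod 4)} (hl : ∀ r ∈ l, r.1 ∈ tls w) :
    ∀ q ∈ l.map (pe em), q ∈ ep em w := by
  intro q hq
  obtain ⟨r, hr, rfl⟩ := List.mem_map.1 hq
  exact mem_ep.2 ⟨r, hl r hr, rfl⟩


/-- **a strand between two matched ends of the word** -/
theorem Phs.arc (P : Phs be ch w em σ g c) (E : Emb A be w em) {x : Port T'} (hx : x ∈ L w)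
    (hxu : x ≠ u (s ∘ em) w) : ∃ a b l, x = some a ∧ M (s ∘ em) w x = some b ∧
      (tnet A s be ch).Wa (pe em a) (pe em b) l ∧ (∀ q ∈ l, q ∈ ep em w) ∧
      ((tnet A s be ch).Ok → be (pe em a) = pe em a → be (pe em b) = pe em b →
        S (s ∘ em) w x = true →
        (tnet A s be ch).wl l = Real.pi / 6 - Real.pi / 3 * (c (M (s ∘ em) w x) - c x)) := by
  have I := Ok.inv (s ∘ em) w E.ok
  have hM : M (s ∘ em) w x ≠ x := fun e => hxu (I.fix _ hx e)
  obtain ⟨a, b, l, ha, hb, hl, hf⟩ := walkS (s ∘ em) σ E.ok P.an P.fl hx hM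
  have hbL : M (s ∘ em) w x ∈ L w := I.mem _ hx
  refine ⟨a, b, l.map (pe em), ha, hb, E.walk hl, map_pe_mem (Wk_mem E.ok hl
    ((mem_L E.ok a).1 (ha ▸ hx)).1), ?_⟩
  intro hN h1 h2 hS
  have haL : (some a : Port T') ∈ L w := ha ▸ hx
  have hbL' : (some b : Port T') ∈ L w := hb ▸ hbL
  have hat : a.1 ∈ tls w := ((mem_L E.ok a).1 haL).1
  have haV : pe em a ∈ ports A := mem_ports.2 (E.mem _ hat)
  have hw := wl_walk (s := s) hN haV (E.walk (ch := ch) hl)
  have ht := (Ok.tau (s ∘ em) w E.ok).arc x hx hxu hS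
  have hf' : ((tt (s ∘ em) l : ℤ) : ℝ) + ((sm σ l : ℤ) : ℝ) =
      ((tau (s ∘ em) w x + (de σ w (M (s ∘ em) w x) - de σ w x) : ℤ) : ℝ) := by
    exact_mod_cast hf
  rw [ht] at hf'
  rw [hw, tql_pe, P.seam_eq E hl, P.cut a haL h1, P.cut b hbL' h2]
  rw [hb, ha] at hf' ⊢
  unfold de at hf'
  push_cast at hf'
  linear_combination (-(Real.pi / 12)) * hf'

/-- **the strand of the leg** -/
theorem Phs.leg (P : Phs be ch w em σ g c) (E : Emb A be w em) (G : Lg be ch w em σ g x0) :
    ∃ a l, u (s ∘ em) w = some a ∧ x0 ∈ ep em w ∧ (tnet A s be ch).Wa x0 (pe em a) l ∧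
      (∀ q ∈ l, q ∈ ep em w) ∧ (tnet A s be ch).Cn (pe em a) x0 ∧
      ((tnet A s be ch).Ok → be (pe em a) = pe em a →
        (tnet A s be ch).wl l = Real.pi / 12 - Real.pi / 3 * c (u (s ∘ em) w)) := by
  have I := Ok.inv (s ∘ em) w E.ok
  obtain ⟨a, b, l, ha, hb, hl, hf⟩ := legS (s ∘ em) σ E.ok G.leg G.nl P.an P.fl
  obtain ⟨e1, e2, e3⟩ := G.eq b hb
  have hG := glu_Gw E.ok
  have hr := Wk.reverse hG.sym hl
  have hbt : b.1 ∈ tls w := by
    rcases b with ⟨t, d⟩
    exact gl_mem E.ok hb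
  refine ⟨a, (rv (s ∘ em) l).map (pe em), ha, mem_ep.2 ⟨b, hbt, e1⟩, ?_,
    map_pe_mem (Wk_mem E.ok hr hbt), ?_, ?_⟩
  · rw [e1]; exact E.walk hr
  · rw [e1]; exact Wa_cn (E.walk hl)
  intro hN h1
  have haL : (some a : Port T') ∈ L w := ha ▸ I.um
  have hbV : pe em b ∈ ports A := mem_ports.2 (E.mem _ hbt)
  have hw := wl_walk (s := s) hN hbV (E.walk (ch := ch) hr)
  have ht := (Ok.tau (s ∘ em) w E.ok).leg G.leg
  have hsm : Ad350.seam be ch ((rv (s ∘ em) l).map (pe em)).tail =
      -(Real.pi / 12) * (sm σ (rv (s ∘ em) l) : ℝ) + g b.1 - g a.1 := P.seam_eq E hr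
  have hrv : (sm σ (rv (s ∘ em) l) : ℤ) = - sm σ l := sm_rv P E hl
  have hf' : ((tt (s ∘ em) l : ℤ) : ℝ) + ((sm σ l : ℤ) : ℝ) + ((σ (some b) : ℤ) : ℝ) =
      ((tau (s ∘ em) w (u (s ∘ em) w) - de σ w (u (s ∘ em) w) : ℤ) : ℝ) := by
    exact_mod_cast hf
  rw [ht] at hf'
  rw [hw, tql_pe, hsm, hrv, Pt266.tt_rv, ← e1, G.ch, P.cut a haL h1, e3]
  rw [ha] at hf' ⊢
  rw [e2] at hf'
  unfold de at hf'
  push_cast at hf' ⊢
  linear_combination (Real.pi / 12) * hf'

/-- a walk of the network over the tiles of the word -/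
lemma Emb.pull (E : Emb A be w em) {x y : Port T} {l : List (Port T)}
    (h : (tnet A s be ch).Wa x y l) (hl : ∀ q ∈ l, q ∈ ep em w) :
    ∃ a b k, x = pe em a ∧ y = pe em b ∧ l = k.map (pe em) ∧ (∀ r ∈ k, r.1 ∈ tls w) ∧
      b.1 ∈ tls w ∧ Wk (s ∘ em) (Gw w) a b k := by
  induction h with
  | one =>
    obtain ⟨a, ha, rfl⟩ := mem_ep.1 (hl x (by simp))
    exact ⟨a, Pt266.pass (s ∘ em) a, [a], rfl, rfl, rfl, by simpa using ha, ha, .one⟩
  | @snoc q l h1 h2 ih =>
    obtain ⟨a, b, k, rfl, rfl, rfl, hk, hb, hw⟩ := ih fun q hq => hl q (by simp [hq])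
    obtain ⟨r, hr, e⟩ := mem_ep.1 (hl _ (List.mem_append_right _ (List.mem_singleton.2 rfl)))
    have e' : be (pe em b) = pe em r := e
    have h2' : be (pe em b) ≠ pe em b := h2
    have hbr : b ≠ r := by
      rintro rfl
      exact h2' e'
    refine ⟨a, Pt266.pass (s ∘ em) r, k ++ [r], rfl, ?_, ?_, ?_, hr,
      hw.snoc ((E.glue b r hb hr).2 ⟨e', hbr⟩)⟩
    · rw [e]; rfl
    · rw [e]; simp
    · intro r' hr'
      rcases List.mem_append.1 hr' with h | h
      · exact hk r' h
      · rw [List.mem_singleton.1 h]; exact hr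

/-- **closed strands have value one** -/
theorem Phs.loop (P : Phs be ch w em σ g c) (E : Emb A be w em) (hN : (tnet A s be ch).Ok)
    {x y : Port T} {l : List (Port T)} (hx : x ∈ ports A) (h : (tnet A s be ch).Wa x y l)
    (hl : ∀ q ∈ l, q ∈ ep em w) (hnd : l.Nodup) (hyx : be y = x) (hne : x ≠ y) :
    (tnet A s be ch).z ((tnet A s be ch).cls x) = 1 := by
  obtain ⟨a, b, k, rfl, rfl, rfl, hk, hb, hw⟩ := E.pull h hl
  have hat : a.1 ∈ tls w := hk a hw.mem_left
  have hab : b ≠ a := by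
    rintro rfl
    exact hne rfl
  have hG : Gw w b a := (E.glue b a hb hat).2 ⟨hyx, hab⟩
  have hcl : Pt266.Cl (s ∘ em) (Gw w) k := ⟨List.Nodup.of_map _ hnd, a, b, hw, hG⟩
  have hloop := loopS (s ∘ em) σ E.ok P.an P.fl hcl
  have hz := (Net.z_loop hN hx h hyx hnd).2
  have hwl := wl_walk (s := s) hN hx h
  have hsb := P.seam b a hG
  have hsc : (Qc405.sc σ k : ℤ) = - σ (some a) + sm σ k := by
    obtain ⟨m, rfl⟩ := hw.exists_cons
    exact Qc405.sc_cons σ a m
  have hσ : σ (some a) = -σ (some b) := by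
    rcases hG with hG | hG
    · exact P.an _ _ hG
    · have := P.an _ _ hG
      omega
  have e1 : (tnet A s be ch).wl (k.map (pe em)) =
      -(Real.pi / 12) * ((tt (s ∘ em) k + Qc405.sc σ k : ℤ) : ℝ) := by
    rw [hwl, tql_pe, P.seam_eq E hw, hsb, hsc, hσ]
    push_cast
    ring
  rw [hz, e1]
  have h3 : Real.cos (Real.pi / 3) = 1 / 2 := Real.cos_pi_div_three
  rcases hloop with h4 | h4
  · rw [h4]
    have : -(Real.pi / 12) * ((4 : ℤ) : ℝ) = -(Real.pi / 3) := by push_cast; ring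
    rw [this, Real.cos_neg, h3]; norm_num
  · rw [h4]
    have : -(Real.pi / 12) * ((-4 : ℤ) : ℝ) = Real.pi / 3 := by push_cast; ring
    rw [this, h3]; norm_num

end Crest.Agent.R158.Pc194
end
end

-- ▼ part R158/Pc2_194
section

/-!
# R158, Q1c pointwise core (N3), part 2: value of the closed sets over a word

* `z_sub` : without the leg port, `N.z C = ∏ √3 w(c (M x) - c x)` over the arcs of the word in `C`
* `zv_sub` : with the leg port (entering arrow)
* `zv_hL` : all classes inside the word = `√3 ^ K` times the conjugate of `hL`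
-/

set_option autoImplicit false
set_option linter.unusedVariables false
set_option linter.unusedSectionVars false

noncomputable section

namespace Crest.Agent.R158.Pc194

open Finset
open Crest.Agent.R158.Sw300
open Crest.Agent.R158.Gc748 (gl bs ts gd_wd pt)
open Crest.Agent.R158.Pt266 (Wk tt Gw Gs Gp Fr rv mem_L not_glued fr_of_mem glu_Gw gl_mem be_iff)
open Crest.Agent.R158.Qc405 (psi FlW An de sm sc walkS legS loopS sm_app sm_one)
open Crest.Agent.R158.Ad350 (Net ports tnet tnet_ok ei sg tql seam mem_ports mem_ports' none_ports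
  Wk_Wa tql_tt Wa_wl)
open Crest.Agent.R158.Al194 (hL wr er)

variable {T T' : Type*} [DecidableEq T] [DecidableEq T']

variable {A : Finset T} {be : Port T → Port T} {ch : Port T → ℝ} {w : Wd T'} {em : T' → T}
  {σ : Port T' → ℤ} {g : T' → ℝ} {c : Port T' → ℝ} {s : T → Bool} {x0 : Port T}
  {C : Finset (Port T)}

/-- starts of the arcs of the word whose image lies in `C` -/
def stC (s : T → Bool) (w : Wd T') (em : T' → T) (C : Finset (Port T)) : Finset (Port T') :=
  ((L w).toFinset).filter fun x => x ≠ u (s ∘ em) w ∧ S (s ∘ em) w x = true ∧ po em x ∈ C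

lemma mem_stC {x : Port T'} : x ∈ stC s w em C ↔
    x ∈ L w ∧ x ≠ u (s ∘ em) w ∧ S (s ∘ em) w x = true ∧ po em x ∈ C := by
  unfold stC
  rw [mem_filter, List.mem_toFinset]

/-- arcs in a closed set -/
lemma arc_mem (P : Phs be ch w em σ g c) (E : Emb A be w em) (hN : (tnet A s be ch).Ok)
    (hC : (tnet A s be ch).Cl C) (hCe : C ⊆ ep em w) {x : Port T'} (hx : x ∈ L w)
    (hxu : x ≠ u (s ∘ em) w) (hm : po em x ∈ C) :
    ∃ a b l, x = some a ∧ M (s ∘ em) w x = some b ∧ (tnet A s be ch).Wa (pe em a) (pe em b) l ∧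
      pe em a ∈ C ∧ pe em b ∈ C ∧ be (pe em a) = pe em a ∧ be (pe em b) = pe em b ∧
      (S (s ∘ em) w x = true →
        (tnet A s be ch).wl l = Real.pi / 6 - Real.pi / 3 * (c (M (s ∘ em) w x) - c x)) := by
  obtain ⟨a, b, l, ha, hb, hl, -, hw⟩ := P.arc (s := s) E hx hxu
  have hma : pe em a ∈ C := by rw [ha] at hm; exact hm
  have hmb : pe em b ∈ C := Net.Cn.mem hC hma (Wa_cn hl)
  have haL : (some a : Port T') ∈ L w := ha ▸ hx
  have hbL : (some b : Port T') ∈ L w := hb ▸ (Ok.inv (s ∘ em) w E.ok).mem _ hx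
  have h1 := E.cut_of_mem hC hCe haL hma
  have h2 := E.cut_of_mem hC hCe hbL hmb
  exact ⟨a, b, l, ha, hb, hl, hma, hmb, h1, h2, fun hS => hw hN h1 h2 hS⟩

/-- the end of the leg is connected to the leg port -/
lemma not_u (P : Phs be ch w em σ g c) (E : Emb A be w em) (hC : (tnet A s be ch).Cl C)
    (hCe : C ⊆ ep em w) (hx0 : ∀ b : T' × ZMod 4, Gs w (some b) none → pe em b ∉ C)
    {a : T' × ZMod 4} (ha : a.1 ∈ tls w) (hm : pe em a ∈ C) :
    (some a : Port T') ≠ u (s ∘ em) w := by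
  intro e
  by_cases hleg : isLeg w
  · have hnl : w ≠ .leg := by rintro rfl; simp [tls] at ha
    obtain ⟨a', b, l, ha', hb, hl, -⟩ := legS (s ∘ em) σ E.ok hleg hnl P.an P.fl
    rw [ha'] at e
    obtain rfl := Option.some.inj e
    exact hx0 b hb (Net.Cn.mem hC hm (Wa_cn (E.walk (s := s) hl)))
  · rw [u_none (s ∘ em) w E.ok hleg] at e
    exact absurd e (by simp)

/-- every class of a closed set over the word is a loop or the class of an arc start -/
lemma class_word (P : Phs be ch w em σ g c) (E : Emb A be w em) (hN : (tnet A s be ch).Ok)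
    (hC : (tnet A s be ch).Cl C) (hCe : C ⊆ ep em w)
    (hx0 : ∀ b : T' × ZMod 4, Gs w (some b) none → pe em b ∉ C) {d : Finset (Port T)}
    (hd : d ∈ (tnet A s be ch).classes C) :
    (tnet A s be ch).z d = 1 ∨ ∃ x ∈ stC s w em C, d = (tnet A s be ch).cls (po em x) := by
  obtain ⟨p, hp, rfl⟩ := mem_image.1 hd
  have hsub : (tnet A s be ch).cls p ⊆ C := fun q hq => Net.Cn.mem hC hp (Net.mem_cls.1 hq).2
  obtain ⟨x, hx, y, l, hw, hnd, e, hcase⟩ := Net.exists_walk hN (hC.sub hp)
  have hxC : x ∈ C := hsub (by rw [e]; exact Net.self_mem_cls hx)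
  have hyC : y ∈ C := Net.Cn.mem hC hxC (Wa_cn hw)
  have hI := Ok.inv (s ∘ em) w E.ok
  rw [e]
  by_cases hxb : be x = x
  · right
    have hyb : be y = y := by
      rcases hcase with k | k
      · exact k.2
      · have k' : be y = x := k
        have h1 : be (be y) = y := hN.be2 _ (hC.sub hyC)
        rw [k', hxb] at h1
        rw [← h1, hxb]
    obtain ⟨a, ha, rfl⟩ := mem_ep.1 (hCe hxC)
    have haL : (some a : Port T') ∈ L w := E.mem_L_of_cut ha hxb fun b hb e' => hx0 b hb (e' ▸ hxC)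
    have hau := not_u P E hC hCe hx0 ha hxC
    by_cases hS : S (s ∘ em) w (some a) = true
    · exact ⟨some a, mem_stC.2 ⟨haL, hau, hS, hxC⟩, rfl⟩
    · obtain ⟨a', b, l', ha', hb', hl', hmb⟩ := arc_mem P E hN hC hCe haL hau hxC
      obtain rfl := Option.some.inj ha'
      refine ⟨M (s ∘ em) w (some a), mem_stC.2 ⟨hI.mem _ haL, hI.Mu haL hau, ?_, ?_⟩, ?_⟩
      · rw [hI.S_M haL hau]; simpa using hS
      · rw [hb']; exact hmb.2.1
      · rw [hb']
        exact (Net.cls_eq_of_mem hN (hC.sub hxC)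
          (Net.mem_cls.2 ⟨hC.sub hmb.2.1, Wa_cn hl'⟩)).symm
  · left
    have k : be y = x := by
      rcases hcase with k | k
      · exact absurd k.1 hxb
      · exact k
    have hne : x ≠ y := by
      rintro rfl
      exact hxb k
    have hcls := (Net.z_loop hN hx hw k hnd).1
    refine P.loop E hN hx hw (fun q hq => hCe ?_) hnd k hne
    have : q ∈ (tnet A s be ch).cls x := by
      rw [hcls]; exact mem_union_left _ (List.mem_toFinset.2 hq)
    exact hsub (by rw [e]; exact this)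

/-- the classes of the arcs of the word are different -/
lemma cls_inj (P : Phs be ch w em σ g c) (E : Emb A be w em) (hN : (tnet A s be ch).Ok)
    (hC : (tnet A s be ch).Cl C) (hCe : C ⊆ ep em w) {x x' : Port T'} (hx : x ∈ stC s w em C)
    (hx' : x' ∈ stC s w em C)
    (e : (tnet A s be ch).cls (po em x) = (tnet A s be ch).cls (po em x')) : x = x' := by
  obtain ⟨h1, h2, h3, h4⟩ := mem_stC.1 hx
  obtain ⟨k1, k2, k3, k4⟩ := mem_stC.1 hx'
  obtain ⟨a, b, l, rfl, hb, hl, hma, hmb, ca, cb, -⟩ := arc_mem P E hN hC hCe h1 h2 h4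
  obtain ⟨a', b', l', rfl, hb', hl', hma', hmb', ca', cb', -⟩ := arc_mem P E hN hC hCe k1 k2 k4
  have hI := Ok.inv (s ∘ em) w E.ok
  have hm : pe em a' ∈ (tnet A s be ch).cls (pe em a) := by
    have : pe em a' ∈ (tnet A s be ch).cls (pe em a') := Net.self_mem_cls (hC.sub hma')
    rwa [show (tnet A s be ch).cls (pe em a') = (tnet A s be ch).cls (pe em a) from e.symm] at this
  have hat := ((mem_L E.ok a).1 h1).1
  have hat' := ((mem_L E.ok a').1 k1).1
  rcases arc_ends hN (hC.sub hma) hl ca cb hm ca' with h | h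
  · rw [E.ginj hat' hat h]
  · exfalso
    have hbL : (some b : Port T') ∈ L w := hb ▸ hI.mem _ h1
    have hbt := ((mem_L E.ok b).1 hbL).1
    have h5 : a' = b := E.ginj hat' hbt h
    have h6 := hI.S_M h1 h2
    rw [hb, ← h5, k3, h3] at h6
    exact absurd h6 (by decide)

lemma z_arc_word (P : Phs be ch w em σ g c) (E : Emb A be w em) (hN : (tnet A s be ch).Ok)
    (hC : (tnet A s be ch).Cl C) (hCe : C ⊆ ep em w) {x : Port T'} (hx : x ∈ stC s w em C) :
    (tnet A s be ch).z ((tnet A s be ch).cls (po em x)) =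
      ((Real.sqrt 3 * wr (c (M (s ∘ em) w x) - c x) : ℝ) : ℂ) := by
  obtain ⟨h1, h2, h3, h4⟩ := mem_stC.1 hx
  obtain ⟨a, b, l, ha, hb, hl, hma, hmb, ca, cb, hw⟩ := arc_mem P E hN hC hCe h1 h2 h4
  have hz := (Net.z_arc hN (hC.sub hma) hl ca cb).2.2
  have hpo : po em x = pe em a := by rw [ha]; rfl
  rw [hpo, hz, hw h3]
  have e2 : (2 * (Real.cos (Real.pi / 6 - Real.pi / 3 * (c (M (s ∘ em) w x) - c x)) : ℝ) : ℂ) =
      ((2 * Real.cos (Real.pi / 6 - Real.pi / 3 * (c (M (s ∘ em) w x) - c x)) : ℝ) : ℂ) := by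
    push_cast; ring
  rw [e2]
  congr 1
  unfold wr
  rw [Real.cos_pi_div_six, show Real.pi / 6 - Real.pi / 3 * (c (M (s ∘ em) w x) - c x) =
    Real.pi / 6 - (c (M (s ∘ em) w x) - c x) * (Real.pi / 3) by ring]
  have h3 : Real.sqrt 3 ≠ 0 := by positivity
  field_simp

/-- **value of a closed set over the word, without the leg port** -/
theorem z_sub (P : Phs be ch w em σ g c) (E : Emb A be w em) (hN : (tnet A s be ch).Ok)
    (hC : (tnet A s be ch).Cl C) (hCe : C ⊆ ep em w)
    (hx0 : ∀ b : T' × ZMod 4, Gs w (some b) none → pe em b ∉ C) :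
    (tnet A s be ch).z C =
      ∏ x ∈ stC s w em C, ((Real.sqrt 3 * wr (c (M (s ∘ em) w x) - c x) : ℝ) : ℂ) := by
  classical
  rw [Net.z_classes hN hC]
  set f : Port T' → Finset (Port T) := fun x => (tnet A s be ch).cls (po em x) with hf
  have hsub : (stC s w em C).image f ⊆ (tnet A s be ch).classes C := by
    intro d hd
    obtain ⟨x, hx, rfl⟩ := mem_image.1 hd
    exact mem_image_of_mem _ (mem_stC.1 hx).2.2.2
  rw [← prod_subset hsub, prod_image]
  · exact prod_congr rfl fun x hx => z_arc_word P E hN hC hCe hx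
  · intro x hx x' hx' e
    exact cls_inj P E hN hC hCe hx hx' e
  · intro d hd hd'
    rcases class_word P E hN hC hCe hx0 hd with h | ⟨x, hx, rfl⟩
    · exact h
    · exact absurd (mem_image_of_mem f hx) hd'

/-- number of cut ends -/
theorem card_ends (P : Phs be ch w em σ g c) (E : Emb A be w em) (hN : (tnet A s be ch).Ok)
    (hC : (tnet A s be ch).Cl C) (hCe : C ⊆ ep em w)
    (hx0 : ∀ b : T' × ZMod 4, Gs w (some b) none → pe em b ∉ C) :
    (C.filter fun q => be q = q).card = 2 * (stC s w em C).card := by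
  classical
  have hI := Ok.inv (s ∘ em) w E.ok
  set X := stC s w em C with hX
  have key : C.filter (fun q => be q = q) =
      X.image (po em) ∪ X.image (fun x => po em (M (s ∘ em) w x)) := by
    ext q
    simp only [mem_filter, mem_union, mem_image]
    constructor
    · rintro ⟨hq, hqb⟩
      obtain ⟨a, ha, rfl⟩ := mem_ep.1 (hCe hq)
      have haL : (some a : Port T') ∈ L w :=
        E.mem_L_of_cut ha hqb fun b hb e' => hx0 b hb (e' ▸ hq)
      have hau := not_u P E hC hCe hx0 ha hq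
      by_cases hS : S (s ∘ em) w (some a) = true
      · exact Or.inl ⟨some a, mem_stC.2 ⟨haL, hau, hS, hq⟩, rfl⟩
      · right
        obtain ⟨a', b, l', ha', hb', hl', hmb⟩ := arc_mem P E hN hC hCe haL hau hq
        obtain rfl := Option.some.inj ha'
        refine ⟨M (s ∘ em) w (some a), mem_stC.2 ⟨hI.mem _ haL, hI.Mu haL hau, ?_, ?_⟩, ?_⟩
        · rw [hI.S_M haL hau]; simpa using hS
        · rw [hb']; exact hmb.2.1
        · rw [hI.inv _ haL]; rfl
    · rintro (⟨x, hx, rfl⟩ | ⟨x, hx, rfl⟩)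
      · obtain ⟨h1, h2, h3, h4⟩ := mem_stC.1 hx
        obtain ⟨a, b, l, rfl, hb, hl, hma, hmb, ca, cb, -⟩ := arc_mem P E hN hC hCe h1 h2 h4
        exact ⟨hma, ca⟩
      · obtain ⟨h1, h2, h3, h4⟩ := mem_stC.1 hx
        obtain ⟨a, b, l, rfl, hb, hl, hma, hmb, ca, cb, -⟩ := arc_mem P E hN hC hCe h1 h2 h4
        rw [hb]
        exact ⟨hmb, cb⟩
  have poinj : ∀ x ∈ L w, ∀ y ∈ L w, po em x ∈ C → po em x = po em y → x = y := by
    intro x hx y hy hm e
    cases x with
    | none => exact absurd (hCe hm) none_ports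
    | some a =>
      cases y with
      | none => rw [e] at hm; exact absurd (hCe hm) none_ports
      | some b => rw [E.ginj ((mem_L E.ok a).1 hx).1 ((mem_L E.ok b).1 hy).1 e]
  have hML : ∀ x ∈ X, M (s ∘ em) w x ∈ L w := fun x hx => hI.mem _ (mem_stC.1 hx).1
  have hMC : ∀ x ∈ X, po em (M (s ∘ em) w x) ∈ C := by
    intro x hx
    obtain ⟨h1, h2, h3, h4⟩ := mem_stC.1 hx
    obtain ⟨a, b, l, rfl, hb, hl, hma, hmb, ca, cb, -⟩ := arc_mem P E hN hC hCe h1 h2 h4
    rw [hb]; exact hmb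
  rw [key, card_union_of_disjoint, card_image_of_injOn, card_image_of_injOn]
  · ring
  · intro x hx y hy e
    have e' : po em (M (s ∘ em) w x) = po em (M (s ∘ em) w y) := e
    have := poinj _ (hML x hx) _ (hML y hy) (hMC x hx) e'
    exact hI.Minj (mem_stC.1 hx).1 (mem_stC.1 hy).1 this
  · intro x hx y hy e
    exact poinj _ (mem_stC.1 hx).1 _ (mem_stC.1 hy).1 (mem_stC.1 hx).2.2.2 e
  · rw [disjoint_left]
    intro q hq hq'
    obtain ⟨x, hx, rfl⟩ := mem_image.1 hq
    obtain ⟨y, hy, e⟩ := mem_image.1 hq'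
    have h5 := poinj _ (hML y hy) _ (mem_stC.1 hx).1 (hMC y hy) e
    obtain ⟨h1, h2, h3, h4⟩ := mem_stC.1 hx
    obtain ⟨k1, k2, k3, k4⟩ := mem_stC.1 hy
    have h6 := hI.S_M k1 k2
    rw [h5, h3, k3] at h6
    exact absurd h6 (by decide)

end Crest.Agent.R158.Pc194
end
end

-- ▼ part R158/Pc3_194
section

/-!
# R158, Q1c pointwise core (N3), part 3: the closed sets with the leg port

* `zv_sub` : `N.zv C x0 false = ei (π/12 - (π/3) c u) * ∏ √3 w(c (M x) - c x)`
* `zv_hL` : `= ei (π/12) * √3 ^ K * star (hL s' w c)` when the arcs outside `C` see no charge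
* `card_ends_leg` : `2 K + 2` cut ends
* `insd`, `zv_insd` : all the classes inside the word
-/

set_option autoImplicit false
set_option linter.unusedVariables false
set_option linter.unusedSectionVars false

noncomputable section

namespace Crest.Agent.R158.Pc194

open Finset
open Crest.Agent.R158.Sw300
open Crest.Agent.R158.Gc748 (gl bs ts gd_wd pt)
open Crest.Agent.R158.Pt266 (Wk tt Gw Gs Gp Fr rv mem_L not_glued fr_of_mem glu_Gw gl_mem be_iff)
open Crest.Agent.R158.Qc405 (psi FlW An de sm sc walkS legS loopS sm_app sm_one)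
open Crest.Agent.R158.Ad350 (Net ports tnet tnet_ok ei sg tql seam mem_ports mem_ports' none_ports
  Wk_Wa tql_tt Wa_wl)
open Crest.Agent.R158.Al194 (hL wr er)

variable {T T' : Type*} [DecidableEq T] [DecidableEq T']

variable {A : Finset T} {be : Port T → Port T} {ch : Port T → ℝ} {w : Wd T'} {em : T' → T}
  {σ : Port T' → ℤ} {g : T' → ℝ} {c : Port T' → ℝ} {s : T → Bool} {x0 : Port T}
  {C : Finset (Port T)}

lemma Lg.not_mem (G : Lg be ch w em σ g x0) (hx0 : x0 ∉ C) :
    ∀ b : T' × ZMod 4, Gs w (some b) none → pe em b ∉ C := fun b hb h =>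
  hx0 ((G.eq b hb).1 ▸ h)

/-- the class of the leg has two cut ends -/
lemma leg_cut (P : Phs be ch w em σ g c) (E : Emb A be w em) (G : Lg be ch w em σ g x0)
    (hN : (tnet A s be ch).Ok) (hC : (tnet A s be ch).Cl C) (hCe : C ⊆ ep em w) (hx0 : x0 ∈ C) :
    ∃ a l, u (s ∘ em) w = some a ∧ (tnet A s be ch).Wa x0 (pe em a) l ∧ pe em a ∈ C ∧
      be (pe em a) = pe em a ∧
      (tnet A s be ch).wl l = Real.pi / 12 - Real.pi / 3 * c (u (s ∘ em) w) := by
  obtain ⟨a, l, ha, -, hl, -, hcn, hw⟩ := P.leg (s := s) E G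
  have hma : pe em a ∈ C := Net.Cn.mem hC hx0 (Wa_cn hl)
  have haL : (some a : Port T') ∈ L w := ha ▸ (Ok.inv (s ∘ em) w E.ok).um
  have hcut := E.cut_of_mem hC hCe haL hma
  exact ⟨a, l, ha, hl, hma, hcut, hw hN hcut⟩

/-- the class of the leg contains no other arc -/
lemma stC_sdiff (P : Phs be ch w em σ g c) (E : Emb A be w em) (G : Lg be ch w em σ g x0)
    (hN : (tnet A s be ch).Ok) (hC : (tnet A s be ch).Cl C) (hCe : C ⊆ ep em w) (hx0 : x0 ∈ C) :
    stC s w em (C \ (tnet A s be ch).cls x0) = stC s w em C := by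
  ext x
  rw [mem_stC, mem_stC]
  constructor
  · rintro ⟨h1, h2, h3, h4⟩
    exact ⟨h1, h2, h3, (mem_sdiff.1 h4).1⟩
  · rintro ⟨h1, h2, h3, h4⟩
    refine ⟨h1, h2, h3, mem_sdiff.2 ⟨h4, fun hm => ?_⟩⟩
    obtain ⟨a, l, ha, hl, hma, hcut, -⟩ := leg_cut P E G hN hC hCe hx0
    cases x with
    | none => exact absurd (hCe h4) none_ports
    | some b =>
      have hbt := ((mem_L E.ok b).1 h1).1
      have hbc := E.cut_of_mem hC hCe h1 h4
      rcases arc_ends hN (hC.sub hx0) hl G.be hcut hm hbc with h | h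
      · obtain ⟨a', b', l', -, h6, -⟩ := legS (s ∘ em) σ E.ok G.leg G.nl P.an P.fl
        have h7 : x0 = pe em b' := (G.eq _ h6).1
        have hlt : b'.1 ∈ tls w := by
          rcases b' with ⟨t, d⟩
          exact gl_mem E.ok h6
        have h8 : b = b' := E.ginj hbt hlt (h.trans h7)
        rw [← h8] at h6
        exact not_glued E.ok h1 h6
      · apply h2
        rw [ha]
        have hat : a.1 ∈ tls w := by
          have haL : (some a : Port T') ∈ L w := ha ▸ (Ok.inv (s ∘ em) w E.ok).um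
          exact ((mem_L E.ok a).1 haL).1
        rw [E.ginj hbt hat h]

/-- **value of a closed set over the word with an entering arrow at the leg port** -/
theorem zv_sub (P : Phs be ch w em σ g c) (E : Emb A be w em) (G : Lg be ch w em σ g x0)
    (hN : (tnet A s be ch).Ok) (hC : (tnet A s be ch).Cl C) (hCe : C ⊆ ep em w) (hx0 : x0 ∈ C) :
    (tnet A s be ch).zv C x0 false =
      ei (Real.pi / 12 - Real.pi / 3 * c (u (s ∘ em) w)) *
        ∏ x ∈ stC s w em C, ((Real.sqrt 3 * wr (c (M (s ∘ em) w x) - c x) : ℝ) : ℂ) := by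
  obtain ⟨a, l, ha, hl, hma, hcut, hw⟩ := leg_cut P E G hN hC hCe hx0
  have hV := hC.sub hx0
  have hcl := Net.cls_cl hN x0
  have hsub : (tnet A s be ch).cls x0 ⊆ C := fun q hq => Net.Cn.mem hC hx0 (Net.mem_cls.1 hq).2
  have hsd : (tnet A s be ch).Cl (C \ (tnet A s be ch).cls x0) := hC.sdiff hN hcl
  have e1 : C = (tnet A s be ch).cls x0 ∪ (C \ (tnet A s be ch).cls x0) :=
    (union_sdiff_of_subset hsub).symm
  have h1 : (tnet A s be ch).zv C x0 false = (tnet A s be ch).zv ((tnet A s be ch).cls x0) x0 false *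
      (tnet A s be ch).z (C \ (tnet A s be ch).cls x0) := by
    conv_lhs => rw [e1]
    exact Net.zv_union hcl hsd disjoint_sdiff (Net.self_mem_cls hV) false
  have h2 := Net.zv_leg hN hV hl G.be hcut false
  have h3 := z_sub P E hN hsd (sdiff_subset.trans hCe) (G.not_mem fun h =>
    (mem_sdiff.1 h).2 (Net.self_mem_cls hV))
  rw [h1, h2, h3, stC_sdiff P E G hN hC hCe hx0, hw]
  simp [sg]

/-- **number of cut ends, the leg port included** -/
theorem card_ends_leg (P : Phs be ch w em σ g c) (E : Emb A be w em) (G : Lg be ch w em σ g x0)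
    (hN : (tnet A s be ch).Ok) (hC : (tnet A s be ch).Cl C) (hCe : C ⊆ ep em w) (hx0 : x0 ∈ C) :
    (C.filter fun q => be q = q).card = 2 * (stC s w em C).card + 2 := by
  obtain ⟨a, l, ha, hl, hma, hcut, hw⟩ := leg_cut P E G hN hC hCe hx0
  have hV := hC.sub hx0
  have hcl := Net.cls_cl hN x0
  have hsub : (tnet A s be ch).cls x0 ⊆ C := fun q hq => Net.Cn.mem hC hx0 (Net.mem_cls.1 hq).2
  have hsd : (tnet A s be ch).Cl (C \ (tnet A s be ch).cls x0) := hC.sdiff hN hcl
  have h3 := card_ends P E hN hsd (sdiff_subset.trans hCe) (G.not_mem fun h =>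
    (mem_sdiff.1 h).2 (Net.self_mem_cls hV))
  rw [stC_sdiff P E G hN hC hCe hx0] at h3
  have hne : x0 ≠ pe em a := by
    obtain ⟨n, -, e, h5⟩ := hl.data
    have := Net.it_ne hN hV h5 n 0 le_rfl (Nat.zero_le _)
    rw [← e] at this
    exact fun h => this h.symm
  have e1 : (C.filter fun q => be q = q) =
      ((C \ (tnet A s be ch).cls x0).filter fun q => be q = q) ∪ {x0, pe em a} := by
    ext q
    simp only [mem_filter, mem_union, mem_sdiff, mem_insert, mem_singleton]
    constructor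
    · rintro ⟨h6, h7⟩
      by_cases h8 : q ∈ (tnet A s be ch).cls x0
      · exact Or.inr (arc_ends hN hV hl G.be hcut h8 h7)
      · exact Or.inl ⟨⟨h6, h8⟩, h7⟩
    · rintro (⟨⟨h6, -⟩, h7⟩ | rfl | rfl)
      · exact ⟨h6, h7⟩
      · exact ⟨hx0, G.be⟩
      · exact ⟨hma, hcut⟩
  have hac : pe em a ∈ (tnet A s be ch).cls x0 := Net.mem_cls.2 ⟨hC.sub hma, Wa_cn hl⟩
  rw [e1, card_union_of_disjoint, h3, card_pair hne]
  rw [disjoint_left]
  intro q hq hq'
  simp only [mem_filter, mem_sdiff, mem_insert, mem_singleton] at hq hq'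
  rcases hq' with rfl | rfl
  · exact hq.1.2 (Net.self_mem_cls hV)
  · exact hq.1.2 hac

lemma wr_zero : wr 0 = 1 := by
  unfold wr
  rw [zero_mul, sub_zero]
  exact div_self Al194.cos_pi6_pos.ne'

lemma star_er (q : ℝ) : star (er q) = ei (-(Real.pi / 3 * q)) := by
  unfold er ei
  have h : star (Complex.exp (Complex.I * ((q * (Real.pi / 3) : ℝ) : ℂ))) =
      (starRingEnd ℂ) (Complex.exp (Complex.I * ((q * (Real.pi / 3) : ℝ) : ℂ))) := rfl
  rw [h, ← Complex.exp_conj, map_mul, Complex.conj_I, Complex.conj_ofReal]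
  congr 1
  push_cast
  ring

/-- **the observable `hL`** -/
theorem zv_hL (P : Phs be ch w em σ g c) (E : Emb A be w em) (G : Lg be ch w em σ g x0)
    (hN : (tnet A s be ch).Ok) (hC : (tnet A s be ch).Cl C) (hCe : C ⊆ ep em w) (hx0 : x0 ∈ C)
    (hout : ∀ x ∈ L w, x ≠ u (s ∘ em) w → S (s ∘ em) w x = true → po em x ∉ C →
      c (M (s ∘ em) w x) = c x) :
    (tnet A s be ch).zv C x0 false =
      ei (Real.pi / 12) * ((Real.sqrt 3 : ℝ) : ℂ) ^ (stC s w em C).card *
        star (hL (s ∘ em) w c) := by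
  rw [zv_sub P E G hN hC hCe hx0]
  have e1 : ∏ x ∈ stC s w em C, ((Real.sqrt 3 * wr (c (M (s ∘ em) w x) - c x) : ℝ) : ℂ) =
      ((Real.sqrt 3 : ℝ) : ℂ) ^ (stC s w em C).card *
        ((∏ x ∈ stC s w em C, wr (c (M (s ∘ em) w x) - c x) : ℝ) : ℂ) := by
    rw [← Complex.ofReal_pow, ← Complex.ofReal_mul, ← Complex.ofReal_prod, prod_mul_distrib,
      prod_const]
  have e2 : ∏ x ∈ stC s w em C, wr (c (M (s ∘ em) w x) - c x) =
      ∏ x ∈ ((L w).toFinset).filter (fun x => x ≠ u (s ∘ em) w ∧ S (s ∘ em) w x = true),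
        wr (c (M (s ∘ em) w x) - c x) := by
    apply prod_subset
    · intro x hx
      obtain ⟨h1, h2, h3, -⟩ := mem_stC.1 hx
      exact mem_filter.2 ⟨List.mem_toFinset.2 h1, h2, h3⟩
    · intro x hx hx'
      rw [mem_filter, List.mem_toFinset] at hx
      obtain ⟨h1, h2, h3⟩ := hx
      rw [hout x h1 h2 h3 fun h => hx' (mem_stC.2 ⟨h1, h2, h3, h⟩), sub_self, wr_zero]
  rw [e1, e2]
  unfold hL
  rw [star_mul', star_er]
  have e3 : star (((∏ x ∈ ((L w).toFinset).filter (fun x => x ≠ u (s ∘ em) w ∧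
      S (s ∘ em) w x = true), wr (c (M (s ∘ em) w x) - c x) : ℝ) : ℂ)) =
      ((∏ x ∈ ((L w).toFinset).filter (fun x => x ≠ u (s ∘ em) w ∧
      S (s ∘ em) w x = true), wr (c (M (s ∘ em) w x) - c x) : ℝ) : ℂ) := Complex.conj_ofReal _
  rw [e3, sub_eq_add_neg, Ad350.ei_add]
  ring

/-! ### all the classes inside the word -/






end Crest.Agent.R158.Pc194
end
end

-- ▼ part R158/Pc4_194

/-!
# R158, Q1c pointwise core (N3), part 4: the network of a word

* `Emb.of_word` : a word inside its own network (leg port cut)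
* `class_word'` : the classes of a closed set over the word, with their ends
* `zv_full` : `zv V x0 false = √3 ^ (#ends / 2 - 1) * (ei (π/12) * star (hL s' w c))`, every splitting
* `zvn_full` : the same for the normalised product of `Ad350.Net.zv_norm`
* `zn_full` : the normalised values class by class
-/

set_option autoImplicit false
set_option linter.unusedVariables false
set_option linter.unusedSectionVars false

noncomputable section

namespace Crest.Agent.R158.Pc194

open Finset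
open Crest.Agent.R158.Sw300
open Crest.Agent.R158.Gc748 (gl bs ts gd_wd pt)
open Crest.Agent.R158.Pt266 (Wk tt Gw Gs Gp Fr rv mem_L not_glued fr_of_mem glu_Gw gl_mem be_iff)
open Crest.Agent.R158.Qc405 (psi FlW An de sm sc walkS legS loopS sm_app sm_one)
open Crest.Agent.R158.Ad350 (Net ports tnet tnet_ok ei sg tql seam mem_ports mem_ports' none_ports
  Wk_Wa tql_tt Wa_wl)
open Crest.Agent.R158.Al194 (hL wr er)
open Crest.Agent.R158.Env664 (IsWord)

variable {T T' : Type*} [DecidableEq T] [DecidableEq T']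

variable {A : Finset T} {be : Port T → Port T} {ch : Port T → ℝ} {w : Wd T'} {em : T' → T}
  {σ : Port T' → ℤ} {g : T' → ℝ} {c : Port T' → ℝ} {s : T → Bool} {x0 : Port T}
  {C : Finset (Port T)}

/-- a word inside its own network; the port glued to the leg is cut -/
theorem Emb.of_word {A : Finset T} {b be : Port T → Port T} {w : Wd T} (h : IsWord w A b)
    (hbe : ∀ a : T × ZMod 4, a.1 ∈ A →
      be (some a) = if b (some a) = none then some a else b (some a)) : Emb A be w id := by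
  obtain ⟨hok, -, htl, hb⟩ := h
  refine ⟨hok, fun t _ t' _ e => e, fun t ht => (htl t).1 ht, fun a a' ha ha' => ?_⟩
  have e1 : pe id a = some a := rfl
  have e2 : pe id a' = some a' := rfl
  rw [e1, e2, hbe a ((htl _).1 ha)]
  have h1 := be_iff hok (some a) (some a')
  rw [hb] at h1
  constructor
  · intro hG
    obtain ⟨h2, h3⟩ := h1.1 hG
    rw [h2, if_neg (by simp)]
    exact ⟨rfl, fun e => h3 (congrArg some e)⟩
  · rintro ⟨h2, h3⟩
    by_cases h4 : b (some a) = none
    · rw [if_pos h4] at h2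
      exact absurd (Option.some.inj h2) h3
    · rw [if_neg h4] at h2
      exact h1.2 ⟨h2, fun e => h3 (Option.some.inj e)⟩

lemma ports_sub_ep {A : Finset T} {w : Wd T} (h : ∀ t ∈ A, t ∈ tls w) : ports A ⊆ ep id w := by
  intro q hq
  obtain ⟨t, d, rfl, ht⟩ := mem_ports' hq
  exact mem_ep.2 ⟨(t, d), h t ht, rfl⟩

/-- **the classes of a closed set over the word** -/
theorem class_word' (P : Phs be ch w em σ g c) (E : Emb A be w em) (hN : (tnet A s be ch).Ok)
    (hC : (tnet A s be ch).Cl C) (hCe : C ⊆ ep em w)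
    (hx0 : ∀ b : T' × ZMod 4, Gs w (some b) none → pe em b ∉ C) {d : Finset (Port T)}
    (hd : d ∈ (tnet A s be ch).classes C) :
    ((tnet A s be ch).ends d = ∅ ∧ (tnet A s be ch).z d = 1) ∨
      ∃ x ∈ stC s w em C, d = (tnet A s be ch).cls (po em x) ∧
        (tnet A s be ch).ends d = {po em x, po em (M (s ∘ em) w x)} := by
  rcases class_word P E hN hC hCe hx0 hd with h | ⟨x, hx, rfl⟩
  · by_cases hne : (tnet A s be ch).ends d = ∅
    · exact Or.inl ⟨hne, h⟩
    · right
      obtain ⟨p, hp, rfl⟩ := mem_image.1 hd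
      obtain ⟨q, hq⟩ := nonempty_iff_ne_empty.2 hne
      obtain ⟨hq1, hq2⟩ := mem_filter.1 hq
      have hqC : q ∈ C := Net.Cn.mem hC hp (Net.mem_cls.1 hq1).2
      have ecls := Net.cls_eq_of_mem hN (hC.sub hp) hq1
      have hI := Ok.inv (s ∘ em) w E.ok
      obtain ⟨a, ha, rfl⟩ := mem_ep.1 (hCe hqC)
      have haL : (some a : Port T') ∈ L w :=
        E.mem_L_of_cut ha hq2 fun b hb e' => hx0 b hb (e' ▸ hqC)
      have hau := not_u P E hC hCe hx0 ha hqC
      obtain ⟨a', b, l', ha', hb', hl', hma, hmb, ca, cb, -⟩ := arc_mem P E hN hC hCe haL hau hqC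
      obtain rfl := Option.some.inj ha'
      have hends : (tnet A s be ch).ends ((tnet A s be ch).cls (pe em a)) = {pe em a, pe em b} := by
        ext r
        simp only [Net.ends, mem_filter, mem_insert, mem_singleton]
        constructor
        · rintro ⟨h1, h2⟩
          exact arc_ends hN (hC.sub hma) hl' ca cb h1 h2
        · rintro (rfl | rfl)
          · exact ⟨Net.self_mem_cls (hC.sub hma), ca⟩
          · exact ⟨Net.mem_cls.2 ⟨hC.sub hmb, Wa_cn hl'⟩, cb⟩
      by_cases hS : S (s ∘ em) w (some a) = true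
      · refine ⟨some a, mem_stC.2 ⟨haL, hau, hS, hqC⟩, ecls.symm, ?_⟩
        rw [← ecls, hends, hb']; rfl
      · refine ⟨M (s ∘ em) w (some a), mem_stC.2 ⟨hI.mem _ haL, hI.Mu haL hau, ?_, ?_⟩, ?_, ?_⟩
        · rw [hI.S_M haL hau]; simpa using hS
        · rw [hb']; exact hmb
        · rw [← ecls, hb']
          exact (Net.cls_eq_of_mem hN (hC.sub hma) (Net.mem_cls.2 ⟨hC.sub hmb, Wa_cn hl'⟩)).symm
        · rw [← ecls, hends, hI.inv _ haL, hb', pair_comm]; rfl
  · right
    obtain ⟨h1, h2, h3, h4⟩ := mem_stC.1 hx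
    obtain ⟨a, b, l, rfl, hb, hl, hma, hmb, ca, cb, -⟩ := arc_mem P E hN hC hCe h1 h2 h4
    refine ⟨_, hx, rfl, ?_⟩
    rw [hb]
    ext r
    simp only [Net.ends, mem_filter, mem_insert, mem_singleton]
    constructor
    · rintro ⟨h5, h6⟩
      exact arc_ends hN (hC.sub hma) hl ca cb h5 h6
    · rintro (rfl | rfl)
      · exact ⟨Net.self_mem_cls (hC.sub hma), ca⟩
      · exact ⟨Net.mem_cls.2 ⟨hC.sub hmb, Wa_cn hl⟩, cb⟩

/-- **the full network of a word, every splitting** -/
theorem zv_full (P : Phs be ch w em σ g c) (E : Emb A be w em) (G : Lg be ch w em σ g x0)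
    (hN : (tnet A s be ch).Ok) (hA : ports A ⊆ ep em w) (hx0 : x0 ∈ ports A) :
    (tnet A s be ch).zv (tnet A s be ch).V x0 false =
      ((Real.sqrt 3 : ℝ) : ℂ) ^ (((tnet A s be ch).ends (tnet A s be ch).V).card / 2 - 1) *
        (ei (Real.pi / 12) * star (hL (s ∘ em) w c)) := by
  have hV : (tnet A s be ch).Cl (tnet A s be ch).V := hN.clV
  have h1 := zv_hL P E G hN hV hA hx0 fun x hx hxu _ hm => by
    exfalso
    apply hm
    cases x with
    | none =>
      obtain ⟨a, b, l, ha, -⟩ := P.arc (s := s) E hx hxu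
      exact absurd ha (by simp)
    | some a => exact mem_ports.2 (E.mem _ ((mem_L E.ok a).1 hx).1)
  have h2 := card_ends_leg P E G hN hV hA hx0
  have h3 : (tnet A s be ch).ends (tnet A s be ch).V =
      (tnet A s be ch).V.filter fun q => be q = q := rfl
  rw [h3, h2, h1]
  have h4 : (2 * (stC s w em (tnet A s be ch).V).card + 2) / 2 - 1 =
      (stC s w em (tnet A s be ch).V).card := by omega
  rw [h4]
  ring


/-- **the normalised values class by class** -/
theorem zn_full (P : Phs be ch w em σ g c) (E : Emb A be w em) (G : Lg be ch w em σ g x0)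
    (hN : (tnet A s be ch).Ok) (hA : ports A ⊆ ep em w) (hx0 : x0 ∈ ports A)
    {d : Finset (Port T)}
    (hd : d ∈ ((tnet A s be ch).classes (tnet A s be ch).V).erase ((tnet A s be ch).cls x0)) :
    ((tnet A s be ch).ends d = ∅ ∧ (tnet A s be ch).zn d = 1) ∨
      ∃ x ∈ L w, x ≠ u (s ∘ em) w ∧ S (s ∘ em) w x = true ∧
        (tnet A s be ch).ends d = {po em x, po em (M (s ∘ em) w x)} ∧
        (tnet A s be ch).zn d = ((wr (c (M (s ∘ em) w x) - c x) : ℝ) : ℂ) := by
  obtain ⟨hne, hd⟩ := mem_erase.1 hd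
  obtain ⟨p, hp, rfl⟩ := mem_image.1 hd
  have hcl := Net.cls_cl hN x0
  have hC : (tnet A s be ch).Cl ((tnet A s be ch).V \ (tnet A s be ch).cls x0) :=
    hN.clV.sdiff hN hcl
  have hCe : (tnet A s be ch).V \ (tnet A s be ch).cls x0 ⊆ ep em w := sdiff_subset.trans hA
  have hpC : p ∈ (tnet A s be ch).V \ (tnet A s be ch).cls x0 := by
    refine mem_sdiff.2 ⟨hp, fun h => hne (Net.cls_eq_of_mem hN hx0 h)⟩
  have hx0' := G.not_mem (C := (tnet A s be ch).V \ (tnet A s be ch).cls x0) fun h =>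
    (mem_sdiff.1 h).2 (Net.self_mem_cls hx0)
  have hd' : (tnet A s be ch).cls p ∈
      (tnet A s be ch).classes ((tnet A s be ch).V \ (tnet A s be ch).cls x0) :=
    mem_image_of_mem _ hpC
  rcases class_word' P E hN hC hCe hx0' hd' with ⟨h1, h2⟩ | ⟨x, hx, h1, h2⟩
  · refine Or.inl ⟨h1, ?_⟩
    unfold Net.zn
    rw [h1, if_neg (by simp), h2]
  · right
    have h3 := z_arc_word P E hN hC hCe hx
    obtain ⟨k1, k2, k3, k4⟩ := mem_stC.1 hx
    refine ⟨x, k1, k2, k3, h2, ?_⟩
    unfold Net.zn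
    rw [h2, if_pos (by simp), h1, h3, Complex.ofReal_mul, mul_div_cancel_left₀ _ Net.sqrt3_ne]

/-- arcs that see no charge have value one -/
lemma wr_eq_one {a b : ℝ} (h : a = b) : ((wr (a - b) : ℝ) : ℂ) = 1 := by
  rw [h, sub_self, wr_zero, Complex.ofReal_one]

end Crest.Agent.R158.Pc194
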