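import Crest.Agent.R158.Gc3_748
import Crest.Agent.R158.Gc4_748

-- ▼ part R158/Gc5_748
section

/-!
# R158 block GC, part 5: arcs of a region versus literal face paths

`K` a region of `Xr249`, `w` a word of `K` (`RW K w b`), `s` a splitting, `M = Sw300.M s w`.
* `arcs_of_fp` : two gaps joined by a face path in the region ⟹ no arc joins the two parts
* `fp_of_arcs` : the converse
* `arm_fp` : no arc over a gap from `m1` to `m2` ⟹ face path to the outer part
* `side_fp` : both faces along an arc are joined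
* `M_none`, `M_fix` : the marker is the only unmatched end
* rectangles: `rectRW`, `rect_full`, `wall_*`
-/

set_option autoImplicit false

namespace Crest.Agent.R158.Gc748

open Crest.Agent.R158.Sw300 (Port Wd thru tl sd tls)
open Crest.Agent.R158.Cb771 (FS FP dgt)
open Crest.Agent.R158.Mr679 (Dg tb)

/-! ### the marker -/

section

variable {T : Type*} [DecidableEq T]

theorem M_none (s : T → Bool) : ∀ {w : Wd T}, Sw300.Ok w → bs w ≠ none → Sw300.M s w none = none
  | .leg, _, h => absurd rfl h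
  | .tile t, _, _ => by simp [Sw300.M]
  | .att w p t d, hw, h => by
    have hp : p ≠ none := fun e => by
      have := hw.2.2.2 e
      rw [this] at h
      exact h rfl
    have ih := M_none s hw.1 h
    simp only [Sw300.M, Sw300.tl_none, ih]
    rw [if_neg (by simp), if_neg (Ne.symm hp)]
  | .con w p q, hw, h => by
    have ih := M_none s hw.1 h
    simp only [Sw300.M, ih]
    rw [if_neg (Ne.symm hw.2.1), if_neg (Ne.symm hw.2.2.1)]

/-- in a word without leg the marker is the only unmatched end -/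
theorem M_fix (s : T → Bool) {w : Wd T} (hw : Sw300.Ok w) (hb : bs w ≠ none) {p : Port T}
    (hp : p ∈ Sw300.L w) (h : Sw300.M s w p = p) : p = none := by
  have g := gd_wd s hw
  rcases g.leg p hp h with h1 | ⟨z, h1, _⟩
  · exact h1
  · exfalso
    have h2 := ((be_state hw).gl none z).1 h1
    have h3 : ∀ {w : Wd T}, Sw300.Ok w → bs w ≠ none → Sw300.be w none = none := by
      intro w
      induction w with
      | leg => intro _ h; exact absurd rfl h
      | tile t => intro _ _; rfl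
      | att w p t d ih =>
        intro hw h
        have hp : p ≠ none := fun e => by
          have := hw.2.2.2 e
          rw [this] at h
          exact h rfl
        simp only [Sw300.be, if_neg (Ne.symm hp)]
        rw [if_neg (by simp)]
        exact ih hw.1 h
      | con w p q ih =>
        intro hw h
        simp only [Sw300.be, if_neg (Ne.symm hw.2.1), if_neg (Ne.symm hw.2.2.1)]
        exact ih hw.1 h
    exact h2.2 (by rw [← h2.1, h3 hw hb])

end

/-! ### regions -/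

variable {K : Xr249.Reg} {w : Wd (ℤ × ℤ)} {b : ℤ × ℤ} {s : ℤ × ℤ → Bool}

/-- the faces on the left and on the right of an arc are joined in the region -/
theorem side_fp (h : RW K w b) {p : Port (ℤ × ℤ)} (hp : p ∈ Sw300.L w) :
    FP s (fun t => t ∈ K.P) (fa (b + off 0) (rc p)) (fa (b + off 0) (lc (Sw300.M s w p))) := by
  have g := h.gd s
  refine fp_of_R h (g.side p hp) ?_
  match p, g.inL p hp with
  | none, hT => exact hT
  | some (t, d), hT => rw [rc_some]; exact inT_pt.2 (inT_pt.1 hT)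

/-- **no arc crosses a face path**: two gaps joined by a face path of the region -/
theorem arcs_of_fp (h : RW K w b) (hf : ∀ x y, FullAt K x y) {t t' : ℤ × ℤ} {k k' : ZMod 4}
    {m m' : List (Port (ℤ × ℤ))} (hr : Sw300.L w ~r (some (t, k) :: m) ++ (some (t', k') :: m'))
    (hp : FP s (fun t => t ∈ K.P) (t + off k) (t' + off k')) :
    ∀ y ∈ some (t, k) :: m, Sw300.M s w y ∈ some (t, k) :: m := by
  have g := h.gd s
  have h1 : (some (t, k) : Port (ℤ × ℤ)) ∈ Sw300.L w := hr.mem_iff.2 (by simp)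
  have h2 : (some (t', k') : Port (ℤ × ℤ)) ∈ Sw300.L w := hr.mem_iff.2 (by simp)
  have ht : t ∈ K.P := h.ts.1 (inT_pt.1 (g.inL _ h1))
  have ht' : t' ∈ K.P := h.ts.1 (inT_pt.1 (g.inL _ h2))
  exact (g.conn_iff' hr).1 (R_of_fp h hf hp ht ht' rfl rfl)


/-- **arm**: no arc joins `m1` to `m2` ⟹ the gap between them is joined to a face next to an end of
the outer part `o` -/
theorem arm_fp (h : RW K w b) {m1 m2 o : List (Port (ℤ × ℤ))}
    (hr : Sw300.L w ~r m1 ++ (m2 ++ o)) (ho : o ≠ [])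
    (hno : ∀ y ∈ m1, Sw300.M s w y ∉ m2) :
    ∃ v ∈ o, FP s (fun t => t ∈ K.P) (fa (b + off 0) ((m2 ++ o).headD none))
        (fa (b + off 0) (lc v)) ∨
      FP s (fun t => t ∈ K.P) (fa (b + off 0) ((m2 ++ o).headD none)) (fa (b + off 0) (rc v)) := by
  have g := (h.gd s).rotated hr
  obtain ⟨v, hv, h1⟩ := g.arm ho hno
  have hin : inT (ts w) ((m2 ++ o).headD none) := by
    cases hm : m2 ++ o with
    | nil => exact absurd (List.append_eq_nil_iff.1 hm).2 ho
    | cons z m' => exact g.inL z (by rw [hm]; simp)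
  exact ⟨v, hv, h1.imp (fun h2 => fp_of_R h h2 hin) (fun h2 => fp_of_R h h2 hin)⟩

/-! ### rectangles -/

variable {x0 y0 : ℤ} {m n : ℕ}

theorem rect_full (x y : ℤ) : FullAt (rect x0 y0 m n) x y := by
  refine ⟨?_, ?_, ?_, ?_, ?_, ?_⟩
  · intro h h'
    rw [mem_rect] at h h'; rw [rect_h]; simp only at h h'; omega
  · intro h h'
    rw [mem_rect] at h h'; rw [rect_h]; simp only at h h'; omega
  · intro h h'
    rw [mem_rect] at h h'; rw [rect_v]; simp only at h h'; omega
  · intro h h'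
    rw [mem_rect] at h h'; rw [rect_v]; simp only at h h'; omega
  · intro h h'
    rw [mem_rect] at h h'; rw [mem_rect, mem_rect]; simp only at h h' ⊢; omega
  · intro h h'
    rw [mem_rect] at h h'; rw [mem_rect, mem_rect]; simp only at h h' ⊢; omega

/-- **the rectangle word** -/
theorem rectRW (x0 y0 : ℤ) (m n : ℕ) : ∃ w, RW (rect x0 y0 m n) w (x0, y0) ∧
    Sw300.L w = none :: (wS x0 y0 n ++ (nS x0 y0 m n ++ (eS x0 y0 m n ++ sS x0 y0 m))) := by
  obtain ⟨w, h1, _, h3, h4, h5, h6⟩ := rect_word x0 y0 m n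
  exact ⟨w, ⟨h1, by rw [← bas_eq]; exact h3, h4, h5⟩, h6⟩

/-- splitting the list `f 0, …, f m` before `f i` -/
theorem fl_split {α : Type*} (f : ℕ → α) : ∀ (m i : ℕ), i ≤ m →
    ∃ l1 l2, fl f m = l1 ++ f i :: l2 ∧ (∀ x, x ∈ l1 ↔ ∃ j < i, x = f j) ∧
      ∀ x, x ∈ l2 ↔ ∃ j, i < j ∧ j ≤ m ∧ x = f j
  | 0, i, h => by
    have : i = 0 := by omega
    subst this
    refine ⟨[], [], rfl, by simp, fun x => ⟨by simp, ?_⟩⟩
    rintro ⟨j, h1, h2, _⟩; omega
  | m + 1, i, h => by
    rcases Nat.lt_or_ge i (m + 1) with h1 | h1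
    · obtain ⟨l1, l2, e, h2, h3⟩ := fl_split f m i (by omega)
      refine ⟨l1, l2 ++ [f (m + 1)], by simp only [fl, e]; simp, h2, fun x => ?_⟩
      rw [List.mem_append, h3, List.mem_singleton]
      constructor
      · rintro (⟨j, hj1, hj2, hj3⟩ | hx)
        · exact ⟨j, hj1, by omega, hj3⟩
        · exact ⟨m + 1, by omega, le_rfl, hx⟩
      · rintro ⟨j, hj1, hj2, hj3⟩
        rcases Nat.lt_or_ge j (m + 1) with h4 | h4
        · exact Or.inl ⟨j, hj1, by omega, hj3⟩
        · exact Or.inr (by rw [hj3, show j = m + 1 by omega])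
    · have : i = m + 1 := by omega
      subst this
      refine ⟨fl f m, [], by simp only [fl], fun x => ?_, fun x => ⟨by simp, ?_⟩⟩
      · rw [mem_fl]
        exact ⟨fun ⟨j, hj, hx⟩ => ⟨j, by omega, hx⟩, fun ⟨j, hj, hx⟩ => ⟨j, by omega, hx⟩⟩
      · rintro ⟨j, h1, h2, _⟩; omega

/-! ### one side of the ring -/

section side

variable {f : ℕ → Port (ℤ × ℤ)} {M0 : ℕ} {A : List (Port (ℤ × ℤ))}

/-- no arc of the side passes over the gap before `f i0` ⟹ the gap is joined to the outer part -/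
theorem side_arm (h : RW K w b) (hr : Sw300.L w ~r fl f M0 ++ A) (hA : A ≠ []) {i0 : ℕ}
    (h0 : i0 ≤ M0)
    (hno : ∀ i j, i < i0 → i0 ≤ j → j ≤ M0 → Sw300.M s w (f i) ≠ f j) :
    ∃ v ∈ A, FP s (fun t => t ∈ K.P) (fa (b + off 0) (f i0)) (fa (b + off 0) (lc v)) ∨
      FP s (fun t => t ∈ K.P) (fa (b + off 0) (f i0)) (fa (b + off 0) (rc v)) := by
  obtain ⟨l1, l2, e, h1, h2⟩ := fl_split f M0 i0 h0
  have hr' : Sw300.L w ~r l1 ++ ((f i0 :: l2) ++ A) := by
    rw [e] at hr; simpa using hr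
  obtain ⟨v, hv, h3⟩ := arm_fp (s := s) h hr' hA (by
    intro y hy hM
    obtain ⟨i, hi, rfl⟩ := (h1 y).1 hy
    rcases List.mem_cons.1 hM with hM | hM
    · exact hno i i0 hi le_rfl h0 hM
    · obtain ⟨j, hj1, hj2, hj3⟩ := (h2 _).1 hM
      exact hno i j hi (by omega) hj2 hj3)
  exact ⟨v, hv, h3⟩

/-- a face path from the gap before `f i0` to an outer gap ⟹ no arc of the side passes over it -/
theorem side_cross (h : RW K w b) (hf : ∀ x y, FullAt K x y) (hr : Sw300.L w ~r fl f M0 ++ A)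
    {i0 : ℕ} (h0 : i0 ≤ M0) {v : Port (ℤ × ℤ)} (hv : v ∈ A) (hvn : v ≠ none) (hfn : f i0 ≠ none)
    (hp : FP s (fun t => t ∈ K.P) (fa (b + off 0) (f i0)) (fa (b + off 0) v)) :
    ∀ i j, i < i0 → i0 ≤ j → j ≤ M0 → Sw300.M s w (f i) ≠ f j := by
  obtain ⟨l1, l2, e, h1, h2⟩ := fl_split f M0 i0 h0
  obtain ⟨A1, A2, hA⟩ := List.append_of_mem hv
  have g := h.gd s
  intro i j hi hj1 hj2 hM
  obtain ⟨⟨t, k⟩, hv'⟩ := Option.ne_none_iff_exists'.1 hvn
  obtain ⟨⟨t', k'⟩, hf'⟩ := Option.ne_none_iff_exists'.1 hfn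
  have hr' : Sw300.L w ~r (v :: (A2 ++ l1)) ++ (f i0 :: (l2 ++ A1)) := by
    refine hr.trans ?_
    rw [e, hA]
    have := rot_app (l1 ++ f i0 :: l2 ++ A1) (v :: A2)
    simpa using this
  have hnd := (g.rotated hr').nodup
  rw [hv', hf'] at hr' hp
  have := arcs_of_fp h hf hr' (FP.symm (by simpa using hp)) (f i) (by
    refine List.mem_cons_of_mem _ (List.mem_append_right _ ((h1 _).2 ⟨i, hi, rfl⟩)))
  rw [hM, ← hv'] at this
  have hj : f j ∈ f i0 :: (l2 ++ A1) := by
    rcases Nat.lt_or_ge i0 j with h3 | h3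
    · exact List.mem_cons_of_mem _ (List.mem_append_left _ ((h2 _).2 ⟨j, h3, hj2, rfl⟩))
    · have : j = i0 := by omega
      rw [this]; simp
  exact (List.nodup_append.1 hnd).2.2 _ this _ hj rfl

/-- two gaps of the side joined by a face path ⟹ the ends between them are matched among
themselves -/
theorem side_match (h : RW K w b) (hf : ∀ x y, FullAt K x y) (hr : Sw300.L w ~r fl f M0 ++ A)
    {i0 i1 : ℕ} (h01 : i0 < i1) (h1 : i1 ≤ M0) (hfn : ∀ i, f i ≠ none)
    (hp : FP s (fun t => t ∈ K.P) (fa (b + off 0) (f i0)) (fa (b + off 0) (f i1))) :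
    ∀ i, i0 ≤ i → i < i1 → ∃ j, i0 ≤ j ∧ j < i1 ∧ Sw300.M s w (f i) = f j := by
  obtain ⟨l1, l2, e, k1, k2⟩ := fl_split f M0 i1 h1
  obtain ⟨l3, l4, e', k3, k4⟩ := fl_split f (i1 - 1) i0 (by omega)
  have e1 : l1 = l3 ++ f i0 :: l4 := by
    -- both are `fl f (i1 - 1)`
    have key : ∀ (n i : ℕ) (l1 l2 : List (Port (ℤ × ℤ))), i ≤ n → 0 < i → fl f n = l1 ++ f i :: l2 →
        (∀ x, x ∈ l1 ↔ ∃ j < i, x = f j) → (fl f n).Nodup → l1 = fl f (i - 1) := by
      intro n i l1 l2 hin hi hE hl1 hnd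
      obtain ⟨a1, a2, ha, _, _⟩ := fl_split f n i hin
      -- prefix of `fl f n`
      have pre : ∀ n i, i ≤ n → ∃ l, fl f n = fl f i ++ l := by
        intro n
        induction n with
        | zero => intro i hi; exact ⟨[], by rw [show i = 0 by omega]; simp⟩
        | succ n ih =>
          intro i hi
          rcases Nat.lt_or_ge i (n + 1) with h3 | h3
          · obtain ⟨l, hl⟩ := ih i (by omega)
            exact ⟨l ++ [f (n + 1)], by simp only [fl, hl]; simp⟩
          · exact ⟨[], by rw [show i = n + 1 by omega]; simp⟩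
      obtain ⟨l, hl⟩ := pre n i hin
      have hi' : i - 1 + 1 = i := by omega
      have e2 : fl f n = fl f (i - 1) ++ f i :: l := by
        rw [hl]
        conv_lhs => rw [← hi']
        simp only [fl, hi']; simp
      rw [e2] at hE
      rw [e2] at hnd
      -- `f i` occurs once
      have hn1 : f i ∉ fl f (i - 1) := by
        intro hm
        exact (List.nodup_append.1 hnd).2.2 _ hm _ (by simp) rfl
      have hn2 : f i ∉ l1 := by
        rw [hE] at hnd
        intro hm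
        exact (List.nodup_append.1 hnd).2.2 _ hm _ (by simp) rfl
      have uniq : ∀ (a b c d : List (Port (ℤ × ℤ))) (x : Port (ℤ × ℤ)), x ∉ a → x ∉ c →
          a ++ x :: b = c ++ x :: d → a = c := by
        intro a
        induction a with
        | nil =>
          intro b c d x _ hc h
          cases c with
          | nil => rfl
          | cons y c =>
            simp only [List.nil_append, List.cons_append, List.cons.injEq] at h
            exact absurd (by rw [h.1]; simp) hc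
        | cons y a ih =>
          intro b c d x ha hc h
          cases c with
          | nil =>
            simp only [List.nil_append, List.cons_append, List.cons.injEq] at h
            exact absurd (by rw [h.1]; simp) ha
          | cons z c =>
            simp only [List.cons_append, List.cons.injEq] at h
            rw [h.1, ih b c d x (fun hm => ha (by simp [hm])) (fun hm => hc (by simp [hm])) h.2]
      exact (uniq _ _ _ _ _ hn1 hn2 hE).symm
    have hnd : (fl f M0).Nodup := by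
      have := ((h.gd s).rotated hr).nodup
      exact (List.nodup_append.1 this).1
    rw [key M0 i1 l1 l2 h1 (by omega) e k1 hnd, e']
  have hr' : Sw300.L w ~r (f i0 :: l4) ++ (f i1 :: (l2 ++ (A ++ l3))) := by
    refine hr.trans ?_
    rw [e, e1]
    have := rot_app l3 ((f i0 :: l4) ++ (f i1 :: l2) ++ A)
    simpa using this
  obtain ⟨⟨t, k⟩, hv'⟩ := Option.ne_none_iff_exists'.1 (hfn i0)
  obtain ⟨⟨t', k'⟩, hf'⟩ := Option.ne_none_iff_exists'.1 (hfn i1)
  have hcl : ∀ y ∈ f i0 :: l4, Sw300.M s w y ∈ f i0 :: l4 := by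
    rw [hv', hf'] at hp hr'
    rw [hv']
    exact arcs_of_fp h hf hr' (by simpa using hp)
  intro i hi0 hi1
  have hmem : ∀ j, i0 ≤ j → j < i1 → f j ∈ f i0 :: l4 := by
    intro j hj0 hj1
    rcases Nat.lt_or_ge i0 j with h3 | h3
    · exact List.mem_cons_of_mem _ ((k4 _).2 ⟨j, h3, by omega, rfl⟩)
    · rw [show j = i0 by omega]; simp
  have := hcl _ (hmem i hi0 hi1)
  rcases List.mem_cons.1 this with h3 | h3
  · exact ⟨i0, le_rfl, h01, h3⟩
  · obtain ⟨j, hj1, hj2, hj3⟩ := (k4 _).1 h3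
    exact ⟨j, by omega, by omega, hj3⟩


end side

end Crest.Agent.R158.Gc748
end

-- ▼ part R158/Gc6_748

/-!
# R158 block GC, part 6: boxes at a flat wall

`rectW x0 y0 m n` = word of the box of tiles `[x0, x0+m] × [y0, y0+n]`, `BM s x0 y0 m n` = its
partner map.  Floor ends `((c, y0), 3)`, ceiling ends `((c, y0+n), 1)`; the floor gap between the
columns `c` and `c+1` is the face `(c, y0-1)`, the ceiling gap is `(c, y0+n)`.
* `floor_arm` / `ceil_arm`   : no arc over the gap ⟹ face path inside the box to the outer sides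
* `floor_cross` / `ceil_cross` : a face path to the outer sides ⟹ no arc over the gap
* `floor_match` / `ceil_match` : two joined gaps ⟹ the ends between are matched among themselves
* `floor_out` / `ceil_out`   : an end matched outside of the wall has both gaps joined to the outer
  sides
-/

set_option autoImplicit false

namespace Crest.Agent.R158.Gc748

open Crest.Agent.R158.Sw300 (Port Wd thru tl sd tls)
open Crest.Agent.R158.Cb771 (FS FP dgt)

/-- the word of the box -/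
noncomputable def rectW (x0 y0 : ℤ) (m n : ℕ) : Wd (ℤ × ℤ) := (rectRW x0 y0 m n).choose

theorem rectW_rw (x0 y0 : ℤ) (m n : ℕ) : RW (rect x0 y0 m n) (rectW x0 y0 m n) (x0, y0) :=
  (rectRW x0 y0 m n).choose_spec.1

theorem rectW_L (x0 y0 : ℤ) (m n : ℕ) : Sw300.L (rectW x0 y0 m n) =
    none :: (wS x0 y0 n ++ (nS x0 y0 m n ++ (eS x0 y0 m n ++ sS x0 y0 m))) :=
  (rectRW x0 y0 m n).choose_spec.2

/-- partner map of the box -/
noncomputable def BM (s : ℤ × ℤ → Bool) (x0 y0 : ℤ) (m n : ℕ) : Port (ℤ × ℤ) → Port (ℤ × ℤ) :=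
  Sw300.M s (rectW x0 y0 m n)

variable {x0 y0 : ℤ} {m n : ℕ} {s : ℤ × ℤ → Bool}

/-- tiles of the box -/
def InR (x0 y0 : ℤ) (m n : ℕ) (t : ℤ × ℤ) : Prop :=
  x0 ≤ t.1 ∧ t.1 ≤ x0 + m ∧ y0 ≤ t.2 ∧ t.2 ≤ y0 + n

theorem inR_eq : (fun t => t ∈ (rect x0 y0 m n).P) = InR x0 y0 m n := by
  funext t; exact propext mem_rect

theorem base_face : ((x0, y0) : ℤ × ℤ) + off 0 = (x0 - 1, y0 - 1) := by
  simp only [off_0, Prod.mk_add_mk]; rfl

/-- rest of the ring after the floor -/
def oF (x0 y0 : ℤ) (m n : ℕ) : List (Port (ℤ × ℤ)) :=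
  none :: (wS x0 y0 n ++ (nS x0 y0 m n ++ eS x0 y0 m n))

/-- rest of the ring after the ceiling -/
def oC (x0 y0 : ℤ) (m n : ℕ) : List (Port (ℤ × ℤ)) :=
  eS x0 y0 m n ++ (sS x0 y0 m ++ (none :: wS x0 y0 n))

theorem ring_floor : Sw300.L (rectW x0 y0 m n) ~r sS x0 y0 m ++ oF x0 y0 m n := by
  rw [rectW_L]
  have := rot_app (oF x0 y0 m n) (sS x0 y0 m)
  simpa [oF] using this

theorem ring_ceil : Sw300.L (rectW x0 y0 m n) ~r nS x0 y0 m n ++ oC x0 y0 m n := by
  rw [rectW_L]
  have := rot_app (none :: wS x0 y0 n) (nS x0 y0 m n ++ (eS x0 y0 m n ++ sS x0 y0 m))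
  simpa [oC] using this

theorem mem_wS {p : Port (ℤ × ℤ)} : p ∈ wS x0 y0 n ↔
    ∃ y, y0 ≤ y ∧ y ≤ y0 + n ∧ p = some ((x0, y), 0) := by
  unfold wS
  rw [mem_fl]
  constructor
  · rintro ⟨i, hi, rfl⟩; exact ⟨y0 + i, by omega, by omega, rfl⟩
  · rintro ⟨y, h1, h2, rfl⟩
    refine ⟨(y - y0).toNat, by omega, ?_⟩
    rw [show y0 + (((y - y0).toNat : ℕ) : ℤ) = y by omega]

theorem mem_nS {p : Port (ℤ × ℤ)} : p ∈ nS x0 y0 m n ↔
    ∃ x, x0 ≤ x ∧ x ≤ x0 + m ∧ p = some ((x, y0 + n), 1) := by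
  unfold nS
  rw [mem_fl]
  constructor
  · rintro ⟨i, hi, rfl⟩; exact ⟨x0 + i, by omega, by omega, rfl⟩
  · rintro ⟨x, h1, h2, rfl⟩
    refine ⟨(x - x0).toNat, by omega, ?_⟩
    rw [show x0 + (((x - x0).toNat : ℕ) : ℤ) = x by omega]

theorem mem_eS {p : Port (ℤ × ℤ)} : p ∈ eS x0 y0 m n ↔
    ∃ y, y0 ≤ y ∧ y ≤ y0 + n ∧ p = some ((x0 + m, y), 2) := by
  unfold eS
  rw [mem_fl]
  constructor
  · rintro ⟨i, hi, rfl⟩; exact ⟨y0 + n - i, by omega, by omega, rfl⟩
  · rintro ⟨y, h1, h2, rfl⟩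
    refine ⟨(y0 + n - y).toNat, by omega, ?_⟩
    rw [show y0 + n - (((y0 + n - y).toNat : ℕ) : ℤ) = y by omega]

theorem mem_sS {p : Port (ℤ × ℤ)} : p ∈ sS x0 y0 m ↔
    ∃ x, x0 ≤ x ∧ x ≤ x0 + m ∧ p = some ((x, y0), 3) := by
  unfold sS
  rw [mem_fl]
  constructor
  · rintro ⟨i, hi, rfl⟩; exact ⟨x0 + m - i, by omega, by omega, rfl⟩
  · rintro ⟨x, h1, h2, rfl⟩
    refine ⟨(x0 + m - x).toNat, by omega, ?_⟩
    rw [show x0 + m - (((x0 + m - x).toNat : ℕ) : ℤ) = x by omega]

/-- the outer faces of the box seen from the floor -/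
def OutF (x0 y0 : ℤ) (m n : ℕ) (F : ℤ × ℤ) : Prop := F.1 = x0 - 1 ∨ F.1 = x0 + m ∨ F.2 = y0 + n

/-- the outer faces of the box seen from the ceiling -/
def OutC (x0 y0 : ℤ) (m : ℕ) (F : ℤ × ℤ) : Prop := F.1 = x0 - 1 ∨ F.1 = x0 + m ∨ F.2 = y0 - 1

theorem oF_out {v : Port (ℤ × ℤ)} (hv : v ∈ oF x0 y0 m n) :
    OutF x0 y0 m n (fa (x0 - 1, y0 - 1) (lc v)) ∧ OutF x0 y0 m n (fa (x0 - 1, y0 - 1) (rc v)) := by
  have a1 : (0 : ZMod 4) + 1 = 1 := by decide
  have a2 : (1 : ZMod 4) + 1 = 2 := by decide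
  have a3 : (2 : ZMod 4) + 1 = 3 := by decide
  simp only [oF, List.mem_cons, List.mem_append, mem_wS, mem_nS, mem_eS] at hv
  rcases hv with rfl | ⟨y, _, _, rfl⟩ | ⟨x, _, _, rfl⟩ | ⟨y, _, _, rfl⟩
  · exact ⟨Or.inl rfl, Or.inl rfl⟩
  · simp only [lc_some, rc_some, fa_some, a1, off_0, off_1, Prod.mk_add_mk, OutF]
    exact ⟨Or.inl (by ring), Or.inl (by ring)⟩
  · simp only [lc_some, rc_some, fa_some, a2, off_1, off_2, Prod.mk_add_mk, OutF]
    exact ⟨Or.inr (Or.inr (by ring)), Or.inr (Or.inr (by ring))⟩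
  · simp only [lc_some, rc_some, fa_some, a3, off_2, off_3, Prod.mk_add_mk, OutF]
    exact ⟨Or.inr (Or.inl (by ring)), Or.inr (Or.inl (by ring))⟩

theorem oC_out {v : Port (ℤ × ℤ)} (hv : v ∈ oC x0 y0 m n) :
    OutC x0 y0 m (fa (x0 - 1, y0 - 1) (lc v)) ∧ OutC x0 y0 m (fa (x0 - 1, y0 - 1) (rc v)) := by
  have a1 : (0 : ZMod 4) + 1 = 1 := by decide
  have a3 : (2 : ZMod 4) + 1 = 3 := by decide
  have a4 : (3 : ZMod 4) + 1 = 0 := by decide
  simp only [oC, List.mem_cons, List.mem_append, mem_wS, mem_sS, mem_eS] at hv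
  rcases hv with ⟨y, _, _, rfl⟩ | ⟨x, _, _, rfl⟩ | rfl | ⟨y, _, _, rfl⟩
  · simp only [lc_some, rc_some, fa_some, a3, off_2, off_3, Prod.mk_add_mk, OutC]
    exact ⟨Or.inr (Or.inl (by ring)), Or.inr (Or.inl (by ring))⟩
  · simp only [lc_some, rc_some, fa_some, a4, off_3, off_0, Prod.mk_add_mk, OutC]
    exact ⟨Or.inr (Or.inr (by ring)), Or.inr (Or.inr (by ring))⟩
  · exact ⟨Or.inl rfl, Or.inl rfl⟩
  · simp only [lc_some, rc_some, fa_some, a1, off_0, off_1, Prod.mk_add_mk, OutC]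
    exact ⟨Or.inl (by ring), Or.inl (by ring)⟩

/-- a face path inside the box stays on faces of the box -/
theorem fp_face {F G : ℤ × ℤ} (h : FP s (InR x0 y0 m n) F G) (hne : F ≠ G) :
    (x0 - 1 ≤ G.1 ∧ G.1 ≤ x0 + m ∧ y0 - 1 ≤ G.2 ∧ G.2 ≤ y0 + n) := by
  rcases Relation.ReflTransGen.cases_tail h with h | ⟨c, _, h⟩
  · exact absurd h.symm hne
  · obtain ⟨⟨x, y⟩, k, hQ, _, e, _⟩ := fs_corner h
    unfold InR at hQ
    simp only at hQ
    rcases Xr249.Reg.d4 (k + 2) with h1 | h1 | h1 | h1 <;> rw [h1] at e <;>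
      simp only [off_0, off_1, off_2, off_3, Prod.mk_add_mk] at e <;> rw [e] <;> simp only <;> omega

/-! ### floor -/

theorem floor_arm {c : ℤ} (h0 : x0 - 1 ≤ c) (h1 : c ≤ x0 + m)
    (hno : ∀ i j : ℤ, c < i → i ≤ x0 + m → x0 ≤ j → j ≤ c →
      BM s x0 y0 m n (some ((i, y0), 3)) ≠ some ((j, y0), 3)) :
    ∃ G, FP s (InR x0 y0 m n) (c, y0 - 1) G ∧ OutF x0 y0 m n G := by
  rcases eq_or_lt_of_le h0 with e | h2
  · exact ⟨_, FP.refl, Or.inl e.symm⟩
  have h := rectW_rw x0 y0 m n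
  obtain ⟨v, hv, h3⟩ := side_arm (s := s) h (f := fun i : ℕ => some ((x0 + m - i, y0), 3))
    (M0 := m) ring_floor (by simp [oF]) (i0 := (x0 + m - c).toNat) (by omega) (by
      intro i j hi hj1 hj2
      exact hno (x0 + m - i) (x0 + m - j) (by omega) (by omega) (by omega) (by omega))
  rw [inR_eq, base_face] at h3
  have e1 : fa (x0 - 1, y0 - 1)
      ((fun i : ℕ => (some ((x0 + m - i, y0), 3) : Port (ℤ × ℤ))) (x0 + m - c).toNat) =
      (c, y0 - 1) := by
    simp only [fa_some, off_3, Prod.mk_add_mk]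
    rw [show x0 + m - (((x0 + m - c).toNat : ℕ) : ℤ) + 0 = c by omega]; rfl
  rw [e1] at h3
  have h4 := oF_out hv
  rcases h3 with h3 | h3
  · exact ⟨_, h3, h4.1⟩
  · exact ⟨_, h3, h4.2⟩

theorem floor_match {c c' : ℤ} (h0 : x0 ≤ c) (h1 : c < c') (h2 : c' ≤ x0 + m)
    (hp : FP s (InR x0 y0 m n) (c, y0 - 1) (c', y0 - 1)) :
    ∀ i : ℤ, c < i → i ≤ c' → ∃ j, c < j ∧ j ≤ c' ∧
      BM s x0 y0 m n (some ((i, y0), 3)) = some ((j, y0), 3) := by
  have h := rectW_rw x0 y0 m n
  have key : ∀ a : ℤ, x0 ≤ a → a ≤ x0 + m → fa (x0 - 1, y0 - 1)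
      ((fun i : ℕ => (some ((x0 + m - i, y0), 3) : Port (ℤ × ℤ))) (x0 + m - a).toNat) =
      (a, y0 - 1) := by
    intro a h1 h2
    simp only [fa_some, off_3, Prod.mk_add_mk]
    rw [show x0 + m - (((x0 + m - a).toNat : ℕ) : ℤ) + 0 = a by omega]; rfl
  intro i hi1 hi2
  obtain ⟨j, hj1, hj2, hj3⟩ := side_match (s := s) h (rect_full (x0 := x0) (y0 := y0))
    (f := fun i : ℕ => some ((x0 + m - i, y0), 3)) (M0 := m) ring_floor
    (i0 := (x0 + m - c').toNat) (i1 := (x0 + m - c).toNat) (by omega) (by omega)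
    (fun i => by simp) (by
      rw [inR_eq, base_face, key c' (by omega) h2, key c h0 (by omega)]
      exact hp.symm) (x0 + m - i).toNat (by omega) (by omega)
  refine ⟨x0 + m - j, by omega, by omega, ?_⟩
  have e1 : x0 + m - (((x0 + m - i).toNat : ℕ) : ℤ) = i := by omega
  simp only [e1] at hj3
  exact hj3

theorem floor_cross {c : ℤ} (h0 : x0 ≤ c) (h1 : c < x0 + m) {G : ℤ × ℤ}
    (hG : OutF x0 y0 m n G) (hp : FP s (InR x0 y0 m n) (c, y0 - 1) G) :
    ∀ i j : ℤ, c < i → i ≤ x0 + m → x0 ≤ j → j ≤ c →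
      BM s x0 y0 m n (some ((i, y0), 3)) ≠ some ((j, y0), 3) := by
  have h := rectW_rw x0 y0 m n
  intro i j hi1 hi2 hj1 hj2
  have hne : (c, y0 - 1) ≠ G := by
    rintro rfl
    unfold OutF at hG
    simp only at hG
    omega
  have hfc := fp_face hp hne
  by_cases hSE : G = (x0 + m, y0 - 1)
  · -- the corner below the east side
    rw [hSE] at hp
    obtain ⟨j', hj'1, hj'2, hj'3⟩ := floor_match h0 h1 le_rfl hp i hi1 hi2
    rw [hj'3]
    intro e
    simp only [Option.some.injEq, Prod.mk.injEq, and_true] at e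
    omega
  · obtain ⟨v, hv, hvn, hvf⟩ : ∃ v ∈ oF x0 y0 m n, v ≠ none ∧ fa (x0 - 1, y0 - 1) v = G := by
      obtain ⟨g1, g2⟩ := G
      simp only at hfc
      unfold OutF at hG
      simp only at hG
      by_cases k1 : g2 = y0 + n
      · by_cases k2 : g1 = x0 + m
        · refine ⟨some ((x0 + m, y0 + n), 2), ?_, by simp, ?_⟩
          · simp only [oF, List.mem_cons, List.mem_append, mem_eS]
            exact Or.inr (Or.inr (Or.inr ⟨_, by omega, le_rfl, rfl⟩))
          · simp only [fa_some, off_2, Prod.mk_add_mk, Prod.mk.injEq]; omega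
        · refine ⟨some ((g1 + 1, y0 + n), 1), ?_, by simp, ?_⟩
          · simp only [oF, List.mem_cons, List.mem_append, mem_nS]
            exact Or.inr (Or.inr (Or.inl ⟨g1 + 1, by omega, by omega, rfl⟩))
          · simp only [fa_some, off_1, Prod.mk_add_mk, Prod.mk.injEq]; omega
      · by_cases k2 : g1 = x0 - 1
        · refine ⟨some ((x0, g2 + 1), 0), ?_, by simp, ?_⟩
          · simp only [oF, List.mem_cons, List.mem_append, mem_wS]
            exact Or.inr (Or.inl ⟨g2 + 1, by omega, by omega, rfl⟩)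
          · simp only [fa_some, off_0, Prod.mk_add_mk, Prod.mk.injEq]; omega
        · have k3 : g2 ≠ y0 - 1 := fun e => hSE (by
            rw [e]; simp only [Prod.mk.injEq, and_true]; omega)
          refine ⟨some ((x0 + m, g2), 2), ?_, by simp, ?_⟩
          · simp only [oF, List.mem_cons, List.mem_append, mem_eS]
            exact Or.inr (Or.inr (Or.inr ⟨g2, by omega, by omega, rfl⟩))
          · simp only [fa_some, off_2, Prod.mk_add_mk, Prod.mk.injEq]; omega
    have e1 : x0 + m - (((x0 + m - c).toNat : ℕ) : ℤ) = c := by omega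
    have := side_cross (s := s) h (rect_full (x0 := x0) (y0 := y0))
      (f := fun i : ℕ => some ((x0 + m - i, y0), 3)) (M0 := m) ring_floor
      (i0 := (x0 + m - c).toNat) (by omega) hv hvn (by simp) (by
        rw [inR_eq, base_face, hvf]
        simp only [fa_some, off_3, Prod.mk_add_mk, e1]
        rw [show c + 0 = c by ring, show y0 + -1 = y0 - 1 by ring]
        exact hp) (x0 + m - i).toNat (x0 + m - j).toNat (by omega) (by omega) (by omega)
    rw [show x0 + m - (((x0 + m - i).toNat : ℕ) : ℤ) = i by omega,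
      show x0 + m - (((x0 + m - j).toNat : ℕ) : ℤ) = j by omega] at this
    exact this


/-! ### ceiling -/

theorem ceil_key (a : ℤ) (h1 : x0 - 1 ≤ a) : fa (x0 - 1, y0 - 1)
    ((fun i : ℕ => (some ((x0 + i, y0 + n), 1) : Port (ℤ × ℤ))) (a + 1 - x0).toNat) =
    (a, y0 + n) := by
  simp only [fa_some, off_1, Prod.mk_add_mk]
  rw [show x0 + (((a + 1 - x0).toNat : ℕ) : ℤ) + -1 = a by omega, add_zero]

theorem ceil_arm {c : ℤ} (h0 : x0 - 1 ≤ c) (h1 : c ≤ x0 + m)
    (hno : ∀ i j : ℤ, x0 ≤ i → i ≤ c → c < j → j ≤ x0 + m →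
      BM s x0 y0 m n (some ((i, y0 + n), 1)) ≠ some ((j, y0 + n), 1)) :
    ∃ G, FP s (InR x0 y0 m n) (c, y0 + n) G ∧ OutC x0 y0 m G := by
  rcases eq_or_lt_of_le h1 with e | h2
  · exact ⟨_, FP.refl, Or.inr (Or.inl e)⟩
  have h := rectW_rw x0 y0 m n
  obtain ⟨v, hv, h3⟩ := side_arm (s := s) h (f := fun i : ℕ => some ((x0 + i, y0 + n), 1))
    (M0 := m) ring_ceil (by simp [oC]) (i0 := (c + 1 - x0).toNat) (by omega) (by
      intro i j hi hj1 hj2
      exact hno (x0 + i) (x0 + j) (by omega) (by omega) (by omega) (by omega))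
  rw [inR_eq, base_face, ceil_key c h0] at h3
  have h4 := oC_out hv
  rcases h3 with h3 | h3
  · exact ⟨_, h3, h4.1⟩
  · exact ⟨_, h3, h4.2⟩

theorem ceil_match {c c' : ℤ} (h0 : x0 - 1 ≤ c) (h1 : c < c') (h2 : c' < x0 + m)
    (hp : FP s (InR x0 y0 m n) (c, y0 + n) (c', y0 + n)) :
    ∀ i : ℤ, c < i → i ≤ c' → ∃ j, c < j ∧ j ≤ c' ∧
      BM s x0 y0 m n (some ((i, y0 + n), 1)) = some ((j, y0 + n), 1) := by
  have h := rectW_rw x0 y0 m n
  intro i hi1 hi2
  obtain ⟨j, hj1, hj2, hj3⟩ := side_match (s := s) h (rect_full (x0 := x0) (y0 := y0))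
    (f := fun i : ℕ => some ((x0 + i, y0 + n), 1)) (M0 := m) ring_ceil
    (i0 := (c + 1 - x0).toNat) (i1 := (c' + 1 - x0).toNat) (by omega) (by omega)
    (fun i => by simp) (by
      rw [inR_eq, base_face, ceil_key c h0, ceil_key c' (by omega)]
      exact hp) (i - x0).toNat (by omega) (by omega)
  refine ⟨x0 + j, by omega, by omega, ?_⟩
  have e1 : x0 + (((i - x0).toNat : ℕ) : ℤ) = i := by omega
  simp only [e1] at hj3
  exact hj3

theorem ceil_cross {c : ℤ} (h0 : x0 ≤ c) (h1 : c < x0 + m) {G : ℤ × ℤ}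
    (hG : OutC x0 y0 m G) (hp : FP s (InR x0 y0 m n) (c, y0 + n) G) :
    ∀ i j : ℤ, x0 ≤ i → i ≤ c → c < j → j ≤ x0 + m →
      BM s x0 y0 m n (some ((i, y0 + n), 1)) ≠ some ((j, y0 + n), 1) := by
  have h := rectW_rw x0 y0 m n
  intro i j hi1 hi2 hj1 hj2
  have hne : (c, y0 + n) ≠ G := by
    rintro rfl
    unfold OutC at hG
    simp only at hG
    omega
  have hfc := fp_face hp hne
  by_cases hNW : G = (x0 - 1, y0 + n)
  · -- the corner above the west side
    rw [hNW] at hp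
    obtain ⟨j', hj'1, hj'2, hj'3⟩ := ceil_match le_rfl (by omega) h1 hp.symm i (by omega) hi2
    rw [hj'3]
    intro e
    simp only [Option.some.injEq, Prod.mk.injEq, and_true] at e
    omega
  · obtain ⟨v, hv, hvn, hvf⟩ : ∃ v ∈ oC x0 y0 m n, v ≠ none ∧ fa (x0 - 1, y0 - 1) v = G := by
      obtain ⟨g1, g2⟩ := G
      simp only at hfc
      unfold OutC at hG
      simp only at hG
      by_cases k1 : g2 = y0 - 1
      · by_cases k2 : g1 = x0 - 1
        · refine ⟨some ((x0, y0), 0), ?_, by simp, ?_⟩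
          · simp only [oC, List.mem_cons, List.mem_append, mem_wS]
            exact Or.inr (Or.inr (Or.inr ⟨y0, le_rfl, by omega, rfl⟩))
          · simp only [fa_some, off_0, Prod.mk_add_mk, Prod.mk.injEq]; omega
        · refine ⟨some ((g1, y0), 3), ?_, by simp, ?_⟩
          · simp only [oC, List.mem_cons, List.mem_append, mem_sS]
            exact Or.inr (Or.inl ⟨g1, by omega, by omega, rfl⟩)
          · simp only [fa_some, off_3, Prod.mk_add_mk, Prod.mk.injEq]; omega
      · by_cases k2 : g1 = x0 - 1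
        · have k3 : g2 ≠ y0 + n := fun e => hNW (by rw [e, k2])
          refine ⟨some ((x0, g2 + 1), 0), ?_, by simp, ?_⟩
          · simp only [oC, List.mem_cons, List.mem_append, mem_wS]
            exact Or.inr (Or.inr (Or.inr ⟨g2 + 1, by omega, by omega, rfl⟩))
          · simp only [fa_some, off_0, Prod.mk_add_mk, Prod.mk.injEq]; omega
        · refine ⟨some ((x0 + m, g2), 2), ?_, by simp, ?_⟩
          · simp only [oC, List.mem_cons, List.mem_append, mem_eS]
            exact Or.inl ⟨g2, by omega, by omega, rfl⟩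
          · simp only [fa_some, off_2, Prod.mk_add_mk, Prod.mk.injEq]; omega
    have := side_cross (s := s) h (rect_full (x0 := x0) (y0 := y0))
      (f := fun i : ℕ => some ((x0 + i, y0 + n), 1)) (M0 := m) ring_ceil
      (i0 := (c + 1 - x0).toNat) (by omega) hv hvn (by simp) (by
        rw [inR_eq, base_face, hvf, ceil_key c (by omega)]
        exact hp) (i - x0).toNat (j - x0).toNat (by omega) (by omega) (by omega)
    rw [show x0 + (((i - x0).toNat : ℕ) : ℤ) = i by omega,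
      show x0 + (((j - x0).toNat : ℕ) : ℤ) = j by omega] at this
    exact this


end Crest.Agent.R158.Gc748
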