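import Crest.Agent.R158.Nz1_399
import Crest.Agent.R158.Nm7_211

/-!
# R158, block Q1d (helper399), part 3: standard local strand counts

* `Kind` : `cv` convex corner (lower left), `rf` reflex corner (missing quadrant `x < 0, y < 0`),
  `mk` gap on a flat floor; `Tk k n` tiles of the box of radius `n`, `Dk`, `Yk`, `Xk` windows
* `Kn k n s` : number of strands around the point inside the box
* `rt`, `rs` : rotation by a quarter turn, `Kp k g a n s` : the same count at the vertex `a`,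
  rotated `g` times; `Kp_eq` : it is the standard count of the rotated splitting field
* `Kp_int` : law in a chart, `Kp_dep` : locality
-/

set_option autoImplicit false

noncomputable section

namespace Crest.Agent.R158.Nz399

open MeasureTheory ProbabilityTheory
open Crest.Agent.R158.Rs689
open Crest.Agent.R158.Nm211

universe u

/-- kinds of special boundary points -/
inductive Kind where
  | cv | rf | mk
  deriving DecidableEq

/-- tiles of the region near the point -/
def qd (k : Kind) (v : ℤ × ℤ) : Prop :=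
  match k with
  | .cv => 0 ≤ v.1 ∧ 0 ≤ v.2
  | .rf => 0 ≤ v.1 ∨ 0 ≤ v.2
  | .mk => 0 ≤ v.2

instance (k : Kind) (v : ℤ × ℤ) : Decidable (qd k v) := by
  cases k <;> unfold qd <;> infer_instance

/-- tiles of the box -/
def Tk (k : Kind) (n : ℕ) : Finset (ℤ × ℤ) :=
  ((Finset.Ico (-(n : ℤ)) n) ×ˢ (Finset.Ico (-(n : ℤ)) n)).filter (qd k)

theorem mem_Tk {k : Kind} {n : ℕ} {v : ℤ × ℤ} : v ∈ Tk k n ↔
    ((-(n : ℤ) ≤ v.1 ∧ v.1 < n) ∧ -(n : ℤ) ≤ v.2 ∧ v.2 < n) ∧ qd k v := by
  simp [Tk]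

/-- states inside the box -/
def Dk (k : Kind) (n : ℕ) : Set (St ℤ) := {c | c.1 ∈ Tk k n}

/-- states that have left through the second side -/
def Yk (k : Kind) : Set (St ℤ) :=
  match k with
  | .cv => {c | c.1.1 < 0}
  | .rf => {c | c.1.1 < 0 ∧ c.1.2 < 0 ∧ c.2 = 2}
  | .mk => {c | c.1.1 < 0 ∧ c.1.2 < 0}

/-- states entering through the first side -/
def Xk (k : Kind) (n : ℕ) : Finset (St ℤ) :=
  match k with
  | .cv => (Finset.Ico (0 : ℤ) n).image fun x => ((x, (0 : ℤ)), (0 : Dir))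
  | .rf => (Finset.Ico (-(n : ℤ)) 0).image fun y => (((0 : ℤ), y), (1 : Dir))
  | .mk => (Finset.Ico (0 : ℤ) n).image fun x => ((x, (0 : ℤ)), (0 : Dir))

/-- **number of strands around the point inside the box of radius `n`** -/
def Kn (k : Kind) (n : ℕ) (s : ℤ × ℤ → Bool) : ℕ := KK (nx6 s) (Dk k n) (Yk k) (Xk k n)

theorem Kn_dep {k : Kind} {n : ℕ} {s s' : ℤ × ℤ → Bool} (h : ∀ v ∈ Tk k n, s v = s' v) :
    Kn k n s = Kn k n s' := gen_dep fun _ hc => h _ hc

/-! ### semiconjugation of the strand map -/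

theorem KK_semi {C C' : Type*} [DecidableEq C] [DecidableEq C'] {f : C → C} {f' : C' → C'}
    {φ : C' → C} (hφ : Function.Injective φ) (h : ∀ c, f (φ c) = φ (f' c)) (D Y : Set C')
    (X : Finset C') : KK f (φ '' D) (φ '' Y) (X.image φ) = KK f' D Y X := by
  classical
  have hit : ∀ (m : ℕ) (c : C'), f^[m] (φ c) = φ (f'^[m] c) := by
    intro m
    induction m with
    | zero => intro c; rfl
    | succ m ih =>
      intro c
      rw [Function.iterate_succ_apply', Function.iterate_succ_apply', ih, h]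
  have key : ∀ c, Hit f (φ '' D) (φ '' Y) (φ c) ↔ Hit f' D Y c := by
    intro c
    unfold Hit
    simp only [hit, hφ.mem_set_image]
  unfold KK
  rw [Finset.filter_image, Finset.card_image_of_injective _ hφ]
  congr 1
  exact Finset.filter_congr fun c _ => by rw [key]

/-! ### rotation and translation -/

/-- rotation of the tile positions about the vertex `(0,0)` by a quarter turn (counterclockwise) -/
def rt (v : ℤ × ℤ) : ℤ × ℤ := (-v.2 - 1, v.1)

/-- rotation of the states -/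
def rs (c : St ℤ) : St ℤ := (rt c.1, c.2 + 3)

theorem rt_inj : Function.Injective rt := by
  rintro ⟨a, b⟩ ⟨c, d⟩ h
  simp only [rt, Prod.mk.injEq] at h
  exact Prod.ext h.2 (by simp only; omega)

theorem rs_inj : Function.Injective rs := by
  rintro ⟨v, d⟩ ⟨w, e⟩ h
  simp only [rs, Prod.mk.injEq] at h
  exact Prod.ext (rt_inj h.1) (add_right_cancel h.2)

theorem trn_rot (b : Bool) (d : Dir) : trn b (d + 3) = trn (!b) d + 3 := by
  cases b <;> fin_cases d <;> rfl

theorem mv_rot (v : ℤ × ℤ) (d : Dir) : mv (rt v) (d + 3) = rt (mv v d) := by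
  obtain ⟨x, y⟩ := v
  fin_cases d <;> refine Prod.ext ?_ ?_ <;> simp [mv, rt, dx, dy] <;> ring

theorem nx_rot (s : ℤ × ℤ → Bool) (c : St ℤ) :
    nx6 s (rs c) = rs (nx6 (fun v => !s (rt v)) c) := by
  obtain ⟨v, d⟩ := c
  simp only [nx6, rs, trn_rot, mv_rot]

/-- parity of the number of quarter turns -/
def od (g : ℕ) : Bool := decide (g % 2 = 1)

theorem od_succ (g : ℕ) : od (g + 1) = !od g := by
  unfold od
  rcases Nat.mod_two_eq_zero_or_one g with h | h
  · have : (g + 1) % 2 = 1 := by omega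
    simp [h, this]
  · have : (g + 1) % 2 = 0 := by omega
    simp [h, this]

/-- `g` quarter turns, then translation by `a` -/
def pl (g : ℕ) (a v : ℤ × ℤ) : ℤ × ℤ := rt^[g] v + a

/-- the same for states -/
def ps (g : ℕ) (a : ℤ × ℤ) (c : St ℤ) : St ℤ := ((rs^[g] c).1 + a, (rs^[g] c).2)

theorem rs_iter_fst (g : ℕ) (c : St ℤ) : (rs^[g] c).1 = rt^[g] c.1 := by
  induction g generalizing c with
  | zero => rfl
  | succ g ih => rw [Function.iterate_succ_apply', Function.iterate_succ_apply', ← ih]; rfl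

theorem pl_inj (g : ℕ) (a : ℤ × ℤ) : Function.Injective (pl g a) := by
  intro v w h
  exact rt_inj.iterate g (add_right_cancel h)

theorem ps_inj (g : ℕ) (a : ℤ × ℤ) : Function.Injective (ps g a) := by
  intro c c' h
  simp only [ps, Prod.mk.injEq] at h
  exact rs_inj.iterate g (Prod.ext (add_right_cancel h.1) h.2)

theorem mv_add (v a : ℤ × ℤ) (d : Dir) : mv (v + a) d = mv v d + a := by
  obtain ⟨x, y⟩ := v
  obtain ⟨x', y'⟩ := a
  simp only [mv, Prod.mk_add_mk, Prod.mk.injEq]
  constructor <;> ring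

theorem nx_ps (g : ℕ) (a : ℤ × ℤ) (s : ℤ × ℤ → Bool) (c : St ℤ) :
    nx6 s (ps g a c) = ps g a (nx6 (fun v => xor (od g) (s (pl g a v))) c) := by
  have h1 : ∀ (g : ℕ) (s : ℤ × ℤ → Bool) (c : St ℤ),
      nx6 s (rs^[g] c) = rs^[g] (nx6 (fun v => xor (od g) (s (rt^[g] v))) c) := by
    intro g
    induction g with
    | zero => intro s c; simp [od]
    | succ g ih =>
      intro s c
      rw [Function.iterate_succ_apply', nx_rot, ih, Function.iterate_succ_apply']
      congr 3
      funext v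
      rw [Function.iterate_succ_apply', od_succ]
      cases od g <;> cases s (rt (rt^[g] v)) <;> rfl
  have h2 := h1 g (fun v => s (v + a)) c
  have h3 : nx6 s (ps g a c) =
      ((nx6 (fun v => s (v + a)) (rs^[g] c)).1 + a, (nx6 (fun v => s (v + a)) (rs^[g] c)).2) := by
    simp only [nx6, ps, mv_add]
  rw [h3, h2]
  rfl

/-- **the count at the vertex `a`, rotated `g` times** -/
def Kp (k : Kind) (g : ℕ) (a : ℤ × ℤ) (n : ℕ) (s : ℤ × ℤ → Bool) : ℕ :=
  KK (nx6 s) (ps g a '' Dk k n) (ps g a '' Yk k) ((Xk k n).image (ps g a))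

theorem Kp_eq (k : Kind) (g : ℕ) (a : ℤ × ℤ) (n : ℕ) (s : ℤ × ℤ → Bool) :
    Kp k g a n s = Kn k n fun v => xor (od g) (s (pl g a v)) :=
  KK_semi (ps_inj g a) (nx_ps g a s) _ _ _


/-- **law in a chart** -/
theorem Kp_int {τ : Type u} (k : Kind) (g : ℕ) (a : ℤ × ℤ) (n : ℕ)
    (emb : ℤ × ℤ → τ) (F : ℤ × ℤ → Bool) (f : ℕ → ℝ)
    (hinj : Set.InjOn (fun v => emb (pl g a v)) (Tk k n : Set (ℤ × ℤ))) :
    ∫ s, f (Kp k g a n (rd emb F s)) ∂(PB fun _ : τ => hf) =
      ∫ s, f (Kn k n s) ∂(PB fun _ : ℤ × ℤ => hf) := by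
  have hd : DepF (Tk k n) fun s : ℤ × ℤ → Bool => f (Kn k n s) := by
    intro s s' hs
    show f (Kn k n s) = f (Kn k n s')
    rw [Kn_dep hs]
  rw [← integral_transport hinj (fun v => xor (od g) (F (pl g a v))) hd]
  congr 1
  funext s
  rw [Kp_eq]
  congr 2
  funext v
  simp only [rd]
  rw [Bool.xor_assoc]


theorem Kn_depF (k : Kind) (n : ℕ) (f : ℕ → ℝ) : DepF (Tk k n) fun s => f (Kn k n s) := by
  intro s s' hs
  show f (Kn k n s) = f (Kn k n s')
  rw [Kn_dep hs]

/-- mean of `a ^ K` -/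
def EK (a : ℝ) (k : Kind) (n : ℕ) : ℝ := ∫ s, a ^ Kn k n s ∂(PB fun _ : ℤ × ℤ => hf)

/-- probability that no strand goes around the point -/
def Pm (n : ℕ) : ℝ := (PB fun _ : ℤ × ℤ => hf).real {s | Kn .mk n s = 0}

end Crest.Agent.R158.Nz399
end
private theorem rz_aca03f6d8c : type_of% @_root_.Crest.Agent.R158.Nz399.qd.eq_1 := @_root_.Crest.Agent.R158.Nz399.qd.eq_1 -- L33
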