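import Crest.Agent.R158.Mr2_679

-- ▼ part R158/Mr3_679
section

/-!
# Row 158, Block MR (helper679): RSW for medial (45-degree) boxes

* `lx_ge_xpr` : a crossing of a `kn × n` medial box has probability at least
  `xpr p (3m) m ^ (32 (k+1))`, `m = n / 8 ≥ 1`, every `p`
* `rsw_lx`, `rsw_bx` : RSW at `p = 1/2`, all scales, positions and sublattices
* `lx_le`, `bx_le` : crossings in the easy direction are not almost certain
-/

set_option autoImplicit false

noncomputable section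

namespace Crest.Agent.R158.Mr679

open MeasureTheory ProbabilityTheory unitInterval
open Crest.Agent.R161.Geo729 Crest.Agent.R161.Topo374 Crest.Agent.R161.Dual374
open Crest.Agent.R161.Tas682
open Crest.Agent.R158.Rs689

/-- an open connection of `ℤ²` inside a strip `y0 ≤ v.1 + v.2 ≤ y1`, in medial coordinates -/
theorem oc_tp {z : Cfz} {S : Set P2} {y0 y1 : ℤ} (hS : ∀ w ∈ S, y0 ≤ w.1 + w.2 ∧ w.1 + w.2 ≤ y1)
    {u v : P2} (h : OC z S u v) :
    TP (fun t => z (tE.symm t) = true ∧ y0 < t.2 ∧ t.2 ≤ y1) (prim u) (prim v) := by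
  rw [tp_prim_iff]
  obtain ⟨_, h⟩ := h
  refine Relation.ReflTransGen.mono ?_ _ _ h
  rintro a b ⟨⟨e, he, hab⟩, ha, hb⟩
  refine ⟨e, ⟨by rw [Equiv.symm_apply_apply]; exact he, ?_⟩, hab⟩
  have h1 := hS a ha
  have h2 := hS b hb
  rw [← tb_prim e]
  have h3 := dg_prim e
  unfold Dg at h3
  unfold tb
  simp only [prim] at *
  rcases hab with ⟨rfl, rfl⟩ | ⟨rfl, rfl⟩ <;> omega


/-! ### staircases of cells -/

/-- the staircase `(i, c-i), (i+1, c-i)`, `i0 ≤ i ≤ i1` -/
def stK (c i0 i1 : ℤ) : Finset P2 :=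
  (Finset.Icc i0 i1).image (fun i => ((i, c - i) : P2)) ∪
    (Finset.Icc i0 i1).image (fun i => ((i + 1, c - i) : P2))

theorem mem_stK {c i0 i1 : ℤ} {k : P2} : k ∈ stK c i0 i1 ↔
    ∃ i, i0 ≤ i ∧ i ≤ i1 ∧ (k = (i, c - i) ∨ k = (i + 1, c - i)) := by
  unfold stK
  simp only [Finset.mem_union, Finset.mem_image, Finset.mem_Icc]
  constructor
  · rintro (⟨i, ⟨h1, h2⟩, rfl⟩ | ⟨i, ⟨h1, h2⟩, rfl⟩)
    · exact ⟨i, h1, h2, Or.inl rfl⟩
    · exact ⟨i, h1, h2, Or.inr rfl⟩
  · rintro ⟨i, h1, h2, rfl | rfl⟩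
    · exact Or.inl ⟨i, ⟨h1, h2⟩, rfl⟩
    · exact Or.inr ⟨i, ⟨h1, h2⟩, rfl⟩

theorem card_stK (c i0 i1 : ℤ) : (stK c i0 i1).card ≤ 2 * (i1 - i0 + 1).toNat := by
  unfold stK
  refine (Finset.card_union_le _ _).trans ?_
  have h1 := Finset.card_image_le (s := Finset.Icc i0 i1) (f := fun i => ((i, c - i) : P2))
  have h2 := Finset.card_image_le (s := Finset.Icc i0 i1) (f := fun i => ((i + 1, c - i) : P2))
  rw [Int.card_Icc] at h1 h2
  have : (i1 + 1 - i0).toNat = (i1 - i0 + 1).toNat := by congr 1; ring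
  omega

theorem conn_stK (c i0 : ℤ) (j : ℕ) {i1 : ℤ} (h : i0 + j ≤ i1) :
    CConn (stK c i0 i1 : Set P2) (i0, c - i0) (i0 + j, c - (i0 + j)) := by
  induction j with
  | zero =>
    have e : i0 + ((0 : ℕ) : ℤ) = i0 := by simp
    rw [e]
    exact Relation.ReflTransGen.refl
  | succ j ih =>
    have h1 := ih (by push_cast at h; omega)
    push_cast at h ⊢
    have m0 : ((i0 + j, c - (i0 + j)) : P2) ∈ stK c i0 i1 :=
      mem_stK.2 ⟨i0 + j, by omega, by omega, Or.inl rfl⟩
    have m1 : ((i0 + j + 1, c - (i0 + j)) : P2) ∈ stK c i0 i1 :=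
      mem_stK.2 ⟨i0 + j, by omega, by omega, Or.inr rfl⟩
    have m2 : ((i0 + (j + 1), c - (i0 + (j + 1))) : P2) ∈ stK c i0 i1 :=
      mem_stK.2 ⟨i0 + (j + 1), by omega, by omega, Or.inl rfl⟩
    refine (Relation.ReflTransGen.tail h1 ⟨?_, m0, m1⟩).tail ⟨?_, m1, m2⟩
    · exact Or.inl ⟨rfl, Or.inl rfl⟩
    · unfold CAdj
      simp only
      omega

/-- the plus of a cell in medial coordinates -/
theorem plus_medial {m : ℕ} {k w : P2} (h : w ∈ plusR m k) :
    (k.1 - k.2) * m - 2 * m ≤ w.1 - w.2 ∧ w.1 - w.2 ≤ (k.1 - k.2) * m + 2 * m ∧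
    (k.1 + k.2) * m - m ≤ w.1 + w.2 ∧ w.1 + w.2 ≤ (k.1 + k.2) * m + 3 * m := by
  have e1 : (k.1 - k.2) * (m : ℤ) = k.1 * m - k.2 * m := by ring
  have e2 : (k.1 + k.2) * (m : ℤ) = k.1 * m + k.2 * m := by ring
  rw [e1, e2]
  rcases h with h | h
  · have := mem_rect.1 h
    omega
  · have := mem_rect.1 h
    omega

/-- a tube along the staircase crosses the strip -/
theorem tube_lx {m : ℕ} {z : Cfz} {c i0 i1 x0 x1 y0 y1 : ℤ} (h01 : x0 < x1) (hi : i0 ≤ i1)
    (hy0 : y0 ≤ c * m - m) (hy1 : c * m + 4 * m ≤ y1) (hx0 : (2 * i0 - c) * m + 2 * m ≤ x0)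
    (hx1 : x1 ≤ (2 * i1 - c) * m - 2 * m) (hz : z ∈ tubeX m (stK c i0 i1)) :
    (fun t => z (tE.symm t)) ∈ LX 0 x0 x1 y0 y1 := by
  have hz' : ∀ k ∈ stK c i0 i1, z ∈ cellX m k := by
    simpa only [tubeX, Set.mem_iInter] using hz
  have k0 : ((i0, c - i0) : P2) ∈ stK c i0 i1 := mem_stK.2 ⟨i0, le_rfl, hi, Or.inl rfl⟩
  have k1 : ((i1, c - i1) : P2) ∈ stK c i0 i1 := mem_stK.2 ⟨i1, hi, le_rfl, Or.inl rfl⟩
  obtain ⟨u, hu⟩ := exists_hubH (hz' _ k0)
  obtain ⟨v, hv⟩ := exists_hubH (hz' _ k1)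
  have hc : CConn (stK c i0 i1 : Set P2) (i0, c - i0) (i1, c - i1) := by
    have := conn_stK c i0 (i1 - i0).toNat (i1 := i1) (by omega)
    have e : i0 + ((i1 - i0).toNat : ℤ) = i1 := by omega
    rwa [e] at this
  have hoc := tube hz k0 hc hu hv
  have hS : ∀ w ∈ tubeR m (stK c i0 i1), y0 ≤ w.1 + w.2 ∧ w.1 + w.2 ≤ y1 := by
    intro w hw
    simp only [tubeR, Set.mem_iUnion] at hw
    obtain ⟨k, hk, hw⟩ := hw
    obtain ⟨i, hi1, hi2, hk'⟩ := mem_stK.1 hk
    have h1 := plus_medial hw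
    rcases hk' with rfl | rfl
    · have e : (i + (c - i)) * (m : ℤ) = c * m := by ring
      simp only [e] at h1
      omega
    · have e : (i + 1 + (c - i)) * (m : ℤ) = c * m + m := by ring
      simp only [e] at h1
      omega
  have hu1 : u ∈ plusR m (i0, c - i0) := by
    obtain ⟨_, _, _, _, h, _⟩ := hu
    exact Or.inl h.left
  have hv1 : v ∈ plusR m (i1, c - i1) := by
    obtain ⟨_, _, _, _, h, _⟩ := hv
    exact Or.inl h.left
  have hu2 := plus_medial hu1
  have hv2 := plus_medial hv1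
  have e1 : (i0 - (c - i0)) * (m : ℤ) = (2 * i0 - c) * m := by ring
  have e2 : (i1 - (c - i1)) * (m : ℤ) = (2 * i1 - c) * m := by ring
  simp only [e1] at hu2
  simp only [e2] at hv2
  refine lx_of_path (oc_tp hS hoc) h01 ?_ ?_ ?_ ?_
  · simp only [prim]; omega
  · simp only [prim]; omega
  · have := prim_par u; omega
  · rintro t ⟨ht, h1, h2⟩ _ _
    exact ⟨h1, h2, ht⟩

theorem xpr_le_one (p : I) (L H : ℤ) : xpr p L H ≤ 1 := by
  unfold xpr Crest.Agent.R161.Tas682.lr
  exact measureReal_le_one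

/-- crossing of a medial box, even sublattice, scales `n ≥ 8` -/
theorem lx_ge_xpr0 (p : I) (k n m : ℕ) (hk : 1 ≤ k) (hm : 1 ≤ m) (h1 : 8 * m ≤ n)
    (h2 : n < 8 * m + 8) (x0 y0 : ℤ) :
    xpr p (3 * m) m ^ (32 * (k + 1)) ≤ (tau p).real (LX 0 x0 (x0 + k * n) y0 (y0 + n)) := by
  have hm' : (0 : ℤ) < m := by omega
  set q : ℤ := y0 / m with hq
  have q1 : q * m ≤ y0 := Int.ediv_mul_le _ hm'.ne'
  have q2 : y0 < q * m + m := by
    have := Int.lt_ediv_add_one_mul_self y0 hm'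
    linarith
  set c : ℤ := q + 2 with hc
  have c1 : c * (m : ℤ) = q * m + 2 * m := by rw [hc]; ring
  set r0 : ℤ := x0 / m with hr0
  have r1 : r0 * m ≤ x0 := Int.ediv_mul_le _ hm'.ne'
  have r2 : x0 < r0 * m + m := by
    have := Int.lt_ediv_add_one_mul_self x0 hm'
    linarith
  set i0 : ℤ := (r0 + c) / 2 - 2 with hi0
  set i1 : ℤ := i0 + (8 * k + 7) with hi1
  have b1 : 2 * i0 - c ≤ r0 - 4 := by omega
  have b2 : r0 - 5 ≤ 2 * i0 - c := by omega
  have b3 : (2 * i0 - c) * (m : ℤ) ≤ (r0 - 4) * m := by nlinarith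
  have b4 : (r0 - 5) * (m : ℤ) ≤ (2 * i0 - c) * m := by nlinarith
  have hkn : (k : ℤ) * n ≤ k * (16 * m) := by
    have : (n : ℤ) ≤ 16 * m := by omega
    have hk0 : (0 : ℤ) ≤ k := by omega
    nlinarith
  have hkpos : (0 : ℤ) < k * n := by
    have : (0 : ℤ) < n := by omega
    have hk0 : (0 : ℤ) < k := by omega
    positivity
  have e1 : (2 * i1 - c) * (m : ℤ) = (2 * i0 - c) * m + k * (16 * m) + 14 * m := by
    rw [hi1]; ring
  have hsub : tubeX m (stK c i0 i1) ⊆
      {z : Cfz | (fun t => z (tE.symm t)) ∈ LX 0 x0 (x0 + k * n) y0 (y0 + n)} := by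
    intro z hz
    refine tube_lx (by omega) (by omega) ?_ ?_ ?_ ?_ hz
    · rw [c1]; omega
    · rw [c1]; omega
    · have : (r0 - 4) * (m : ℤ) = r0 * m - 4 * m := by ring
      omega
    · have : (r0 - 5) * (m : ℤ) = r0 * m - 5 * m := by ring
      rw [e1]
      omega
  rw [tau_real_eq p (lx_meas _ _ _ _ _)]
  refine le_trans ?_ (measureReal_mono hsub)
  refine le_trans ?_ (tube_prob p m (stK c i0 i1))
  apply pow_le_pow_of_le_one (xpr_nonneg _ _ _) (xpr_le_one _ _ _)
  have hcard := card_stK c i0 i1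
  have : (i1 - i0 + 1).toNat = 8 * k + 8 := by
    rw [hi1]; omega
  omega

/-- both sublattices -/
theorem lx_ge_xpr (p : I) (k n m : ℕ) (hk : 1 ≤ k) (hm : 1 ≤ m) (h1 : 8 * m ≤ n)
    (h2 : n < 8 * m + 8) (b x0 y0 : ℤ) :
    xpr p (3 * m) m ^ (32 * (k + 1)) ≤ (tau p).real (LX b x0 (x0 + k * n) y0 (y0 + n)) := by
  rcases Int.emod_two_eq_zero_or_one b with h | h
  · rw [lx_par (b := b) (b' := 0) (by omega)]
    exact lx_ge_xpr0 p k n m hk hm h1 h2 x0 y0
  · have h3 := lx_ge_xpr0 p k n m hk hm h1 h2 (x0 + 1) y0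
    have h4 := lx_prob_shift p ((1, 0) : P2) b x0 (x0 + k * n) y0 (y0 + n)
    simp only [sub_zero, add_zero] at h4
    rw [← h4, lx_par (b := b - 1) (b' := 0) (by omega)]
    have e : x0 + (k : ℤ) * n + 1 = x0 + 1 + k * n := by ring
    rw [e]
    exact h3

/-! ### small scales -/

/-- the box with all tiles open is crossed -/
theorem lx_of_open {X : TF} {b x0 x1 y0 y1 : ℤ} (hx : x0 < x1) (hy : y0 < y1)
    (h : ∀ t ∈ bxF x0 x1 y0 y1, X t = true) : X ∈ LX b x0 x1 y0 y1 := by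
  -- the zigzag
  set s : ℤ := (x0 + y0 + b) % 2 with hs
  have hs01 : s = 0 ∨ s = 1 := Int.emod_two_eq_zero_or_one _
  have key : ∀ j : ℕ, x0 + j ≤ x1 →
      TP (BQ X x0 x1 y0 y1) (x0, y0 + s) (x0 + j, y0 + (s + j) % 2) := by
    intro j
    induction j with
    | zero =>
      intro _
      have : (s + ((0 : ℕ) : ℤ)) % 2 = s := by push_cast; omega
      rw [this]
      simpa using TP.refl
    | succ j ih =>
      intro hj
      push_cast at hj ⊢
      refine (ih (by omega)).tail ⟨?_, ?_, ?_⟩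
      · unfold Dg
        simp only
        omega
      · unfold InB tb
        simp only
        omega
      · refine h _ (mem_bxF.2 ?_)
        unfold InB tb
        simp only
        omega
  have h1 := key (x1 - x0).toNat (by omega)
  refine ⟨(x0, y0 + s), _, rfl, ?_, ?_, ?_, ?_, h1⟩
  · simp only; omega
  · simp only; omega
  · simp only; omega
  · simp only; omega

theorem lx_ge_open (p : I) {b x0 x1 y0 y1 : ℤ} (hx : x0 < x1) (hy : y0 < y1) :
    (p : ℝ) ^ ((x1 - x0).toNat * (y1 - y0).toNat) ≤ (tau p).real (LX b x0 x1 y0 y1) := by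
  have h1 := open_prob (fun _ : P2 => p) (bxF x0 x1 y0 y1)
  rw [Finset.prod_const, card_bxF] at h1
  rw [← h1]
  exact measureReal_mono fun X hX => lx_of_open hx hy hX

/-! ### RSW at `p = 1/2` -/

/-- **RSW** for medial boxes, left-right -/
theorem rsw_lx (k : ℕ) : ∃ c : ℝ, 0 < c ∧ c ≤ 1 ∧ ∀ n : ℕ, 1 ≤ n → ∀ b x0 y0 : ℤ,
    c ≤ (tau hf).real (LX b x0 (x0 + k * n) y0 (y0 + n)) := by
  -- a version for `k ≥ 1`
  have main : ∀ k : ℕ, 1 ≤ k → ∃ c : ℝ, 0 < c ∧ c ≤ 1 ∧ ∀ n : ℕ, 1 ≤ n → ∀ b x0 y0 : ℤ,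
      c ≤ (tau hf).real (LX b x0 (x0 + k * n) y0 (y0 + n)) := by
    intro k hk
    obtain ⟨c3, hc3, h3⟩ := rsw_long 3
    have hc31 : c3 ≤ 1 := (h3 1 le_rfl).trans (by
      have := xpr_le_one hf ((3 : ℕ) * (1 : ℕ)) (1 : ℕ)
      exact_mod_cast this)
    refine ⟨min (c3 ^ (32 * (k + 1))) ((1 / 2) ^ (64 * k)), lt_min (by positivity) (by positivity),
      (min_le_right _ _).trans (pow_le_one₀ (by norm_num) (by norm_num)), fun n hn b x0 y0 => ?_⟩
    rcases lt_or_ge n 8 with h8 | h8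
    · refine (min_le_right _ _).trans ?_
      have hkn : (0 : ℤ) < k * n := by
        have h1 : (0 : ℤ) < n := by omega
        have h2 : (0 : ℤ) < k := by omega
        positivity
      have h4 := lx_ge_open hf (b := b) (x0 := x0) (x1 := x0 + k * n) (y0 := y0) (y1 := y0 + n)
        (by omega) (by omega)
      refine le_trans ?_ h4
      rw [hf_coe]
      apply pow_le_pow_of_le_one (by norm_num) (by norm_num)
      have e1 : (x0 + k * n - x0 : ℤ).toNat = k * n := by
        rw [add_sub_cancel_left]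
        exact_mod_cast Int.toNat_natCast (k * n)
      have e2 : (y0 + n - y0 : ℤ).toNat = n := by
        rw [add_sub_cancel_left]
        exact Int.toNat_natCast n
      rw [e1, e2]
      nlinarith [Nat.mul_le_mul (show n ≤ 8 by omega) (show n ≤ 8 by omega)]
    · refine (min_le_left _ _).trans ?_
      refine le_trans ?_ (lx_ge_xpr hf k n (n / 8) hk (by omega) (by omega) (by omega) b x0 y0)
      have h5 := h3 (n / 8) (by omega)
      push_cast at h5 ⊢
      exact pow_le_pow_left₀ hc3.le h5 _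
  rcases Nat.eq_zero_or_pos k with rfl | hk
  · refine ⟨1, one_pos, le_rfl, fun n hn b x0 y0 => ?_⟩
    have : LX b x0 (x0 + (0 : ℕ) * n) y0 (y0 + n) = Set.univ := by
      ext X
      simp only [Set.mem_univ, iff_true]
      set s : ℤ := (x0 + y0 + b) % 2 with hs
      refine ⟨(x0, y0 + s), (x0, y0 + s), rfl, by simp, ?_, ?_, ?_, .refl⟩ <;> simp only <;> omega
    rw [this]
    simp
  · exact main k hk

/-- **RSW** for medial boxes, bottom-top -/
theorem rsw_bx (k : ℕ) : ∃ c : ℝ, 0 < c ∧ c ≤ 1 ∧ ∀ n : ℕ, 1 ≤ n → ∀ b x0 y0 : ℤ,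
    c ≤ (tau hf).real (BX b x0 (x0 + n) y0 (y0 + k * n)) := by
  obtain ⟨c, h1, h2, h3⟩ := rsw_lx k
  refine ⟨c, h1, h2, fun n hn b x0 y0 => ?_⟩
  rw [bx_prob]
  exact h3 n hn b y0 x0



end Crest.Agent.R158.Mr679
end
end

-- ▼ part R158/Mr4_679

/-!
# Row 158, Block MR (helper679): transport of laws, channels, annuli

* `PB_transport` : an event that depends on a finite set on which `j` is injective has the same
  probability when it is read through `j` (windows of rings, charts)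
* `PB_half_count`, `PB_half_integral` : uniform law on a finite index type
* `indep_le` : `P(⋂ A_i) ≤ q ^ J` for independent events
* `chan_le` : no bottom-top crossing in any of `R` adjacent squares, `≤ (1 - c) ^ R`
* `RingX b c r` : the four crossings of the square annulus `B(3r) \ B(r)`; `ring_block` : it blocks
  every path on the other sublattice through tiles `X = false`
* `web_le`, `web_pow` : webs on both sublattices in one of the dyadic annuli
-/

set_option autoImplicit false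

noncomputable section

namespace Crest.Agent.R158.Mr679

open MeasureTheory ProbabilityTheory unitInterval
open Crest.Agent.R161.Geo729 Crest.Agent.R161.Topo374 Crest.Agent.R161.Dual374
open Crest.Agent.R158.Rs689

/-! ### transport -/

section transport

variable {ι κ : Type*}





end transport

/-! ### the uniform law on a finite index type -/

section finite

variable {ι : Type*} [Fintype ι]

open Classical in
theorem PB_half_integral (f : (ι → Bool) → ℝ) :
    ∫ z, f z ∂(PB fun _ : ι => hf) = (1 / 2) ^ Fintype.card ι * ∑ z, f z := by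
  have h : PB (fun _ : ι => hf) = Measure.pi fun _ : ι => bern hf := by
    unfold PB
    exact Measure.infinitePi_eq_pi _
  rw [h, integral_fintype Integrable.of_finite, Finset.mul_sum]
  refine Finset.sum_congr rfl fun z _ => ?_
  rw [measureReal_def, Measure.pi_singleton, ENNReal.toReal_prod, smul_eq_mul]
  congr 1
  rw [Finset.prod_congr rfl (g := fun _ => (1 / 2 : ℝ)), Finset.prod_const, Finset.card_univ]
  intro i _
  have h1 := bern_real_true hf
  have h2 := bern_real_false hf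
  simp only [measureReal_def] at h1 h2
  cases z i
  · rw [h2, hf_coe]; norm_num
  · rw [h1, hf_coe]


end finite

/-! ### independent events -/

theorem indep_le {ι κ : Type*} (w : ι → I) (s : Finset κ) (S : κ → Finset ι)
    (hS : ∀ i ∈ s, ∀ j ∈ s, i ≠ j → Disjoint (S i) (S j)) (A : κ → Set (ι → Bool))
    (hA : ∀ i ∈ s, Dep (S i) (A i)) {q : ℝ} (hq : ∀ i ∈ s, (PB w).real (A i) ≤ q) :
    (PB w).real (⋂ i ∈ s, A i) ≤ q ^ s.card := by
  rw [PB_indep_prod w s S hS A hA, ← Finset.prod_const]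
  exact Finset.prod_le_prod (fun _ _ => measureReal_nonneg) hq

theorem real_compl {p : I} {A : Set TF} (hA : MeasurableSet A) {c : ℝ}
    (h : c ≤ (tau p).real A) : (tau p).real Aᶜ ≤ 1 - c := by
  rw [probReal_compl_eq_one_sub hA]
  linarith

/-! ### channels -/

/-- no bottom-top crossing in `R` adjacent squares -/
theorem chan_le : ∃ q : ℝ, 0 < q ∧ q < 1 ∧ ∀ (h R : ℕ), 1 ≤ h → ∀ b x0 y0 : ℤ,
    (tau hf).real {X | ∀ i < R, X ∉ BX b (x0 + i * h) (x0 + (i + 1) * h) y0 (y0 + h)} ≤ q ^ R := by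
  obtain ⟨c, hc, hc1, h1⟩ := rsw_bx 1
  refine ⟨1 - c / 2, by linarith, by linarith, fun h R hh b x0 y0 => ?_⟩
  have h2 := indep_le (fun _ : P2 => hf) (Finset.range R)
    (fun i => bxF (x0 + i * h) (x0 + (i + 1) * h) y0 (y0 + h)) (by
      intro i _ j _ hij
      rw [Finset.disjoint_left]
      intro t ht ht'
      rw [mem_bxF] at ht ht'
      unfold InB at ht ht'
      rcases lt_or_gt_of_ne hij with h3 | h3
      · have h4 : ((i : ℤ) + 1) * h ≤ j * h := by
          have : (i : ℤ) + 1 ≤ j := by exact_mod_cast h3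
          nlinarith
        omega
      · have h4 : ((j : ℤ) + 1) * h ≤ i * h := by
          have : (j : ℤ) + 1 ≤ i := by exact_mod_cast h3
          nlinarith
        omega)
    (fun i => (BX b (x0 + i * h) (x0 + (i + 1) * h) y0 (y0 + h))ᶜ)
    (fun i _ => (bx_dep _ _ _ _ _).compl) (q := 1 - c / 2) (by
      intro i _
      have h5 := h1 h hh b (x0 + i * h) y0
      have e1 : x0 + (i : ℤ) * h + h = x0 + (i + 1) * h := by ring
      have e2 : y0 + ((1 : ℕ) : ℤ) * h = y0 + h := by push_cast; ring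
      rw [e1, e2] at h5
      have := real_compl (bx_meas b (x0 + i * h) (x0 + (i + 1) * h) y0 (y0 + h)) h5
      show (tau hf).real _ ≤ _
      linarith)
  rw [Finset.card_range] at h2
  refine le_trans (le_of_eq ?_) h2
  show (tau hf).real _ = (tau hf).real _
  congr 1
  ext X
  simp only [Set.mem_ofPred_eq, Set.mem_iInter, Finset.mem_range, Set.mem_compl_iff]


/-! ### square annuli -/







/-- two increasing events -/
theorem harris2 (p : I) {S T : Finset P2} {A B : Set TF} (hA : Dep S A) (hB : Dep T B)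
    (iA : Inc A) (iB : Inc B) {a b : ℝ} (ha : 0 ≤ a) (hb : 0 ≤ b) (h1 : a ≤ (tau p).real A)
    (h2 : b ≤ (tau p).real B) : a * b ≤ (tau p).real (A ∩ B) :=
  (mul_le_mul h1 h2 hb (ha.trans h1)).trans (harris _ hA hB iA iB)






theorem block_h {X : TF} {Q : P2 → Prop} {F G : P2} {b x0 x1 y0 y1 : ℤ} (h : TP Q F G)
    (h01 : x0 < x1) (hX : X ∈ BX b x0 x1 y0 y1) (hb : (F.1 + F.2 + b) % 2 = 1)
    (hF : F.1 ≤ x0) (hG : x1 ≤ G.1)
    (hQ : ∀ t, Q t → x0 < t.1 → t.1 ≤ x1 → y0 < t.2 ∧ t.2 ≤ y1 ∧ X t = false) : False := by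
  refine never_both (b := b + 1) (b' := b) (x0 := x0) (x1 := x1) (y0 := y0) (y1 := y1)
    (X := fun t => !X t) (by omega) (lx_of_path h h01 hF hG (by omega) ?_) ?_
  · intro t ht h1 h2
    obtain ⟨h3, h4, h5⟩ := hQ t ht h1 h2
    exact ⟨h3, h4, by simp [h5]⟩
  · simpa using hX


/-! ### webs -/










end Crest.Agent.R158.Mr679
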