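import Crest.Agent.R158.Rs5_689

/-!
# Row 158, Block R (helper689): explicit supports, tubes

* `ev_dep`, `rectE`, `lr_dep`, `bt_dep` : explicit finite supports of connection events
* `cellX n k` : the "plus" event of the cell `[k₁n, (k₁+1)n] × [k₂n, (k₂+1)n]` (a horizontal crossing of
  the cell prolonged by `n` on both sides and a vertical one)
* `hub`, `cell_link`, `tube` : the plus events of a chain of adjacent cells give one connected path
* `tube_prob` : probability `≥ (xpr p (3n) n)^(2·length)`; `cell_catch` : a path crossing the cell is caught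
-/

set_option autoImplicit false

noncomputable section

namespace Crest.Agent.R158.Rs689

open MeasureTheory ProbabilityTheory unitInterval
open Crest.Agent.R161.Geo729 Crest.Agent.R161.Topo374 Crest.Agent.R161.Dual374
open Crest.Agent.R161.Tas682 Crest.Agent.R161.Ring421 Crest.Agent.R161.Sym597
open Crest.Agent.R161.Ifc372 Crest.Agent.R161.Hull374 Crest.Agent.R161.Ann374

/-! ### supports -/

theorem oc_congr_mp {z z' : Cfz} {S : Set P2}
    (h : ∀ e : Edge, src e ∈ S → tgt e ∈ S → z e = true → z' e = true) {u v : P2}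
    (ho : OC z S u v) : OC z' S u v := by
  obtain ⟨hu, ho⟩ := ho
  refine ⟨hu, ?_⟩
  refine Relation.ReflTransGen.mono ?_ _ _ ho
  rintro a b ⟨⟨e, he, hab⟩, ha, hb⟩
  refine ⟨⟨e, ?_, hab⟩, ha, hb⟩
  rcases hab with ⟨rfl, rfl⟩ | ⟨rfl, rfl⟩
  · exact h e ha hb he
  · exact h e hb ha he

theorem ev_dep {S : Set P2} {T : Finset Edge} (hT : ∀ e : Edge, src e ∈ S → tgt e ∈ S → e ∈ T)
    (A B : Set P2) : Dep T (EV S A B) := by
  intro z z' h
  constructor
  · rintro ⟨u, hu, v, hv, ho⟩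
    exact ⟨u, hu, v, hv, oc_congr_mp (fun e h1 h2 h3 => by rw [← h e (hT e h1 h2)]; exact h3) ho⟩
  · rintro ⟨u, hu, v, hv, ho⟩
    exact ⟨u, hu, v, hv, oc_congr_mp (fun e h1 h2 h3 => by rw [h e (hT e h1 h2)]; exact h3) ho⟩

theorem ev_inc (S A B : Set P2) : Inc (EV S A B) := by
  rintro z z' h ⟨u, hu, v, hv, ho⟩
  exact ⟨u, hu, v, hv, oc_congr_mp (fun e _ _ h3 => h e h3) ho⟩

/-- edges inside a rectangle -/
def rectE (a b c d : ℤ) : Finset Edge := by
  classical
  exact ((Finset.Icc a b ×ˢ Finset.Icc c d) ×ˢ (Finset.univ : Finset Bool)).filter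
    fun e => tgt e ∈ Rect a b c d

theorem mem_rectE {a b c d : ℤ} {e : Edge} :
    e ∈ rectE a b c d ↔ src e ∈ Rect a b c d ∧ tgt e ∈ Rect a b c d := by
  unfold rectE
  simp only [Finset.mem_filter, Finset.mem_product, Finset.mem_Icc, Finset.mem_univ, and_true,
    mem_rect, src]
  tauto


theorem rectE_mono {a b c d a' b' c' d' : ℤ} (ha : a' ≤ a) (hb : b ≤ b') (hc : c' ≤ c)
    (hd : d ≤ d') : rectE a b c d ⊆ rectE a' b' c' d' := by
  intro e he
  simp only [mem_rectE, mem_rect] at he ⊢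
  omega

theorem lr_dep (a b c d : ℤ) : Dep (rectE a b c d) {z : Cfz | LRc z a b c d} := by
  rw [setOf_LRc]
  exact ev_dep (fun e h1 h2 => mem_rectE.2 ⟨h1, h2⟩) _ _

theorem bt_dep (a b c d : ℤ) : Dep (rectE a b c d) {z : Cfz | BTc z a b c d} := by
  rw [setOf_BTc]
  exact ev_dep (fun e h1 h2 => mem_rectE.2 ⟨h1, h2⟩) _ _

theorem lr_inc (a b c d : ℤ) : Inc {z : Cfz | LRc z a b c d} := by
  rw [setOf_LRc]
  exact ev_inc _ _ _

theorem bt_inc (a b c d : ℤ) : Inc {z : Cfz | BTc z a b c d} := by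
  rw [setOf_BTc]
  exact ev_inc _ _ _

/-! ### Harris for finite families -/

theorem Inc.iInter {κ : Sort*} {ι : Type*} {A : κ → Set (ι → Bool)} (hA : ∀ k, Inc (A k)) :
    Inc (⋂ k, A k) := fun z z' h hz => by
  simp only [Set.mem_iInter] at hz ⊢
  exact fun k => hA k z z' h (hz k)

/-- Harris' inequality for a finite family, common support -/
theorem harris_prod {ι κ : Type*} (w : ι → I) (s : Finset κ) {S : Finset ι}
    {A : κ → Set (ι → Bool)} (hA : ∀ k ∈ s, Dep S (A k)) (iA : ∀ k ∈ s, Inc (A k)) :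
    ∏ k ∈ s, (PB w).real (A k) ≤ (PB w).real (⋂ k ∈ s, A k) := by
  classical
  induction s using Finset.induction_on with
  | empty => simp
  | insert a s ha ih =>
    rw [Finset.set_biInter_insert, Finset.prod_insert ha]
    have h1 := ih (fun k hk => hA k (Finset.mem_insert_of_mem hk))
      (fun k hk => iA k (Finset.mem_insert_of_mem hk))
    refine le_trans (mul_le_mul_of_nonneg_left h1 measureReal_nonneg) ?_
    refine harris w (hA a (Finset.mem_insert_self _ _)) (T := S) ?_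
      (iA a (Finset.mem_insert_self _ _)) ?_
    · intro z z' h
      simp only [Set.mem_iInter]
      exact forall_congr' fun k => forall_congr' fun hk =>
        hA k (Finset.mem_insert_of_mem hk) z z' h
    · intro z z' h hz
      simp only [Set.mem_iInter] at hz ⊢
      exact fun k hk => iA k (Finset.mem_insert_of_mem hk) z z' h (hz k hk)

/-! ### cells and tubes -/

/-- horizontal arm of the plus of the cell `k` -/
def hR (n : ℕ) (k : P2) : Set P2 := Rect (k.1 * n - n) (k.1 * n + 2 * n) (k.2 * n) (k.2 * n + n)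
/-- vertical arm of the plus of the cell `k` -/
def vR (n : ℕ) (k : P2) : Set P2 := Rect (k.1 * n) (k.1 * n + n) (k.2 * n - n) (k.2 * n + 2 * n)
/-- the plus -/
def plusR (n : ℕ) (k : P2) : Set P2 := hR n k ∪ vR n k

/-- the plus event of a cell -/
def cellX (n : ℕ) (k : P2) : Set Cfz :=
  {z | LRc z (k.1 * n - n) (k.1 * n + 2 * n) (k.2 * n) (k.2 * n + n)} ∩
    {z | BTc z (k.1 * n) (k.1 * n + n) (k.2 * n - n) (k.2 * n + 2 * n)}

/-- support of the plus event -/
def cellE (n : ℕ) (k : P2) : Finset Edge :=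
  rectE (k.1 * n - n) (k.1 * n + 2 * n) (k.2 * n - n) (k.2 * n + 2 * n)

theorem cellX_dep (n : ℕ) (k : P2) : Dep (cellE n k) (cellX n k) :=
  ((lr_dep _ _ _ _).mono (rectE_mono le_rfl le_rfl (by omega) (by omega))).inter
    ((bt_dep _ _ _ _).mono (rectE_mono (by omega) (by omega) le_rfl le_rfl))

theorem cellX_inc (n : ℕ) (k : P2) : Inc (cellX n k) := (lr_inc _ _ _ _).inter (bt_inc _ _ _ _)

theorem cellX_prob (p : I) (n : ℕ) (k : P2) :
    xpr p (3 * n) n ^ 2 ≤ (nu p).real (cellX n k) := by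
  have h := harris (fun _ : Edge => p) (lr_dep (k.1 * n - n) (k.1 * n + 2 * n) (k.2 * n) (k.2 * n + n))
    (bt_dep (k.1 * n) (k.1 * n + n) (k.2 * n - n) (k.2 * n + 2 * n)) (lr_inc _ _ _ _) (bt_inc _ _ _ _)
  refine le_trans (le_of_eq ?_) h
  have h1 := lr_eq_xpr p (k.1 * n - n) (k.1 * n + 2 * n) (k.2 * n) (k.2 * n + n)
  have h2 := bt_eq_xpr p (k.1 * n) (k.1 * n + n) (k.2 * n - n) (k.2 * n + 2 * n)
  unfold nu at h1 h2
  rw [h1, h2, sq]
  congr 2 <;> ring

/-- `u` lies on a full crossing of the horizontal arm of the plus of `k` -/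
def hubH (z : Cfz) (n : ℕ) (k u : P2) : Prop :=
  ∃ a b : P2, a.1 = k.1 * n - n ∧ b.1 = k.1 * n + 2 * n ∧ OC z (hR n k) u a ∧ OC z (hR n k) u b

/-- `u` lies on a full crossing of the vertical arm of the plus of `k` -/
def hubV (z : Cfz) (n : ℕ) (k u : P2) : Prop :=
  ∃ a b : P2, a.2 = k.2 * n - n ∧ b.2 = k.2 * n + 2 * n ∧ OC z (vR n k) u a ∧ OC z (vR n k) u b

theorem exists_hubH {z : Cfz} {n : ℕ} {k : P2} (h : z ∈ cellX n k) : ∃ u, hubH z n k u := by
  obtain ⟨⟨u, v, hu, hv, ho⟩, _⟩ := h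
  exact ⟨u, u, v, hu, hv, OC.refl ho.left, ho⟩

theorem exists_hubV {z : Cfz} {n : ℕ} {k : P2} (h : z ∈ cellX n k) : ∃ u, hubV z n k u := by
  obtain ⟨_, ⟨u, v, hu, hv, ho⟩⟩ := h
  exact ⟨u, u, v, hu, hv, OC.refl ho.left, ho⟩

/-- a horizontal crossing of the cell column meets every vertical hub -/
theorem catchV {z : Cfz} {n : ℕ} {k u : P2} (hu : hubV z n k u) {S : Set P2} {a b : P2}
    (hS : ∀ w ∈ S, k.2 * n - n ≤ w.2 ∧ w.2 ≤ k.2 * n + 2 * n) (ha : a.1 ≤ k.1 * n)
    (hb : k.1 * n + n ≤ b.1) (h : OC z S a b) : ∃ w, OC z S a w ∧ OC z (vR n k) u w := by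
  obtain ⟨c, d, hc, hd, h1, h2⟩ := hu
  obtain ⟨w, hw1, hw2⟩ := glue h ((h1.symm).trans h2)
    (fun w hw => by have := hS w hw; omega)
    (fun w hw => by have := mem_rect.1 hw; omega)
  exact ⟨w, hw1, h1.trans hw2⟩

/-- a vertical crossing of the cell row meets every horizontal hub -/
theorem catchH {z : Cfz} {n : ℕ} {k u : P2} (hu : hubH z n k u) {S : Set P2} {a b : P2}
    (hS : ∀ w ∈ S, k.1 * n - n ≤ w.1 ∧ w.1 ≤ k.1 * n + 2 * n) (ha : a.2 ≤ k.2 * n)
    (hb : k.2 * n + n ≤ b.2) (h : OC z S a b) : ∃ w, OC z S a w ∧ OC z (hR n k) u w := by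
  obtain ⟨c, d, hc, hd, h1, h2⟩ := hu
  obtain ⟨w, hw1, hw2⟩ := glue ((h1.symm).trans h2) h
    (fun w hw => by have := mem_rect.1 hw; omega)
    (fun w hw => by have := hS w hw; omega)
  exact ⟨w, hw2, h1.trans hw1⟩

/-- the two hubs of a cell are connected -/
theorem hub_hub {z : Cfz} {n : ℕ} {k u v : P2} (hu : hubH z n k u) (hv : hubV z n k v) :
    OC z (plusR n k) u v := by
  obtain ⟨a, b, ha, hb, h1, h2⟩ := hu
  obtain ⟨w, hw1, hw2⟩ := catchV hv (S := hR n k) (a := a) (b := b)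
    (fun w hw => by have := mem_rect.1 hw; omega) (by omega) (by omega) ((h1.symm).trans h2)
  have e1 : OC z (plusR n k) u w := (h1.trans hw1).monoS Set.subset_union_left
  have e2 : OC z (plusR n k) w v := (hw2.symm).monoS Set.subset_union_right
  exact e1.trans e2

/-- adjacency of cells -/
def CAdj (k k' : P2) : Prop :=
  (k'.2 = k.2 ∧ (k'.1 = k.1 + 1 ∨ k.1 = k'.1 + 1)) ∨ (k'.1 = k.1 ∧ (k'.2 = k.2 + 1 ∨ k.2 = k'.2 + 1))

theorem CAdj.symm {k k' : P2} (h : CAdj k k') : CAdj k' k := by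
  unfold CAdj at *; omega

theorem cell_link_aux {z : Cfz} {n : ℕ} {k k' u u' : P2} (hk : z ∈ cellX n k) (hk' : z ∈ cellX n k')
    (h1 : k'.2 = k.2) (h2 : k'.1 = k.1 + 1) (hu : hubH z n k u) (hu' : hubH z n k' u') :
    OC z (plusR n k ∪ plusR n k') u u' := by
  obtain ⟨v', hv'⟩ := exists_hubV hk'
  have e0 : k'.1 * (n : ℤ) = k.1 * n + n := by rw [h2]; ring
  have e0' : k'.2 * (n : ℤ) = k.2 * n := by rw [h1]
  have hu0 := hu
  obtain ⟨a, b, ha, hb, h3, h4⟩ := hu
  obtain ⟨w, hw1, hw2⟩ := catchV hv' (S := hR n k) (a := a) (b := b)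
    (fun w hw => by have := mem_rect.1 hw; omega) (by omega) (by omega) ((h3.symm).trans h4)
  have s1 : hR n k ⊆ plusR n k ∪ plusR n k' := fun x hx => Or.inl (Or.inl hx)
  have s2 : vR n k' ⊆ plusR n k ∪ plusR n k' := fun x hx => Or.inr (Or.inr hx)
  exact (((h3.trans hw1).monoS s1).trans ((hw2.symm).monoS s2)).trans
    ((hub_hub hu' hv').symm.monoS Set.subset_union_right)

theorem cell_link_aux' {z : Cfz} {n : ℕ} {k k' u u' : P2} (hk : z ∈ cellX n k)
    (hk' : z ∈ cellX n k') (h1 : k'.1 = k.1) (h2 : k'.2 = k.2 + 1) (hu : hubH z n k u)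
    (hu' : hubH z n k' u') : OC z (plusR n k ∪ plusR n k') u u' := by
  obtain ⟨v, hv⟩ := exists_hubV hk
  have e0 : k'.2 * (n : ℤ) = k.2 * n + n := by rw [h2]; ring
  have e0' : k'.1 * (n : ℤ) = k.1 * n := by rw [h1]
  have hv0 := hv
  obtain ⟨a, b, ha, hb, h3, h4⟩ := hv
  obtain ⟨w, hw1, hw2⟩ := catchH hu' (S := vR n k) (a := a) (b := b)
    (fun w hw => by have := mem_rect.1 hw; omega) (by omega) (by omega) ((h3.symm).trans h4)
  have s1 : vR n k ⊆ plusR n k ∪ plusR n k' := fun x hx => Or.inl (Or.inr hx)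
  have s2 : hR n k' ⊆ plusR n k ∪ plusR n k' := fun x hx => Or.inr (Or.inl hx)
  exact ((hub_hub hu hv0).monoS Set.subset_union_left).trans
    (((h3.trans hw1).monoS s1).trans ((hw2.symm).monoS s2))

/-- hubs of adjacent cells are connected -/
theorem cell_link {z : Cfz} {n : ℕ} {k k' u u' : P2} (hk : z ∈ cellX n k) (hk' : z ∈ cellX n k')
    (h : CAdj k k') (hu : hubH z n k u) (hu' : hubH z n k' u') :
    OC z (plusR n k ∪ plusR n k') u u' := by
  rcases h with ⟨h1, h2 | h2⟩ | ⟨h1, h2 | h2⟩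
  · exact cell_link_aux hk hk' h1 h2 hu hu'
  · rw [Set.union_comm]
    exact (cell_link_aux hk' hk h1.symm h2 hu' hu).symm
  · exact cell_link_aux' hk hk' h1 h2 hu hu'
  · rw [Set.union_comm]
    exact (cell_link_aux' hk' hk h1.symm h2 hu' hu).symm

/-- coarse connection inside a set `K` of cells -/
def CConn (K : Set P2) (k k' : P2) : Prop :=
  Relation.ReflTransGen (fun a b => CAdj a b ∧ a ∈ K ∧ b ∈ K) k k'

/-- the tube event of a finite set of cells -/
def tubeX (n : ℕ) (K : Finset P2) : Set Cfz := ⋂ k ∈ K, cellX n k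

/-- the region of the tube -/
def tubeR (n : ℕ) (K : Finset P2) : Set P2 := ⋃ k ∈ K, plusR n k

/-- support of the tube event -/
def tubeE (n : ℕ) (K : Finset P2) : Finset Edge := by
  classical
  exact K.biUnion (cellE n)

theorem tubeX_dep (n : ℕ) (K : Finset P2) : Dep (tubeE n K) (tubeX n K) := by
  classical
  intro z z' h
  simp only [tubeX, Set.mem_iInter]
  refine forall_congr' fun k => forall_congr' fun hk => ?_
  refine cellX_dep n k z z' fun e he => h e ?_
  unfold tubeE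
  exact Finset.mem_biUnion.2 ⟨k, hk, he⟩

theorem tubeX_inc (n : ℕ) (K : Finset P2) : Inc (tubeX n K) := by
  intro z z' h hz
  simp only [tubeX, Set.mem_iInter] at hz ⊢
  exact fun k hk => cellX_inc n k z z' h (hz k hk)

/-- **Tubes**: probability -/
theorem tube_prob (p : I) (n : ℕ) (K : Finset P2) :
    xpr p (3 * n) n ^ (2 * K.card) ≤ (nu p).real (tubeX n K) := by
  classical
  have h := harris_prod (fun _ : Edge => p) K (S := tubeE n K) (A := cellX n)
    (fun k hk => (cellX_dep n k).mono (by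
      intro e he
      unfold tubeE
      exact Finset.mem_biUnion.2 ⟨k, hk, he⟩)) (fun k _ => cellX_inc n k)
  refine le_trans ?_ h
  rw [pow_mul, ← Finset.prod_const]
  exact Finset.prod_le_prod (fun _ _ => sq_nonneg _) fun k _ => cellX_prob p n k

/-- **Tubes**: connection -/
theorem tube {z : Cfz} {n : ℕ} {K : Finset P2} (hz : z ∈ tubeX n K) {k k' : P2}
    (hk : k ∈ K) (h : CConn (K : Set P2) k k') {u u' : P2} (hu : hubH z n k u)
    (hu' : hubH z n k' u') : OC z (tubeR n K) u u' := by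
  have hz' : ∀ k ∈ K, z ∈ cellX n k := by
    simpa only [tubeX, Set.mem_iInter] using hz
  have hsub : ∀ k ∈ K, plusR n k ⊆ tubeR n K := fun k hk => by
    intro x hx
    simp only [tubeR, Set.mem_iUnion]
    exact ⟨k, hk, hx⟩
  induction h generalizing u' with
  | refl =>
    obtain ⟨v, hv⟩ := exists_hubV (hz' k hk)
    exact ((hub_hub hu hv).trans (hub_hub hu' hv).symm).monoS (hsub k hk)
  | @tail b c _ h2 ih =>
    obtain ⟨u1, hu1⟩ := exists_hubH (hz' b h2.2.1)
    exact (ih hu1).trans ((cell_link (hz' b h2.2.1) (hz' c h2.2.2) h2.1 hu1 hu').monoS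
      (Set.union_subset (hsub b h2.2.1) (hsub c h2.2.2)))



end Crest.Agent.R158.Rs689
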