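import Crest.Agent.R158.Nm3_211
import Crest.Agent.R158.Rs6_689

/-!
# Row 158, Block N (helper211): strands of the medial lattice in row coordinates

* `Dir` : `0,1,2,3` = N, E, S, W; `dv` its vector; `trn s d` : the direction in which the strand that
  arrives at a vertex in direction `d` leaves it; splitting `false` = W-N + S-E, `true` = W-S + N-E
* `St G := (G × ℤ) × Dir` : a strand arriving at the vertex `(i,j)` in direction `d`; `nx6 s` its
  successor for the splittings `s : G × ℤ → Bool`; `G = ℤ` (plane) or `G = ZMod M` (ring)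
* `ed`, `pvx` : percolation edge of a vertex of the plane, primal vertex next to a state
* `plane_SS` : the strand system of a set of states in the plane
* `PB_flip`, `P6`: laws
-/

set_option autoImplicit false

noncomputable section

namespace Crest.Agent.R158.Nm211

open MeasureTheory ProbabilityTheory unitInterval
open Crest.Agent.R158.Rs689
open Crest.Agent.R161.Geo729 Crest.Agent.R161.Dual374

/-! ### transport -/

/-- flipping the coordinates in a set at `p = 1/2` -/
theorem PB_flip {ι : Type*} (F : ι → Bool) :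
    (PB fun _ : ι => hf).map (fun z e => xor (F e) (z e)) = PB fun _ : ι => hf := by
  unfold PB
  rw [Measure.infinitePi_map_pi (μ := fun _ : ι => bern hf) (f := fun e (b : Bool) => xor (F e) b)
    fun e => Measurable.of_discrete]
  congr 1
  funext e
  cases h : F e
  · have : (fun b : Bool => xor false b) = id := by funext b; simp
    rw [this, Measure.map_id]
  · have h1 : (fun b : Bool => xor true b) = fun b => !b := by funext b; simp
    rw [h1, bern_map_not, sigma_hf]

theorem measurable_flip {ι κ : Type*} (F : κ → Bool) (g : κ → ι) :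
    Measurable fun (z : ι → Bool) (e : κ) => xor (F e) (z (g e)) := by
  refine measurable_pi_lambda _ fun e => ?_
  exact (Measurable.of_discrete (f := fun b : Bool => xor (F e) b)).comp (measurable_pi_apply (g e))

/-- **transport** of an expectation along a map of coordinates injective on the support -/
theorem integral_transport {ι κ : Type*} {T : Finset κ} {g : κ → ι} (hg : Set.InjOn g T)
    (F : κ → Bool) {f : (κ → Bool) → ℝ} (hfT : DepF T f) :
    ∫ z, f (fun e => xor (F e) (z (g e))) ∂(PB fun _ : ι => hf) =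
      ∫ z, f z ∂(PB fun _ : κ => hf) := by
  classical
  have h1 : ∫ z, f z ∂(PB fun _ : κ => hf) =
      ∫ y, f (ext T y) ∂(PB fun _ : T => hf) := by
    have h2 := PB_map_inj (j := fun t : T => (t : κ)) Subtype.val_injective fun _ : κ => hf
    rw [← h2, integral_map]
    · refine integral_congr_ae (ae_of_all _ fun z => ?_)
      exact (hfT.eq z).symm
    · exact (measurable_pi_lambda _ fun k => measurable_pi_apply _).aemeasurable
    · exact (Measurable.of_discrete).aestronglyMeasurable
  have h3 : ∫ z, f (fun e => xor (F e) (z (g e))) ∂(PB fun _ : ι => hf) =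
      ∫ y, f (ext T fun t => xor (F t) (y t)) ∂(PB fun _ : T => hf) := by
    have h2 := PB_map_inj (j := fun t : T => g t) (fun a b h => Subtype.ext (hg a.2 b.2 h))
      fun _ : ι => hf
    rw [← h2, integral_map]
    · refine integral_congr_ae (ae_of_all _ fun z => ?_)
      exact hfT _ _ fun e he => by simp [ext, he]
    · exact (measurable_pi_lambda _ fun k => measurable_pi_apply _).aemeasurable
    · exact (Measurable.of_discrete).aestronglyMeasurable
  rw [h1, h3]
  have h4 := PB_flip fun t : T => F t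
  conv_rhs => rw [← h4]
  rw [integral_map]
  · exact (measurable_flip (fun t : T => F t) id).aemeasurable
  · exact (Measurable.of_discrete).aestronglyMeasurable

/-! ### strands in row coordinates -/

/-- directions `0,1,2,3` = N, E, S, W -/
abbrev Dir : Type := Fin 4

/-- horizontal component -/
def dx (d : Dir) : ℤ :=
  match d with
  | 0 => 0
  | 1 => 1
  | 2 => 0
  | 3 => -1

/-- vertical component -/
def dy (d : Dir) : ℤ :=
  match d with
  | 0 => 1
  | 1 => 0
  | 2 => -1
  | 3 => 0

/-- new direction; `false` : W-N + S-E, `true` : W-S + N-E -/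
def trn (s : Bool) (d : Dir) : Dir :=
  match s, d with
  | false, 0 => 1
  | false, 1 => 0
  | false, 2 => 3
  | false, 3 => 2
  | true, 0 => 3
  | true, 3 => 0
  | true, 1 => 2
  | true, 2 => 1

@[simp] theorem trn_trn (s : Bool) (d : Dir) : trn s (trn s d) = d := by
  cases s <;> fin_cases d <;> rfl

theorem trn_inj (s : Bool) : Function.Injective (trn s) :=
  Function.Involutive.injective (trn_trn s)

/-- states -/
abbrev St (G : Type*) : Type _ := (G × ℤ) × Dir

variable {G : Type*} [AddGroupWithOne G]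

/-- one step in direction `d` -/
def mv (v : G × ℤ) (d : Dir) : G × ℤ := (v.1 + (dx d : G), v.2 + dy d)

theorem mv_inj (d : Dir) {v w : G × ℤ} (h : mv v d = mv w d) : v = w := by
  obtain ⟨a, b⟩ := v
  obtain ⟨c, e⟩ := w
  simp only [mv, Prod.mk.injEq, add_left_inj] at h
  exact Prod.ext h.1 h.2

/-- successor -/
def nx6 (s : G × ℤ → Bool) (c : St G) : St G := (mv c.1 (trn (s c.1) c.2), trn (s c.1) c.2)

theorem nx6_inj (s : G × ℤ → Bool) : Function.Injective (nx6 s) := by
  rintro ⟨v, d⟩ ⟨w, e⟩ h
  simp only [nx6, Prod.mk.injEq] at h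
  obtain ⟨h1, h2⟩ := h
  rw [h2] at h1
  have h3 : v = w := mv_inj _ h1
  subst h3
  rw [trn_inj _ h2]

theorem nx6_congr {s s' : G × ℤ → Bool} {c : St G} (h : s c.1 = s' c.1) : nx6 s c = nx6 s' c := by
  unfold nx6; rw [h]

/-- the number of strands depends only on the splittings at the states of `D` -/
theorem gen_dep [DecidableEq G] {D Y : Set (St G)} {X : Finset (St G)} {s s' : G × ℤ → Bool}
    (hs : ∀ c ∈ D, s c.1 = s' c.1) : KK (nx6 s) D Y X = KK (nx6 s') D Y X := by
  classical
  have key : ∀ s s' : G × ℤ → Bool, (∀ c ∈ D, s c.1 = s' c.1) → ∀ x, Hit (nx6 s) D Y x →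
      Hit (nx6 s') D Y x := by
    rintro s s' hs x ⟨n, hn, hy⟩
    have h2 : ∀ k ≤ n, (nx6 s')^[k] x = (nx6 s)^[k] x := by
      intro k
      induction k with
      | zero => intro _; rfl
      | succ k ih =>
        intro hk
        rw [Function.iterate_succ_apply', Function.iterate_succ_apply', ih (by omega)]
        exact (nx6_congr (hs _ (hn k (by omega)))).symm
    refine ⟨n, fun k hk => ?_, ?_⟩
    · rw [h2 k hk.le]; exact hn k hk
    · rw [h2 n le_rfl]; exact hy
  unfold KK
  congr 1
  refine Finset.filter_congr fun x _ => ⟨key s s' hs x, key s' s (fun c hc => (hs c hc).symm) x⟩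

/-! ### the plane -/

/-- percolation edge at a vertex of the plane -/
def ed (v : ℤ × ℤ) : Edge :=
  if (v.1 + v.2) % 2 = 0 then (((v.1 - v.2) / 2, (v.1 + v.2) / 2 - 1), true)
  else (((v.1 - v.2 - 1) / 2, (v.1 + v.2 - 1) / 2), false)

theorem ed_inj : Function.Injective ed := by
  rintro ⟨a, b⟩ ⟨c, d⟩ h
  unfold ed at h
  simp only at h
  split_ifs at h with h1 h2 h2
  · simp only [Prod.mk.injEq, and_true] at h
    exact Prod.ext (by simp only; omega) (by simp only; omega)
  · simp at h
  · simp at h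
  · simp only [Prod.mk.injEq, and_true] at h
    exact Prod.ext (by simp only; omega) (by simp only; omega)

/-- sign of a vertex -/
def par (v : ℤ × ℤ) : Bool := decide ((v.1 + v.2) % 2 = 0)

/-- splittings of a bond configuration -/
def spl (z : Cfz) (v : ℤ × ℤ) : Bool := xor (par v) (z (ed v))

/-- the face on the right of a state, by its lower left corner -/
def fR (c : St ℤ) : ℤ × ℤ :=
  match c.2 with
  | 0 => (c.1.1, c.1.2 - 1)
  | 1 => (c.1.1 - 1, c.1.2 - 1)
  | 2 => (c.1.1 - 1, c.1.2)
  | 3 => (c.1.1, c.1.2)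

/-- the face on the left of a state -/
def fL (c : St ℤ) : ℤ × ℤ :=
  match c.2 with
  | 0 => (c.1.1 - 1, c.1.2 - 1)
  | 1 => (c.1.1 - 1, c.1.2)
  | 2 => (c.1.1, c.1.2)
  | 3 => (c.1.1, c.1.2 - 1)

/-- primal vertex of an even face -/
def ps (f : ℤ × ℤ) : P2 := ((f.1 - f.2) / 2, (f.1 + f.2) / 2)

/-- primal vertex next to a state -/
def ph6 (c : St ℤ) : P2 := if ((fR c).1 + (fR c).2) % 2 = 0 then ps (fR c) else ps (fL c)

/-- ends of an edge -/
def enE (e : Edge) : P2 × P2 := (src e, tgt e)


theorem step_closed (z : Cfz) (c : St ℤ) (h : z (ed c.1) = false) :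
    ph6 (nx6 (spl z) c) = ph6 c := by
  obtain ⟨⟨a, b⟩, d⟩ := c
  simp only at h
  have hs : spl z (a, b) = par (a, b) := by
    unfold spl; rw [h]; simp
  unfold nx6
  simp only [hs]
  rcases Int.emod_two_eq_zero_or_one (a + b) with hp | hp
  · have hpar : par (a, b) = true := by simp [par, hp]
    rw [hpar]
    fin_cases d <;> simp [trn, mv, dx, dy, ph6, fR, fL, ps] <;> split_ifs <;>
      simp only [Prod.mk.injEq] <;> omega
  · have hpar : par (a, b) = false := by simp [par, hp]
    rw [hpar]
    fin_cases d <;> simp [trn, mv, dx, dy, ph6, fR, fL, ps] <;> split_ifs <;>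
      simp only [Prod.mk.injEq] <;> omega

theorem step_open (z : Cfz) (c : St ℤ) (h : z (ed c.1) = true) :
    Lk enE (ed c.1) (ph6 c) (ph6 (nx6 (spl z) c)) := by
  obtain ⟨⟨a, b⟩, d⟩ := c
  simp only at h
  have hs : spl z (a, b) = !par (a, b) := by
    unfold spl; rw [h]; cases par (a, b) <;> rfl
  unfold nx6
  simp only [hs]
  rcases Int.emod_two_eq_zero_or_one (a + b) with hp | hp
  · have hpar : par (a, b) = true := by simp [par, hp]
    rw [hpar]
    have hed : ed (a, b) = (((a - b) / 2, (a + b) / 2 - 1), true) := by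
      unfold ed; simp [hp]
    rw [hed]
    fin_cases d <;> simp [Lk, enE, src, tgt, trn, mv, dx, dy, ph6, fR, fL, ps] <;> split_ifs <;>
      simp only [Prod.mk.injEq] <;>
      first | omega | (refine Or.inl ⟨⟨trivial, ?_⟩, fun _ => ⟨?_, ?_⟩⟩ <;> omega)
  · have hpar : par (a, b) = false := by simp [par, hp]
    rw [hpar]
    have hed : ed (a, b) = (((a - b - 1) / 2, (a + b - 1) / 2), false) := by
      unfold ed; simp [hp]
    rw [hed]
    fin_cases d <;> simp [Lk, enE, src, tgt, trn, mv, dx, dy, ph6, fR, fL, ps] <;> split_ifs <;>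
      simp only [Prod.mk.injEq] <;> omega

/-- **the strand system of a set of states of the plane** -/
theorem plane_SS {D Y : Set (St ℤ)} {X : Finset (St ℤ)} {T : Finset (ℤ × ℤ)}
    (hT : ∀ c ∈ D, c.1 ∈ T) (hX : ∀ c ∈ D, ∀ s : ℤ × ℤ → Bool, nx6 s c ∉ X) :
    SS enE (T.image ed) (fun z => nx6 (spl z)) (fun c => ed c.1) ph6 D Y X 4 where
  loc z z' c _ h := nx6_congr (by simp only [spl, h])
  inj z := (nx6_inj _).injOn
  ent z c hc := hX c hc _
  edge c hc := Finset.mem_image_of_mem _ (hT c hc)
  mult e := by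
    classical
    by_cases he : ∃ v, ed v = e
    · obtain ⟨v, hv⟩ := he
      refine ⟨Finset.univ.image fun d : Dir => (v, d), ?_, fun c _ hc => ?_⟩
      · refine Finset.card_image_le.trans ?_
        simp
      · rw [Finset.mem_image]
        exact ⟨c.2, Finset.mem_univ _, Prod.ext (ed_inj (hv.trans hc.symm)) rfl⟩
    · exact ⟨∅, by simp, fun c _ hc => absurd ⟨_, hc⟩ he⟩
  clo z c _ h := step_closed z c h
  opn z c _ h := step_open z c h

theorem plane_dep {D Y : Set (St ℤ)} {X : Finset (St ℤ)} {T : Finset (ℤ × ℤ)}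
    (hT : ∀ c ∈ D, c.1 ∈ T) {s s' : ℤ × ℤ → Bool} (hs : ∀ v ∈ T, s v = s' v) :
    KK (nx6 s) D Y X = KK (nx6 s') D Y X := gen_dep fun c hc => hs _ (hT c hc)


/-- distance of the vertex -/
theorem ph6_far (c : St ℤ) (a b : ℤ) :
    |c.1.1 - (a + b)| ≤ |(ph6 c).1 - a| + |(ph6 c).2 - b| + 2 ∧
    |c.1.2 - (b - a)| ≤ |(ph6 c).1 - a| + |(ph6 c).2 - b| + 2 := by
  obtain ⟨⟨i, j⟩, d⟩ := c
  fin_cases d <;> simp [ph6, fR, fL, ps] <;> split_ifs <;> constructor <;>
    simp only [abs_eq_max_neg] <;> omega

/-- `ℓ¹` distance of the primal vertex -/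
theorem ph6_l1 (c : St ℤ) (a b : ℤ) :
    |(ph6 c).1 - a| + |(ph6 c).2 - b| ≤ |c.1.1 - (a + b)| + 2 ∨
    |(ph6 c).1 - a| + |(ph6 c).2 - b| ≤ |c.1.2 - (b - a)| + 2 := by
  obtain ⟨⟨i, j⟩, d⟩ := c
  fin_cases d <;> simp [ph6, fR, fL, ps] <;> split_ifs <;>
    simp only [abs_eq_max_neg] <;> omega

theorem Cn.rch {S : Set Edge} {z : Cfz} {u v : P2} (h : Cn enE S z u v) : Rch z u v := by
  induction h with
  | refl => exact Relation.ReflTransGen.refl
  | tail _ h ih =>
    obtain ⟨e, _, h1, h2⟩ := h
    refine ih.tail ⟨e, h1, ?_⟩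
    rcases h2 with h2 | h2
    · exact Or.inl ⟨(congrArg Prod.fst h2).symm, (congrArg Prod.snd h2).symm⟩
    · exact Or.inr ⟨(congrArg Prod.snd h2).symm, (congrArg Prod.fst h2).symm⟩

end Crest.Agent.R158.Nm211
end
private theorem rz_f2900e5e0b : type_of% @_root_.Crest.Agent.R158.Nm211.dx.eq_1 := @_root_.Crest.Agent.R158.Nm211.dx.eq_1 -- L83
private theorem rz_bf790b2914 : type_of% @_root_.Crest.Agent.R158.Nm211.dy.eq_1 := @_root_.Crest.Agent.R158.Nm211.dy.eq_1 -- L91
private theorem rz_f0b414d9d7 : type_of% @_root_.Crest.Agent.R158.Nm211.fL.eq_1 := @_root_.Crest.Agent.R158.Nm211.fL.eq_1 -- L201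
private theorem rz_4c89c2db69 : type_of% @_root_.Crest.Agent.R158.Nm211.fR.eq_1 := @_root_.Crest.Agent.R158.Nm211.fR.eq_1 -- L193
private theorem rz_62156988fd : type_of% @_root_.Crest.Agent.R158.Nm211.trn.eq_1 := @_root_.Crest.Agent.R158.Nm211.trn.eq_1 -- L99
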