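import Crest.Agent.R158.Cb1_771
import Crest.Agent.R158.Mr4_679
import Crest.Agent.R158.Nm4_211

/-!
# Row 158 (helper180): gates, 1: a strand carries face paths of both parities

States `c = ((x, y), d)` of helper211's `nx6 s` (`s v = false` : W-N + S-E), faces by lower left
corner, `gn s t = !s t` : helper771's convention (`true` : SW and NE joined).

* `lfc`, `rtc` : the faces on the left and on the right of a state
* `lf_path`, `rt_path` : along a strand they are joined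
* `no_cross`, `no_cross'` : an even bottom-top crossing of a box blocks all strands
-/

set_option autoImplicit false

noncomputable section

namespace Crest.Agent.R158.Zg180

open MeasureTheory ProbabilityTheory unitInterval
open Crest.Agent.R161.Geo729
open Crest.Agent.R158.Rs689 Crest.Agent.R158.Mr679
open Crest.Agent.R158.Nm211 (Dir dx dy trn St mv nx6)
open Crest.Agent.R158.Cb771 (FS FP xg dgt fp_even fp_odd)

/-- left face of a state -/
def lfc (c : St ℤ) : P2 :=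
  match c.2 with
  | 0 => (c.1.1 - 1, c.1.2 - 1)
  | 1 => (c.1.1 - 1, c.1.2)
  | 2 => (c.1.1, c.1.2)
  | 3 => (c.1.1, c.1.2 - 1)

/-- right face of a state -/
def rtc (c : St ℤ) : P2 :=
  match c.2 with
  | 0 => (c.1.1, c.1.2 - 1)
  | 1 => (c.1.1 - 1, c.1.2 - 1)
  | 2 => (c.1.1 - 1, c.1.2)
  | 3 => (c.1.1, c.1.2)

/-- joined diagonals for a splitting in helper211's convention -/
def gn (s : TF) : TF := fun t => !s t

theorem lfc_col (c : St ℤ) : c.1.1 - 1 ≤ (lfc c).1 ∧ (lfc c).1 ≤ c.1.1 := by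
  obtain ⟨⟨x, y⟩, d⟩ := c
  fin_cases d <;> simp [lfc]

theorem rtc_col (c : St ℤ) : c.1.1 - 1 ≤ (rtc c).1 ∧ (rtc c).1 ≤ c.1.1 := by
  obtain ⟨⟨x, y⟩, d⟩ := c
  fin_cases d <;> simp [rtc]

theorem lr_par (c : St ℤ) : ((lfc c).1 + (lfc c).2 + (rtc c).1 + (rtc c).2) % 2 = 1 := by
  obtain ⟨⟨x, y⟩, d⟩ := c
  fin_cases d <;> simp [lfc, rtc] <;> omega

theorem lf_step (s : TF) (c : St ℤ) : lfc (nx6 s c) = lfc c ∨
    FS (gn s) (fun t => t = c.1) (lfc c) (lfc (nx6 s c)) := by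
  obtain ⟨⟨x, y⟩, d⟩ := c
  cases hs : s (x, y) <;> fin_cases d <;>
    simp [nx6, hs, trn, mv, dx, dy, lfc, FS, Dg, tb, dgt, gn] <;> ring

theorem rt_step (s : TF) (c : St ℤ) : rtc (nx6 s c) = rtc c ∨
    FS (gn s) (fun t => t = c.1) (rtc c) (rtc (nx6 s c)) := by
  obtain ⟨⟨x, y⟩, d⟩ := c
  cases hs : s (x, y) <;> fin_cases d <;>
    simp [nx6, hs, trn, mv, dx, dy, rtc, FS, Dg, tb, dgt, gn] <;> ring

theorem lf_path (s : TF) (c : St ℤ) {Q : P2 → Prop} (m : ℕ)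
    (h : ∀ j < m, Q ((nx6 s)^[j] c).1) : FP (gn s) Q (lfc c) (lfc ((nx6 s)^[m] c)) := by
  induction m with
  | zero => exact FP.refl
  | succ m ih =>
    rw [Function.iterate_succ_apply']
    rcases lf_step s ((nx6 s)^[m] c) with h1 | h1
    · rw [h1]; exact ih fun j hj => h j (by omega)
    · refine (ih fun j hj => h j (by omega)).trans (FP.single (h1.mono ?_))
      rintro t rfl
      exact ⟨h m (by omega), rfl⟩

theorem rt_path (s : TF) (c : St ℤ) {Q : P2 → Prop} (m : ℕ)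
    (h : ∀ j < m, Q ((nx6 s)^[j] c).1) : FP (gn s) Q (rtc c) (rtc ((nx6 s)^[m] c)) := by
  induction m with
  | zero => exact FP.refl
  | succ m ih =>
    rw [Function.iterate_succ_apply']
    rcases rt_step s ((nx6 s)^[m] c) with h1 | h1
    · rw [h1]; exact ih fun j hj => h j (by omega)
    · refine (ih fun j hj => h j (by omega)).trans (FP.single (h1.mono ?_))
      rintro t rfl
      exact ⟨h m (by omega), rfl⟩

/-- an odd face path and an even bottom-top crossing -/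
theorem odd_block {s : TF} {x0 x1 y0 y1 : ℤ} (hg : xg (gn s) ∈ BX 0 x0 x1 y0 y1) (h01 : x0 < x1)
    {Q : P2 → Prop} (hQ : ∀ t, Q t → x0 < t.1 → t.1 ≤ x1 → y0 < t.2 ∧ t.2 ≤ y1) {F G : P2}
    (h : FP (gn s) Q F G) (hp : (F.1 + F.2) % 2 = 1) (hF : F.1 ≤ x0) (hG : x1 ≤ G.1) : False := by
  have h1 := (fp_odd hp).1 h
  refine block_h h1 h01 hg (by omega) hF hG ?_
  rintro t ⟨ht, hX⟩ h2 h3
  exact ⟨(hQ t ht h2 h3).1, (hQ t ht h2 h3).2, hX⟩

/-- **gates** : no strand crosses from left to right -/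
theorem no_cross {s : TF} {x0 x1 y0 y1 : ℤ} (hg : xg (gn s) ∈ BX 0 x0 x1 y0 y1) (h01 : x0 < x1)
    {c : St ℤ} {m : ℕ} (hrow : ∀ j < m, x0 < ((nx6 s)^[j] c).1.1 → ((nx6 s)^[j] c).1.1 ≤ x1 →
      y0 < ((nx6 s)^[j] c).1.2 ∧ ((nx6 s)^[j] c).1.2 ≤ y1) (hc : c.1.1 ≤ x0)
    (hm : x1 < ((nx6 s)^[m] c).1.1) : False := by
  have hl := lf_path s c (Q := fun t : P2 => x0 < t.1 → t.1 ≤ x1 → y0 < t.2 ∧ t.2 ≤ y1) m hrow
  have hr := rt_path s c (Q := fun t : P2 => x0 < t.1 → t.1 ≤ x1 → y0 < t.2 ∧ t.2 ≤ y1) m hrow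
  have e := lr_par c
  have a1 := lfc_col c
  have a2 := rtc_col c
  have b1 := lfc_col ((nx6 s)^[m] c)
  have b2 := rtc_col ((nx6 s)^[m] c)
  rcases Int.emod_two_eq_zero_or_one ((lfc c).1 + (lfc c).2) with hp | hp
  · exact odd_block hg h01 (fun t ht => ht) hr (by omega) (by omega) (by omega)
  · exact odd_block hg h01 (fun t ht => ht) hl (by omega) (by omega) (by omega)

/-- **gates** : no strand crosses from right to left -/
theorem no_cross' {s : TF} {x0 x1 y0 y1 : ℤ} (hg : xg (gn s) ∈ BX 0 x0 x1 y0 y1) (h01 : x0 < x1)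
    {c : St ℤ} {m : ℕ} (hrow : ∀ j < m, x0 < ((nx6 s)^[j] c).1.1 → ((nx6 s)^[j] c).1.1 ≤ x1 →
      y0 < ((nx6 s)^[j] c).1.2 ∧ ((nx6 s)^[j] c).1.2 ≤ y1) (hc : x1 < c.1.1)
    (hm : ((nx6 s)^[m] c).1.1 ≤ x0) : False := by
  have hl := lf_path s c (Q := fun t : P2 => x0 < t.1 → t.1 ≤ x1 → y0 < t.2 ∧ t.2 ≤ y1) m hrow
  have hr := rt_path s c (Q := fun t : P2 => x0 < t.1 → t.1 ≤ x1 → y0 < t.2 ∧ t.2 ≤ y1) m hrow
  have e := lr_par c
  have e' := lr_par ((nx6 s)^[m] c)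
  have a1 := lfc_col c
  have a2 := rtc_col c
  have b1 := lfc_col ((nx6 s)^[m] c)
  have b2 := rtc_col ((nx6 s)^[m] c)
  have pl : ((lfc c).1 + (lfc c).2) % 2 =
      ((lfc ((nx6 s)^[m] c)).1 + (lfc ((nx6 s)^[m] c)).2) % 2 := by
    rcases Int.emod_two_eq_zero_or_one ((lfc c).1 + (lfc c).2) with hp | hp
    · exact ((fp_even hp).1 hl).parity
    · exact ((fp_odd hp).1 hl).parity
  have pr : ((rtc c).1 + (rtc c).2) % 2 =
      ((rtc ((nx6 s)^[m] c)).1 + (rtc ((nx6 s)^[m] c)).2) % 2 := by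
    rcases Int.emod_two_eq_zero_or_one ((rtc c).1 + (rtc c).2) with hp | hp
    · exact ((fp_even hp).1 hr).parity
    · exact ((fp_odd hp).1 hr).parity
  rcases Int.emod_two_eq_zero_or_one ((lfc c).1 + (lfc c).2) with hp | hp
  · exact odd_block hg h01 (fun t ht => ht) hr.symm (by omega) (by omega) (by omega)
  · exact odd_block hg h01 (fun t ht => ht) hl.symm (by omega) (by omega) (by omega)

end Crest.Agent.R158.Zg180
end
private theorem rz_53933f8ecc : type_of% @_root_.Crest.Agent.R158.Zg180.lfc.eq_1 := @_root_.Crest.Agent.R158.Zg180.lfc.eq_1 -- L29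
private theorem rz_d2edfef49f : type_of% @_root_.Crest.Agent.R158.Zg180.rtc.eq_1 := @_root_.Crest.Agent.R158.Zg180.rtc.eq_1 -- L37
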