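import Crest.Agent.R158.Mr4_679
import Crest.Agent.R158.Fl3_440
import Crest.Agent.R158.Gc6_748
import Crest.Agent.R158.Pt2_266
import Crest.Agent.R158.Ka1_470
import Crest.Agent.R158.Zg1_180
import Crest.Agent.R158.Nz3_399
import Crest.Agent.R158.Fl5_440

-- ▼ part R158/Zb1_180
section

/-!
# Row 158 (helper180): one arm at a flat wall, strip windows (lower bound (Z))

* `FArm F n` : the face `F` (a gap of the wall under the tiles of height `> F.2`) has an arm to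
  distance `n` in the half plane
* `Win F x0 x1 y1` : the gap `F` is joined to the face row `y1` inside the columns `(x0, x1]`
* `win_glue` : arm + three crossings of the half annulus + one vertical crossing ⟹ `Win`
* `win_ge` : `P(Win F x0 x1 y1) ≥ c P(FArm F (3m))` for `3m ≤ y1 - F.2 ≤ K m`
-/

set_option autoImplicit false

noncomputable section

namespace Crest.Agent.R158.Zb180

open MeasureTheory ProbabilityTheory unitInterval
open Crest.Agent.R161.Geo729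
open Crest.Agent.R158.Rs689 Crest.Agent.R158.Mr679

/-- one arm from the wall gap `F` to distance `n` in the half plane above `F` -/
def FArm (F : P2) (n : ℤ) : Set TF :=
  {X | ∃ G : P2, TP (BQ X (F.1 - n) (F.1 + n) F.2 (F.2 + n)) F G ∧
    (G.1 = F.1 - n ∨ G.1 = F.1 + n ∨ G.2 = F.2 + n)}

/-- the wall gap `F` is joined to the face row `y1` in the columns `(x0, x1]` -/
def Win (F : P2) (x0 x1 y1 : ℤ) : Set TF :=
  {X | ∃ G : P2, TP (BQ X x0 x1 F.2 y1) F G ∧ G.2 = y1}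

theorem farm_dep (F : P2) (n : ℤ) : Dep (bxF (F.1 - n) (F.1 + n) F.2 (F.2 + n)) (FArm F n) := by
  intro X X' h
  constructor
  · rintro ⟨G, h1, h2⟩
    exact ⟨G, h1.mono (bq_congr h), h2⟩
  · rintro ⟨G, h1, h2⟩
    exact ⟨G, h1.mono (bq_congr fun t ht => (h t ht).symm), h2⟩

theorem win_dep (F : P2) (x0 x1 y1 : ℤ) : Dep (bxF x0 x1 F.2 y1) (Win F x0 x1 y1) := by
  intro X X' h
  constructor
  · rintro ⟨G, h1, h2⟩
    exact ⟨G, h1.mono (bq_congr h), h2⟩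
  · rintro ⟨G, h1, h2⟩
    exact ⟨G, h1.mono (bq_congr fun t ht => (h t ht).symm), h2⟩

theorem farm_inc (F : P2) (n : ℤ) : Inc (FArm F n) := by
  rintro X X' h ⟨G, h1, h2⟩
  exact ⟨G, h1.mono fun t ht => ⟨ht.1, h t ht.2⟩, h2⟩


theorem farm_meas (F : P2) (n : ℤ) : MeasurableSet (FArm F n) := (farm_dep F n).measurableSet

theorem win_meas (F : P2) (x0 x1 y1 : ℤ) : MeasurableSet (Win F x0 x1 y1) :=
  (win_dep F x0 x1 y1).measurableSet

theorem win_mono {F : P2} {x0 x1 x0' x1' y1 : ℤ} (h0 : x0' ≤ x0) (h1 : x1 ≤ x1') :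
    Win F x0 x1 y1 ⊆ Win F x0' x1' y1 := by
  rintro X ⟨G, hG, h2⟩
  refine ⟨G, hG.mono ?_, h2⟩
  rintro t ⟨ht, hX⟩
  refine ⟨?_, hX⟩
  unfold InB at *
  omega

/-- enlarging the box -/
theorem up {X : TF} {a0 a1 c0 c1 x0 x1 y0 y1 : ℤ} (h : a0 ≤ x0 ∧ x1 ≤ a1 ∧ c0 ≤ y0 ∧ y1 ≤ c1)
    {U V : P2} (p : TP (BQ X x0 x1 y0 y1) U V) : TP (BQ X a0 a1 c0 c1) U V := by
  refine p.mono ?_
  rintro t ⟨ht, hX⟩
  refine ⟨?_, hX⟩
  unfold InB at *
  omega

/-- two crossing paths of one sublattice are joined -/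
theorem meet {X : TF} {a0 a1 c0 c1 x0 x1 y0 y1 x0' x1' y0' y1' : ℤ} {A B P R : P2}
    (h1 : TP (BQ X x0 x1 y0 y1) A B) (h2 : TP (BQ X x0' x1' y0' y1') P R)
    (e1 : P.2 ≤ y0 ∧ y1 ≤ R.2) (e2 : A.1 ≤ x0' ∧ x1' ≤ B.1) (e3 : P.2 ≤ A.2 ∧ A.2 ≤ R.2)
    (e4 : A.1 ≤ P.1 ∧ P.1 ≤ B.1) (hp : (A.1 + A.2) % 2 = (P.1 + P.2) % 2)
    (u1 : a0 ≤ x0 ∧ x1 ≤ a1 ∧ c0 ≤ y0 ∧ y1 ≤ c1)
    (u2 : a0 ≤ x0' ∧ x1' ≤ a1 ∧ c0 ≤ y0' ∧ y1' ≤ c1) : TP (BQ X a0 a1 c0 c1) A P := by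
  obtain ⟨w, q1, q2⟩ := mcross_eq h1 h2 (by
      rintro t ⟨ht, _⟩; unfold InB at ht; omega) (by
      rintro t ⟨ht, _⟩; unfold InB at ht; omega) e3 e4 hp
  exact (up u1 q1).trans (up u2 q2).symm

/-- **gluing** -/
theorem win_glue {X : TF} {F : P2} {m y1 : ℤ} (hm : 0 < m) (hy : F.2 + 3 * m ≤ y1)
    (ha : X ∈ FArm F (3 * m))
    (hl : X ∈ LX (F.1 + F.2) (F.1 - 3 * m) (F.1 + 3 * m) (F.2 + m) (F.2 + 3 * m))
    (h1 : X ∈ BX (F.1 + F.2) (F.1 - 3 * m) (F.1 - m) F.2 (F.2 + 3 * m))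
    (h2 : X ∈ BX (F.1 + F.2) (F.1 + m) (F.1 + 3 * m) F.2 (F.2 + 3 * m))
    (hv : X ∈ BX (F.1 + F.2) (F.1 - 3 * m) (F.1 + 3 * m) (F.2 + m) y1) :
    X ∈ Win F (F.1 - 3 * m) (F.1 + 3 * m) y1 := by
  obtain ⟨x, y⟩ := F
  dsimp only at *
  obtain ⟨A, B, lA, lB, lp, lA1, lA2, lc⟩ := hl
  -- the top crossing meets the vertical one
  have hAE : ∃ E : P2, TP (BQ X (x - 3 * m) (x + 3 * m) y y1) A E ∧ E.2 = y1 := by
    obtain ⟨C, E, cC, cE, cp, cC1, cC2, cc⟩ := hv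
    refine ⟨E, (meet lc cc ?_ ?_ ?_ ?_ ?_ ?_ ?_).trans (up ?_ cc), cE⟩ <;> omega
  obtain ⟨E, hAE, cE⟩ := hAE
  clear hv
  suffices h : TP (BQ X (x - 3 * m) (x + 3 * m) y y1) (x, y) A from ⟨E, h.trans hAE, cE⟩
  clear hAE cE
  obtain ⟨G, hG, hGd⟩ := ha
  dsimp only at *
  have hGp := hG.parity
  have hGy : y ≤ G.2 ∧ G.2 ≤ y + 3 * m :=
    hG.faceY (fun t ht => ⟨ht.1.2.2.1, ht.1.2.2.2⟩) (by dsimp only; omega)
  dsimp only at hGp
  rcases hGd with hGd | hGd | hGd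
  · -- left
    clear h2
    obtain ⟨A1, B1, aA, aB, ap, aA1, aA2, ac⟩ := h1
    have e1 : TP (BQ X (x - 3 * m) (x + 3 * m) y y1) (x, y) G := up (by omega) hG
    have e2 : TP (BQ X (x - 3 * m) (x + 3 * m) y y1) G A1 := by
      refine meet hG.symm ac ?_ ?_ ?_ ?_ ?_ ?_ ?_ <;> (try dsimp only) <;> omega
    have e3 : TP (BQ X (x - 3 * m) (x + 3 * m) y y1) A A1 := by
      refine meet lc ac ?_ ?_ ?_ ?_ ?_ ?_ ?_ <;> omega
    exact (e1.trans e2).trans e3.symm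
  · -- right
    clear h1
    obtain ⟨A2, B2, bA, bB, bp, bA1, bA2, bc⟩ := h2
    have e2 : TP (BQ X (x - 3 * m) (x + 3 * m) y y1) (x, y) A2 := by
      refine meet hG bc ?_ ?_ ?_ ?_ ?_ ?_ ?_ <;> (try dsimp only) <;> omega
    have e3 : TP (BQ X (x - 3 * m) (x + 3 * m) y y1) A A2 := by
      refine meet lc bc ?_ ?_ ?_ ?_ ?_ ?_ ?_ <;> omega
    exact e2.trans e3.symm
  · -- top
    clear h1 h2
    have e3 : TP (BQ X (x - 3 * m) (x + 3 * m) y y1) A (x, y) := by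
      refine meet lc hG ?_ ?_ ?_ ?_ ?_ ?_ ?_ <;> (try dsimp only) <;> omega
    exact e3.symm

theorem dep2 {S T : Finset P2} {A B : Set TF} (hA : Dep S A) (hB : Dep T B) :
    Dep (S ∪ T) (A ∩ B) :=
  (hA.mono Finset.subset_union_left).inter (hB.mono Finset.subset_union_right)

/-- **arm to window** at `p = 1/2` -/
theorem win_ge (K : ℕ) : ∃ c : ℝ, 0 < c ∧ c ≤ 1 ∧ ∀ m : ℕ, 1 ≤ m → ∀ (F : P2) (y1 : ℤ),
    F.2 + 3 * m ≤ y1 → y1 ≤ F.2 + K * m →
    c * (tau hf).real (FArm F (3 * m)) ≤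
      (tau hf).real (Win F (F.1 - 3 * m) (F.1 + 3 * m) y1) := by
  obtain ⟨a, ha, ha1, h3⟩ := rsw_lx 3
  obtain ⟨b, hb, hb1, h2⟩ := rsw_bx 2
  obtain ⟨d, hd, hd1, hK⟩ := rsw_bx K
  refine ⟨a * b * b * d, by positivity, ?_, fun m hm F y1 e1 e2 => ?_⟩
  · have : a * b ≤ 1 := mul_le_one₀ ha1 hb.le hb1
    exact mul_le_one₀ (mul_le_one₀ this hb.le hb1) hd.le hd1
  have hm' : (0 : ℤ) < m := by omega
  set L : Set TF := LX (F.1 + F.2) (F.1 - 3 * m) (F.1 + 3 * m) (F.2 + m) (F.2 + 3 * m) with hL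
  set B1 : Set TF := BX (F.1 + F.2) (F.1 - 3 * m) (F.1 - m) F.2 (F.2 + 3 * m) with hB1
  set B2 : Set TF := BX (F.1 + F.2) (F.1 + m) (F.1 + 3 * m) F.2 (F.2 + 3 * m) with hB2
  set V : Set TF := BX (F.1 + F.2) (F.1 - 3 * m) (F.1 + 3 * m) (F.2 + m) y1 with hV
  have pL : a ≤ (tau hf).real L := by
    have := h3 (2 * m) (by omega) (F.1 + F.2) (F.1 - 3 * m) (F.2 + m)
    refine this.trans (le_of_eq ?_)
    rw [hL]
    congr 2 <;> push_cast <;> ring
  have pB : ∀ x : ℤ, b ≤ (tau hf).real (BX (F.1 + F.2) x (x + 2 * m) F.2 (F.2 + 3 * m)) := by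
    intro x
    have := h2 (2 * m) (by omega) (F.1 + F.2) x F.2
    refine this.trans (measureReal_mono (bx_mono (by omega) le_rfl ?_ le_rfl ?_))
    · push_cast; omega
    · push_cast; nlinarith
  have pB1 : b ≤ (tau hf).real B1 := by
    have := pB (F.1 - 3 * m)
    rwa [show F.1 - 3 * (m : ℤ) + 2 * m = F.1 - m by ring] at this
  have pB2 : b ≤ (tau hf).real B2 := by
    have := pB (F.1 + m)
    rwa [show F.1 + (m : ℤ) + 2 * m = F.1 + 3 * m by ring] at this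
  have pV : d ≤ (tau hf).real V := by
    have := hK (6 * m) (by omega) (F.1 + F.2) (F.1 - 3 * m) (F.2 + m)
    refine this.trans (measureReal_mono (bx_mono (by omega) le_rfl ?_ le_rfl ?_))
    · push_cast; omega
    · push_cast
      have : (0 : ℤ) ≤ K * m := by positivity
      nlinarith
  have s1 : b * d ≤ (tau hf).real (B2 ∩ V) :=
    harris2 hf (bx_dep _ _ _ _ _) (bx_dep _ _ _ _ _) (bx_inc _ _ _ _ _) (bx_inc _ _ _ _ _)
      hb.le hd.le pB2 pV
  have d1 := dep2 (bx_dep (F.1 + F.2) (F.1 + m) (F.1 + 3 * m) F.2 (F.2 + 3 * m))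
    (bx_dep (F.1 + F.2) (F.1 - 3 * m) (F.1 + 3 * m) (F.2 + m) y1)
  have i1 : Inc (B2 ∩ V) := (bx_inc _ _ _ _ _).inter (bx_inc _ _ _ _ _)
  have s2 : b * (b * d) ≤ (tau hf).real (B1 ∩ (B2 ∩ V)) :=
    harris2 hf (bx_dep _ _ _ _ _) d1 (bx_inc _ _ _ _ _) i1 hb.le (by positivity) pB1 s1
  have d2 := dep2 (bx_dep (F.1 + F.2) (F.1 - 3 * m) (F.1 - m) F.2 (F.2 + 3 * m)) d1
  have i2 : Inc (B1 ∩ (B2 ∩ V)) := (bx_inc _ _ _ _ _).inter i1
  have s3 : a * (b * (b * d)) ≤ (tau hf).real (L ∩ (B1 ∩ (B2 ∩ V))) :=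
    harris2 hf (lx_dep _ _ _ _ _) d2 (lx_inc _ _ _ _ _) i2 ha.le (by positivity) pL s2
  have d3 := dep2 (lx_dep (F.1 + F.2) (F.1 - 3 * m) (F.1 + 3 * m) (F.2 + m) (F.2 + 3 * m)) d2
  have i3 : Inc (L ∩ (B1 ∩ (B2 ∩ V))) := (lx_inc _ _ _ _ _).inter i2
  have s4 := harris2 hf (farm_dep F (3 * m)) d3 (farm_inc F (3 * m)) i3 measureReal_nonneg
    (by positivity) le_rfl s3
  calc a * b * b * d * (tau hf).real (FArm F (3 * m))
      = (tau hf).real (FArm F (3 * m)) * (a * (b * (b * d))) := by ring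
    _ ≤ _ := s4
    _ ≤ _ := measureReal_mono fun X hX =>
        win_glue hm' e1 hX.1 hX.2.1 hX.2.2.1 hX.2.2.2.1 hX.2.2.2.2

end Crest.Agent.R158.Zb180
end
end

-- ▼ part R158/Zb2_180
section

/-!
# Row 158 (helper180): one arm at a flat wall, 2: symmetries and the lower bound `c n^(-1/2)`

* `farm_shift`, `farm_prob` : translations
* `farm_anti` : the arm events decrease with the distance
* `FArmD`, `WinD` : the same events under a wall (ceiling), `winD_ge`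
* `farm_lower` : `c n^(-1/2) ≤ P(FArm F n)` (from helper440's `pa_lower`)
* `Pf n` : the probability of the arm event
-/

set_option autoImplicit false

noncomputable section

namespace Crest.Agent.R158.Zb180

open MeasureTheory ProbabilityTheory unitInterval
open Crest.Agent.R161.Geo729 Crest.Agent.R161.Dual374 Crest.Agent.R161.Tas682
open Crest.Agent.R158.Rs689 Crest.Agent.R158.Mr679

/-! ### translations -/

theorem farm_shift_mp {a : P2} {X : TF} {F : P2} {n : ℤ} (h : (fun t => X (t + a)) ∈ FArm F n) :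
    X ∈ FArm (F + a) n := by
  obtain ⟨G, hG, hd⟩ := h
  refine ⟨G + a, ?_, by simp only [Prod.fst_add, Prod.snd_add]; omega⟩
  refine hG.map (· + a) (fun _ _ h => dg_add a h) ?_
  rintro u v _ ⟨h1, h2⟩
  refine ⟨?_, ?_⟩
  · rw [tb_add]
    unfold InB at *
    simp only [Prod.fst_add, Prod.snd_add]
    omega
  · rw [tb_add]; exact h2

theorem farm_shift {a : P2} {X : TF} {F : P2} {n : ℤ} :
    (fun t => X (t + a)) ∈ FArm F n ↔ X ∈ FArm (F + a) n := by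
  refine ⟨farm_shift_mp, fun h => ?_⟩
  have h1 : (fun t => (fun t' => X (t' + a)) (t + -a)) ∈ FArm (F + a) n := by
    simpa using h
  have := farm_shift_mp (a := -a) (X := fun t' => X (t' + a)) h1
  simpa using this

theorem farm_prob (p : I) (F F' : P2) (n : ℤ) :
    (tau p).real (FArm F n) = (tau p).real (FArm F' n) := by
  rw [← tau_real_perm p (Equiv.addRight (F' - F)) (farm_meas F n)]
  congr 1
  ext X
  have := farm_shift (a := F' - F) (X := X) (F := F) (n := n)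
  simp only [add_sub_cancel] at this
  exact this

/-- probability of one arm from a gap of a flat wall to distance `n` -/
def Pf (n : ℤ) : ℝ := (tau hf).real (FArm (0, 0) n)

theorem farm_eq (F : P2) (n : ℤ) : (tau hf).real (FArm F n) = Pf n := farm_prob hf F (0, 0) n

theorem Pf_nonneg (n : ℤ) : 0 ≤ Pf n := measureReal_nonneg


/-! ### monotonicity -/



/-! ### the ceiling -/

/-- one arm from the gap `F` of a ceiling (tiles of height `≤ F.2`) to distance `n` -/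
def FArmD (F : P2) (n : ℤ) : Set TF :=
  {X | ∃ G : P2, TP (BQ X (F.1 - n) (F.1 + n) (F.2 - n) F.2) F G ∧
    (G.1 = F.1 - n ∨ G.1 = F.1 + n ∨ G.2 = F.2 - n)}

/-- the gap `F` of a ceiling is joined to the face row `y0` in the columns `(x0, x1]` -/
def WinD (F : P2) (x0 x1 y0 : ℤ) : Set TF :=
  {X | ∃ G : P2, TP (BQ X x0 x1 y0 F.2) F G ∧ G.2 = y0}

/-- reflection of the tiles -/
def rfl2 : P2 ≃ P2 where
  toFun t := (t.1, -t.2)
  invFun t := (t.1, -t.2)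
  left_inv t := by simp
  right_inv t := by simp

theorem dg_refl {u v : P2} (h : Dg u v) : Dg (u.1, -1 - u.2) (v.1, -1 - v.2) := by
  unfold Dg at *
  dsimp only
  omega

theorem tb_refl {u v : P2} (h : Dg u v) :
    tb (u.1, -1 - u.2) (v.1, -1 - v.2) = ((tb u v).1, -(tb u v).2) := by
  unfold Dg at h
  unfold tb
  ext <;> dsimp only <;> omega

theorem tp_refl {X : TF} {x0 x1 y0 y1 : ℤ} {F G : P2} (h : TP (BQ X x0 x1 y0 y1) F G) :
    TP (BQ (fun t => X (rfl2 t)) x0 x1 (-1 - y1) (-1 - y0)) (F.1, -1 - F.2) (G.1, -1 - G.2) := by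
  refine h.map (fun u => (u.1, -1 - u.2)) (fun _ _ h => dg_refl h) ?_
  rintro u v huv ⟨h1, h2⟩
  rw [tb_refl huv]
  refine ⟨?_, ?_⟩
  · unfold InB at *
    dsimp only
    omega
  · simpa [rfl2] using h2

theorem farmD_iff {X : TF} {F : P2} {n : ℤ} :
    X ∈ FArmD F n ↔ (fun t => X (rfl2 t)) ∈ FArm (F.1, -1 - F.2) n := by
  constructor
  · rintro ⟨G, h1, h2⟩
    refine ⟨(G.1, -1 - G.2), ?_, by dsimp only; omega⟩
    have := tp_refl h1
    have e : (-1 - (F.2 - n) : ℤ) = -1 - F.2 + n := by ring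
    rw [e] at this
    exact this
  · rintro ⟨G, h1, h2⟩
    refine ⟨(G.1, -1 - G.2), ?_, by dsimp only at h2 ⊢; omega⟩
    have := tp_refl h1
    dsimp only at this
    have e : (-1 - (-1 - F.2 + n) : ℤ) = F.2 - n := by ring
    have e' : (-1 - (-1 - F.2) : ℤ) = F.2 := by ring
    rw [e, e'] at this
    have e2 : (fun t => (fun t' => X (rfl2 t')) (rfl2 t)) = X := by
      funext t; simp [rfl2]
    rw [e2] at this
    exact this

theorem winD_iff {X : TF} {F : P2} {x0 x1 y0 : ℤ} :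
    X ∈ WinD F x0 x1 y0 ↔ (fun t => X (rfl2 t)) ∈ Win (F.1, -1 - F.2) x0 x1 (-1 - y0) := by
  constructor
  · rintro ⟨G, h1, h2⟩
    exact ⟨(G.1, -1 - G.2), tp_refl h1, by dsimp only; omega⟩
  · rintro ⟨G, h1, h2⟩
    refine ⟨(G.1, -1 - G.2), ?_, by dsimp only at h2 ⊢; omega⟩
    have := tp_refl h1
    dsimp only at this
    have e : (-1 - (-1 - y0) : ℤ) = y0 := by ring
    have e' : (-1 - (-1 - F.2) : ℤ) = F.2 := by ring
    rw [e, e'] at this
    have e2 : (fun t => (fun t' => X (rfl2 t')) (rfl2 t)) = X := by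
      funext t; simp [rfl2]
    rw [e2] at this
    exact this

theorem farmD_dep (F : P2) (n : ℤ) : Dep (bxF (F.1 - n) (F.1 + n) (F.2 - n) F.2) (FArmD F n) := by
  intro X X' h
  constructor
  · rintro ⟨G, h1, h2⟩
    exact ⟨G, h1.mono (bq_congr h), h2⟩
  · rintro ⟨G, h1, h2⟩
    exact ⟨G, h1.mono (bq_congr fun t ht => (h t ht).symm), h2⟩

theorem winD_dep (F : P2) (x0 x1 y0 : ℤ) : Dep (bxF x0 x1 y0 F.2) (WinD F x0 x1 y0) := by
  intro X X' h
  constructor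
  · rintro ⟨G, h1, h2⟩
    exact ⟨G, h1.mono (bq_congr h), h2⟩
  · rintro ⟨G, h1, h2⟩
    exact ⟨G, h1.mono (bq_congr fun t ht => (h t ht).symm), h2⟩

theorem farmD_eq (F : P2) (n : ℤ) : (tau hf).real (FArmD F n) = Pf n := by
  rw [← farm_eq (F.1, -1 - F.2) n, ← tau_real_perm hf rfl2 (farm_meas (F.1, -1 - F.2) n)]
  congr 1
  ext X
  exact farmD_iff

theorem winD_prob (F : P2) (x0 x1 y0 : ℤ) : (tau hf).real (WinD F x0 x1 y0) =
    (tau hf).real (Win (F.1, -1 - F.2) x0 x1 (-1 - y0)) := by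
  rw [← tau_real_perm hf rfl2 (win_meas (F.1, -1 - F.2) x0 x1 (-1 - y0))]
  congr 1
  ext X
  exact winD_iff

/-- **arm to window**, floor -/
theorem win_ge' (K : ℕ) : ∃ c : ℝ, 0 < c ∧ c ≤ 1 ∧ ∀ m : ℕ, 1 ≤ m → ∀ (F : P2) (x0 x1 y1 : ℤ),
    x0 ≤ F.1 - 3 * m → F.1 + 3 * m ≤ x1 → F.2 + 3 * m ≤ y1 → y1 ≤ F.2 + K * m →
    c * Pf (3 * m) ≤ (tau hf).real (Win F x0 x1 y1) := by
  obtain ⟨c, hc, hc1, h⟩ := win_ge K
  refine ⟨c, hc, hc1, fun m hm F x0 x1 y1 h0 h1 h2 h3 => ?_⟩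
  have := h m hm F y1 h2 h3
  rw [farm_eq] at this
  exact this.trans (measureReal_mono (win_mono h0 h1))

/-- **arm to window**, ceiling -/
theorem winD_ge (K : ℕ) : ∃ c : ℝ, 0 < c ∧ c ≤ 1 ∧ ∀ m : ℕ, 1 ≤ m → ∀ (F : P2) (x0 x1 y0 : ℤ),
    x0 ≤ F.1 - 3 * m → F.1 + 3 * m ≤ x1 → y0 ≤ F.2 - 3 * m → F.2 - K * m ≤ y0 →
    c * Pf (3 * m) ≤ (tau hf).real (WinD F x0 x1 y0) := by
  obtain ⟨c, hc, hc1, h⟩ := win_ge' K
  refine ⟨c, hc, hc1, fun m hm F x0 x1 y0 h0 h1 h2 h3 => ?_⟩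
  rw [winD_prob]
  exact h m hm (F.1, -1 - F.2) x0 x1 (-1 - y0) h0 h1 (by dsimp only; omega) (by dsimp only; omega)

/-! ### the lower bound -/

/-- rotation of the tiles -/
def rI : P2 ≃ P2 where
  toFun t := (1 - t.2, t.1)
  invFun t := (t.2, 1 - t.1)
  left_inv t := by simp
  right_inv t := by simp

theorem dg_rot {u v : P2} (h : Dg u v) : Dg (u.2, -u.1) (v.2, -v.1) := by
  unfold Dg at *
  dsimp only
  omega

theorem tb_rot {u v : P2} (h : Dg u v) :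
    tb (u.2, -u.1) (v.2, -v.1) = ((tb u v).2, 1 - (tb u v).1) := by
  unfold Dg at h
  unfold tb
  ext <;> dsimp only <;> omega

open Crest.Agent.R158.Fl440 in
theorem pa_farm {z : Cfz} {k : ℤ} {n : ℕ} (hz : z ∈ PA k n) :
    (fun t => z (tE.symm (rI t))) ∈ FArm (2 * k, 0) n := by
  rw [mem_PA] at hz
  obtain ⟨v, hv, hoc⟩ := hz
  obtain ⟨hk, hoc⟩ := hoc
  have hvS : v ∈ HB k n := by
    rcases Relation.ReflTransGen.cases_tail hoc with h | ⟨w, _, h⟩
    · rw [h]; exact hk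
    · exact h.2.2
  have h1 : TP (fun t => z (tE.symm t) = true ∧ (2 * k - n < t.2 ∧ t.2 ≤ 2 * k + n) ∧
      (-(n : ℤ) < t.1 ∧ t.1 ≤ 0)) (prim (k, k)) (prim v) := by
    rw [tp_prim_iff]
    refine Relation.ReflTransGen.mono ?_ _ _ hoc
    rintro a b ⟨⟨e, he, hab⟩, ha, hb⟩
    refine ⟨e, ⟨by rw [Equiv.symm_apply_apply]; exact he, ?_⟩, hab⟩
    rw [Finset.mem_coe, mem_HB] at ha hb
    rw [← tb_prim e]
    have h3 := dg_prim e
    unfold Dg at h3
    unfold tb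
    simp only [prim, mX, mY] at *
    rcases hab with ⟨rfl, rfl⟩ | ⟨rfl, rfl⟩ <;> omega
  have h2 := h1.map (Q' := BQ (fun t => z (tE.symm (rI t))) (2 * k - n) (2 * k + n) 0 (0 + n))
    (fun u => (u.2, -u.1)) (fun _ _ h => dg_rot h) (by
      rintro a b hab ⟨h3, h4, h5⟩
      rw [tb_rot hab]
      refine ⟨?_, ?_⟩
      · unfold InB
        dsimp only
        omega
      · simpa [rI] using h3)
  have e1 : ((prim (k, k)).2, -(prim (k, k)).1) = ((2 * k, 0) : P2) := by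
    ext <;> simp only [prim] <;> omega
  rw [e1] at h2
  refine ⟨_, h2, ?_⟩
  rw [mem_HB] at hvS
  rw [mem_Far] at hv
  simp only [prim, mX, mY] at *
  omega

/-- **lower bound of the boundary one-arm probability** -/
theorem pf_lower : ∃ c : ℝ, 0 < c ∧ ∀ n : ℕ, 1 ≤ n → c * (n : ℝ) ^ (-(1 / 2 : ℝ)) ≤ Pf n := by
  obtain ⟨c, hc, h⟩ := Crest.Agent.R158.Fl440.pa_lower
  refine ⟨c, hc, fun n hn => (h 0 n hn).trans ?_⟩
  rw [← farm_eq (2 * 0, 0) n, ← tau_real_perm hf rI (farm_meas (2 * 0, 0) n), tau_real_eq hf]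
  · exact measureReal_mono fun z hz => pa_farm hz
  · exact (measurable_perm rI) (farm_meas _ _)

end Crest.Agent.R158.Zb180
end
end

-- ▼ part R158/Zm1_180
section

/-!
# Row 158 (helper180): strands in a box = helper748's partner map of the box

`box x0 y0 m n` : tiles `[x0, x0+m] × [y0, y0+n]`.  Splittings `s` of helper300/748 (`true` = W-N),
`sc s = !s` in helper211's convention for `nx6`.

* `wk_iter`, `iter_wk` : walks of the word of the box are iterates of `nx6 (sc s)`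
* `bm_iff` : `BM s (some a) = some b` iff the strand entering through `a` leaves the box through `b`
-/

set_option autoImplicit false

noncomputable section

namespace Crest.Agent.R158.Zm180

open Crest.Agent.R158.Sw300 (Port Wd thru)
open Crest.Agent.R158.Gc748
open Crest.Agent.R158.Nm211 (Dir dx dy trn St mv nx6)
open Crest.Agent.R158.Ka470 (en ex thru_sg ex_inj en_inj)
open Crest.Agent.R158.Pt266 (Fr Gw glu_Gw walk_word fr_of_mem)

variable {x0 y0 : ℤ} {m n : ℕ}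

/-- splitting in helper211's convention -/
def sc (s : ℤ × ℤ → Bool) : ℤ × ℤ → Bool := fun v => !s v

theorem thru_en (b : Bool) (d : Dir) : thru b (en d) = ex (trn (!b) d) := by
  have := thru_sg false b d
  simpa [Crest.Agent.R158.Ka470.sg] using this

theorem rect_gl {v : ℤ × ℤ} {d : Dir} {q : (ℤ × ℤ) × ZMod 4} :
    (rect x0 y0 m n).gl (some (v, ex d)) (some q) ↔
      InR x0 y0 m n v ∧ InR x0 y0 m n (mv v d) ∧ q = (mv v d, en d) := by
  obtain ⟨x, y⟩ := v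
  unfold InR
  fin_cases d
  · show (rect x0 y0 m n).gl (some ((x, y), 1)) (some q) ↔ _
    simp only [Xr249.Reg.gl, rect_v, rect_h, mv, dx, dy, en, show (1 : ZMod 4) ≠ 0 by decide,
      show (1 : ZMod 4) ≠ 2 by decide, show (1 : ZMod 4) ≠ 3 by decide, false_and, false_or,
      or_false, true_and, Option.some.injEq, Int.cast_zero, add_zero]
    constructor
    · rintro ⟨h, rfl⟩; exact ⟨by omega, by omega, rfl⟩
    · rintro ⟨h1, h2, h3⟩; exact ⟨by omega, h3⟩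
  · show (rect x0 y0 m n).gl (some ((x, y), 2)) (some q) ↔ _
    simp only [Xr249.Reg.gl, rect_v, rect_h, mv, dx, dy, en, show (2 : ZMod 4) ≠ 0 by decide,
      show (2 : ZMod 4) ≠ 1 by decide, show (2 : ZMod 4) ≠ 3 by decide, false_and, false_or,
      or_false, true_and, Option.some.injEq, Int.cast_one, add_zero]
    constructor
    · rintro ⟨h, rfl⟩; exact ⟨by omega, by omega, rfl⟩
    · rintro ⟨h1, h2, h3⟩; exact ⟨by omega, h3⟩
  · show (rect x0 y0 m n).gl (some ((x, y), 3)) (some q) ↔ _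
    simp only [Xr249.Reg.gl, rect_v, rect_h, mv, dx, dy, en, show (3 : ZMod 4) ≠ 0 by decide,
      show (3 : ZMod 4) ≠ 1 by decide, show (3 : ZMod 4) ≠ 2 by decide, false_and, false_or,
      or_false, true_and, Option.some.injEq, Int.cast_zero, add_zero]
    constructor
    · rintro ⟨h, rfl⟩; exact ⟨by omega, by omega, rfl⟩
    · rintro ⟨h1, h2, h3⟩; exact ⟨by omega, h3⟩
  · show (rect x0 y0 m n).gl (some ((x, y), 0)) (some q) ↔ _
    simp only [Xr249.Reg.gl, rect_v, rect_h, mv, dx, dy, en, show (0 : ZMod 4) ≠ 1 by decide,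
      show (0 : ZMod 4) ≠ 2 by decide, show (0 : ZMod 4) ≠ 3 by decide, false_and, false_or,
      or_false, true_and, Option.some.injEq, Int.cast_neg, Int.cast_one, add_zero]
    constructor
    · rintro ⟨h, rfl⟩; exact ⟨by omega, by omega, rfl⟩
    · rintro ⟨h1, h2, h3⟩; exact ⟨by omega, h3⟩

/-- glueing of the word of the box -/
theorem gw_iff {v : ℤ × ℤ} {d : Dir} {q : (ℤ × ℤ) × ZMod 4} :
    Gw (rectW x0 y0 m n) (v, ex d) q ↔
      InR x0 y0 m n v ∧ InR x0 y0 m n (mv v d) ∧ q = (mv v d, en d) := by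
  rw [← rect_gl]
  exact (rectW_rw x0 y0 m n).gp

variable {s : ℤ × ℤ → Bool}


theorem it_fst (c : St ℤ) (k : ℕ) : ((nx6 (sc s))^[k + 1] c).1 =
    mv ((nx6 (sc s))^[k] c).1 ((nx6 (sc s))^[k + 1] c).2 := by
  rw [Function.iterate_succ_apply']
  rfl

theorem pass_st (c : St ℤ) : Pt266.pass s (c.1, en c.2) = (c.1, ex (nx6 (sc s) c).2) := by
  unfold Pt266.pass
  rw [thru_en]
  rfl

/-- walks are iterates -/
theorem wk_iter {c : St ℤ} (hc : InR x0 y0 m n c.1) {y : (ℤ × ℤ) × ZMod 4}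
    {l : List ((ℤ × ℤ) × ZMod 4)}
    (hw : Pt266.Wk s (Gw (rectW x0 y0 m n)) (c.1, en c.2) y l) :
    ∃ k, (∀ j ≤ k, InR x0 y0 m n ((nx6 (sc s))^[j] c).1) ∧
      y = (((nx6 (sc s))^[k] c).1, ex ((nx6 (sc s))^[k + 1] c).2) := by
  induction hw with
  | one =>
    refine ⟨0, fun j hj => ?_, pass_st c⟩
    have : j = 0 := by omega
    subst this
    exact hc
  | @snoc q r l _ hg ih =>
    obtain ⟨k, h1, rfl⟩ := ih
    obtain ⟨h2, h3, rfl⟩ := gw_iff.1 hg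
    refine ⟨k + 1, fun j hj => ?_, ?_⟩
    · rcases Nat.lt_or_ge k j with h | h
      · have : j = k + 1 := by omega
        rw [this, it_fst]
        exact h3
      · exact h1 j h
    · rw [← it_fst, pass_st, ← Function.iterate_succ_apply' (nx6 (sc s))]

/-- iterates are walks -/
theorem iter_wk {c : St ℤ} {k : ℕ} (h : ∀ j ≤ k, InR x0 y0 m n ((nx6 (sc s))^[j] c).1) :
    ∃ l, Pt266.Wk s (Gw (rectW x0 y0 m n)) (c.1, en c.2)
      (((nx6 (sc s))^[k] c).1, ex ((nx6 (sc s))^[k + 1] c).2) l := by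
  induction k with
  | zero =>
    refine ⟨[(c.1, en c.2)], ?_⟩
    have := Pt266.Wk.one (s := s) (G := Gw (rectW x0 y0 m n)) (x := (c.1, en c.2))
    rwa [pass_st] at this
  | succ k ih =>
    obtain ⟨l, hl⟩ := ih fun j hj => h j (by omega)
    have hg : Gw (rectW x0 y0 m n) (((nx6 (sc s))^[k] c).1, ex ((nx6 (sc s))^[k + 1] c).2)
        (((nx6 (sc s))^[k + 1] c).1, en ((nx6 (sc s))^[k + 1] c).2) := by
      refine gw_iff.2 ⟨h k (by omega), ?_, ?_⟩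
      · rw [← it_fst]; exact h (k + 1) le_rfl
      · rw [← it_fst]
    have := hl.snoc hg
    rw [pass_st, ← Function.iterate_succ_apply' (nx6 (sc s))] at this
    exact ⟨_, this⟩

/-- sides leaving the box are free -/
theorem fr_out {v : ℤ × ℤ} {d : Dir} (h : ¬ InR x0 y0 m n (mv v d)) :
    Fr (Gw (rectW x0 y0 m n)) (v, ex d) := by
  intro b hb
  exact h (gw_iff.1 hb).2.1

theorem mem_L_iff {v : ℤ × ℤ} {d : Dir} : (some (v, ex d) : Port (ℤ × ℤ)) ∈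
    Sw300.L (rectW x0 y0 m n) ↔ InR x0 y0 m n v ∧ ¬ InR x0 y0 m n (mv v d) := by
  have hrw := rectW_rw x0 y0 m n
  rw [Pt266.mem_L hrw.ok, hrw.tls]
  have e1 : (v ∈ (rect x0 y0 m n).P) ↔ InR x0 y0 m n v := by
    have := congrFun (inR_eq (x0 := x0) (y0 := y0) (m := m) (n := n)) v
    exact iff_of_eq this
  constructor
  · rintro ⟨h1, h2⟩
    have h1' := e1.1 h1
    refine ⟨h1', fun h3 => h2 ⟨some (mv v d, en d), ?_⟩⟩
    exact (gw_iff (q := (mv v d, en d))).2 ⟨h1', h3, rfl⟩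
  · rintro ⟨h1, h2⟩
    refine ⟨e1.2 h1, ?_⟩
    rintro ⟨y, hy⟩
    rcases y with _ | q
    · have := (hrw.gp (p := some (v, ex d)) (q := none)).1 hy
      simp [Xr249.Reg.gl] at this
    · exact h2 (gw_iff.1 hy).2.1

/-- **dictionary**: the partner map of the box and the strands -/
theorem bm_iff {c : St ℤ} (hc : InR x0 y0 m n c.1)
    (hc' : (some (c.1, en c.2) : Port (ℤ × ℤ)) ∈ Sw300.L (rectW x0 y0 m n))
    {b : (ℤ × ℤ) × ZMod 4} : BM s x0 y0 m n (some (c.1, en c.2)) = some b ↔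
    ∃ k, (∀ j ≤ k, InR x0 y0 m n ((nx6 (sc s))^[j] c).1) ∧
      ¬ InR x0 y0 m n ((nx6 (sc s))^[k + 1] c).1 ∧
      b = (((nx6 (sc s))^[k] c).1, ex ((nx6 (sc s))^[k + 1] c).2) := by
  have hrw := rectW_rw x0 y0 m n
  have hne : Sw300.M s (rectW x0 y0 m n) (some (c.1, en c.2)) ≠ some (c.1, en c.2) := by
    intro h
    have := M_fix s hrw.ok (by rw [hrw.bas]; simp) hc' h
    simp at this
  obtain ⟨a, b', l, ha, hb', hw, -⟩ := walk_word s hrw.ok hc' hne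
  have ha' : a = (c.1, en c.2) := (Option.some_injective _ ha).symm
  subst ha'
  have hbL : (some b' : Port (ℤ × ℤ)) ∈ Sw300.L (rectW x0 y0 m n) := by
    rw [← hb']
    exact (gd_wd s hrw.ok).mem _ hc'
  have hfr := fr_of_mem hrw.ok hbL
  constructor
  · intro h
    have e : b' = b := by
      have h2 : some b' = some b := hb'.symm.trans h
      exact Option.some_injective _ h2
    subst e
    obtain ⟨k, h1, h2⟩ := wk_iter hc hw
    refine ⟨k, h1, fun h3 => ?_, h2⟩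
    rw [h2] at hfr
    rw [it_fst] at h3
    exact hfr _ (gw_iff.2 ⟨h1 k le_rfl, h3, rfl⟩)
  · rintro ⟨k, h1, h2, rfl⟩
    obtain ⟨l', hw'⟩ := iter_wk h1
    rw [it_fst] at h2
    have := (Pt266.Wk.det (glu_Gw hrw.ok).fn hw hfr hw' (fr_out h2)).1
    show Sw300.M s (rectW x0 y0 m n) (some (c.1, en c.2)) = _
    rw [hb', this]

end Crest.Agent.R158.Zm180
end
end

-- ▼ part R158/Zm2_180

/-!
# Row 158 (helper180): the mark count at a flat wall is the one-arm event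

* `kn_iff` : `Kn .mk n s = 0 ↔ xg (gn s) ∈ FArm (-1,-1) n`
* `pm_eq` : `Pm n = Pf n`;  `pf_aw` : `Pf n = aw n` (helper440's one-arm probability)
* `pm_lower`, `pm_upper`, `pm_anti`, `pm_ext`
-/

set_option autoImplicit false

noncomputable section

namespace Crest.Agent.R158.Zm180

open MeasureTheory ProbabilityTheory unitInterval
open Crest.Agent.R161.Geo729
open Crest.Agent.R158.Sw300 (Port Wd thru)
open Crest.Agent.R158.Gc748
open Crest.Agent.R158.Rs689 Crest.Agent.R158.Mr679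
open Crest.Agent.R158.Nm211 (Dir dx dy trn St mv nx6 Hit KK)
open Crest.Agent.R158.Ka470 (en ex thru_sg ex_inj en_inj)
open Crest.Agent.R158.Cb771 (FP xg fp_even fp_odd)
open Crest.Agent.R158.Zg180 (gn)
open Crest.Agent.R158.Zb180 (FArm Pf farm_meas farm_eq farm_prob)
open Crest.Agent.R158.Nz399 (Kind Tk mem_Tk Dk Yk Xk Kn Pm)

theorem sc_gn (s : ℤ × ℤ → Bool) : sc (gn s) = s := by
  funext v; simp [sc, gn]

theorem inR_Tk {n : ℕ} (hn : 1 ≤ n) (v : ℤ × ℤ) :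
    InR (-(n : ℤ)) 0 (2 * n - 1) (n - 1) v ↔ v ∈ Tk .mk n := by
  rw [mem_Tk]
  unfold InR Crest.Agent.R158.Nz399.qd
  simp only
  omega

theorem hit_iff {n : ℕ} (hn : 1 ≤ n) (s : ℤ × ℤ → Bool) {i : ℤ} (hi0 : 0 ≤ i) (hi1 : i < n) :
    Hit (nx6 s) (Dk .mk n) (Yk .mk) ((i, 0), 0) ↔ ∃ j : ℤ, -(n : ℤ) ≤ j ∧ j < 0 ∧
      BM (gn s) (-(n : ℤ)) 0 (2 * n - 1) (n - 1) (some ((i, 0), 3)) = some ((j, 0), 3) := by
  have hs := sc_gn s
  have hc : InR (-(n : ℤ)) 0 (2 * n - 1) (n - 1) (((i, 0), 0) : St ℤ).1 := by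
    unfold InR
    dsimp only
    omega
  have hL : (some ((((i, 0), 0) : St ℤ).1, en (((i, 0), 0) : St ℤ).2) : Port (ℤ × ℤ)) ∈
      Sw300.L (rectW (-(n : ℤ)) 0 (2 * n - 1) (n - 1)) := by
    have := (mem_L_iff (x0 := -(n : ℤ)) (y0 := 0) (m := 2 * n - 1) (n := n - 1)
      (v := (i, 0)) (d := 2)).2 ⟨hc, by unfold InR mv dy; dsimp only; omega⟩
    exact this
  have key := fun b => bm_iff (s := gn s) hc hL (b := b)
  rw [hs] at key
  constructor
  · rintro ⟨N, h1, h2⟩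
    rcases Nat.eq_zero_or_pos N with h0 | h0
    · subst h0
      have h3 : (((i, 0), 0) : St ℤ).1.1 < 0 := h2.1
      dsimp only at h3
      omega
    obtain ⟨k, rfl⟩ := Nat.exists_eq_succ_of_ne_zero h0.ne'
    have h3 : ((nx6 s)^[k + 1] ((i, 0), 0)).1.1 < 0 ∧ ((nx6 s)^[k + 1] ((i, 0), 0)).1.2 < 0 := h2
    have hin : ∀ j ≤ k, InR (-(n : ℤ)) 0 (2 * n - 1) (n - 1) ((nx6 s)^[j] ((i, 0), 0)).1 :=
      fun j hj => (inR_Tk hn _).2 (h1 j (by omega))
    have hout : ¬ InR (-(n : ℤ)) 0 (2 * n - 1) (n - 1) ((nx6 s)^[k + 1] ((i, 0), 0)).1 := by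
      unfold InR; omega
    have hmv := it_fst (s := gn s) (((i, 0), 0) : St ℤ) k
    rw [hs] at hmv
    have hk := hin k le_rfl
    have hb := (key _).2 ⟨k, hin, hout, rfl⟩
    generalize (nx6 s)^[k + 1] ((i, 0), 0) = c1 at *
    generalize (nx6 s)^[k] ((i, 0), 0) = c0 at *
    obtain ⟨v1, d1⟩ := c1
    obtain ⟨⟨a, b⟩, d0⟩ := c0
    dsimp only at *
    subst hmv
    unfold InR at hk
    dsimp only at hk
    have hd : d1 = 2 := by
      fin_cases d1 <;> simp only [mv, dx, dy] at h3 <;> first | rfl | omega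
    subst hd
    have h4 : a < 0 ∧ b - 1 < 0 := by
      have e1 : (mv ((a, b) : ℤ × ℤ) (2 : Dir)).1 = a := by simp [mv, dx]
      have e2 : (mv ((a, b) : ℤ × ℤ) (2 : Dir)).2 = b - 1 := by simp [mv, dy]; ring
      rw [e1, e2] at h3
      exact h3
    have hb0 : b = 0 := by omega
    subst hb0
    exact ⟨a, by omega, h4.1, hb⟩
  · rintro ⟨j, hj0, hj1, hb⟩
    obtain ⟨k, h1, h2, h3⟩ := (key _).1 hb
    refine ⟨k + 1, fun t ht => (inR_Tk hn _).1 (h1 t (by omega)), ?_⟩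
    have hmv := it_fst (s := gn s) (((i, 0), 0) : St ℤ) k
    rw [hs] at hmv
    simp only [Prod.mk.injEq] at h3
    have hd : ((nx6 s)^[k + 1] ((i, 0), 0)).2 = 2 := by
      have : ex ((nx6 s)^[k + 1] ((i, 0), 0)).2 = ex 2 := h3.2.symm
      exact ex_inj this
    rw [hd, ← h3.1] at hmv
    show ((nx6 s)^[k + 1] ((i, 0), 0)).1.1 < 0 ∧ ((nx6 s)^[k + 1] ((i, 0), 0)).1.2 < 0
    rw [hmv]
    simp only [mv, dx, dy]
    constructor
    · simpa using hj1
    · norm_num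

/-- **no strand around the gap = one arm from the gap** -/
theorem kn_iff {n : ℕ} (hn : 1 ≤ n) (s : ℤ × ℤ → Bool) :
    Kn .mk n s = 0 ↔ xg (gn s) ∈ FArm (-1, -1) n := by
  classical
  have h0 : Kn .mk n s = 0 ↔ ∀ i : ℤ, 0 ≤ i → i < n → ∀ j : ℤ, -(n : ℤ) ≤ j → j < 0 →
      BM (gn s) (-(n : ℤ)) 0 (2 * n - 1) (n - 1) (some ((i, 0), 3)) ≠ some ((j, 0), 3) := by
    unfold Kn KK
    rw [Finset.card_eq_zero, Finset.filter_eq_empty_iff]
    constructor
    · intro h i hi0 hi1 j hj0 hj1 hb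
      refine h (x := ((i, 0), 0)) ?_ ((hit_iff hn s hi0 hi1).2 ⟨j, hj0, hj1, hb⟩)
      exact Finset.mem_image.2 ⟨i, Finset.mem_Ico.2 ⟨hi0, hi1⟩, rfl⟩
    · intro h x hx hhit
      obtain ⟨i, hi, rfl⟩ := Finset.mem_image.1 hx
      rw [Finset.mem_Ico] at hi
      obtain ⟨j, hj0, hj1, hb⟩ := (hit_iff hn s hi.1 hi.2).1 hhit
      exact h i hi.1 hi.2 j hj0 hj1 hb
  rw [h0]
  have hpar : (((-1, -1) : P2).1 + ((-1, -1) : P2).2) % 2 = 0 := by norm_num
  constructor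
  · intro h
    obtain ⟨G, hG, hout⟩ := floor_arm (s := gn s) (x0 := -(n : ℤ)) (y0 := 0) (m := 2 * n - 1)
      (n := n - 1) (c := -1) (by omega) (by omega) (fun i j hi0 hi1 hj0 hj1 =>
        h i (by omega) (by omega) j (by omega) (by omega))
    refine ⟨G, ?_, ?_⟩
    · have h1 := (fp_even hpar).1 hG
      refine h1.mono ?_
      rintro t ⟨ht, hX⟩
      refine ⟨?_, hX⟩
      unfold InR at ht
      unfold InB
      dsimp only
      omega
    · unfold OutF at hout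
      dsimp only
      omega
  · rintro ⟨G, hG, hd⟩ i hi0 hi1 j hj0 hj1
    refine floor_cross (s := gn s) (x0 := -(n : ℤ)) (y0 := 0) (m := 2 * n - 1)
      (n := n - 1) (c := -1) (G := G) (by omega) (by omega) ?_ ?_ i j (by omega) (by omega)
      (by omega) (by omega)
    · unfold OutF
      dsimp only at hd
      omega
    · refine (fp_even hpar).2 (hG.mono ?_)
      rintro t ⟨ht, hX⟩
      refine ⟨?_, hX⟩
      unfold InR
      unfold InB at ht
      dsimp only at ht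
      omega

theorem law_gn {A : Set TF} (hA : MeasurableSet A) :
    (tau hf).real {s | xg (gn s) ∈ A} = (tau hf).real A := by
  have h1 : MeasurableSet {g : TF | xg g ∈ A} := Crest.Agent.R158.Cb771.measurable_xg hA
  have h2 := tau_real_not hf h1
  rw [sigma_hf, Crest.Agent.R158.Cb771.tau_real_xg hA] at h2
  exact h2

/-- **`Pm n = Pf n`** -/
theorem pm_eq {n : ℕ} (hn : 1 ≤ n) : Pm n = Pf n := by
  unfold Pm
  have h1 : {s : ℤ × ℤ → Bool | Kn .mk n s = 0} = {s | xg (gn s) ∈ FArm (-1, -1) n} := by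
    ext s
    exact kn_iff hn s
  rw [h1]
  have h2 := law_gn (farm_meas (-1, -1) n)
  have h3 := farm_eq (-1, -1) n
  rw [h3] at h2
  exact h2

/-- helper440's one-arm event -/
theorem farm_at (X : TF) (n : ℕ) :
    X ∈ FArm (0, 0) n ↔ X ∈ Crest.Agent.R158.Fl440.AT 0 n := by
  have oc0 : Crest.Agent.R158.Fl440.oc 0 = true := by
    have := Crest.Agent.R158.Fl440.oc_even 0
    simpa using this
  constructor
  · rintro ⟨G, h1, h2⟩
    refine ⟨G, ?_, h1.mono ?_⟩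
    · show G.1 ≤ 0 - (n : ℤ) ∨ 0 + (n : ℤ) ≤ G.1 ∨ (n : ℤ) ≤ G.2
      dsimp only at h2
      omega
    · rintro t ⟨ht, hX⟩
      refine ⟨by rw [hX, oc0], ?_⟩
      unfold InB at *
      dsimp only at ht ⊢
      omega
  · rintro ⟨G, h1, h2⟩
    have h3 := h2.faceX (x0 := 0 - (n : ℤ)) (x1 := 0 + n) (fun t ht => ⟨ht.2.1, ht.2.2.1⟩)
      (by dsimp only; omega)
    have h4 := h2.faceY (y0 := 0) (y1 := (n : ℤ)) (fun t ht => ⟨ht.2.2.2.1, ht.2.2.2.2⟩)
      (by dsimp only; omega)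
    refine ⟨G, h2.mono ?_, ?_⟩
    · rintro t ⟨hX, ht⟩
      refine ⟨?_, by rw [hX, oc0]⟩
      unfold InB at *
      dsimp only
      omega
    · replace h1 : G.1 ≤ 0 - (n : ℤ) ∨ 0 + (n : ℤ) ≤ G.1 ∨ (n : ℤ) ≤ G.2 := h1
      dsimp only
      omega

theorem pf_aw (n : ℕ) : Pf n = Crest.Agent.R158.Fl440.aw n := by
  rw [← Crest.Agent.R158.Fl440.tau_AT 0 n, ← farm_eq (0, 0) n]
  congr 1
  ext X
  exact farm_at X n

theorem pm_aw {n : ℕ} (hn : 1 ≤ n) : Pm n = Crest.Agent.R158.Fl440.aw n := by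
  rw [pm_eq hn, pf_aw]

theorem pm_lower : ∃ c : ℝ, 0 < c ∧ ∀ n : ℕ, 1 ≤ n → c * (n : ℝ) ^ (-(1 / 2 : ℝ)) ≤ Pm n := by
  obtain ⟨c, hc, h⟩ := Crest.Agent.R158.Fl440.aw_lower
  exact ⟨c, hc, fun n hn => by rw [pm_aw hn]; exact h n hn⟩

theorem pm_anti {m n : ℕ} (hm : 1 ≤ m) (h : m ≤ n) : Pm n ≤ Pm m := by
  rw [pm_aw hm, pm_aw (hm.trans h)]
  exact Crest.Agent.R158.Fl440.aw_anti h

theorem pm_ext (κ : ℕ) (hκ : 1 ≤ κ) : ∃ c : ℝ, 0 < c ∧ ∀ n : ℕ, 1 ≤ n → c * Pm n ≤ Pm (κ * n) := by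
  obtain ⟨c, hc, h⟩ := Crest.Agent.R158.Fl440.aw_ext κ hκ
  refine ⟨c, hc, fun n hn => ?_⟩
  rw [pm_aw hn, pm_aw (by nlinarith : 1 ≤ κ * n)]
  exact h n hn

end Crest.Agent.R158.Zm180
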