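import Crest.Agent.R158.Zg4_180
import Crest.Agent.R158.Zm2_180

-- ▼ part R158/Zg5_180
section

/-!
# Row 158 (helper180): gates, 5: probabilities

* `fld C s` : the tile field (679's convention) read in the chart `C`
* `fld_law` : its law on events of the region of the chart
* `fld_dep` : dependence
* `gate_prob` : `P(gate not closed) ≤ q ^ N` if it is `N` times longer than high
-/

set_option autoImplicit false

noncomputable section

namespace Crest.Agent.R158.Zg180

open MeasureTheory ProbabilityTheory unitInterval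
open Crest.Agent.R161.Geo729
open Crest.Agent.R158.Rs689 Crest.Agent.R158.Mr679
open Crest.Agent.R158.Nm211 (Dir dx dy trn St mv nx6 rd opp DepF integral_transport)
open Crest.Agent.R158.Cb771 (xg)
open Crest.Agent.R158.Ka470 (Ch)

universe u

variable {T : Type u} {G : T × ZMod 4 → T × ZMod 4 → Prop}

/-- the tile field read in a chart -/
def fld (C : Ch T G) (s : T → Bool) : TF := xg (gn (rd C.emb C.Fn s))

/-- the flips of the reading -/
def fl (C : Ch T G) (t : P2) : Bool := xor (C.Fn t) (decide ((t.1 + t.2) % 2 = 0))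

theorem fld_eq (C : Ch T G) (s : T → Bool) : fld C s = fun t => xor (fl C t) (s (C.emb t)) := by
  funext t
  unfold fld xg gn rd fl
  by_cases h : (t.1 + t.2) % 2 = 0
  · simp only [h, if_true, decide_true]
    cases C.Fn t <;> cases s (C.emb t) <;> rfl
  · simp only [h, if_false, decide_false]
    cases C.Fn t <;> cases s (C.emb t) <;> rfl

/-- dependence of an event read in a chart -/
theorem fld_dep [DecidableEq T] (C : Ch T G) {S : Finset P2} {A : Set TF} (hA : Dep S A) :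
    Dep (S.image C.emb) {s : T → Bool | fld C s ∈ A} := by
  intro s s' h
  refine hA _ _ fun t ht => ?_
  rw [fld_eq, fld_eq]
  dsimp only
  rw [h _ (Finset.mem_image_of_mem _ ht)]

/-- **law of the field read in a chart** -/
theorem fld_law (C : Ch T G) {S : Finset P2} {A : Set TF} (hA : Dep S A) (hS : S ⊆ C.R) :
    (PB fun _ : T => hf).real {s | fld C s ∈ A} = (tau hf).real A := by
  classical
  have hd : DepF S (A.indicator fun _ => (1 : ℝ)) := by
    intro z z' h
    by_cases hz : z ∈ A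
    · rw [Set.indicator_of_mem hz, Set.indicator_of_mem ((hA z z' h).1 hz)]
    · rw [Set.indicator_of_notMem hz, Set.indicator_of_notMem fun h' => hz ((hA z z' h).2 h')]
  have hinj : Set.InjOn C.emb S := C.inj.mono (by exact_mod_cast hS)
  have h1 := integral_transport (ι := T) (κ := P2) hinj (fl C) hd
  rw [integral_indicator_const _ hA.measurableSet] at h1
  have h2 : ∀ z : T → Bool, (A.indicator fun _ => (1 : ℝ)) (fun e => xor (fl C e) (z (C.emb e))) =
      ({s : T → Bool | fld C s ∈ A}.indicator fun _ => (1 : ℝ)) z := by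
    intro z
    have e := fld_eq C z
    by_cases hz : fld C z ∈ A
    · rw [Set.indicator_of_mem (show z ∈ {s : T → Bool | fld C s ∈ A} from hz),
        Set.indicator_of_mem (by rw [← e]; exact hz)]
    · rw [Set.indicator_of_notMem (show z ∉ {s : T → Bool | fld C s ∈ A} from hz),
        Set.indicator_of_notMem (by rw [← e]; exact hz)]
  simp only [h2] at h1
  rw [integral_indicator_const _ (fld_dep C hA).measurableSet] at h1
  simpa [tau] using h1

/-- **a long gate is closed with high probability** -/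
theorem gate_prob : ∃ q : ℝ, 0 < q ∧ q < 1 ∧ ∀ (T : Type u) (G : T × ZMod 4 → T × ZMod 4 → Prop)
    (g : Gate T G) (h N : ℕ), 1 ≤ h → g.y1 = g.y0 + h → g.x0 + N * h ≤ g.x1 →
    (PB fun _ : T => hf).real {s | ¬ g.Closed s} ≤ q ^ N := by
  obtain ⟨q, hq, hq1, hch⟩ := chan_le
  refine ⟨q, hq, hq1, fun T G g h N hh hy hx => ?_⟩
  set A : Set TF := (BX 0 g.x0 g.x1 g.y0 g.y1)ᶜ with hA
  have hd : Dep (bxF g.x0 g.x1 g.y0 g.y1) A := (bx_dep _ _ _ _ _).compl
  have hS : bxF g.x0 g.x1 g.y0 g.y1 ⊆ g.C.R := by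
    intro t ht
    rw [mem_bxF] at ht
    rw [g.hR]
    unfold InB at ht
    omega
  have h1 := fld_law g.C hd hS
  have h2 : {s : T → Bool | ¬ g.Closed s} = {s | fld g.C s ∈ A} := rfl
  rw [h2, h1]
  refine (measureReal_mono ?_).trans (hch h N hh 0 g.x0 g.y0)
  intro X hX i hi hb
  refine hX (bx_mono (by omega) ?_ ?_ le_rfl le_rfl (hy ▸ hb))
  · have : (0 : ℤ) ≤ (i : ℤ) * h := by positivity
    omega
  · have : ((i : ℤ) + 1) * h ≤ (N : ℤ) * h := by
      have h3 : (i : ℤ) + 1 ≤ N := by exact_mod_cast hi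
      exact mul_le_mul_of_nonneg_right h3 (by positivity)
    omega

theorem closed_dep [DecidableEq T] (g : Gate T G) :
    Dep ((bxF g.x0 g.x1 g.y0 g.y1).image g.C.emb) {s : T → Bool | g.Closed s} :=
  fld_dep g.C (bx_dep _ _ _ _ _)

end Crest.Agent.R158.Zg180
end
end

-- ▼ part R158/Zc1_180
section

/-!
# Row 158 (helper180): strands over the far charge, 1: boxes of a chart

* `wk_box`, `box_wk` : strands inside a box of a chart = iterates of the chart walk
* `bm_wk` : a strand inside the box from side to side = the partner map of helper748's box word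
-/

set_option autoImplicit false

noncomputable section

namespace Crest.Agent.R158.Zc180

open MeasureTheory ProbabilityTheory unitInterval
open Crest.Agent.R161.Geo729
open Crest.Agent.R158.Sw300 (Port Wd thru)
open Crest.Agent.R158.Gc748
open Crest.Agent.R158.Rs689 Crest.Agent.R158.Mr679
open Crest.Agent.R158.Nm211 (Dir dx dy trn St mv nx6 rd)
open Crest.Agent.R158.Ka470 (Ch en ex sg thru_sg ex_inj en_inj Free)
open Crest.Agent.R158.Pt266 (Wk pass)
open Crest.Agent.R158.Zm180 (bm_iff it_fst mem_L_iff)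

section

variable {T : Type*} {G : T × ZMod 4 → T × ZMod 4 → Prop} (C : Ch T G) {s : T → Bool}

theorem pass_pe (c : St ℤ) : pass s (C.pe c) = C.pt c.1 (ex (C.f s c).2) := C.exit_eq s c

theorem f_iter_fst (c : St ℤ) (k : ℕ) : ((C.f s)^[k + 1] c).1 =
    mv ((C.f s)^[k] c).1 ((C.f s)^[k + 1] c).2 := by
  rw [Function.iterate_succ_apply']
  rfl

/-- strands that stay in a box of the chart are iterates -/
theorem wk_box (hG : ∀ p q r, G p q → G p r → q = r) {Bx : ℤ × ℤ → Prop}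
    (hB : ∀ v, Bx v → v ∈ C.R)
    (hfr : ∀ v, Bx v → ∀ d : Dir, mv v d ∉ C.R → Free G (C.pt v (ex d)))
    {c : St ℤ} (hc : Bx c.1) {y : T × ZMod 4} {l : List (T × ZMod 4)}
    (hw : Wk s G (C.pe c) y l) (hl : ∀ r ∈ l, ∃ v, Bx v ∧ C.emb v = r.1) :
    ∃ k, (∀ j ≤ k, Bx ((C.f s)^[j] c).1) ∧
      y = C.pt ((C.f s)^[k] c).1 (ex ((C.f s)^[k + 1] c).2) := by
  induction hw with
  | one =>
    refine ⟨0, fun j hj => ?_, pass_pe C c⟩
    have : j = 0 := by omega
    subst this
    exact hc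
  | @snoc q r l hw hg ih =>
    obtain ⟨k, h1, rfl⟩ := ih fun r' hr' => hl r' (List.mem_append_left _ hr')
    obtain ⟨w, hw1, hw2⟩ := hl r (by simp)
    have hR : ((C.f s)^[k + 1] c).1 ∈ C.R := by
      by_contra hcon
      rw [f_iter_fst] at hcon
      exact hfr _ (h1 k le_rfl) _ hcon r hg
    have h6 : G (C.pt ((C.f s)^[k] c).1 (ex ((C.f s)^[k + 1] c).2)) (C.pe ((C.f s)^[k + 1] c)) := by
      rw [Function.iterate_succ_apply'] at hR ⊢
      exact C.glue_next s (hB _ (h1 k le_rfl)) hR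
    have hr : r = C.pe ((C.f s)^[k + 1] c) := hG _ _ _ hg h6
    have hnext : Bx ((C.f s)^[k + 1] c).1 := by
      have e : C.emb w = C.emb ((C.f s)^[k + 1] c).1 := by rw [hw2, hr]; rfl
      have := C.inj (hB _ hw1) hR e
      rwa [← this]
    refine ⟨k + 1, fun j hj => ?_, ?_⟩
    · rcases Nat.lt_or_ge k j with h | h
      · have : j = k + 1 := by omega
        rw [this]; exact hnext
      · exact h1 j h
    · rw [hr, pass_pe, ← Function.iterate_succ_apply' (C.f s)]

/-- iterates in the region are strands -/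
theorem box_wk {c : St ℤ} {k : ℕ} (h : ∀ j ≤ k, ((C.f s)^[j] c).1 ∈ C.R) :
    ∃ l, Wk s G (C.pe c) (C.pt ((C.f s)^[k] c).1 (ex ((C.f s)^[k + 1] c).2)) l ∧
      ∀ r ∈ l, ∃ j ≤ k, C.emb ((C.f s)^[j] c).1 = r.1 := by
  induction k with
  | zero =>
    refine ⟨[C.pe c], ?_, ?_⟩
    · have := Wk.one (s := s) (G := G) (x := C.pe c)
      rw [pass_pe] at this
      exact this
    · intro r hr
      rw [List.mem_singleton] at hr
      subst hr
      exact ⟨0, le_rfl, rfl⟩
  | succ k ih =>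
    obtain ⟨l, h1, h2⟩ := ih fun j hj => h j (by omega)
    have h3 := C.glue_next s (c := (C.f s)^[k] c) (h k (by omega)) (by
      rw [← Function.iterate_succ_apply' (C.f s)]; exact h (k + 1) le_rfl)
    rw [← Function.iterate_succ_apply' (C.f s)] at h3
    have h4 := Wk.snoc h1 h3
    rw [pass_pe, ← Function.iterate_succ_apply' (C.f s)] at h4
    refine ⟨_, h4, ?_⟩
    intro r hr
    rw [List.mem_append, List.mem_singleton] at hr
    rcases hr with hr | rfl
    · obtain ⟨j, hj, e⟩ := h2 r hr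
      exact ⟨j, by omega, e⟩
    · exact ⟨k + 1, le_rfl, rfl⟩

variable {C}

theorem f_sc (hF : C.F = fun _ => false) : C.f s = nx6 (Zm180.sc fun v => s (C.emb v)) := by
  unfold Ch.f
  congr 1
  funext v
  simp only [rd, Ch.Fn, hF, Zm180.sc]
  cases s (C.emb v) <;> rfl

theorem pe_F (hF : C.F = fun _ => false) (c : St ℤ) : C.pe c = (C.emb c.1, en c.2) := by
  unfold Ch.pe
  rw [hF]
  rfl

theorem pt_F (hF : C.F = fun _ => false) (v : ℤ × ℤ) (a : ZMod 4) : C.pt v a = (C.emb v, a) := by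
  unfold Ch.pt
  rw [hF]
  rfl

variable {x0 y0 : ℤ} {m n : ℕ}

/-- **strands inside a box of a chart and the word of the box** -/
theorem bm_wk (hG : ∀ p q r, G p q → G p r → q = r) (hF : C.F = fun _ => false)
    (hB : ∀ v, InR x0 y0 m n v → v ∈ C.R)
    (hfr : ∀ v, InR x0 y0 m n v → ∀ d : Dir, mv v d ∉ C.R → Free G (C.pt v (ex d)))
    {c : St ℤ} (hc : InR x0 y0 m n c.1)
    (hc' : (some (c.1, en c.2) : Port (ℤ × ℤ)) ∈ Sw300.L (rectW x0 y0 m n))
    {v : ℤ × ℤ} {d : Dir} (hv : InR x0 y0 m n v) (hv' : ¬ InR x0 y0 m n (mv v d)) :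
    (∃ l, Wk s G (C.emb c.1, en c.2) (C.emb v, ex d) l ∧
      ∀ r ∈ l, ∃ w, InR x0 y0 m n w ∧ C.emb w = r.1) ↔
    BM (fun v => s (C.emb v)) x0 y0 m n (some (c.1, en c.2)) = some (v, ex d) := by
  rw [bm_iff hc hc', ← f_sc (s := s) hF, ← pe_F hF c, ← pt_F hF v (ex d)]
  constructor
  · rintro ⟨l, hw, hl⟩
    obtain ⟨k, h1, h2⟩ := wk_box C hG hB hfr hc hw hl
    rw [pt_F hF, pt_F hF] at h2
    simp only [Prod.mk.injEq] at h2
    have e1 := C.inj (hB _ hv) (hB _ (h1 k le_rfl)) h2.1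
    refine ⟨k, h1, ?_, ?_⟩
    · rw [f_iter_fst, ← e1, ← ex_inj h2.2]
      exact hv'
    · rw [← e1, h2.2]
  · rintro ⟨k, h1, h2, h3⟩
    obtain ⟨l, h4, h5⟩ := box_wk (s := s) C fun j hj => hB _ (h1 j hj)
    simp only [Prod.mk.injEq] at h3
    rw [← h3.1, ← h3.2] at h4
    refine ⟨l, h4, fun r hr => ?_⟩
    obtain ⟨j, hj, e⟩ := h5 r hr
    exact ⟨_, h1 j hj, e⟩

end

end Crest.Agent.R158.Zc180
end
end

-- ▼ part R158/Zc2_180

/-!
# Row 158 (helper180): strands over the far charge, 2: the events in the strip of `G^(z)`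

* `cp B i` : ceiling port `i`
* `Over B p y0 b S s` : a strand with all tiles in `S` from a ceiling port `i < b` to a ceiling port
  `j ≥ b` (an arc over the far charge `b`)
* `Bx y0 X0 Y0 m n` : the tiles of a box of the chart
* `over_iff` : `Over` in a box = partner map of the word of the box
* `not_over_sub` : no arc over `b` in the ball ⟹ local arm;  `win_sub` : window ⟹ no arc over `b`
-/

set_option autoImplicit false

noncomputable section

namespace Crest.Agent.R158.Zc180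

open MeasureTheory ProbabilityTheory unitInterval
open Crest.Agent.R161.Geo729
open Crest.Agent.R158.Sw300 (Port Wd thru)
open Crest.Agent.R158.Gc748
open Crest.Agent.R158.Rs689 hiding se sc
open Crest.Agent.R158.Mr679
open Crest.Agent.R158.Nm211 (Dir dx dy trn St mv nx6 rd)
open Crest.Agent.R158.Ka470 (Ch en ex sg thru_sg ex_inj en_inj Free)
open Crest.Agent.R158.Pt266 (Wk pass)
open Crest.Agent.R158.Zm180 (bm_iff it_fst mem_L_iff)
open Crest.Agent.R158.Cb771 (FS FP xg fp_even fp_odd)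
open Crest.Agent.R158.Env664
open Crest.Agent.R158.Zg180 (Gq se uc gate fld fld_law fld_dep fld_eq Gate gn)
open Crest.Agent.R158.Zb180 (FArmD WinD Pf farmD_dep winD_dep farmD_eq)

variable {A : Finset (ℤ × ℤ)} (B : Band A)

/-- ceiling port `i` -/
def cp (i : ℤ) : TG × ZMod 4 := (Sum.inr (i, B.y2 - 1), 1)

/-- an arc over the far charge `b` with all tiles in `S` -/
def Over (p y0 b : ℤ) (S : Set TG) (s : TG → Bool) : Prop :=
  ∃ i j l, i < b ∧ b ≤ j ∧ Wk s (Gq (B.beG p y0)) (cp B i) (cp B j) l ∧ ∀ r ∈ l, r.1 ∈ S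

/-- tiles of a box of the chart -/
def Bx (y0 X0 Y0 : ℤ) (m n : ℕ) : Set TG := {t | ∃ w, InR X0 Y0 m n w ∧ se y0 w = t}

variable {B}

theorem se_cp {p y0 : ℤ} (hz : B.At p y0) (u : ℤ) : ((se y0 (u, B.y2 - 1), 1) : TG × ZMod 4) =
    cp B (u + 1) := by
  have := hz.hy2
  unfold se cp
  rw [if_neg (by dsimp only; omega)]

theorem cp_Bx {p y0 : ℤ} (hz : B.At p y0) {i X0 Y0 : ℤ} {m n : ℕ}
    (h : (cp B i).1 ∈ Bx y0 X0 Y0 m n) : InR X0 Y0 m n (i - 1, B.y2 - 1) := by
  obtain ⟨w, h1, h2⟩ := h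
  have h3 : se y0 w = se y0 (i - 1, B.y2 - 1) := by
    have := congrArg Prod.fst (se_cp hz (i - 1))
    dsimp only at this
    rw [this, h2, sub_add_cancel]
  have := Zg180.se_inj h3
  rwa [this] at h1


/-- the chart of the strip -/
abbrev SC {p y0 : ℤ} (hz : B.At p y0) (hR : 2 < B.R) : Gate TG (Gq (B.beG p y0)) :=
  gate hz (a0 := 0) (a1 := B.R - 2) le_rfl (by omega) (by omega)

theorem mem_SC {p y0 : ℤ} (hz : B.At p y0) (hR : 2 < B.R) {v : ℤ × ℤ} : v ∈ (SC hz hR).C.R ↔
    0 ≤ v.1 ∧ v.1 ≤ B.R - 2 + 1 ∧ B.y1 ≤ v.2 ∧ v.2 < B.y2 := Zg180.mem_gR B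

/-- boxes that hang from the ceiling and avoid the first and the last column -/
structure BoxOk (B : Band A) (X0 Y0 : ℤ) (m n : ℕ) : Prop where
  l : 1 ≤ X0
  r : X0 + m ≤ B.R - 2
  b : B.y1 ≤ Y0
  t : Y0 + n = B.y2 - 1

section

variable {p y0 b X0 Y0 : ℤ} {m n : ℕ} {s : TG → Bool}

theorem BoxOk.sub (h : BoxOk B X0 Y0 m n) (hz : B.At p y0) (hR : 2 < B.R) (v : ℤ × ℤ)
    (hv : InR X0 Y0 m n v) : v ∈ (SC hz hR).C.R := by
  obtain ⟨h1, h2, h3, h4⟩ := h
  rw [mem_SC]
  unfold InR at hv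
  omega

theorem BoxOk.fr (h : BoxOk B X0 Y0 m n) (hz : B.At p y0) (hR : 2 < B.R) (v : ℤ × ℤ)
    (hv : InR X0 Y0 m n v) (d : Dir) (hd : mv v d ∉ (SC hz hR).C.R) :
    Free (Gq (B.beG p y0)) ((SC hz hR).C.pt v (ex d)) := by
  have h' := h
  obtain ⟨h1, h2, h3, h4⟩ := h'
  refine (SC hz hR).fr v (h.sub hz hR v hv) ?_ ?_ d hd
  · show (0 : ℤ) < v.1
    unfold InR at hv
    omega
  · show v.1 ≤ B.R - 2
    unfold InR at hv
    omega

/-- **arcs over `b` inside a box** -/
theorem over_iff (h : BoxOk B X0 Y0 m n) (hz : B.At p y0) :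
    Over B p y0 b (Bx y0 X0 Y0 m n) s ↔ ∃ i j, X0 ≤ i ∧ i ≤ b - 2 ∧ b - 2 < j ∧ j ≤ X0 + m ∧
      BM (fun v => s (se y0 v)) X0 Y0 m n (some ((i, Y0 + n), 1)) = some ((j, Y0 + n), 1) := by
  have hR : 2 < B.R := by
    obtain ⟨h1, h2, h3, h4⟩ := h
    omega
  have key : ∀ i j : ℤ, InR X0 Y0 m n (i, Y0 + n) → InR X0 Y0 m n (j, Y0 + n) →
      ((∃ l, Wk s (Gq (B.beG p y0)) (cp B (i + 1)) (cp B (j + 1)) l ∧
        ∀ r ∈ l, r.1 ∈ Bx y0 X0 Y0 m n) ↔
      BM (fun v => s (se y0 v)) X0 Y0 m n (some ((i, Y0 + n), 1)) = some ((j, Y0 + n), 1)) := by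
    intro i j hi hj
    have h1 := bm_wk (C := (SC hz hR).C) (s := s) (Zg180.Gq.fn (be := B.beG p y0)) rfl
      (h.sub hz hR) (h.fr hz hR) (c := ((i, Y0 + n), 2)) hi (by
        refine (mem_L_iff (d := 0)).2 ⟨hi, ?_⟩
        unfold InR mv dy
        dsimp only
        omega) (v := (j, Y0 + n)) (d := 0) hj (by
        unfold InR mv dy
        dsimp only
        omega)
    have e : Y0 + n = B.y2 - 1 := h.t
    rw [e] at h1 ⊢
    have h2 : (((SC hz hR).C.emb (((i, B.y2 - 1), 2) : St ℤ).1, en (((i, B.y2 - 1), 2) : St ℤ).2) :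
        TG × ZMod 4) = cp B (i + 1) := se_cp hz i
    have h3 : (((SC hz hR).C.emb (j, B.y2 - 1), ex 0) : TG × ZMod 4) = cp B (j + 1) := se_cp hz j
    rw [h2, h3] at h1
    exact h1
  constructor
  · rintro ⟨i, j, l, h1, h2, h3, h4⟩
    have hi := cp_Bx hz (h4 _ h3.mem_left)
    have hj : InR X0 Y0 m n (j - 1, B.y2 - 1) := by
      obtain ⟨r, hr, e⟩ : ∃ r ∈ l, r.1 = (cp B j).1 := by
        have := h3.mem_right
        exact ⟨_, this, by simp⟩
      exact cp_Bx hz (e ▸ h4 r hr)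
    have e : Y0 + n = B.y2 - 1 := h.t
    rw [← e] at hi hj
    refine ⟨i - 1, j - 1, ?_, by omega, by omega, ?_, (key _ _ hi hj).1 ?_⟩
    · unfold InR at hi; exact hi.1
    · unfold InR at hj; exact hj.2.1
    · rw [sub_add_cancel, sub_add_cancel]
      exact ⟨l, h3, h4⟩
  · rintro ⟨i, j, h1, h2, h3, h4, h5⟩
    have hi : InR X0 Y0 m n (i, Y0 + n) := by unfold InR; dsimp only; omega
    have hj : InR X0 Y0 m n (j, Y0 + n) := by unfold InR; dsimp only; omega
    obtain ⟨l, h6, h7⟩ := (key _ _ hi hj).2 h5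
    exact ⟨i + 1, j + 1, l, by omega, by omega, h6, h7⟩

/-- no arc over `b` in the box ⟹ face path to the outer sides -/
theorem arm_of_not_over (h : BoxOk B X0 Y0 m n) (hz : B.At p y0) (h0 : X0 - 1 ≤ b - 2)
    (h1 : b - 2 ≤ X0 + m) (ho : ¬ Over B p y0 b (Bx y0 X0 Y0 m n) s) :
    ∃ G, FP (fun v => s (se y0 v)) (InR X0 Y0 m n) (b - 2, Y0 + n) G ∧ OutC X0 Y0 m G := by
  refine ceil_arm h0 h1 fun i j hi1 hi2 hj1 hj2 hb => ho ?_
  exact (over_iff h hz).2 ⟨i, j, hi1, hi2, hj1, hj2, hb⟩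

/-- a face path from the gap `b` to the outer sides ⟹ no arc over `b` in the box -/
theorem not_over_of_path (h : BoxOk B X0 Y0 m n) (hz : B.At p y0) (h0 : X0 ≤ b - 2)
    (h1 : b - 2 < X0 + m) {G : P2} (hG : OutC X0 Y0 m G)
    (hp : FP (fun v => s (se y0 v)) (InR X0 Y0 m n) (b - 2, Y0 + n) G) :
    ¬ Over B p y0 b (Bx y0 X0 Y0 m n) s := by
  intro ho
  obtain ⟨i, j, hi1, hi2, hj1, hj2, hb⟩ := (over_iff h hz).1 ho
  exact ceil_cross h0 h1 hG hp i j hi1 hi2 hj1 hj2 hb

end

/-! ### fields and parities -/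

section

universe u
variable {T : Type u} {G : T × ZMod 4 → T × ZMod 4 → Prop}

/-- an event of the field read in a chart, on the sublattice of the face `c` -/
def rdp (C : Ch T G) (c : P2) (E : Set TF) : Set (T → Bool) :=
  {s | (fun t => if (c.1 + c.2) % 2 = 0 then fld C s t else !fld C s t) ∈ E}

theorem rdp_dep [DecidableEq T] (C : Ch T G) (c : P2) {S : Finset P2} {E : Set TF}
    (hE : Dep S E) : Dep (S.image C.emb) (rdp C c E) := by
  intro s s' h
  refine hE _ _ fun t ht => ?_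
  rw [fld_eq, fld_eq]
  dsimp only
  rw [h _ (Finset.mem_image_of_mem _ ht)]

theorem rdp_law (C : Ch T G) (c : P2) {S : Finset P2} {E : Set TF} (hE : Dep S E)
    (hS : S ⊆ C.R) : (PB fun _ : T => hf).real (rdp C c E) = (tau hf).real E := by
  by_cases h : (c.1 + c.2) % 2 = 0
  · have e : rdp C c E = {s | fld C s ∈ E} := by
      unfold rdp
      simp only [h, if_true]
    rw [e]
    exact fld_law C hE hS
  · have e : rdp C c E = {s | fld C s ∈ {X : TF | (fun t => !X t) ∈ E}} := by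
      unfold rdp
      simp only [h, if_false]
      rfl
    rw [e, fld_law C (S := S) (A := {X : TF | (fun t => !X t) ∈ E}) (fun X X' hX => hE _ _ fun t ht => by
      show (!X t) = !X' t
      rw [hX t ht]) hS]
    rw [tau_real_not hf hE.measurableSet, sigma_hf]

end

end Crest.Agent.R158.Zc180
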