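import Crest.Agent.R158.Nz1_399
import Crest.Agent.R158.Zc2_180

-- ▼ part R158/Zb3_180
section

/-!
# Row 158 (helper180): the abstract lower bound (Z) and the decoupling of the strip

`PB w` product law, `S`, `T` disjoint sets of tiles; `F1 ⊆`-type event (the far charge is free) and
`F0` (local arm) depend on `S`; the gate event `G` depends on `T`.

* `rest_le` : `‖∫_{Gᶜ} W‖ ≤ P(F0) C P(Gᶜ)^(1/2)` if `‖W‖ ≤ 1[F0] Y` off `G`, `∫ Y² ≤ C²`
* `Dec` : amplitude `A`, partition function `B`, value `V` of the domain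
* `Dec.Z_lower` : `‖∫ B‖ ≥ P(F1)/2`
* `Dec.ratio` : `‖∫ A / ∫ B - ∫ V‖ ≤ 2 (2 v P(Gᶜ) + (1+v) δ)`, `δ = (C/c) P(Gᶜ)^(1/2)`
-/

set_option autoImplicit false

noncomputable section

namespace Crest.Agent.R158.Zb180

open MeasureTheory ProbabilityTheory unitInterval
open Crest.Agent.R158.Rs689 Crest.Agent.R158.Nm211 Crest.Agent.R158.Nz399

variable {ι : Type*}

/-- indicator function -/
def ind (A : Set (ι → Bool)) (z : ι → Bool) : ℝ := A.indicator (fun _ => (1 : ℝ)) z

theorem ind_nonneg (A : Set (ι → Bool)) (z : ι → Bool) : 0 ≤ ind A z := by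
  unfold ind
  exact Set.indicator_nonneg (fun _ _ => zero_le_one) z

theorem ind_le_one (A : Set (ι → Bool)) (z : ι → Bool) : ind A z ≤ 1 := by
  unfold ind
  exact Set.indicator_le_self' (fun _ _ => zero_le_one) z

theorem ind_dep {S : Finset ι} {A : Set (ι → Bool)} (hA : Dep S A) : DepF S (ind A) := by
  intro z z' h
  unfold ind
  by_cases hz : z ∈ A
  · rw [Set.indicator_of_mem hz, Set.indicator_of_mem ((hA z z' h).1 hz)]
  · rw [Set.indicator_of_notMem hz, Set.indicator_of_notMem fun h' => hz ((hA z z' h).2 h')]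

theorem int_ind (w : ι → I) {A : Set (ι → Bool)} (hA : MeasurableSet A) :
    ∫ z, ind A z ∂(PB w) = (PB w).real A := by
  unfold ind
  rw [integral_indicator_const _ hA]
  simp

theorem BM_ind {A : Set (ι → Bool)} (hA : MeasurableSet A) : BM (ind A) :=
  ⟨(measurable_const).indicator hA, ind_nonneg A, 1, ind_le_one A⟩

/-- Cauchy-Schwarz with an event -/
theorem cs_ind (w : ι → I) {T : Finset ι} {G : Set (ι → Bool)} (hG : Dep T G)
    {Y : (ι → Bool) → ℝ} (hY : DepF T Y) (hY0 : ∀ z, 0 ≤ Y z) {C : ℝ} (hC : 0 ≤ C)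
    (hYC : ∫ z, Y z ^ 2 ∂(PB w) ≤ C ^ 2) :
    ∫ z, Y z * ind G z ∂(PB w) ≤ C * Real.sqrt ((PB w).real G) := by
  have hY2 : DepF T fun z => Y z ^ 2 := fun z z' h => by
    show Y z ^ 2 = Y z' ^ 2
    rw [hY z z' h]
  have h1 : BM fun z => Y z ^ 2 := by
    obtain ⟨D, hD⟩ := hY2.bdd
    exact ⟨hY2.measurable, fun z => sq_nonneg _, D, fun z => (le_abs_self _).trans (hD z)⟩
  have h2 := hold (μ := PB w) h1 (BM_ind hG.measurableSet) (θ := 1 / 2) (by norm_num) (by norm_num)
  have e1 : ∀ z, (Y z ^ 2) ^ (1 - 1 / 2 : ℝ) * ind G z ^ (1 / 2 : ℝ) = Y z * ind G z := by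
    intro z
    have a1 : (Y z ^ 2) ^ (1 - 1 / 2 : ℝ) = Y z := by
      rw [← Real.rpow_natCast, ← Real.rpow_mul (hY0 z)]
      norm_num
    have a2 : ind G z ^ (1 / 2 : ℝ) = ind G z := by
      unfold ind
      by_cases hz : z ∈ G
      · rw [Set.indicator_of_mem hz, Real.one_rpow]
      · rw [Set.indicator_of_notMem hz, Real.zero_rpow (by norm_num)]
    rw [a1, a2]
  simp only [e1] at h2
  refine h2.trans ?_
  rw [int_ind w hG.measurableSet, ← Real.sqrt_eq_rpow]
  refine mul_le_mul_of_nonneg_right ?_ (Real.sqrt_nonneg _)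
  have h3 : (∫ z, Y z ^ 2 ∂(PB w)) ^ (1 - 1 / 2 : ℝ) ≤ (C ^ 2) ^ (1 - 1 / 2 : ℝ) :=
    Real.rpow_le_rpow (integral_nonneg fun z => sq_nonneg _) hYC (by norm_num)
  refine h3.trans (le_of_eq ?_)
  rw [← Real.rpow_natCast, ← Real.rpow_mul hC]
  norm_num

/-- **the rest** -/
theorem rest_le (w : ι → I) {S T : Finset ι} (hST : Disjoint S T) {F0 G : Set (ι → Bool)}
    (h0 : Dep S F0) (hG : Dep T G) {Y : (ι → Bool) → ℝ} (hY : DepF T Y) (hY0 : ∀ z, 0 ≤ Y z)
    {C : ℝ} (hC : 0 ≤ C) (hYC : ∫ z, Y z ^ 2 ∂(PB w) ≤ C ^ 2) {W : (ι → Bool) → ℂ}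
    (hW : ∀ z, z ∈ G → ‖W z‖ ≤ ind F0 z * Y z) :
    ‖∫ z in G, W z ∂(PB w)‖ ≤ (PB w).real F0 * (C * Real.sqrt ((PB w).real G)) := by
  classical
  have hd : DepF (S ∪ T) fun z => ind F0 z * (Y z * ind G z) :=
    ((ind_dep h0).mono Finset.subset_union_left).mul
      ((hY.mul (ind_dep hG)).mono Finset.subset_union_right)
  calc ‖∫ z in G, W z ∂(PB w)‖ = ‖∫ z, G.indicator W z ∂(PB w)‖ := by
        rw [integral_indicator hG.measurableSet]
    _ ≤ ∫ z, ind F0 z * (Y z * ind G z) ∂(PB w) := by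
        refine norm_integral_le_of_norm_le (hd.integrable w) (ae_of_all _ fun z => ?_)
        by_cases hz : z ∈ G
        · rw [Set.indicator_of_mem hz]
          refine (hW z hz).trans (le_of_eq ?_)
          unfold ind
          rw [Set.indicator_of_mem hz]
          ring
        · rw [Set.indicator_of_notMem hz, norm_zero]
          exact mul_nonneg (ind_nonneg _ _) (mul_nonneg (hY0 z) (ind_nonneg _ _))
    _ = (PB w).real F0 * ∫ z, Y z * ind G z ∂(PB w) := by
        rw [integral_mul_disj w hST (ind_dep h0) (hY.mul (ind_dep hG)),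
          int_ind w h0.measurableSet]
    _ ≤ _ := mul_le_mul_of_nonneg_left (cs_ind w hG hY hY0 hC hYC) measureReal_nonneg

/-- product of an event of `S` and a complex function of `T` -/
theorem int_ind_mul (w : ι → I) {S T : Finset ι} (hST : Disjoint S T) {F : Set (ι → Bool)}
    (hF : Dep S F) {f : (ι → Bool) → ℂ} (hf : ∀ z z' : ι → Bool, (∀ e ∈ T, z e = z' e) → f z = f z') :
    ∫ z, (ind F z : ℂ) * f z ∂(PB w) = ((PB w).real F : ℂ) * ∫ z, f z ∂(PB w) := by
  have hre : DepF T fun z => (f z).re := fun z z' h => by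
    show (f z).re = (f z').re
    rw [hf z z' h]
  have him : DepF T fun z => (f z).im := fun z z' h => by
    show (f z).im = (f z').im
    rw [hf z z' h]
  have hi : Integrable f (PB w) := by
    have := ((hre.integrable w).ofReal (𝕜 := ℂ)).add (((him.integrable w).ofReal (𝕜 := ℂ)).mul_const
      Complex.I)
    refine this.congr (ae_of_all _ fun z => ?_)
    simp only [Pi.add_apply]
    exact Complex.re_add_im (f z)
  have hFm : DepF S (ind F) := ind_dep hF
  have hi2 : Integrable (fun z => (ind F z : ℂ) * f z) (PB w) := by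
    refine Integrable.bdd_mul (c := 1) hi ?_ (ae_of_all _ fun z => ?_)
    · exact (hFm.measurable.complex_ofReal).aestronglyMeasurable
    · rw [Complex.norm_real, Real.norm_of_nonneg (ind_nonneg _ _)]
      exact ind_le_one _ _
  have r1 := integral_mul_disj w hST hFm hre
  have r2 := integral_mul_disj w hST hFm him
  rw [int_ind w hF.measurableSet] at r1 r2
  apply Complex.ext
  · have e1 : (∫ z, (ind F z : ℂ) * f z ∂(PB w)).re = ∫ z, ind F z * (f z).re ∂(PB w) := by
      rw [← RCLike.re_eq_complex_re, ← integral_re hi2]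
      exact integral_congr_ae (ae_of_all _ fun z => by simp)
    have e2 : (∫ z, f z ∂(PB w)).re = ∫ z, (f z).re ∂(PB w) := by
      rw [← RCLike.re_eq_complex_re, ← integral_re hi]
    rw [e1, r1, Complex.re_ofReal_mul, e2]
  · have e1 : (∫ z, (ind F z : ℂ) * f z ∂(PB w)).im = ∫ z, ind F z * (f z).im ∂(PB w) := by
      rw [← RCLike.im_eq_complex_im, ← integral_im hi2]
      exact integral_congr_ae (ae_of_all _ fun z => by simp)
    have e2 : (∫ z, f z ∂(PB w)).im = ∫ z, (f z).im ∂(PB w) := by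
      rw [← RCLike.im_eq_complex_im, ← integral_im hi]
    rw [e1, r2, Complex.im_ofReal_mul, e2]

/-- data of the decoupling: amplitude `A`, partition function `B`, domain value `V` -/
structure Dec (w : ι → I) (S T : Finset ι) (F0 F1 G : Set (ι → Bool)) (Y : (ι → Bool) → ℝ)
    (A B V : (ι → Bool) → ℂ) (c C v : ℝ) : Prop where
  disj : Disjoint S T
  h0 : Dep S F0
  h1 : Dep S F1
  hG : Dep T G
  hY : DepF T Y
  hY0 : ∀ z, 0 ≤ Y z
  hV : ∀ z z' : ι → Bool, (∀ e ∈ T, z e = z' e) → V z = V z'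
  hAm : Integrable A (PB w)
  hBm : Integrable B (PB w)
  c_pos : 0 < c
  C_nonneg : 0 ≤ C
  v_nonneg : 0 ≤ v
  hYC : ∫ z, Y z ^ 2 ∂(PB w) ≤ C ^ 2
  hF : c * (PB w).real F0 ≤ (PB w).real F1
  hF1 : 0 < (PB w).real F1
  hv : ∀ z, ‖V z‖ ≤ v
  A_in : ∀ z ∈ G, A z = (ind F1 z : ℂ) * V z
  B_in : ∀ z ∈ G, B z = (ind F1 z : ℂ)
  A_out : ∀ z, z ∉ G → ‖A z‖ ≤ ind F0 z * Y z
  B_out : ∀ z, z ∉ G → ‖B z‖ ≤ ind F0 z * Y z

namespace Dec

variable {w : ι → I} {S T : Finset ι} {F0 F1 G : Set (ι → Bool)} {Y : (ι → Bool) → ℝ}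
  {A B V : (ι → Bool) → ℂ} {c C v : ℝ}

/-- size of the error -/
def del (w : ι → I) (G : Set (ι → Bool)) (c C : ℝ) : ℝ := C / c * Real.sqrt ((PB w).real Gᶜ)


theorem out_le (h : Dec w S T F0 F1 G Y A B V c C v) {W : (ι → Bool) → ℂ}
    (hW : ∀ z, z ∉ G → ‖W z‖ ≤ ind F0 z * Y z) :
    ‖∫ z in Gᶜ, W z ∂(PB w)‖ ≤ (PB w).real F1 * del w G c C := by
  refine (rest_le w h.disj h.h0 h.hG.compl h.hY h.hY0 h.C_nonneg h.hYC fun z hz => hW z hz).trans ?_
  have h2 : (PB w).real F0 ≤ (PB w).real F1 / c := by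
    rw [le_div_iff₀ h.c_pos, mul_comm]; exact h.hF
  refine (mul_le_mul_of_nonneg_right h2
    (mul_nonneg h.C_nonneg (Real.sqrt_nonneg _))).trans (le_of_eq ?_)
  unfold del
  ring





end Dec

end Crest.Agent.R158.Zb180
end
end

-- ▼ part R158/Zb4_180
section

/-!
# Row 158 (helper180): decoupling with inner and outer gates

Sets of tiles: `W ⊆ S` (ball at the far charge, far rectangle), `T` (domain and near gates), `S`, `T`
disjoint; `U` = everything outside of `W`.  Events: `F0` (local arm, on `W`), `F1` (no arc of the far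
rectangle over the charge, on `S`), `H` (inner gates closed, on `S` and on `U`), `G` (near gates closed,
on `T` and on `U`).

* `Dec2.Z_lower` : `P(F1 ∩ H) / 2 ≤ ‖∫ B‖`
* `Dec2.ratio` : `‖∫ A / ∫ B - ∫ V‖ ≤ 2 (2 v P(Gᶜ) + (1+v) δ)`, `δ = (C/c) P((G ∩ H)ᶜ)^(1/2)`
-/

set_option autoImplicit false

noncomputable section

namespace Crest.Agent.R158.Zb180

open MeasureTheory ProbabilityTheory unitInterval
open Crest.Agent.R158.Rs689 Crest.Agent.R158.Nm211 Crest.Agent.R158.Nz399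

variable {ι : Type*}

theorem int_of_dep (w : ι → I) {T : Finset ι} {V : (ι → Bool) → ℂ}
    (hV : ∀ z z' : ι → Bool, (∀ e ∈ T, z e = z' e) → V z = V z') : Integrable V (PB w) := by
  have hre : DepF T fun z => (V z).re := fun z z' hz => by
    show (V z).re = (V z').re
    rw [hV z z' hz]
  have him : DepF T fun z => (V z).im := fun z z' hz => by
    show (V z).im = (V z').im
    rw [hV z z' hz]
  have := ((hre.integrable w).ofReal (𝕜 := ℂ)).add (((him.integrable w).ofReal (𝕜 := ℂ)).mul_const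
    Complex.I)
  refine this.congr (ae_of_all _ fun z => ?_)
  simp only [Pi.add_apply]
  exact Complex.re_add_im (V z)

/-- data of the decoupling with inner and outer gates -/
structure Dec2 (w : ι → I) (W S T U : Finset ι) (F0 F1 H G : Set (ι → Bool))
    (Y : (ι → Bool) → ℝ) (A B V : (ι → Bool) → ℂ) (c C v : ℝ) : Prop where
  WU : Disjoint W U
  ST : Disjoint S T
  h0 : Dep W F0
  h1 : Dep S F1
  hHS : Dep S H
  hHU : Dep U H
  hG : Dep T G
  hGU : Dep U G
  hY : DepF U Y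
  hY0 : ∀ z, 0 ≤ Y z
  hV : ∀ z z' : ι → Bool, (∀ e ∈ T, z e = z' e) → V z = V z'
  hAm : Integrable A (PB w)
  hBm : Integrable B (PB w)
  c_pos : 0 < c
  C_nonneg : 0 ≤ C
  v_nonneg : 0 ≤ v
  hYC : ∫ z, Y z ^ 2 ∂(PB w) ≤ C ^ 2
  hF : c * (PB w).real F0 ≤ (PB w).real (F1 ∩ H)
  hF1 : 0 < (PB w).real (F1 ∩ H)
  hv : ∀ z, ‖V z‖ ≤ v
  A_in : ∀ z ∈ G ∩ H, A z = (ind F1 z : ℂ) * V z
  B_in : ∀ z ∈ G ∩ H, B z = (ind F1 z : ℂ)
  A_out : ∀ z, z ∉ G ∩ H → ‖A z‖ ≤ ind F0 z * Y z
  B_out : ∀ z, z ∉ G ∩ H → ‖B z‖ ≤ ind F0 z * Y z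

namespace Dec2

variable {w : ι → I} {W S T U : Finset ι} {F0 F1 H G : Set (ι → Bool)} {Y : (ι → Bool) → ℝ}
  {A B V : (ι → Bool) → ℂ} {c C v : ℝ}

/-- size of the error -/
def del (w : ι → I) (G H : Set (ι → Bool)) (c C : ℝ) : ℝ :=
  C / c * Real.sqrt ((PB w).real (G ∩ H)ᶜ)

theorem dGH (h : Dec2 w W S T U F0 F1 H G Y A B V c C v) : Dep U (G ∩ H) := h.hGU.inter h.hHU

theorem out_le (h : Dec2 w W S T U F0 F1 H G Y A B V c C v) {X : (ι → Bool) → ℂ}
    (hX : ∀ z, z ∉ G ∩ H → ‖X z‖ ≤ ind F0 z * Y z) :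
    ‖∫ z in (G ∩ H)ᶜ, X z ∂(PB w)‖ ≤ (PB w).real (F1 ∩ H) * del w G H c C := by
  refine (rest_le w h.WU h.h0 h.dGH.compl h.hY h.hY0 h.C_nonneg h.hYC fun z hz => hX z hz).trans ?_
  have h2 : (PB w).real F0 ≤ (PB w).real (F1 ∩ H) / c := by
    rw [le_div_iff₀ h.c_pos, mul_comm]; exact h.hF
  refine (mul_le_mul_of_nonneg_right h2
    (mul_nonneg h.C_nonneg (Real.sqrt_nonneg _))).trans (le_of_eq ?_)
  unfold del
  ring

theorem split_gen (h : Dec2 w W S T U F0 F1 H G Y A B V c C v) {X V' : (ι → Bool) → ℂ}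
    (hXm : Integrable X (PB w))
    (hV' : ∀ z z' : ι → Bool, (∀ e ∈ T, z e = z' e) → V' z = V' z')
    (hin : ∀ z ∈ G ∩ H, X z = (ind F1 z : ℂ) * V' z)
    (hout : ∀ z, z ∉ G ∩ H → ‖X z‖ ≤ ind F0 z * Y z) : ∃ r : ℂ, ‖r‖ ≤ del w G H c C ∧
    ∫ z, X z ∂(PB w) = ((PB w).real (F1 ∩ H) : ℂ) * (∫ z in G, V' z ∂(PB w) + r) := by
  refine ⟨(∫ z in (G ∩ H)ᶜ, X z ∂(PB w)) / ((PB w).real (F1 ∩ H) : ℂ), ?_, ?_⟩
  · rw [norm_div, Complex.norm_real, Real.norm_of_nonneg measureReal_nonneg, div_le_iff₀ h.hF1]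
    refine (h.out_le hout).trans (le_of_eq (mul_comm _ _))
  · have e0 : ((PB w).real (F1 ∩ H) : ℂ) ≠ 0 := by
      exact_mod_cast h.hF1.ne'
    rw [mul_add, mul_div_cancel₀ _ e0, ← integral_add_compl h.dGH.measurableSet hXm]
    congr 1
    have hVG : ∀ z z' : ι → Bool, (∀ e ∈ T, z e = z' e) →
        G.indicator V' z = G.indicator V' z' := by
      intro z z' hz
      by_cases hzG : z ∈ G
      · rw [Set.indicator_of_mem hzG, Set.indicator_of_mem ((h.hG z z' hz).1 hzG), hV' z z' hz]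
      · rw [Set.indicator_of_notMem hzG, Set.indicator_of_notMem fun h' => hzG ((h.hG z z' hz).2 h')]
    have := int_ind_mul w h.ST (h.h1.inter h.hHS) hVG
    rw [integral_indicator h.hG.measurableSet] at this
    rw [← this, ← integral_indicator h.dGH.measurableSet]
    refine integral_congr_ae (ae_of_all _ fun z => ?_)
    by_cases hzG : z ∈ G
    · by_cases hzH : z ∈ H
      · simp only [Set.indicator_of_mem hzG, Set.indicator_of_mem (Set.mem_inter hzG hzH)]
        rw [hin z ⟨hzG, hzH⟩]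
        congr 2
        unfold ind
        by_cases h1 : z ∈ F1
        · rw [Set.indicator_of_mem h1, Set.indicator_of_mem (Set.mem_inter h1 hzH)]
        · rw [Set.indicator_of_notMem h1, Set.indicator_of_notMem fun h' => h1 h'.1]
      · have q1 : z ∉ G ∩ H := fun h' => hzH h'.2
        have q2 : z ∉ F1 ∩ H := fun h' => hzH h'.2
        show (G ∩ H).indicator X z = (ind (F1 ∩ H) z : ℂ) * G.indicator V' z
        rw [Set.indicator_of_notMem q1]
        unfold ind
        rw [Set.indicator_of_notMem q2]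
        simp
    · have q1 : z ∉ G ∩ H := fun h' => hzG h'.1
      show (G ∩ H).indicator X z = (ind (F1 ∩ H) z : ℂ) * G.indicator V' z
      rw [Set.indicator_of_notMem q1, Set.indicator_of_notMem hzG, mul_zero]




end Dec2

end Crest.Agent.R158.Zb180
end
end

-- ▼ part R158/Zc4_180
section

/-!
# Row 158 (helper180): strands over the far charge, 4: the literal decoupling

`k` = width of the stubs, `h` = height of the strip, `b` = position of the far charge,
`nr h = 3 ⌊h/3⌋` = radius of the ball at `b`.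

* `Par B k b h N` : the geometric conditions (`N h ≤ k - 2`)
* `ballS`, `farS` : the ball at `b` and the far rectangle (columns `k .. R - 1 - k` of the chart)
* `nearG`, `farG` : the two near gates, the two inner gates are closed
* `nover_ball_le` : `P(no arc over b in the ball) ≤ Pf (nr h)`
* `far_ge` : `c P(no arc over b in the ball) ≤ P(no arc over b in the far rectangle, inner gates closed)`
* `gates_le` : `P(some gate is not closed) ≤ 4 q ^ N`
-/

set_option autoImplicit false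

noncomputable section

namespace Crest.Agent.R158.Zc180

open MeasureTheory ProbabilityTheory unitInterval
open Crest.Agent.R161.Geo729
open Crest.Agent.R158.Sw300 (Port Wd thru)
open Crest.Agent.R158.Gc748
open Crest.Agent.R158.Rs689 hiding se sc
open Crest.Agent.R158.Mr679
open Crest.Agent.R158.Nm211 (Dir dx dy trn St mv nx6 rd)
open Crest.Agent.R158.Ka470 (Ch en ex sg thru_sg ex_inj en_inj Free)
open Crest.Agent.R158.Pt266 (Wk pass)
open Crest.Agent.R158.Cb771 (FS FP xg fp_even fp_odd)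
open Crest.Agent.R158.Env664
open Crest.Agent.R158.Zg180 (Gq se uc gate fld fld_law fld_dep fld_eq Gate gn gate_prob closed_dep)
open Crest.Agent.R158.Zb180 (FArmD WinD Pf farmD_dep winD_dep farmD_eq winD_ge)

variable {A : Finset (ℤ × ℤ)} {B : Band A}

/-- radius of the ball at the far charge -/
def nr (h : ℕ) : ℕ := 3 * (h / 3)

/-- geometric conditions -/
structure Par (B : Band A) (k b : ℤ) (h N : ℕ) : Prop where
  hh : B.y2 = B.y1 + h
  h3 : 3 ≤ h
  k2 : 2 < k
  kN : (N : ℤ) * h ≤ k - 2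
  bl : 2 * k ≤ b - h
  br : b + h ≤ B.R - 2 * k

/-- the ball at the far charge -/
def ballS (B : Band A) (y0 b : ℤ) (h : ℕ) : Set TG :=
  Bx y0 (b - 1 - nr h) (B.y2 - nr h) (2 * nr h - 1) (nr h - 1)

/-- the far rectangle: columns `k .. R - 1 - k` of the chart -/
def farS (B : Band A) (y0 k : ℤ) (h : ℕ) : Set TG := Bx y0 k B.y1 (B.R - 1 - 2 * k).toNat (h - 1)

theorem nr_le (h : ℕ) : nr h ≤ h := by unfold nr; omega

theorem nr_pos {h : ℕ} (h3 : 3 ≤ h) : 3 ≤ nr h := by unfold nr; omega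

theorem bx_eq {y0 X0 Y0 x0 x1 z0 z1 : ℤ} {m n : ℕ} (h1 : X0 = x0 + 1) (h2 : X0 + m = x1)
    (h3 : Y0 = z0 + 1) (h4 : Y0 + n = z1) :
    Bx y0 X0 Y0 m n = ((bxF x0 x1 z0 z1).image (se y0) : Finset TG) := by
  ext t
  simp only [Bx, Set.mem_ofPred_eq, Finset.coe_image, Set.mem_image, Finset.mem_coe, mem_bxF]
  constructor
  · rintro ⟨w, h5, h6⟩
    refine ⟨w, ?_, h6⟩
    unfold InR at h5
    unfold InB
    omega
  · rintro ⟨w, h5, h6⟩
    refine ⟨w, ?_, h6⟩
    unfold InB at h5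
    unfold InR
    omega

/-- tiles of the ball -/
def Wf (B : Band A) (y0 b : ℤ) (h : ℕ) : Finset TG :=
  (bxF (b - 2 - nr h) (b - 2 + nr h) (B.y2 - 1 - nr h) (B.y2 - 1)).image (se y0)

/-- tiles of the far rectangle -/
def Sf (B : Band A) (y0 k : ℤ) : Finset TG :=
  (bxF (k - 1) (B.R - 1 - k) (B.y1 - 1) (B.y2 - 1)).image (se y0)

theorem ball_eq {y0 b : ℤ} {h : ℕ} (h3 : 3 ≤ h) : ballS B y0 b h = (Wf B y0 b h : Set TG) := by
  have := nr_pos h3
  exact bx_eq (by omega) (by omega) (by omega) (by omega)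

theorem far_eq {y0 k b : ℤ} {h N : ℕ} (hP : Par B k b h N) : farS B y0 k h = (Sf B y0 k : Set TG) := by
  obtain ⟨h1, h2, h3, h4, h5, h6⟩ := hP
  exact bx_eq (by omega) (by omega) (by omega) (by omega)

theorem over_dep {p y0 b : ℤ} (S : Finset TG) :
    Dep S {s : TG → Bool | ¬ Over B p y0 b (S : Set TG) s} := by
  have key : ∀ s s' : TG → Bool, (∀ e ∈ S, s e = s' e) →
      Over B p y0 b (S : Set TG) s → Over B p y0 b (S : Set TG) s' := by
    rintro s s' h ⟨i, j, l, h1, h2, h3, h4⟩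
    exact ⟨i, j, l, h1, h2, h3.congr_s fun r hr => h _ (h4 r hr), h4⟩
  intro s s' h
  exact not_congr ⟨key s s' h, key s' s fun e he => (h e he).symm⟩

section

variable {p y0 k b : ℤ} {h N : ℕ}

theorem ball_ok (hP : Par B k b h N) : BoxOk B (b - 1 - nr h) (B.y2 - nr h) (2 * nr h - 1)
    (nr h - 1) := by
  obtain ⟨h1, h2, h3, h4, h5, h6⟩ := hP
  have a1 := nr_le h
  have a2 := nr_pos h2
  constructor <;> omega

theorem far_ok (hP : Par B k b h N) : BoxOk B k B.y1 (B.R - 1 - 2 * k).toNat (h - 1) := by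
  obtain ⟨h1, h2, h3, h4, h5, h6⟩ := hP
  constructor <;> omega



/-- the inner gates are closed -/
def farG (hz : B.At p y0) (hP : Par B k b h N) : Set (TG → Bool) :=
  {s | (gate hz (a0 := k - 1) (a1 := 2 * k - 2) (by have := hP.k2; omega)
        (by have := hP.k2; omega)
        (by have := hP.k2; have := hP.bl; have := hP.br; omega)).Closed s ∧
      (gate hz (a0 := B.R - 2 * k) (a1 := B.R - 1 - k)
        (by have := hP.k2; have := hP.bl; have := hP.br; omega) (by have := hP.k2; omega)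
        (by have := hP.k2; omega)).Closed s}

theorem fld_SC (hz : B.At p y0) (hR : 2 < B.R) (s : TG → Bool) :
    fld (SC hz hR).C s = xg (fun v => s (se y0 v)) := by
  unfold fld
  congr 1
  funext v
  show (!(xor (!false) (s (se y0 v)))) = s (se y0 v)
  cases s (se y0 v) <;> rfl

theorem Par.R2 (hP : Par B k b h N) : 2 < B.R := by
  obtain ⟨h1, h2, h3, h4, h5, h6⟩ := hP
  omega

/-- faces of both parities -/
theorem fp_rdp {g : TF} {Q : P2 → Prop} {F G : P2} : FP g Q F G ↔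
    TP (fun t => Q t ∧ (if (F.1 + F.2) % 2 = 0 then xg g t else !xg g t) = true) F G := by
  by_cases hF : (F.1 + F.2) % 2 = 0
  · simp only [hF, if_true]
    exact fp_even hF
  · simp only [hF, if_false, Bool.not_eq_true']
    exact fp_odd (by omega)

theorem f0_sub (hz : B.At p y0) (hP : Par B k b h N) :
    {s : TG → Bool | ¬ Over B p y0 b (ballS B y0 b h) s} ⊆
      rdp (SC hz hP.R2).C (b - 2, B.y2 - 1) (FArmD (b - 2, B.y2 - 1) (nr h)) := by
  intro s hs
  have a1 := nr_le h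
  have a2 := nr_pos hP.h3
  have e1 : B.y2 - nr h + ((nr h - 1 : ℕ) : ℤ) = B.y2 - 1 := by omega
  obtain ⟨G, hG, hout⟩ := arm_of_not_over (ball_ok hP) hz (by omega) (by omega) hs
  rw [e1] at hG
  rw [fp_rdp] at hG
  refine ⟨G, ?_, ?_⟩
  · refine hG.mono ?_
    rintro t ⟨h1, h2⟩
    refine ⟨?_, ?_⟩
    · unfold InR at h1
      unfold InB
      dsimp only
      omega
    · show (if (b - 2 + (B.y2 - 1)) % 2 = 0 then fld (SC hz hP.R2).C s t
        else !fld (SC hz hP.R2).C s t) = true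
      rw [fld_SC]
      exact h2
  · unfold OutC at hout
    dsimp only
    omega

theorem nover_ball_le (hz : B.At p y0) (hP : Par B k b h N) :
    (PB fun _ : TG => hf).real {s : TG → Bool | ¬ Over B p y0 b (ballS B y0 b h) s} ≤
      Pf (nr h) := by
  refine (measureReal_mono (f0_sub hz hP)).trans (le_of_eq ?_)
  rw [rdp_law _ _ (farmD_dep _ _), farmD_eq]
  intro t ht
  rw [mem_bxF] at ht
  rw [mem_SC]
  obtain ⟨q1, q2, q3, q4, q5, q6⟩ := hP
  have a1 := nr_le h
  unfold InB at ht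
  dsimp only at ht
  omega

theorem win_sub (hz : B.At p y0) (hP : Par B k b h N) {x0 x1 : ℤ} (h0 : k - 1 ≤ x0)
    (h1 : x1 ≤ B.R - 1 - k) :
    rdp (SC hz hP.R2).C (b - 2, B.y2 - 1) (WinD (b - 2, B.y2 - 1) x0 x1 (B.y1 - 1)) ⊆
      {s : TG → Bool | ¬ Over B p y0 b (farS B y0 k h) s} := by
  rintro s ⟨G, hG, hout⟩
  obtain ⟨q1, q2, q3, q4, q5, q6⟩ := hP
  have e1 : B.y1 + ((h - 1 : ℕ) : ℤ) = B.y2 - 1 := by omega
  refine not_over_of_path (G := G) (far_ok ⟨q1, q2, q3, q4, q5, q6⟩) hz (by omega) (by omega)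
    (Or.inr (Or.inr hout)) ?_
  rw [e1, fp_rdp]
  refine hG.mono ?_
  rintro t ⟨h2, h3⟩
  refine ⟨?_, ?_⟩
  · unfold InB at h2
    unfold InR
    dsimp only at h2
    omega
  · have h3' : (if (b - 2 + (B.y2 - 1)) % 2 = 0 then fld (SC hz (Par.R2 ⟨q1, q2, q3, q4, q5, q6⟩)).C s t
        else !fld (SC hz (Par.R2 ⟨q1, q2, q3, q4, q5, q6⟩)).C s t) = true := h3
    rw [fld_SC] at h3'
    exact h3'

end

end Crest.Agent.R158.Zc180
end
end

-- ▼ part R158/Zc5_180
section

/-!
# Row 158 (helper180): strands over the far charge, 5: the decoupling of the strip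

* `gates_le` : `P(some gate is not closed) ≤ 4 q ^ N`
* `far_ge` : `c P(no arc over b in the ball) ≤ P(no arc over b in the far rectangle, inner gates closed)`
* **`strip_main`** : pointwise hypotheses ⟹ `‖∫ val / P(F1 ∩ H) - ∫ V‖ ≤ v 4 q^N + (C/c) (4 q^N)^(1/2)`
-/

set_option autoImplicit false

noncomputable section

namespace Crest.Agent.R158.Zc180

open MeasureTheory ProbabilityTheory unitInterval
open Crest.Agent.R161.Geo729
open Crest.Agent.R158.Rs689 hiding se sc
open Crest.Agent.R158.Mr679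
open Crest.Agent.R158.Nm211 (DepF)
open Crest.Agent.R158.Env664
open Crest.Agent.R158.Zg180 (Gq se uc gate fld fld_law fld_dep fld_eq Gate gn gate_prob closed_dep)
open Crest.Agent.R158.Zb180 (FArmD WinD Pf farmD_dep winD_dep farmD_eq winD_ge ind ind_nonneg Dec2)

variable {A : Finset (ℤ × ℤ)} {B : Band A} {p y0 k b : ℤ} {h N : ℕ}

/-- columns of the chart as a set of tiles -/
def Cf (B : Band A) (y0 x0 x1 : ℤ) : Finset TG :=
  (bxF x0 x1 (B.y1 - 1) (B.y2 - 1)).image (se y0)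

theorem image_disj {y0 : ℤ} {S T : Finset P2} (h : Disjoint S T) :
    Disjoint (S.image (se y0)) (T.image (se y0)) := by
  rw [Finset.disjoint_left]
  rintro t h1 h2
  obtain ⟨v, hv, rfl⟩ := Finset.mem_image.1 h1
  obtain ⟨w, hw, e⟩ := Finset.mem_image.1 h2
  have := Zg180.se_inj e
  subst this
  exact Finset.disjoint_left.1 h hv hw


theorem far_dep (hz : B.At p y0) (hP : Par B k b h N) :
    Dep (Cf B y0 (k - 1) (2 * k - 2) ∪ Cf B y0 (B.R - 2 * k) (B.R - 1 - k)) (farG hz hP) := by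
  have h1 := closed_dep (gate hz (a0 := k - 1) (a1 := 2 * k - 2) (by have := hP.k2; omega)
        (by have := hP.k2; omega)
        (by have := hP.k2; have := hP.bl; have := hP.br; omega))
  have h2 := closed_dep (gate hz (a0 := B.R - 2 * k) (a1 := B.R - 1 - k)
        (by have := hP.k2; have := hP.bl; have := hP.br; omega) (by have := hP.k2; omega)
        (by have := hP.k2; omega))
  exact (h1.mono Finset.subset_union_left).inter (h2.mono Finset.subset_union_right)


/-- the window event -/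
def winE (hz : B.At p y0) (hP : Par B k b h N) : Set (TG → Bool) :=
  rdp (SC hz hP.R2).C (b - 2, B.y2 - 1) (WinD (b - 2, B.y2 - 1) (2 * k - 2) (B.R - 2 * k) (B.y1 - 1))

theorem winE_dep (hz : B.At p y0) (hP : Par B k b h N) :
    Dep (Cf B y0 (2 * k - 2) (B.R - 2 * k)) (winE hz hP) := by
  have h1 := winD_dep (b - 2, B.y2 - 1) (2 * k - 2) (B.R - 2 * k) (B.y1 - 1)
  dsimp only at h1
  have h2 := rdp_dep (SC hz hP.R2).C (b - 2, B.y2 - 1) h1
  exact h2

theorem winE_law (hz : B.At p y0) (hP : Par B k b h N) :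
    (PB fun _ : TG => hf).real (winE hz hP) =
      (tau hf).real (WinD (b - 2, B.y2 - 1) (2 * k - 2) (B.R - 2 * k) (B.y1 - 1)) := by
  refine rdp_law _ _ (winD_dep _ _ _ _) ?_
  intro t ht
  have hk2 := hP.k2
  rw [mem_bxF] at ht
  rw [mem_SC]
  unfold InB at ht
  dsimp only at ht
  omega

theorem win_far_disj : Disjoint (Cf B y0 (2 * k - 2) (B.R - 2 * k))
      (Cf B y0 (k - 1) (2 * k - 2) ∪ Cf B y0 (B.R - 2 * k) (B.R - 1 - k)) := by
  rw [Finset.disjoint_union_right]
  constructor <;> refine image_disj (Finset.disjoint_left.2 fun t h4 h5 => ?_) <;>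
    rw [mem_bxF] at h4 h5 <;> unfold InB at h4 h5 <;> omega

theorem win_far (hz : B.At p y0) (hP : Par B k b h N) :
    winE hz hP ∩ farG hz hP ⊆
      {s : TG → Bool | ¬ Over B p y0 b (farS B y0 k h) s} ∩ farG hz hP :=
  Set.inter_subset_inter_left _ (win_sub hz hP (by have := hP.k2; omega)
    (by have := hP.k2; omega))

theorem win_prob : ∃ c : ℝ, 0 < c ∧ ∀ (A : Finset (ℤ × ℤ)) (B : Band A) (k b : ℤ)
    (h N : ℕ) (_ : Par B k b h N), c * Pf (nr h) ≤
      (tau hf).real (WinD (b - 2, B.y2 - 1) (2 * k - 2) (B.R - 2 * k) (B.y1 - 1)) := by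
  obtain ⟨c, hc, hc1, hw⟩ := winD_ge 5
  refine ⟨c, hc, fun A B k b h N hP => ?_⟩
  have hh := hP.hh
  have h3 := hP.h3
  have hk2 := hP.k2
  have hbl := hP.bl
  have hbr := hP.br
  have := hw (h / 3) (by omega) (b - 2, B.y2 - 1) (2 * k - 2) (B.R - 2 * k) (B.y1 - 1)
    (by dsimp only; omega) (by dsimp only; omega) (by dsimp only; omega) (by dsimp only; omega)
  have e : (nr h : ℤ) = 3 * ((h / 3 : ℕ) : ℤ) := by unfold nr; push_cast; ring
  rw [e]
  exact this

/-- **(Z) for the strip** -/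
theorem far_ge : ∃ c : ℝ, 0 < c ∧ ∀ (A : Finset (ℤ × ℤ)) (B : Band A) (p y0 k b : ℤ)
    (h N : ℕ) (hz : B.At p y0) (hP : Par B k b h N),
    (PB fun _ : TG => hf).real (farG hz hP)ᶜ ≤ 1 / 2 →
    c * Pf (nr h) ≤ (PB fun _ : TG => hf).real
      ({s : TG → Bool | ¬ Over B p y0 b (farS B y0 k h) s} ∩ farG hz hP) := by
  obtain ⟨c, hc, hw⟩ := win_prob
  refine ⟨c / 2, by positivity, fun A B p y0 k b h N hz hP hH => ?_⟩
  have h1 := hw A B k b h N hP
  have h4 := PB_indep_real (fun _ : TG => hf) win_far_disj (winE_dep hz hP) (far_dep hz hP)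
  have h5 := probReal_compl_eq_one_sub (μ := PB fun _ : TG => hf) (far_dep hz hP).measurableSet
  refine le_trans ?_ (measureReal_mono (win_far hz hP))
  rw [h4, winE_law]
  rw [h5] at hH
  generalize (PB fun _ : TG => hf).real (farG hz hP) = x at *
  generalize (tau hf).real (WinD (b - 2, B.y2 - 1) (2 * k - 2) (B.R - 2 * k) (B.y1 - 1)) = y at *
  have h7 : 0 ≤ c * Pf (nr h) := mul_nonneg hc.le (Zb180.Pf_nonneg _)
  nlinarith

end Crest.Agent.R158.Zc180
end
end

-- ▼ part R158/Zc6_180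

/-!
# Row 158 (helper180): strands over the far charge, 6: the decoupling of the strip

* `F0`, `F1` : no arc over the far charge in the ball / in the far rectangle
* `Zs` : the normalisation, independent of `z`; `ez_iff`, `law_se`
-/

set_option autoImplicit false

noncomputable section

namespace Crest.Agent.R158.Zc180

open MeasureTheory ProbabilityTheory unitInterval
open Crest.Agent.R161.Geo729
open Crest.Agent.R158.Rs689 hiding se sc
open Crest.Agent.R158.Mr679
open Crest.Agent.R158.Nm211 (DepF)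
open Crest.Agent.R158.Env664
open Crest.Agent.R158.Zg180 (Gq se uc gate fld fld_law fld_dep fld_eq Gate gn gate_prob closed_dep)
open Crest.Agent.R158.Zb180 (Pf ind ind_nonneg Dec2 int_of_dep)

variable {A : Finset (ℤ × ℤ)} {B : Band A} {p y0 k b : ℤ} {h N : ℕ}

/-- no arc over the far charge in the ball -/
def F0 (B : Band A) (p y0 b : ℤ) (h : ℕ) : Set (TG → Bool) :=
  {s | ¬ Over B p y0 b (ballS B y0 b h) s}

/-- no arc over the far charge in the far rectangle -/
def F1 (B : Band A) (p y0 k b : ℤ) (h : ℕ) : Set (TG → Bool) :=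
  {s | ¬ Over B p y0 b (farS B y0 k h) s}

theorem F0_dep (hP : Par B k b h N) : Dep (Wf B y0 b h) (F0 B p y0 b h) := by
  unfold F0
  rw [ball_eq hP.h3]
  exact over_dep _

theorem F1_dep (hP : Par B k b h N) : Dep (Sf B y0 k) (F1 B p y0 k b h) := by
  unfold F1
  rw [far_eq hP]
  exact over_dep _

theorem Cf_disj {x0 x1 x2 x3 : ℤ} (h : x1 ≤ x2 ∨ x3 ≤ x0) :
    Disjoint (Cf B y0 x0 x1) (Cf B y0 x2 x3) := by
  refine image_disj (Finset.disjoint_left.2 fun t h4 h5 => ?_)
  rw [mem_bxF] at h4 h5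
  unfold InB at h4 h5
  omega

theorem Wf_sub (hP : Par B k b h N) : Wf B y0 b h ⊆ Cf B y0 (2 * k - 2) (B.R - 2 * k) := by
  refine Finset.image_subset_image fun t ht => ?_
  rw [mem_bxF] at ht ⊢
  obtain ⟨q1, q2, q3, q4, q5, q6⟩ := hP
  have a1 := nr_le h
  unfold InB at *
  omega

theorem Cf_mono {x0 x1 x2 x3 : ℤ} (h0 : x2 ≤ x0) (h1 : x1 ≤ x3) :
    Cf B y0 x0 x1 ⊆ Cf B y0 x2 x3 := by
  refine Finset.image_subset_image fun t ht => ?_
  rw [mem_bxF] at ht ⊢
  unfold InB at *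
  omega

/-! ### independence of the normalisation of `z` -/

theorem closed_iff (hz : B.At p y0) {a0 a1 : ℤ} (h0 : 0 ≤ a0) (h01 : a0 < a1) (h1 : a1 + 1 < B.R)
    (s : TG → Bool) : (gate hz h0 h01 h1).Closed s ↔
      Crest.Agent.R158.Cb771.xg (fun v => s (se y0 v)) ∈ BX 0 a0 a1 (B.y1 - 1) (B.y2 - 1) := by
  have e : Crest.Agent.R158.Zg180.gn (Crest.Agent.R158.Nm211.rd (gate hz h0 h01 h1).C.emb
      (gate hz h0 h01 h1).C.Fn s) = fun v => s (se y0 v) := by
    funext v
    show (!(xor (!false) (s (se y0 v)))) = s (se y0 v)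
    cases s (se y0 v) <;> rfl
  unfold Crest.Agent.R158.Zg180.Gate.Closed
  rw [e]
  exact Iff.rfl

/-- the events of the far rectangle as events of the field of the chart -/
def EZ (B : Band A) (k b : ℤ) (h : ℕ) : Set TF :=
  {g | (¬ ∃ i j, k ≤ i ∧ i ≤ b - 2 ∧ b - 2 < j ∧ j ≤ k + ((B.R - 1 - 2 * k).toNat : ℤ) ∧
      Crest.Agent.R158.Gc748.BM g k B.y1 (B.R - 1 - 2 * k).toNat (h - 1)
        (some ((i, B.y1 + ((h - 1 : ℕ) : ℤ)), 1)) =
      some ((j, B.y1 + ((h - 1 : ℕ) : ℤ)), 1)) ∧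
    Crest.Agent.R158.Cb771.xg g ∈ BX 0 (k - 1) (2 * k - 2) (B.y1 - 1) (B.y2 - 1) ∧
    Crest.Agent.R158.Cb771.xg g ∈ BX 0 (B.R - 2 * k) (B.R - 1 - k) (B.y1 - 1) (B.y2 - 1)}

/-- **normalisation of the strip** : depends on `R, y1, y2, k, b` only -/
def Zs (B : Band A) (k b : ℤ) (h : ℕ) : ℝ := (tau hf).real (EZ B k b h)

theorem ez_iff (hz : B.At p y0) (hP : Par B k b h N) (s : TG → Bool) :
    s ∈ F1 B p y0 k b h ∩ farG hz hP ↔ (fun v => s (se y0 v)) ∈ EZ B k b h := by
  have h1 := over_iff (b := b) (s := s) (far_ok hP) hz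
  have h2 : s ∈ F1 B p y0 k b h ↔ ¬ Over B p y0 b (farS B y0 k h) s := Iff.rfl
  rw [Set.mem_inter_iff, h2]
  unfold farS
  rw [h1]
  unfold EZ farG
  rw [Set.mem_ofPred_eq, Set.mem_ofPred_eq, closed_iff, closed_iff]

/-- law of the field of the chart -/
theorem law_se {y0 : ℤ} {S : Finset P2} {E : Set TF} (hE : Dep S E) :
    (PB fun _ : TG => hf).real {s : TG → Bool | (fun v => s (se y0 v)) ∈ E} = (tau hf).real E := by
  classical
  have hd : DepF S (E.indicator fun _ => (1 : ℝ)) := by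
    intro z z' h
    by_cases hz : z ∈ E
    · rw [Set.indicator_of_mem hz, Set.indicator_of_mem ((hE z z' h).1 hz)]
    · rw [Set.indicator_of_notMem hz, Set.indicator_of_notMem fun h' => hz ((hE z z' h).2 h')]
  have hinj : Set.InjOn (se y0) S := fun a _ c _ e => Zg180.se_inj e
  have h1 := Crest.Agent.R158.Nm211.integral_transport (ι := TG) (κ := P2) hinj
    (fun _ => false) hd
  rw [integral_indicator_const _ hE.measurableSet] at h1
  have h2 : ∀ z : TG → Bool, (E.indicator fun _ => (1 : ℝ)) (fun e => xor false (z (se y0 e))) =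
      ({s : TG → Bool | (fun v => s (se y0 v)) ∈ E}.indicator fun _ => (1 : ℝ)) z := by
    intro z
    simp only [Bool.false_xor]
    by_cases hz : (fun v => z (se y0 v)) ∈ E
    · rw [Set.indicator_of_mem (show z ∈ {s : TG → Bool | (fun v => s (se y0 v)) ∈ E} from hz),
        Set.indicator_of_mem hz]
    · rw [Set.indicator_of_notMem (show z ∉ {s : TG → Bool | (fun v => s (se y0 v)) ∈ E} from hz),
        Set.indicator_of_notMem hz]
  have hm : MeasurableSet {s : TG → Bool | (fun v => s (se y0 v)) ∈ E} := by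
    refine Dep.measurableSet (S := S.image (se y0)) ?_
    intro s s' h
    exact hE _ _ fun t ht => h _ (Finset.mem_image_of_mem _ ht)
  simp only [h2] at h1
  rw [integral_indicator_const _ hm] at h1
  simpa [tau] using h1

/-- a splitting with given field of the chart -/
def bk (y0 : ℤ) (g : TF) : TG → Bool
  | Sum.inl _ => false
  | Sum.inr v => g (uc y0 v, v.2)

theorem bk_se {y0 : ℤ} (g : TF) : (fun v => bk y0 g (se y0 v)) = g := by
  funext v
  obtain ⟨x, y⟩ := v
  unfold se bk uc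
  by_cases h : y < y0 <;> simp [h]

theorem ez_dep (hz : B.At p y0) (hP : Par B k b h N) :
    Dep (bxF (k - 1) (B.R - 1 - k) (B.y1 - 1) (B.y2 - 1)) (EZ B k b h) := by
  have hS : Dep (Sf B y0 k) (F1 B p y0 k b h ∩ farG hz hP) := by
    refine (F1_dep hP).inter ((far_dep hz hP).mono ?_)
    have hk2 := hP.k2
    have e : Sf B y0 k = Cf B y0 (k - 1) (B.R - 1 - k) := rfl
    rw [e]
    have hbl := hP.bl
    have hbr := hP.br
    refine Finset.union_subset (Cf_mono ?_ ?_) (Cf_mono ?_ ?_) <;> omega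
  intro g g' hg
  have h1 := ez_iff hz hP (bk y0 g)
  have h2 := ez_iff hz hP (bk y0 g')
  rw [bk_se] at h1 h2
  rw [← h1, ← h2]
  refine hS _ _ fun e he => ?_
  obtain ⟨v, hv, rfl⟩ := Finset.mem_image.1 he
  have a1 : bk y0 g (se y0 v) = g v := congrFun (bk_se (y0 := y0) g) v
  have a2 : bk y0 g' (se y0 v) = g' v := congrFun (bk_se (y0 := y0) g') v
  rw [a1, a2]
  exact hg v hv

/-- **the normalisation is the same for all `z`** -/
theorem Zs_eq (hz : B.At p y0) (hP : Par B k b h N) :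
    (PB fun _ : TG => hf).real (F1 B p y0 k b h ∩ farG hz hP) = Zs B k b h := by
  have e : F1 B p y0 k b h ∩ farG hz hP = {s : TG → Bool | (fun v => s (se y0 v)) ∈ EZ B k b h} := by
    ext s
    exact ez_iff hz hP s
  rw [e, law_se (ez_dep hz hP)]
  rfl

/-- the tiles between two columns -/
theorem gate_dep (hz : B.At p y0) {a0 a1 : ℤ} (h0 : 0 ≤ a0) (h01 : a0 < a1) (h1 : a1 + 1 < B.R) :
    Dep (Cf B y0 a0 a1) {s : TG → Bool | (gate hz h0 h01 h1).Closed s} :=
  closed_dep (gate hz h0 h01 h1)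

/-- **decoupling of the strip** -/
theorem strip_main : ∃ c q : ℝ, 0 < c ∧ 0 < q ∧ q < 1 ∧
    (∀ (A : Finset (ℤ × ℤ)) (B : Band A) (p y0 : ℤ) (hz : B.At p y0) (h N : ℕ) (a0 a1 : ℤ)
      (h0 : 0 ≤ a0) (h01 : a0 < a1) (h1 : a1 + 1 < B.R), 1 ≤ h → B.y2 = B.y1 + h →
      (N : ℤ) * h ≤ a1 - a0 →
      (PB fun _ : TG => hf).real {s : TG → Bool | ¬ (gate hz h0 h01 h1).Closed s} ≤ q ^ N) ∧
    ∀ (A : Finset (ℤ × ℤ)) (B : Band A) (p y0 k b : ℤ) (h N : ℕ) (hz : B.At p y0)
      (hP : Par B k b h N), 2 * q ^ N ≤ 1 / 2 →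
      c * Pf (nr h) ≤ Zs B k b h ∧ 0 < Zs B k b h ∧
      ∀ (G : Set (TG → Bool)) (gn : Finset TG) (ε : ℝ), Dep gn G → Disjoint (Sf B y0 k) gn →
        (PB fun _ : TG => hf).real Gᶜ ≤ ε →
      ∀ (val V : (TG → Bool) → ℂ) (Y : (TG → Bool) → ℝ) (C v : ℝ) (T U : Finset TG),
        Disjoint (Sf B y0 k) T → (∀ s s' : TG → Bool, (∀ e ∈ T, s e = s' e) → V s = V s') →
        0 ≤ v → (∀ s, ‖V s‖ ≤ v) →
        Disjoint (Wf B y0 b h) U → DepF U Y → (∀ s, 0 ≤ Y s) → 0 ≤ C →
        ∫ s, Y s ^ 2 ∂(PB fun _ : TG => hf) ≤ C ^ 2 →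
        Integrable val (PB fun _ : TG => hf) →
        (∀ s ∈ G, s ∈ farG hz hP → Over B p y0 b (farS B y0 k h) s → val s = 0) →
        (∀ s ∈ G, s ∈ farG hz hP → ¬ Over B p y0 b (farS B y0 k h) s → val s = V s) →
        (∀ s, Over B p y0 b (ballS B y0 b h) s → val s = 0) →
        (∀ s, ‖val s‖ ≤ Y s) →
        ‖(∫ s, val s ∂(PB fun _ : TG => hf)) / (Zs B k b h : ℂ) -
            ∫ s, V s ∂(PB fun _ : TG => hf)‖ ≤
          v * ε + C / c * Real.sqrt (ε + 2 * q ^ N) := by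
  obtain ⟨c, hc, hfar⟩ := far_ge
  obtain ⟨q, hq, hq1, hg⟩ := gate_prob.{0}
  obtain ⟨c2, hc2, hpf⟩ := Zb180.pf_lower
  have hgate : ∀ (A : Finset (ℤ × ℤ)) (B : Band A) (p y0 : ℤ) (hz : B.At p y0) (h N : ℕ) (a0 a1 : ℤ)
      (h0 : 0 ≤ a0) (h01 : a0 < a1) (h1 : a1 + 1 < B.R), 1 ≤ h → B.y2 = B.y1 + h →
      (N : ℤ) * h ≤ a1 - a0 →
      (PB fun _ : TG => hf).real {s : TG → Bool | ¬ (gate hz h0 h01 h1).Closed s} ≤ q ^ N := by
    intro A B p y0 hz h N a0 a1 h0 h01 h1 hh hy hN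
    refine hg _ _ (gate hz h0 h01 h1) h N hh ?_ ?_
    · show B.y2 - 1 = B.y1 - 1 + h
      omega
    · show a0 + N * h ≤ a1
      linarith
  refine ⟨c, q, hc, hq, hq1, hgate, fun A B p y0 k b h N hz hP hN => ?_⟩
  have hk2 := hP.k2
  have hbl := hP.bl
  have hbr := hP.br
  have hg2 : (PB fun _ : TG => hf).real (farG hz hP)ᶜ ≤ 2 * q ^ N := by
    have hkN := hP.kN
    have h3 := hP.h3
    have a1 := hgate A B p y0 hz h N (k - 1) (2 * k - 2) (by omega) (by omega) (by omega)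
      (by omega) hP.hh (by linarith)
    have a2 := hgate A B p y0 hz h N (B.R - 2 * k) (B.R - 1 - k) (by omega) (by omega) (by omega)
      (by omega) hP.hh (by linarith)
    have hsub : (farG hz hP)ᶜ ⊆
        {s : TG → Bool | ¬ (gate hz (a0 := k - 1) (a1 := 2 * k - 2) (by omega) (by omega)
          (by omega)).Closed s} ∪
        {s : TG → Bool | ¬ (gate hz (a0 := B.R - 2 * k) (a1 := B.R - 1 - k) (by omega) (by omega)
          (by omega)).Closed s} := by
      intro s hs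
      by_contra hcon
      simp only [Set.mem_union, not_or, Set.mem_ofPred_eq, not_not] at hcon
      exact hs hcon
    have a3 := (measureReal_mono (μ := PB fun _ : TG => hf) hsub).trans (measureReal_union_le _ _)
    linarith
  have hZ : c * Pf (nr h) ≤ Zs B k b h := by
    rw [← Zs_eq hz hP]
    exact hfar A B p y0 k b h N hz hP (hg2.trans hN)
  have hn1 := nr_pos hP.h3
  have hPf : 0 < Pf (nr h) := by
    refine lt_of_lt_of_le ?_ (hpf (nr h) (by omega))
    have : (0 : ℝ) < (nr h : ℝ) := by exact_mod_cast (by omega : 0 < nr h)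
    positivity
  have hZ0 : 0 < Zs B k b h := lt_of_lt_of_le (mul_pos hc hPf) hZ
  refine ⟨hZ, hZ0, ?_⟩
  intro G gn ε hGd hSg hGε val V Y C v T U hST hV hv hVv hWU hY hY0 hC hYC hvi h1 h2 h3 h4
  classical
  set w : TG → I := fun _ => hf with hw
  set H : Set (TG → Bool) := farG hz hP with hH
  set gf : Finset TG := Cf B y0 (k - 1) (2 * k - 2) ∪ Cf B y0 (B.R - 2 * k) (B.R - 1 - k) with hgf
  have hHd : Dep gf H := far_dep hz hP
  have hgfS : gf ⊆ Sf B y0 k := by
    have e : Sf B y0 k = Cf B y0 (k - 1) (B.R - 1 - k) := rfl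
    rw [e]
    refine Finset.union_subset (Cf_mono ?_ ?_) (Cf_mono ?_ ?_) <;> omega
  have hWS : Wf B y0 b h ⊆ Sf B y0 k := (Wf_sub hP).trans (Cf_mono (by omega) (by omega))
  have hWg : Disjoint (Wf B y0 b h) (gn ∪ gf) := by
    rw [Finset.disjoint_union_right]
    refine ⟨Finset.disjoint_of_subset_left hWS hSg, ?_⟩
    refine Finset.disjoint_of_subset_left (Wf_sub hP) ?_
    rw [Finset.disjoint_union_right]
    refine ⟨Cf_disj (Or.inr ?_), Cf_disj (Or.inl ?_)⟩ <;> omega
  have hVi : Integrable V (PB w) := int_of_dep w hV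
  have D : Dec2 w (Wf B y0 b h) (Sf B y0 k) (T ∪ gn) (U ∪ (gn ∪ gf)) (F0 B p y0 b h)
      (F1 B p y0 k b h) H G Y val (fun s => if s ∈ G ∩ H then (ind (F1 B p y0 k b h) s : ℂ) else 0)
      V c C v :=
    { WU := Finset.disjoint_union_right.2 ⟨hWU, hWg⟩
      ST := Finset.disjoint_union_right.2 ⟨hST, hSg⟩
      h0 := F0_dep hP
      h1 := F1_dep hP
      hHS := hHd.mono hgfS
      hHU := hHd.mono (Finset.subset_union_right.trans Finset.subset_union_right)
      hG := hGd.mono Finset.subset_union_right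
      hGU := hGd.mono (Finset.subset_union_left.trans Finset.subset_union_right)
      hY := hY.mono Finset.subset_union_left
      hY0 := hY0
      hV := fun z z' hz => hV z z' fun e he => hz e (Finset.mem_union_left _ he)
      hAm := hvi
      hBm := by
        refine int_of_dep w (T := (gn ∪ gf) ∪ Sf B y0 k) ?_
        intro z z' hz
        have q1 : z ∈ G ∩ H ↔ z' ∈ G ∩ H := by
          have a1 := hGd z z' fun e he => hz e (by simp [he])
          have a2 := hHd z z' fun e he => hz e (by simp [he])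
          exact and_congr a1 a2
        have q2 := Zb180.ind_dep (F1_dep (p := p) (y0 := y0) hP) z z' fun e he => hz e (by simp [he])
        show (if z ∈ G ∩ H then (ind (F1 B p y0 k b h) z : ℂ) else 0) =
          if z' ∈ G ∩ H then (ind (F1 B p y0 k b h) z' : ℂ) else 0
        rw [q2]
        simp only [q1]
      c_pos := hc
      C_nonneg := hC
      v_nonneg := hv
      hYC := hYC
      hF := by
        rw [Zs_eq hz hP]
        exact le_trans (mul_le_mul_of_nonneg_left (nover_ball_le hz hP) hc.le) hZ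
      hF1 := by
        rw [Zs_eq hz hP]
        exact hZ0
      hv := hVv
      A_in := by
        rintro z ⟨hz1, hz2⟩
        unfold ind
        by_cases ho : Over B p y0 b (farS B y0 k h) z
        · rw [Set.indicator_of_notMem (show z ∉ F1 B p y0 k b h from fun h' => h' ho)]
          rw [h1 z hz1 hz2 ho]
          simp
        · rw [Set.indicator_of_mem (show z ∈ F1 B p y0 k b h from ho)]
          rw [h2 z hz1 hz2 ho]
          simp
      B_in := by
        intro z hz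
        show (if z ∈ G ∩ H then (ind (F1 B p y0 k b h) z : ℂ) else 0) = _
        rw [if_pos hz]
      A_out := by
        intro z _
        unfold ind
        by_cases ho : Over B p y0 b (ballS B y0 b h) z
        · rw [Set.indicator_of_notMem (show z ∉ F0 B p y0 b h from fun h' => h' ho)]
          rw [h3 z ho]
          simp
        · rw [Set.indicator_of_mem (show z ∈ F0 B p y0 b h from ho), one_mul]
          exact h4 z
      B_out := by
        intro z hz
        show ‖(if z ∈ G ∩ H then (ind (F1 B p y0 k b h) z : ℂ) else 0)‖ ≤ _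
        rw [if_neg hz, norm_zero]
        exact mul_nonneg (ind_nonneg _ _) (hY0 z) }
  obtain ⟨r, hr, e⟩ := D.split_gen D.hAm D.hV D.A_in D.A_out
  have hGH : (PB w).real (G ∩ H)ᶜ ≤ ε + 2 * q ^ N := by
    rw [Set.compl_inter]
    refine (measureReal_union_le _ _).trans ?_
    have : (PB w).real Hᶜ ≤ 2 * q ^ N := hg2
    linarith
  have hZc : ((Zs B k b h : ℝ) : ℂ) ≠ 0 := by exact_mod_cast hZ0.ne'
  have e2 : (∫ s, val s ∂(PB w)) / ((Zs B k b h : ℝ) : ℂ) = ∫ s in G, V s ∂(PB w) + r := by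
    rw [e, Zs_eq hz hP, mul_comm]
    exact mul_div_cancel_right₀ _ hZc
  rw [e2, ← integral_add_compl (D.hG.measurableSet) hVi]
  have e3 : ∫ s in G, V s ∂(PB w) + r - (∫ s in G, V s ∂(PB w) + ∫ s in Gᶜ, V s ∂(PB w)) =
      r - ∫ s in Gᶜ, V s ∂(PB w) := by ring
  rw [e3]
  have n1 : ‖∫ s in Gᶜ, V s ∂(PB w)‖ ≤ v * (PB w).real Gᶜ :=
    norm_setIntegral_le_of_norm_le_const (measure_lt_top _ _) fun z _ => hVv z
  have n2 : v * (PB w).real Gᶜ ≤ v * ε := mul_le_mul_of_nonneg_left hGε hv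
  have n3 : Dec2.del w G H c C ≤ C / c * Real.sqrt (ε + 2 * q ^ N) := by
    unfold Dec2.del
    exact mul_le_mul_of_nonneg_left (Real.sqrt_le_sqrt hGH) (by positivity)
  refine (norm_sub_le _ _).trans ?_
  linarith

end Crest.Agent.R158.Zc180
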