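import Crest.Agent.R158.Ad12_350
import Crest.Agent.R158.Zc6_180
import Crest.Agent.R158.Fm1_857
import Crest.Agent.R158.Pc4_194

-- ▼ part R158/Ad13_350
section

/-!
# Block AD, joints of the pointwise identity (helper350)

* `overR_iff` : `OverR` is helper180's `Over`
* `phS_phi` : the phases `phi` of helper857 are the natural phases on the far columns of the strip
* `hB_of` : the classes of `Dp` that stay in the deep part of the stubs have value one
-/

set_option autoImplicit false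
set_option linter.unusedSectionVars false
set_option linter.unusedVariables false

noncomputable section

open Finset

namespace Crest.Agent.R158.Ad350

open Crest.Agent.R158.Pt266 (gl_full rg_full RG tt tt_rv rv dir Wk pass)
open Crest.Agent.R158.Xr249 (rct mem_rct full eS eD Dp mem_Dp pm Dp_cases eD_in eD_r eD_l eD_A
  wd_cases pm_inj pm_portOf eD_glue)
open Crest.Agent.R158.Sw300 (Port thru)
open Crest.Agent.R158.Env664 (TG Band PortOf portOf_some portOf_none nbP nbD beD res res_of Run)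
open Crest.Agent.R158.Ao857 (legP beL chL beL_ne chL_ne chG beG_fix)
open Crest.Agent.R158.Zg180 (Gq Near Far gate uc se)

variable {A : Finset (ℤ × ℤ)} {B : Band A} {p y0 k : ℤ} {s : TG → Bool}

/-! ### the event -/

section ovr

/-- tiles of a rectangle of the strip -/
def rS (B : Band A) (y0 r1 r2 : ℤ) : Set TG := {t | ∃ w ∈ rct r1 r2 B.y1 B.y2, eS y0 w = t}

/-- strands of a rectangle of the strip are strands -/
lemma push_P {r1 r2 : ℤ} (h1 : 0 ≤ r1) (h2 : r2 ≤ B.R) {x y : (ℤ × ℤ) × ZMod 4}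
    {k : List ((ℤ × ℤ) × ZMod 4)}
    (w : Wk (fun t => s (eS y0 t)) (RG (full (rct r1 r2 B.y1 B.y2))) x y k) :
    Wk s (Gq (B.beG p y0)) (eS y0 x.1, x.2) (eS y0 y.1, y.2)
      (k.map fun q => (eS y0 q.1, q.2)) := by
  induction w with
  | one => exact Wk.one
  | @snoc q r l w hg ih =>
    have hg' := rg_full.1 hg
    have hr : r.1 ∈ rct r1 r2 B.y1 B.y2 := by rw [hg'.2.2]; exact hg'.2.1
    obtain ⟨e1, e2⟩ := (be_strip (p := p) (y0 := y0) h1 h2 hg'.1 hr).1 hg
    rw [beL_ne B pS_leg] at e1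
    rw [List.map_append, List.map_singleton]
    exact ih.snoc ⟨e1, fun e => e2 (congrArg some e)⟩

/-- strands of `G^(z)` in a rectangle of the strip -/
lemma pull_P {r1 r2 : ℤ} (h1 : 0 ≤ r1) (h2 : r2 ≤ B.R) {x y : TG × ZMod 4}
    {l : List (TG × ZMod 4)} (w : Wk s (Gq (B.beG p y0)) x y l)
    (hl : ∀ z ∈ l, z.1 ∈ rS B y0 r1 r2) :
    ∃ x' y' : (ℤ × ℤ) × ZMod 4, ∃ k, x = (eS y0 x'.1, x'.2) ∧ y = (eS y0 y'.1, y'.2) ∧
      x'.1 ∈ rct r1 r2 B.y1 B.y2 ∧ y'.1 ∈ rct r1 r2 B.y1 B.y2 ∧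
      Wk (fun t => s (eS y0 t)) (RG (full (rct r1 r2 B.y1 B.y2))) x' y' k := by
  induction w with
  | one =>
    obtain ⟨t, ht, e⟩ := hl x (List.mem_singleton_self _)
    refine ⟨(t, x.2), pass (fun t => s (eS y0 t)) (t, x.2), [(t, x.2)], ?_, ?_, ht, ht, Wk.one⟩
    · exact Prod.ext e.symm rfl
    · refine Prod.ext e.symm ?_
      show thru (s x.1) x.2 = thru (s (eS y0 t)) x.2
      rw [e]
  | @snoc q r l w hb ih =>
    obtain ⟨x', y', k, rfl, rfl, h3, h4, h5⟩ := ih fun z hz => hl z (by simp [hz])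
    obtain ⟨t, ht, e⟩ := hl r (List.mem_append_right _ (List.mem_singleton_self _))
    have er : r = (eS y0 t, r.2) := Prod.ext e.symm rfl
    have hg : RG (full (rct r1 r2 B.y1 B.y2)) y' (t, r.2) := by
      refine (be_strip (p := p) (y0 := y0) h1 h2 h4 ht).2 ⟨?_, ?_⟩
      · rw [beL_ne B pS_leg]
        have := hb.1
        rw [er] at this
        exact this
      · intro e'
        apply hb.2
        rw [er]
        exact Option.some.inj e'
    refine ⟨x', pass (fun t => s (eS y0 t)) (t, r.2), k ++ [(t, r.2)], rfl, ?_, h3, ht,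
      h5.snoc hg⟩
    refine Prod.ext e.symm ?_
    show thru (s r.1) r.2 = thru (s (eS y0 t)) r.2
    rw [e]

/-- **the event of helper180** -/
theorem overR_iff (hz : B.At p y0) {r1 r2 b : ℤ} (h1 : 0 ≤ r1) (h2 : r2 ≤ B.R) :
    OverR B y0 r1 r2 (b - 1) s ↔ Zc180.Over B p y0 b (rS B y0 r1 r2) s := by
  have hy := hz.hy2
  have hy' := hz.hy1
  have hcp : ∀ u : ℤ, ((eS y0 (u, B.y2 - 1), 1) : TG × ZMod 4) = Zc180.cp B (u + 1) := fun u =>
    Zc180.se_cp hz u
  constructor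
  · rintro ⟨i, j, k, hi, hj, w⟩
    refine ⟨i + 1, j + 1, k.map fun q => (eS y0 q.1, q.2), by omega, by omega, ?_, ?_⟩
    · rw [← hcp, ← hcp]
      exact push_P (p := p) h1 h2 w
    · intro r hr
      obtain ⟨q, hq, rfl⟩ := List.mem_map.1 hr
      have hxS : ((i, B.y2 - 1) : ℤ × ℤ) ∈ rct r1 r2 B.y1 B.y2 := by rw [mem_rct]; omega
      exact ⟨q.1, wk_rct hxS w q hq, rfl⟩
  · rintro ⟨i, j, l, hi, hj, w, hl⟩
    obtain ⟨⟨⟨u, v⟩, d⟩, ⟨⟨u', v'⟩, d'⟩, k, e1, e2, h3, h4, h5⟩ := pull_P h1 h2 w hl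
    have e3 := (hcp (i - 1)).trans (by rw [sub_add_cancel] : Zc180.cp B (i - 1 + 1) = _)
    have e4 := (hcp (j - 1)).trans (by rw [sub_add_cancel] : Zc180.cp B (j - 1 + 1) = _)
    rw [← e3] at e1
    rw [← e4] at e2
    obtain ⟨a1, a2⟩ := Prod.mk.inj e1
    obtain ⟨a3, a4⟩ := Prod.mk.inj e2
    have a5 := Xr249.eS_inj a1
    have a6 := Xr249.eS_inj a3
    simp only [Prod.mk.injEq] at a5 a6
    simp only at a2 a4
    obtain ⟨rfl, rfl⟩ := a5
    obtain ⟨rfl, rfl⟩ := a6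
    subst a2
    subst a4
    rw [mem_rct] at h3 h4
    exact ⟨i - 1, j - 1, k, ⟨h3.1.1, by omega⟩, ⟨by omega, h4.1.2⟩, h5⟩

/-- **the far rectangle of helper180** -/
theorem far_rS {b : ℤ} {h N : ℕ} (hP : Zc180.Par B k b h N) :
    Zc180.farS B y0 k h = rS B y0 k (B.R - k) := by
  have h1 := hP.hh
  have h2 := hP.h3
  have h3 := hP.k2
  have h4 := hP.bl
  have h5 := hP.br
  ext t
  unfold Zc180.farS Zc180.Bx rS
  simp only [Set.mem_ofPred_eq]
  constructor
  · rintro ⟨⟨u, v⟩, hw, e⟩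
    refine ⟨(u, v), ?_, e⟩
    rw [mem_rct]
    unfold Gc748.InR at hw
    simp only at hw
    omega
  · rintro ⟨⟨u, v⟩, hw, e⟩
    refine ⟨(u, v), ?_, e⟩
    rw [mem_rct] at hw
    unfold Gc748.InR
    simp only
    omega

/-- **the event on closed far gates** -/
theorem over_far_iff (hz : B.At p y0) {b : ℤ} {h N : ℕ} (hP : Zc180.Par B k b h N)
    (hs : s ∈ Zc180.farG hz hP) {a0 b1 : ℤ} (h0 : 0 ≤ a0) (h1 : b1 + 1 < B.R) (ha : a0 ≤ k - 1)
    (hb : B.R - 1 - k ≤ b1) :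
    OverR B y0 (a0 + 1) (b1 + 1) (b - 1) s ↔ Zc180.Over B p y0 b (Zc180.farS B y0 k h) s := by
  have h2 := hP.h3
  have h3 := hP.k2
  have h4 := hP.bl
  have h5 := hP.br
  rw [far_rS hP, ← overR_iff hz (by omega) (by omega)]
  have := over_iff_far hz (by omega) (by omega) (by omega) (by omega) (by omega) hs.1 hs.2
    (b' := b - 1) (a0 := a0) (b1 := b1) (by omega) (by omega) h0 h1 (by omega) (by omega)
  rw [this, show k - 1 + 1 = k by ring, show B.R - 1 - k + 1 = B.R - k by ring]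

end ovr

/-! ### the phases of the strip -/

section phases

open Crest.Agent.R158.Fm857 (ps psD isLow blkG innG pG isLS ge1 gt1 low1 cb clow cp phi)

variable {b : ℤ} {m1 m2 : Port TG}

lemma pG_le {q r : Port TG} : pG B b q ≤ pG B b r ↔ blkG B b q < blkG B b r ∨
    (blkG B b q = blkG B b r ∧ innG B q ≤ innG B r) := by
  unfold Fm857.pG
  rw [Prod.Lex.toLex_le_toLex]

lemma pG_lt {q r : Port TG} : pG B b q < pG B b r ↔ blkG B b q < blkG B b r ∨
    (blkG B b q = blkG B b r ∧ innG B q < innG B r) := by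
  unfold Fm857.pG
  rw [Prod.Lex.toLex_lt_toLex]

lemma blk_inl {t : ℤ × ℤ} {d : ZMod 4} : blkG B b (some (Sum.inl t, d)) = 1 ∨
    blkG B b (some (Sum.inl t, d)) = 4 := by
  show (if isLow B (t, d) then (1 : ℤ) else 4) = 1 ∨ (if isLow B (t, d) then (1 : ℤ) else 4) = 4
  split_ifs
  · exact Or.inl rfl
  · exact Or.inr rfl

/-- end of the member: none, an end of `D`, or a ceiling / floor end outside the columns `(a0, b1]` -/
def EndOk (a0 b1 : ℤ) : Option (Port TG) → Prop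
  | none => True
  | some none => False
  | some (some (Sum.inl _, _)) => True
  | some (some (Sum.inr (i, _), d)) =>
      (d = 3 ∧ (i ≤ a0 ∨ b1 < i)) ∨ (d = 1 ∧ (i - 1 ≤ a0 ∨ b1 < i - 1))

lemma blk_fl {i y : ℤ} : blkG B b (some (Sum.inr (i, y), 3)) = (if i < b then 0 else 2) ∧
    innG B (some (Sum.inr (i, y), 3)) = -i := by
  constructor
  · simp [Fm857.blkG]
  · simp [Fm857.innG]

lemma blk_ce {i y : ℤ} : blkG B b (some (Sum.inr (i, y), 1)) = (if i < b then 5 else 3) ∧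
    innG B (some (Sum.inr (i, y), 1)) = i := by
  have h : (1 : ZMod 4) ≠ 3 := by decide
  constructor
  · simp [Fm857.blkG, h]
  · simp [Fm857.innG, h]

/-- **no charge on the far columns of the strip** -/
theorem cp_strip {a0 b1 : ℤ} {e : Option (Port TG)}
    (hm1 : ∃ t d, m1 = some (Sum.inl t, d)) (hm2 : ∃ t d, m2 = some (Sum.inl t, d))
    (he : EndOk a0 b1 e) (hab : a0 < b - 1) (hbb : b ≤ b1 + 1) {i y : ℤ} {d : ZMod 4}
    (hq : (d = 3 ∧ a0 < i ∧ i ≤ b1) ∨ (d = 1 ∧ a0 < i - 1 ∧ i - 1 ≤ b1)) :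
    cp B b m1 m2 e (some (Sum.inr (i, y), d)) = 0 := by
  obtain ⟨t1, d1, rfl⟩ := hm1
  obtain ⟨t2, d2, rfl⟩ := hm2
  have g1 := blk_inl (B := B) (b := b) (t := t1) (d := d1)
  have g2 := blk_inl (B := B) (b := b) (t := t2) (d := d2)
  have hLS : isLS b (some (Sum.inr (i, y), d) : Port TG) ↔ b ≤ i := Iff.rfl
  -- the strip end `q`
  have hqb : ∃ bq iq : ℤ, blkG B b (some (Sum.inr (i, y), d)) = bq ∧
      innG B (some (Sum.inr (i, y), d)) = iq ∧
      ((bq = 0 ∧ iq = -i ∧ i < b ∧ a0 < i ∧ i ≤ b1) ∨ (bq = 2 ∧ iq = -i ∧ b ≤ i ∧ a0 < i ∧ i ≤ b1)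
        ∨ (bq = 5 ∧ iq = i ∧ i < b ∧ a0 < i - 1 ∧ i - 1 ≤ b1) ∨
        (bq = 3 ∧ iq = i ∧ b ≤ i ∧ a0 < i - 1 ∧ i - 1 ≤ b1)) := by
    rcases hq with ⟨rfl, h1, h2⟩ | ⟨rfl, h1, h2⟩
    · refine ⟨_, _, rfl, rfl, ?_⟩
      rw [blk_fl.1, (blk_fl (b := b)).2]
      split_ifs <;> omega
    · refine ⟨_, _, rfl, rfl, ?_⟩
      rw [blk_ce.1, (blk_ce (b := b)).2]
      split_ifs <;> omega
  obtain ⟨bq, iq, e1, e2, hcase⟩ := hqb
  unfold Fm857.cp Fm857.cb Fm857.clow Fm857.ge1 Fm857.gt1 Fm857.low1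
  rcases e with _ | (_ | ⟨t | ⟨j, w⟩, f⟩)
  · simp only [pG_le, e1, e2, hLS]
    generalize blkG B b (some (Sum.inl t1, d1)) = x1 at g1 ⊢
    generalize blkG B b (some (Sum.inl t2, d2)) = x2 at g2 ⊢
    rcases hcase with ⟨rfl, rfl, h1, h2⟩ | ⟨rfl, rfl, h1, h2⟩ | ⟨rfl, rfl, h1, h2⟩ |
      ⟨rfl, rfl, h1, h2⟩ <;> rcases g1 with rfl | rfl <;> rcases g2 with rfl | rfl <;> simp <;> omega
  · exact he.elim
  · have g3 := blk_inl (B := B) (b := b) (t := t) (d := f)
    simp only [pG_le, pG_lt, e1, e2, hLS]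
    generalize blkG B b (some (Sum.inl t1, d1)) = x1 at g1 ⊢
    generalize blkG B b (some (Sum.inl t2, d2)) = x2 at g2 ⊢
    generalize blkG B b (some (Sum.inl t, f)) = x3 at g3 ⊢
    rcases hcase with ⟨rfl, rfl, h1, h2⟩ | ⟨rfl, rfl, h1, h2⟩ | ⟨rfl, rfl, h1, h2⟩ |
      ⟨rfl, rfl, h1, h2⟩ <;> rcases g1 with rfl | rfl <;> rcases g2 with rfl | rfl <;>
      rcases g3 with rfl | rfl <;> simp <;> omega
  · have hjb : ∃ bj ij : ℤ, blkG B b (some (Sum.inr (j, w), f)) = bj ∧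
        innG B (some (Sum.inr (j, w), f)) = ij ∧
        ((bj = 0 ∧ ij = -j ∧ j < b ∧ (j ≤ a0 ∨ b1 < j)) ∨
          (bj = 2 ∧ ij = -j ∧ b ≤ j ∧ (j ≤ a0 ∨ b1 < j)) ∨
          (bj = 5 ∧ ij = j ∧ j < b ∧ (j - 1 ≤ a0 ∨ b1 < j - 1)) ∨
          (bj = 3 ∧ ij = j ∧ b ≤ j ∧ (j - 1 ≤ a0 ∨ b1 < j - 1))) := by
      rcases he with ⟨rfl, h1⟩ | ⟨rfl, h1⟩
      · refine ⟨_, _, rfl, rfl, ?_⟩
        rw [blk_fl.1, (blk_fl (b := b)).2]
        split_ifs <;> omega
      · refine ⟨_, _, rfl, rfl, ?_⟩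
        rw [blk_ce.1, (blk_ce (b := b)).2]
        split_ifs <;> omega
    obtain ⟨bj, ij, e3, e4, hcase'⟩ := hjb
    simp only [pG_le, pG_lt, e1, e2, e3, e4, hLS]
    generalize blkG B b (some (Sum.inl t1, d1)) = x1 at g1 ⊢
    generalize blkG B b (some (Sum.inl t2, d2)) = x2 at g2 ⊢
    rcases hcase with ⟨rfl, rfl, h1, h2⟩ | ⟨rfl, rfl, h1, h2⟩ | ⟨rfl, rfl, h1, h2⟩ |
      ⟨rfl, rfl, h1, h2⟩ <;> rcases g1 with rfl | rfl <;> rcases g2 with rfl | rfl <;>
      rcases hcase' with ⟨rfl, rfl, h3, h4⟩ | ⟨rfl, rfl, h3, h4⟩ | ⟨rfl, rfl, h3, h4⟩ |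
      ⟨rfl, rfl, h3, h4⟩ <;> simp <;> (try split_ifs) <;> omega

/-- **the phases `phi` are natural on the far columns of the strip** -/
theorem phS_phi (hz : B.At p y0) {a0 b1 : ℤ} {e : Option (Port TG)}
    (hm1 : ∃ t d, m1 = some (Sum.inl t, d)) (hm2 : ∃ t d, m2 = some (Sum.inl t, d))
    (he : EndOk a0 b1 e) (hab : a0 < b - 1) (hbb : b ≤ b1 + 1) :
    PhS B y0 a0 b1 (b - 1) (phi B b m1 m2 e) := by
  have hy1 := hz.hy1
  have hy2 := hz.hy2
  rintro ⟨⟨u, v⟩, d⟩ hq hv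
  rw [mem_rct] at hq
  have n13 : (1 : ZMod 4) ≠ 3 := by decide
  have he3 : Bd932.e3 / 4 = Real.pi / 12 := by unfold Bd932.e3; ring
  rcases hv with ⟨hd, hy⟩ | ⟨hd, hy⟩ <;> simp only at hd hy <;> subst hd <;> subst hy
  · have e1 : pS y0 ((u, B.y2 - 1), 1) = some (Sum.inr (u + 1, B.y2 - 1), 1) := by
      unfold pS
      rw [Xr249.eS_hi (by omega)]
    rw [e1]
    unfold Fm857.phi
    rw [cp_strip hm1 hm2 he hab hbb (Or.inr ⟨rfl, by omega, by omega⟩), he3]
    have e2 : ps B b (some (Sum.inr (u + 1, B.y2 - 1), 1)) = psS (b - 1) ((u, B.y2 - 1), 1) := by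
      show (if (1 : ZMod 4) = 3 then (3 : ℤ) else if u + 1 < b then 1 else 5) =
        if (1 : ZMod 4) = 3 then (3 : ℤ) else if u < b - 1 then 1 else 5
      rw [if_neg n13, if_neg n13]
      split_ifs <;> omega
    rw [e2]
    simp
  · have e1 : pS y0 ((u, B.y1), 3) = some (Sum.inr (u, B.y1), 3) := by
      unfold pS
      rw [Xr249.eS_lo (by omega)]
    rw [e1]
    unfold Fm857.phi
    rw [cp_strip hm1 hm2 he hab hbb (Or.inl ⟨rfl, by omega, by omega⟩), he3]
    have e2 : ps B b (some (Sum.inr (u, B.y1), 3)) = psS (b - 1) ((u, B.y1), 3) := by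
      show (if (3 : ZMod 4) = 3 then (3 : ℤ) else if u < b then 1 else 5) =
        if (3 : ZMod 4) = 3 then (3 : ℤ) else if u < b - 1 then 1 else 5
      rw [if_pos rfl, if_pos rfl]
    rw [e2]
    simp

end phases

/-! ### the classes in the deep part of the stubs -/

section deep

variable {be' : Port (ℤ × ℤ) → Port (ℤ × ℤ)} {ch' : Port (ℤ × ℤ) → ℝ}

/-- deep end of a stub -/
def Deep (B : Band A) (y0 k a0 b1 : ℤ) (t : ℤ × ℤ) : Prop := eD B y0 k t ∉ Near y0 a0 b1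

/-- deep tiles are in the stubs -/
lemma Deep.stub (hf : Xr249.Free A B.xl B.xr B.y1 B.y2 k) {a0 b1 : ℤ} {t : ℤ × ℤ}
    (ht : t ∈ Dp A B.xl B.xr B.y1 B.y2 k) (h : Deep B y0 k a0 b1 t) :
    (B.y1 ≤ t.2 ∧ t.2 < B.y2) ∧ ((B.xr < t.1 ∧ t.1 ≤ B.xr + k) ∨
      (B.xl - k ≤ t.1 ∧ t.1 < B.xl)) := by
  obtain ⟨x, y⟩ := t
  rcases Dp_cases hf ht with ⟨h1, h2, h3⟩ | ⟨-, h2⟩ | ⟨-, h2⟩
  · exact absurd (Or.inl ⟨_, eD_A hf h1⟩) h
  · exact ⟨h2.1, Or.inl ⟨h2.2.1, h2.2.2⟩⟩
  · exact ⟨h2.1, Or.inr ⟨h2.2.1, h2.2.2⟩⟩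

/-- the columns of glued ports differ by at most one -/
lemma nbD_col {p y0 xr : ℤ} {a b : (ℤ × ℤ) × ZMod 4} (h : nbD p y0 xr (some a) = some b) :
    b.1.1 ≤ a.1.1 + 1 ∧ a.1.1 ≤ b.1.1 + 1 := by
  obtain ⟨⟨x, y⟩, d⟩ := a
  rcases Env664.z4 d with rfl | rfl | rfl | rfl
  · rw [Env664.nbD_W] at h
    rw [← Option.some.inj h]
    simp only
    omega
  · by_cases hc : y = y0 - 1 ∧ p ≤ x ∧ x ≤ xr
    · rw [Env664.nbD_N1 hc] at h
      rw [← Option.some.inj h]
      simp only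
      omega
    · rw [Env664.nbD_N hc] at h
      rw [← Option.some.inj h]
      simp only
      omega
  · rw [Env664.nbD_E] at h
    rw [← Option.some.inj h]
    simp only
    omega
  · by_cases hc : y = y0 ∧ x = p
    · rw [Env664.nbD_Sleg hc] at h
      simp at h
    · by_cases hc2 : y = y0 ∧ p < x ∧ x ≤ xr
      · rw [Env664.nbD_S1 hc2] at h
        rw [← Option.some.inj h]
        simp only
        omega
      · rw [Env664.nbD_S (by omega)] at h
        rw [← Option.some.inj h]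
        simp only
        omega

/-- a class in the deep part of the stubs stays in one stub -/
lemma one_side (hf : Xr249.Free A B.xl B.xr B.y1 B.y2 k) (hz : B.At p y0)
    (hbe : NdBe B p y0 k be') {a0 b1 : ℤ} {z : Port (ℤ × ℤ)}
    (hzV : z ∈ (ndNet B y0 k s be' ch').V)
    (hS : StubCls B y0 k a0 b1 ((ndNet B y0 k s be' ch').cls z)) :
    (∀ q ∈ (ndNet B y0 k s be' ch').cls z, ∀ a ∈ q, B.xr < a.1.1) ∨
    (∀ q ∈ (ndNet B y0 k s be' ch').cls z, ∀ a ∈ q, a.1.1 < B.xl) := by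
  have hok : (ndNet B y0 k s be' ch').Ok := nd_ok hf hz hbe
  have hle := hf.le
  -- every port of the class is deep
  have hdeep : ∀ q ∈ (ndNet B y0 k s be' ch').cls z, ∃ t d, q = some (t, d) ∧
      t ∈ Dp A B.xl B.xr B.y1 B.y2 k ∧ (B.xr < t.1 ∨ t.1 < B.xl) := by
    intro q hq
    obtain ⟨t, d, rfl, ht⟩ := mem_ports' (Net.mem_cls.1 hq).1
    refine ⟨t, d, rfl, ht, ?_⟩
    have h1 : Deep B y0 k a0 b1 t := fun h => hS ⟨_, hq, _, d, rfl, h⟩
    rcases (h1.stub hf ht).2 with h2 | h2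
    · exact Or.inl h2.1
    · exact Or.inr h2.2
  -- one step
  have hstep : ∀ q ∈ (ndNet B y0 k s be' ch').cls z, ∀ r, (ndNet B y0 k s be' ch').st q r →
      r ∈ (ndNet B y0 k s be' ch').cls z →
      ((∀ a ∈ q, B.xr < a.1.1) → ∀ a ∈ r, B.xr < a.1.1) ∧
      ((∀ a ∈ q, a.1.1 < B.xl) → ∀ a ∈ r, a.1.1 < B.xl) := by
    intro q hq r hr hrC
    obtain ⟨t, d, rfl, ht, h1⟩ := hdeep q hq
    obtain ⟨t', d', rfl, ht', h2⟩ := hdeep r hrC
    have hcol : t'.1 ≤ t.1 + 1 ∧ t.1 ≤ t'.1 + 1 := by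
      rcases hr with hr | hr
      · have : t' = t := congrArg Prod.fst (Option.some.inj hr)
        rw [this]
        omega
      · have hr' : be' (some (t, d)) = some (t', d') := hr.symm
        rw [hbe _ (mem_ports.2 ht)] at hr'
        split_ifs at hr' with h3
        · have : t = t' := congrArg Prod.fst (Option.some.inj hr')
          rw [this]
          omega
        · by_cases h5 : PortOf (Dp A B.xl B.xr B.y1 B.y2 k) (some (t, d) : Port (ℤ × ℤ)) ∧
              PortOf (Dp A B.xl B.xr B.y1 B.y2 k) (nbD p y0 (B.xr + k) (some (t, d)))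
          · unfold Env664.beD at hr'
            rw [res_of h5.1 h5.2] at hr'
            exact nbD_col hr'
          · unfold Env664.beD res at hr'
            rw [if_neg h5] at hr'
            have : t = t' := congrArg Prod.fst (Option.some.inj hr')
            rw [this]
            omega
    constructor
    · intro h3 a ha
      have h4 := h3 _ rfl
      rw [Option.mem_def, Option.some.injEq] at ha
      subst ha
      simp only at h4 ⊢
      omega
    · intro h3 a ha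
      have h4 := h3 _ rfl
      rw [Option.mem_def, Option.some.injEq] at ha
      subst ha
      simp only at h4 ⊢
      omega
  have hcn : ∀ r, (ndNet B y0 k s be' ch').Cn z r →
      ((∀ a ∈ z, B.xr < a.1.1) → ∀ a ∈ r, B.xr < a.1.1) ∧
      ((∀ a ∈ z, a.1.1 < B.xl) → ∀ a ∈ r, a.1.1 < B.xl) := by
    intro r hr
    induction hr with
    | refl => exact ⟨fun h => h, fun h => h⟩
    | @tail b c hb hs ih =>
      have hbV : b ∈ (ndNet B y0 k s be' ch').V := Net.Cn.mem hok.clV hzV hb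
      have hbC : b ∈ (ndNet B y0 k s be' ch').cls z := Net.mem_cls.2 ⟨hbV, hb⟩
      have hcC : c ∈ (ndNet B y0 k s be' ch').cls z := by
        rcases hs with rfl | rfl
        · exact (Net.cls_cl hok z).al _ hbC
        · exact (Net.cls_cl hok z).be _ hbC
      obtain ⟨k1, k2⟩ := hstep b hbC c hs hcC
      exact ⟨fun h => k1 (ih.1 h), fun h => k2 (ih.2 h)⟩
  obtain ⟨t, d, rfl, ht, h1⟩ := hdeep z (Net.self_mem_cls hzV)
  rcases h1 with h1 | h1
  · left
    intro q hq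
    refine (hcn q (Net.mem_cls.1 hq).2).1 ?_
    intro a ha
    rw [Option.mem_def, Option.some.injEq] at ha
    rw [← ha]; exact h1
  · right
    intro q hq
    refine (hcn q (Net.mem_cls.1 hq).2).2 ?_
    intro a ha
    rw [Option.mem_def, Option.some.injEq] at ha
    rw [← ha]; exact h1

/-- **the classes in the deep part of the stubs have value one** -/
theorem hB_of (hf : Xr249.Free A B.xl B.xr B.y1 B.y2 k) (hz : B.At p y0)
    (hbe : NdBe B p y0 k be') {w : Sw300.Wd (ℤ × ℤ)} {σ : Port (ℤ × ℤ) → ℤ} {g : ℤ × ℤ → ℝ}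
    {C : Port (ℤ × ℤ) → ℝ} (P : Pc194.Phs be' ch' w id σ g C)
    (E : Pc194.Emb (Dp A B.xl B.xr B.y1 B.y2 k) be' w id)
    (G : Pc194.Lg be' ch' w id σ g (lpD p y0))
    (hA : ports (Dp A B.xl B.xr B.y1 B.y2 k) ⊆ Pc194.ep id w) {a0 b1 : ℤ} {cR cL : ℝ}
    (hC : ∀ t d, (some (t, d) : Port (ℤ × ℤ)) ∈ Sw300.L w → t ∈ Dp A B.xl B.xr B.y1 B.y2 k →
      Deep B y0 k a0 b1 t → (B.xr < t.1 → C (some (t, d)) = cR) ∧
        (t.1 < B.xl → C (some (t, d)) = cL)) :
    ∀ D ∈ ((ndNet B y0 k s be' ch').classes (ndNet B y0 k s be' ch').V).erase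
      ((ndNet B y0 k s be' ch').cls (lpD p y0)), StubCls B y0 k a0 b1 D →
        (ndNet B y0 k s be' ch').zn D = 1 := by
  have hok : (ndNet B y0 k s be' ch').Ok := nd_ok hf hz hbe
  intro D hD hS
  rcases Pc194.zn_full (s := fun t => s (eD B y0 k t)) P E G hok hA (lp_mem hz) hD with
    ⟨-, h⟩ | ⟨x, hx, -, -, h2, h3⟩
  · exact h
  · have h4 : (ndNet B y0 k s be' ch').zn D = _ := h3
    rw [h4]
    apply Pc194.wr_eq_one
    have hDs := Net.classes_sub hok hok.clV (Finset.mem_of_mem_erase hD)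
    obtain ⟨z, hzV, rfl⟩ := Finset.mem_image.1 (Finset.mem_of_mem_erase hD)
    have hid : ∀ y : Port (ℤ × ℤ), Pc194.po id y = y := by
      intro y
      cases y <;> rfl
    have e1 : x ∈ (ndNet B y0 k s be' ch').cls z := by
      have : x ∈ (ndNet B y0 k s be' ch').ends ((ndNet B y0 k s be' ch').cls z) := by
        show x ∈ (tnet (Dp A B.xl B.xr B.y1 B.y2 k) (fun t => s (eD B y0 k t)) be' ch').ends
          ((tnet (Dp A B.xl B.xr B.y1 B.y2 k) (fun t => s (eD B y0 k t)) be' ch').cls z)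
        rw [show (tnet (Dp A B.xl B.xr B.y1 B.y2 k) (fun t => s (eD B y0 k t)) be' ch').ends
          ((tnet (Dp A B.xl B.xr B.y1 B.y2 k) (fun t => s (eD B y0 k t)) be' ch').cls z) = _
          from h2, hid]
        exact Finset.mem_insert_self _ _
      exact (Finset.mem_filter.1 this).1
    set y := Sw300.M ((fun t => s (eD B y0 k t)) ∘ id) w x with hy
    have e2 : y ∈ (ndNet B y0 k s be' ch').cls z := by
      have : y ∈ (ndNet B y0 k s be' ch').ends ((ndNet B y0 k s be' ch').cls z) := by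
        show y ∈ (tnet (Dp A B.xl B.xr B.y1 B.y2 k) (fun t => s (eD B y0 k t)) be' ch').ends
          ((tnet (Dp A B.xl B.xr B.y1 B.y2 k) (fun t => s (eD B y0 k t)) be' ch').cls z)
        rw [show (tnet (Dp A B.xl B.xr B.y1 B.y2 k) (fun t => s (eD B y0 k t)) be' ch').ends
          ((tnet (Dp A B.xl B.xr B.y1 B.y2 k) (fun t => s (eD B y0 k t)) be' ch').cls z) = _
          from h2, hid]
        rw [hid]
        exact Finset.mem_insert_of_mem (Finset.mem_singleton_self _)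
      exact (Finset.mem_filter.1 this).1
    have hyL : y ∈ Sw300.L w := (Sw300.Ok.inv _ w E.ok).mem _ hx
    obtain ⟨t, d, rfl, ht⟩ := mem_ports' (Net.mem_cls.1 e1).1
    obtain ⟨t', d', ey, ht'⟩ := mem_ports' (Net.mem_cls.1 e2).1
    have hd1 : Deep B y0 k a0 b1 t := fun h => hS ⟨_, e1, _, d, rfl, h⟩
    have hd2 : Deep B y0 k a0 b1 t' := fun h => hS ⟨_, e2, _, d', by rw [ey]; rfl, h⟩
    rw [ey] at e2 hyL
    rw [ey]
    obtain ⟨c1, c2⟩ := hC t d hx ht hd1
    obtain ⟨c3, c4⟩ := hC t' d' hyL ht' hd2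
    rcases one_side hf hz hbe hzV hS with h | h
    · rw [c1 (h _ e1 _ rfl), c3 (h _ e2 _ rfl)]
    · rw [c2 (h _ e1 _ rfl), c4 (h _ e2 _ rfl)]

end deep

end Crest.Agent.R158.Ad350
end
end

-- ▼ part R158/Ad14_350

/-!
# Block AD, the ring function as an expectation (helper350)

* `integrable_dep` : functions of finitely many tiles are integrable
* `mG B` : exponent of `√3`; `card_ends_G`
* `zE` : normalised value of the member `e` of the family of helper857
* `amp1_eq` : `amp1 e = √3^mG ∫ star (zE e)`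
* `valG`, **`sum_amp`** : `Σ_e kap e * amp1 e = √3^mG ∫ valG`
-/

set_option autoImplicit false
set_option linter.unusedSectionVars false
set_option linter.unusedVariables false

noncomputable section

open Finset Matrix MeasureTheory

namespace Crest.Agent.R158.Ad350

open Crest.Agent.R158.Rs689 (PB hf wt)
open Crest.Agent.R158.Bd932 (e3)
open Crest.Agent.R158.Sw300 (Port thru)
open Crest.Agent.R158.Env664 (TG Band Adj4 PortOf portOf_some portOf_none)
open Crest.Agent.R158.Ao857 (legP beL chL beL_ne chL_ne chG InZ OutZ Kz Split plainL)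
open Crest.Agent.R158.Fm857 (freeG mem_freeG phi ctw kap amp1 HGr InM OutM)

/-- functions of finitely many tiles are integrable -/
theorem integrable_dep {T : Type*} [DecidableEq T] (A : Finset T) {f : (T → Bool) → ℂ}
    (hf' : ∀ s s' : T → Bool, (∀ t ∈ A, s t = s' t) → f s = f s') :
    Integrable f (PB fun _ : T => hf) := by
  classical
  set F : (A → Bool) → ℂ := fun y => f fun t => if h : t ∈ A then y ⟨t, h⟩ else false with hF
  have e1 : f = F ∘ A.restrict := by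
    funext s
    rw [Function.comp_apply, hF]
    refine hf' _ _ fun t ht => ?_
    simp only [dif_pos ht]
    rfl
  rw [e1]
  have h : (PB fun _ : T => hf).map A.restrict =
      Measure.pi fun e : A => Rs689.bern hf := Measure.infinitePi_map_restrict _
  refine Integrable.comp_measurable (f := A.restrict) ?_ (Finset.measurable_restrict A)
  rw [h]
  exact Integrable.of_finite

variable {A : Finset (ℤ × ℤ)} {B : Band A} {p y0 : ℤ}

lemma beG_leg' (hz : B.At p y0) : B.beG p y0 (legP p y0) = none := by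
  rw [← Ao857.beG_leg B hz, B.beG_invol hz]

/-- exponent of `√3` -/
def mG (B : Band A) : ℕ := ((freeG B).card + 1) / 2 - 1

/-- number of cut ends of `G^(z)` -/
lemma card_ends_G (hz : B.At p y0) (c c' : ℝ) (φ : Port TG → ℝ) (s : TG → Bool) :
    ((netN B p y0 c c' φ s).ends (netN B p y0 c c' φ s).V).card = (freeG B).card + 1 := by
  have hl : legP p y0 ∉ freeG B := by
    intro h
    have := ((mem_freeG B hz).1 h).2
    rw [beG_leg' hz] at this
    exact absurd this (by simp [legP])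
  rw [← Finset.card_insert_of_notMem hl]
  congr 1
  ext q
  rw [Net.ends, Finset.mem_filter, Finset.mem_insert, mem_freeG B hz]
  constructor
  · rintro ⟨h1, h2⟩
    by_cases h3 : q = legP p y0
    · exact Or.inl h3
    · refine Or.inr ⟨h1, ?_⟩
      rw [← beL_ne B h3]
      exact h2
  · rintro (rfl | ⟨h1, h2⟩)
    · exact ⟨legP_mem hz, Ao857.beL_leg B p y0⟩
    · refine ⟨h1, ?_⟩
      have h3 : q ≠ legP p y0 := by
        rintro rfl
        rw [beG_leg' hz] at h2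
        exact absurd h2 (by simp [legP])
      show beL B p y0 q = q
      rw [beL_ne B h3, h2]

/-- the normalised value depends on the tiles of `G^(z)` only -/
lemma zvn_dep (hz : B.At p y0) (c c' : ℝ) (φ : Port TG → ℝ) (s s' : TG → Bool)
    (h : ∀ t ∈ B.tG y0, s t = s' t) :
    (netN B p y0 c c' φ s).zvn (legP p y0) = (netN B p y0 c c' φ s').zvn (legP p y0) := by
  have hok := netN_ok hz c c' φ s
  have hok' := netN_ok hz c c' φ s'
  have h1 := Net.zv_zvn hok (legP_mem hz) (Ao857.beL_leg B p y0)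
  have h2 := Net.zv_zvn hok' (legP_mem hz) (Ao857.beL_leg B p y0)
  rw [card_ends_G hz] at h1 h2
  have h3 : (netN B p y0 c c' φ s).zv (netN B p y0 c c' φ s).V (legP p y0) false =
      (netN B p y0 c c' φ s').zv (netN B p y0 c c' φ s').V (legP p y0) false := by
    refine Net.zv_congr (N := netN B p y0 c c' φ s) (N' := netN B p y0 c c' φ s')
      (fun q hq => ?_) (fun q _ => rfl) (fun q hq => ?_) _ _
    · obtain ⟨t, d, rfl, ht⟩ := mem_ports' hq
      simp [netN, tnet, ts, h t ht]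
    · obtain ⟨t, d, rfl, ht⟩ := mem_ports' hq
      simp [netN, tnet, ts, h t ht]
  rw [h3, h2] at h1
  exact (mul_left_cancel₀ (pow_ne_zero _ Net.sqrt3_ne) h1).symm

/-- normalised value of the member `e` -/
def zE (B : Band A) (p y0 b : ℤ) (m1 m2 : Port TG) (e : Option (Port TG)) (s : TG → Bool) : ℂ :=
  (netN B p y0 (ctw B b m1 m2 e) (ctw B b m1 m2 e + e3) (phi B b m1 m2 e) s).zvn (legP p y0)

variable {b : ℤ} {m1 m2 : Port TG}

lemma zE_dep (hz : B.At p y0) (e : Option (Port TG)) (s s' : TG → Bool)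
    (h : ∀ t ∈ B.tG y0, s t = s' t) : zE B p y0 b m1 m2 e s = zE B p y0 b m1 m2 e s' :=
  zvn_dep hz _ _ _ s s' h

/-- **the amplitude of the member `e`** -/
theorem amp1_eq (hz : B.At p y0) {Al Au : Finset (ℤ × ℤ)} (hs : Split B Al Au)
    (hadj : ∀ s ∈ Al, ∀ t ∈ Au, ¬ Adj4 s t) (e : Option (Port TG)) :
    amp1 B Al Au b m1 m2 p y0 e = ((Real.sqrt 3 : ℝ) : ℂ) ^ mG B *
      ∫ s, star (zE B p y0 b m1 m2 e s) ∂(PB fun _ : TG => hf) := by
  have h1 := amp_nat hz hs hadj (ctw B b m1 m2 e) (ctw B b m1 m2 e + e3) (phi B b m1 m2 e)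
    (fun _ => false) rfl
  have h2 : ∀ s : TG → Bool, (netN B p y0 (ctw B b m1 m2 e) (ctw B b m1 m2 e + e3)
      (phi B b m1 m2 e) s).zv (ports (B.tG y0)) (legP p y0) false =
        ((Real.sqrt 3 : ℝ) : ℂ) ^ mG B * zE B p y0 b m1 m2 e s := by
    intro s
    have h3 := Net.zv_zvn (netN_ok hz (ctw B b m1 m2 e) (ctw B b m1 m2 e + e3)
      (phi B b m1 m2 e) s) (legP_mem hz) (Ao857.beL_leg B p y0)
    rw [card_ends_G hz] at h3
    exact h3
  have h4 : amp1 B Al Au b m1 m2 p y0 e = _ := h1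
  rw [h4]
  simp_rw [h2]
  rw [integral_const_mul, star_mul', star_pow]
  congr 1
  · congr 1
    exact Complex.conj_ofReal _
  · exact (integral_conj (f := fun s => zE B p y0 b m1 m2 e s)).symm

/-- the integrand of the ring function -/
def valG (B : Band A) (p y0 b : ℤ) (m1 m2 : Port TG) (J : Finset (Port TG)) (s : TG → Bool) :
    ℂ := ∑ e ∈ Finset.insertNone J, kap B b m1 m2 e * star (zE B p y0 b m1 m2 e s)

lemma valG_dep (hz : B.At p y0) (J : Finset (Port TG)) (s s' : TG → Bool)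
    (h : ∀ t ∈ B.tG y0, s t = s' t) : valG B p y0 b m1 m2 J s = valG B p y0 b m1 m2 J s' := by
  unfold valG
  exact Finset.sum_congr rfl fun e _ => by rw [zE_dep hz e s s' h]

lemma valG_int (hz : B.At p y0) (J : Finset (Port TG)) :
    Integrable (valG B p y0 b m1 m2 J) (PB fun _ : TG => hf) :=
  integrable_dep (B.tG y0) fun s s' h => valG_dep hz J s s' h

/-- **the ring function as an expectation** -/
theorem sum_amp (hz : B.At p y0) {Al Au : Finset (ℤ × ℤ)} (hs : Split B Al Au)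
    (hadj : ∀ s ∈ Al, ∀ t ∈ Au, ¬ Adj4 s t) (J : Finset (Port TG)) :
    ∑ e ∈ Finset.insertNone J, kap B b m1 m2 e * amp1 B Al Au b m1 m2 p y0 e =
      ((Real.sqrt 3 : ℝ) : ℂ) ^ mG B * ∫ s, valG B p y0 b m1 m2 J s ∂(PB fun _ : TG => hf) := by
  unfold valG
  rw [integral_finsetSum]
  · rw [Finset.mul_sum]
    refine Finset.sum_congr rfl fun e _ => ?_
    rw [amp1_eq hz hs hadj, integral_const_mul]
    ring
  · intro e _
    refine Integrable.const_mul (integrable_dep (B.tG y0) fun s s' h => ?_) _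
    rw [zE_dep hz e s s' h]

theorem HGr_eq (hz : B.At p y0) {Al Au : Finset (ℤ × ℤ)} (hs : Split B Al Au)
    (hadj : ∀ s ∈ Al, ∀ t ∈ Au, ¬ Adj4 s t) (J : Finset (Port TG)) (Z : ℂ) :
    HGr B Al Au b m1 m2 J Z p y0 = ((Real.sqrt 3 : ℝ) : ℂ) ^ mG B *
      (∫ s, valG B p y0 b m1 m2 J s ∂(PB fun _ : TG => hf)) / Z := by
  unfold Fm857.HGr
  rw [sum_amp hz hs hadj J]

end Crest.Agent.R158.Ad350
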