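import Mathlib

/-!
# Block AD, tensor side without planarity (helper350)

Ports `P`, arrows `σ : P → Bool` (`true` = the arrow points OUT of the tile through the port).

* `ctr χ a b F` : glueing of the ends `a`, `b` (opposite arrows, phase `e^{i χ}` when the arrow
  leaves through `a`)
* `cut φ p F` : cut end, product vector `e^{± i φ}` (`+` when the arrow points out)
* `St`, `St.vec` : strand state (live ends, partner map, phase `θ p` of the walk from `p` to its
  partner) and its vector
* `ctr_vec`, `cut_vec` : the two contraction lemmas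
-/

set_option autoImplicit false
set_option linter.unusedSimpArgs false
set_option linter.unusedSectionVars false

noncomputable section

open Finset

namespace Crest.Agent.R158.Ad350

/-- sign of an arrow -/
def sg (b : Bool) : ℝ := if b then 1 else -1

@[simp] lemma sg_true : sg true = 1 := rfl
@[simp] lemma sg_false : sg false = -1 := rfl
@[simp] lemma sg_not (b : Bool) : sg (!b) = -sg b := by cases b <;> simp

/-- `e^{i x}` -/
def ei (x : ℝ) : ℂ := Complex.exp (x * Complex.I)

@[simp] lemma ei_zero : ei 0 = 1 := by simp [ei]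
lemma ei_add (x y : ℝ) : ei (x + y) = ei x * ei y := by
  simp only [ei]; rw [← Complex.exp_add]; congr 1; push_cast; ring
lemma ei_add_neg (x : ℝ) : ei x + ei (-x) = 2 * Real.cos x := by
  simp only [ei]
  rw [Complex.ofReal_cos, Complex.two_cos]
  push_cast
  ring_nf

variable {P : Type*} [DecidableEq P]

/-- glueing of the ends `a` and `b` -/
def ctr (χ : ℝ) (a b : P) (F : (P → Bool) → ℂ) : (P → Bool) → ℂ := fun σ =>
  ∑ τ : Bool, ei (χ * sg τ) * F (Function.update (Function.update σ a τ) b (!τ))

/-- cut end -/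
def cut (φ : ℝ) (p : P) (F : (P → Bool) → ℂ) : (P → Bool) → ℂ := fun σ =>
  ∑ τ : Bool, ei (φ * sg τ) * F (Function.update σ p τ)

lemma upd3 {β : Type*} (σ : P → β) {a b c : P} (x y z : β) (hac : a ≠ c) (hbc : b ≠ c) :
    Function.update (Function.update (Function.update σ c z) a x) b y =
      Function.update (Function.update (Function.update σ a x) b y) c z := by
  rw [Function.update_comm hac.symm, Function.update_comm hbc.symm]

lemma upd4 {β : Type*} (σ : P → β) {a b c d : P} (x y z w : β) (hac : a ≠ c) (hbc : b ≠ c)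
    (had : a ≠ d) (hbd : b ≠ d) :
    Function.update (Function.update (Function.update (Function.update σ c z) d w) a x) b y =
      Function.update (Function.update (Function.update (Function.update σ a x) b y) c z) d w := by
  rw [upd3 _ x y w had hbd, upd3 _ x y z hac hbc]

lemma ctr_comm (χ χ' : ℝ) {a b c d : P} (hac : a ≠ c) (hbc : b ≠ c) (had : a ≠ d) (hbd : b ≠ d)
    (F : (P → Bool) → ℂ) : ctr χ a b (ctr χ' c d F) = ctr χ' c d (ctr χ a b F) := by
  funext σ
  simp only [ctr, Finset.mul_sum]
  rw [Finset.sum_comm]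
  refine Finset.sum_congr rfl fun τ' _ => Finset.sum_congr rfl fun τ _ => ?_
  rw [upd4 σ τ (!τ) τ' (!τ') hac hbc had hbd]
  ring

lemma cut_comm (φ φ' : ℝ) {a b : P} (hab : a ≠ b) (F : (P → Bool) → ℂ) :
    cut φ a (cut φ' b F) = cut φ' b (cut φ a F) := by
  funext σ
  simp only [cut, Finset.mul_sum]
  rw [Finset.sum_comm]
  refine Finset.sum_congr rfl fun τ' _ => Finset.sum_congr rfl fun τ _ => ?_
  rw [Function.update_comm hab]
  ring

lemma cut_ctr (φ χ : ℝ) {a b p : P} (hap : a ≠ p) (hbp : b ≠ p) (F : (P → Bool) → ℂ) :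
    cut φ p (ctr χ a b F) = ctr χ a b (cut φ p F) := by
  funext σ
  simp only [ctr, cut, Finset.mul_sum]
  rw [Finset.sum_comm]
  refine Finset.sum_congr rfl fun τ' _ => Finset.sum_congr rfl fun τ _ => ?_
  rw [upd3 σ τ' (!τ') τ hap hbp]
  ring



lemma ctr_smul (χ : ℝ) (a b : P) (k : ℂ) (F : (P → Bool) → ℂ) :
    ctr χ a b (fun σ => k * F σ) = fun σ => k * ctr χ a b F σ := by
  funext σ
  simp only [ctr, Finset.mul_sum]
  exact Finset.sum_congr rfl fun τ _ => by ring


/-! ### strand states -/

/-- strand state: live ends, partner map, phase of the walk from an end to its partner -/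
structure St (P : Type*) where
  L : Finset P
  m : P → P
  θ : P → ℝ

/-- well-formed states -/
structure St.Ok (S : St P) : Prop where
  mem : ∀ p ∈ S.L, S.m p ∈ S.L
  inv : ∀ p ∈ S.L, S.m (S.m p) = p
  ne : ∀ p ∈ S.L, S.m p ≠ p
  anti : ∀ p ∈ S.L, S.θ (S.m p) = -S.θ p

/-- orientation constraint -/
def St.good (S : St P) (σ : P → Bool) : Prop := ∀ p ∈ S.L, σ (S.m p) = !σ p

instance (S : St P) (σ : P → Bool) : Decidable (S.good σ) := by unfold St.good; infer_instance

/-- total phase, every strand counted twice -/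
def St.ph (S : St P) (σ : P → Bool) : ℝ := ∑ p ∈ S.L, S.θ p * sg (σ (S.m p))

/-- the vector of a strand state: a strand from `i` to `j` has phase `e^{i θ_i}` when it is
oriented from `i` to `j` -/
def St.vec (S : St P) (σ : P → Bool) : ℂ := if S.good σ then ei (S.ph σ / 2) else 0

/-- glueing `a` and `b` -/
def St.con (χ : ℝ) (a b : P) (S : St P) : St P where
  L := (S.L.erase a).erase b
  m := if S.m a = b then S.m else
    Function.update (Function.update S.m (S.m a) (S.m b)) (S.m b) (S.m a)
  θ := if S.m a = b then S.θ else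
    Function.update (Function.update S.θ (S.m a) (S.θ (S.m a) + χ + S.θ b)) (S.m b)
      (S.θ (S.m b) - χ + S.θ a)


namespace St

variable {S : St P}

lemma Ok.mi (h : S.Ok) {p q : P} (hp : p ∈ S.L) (hq : q ∈ S.L) (e : S.m p = S.m q) : p = q := by
  rw [← h.inv p hp, ← h.inv q hq, e]

lemma Ok.con (h : S.Ok) (χ : ℝ) {a b : P} (ha : a ∈ S.L) (hb : b ∈ S.L) (hab : a ≠ b) :
    (S.con χ a b).Ok := by
  by_cases hm : S.m a = b
  · have hmb : S.m b = a := by rw [← hm, h.inv a ha]
    have key : ∀ p, p ∈ (S.L.erase a).erase b → p ≠ a ∧ p ≠ b ∧ p ∈ S.L := by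
      intro p hp
      simp only [mem_erase] at hp
      exact ⟨hp.2.1, hp.1, hp.2.2⟩
    refine ⟨fun p hp => ?_, fun p hp => ?_, fun p hp => ?_, fun p hp => ?_⟩
    · simp only [St.con, if_pos hm] at hp ⊢
      obtain ⟨h1, h2, h3⟩ := key p hp
      simp only [mem_erase]
      refine ⟨fun e => h1 ?_, fun e => h2 ?_, h.mem p h3⟩
      · exact h.mi h3 ha (by rw [e, hm])
      · exact h.mi h3 hb (by rw [e, hmb])
    · simp only [St.con, if_pos hm] at hp ⊢
      exact h.inv p (key p hp).2.2
    · simp only [St.con, if_pos hm] at hp ⊢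
      exact h.ne p (key p hp).2.2
    · simp only [St.con, if_pos hm] at hp ⊢
      exact h.anti p (key p hp).2.2
  · have hi := h.mem a ha
    have hj := h.mem b hb
    have hma : S.m a ≠ a := h.ne a ha
    have hmb : S.m b ≠ b := h.ne b hb
    have hmba : S.m b ≠ a := fun e => hm (by rw [← e, h.inv b hb])
    have hij : S.m a ≠ S.m b := fun e => hab (h.mi ha hb e)
    have hji : S.m b ≠ S.m a := fun e => hij e.symm
    have hinvi : S.m (S.m a) = a := h.inv a ha
    have hinvj : S.m (S.m b) = b := h.inv b hb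
    have hti : S.θ (S.m a) = -S.θ a := h.anti a ha
    have htj : S.θ (S.m b) = -S.θ b := h.anti b hb
    have key : ∀ p, p ∈ (S.L.erase a).erase b → p ≠ a ∧ p ≠ b ∧ p ∈ S.L := by
      intro p hp
      simp only [mem_erase] at hp
      exact ⟨hp.2.1, hp.1, hp.2.2⟩
    have other : ∀ p, p ∈ S.L → p ≠ a → p ≠ b → p ≠ S.m a → p ≠ S.m b →
        S.m p ≠ S.m a ∧ S.m p ≠ S.m b ∧ S.m p ≠ a ∧ S.m p ≠ b := by
      intro p hp h1 h2 h3 h4
      refine ⟨fun e => h1 (h.mi hp ha e), fun e => h2 (h.mi hp hb e), fun e => h3 ?_,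
        fun e => h4 ?_⟩
      · rw [← e, h.inv p hp]
      · rw [← e, h.inv p hp]
    refine ⟨fun p hp => ?_, fun p hp => ?_, fun p hp => ?_, fun p hp => ?_⟩ <;>
    simp only [St.con, if_neg hm] at hp ⊢ <;>
    obtain ⟨h1, h2, h3⟩ := key p hp <;>
    by_cases e1 : p = S.m b
    · subst e1; simp [hma, hm, hi]
    · by_cases e2 : p = S.m a
      · subst e2; simp [Function.update_apply, hij, hmb, hmba, hj]
      · obtain ⟨o1, o2, o3, o4⟩ := other p h3 h1 h2 e2 e1
        simp [Function.update_apply, e1, e2, o3, o4, h.mem p h3]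
    · subst e1; simp [Function.update_apply, hij]
    · by_cases e2 : p = S.m a
      · subst e2; simp [Function.update_apply, hij]
      · obtain ⟨o1, o2, o3, o4⟩ := other p h3 h1 h2 e2 e1
        simp [Function.update_apply, e1, e2, o1, o2, h.inv p h3]
    · subst e1; simp [hij]
    · by_cases e2 : p = S.m a
      · subst e2; simp [Function.update_apply, hij, hji]
      · obtain ⟨o1, o2, o3, o4⟩ := other p h3 h1 h2 e2 e1
        simp [Function.update_apply, e1, e2, h.ne p h3]
    · subst e1; simp [Function.update_apply, hij, hti, htj]; ring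
    · by_cases e2 : p = S.m a
      · subst e2; simp [Function.update_apply, hij, hti, htj]; ring
      · obtain ⟨o1, o2, o3, o4⟩ := other p h3 h1 h2 e2 e1
        simp [Function.update_apply, e1, e2, o1, o2, h.anti p h3]

/-! ### the contraction lemma -/








/-- glue a list of pairs -/
def glueL (l : List (ℝ × P × P)) (F : (P → Bool) → ℂ) : (P → Bool) → ℂ :=
  l.foldl (fun F e => ctr e.1 e.2.1 e.2.2 F) F

@[simp] lemma glueL_nil (F : (P → Bool) → ℂ) : glueL [] F = F := rfl
@[simp] lemma glueL_cons (e : ℝ × P × P) (l : List (ℝ × P × P)) (F : (P → Bool) → ℂ) :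
    glueL (e :: l) F = glueL l (ctr e.1 e.2.1 e.2.2 F) := rfl

lemma glueL_smul (l : List (ℝ × P × P)) (k : ℂ) (F : (P → Bool) → ℂ) :
    glueL l (fun σ => k * F σ) = fun σ => k * glueL l F σ := by
  induction l generalizing F with
  | nil => rfl
  | cons e l ih => rw [glueL_cons, ctr_smul, ih, glueL_cons]


/-- result of glueing a list on a strand state -/
def conL (l : List (ℝ × P × P)) (S : St P) : St P :=
  l.foldl (fun S e => S.con e.1 e.2.1 e.2.2) S

@[simp] lemma conL_nil : S.conL [] = S := rfl
@[simp] lemma conL_cons (e : ℝ × P × P) (l : List (ℝ × P × P)) :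
    S.conL (e :: l) = (S.con e.1 e.2.1 e.2.2).conL l := rfl




end St

end Crest.Agent.R158.Ad350
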