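import Mathlib
import Crest.Agent.R158.Ad1_350

/-!
# Block AD, closed networks (helper350)

* `Net` : ports `V`, tile involution `al`, glueing involution `be` (`be p = p` : cut end), phase
  `om p` of an outgoing arrow
* `Net.z C` : sum over the consistent orientations of a closed set `C` of ports
* `Net.z_union`, `Net.z_classes` : product over the classes (strands)
* `Net.norm_z_le` : `‖z C‖ ≤ 2 ^ |X|`
* `Net.Wa`, `Net.z_arc`, `Net.z_loop` : values along walks
* `Net.cases` : every class is an arc or a loop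
-/

set_option autoImplicit false
set_option linter.unusedSectionVars false

noncomputable section

open Finset

namespace Crest.Agent.R158.Ad350

/-- closed network -/
structure Net (P : Type*) where
  V : Finset P
  al : P → P
  be : P → P
  om : P → ℝ

variable {P : Type*}

/-- well-formed networks -/
structure Net.Ok (N : Net P) : Prop where
  alV : ∀ p ∈ N.V, N.al p ∈ N.V
  al2 : ∀ p ∈ N.V, N.al (N.al p) = p
  al1 : ∀ p ∈ N.V, N.al p ≠ p
  beV : ∀ p ∈ N.V, N.be p ∈ N.V
  be2 : ∀ p ∈ N.V, N.be (N.be p) = p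

/-- closed sets of ports -/
structure Net.Cl (N : Net P) (C : Finset P) : Prop where
  sub : C ⊆ N.V
  al : ∀ p ∈ C, N.al p ∈ C
  be : ∀ p ∈ C, N.be p ∈ C

/-- consistent orientation; `B` = the ports with outgoing arrow -/
def Net.good (N : Net P) (C B : Finset P) : Prop :=
  ∀ p ∈ C, (N.al p ∈ B ↔ p ∉ B) ∧ (N.be p ≠ p → (N.be p ∈ B ↔ p ∉ B))

variable [DecidableEq P]

instance (N : Net P) (C B : Finset P) : Decidable (N.good C B) := by
  unfold Net.good; infer_instance

/-- phase of an orientation -/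
def Net.ph (N : Net P) (C B : Finset P) : ℝ := ∑ p ∈ C, N.om p * sg (decide (p ∈ B))

/-- sum over the consistent orientations of `C` -/
def Net.z (N : Net P) (C : Finset P) : ℂ :=
  ∑ B ∈ C.powerset with N.good C B, ei (N.ph C B)

namespace Net

variable {N : Net P}

lemma Ok.clV (h : N.Ok) : N.Cl N.V := ⟨Finset.Subset.refl _, h.alV, h.beV⟩

lemma Cl.union {C D : Finset P} (hC : N.Cl C) (hD : N.Cl D) : N.Cl (C ∪ D) := by
  refine ⟨Finset.union_subset hC.sub hD.sub, fun p hp => ?_, fun p hp => ?_⟩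
  · rcases Finset.mem_union.1 hp with h | h
    · exact Finset.mem_union_left _ (hC.al p h)
    · exact Finset.mem_union_right _ (hD.al p h)
  · rcases Finset.mem_union.1 hp with h | h
    · exact Finset.mem_union_left _ (hC.be p h)
    · exact Finset.mem_union_right _ (hD.be p h)

lemma Cl.sdiff (h : N.Ok) {C D : Finset P} (hC : N.Cl C) (hD : N.Cl D) : N.Cl (C \ D) := by
  refine ⟨Finset.sdiff_subset.trans hC.sub, fun p hp => ?_, fun p hp => ?_⟩
  · rw [Finset.mem_sdiff] at hp ⊢
    exact ⟨hC.al p hp.1, fun k => hp.2 (by rw [← h.al2 p (hC.sub hp.1)]; exact hD.al _ k)⟩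
  · rw [Finset.mem_sdiff] at hp ⊢
    exact ⟨hC.be p hp.1, fun k => hp.2 (by rw [← h.be2 p (hC.sub hp.1)]; exact hD.be _ k)⟩

/-- `z` only sees the maps on `C` -/
lemma z_congr {N' : Net P} {C : Finset P} (ha : ∀ p ∈ C, N.al p = N'.al p)
    (hb : ∀ p ∈ C, N.be p = N'.be p) (ho : ∀ p ∈ C, N.om p = N'.om p) : N.z C = N'.z C := by
  unfold z
  have hg : ∀ B, N.good C B ↔ N'.good C B := by
    intro B
    unfold good
    exact forall₂_congr fun p hp => by rw [ha p hp, hb p hp]
  simp only [hg]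
  refine Finset.sum_congr rfl fun B _ => ?_
  unfold ph
  congr 1
  exact Finset.sum_congr rfl fun p hp => by rw [ho p hp]

@[simp] lemma z_empty : N.z ∅ = 1 := by
  unfold z
  have : (∅ : Finset P).powerset.filter (fun B => N.good ∅ B) = {∅} := by
    ext B
    simp only [Finset.powerset_empty, Finset.mem_filter, Finset.mem_singleton]
    constructor
    · exact fun h => h.1
    · intro h; exact ⟨h, fun p hp => absurd hp (Finset.notMem_empty p)⟩
  rw [this, Finset.sum_singleton]
  simp [ph]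

lemma good_union {C D B1 B2 : Finset P} (hC : N.Cl C) (hD : N.Cl D) (hCD : Disjoint C D)
    (h1 : B1 ⊆ C) (h2 : B2 ⊆ D) : N.good (C ∪ D) (B1 ∪ B2) ↔ N.good C B1 ∧ N.good D B2 := by
  have e1 : ∀ p ∈ C, (p ∈ B1 ∪ B2 ↔ p ∈ B1) := by
    intro p hp
    rw [Finset.mem_union]
    exact ⟨fun h => h.resolve_right fun k => Finset.disjoint_left.1 hCD hp (h2 k), Or.inl⟩
  have e2 : ∀ p ∈ D, (p ∈ B1 ∪ B2 ↔ p ∈ B2) := by
    intro p hp
    rw [Finset.mem_union]
    exact ⟨fun h => h.resolve_left fun k => Finset.disjoint_left.1 hCD (h1 k) hp, Or.inr⟩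
  unfold good
  constructor
  · intro h
    refine ⟨fun p hp => ?_, fun p hp => ?_⟩
    · have := h p (Finset.mem_union_left _ hp)
      rwa [e1 _ (hC.al p hp), e1 p hp, e1 _ (hC.be p hp)] at this
    · have := h p (Finset.mem_union_right _ hp)
      rwa [e2 _ (hD.al p hp), e2 p hp, e2 _ (hD.be p hp)] at this
  · rintro ⟨k1, k2⟩ p hp
    rcases Finset.mem_union.1 hp with hp | hp
    · rw [e1 _ (hC.al p hp), e1 p hp, e1 _ (hC.be p hp)]; exact k1 p hp
    · rw [e2 _ (hD.al p hp), e2 p hp, e2 _ (hD.be p hp)]; exact k2 p hp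

lemma ph_union {C D B1 B2 : Finset P} (hCD : Disjoint C D) (h1 : B1 ⊆ C) (h2 : B2 ⊆ D) :
    N.ph (C ∪ D) (B1 ∪ B2) = N.ph C B1 + N.ph D B2 := by
  unfold ph
  rw [Finset.sum_union hCD]
  congr 1
  · refine Finset.sum_congr rfl fun p hp => ?_
    have : (p ∈ B1 ∪ B2) ↔ p ∈ B1 := by
      rw [Finset.mem_union]
      exact ⟨fun h => h.resolve_right fun k => Finset.disjoint_left.1 hCD hp (h2 k), Or.inl⟩
    rw [decide_eq_decide.2 this]
  · refine Finset.sum_congr rfl fun p hp => ?_
    have : (p ∈ B1 ∪ B2) ↔ p ∈ B2 := by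
      rw [Finset.mem_union]
      exact ⟨fun h => h.resolve_left fun k => Finset.disjoint_left.1 hCD (h1 k) hp, Or.inr⟩
    rw [decide_eq_decide.2 this]

/-- **disjoint closed sets are independent** -/
theorem z_union {C D : Finset P} (hC : N.Cl C) (hD : N.Cl D) (hCD : Disjoint C D) :
    N.z (C ∪ D) = N.z C * N.z D := by
  unfold z
  rw [Finset.sum_mul_sum, ← Finset.sum_product']
  symm
  have hsub : ∀ {B1 B2 : Finset P}, B1 ⊆ C → B2 ⊆ D → (B1 ∪ B2) ∩ C = B1 ∧ (B1 ∪ B2) ∩ D = B2 := by
    intro B1 B2 h1 h2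
    constructor
    · ext p
      simp only [Finset.mem_inter, Finset.mem_union]
      constructor
      · rintro ⟨h | h, k⟩
        · exact h
        · exact absurd (h2 h) (Finset.disjoint_left.1 hCD k)
      · intro h; exact ⟨Or.inl h, h1 h⟩
    · ext p
      simp only [Finset.mem_inter, Finset.mem_union]
      constructor
      · rintro ⟨h | h, k⟩
        · exact absurd k (Finset.disjoint_left.1 hCD (h1 h))
        · exact h
      · intro h; exact ⟨Or.inr h, h2 h⟩
  have hsup : ∀ {B : Finset P}, B ⊆ C ∪ D → (B ∩ C) ∪ (B ∩ D) = B := by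
    intro B hB
    rw [← Finset.inter_union_distrib_left]
    exact Finset.inter_eq_left.2 hB
  refine Finset.sum_bij' (fun x _ => x.1 ∪ x.2) (fun B _ => (B ∩ C, B ∩ D)) ?_ ?_ ?_ ?_ ?_
  · rintro ⟨B1, B2⟩ h
    simp only [Finset.mem_product, Finset.mem_filter, Finset.mem_powerset] at h ⊢
    exact ⟨Finset.union_subset_union h.1.1 h.2.1,
      (good_union hC hD hCD h.1.1 h.2.1).2 ⟨h.1.2, h.2.2⟩⟩
  · intro B h
    simp only [Finset.mem_product, Finset.mem_filter, Finset.mem_powerset] at h ⊢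
    have k := h.2
    rw [← hsup h.1, good_union hC hD hCD Finset.inter_subset_right Finset.inter_subset_right] at k
    exact ⟨⟨Finset.inter_subset_right, k.1⟩, Finset.inter_subset_right, k.2⟩
  · rintro ⟨B1, B2⟩ h
    simp only [Finset.mem_product, Finset.mem_filter, Finset.mem_powerset] at h
    obtain ⟨e1, e2⟩ := hsub h.1.1 h.2.1
    simp only [e1, e2]
  · intro B h
    simp only [Finset.mem_filter, Finset.mem_powerset] at h
    exact hsup h.1
  · rintro ⟨B1, B2⟩ h
    simp only [Finset.mem_product, Finset.mem_filter, Finset.mem_powerset] at h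
    simp only
    rw [ph_union hCD h.1.1 h.2.1, ei_add]

/-- product over a family of disjoint closed sets -/
theorem z_biUnion {ι : Type*} [DecidableEq ι] (s : Finset ι) (f : ι → Finset P)
    (hf : ∀ i ∈ s, N.Cl (f i)) (hd : ∀ i ∈ s, ∀ j ∈ s, i ≠ j → Disjoint (f i) (f j)) :
    N.Cl (s.biUnion f) ∧ N.z (s.biUnion f) = ∏ i ∈ s, N.z (f i) := by
  induction s using Finset.induction_on with
  | empty =>
    refine ⟨⟨by simp, by simp, by simp⟩, by simp⟩
  | insert a s ha ih =>
    obtain ⟨k1, k2⟩ := ih (fun i hi => hf i (Finset.mem_insert_of_mem hi))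
      (fun i hi j hj => hd i (Finset.mem_insert_of_mem hi) j (Finset.mem_insert_of_mem hj))
    rw [Finset.biUnion_insert, Finset.prod_insert ha]
    have hfa := hf a (Finset.mem_insert_self _ _)
    refine ⟨hfa.union k1, ?_⟩
    rw [z_union hfa k1, k2]
    rw [Finset.disjoint_biUnion_right]
    intro i hi
    exact hd a (Finset.mem_insert_self _ _) i (Finset.mem_insert_of_mem hi)
      (fun e => ha (by rw [e]; exact hi))

/-! ### classes -/

/-- one step inside a strand -/
def st (N : Net P) (a b : P) : Prop := b = N.al a ∨ b = N.be a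

/-- connected by a strand -/
def Cn (N : Net P) : P → P → Prop := Relation.ReflTransGen N.st

/-- strand of a port -/
def cls (N : Net P) (p : P) : Finset P := by classical exact N.V.filter (N.Cn p)

lemma mem_cls {p q : P} : q ∈ N.cls p ↔ q ∈ N.V ∧ N.Cn p q := by
  classical
  unfold cls
  rw [Finset.mem_filter]

lemma Cn.refl (p : P) : N.Cn p p := Relation.ReflTransGen.refl

lemma Cn.trans {p q r : P} (h : N.Cn p q) (k : N.Cn q r) : N.Cn p r :=
  Relation.ReflTransGen.trans h k

lemma Cn.al (p : P) : N.Cn p (N.al p) := Relation.ReflTransGen.single (Or.inl rfl)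
lemma Cn.be (p : P) : N.Cn p (N.be p) := Relation.ReflTransGen.single (Or.inr rfl)

lemma Cn.mem {C : Finset P} (hC : N.Cl C) {p q : P} (hp : p ∈ C) (k : N.Cn p q) :
    q ∈ C := by
  induction k with
  | refl => exact hp
  | tail _ hs ih =>
    rcases hs with rfl | rfl
    · exact hC.al _ ih
    · exact hC.be _ ih

lemma Cn.symm (h : N.Ok) {p q : P} (hp : p ∈ N.V) (k : N.Cn p q) : N.Cn q p := by
  induction k with
  | refl => exact Cn.refl _
  | @tail b c hb hs ih =>
    have hbV : b ∈ N.V := Cn.mem h.clV hp hb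
    refine Cn.trans ?_ ih
    rcases hs with rfl | rfl
    · have := Cn.al (N := N) (N.al b)
      rwa [h.al2 b hbV] at this
    · have := Cn.be (N := N) (N.be b)
      rwa [h.be2 b hbV] at this

lemma self_mem_cls {p : P} (hp : p ∈ N.V) : p ∈ N.cls p := mem_cls.2 ⟨hp, Cn.refl p⟩

lemma cls_cl (h : N.Ok) (p : P) : N.Cl (N.cls p) := by
  refine ⟨fun q hq => (mem_cls.1 hq).1, fun q hq => ?_, fun q hq => ?_⟩
  · obtain ⟨h1, h2⟩ := mem_cls.1 hq
    exact mem_cls.2 ⟨h.alV q h1, h2.trans (Cn.al q)⟩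
  · obtain ⟨h1, h2⟩ := mem_cls.1 hq
    exact mem_cls.2 ⟨h.beV q h1, h2.trans (Cn.be q)⟩

lemma cls_eq_of_mem (h : N.Ok) {p q : P} (hp : p ∈ N.V) (hq : q ∈ N.cls p) :
    N.cls q = N.cls p := by
  obtain ⟨h1, h2⟩ := mem_cls.1 hq
  ext r
  rw [mem_cls, mem_cls]
  exact ⟨fun k => ⟨k.1, h2.trans k.2⟩, fun k => ⟨k.1, (h2.symm h hp).trans k.2⟩⟩

lemma cls_disj (h : N.Ok) {p q : P} (hp : p ∈ N.V) (hq : q ∈ N.V) (hne : N.cls p ≠ N.cls q) :
    Disjoint (N.cls p) (N.cls q) := by
  rw [Finset.disjoint_left]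
  intro r hr hr'
  exact hne (by rw [← cls_eq_of_mem h hp hr, ← cls_eq_of_mem h hq hr'])

/-- a closed set all of whose ports are connected to `p` is the class of `p` -/
lemma cls_eq {C : Finset P} (hC : N.Cl C) {p : P} (hp : p ∈ C)
    (hc : ∀ q ∈ C, N.Cn p q) : N.cls p = C := by
  ext q
  rw [mem_cls]
  exact ⟨fun k => Cn.mem hC hp k.2, fun k => ⟨hC.sub k, hc q k⟩⟩

/-- classes contained in `C` -/
def classes (N : Net P) (C : Finset P) : Finset (Finset P) := C.image N.cls

lemma biUnion_classes {C : Finset P} (hC : N.Cl C) : (N.classes C).biUnion id = C := by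
  ext q
  simp only [Finset.mem_biUnion, classes, Finset.mem_image, id]
  constructor
  · rintro ⟨c, ⟨p, hp, rfl⟩, hq⟩
    exact Cn.mem hC hp (mem_cls.1 hq).2
  · intro hq
    exact ⟨N.cls q, ⟨q, hq, rfl⟩, self_mem_cls (hC.sub hq)⟩

/-- **product over the strands** -/
theorem z_classes (h : N.Ok) {C : Finset P} (hC : N.Cl C) :
    N.z C = ∏ c ∈ N.classes C, N.z c := by
  have k := z_biUnion (N := N) (N.classes C) id
    (fun c hc => by
      obtain ⟨p, _, rfl⟩ := Finset.mem_image.1 hc
      exact cls_cl h p)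
    (fun c hc d hd hne => by
      obtain ⟨p, hp, rfl⟩ := Finset.mem_image.1 hc
      obtain ⟨q, hq, rfl⟩ := Finset.mem_image.1 hd
      exact cls_disj h (hC.sub hp) (hC.sub hq) hne)
  rw [biUnion_classes hC] at k
  exact k.2

/-! ### the crude bound -/

lemma good_Cn {C B B' : Finset P} (hC : N.Cl C) (hB : N.good C B) (hB' : N.good C B')
    {p q : P} (hp : p ∈ C) (hpq : N.Cn p q) (e : p ∈ B ↔ p ∈ B') : q ∈ B ↔ q ∈ B' := by
  induction hpq with
  | refl => exact e
  | @tail b c hb hs ih =>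
    have hbC : b ∈ C := Cn.mem hC hp hb
    rcases hs with rfl | rfl
    · rw [(hB b hbC).1, (hB' b hbC).1, ih]
    · by_cases hbe : N.be b = b
      · rw [hbe]; exact ih
      · rw [(hB b hbC).2 hbe, (hB' b hbC).2 hbe, ih]

/-- **crude bound** : `X` meets every strand of `C` -/
theorem norm_z_le {C X : Finset P} (hC : N.Cl C) (hX : X ⊆ C)
    (hc : ∀ q ∈ C, ∃ p ∈ X, N.Cn p q) : ‖N.z C‖ ≤ 2 ^ X.card := by
  unfold z
  refine (norm_sum_le _ _).trans ?_
  have e1 : ∀ B ∈ C.powerset.filter (fun B => N.good C B), ‖ei (N.ph C B)‖ = 1 := fun B _ =>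
    Complex.norm_exp_ofReal_mul_I _
  rw [Finset.sum_congr rfl e1, Finset.sum_const, nsmul_eq_mul, mul_one]
  have e2 : (C.powerset.filter (fun B => N.good C B)).card ≤ X.powerset.card := by
    refine Finset.card_le_card_of_injOn (fun B => B ∩ X) (fun B _ => ?_) ?_
    · simp
    · intro B hB B' hB' e
      simp only [Finset.coe_filter, Finset.mem_powerset, Set.mem_ofPred_eq] at hB hB' e
      ext q
      by_cases hq : q ∈ C
      · obtain ⟨p, hp, hpq⟩ := hc q hq
        refine good_Cn hC hB.2 hB'.2 (hX hp) hpq ?_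
        have := congrArg (fun s => p ∈ s) e
        simpa [hp] using this
      · exact ⟨fun k => absurd (hB.1 k) hq, fun k => absurd (hB'.1 k) hq⟩
  rw [Finset.card_powerset] at e2
  exact_mod_cast e2

/-- every strand has `‖z‖ ≤ 2` -/
theorem norm_cls_le (h : N.Ok) {p : P} (hp : p ∈ N.V) : ‖N.z (N.cls p)‖ ≤ 2 := by
  have := norm_z_le (cls_cl h p) (X := {p}) (by
    rw [Finset.singleton_subset_iff]; exact self_mem_cls hp)
    (fun q hq => ⟨p, Finset.mem_singleton_self p, (mem_cls.1 hq).2⟩)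
  simpa using this

/-! ### walks -/

/-- next entering port -/
def g (N : Net P) (p : P) : P := N.be (N.al p)

/-- a walk : `l` = the ports through which the strand enters its tiles -/
inductive Wa (N : Net P) : P → P → List P → Prop
  | one (p : P) : Wa N p (N.al p) [p]
  | snoc {x q : P} {l : List P} : Wa N x q l → N.be q ≠ q → Wa N x (N.al (N.be q)) (l ++ [N.be q])

lemma it_mem (h : N.Ok) {x : P} (hx : x ∈ N.V) (i : ℕ) : N.g^[i] x ∈ N.V := by
  induction i with
  | zero => exact hx
  | succ i ih =>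
    rw [Function.iterate_succ_apply']
    exact h.beV _ (h.alV _ ih)

lemma Wa.data {x y : P} {l : List P} (w : N.Wa x y l) : ∃ n, l = (List.range (n + 1)).map
    (fun i => N.g^[i] x) ∧ y = N.al (N.g^[n] x) ∧
    ∀ i < n, N.be (N.al (N.g^[i] x)) ≠ N.al (N.g^[i] x) := by
  induction w with
  | one => exact ⟨0, by simp, rfl, fun i hi => absurd hi (Nat.not_lt_zero i)⟩
  | @snoc q l w hb ih =>
    obtain ⟨n, rfl, rfl, h3⟩ := ih
    refine ⟨n + 1, ?_, ?_, ?_⟩
    · rw [List.range_succ (n := n + 1), List.map_append, List.map_singleton,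
        Function.iterate_succ_apply']
      rfl
    · rw [Function.iterate_succ_apply']; rfl
    · intro i hi
      rcases Nat.lt_succ_iff_lt_or_eq.1 hi with h | h
      · exact h3 i h
      · rw [h]; exact hb

lemma Wa.of_it {x : P} (n : ℕ) (h : ∀ i < n, N.be (N.al (N.g^[i] x)) ≠ N.al (N.g^[i] x)) :
    N.Wa x (N.al (N.g^[n] x)) ((List.range (n + 1)).map fun i => N.g^[i] x) := by
  induction n with
  | zero => exact Wa.one x
  | succ n ih =>
    have := Wa.snoc (ih fun i hi => h i (by omega)) (h n (by omega))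
    rw [List.range_succ, List.map_append, List.map_singleton, Function.iterate_succ_apply']
    exact this

/-- the strand does not come back to a port of its own in the wrong direction -/
lemma it_ne (h : N.Ok) {x : P} (hx : x ∈ N.V) {n : ℕ}
    (hn : ∀ i < n, N.be (N.al (N.g^[i] x)) ≠ N.al (N.g^[i] x)) :
    ∀ i j, i ≤ n → j ≤ n → N.al (N.g^[i] x) ≠ N.g^[j] x := by
  have key : ∀ d i, i + d ≤ n → N.al (N.g^[i] x) ≠ N.g^[i + d] x := by
    intro d
    induction d using Nat.strong_induction_on with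
    | _ d ih =>
      intro i hi
      match d, ih, hi with
      | 0, _, _ => exact h.al1 _ (it_mem h hx i)
      | 1, _, hi =>
        intro e
        rw [Function.iterate_succ_apply'] at e
        exact hn i (by omega) e.symm
      | d + 2, ih, hi =>
        intro e
        have e1 : N.g^[i + (d + 2)] x = N.be (N.al (N.g^[i + (d + 1)] x)) := by
          rw [show i + (d + 2) = (i + (d + 1)) + 1 by omega, Function.iterate_succ_apply']
          rfl
        rw [e1] at e
        have e2 : N.g^[i + 1] x = N.al (N.g^[i + (d + 1)] x) := by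
          rw [Function.iterate_succ_apply']
          show N.be (N.al (N.g^[i] x)) = _
          rw [e, h.be2 _ (h.alV _ (it_mem h hx _))]
        have e3 : N.al (N.g^[i + 1] x) = N.g^[i + 1 + d] x := by
          rw [e2, h.al2 _ (it_mem h hx _)]
          congr 1
          omega
        exact ih d (by omega) (i + 1) (by omega) e3
  intro i j hi hj e
  rcases Nat.le_total i j with hij | hij
  · obtain ⟨d, rfl⟩ := Nat.exists_eq_add_of_le hij
    exact key d i hj e
  · obtain ⟨d, rfl⟩ := Nat.exists_eq_add_of_le hij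
    refine key d j hi ?_
    rw [← e, h.al2 _ (it_mem h hx _)]

lemma g_inj (h : N.Ok) {a b : P} (ha : a ∈ N.V) (hb : b ∈ N.V) (e : N.g a = N.g b) : a = b := by
  unfold g at e
  have e1 : N.al a = N.al b := by
    rw [← h.be2 _ (h.alV a ha), ← h.be2 _ (h.alV b hb), e]
  rw [← h.al2 a ha, ← h.al2 b hb, e1]

lemma it_cancel (h : N.Ok) {x : P} (hx : x ∈ N.V) (i d : ℕ)
    (e : N.g^[i] x = N.g^[i + d] x) : x = N.g^[d] x := by
  induction i with
  | zero => simpa using e
  | succ i ih =>
    apply ih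
    rw [show i + 1 + d = (i + d) + 1 by omega, Function.iterate_succ_apply',
      Function.iterate_succ_apply'] at e
    exact g_inj h (it_mem h hx _) (it_mem h hx _) e

/-- from an end the strand never repeats a port -/
lemma it_inj (h : N.Ok) {x : P} (hx : x ∈ N.V) (hxb : N.be x = x) {n : ℕ}
    (hn : ∀ i < n, N.be (N.al (N.g^[i] x)) ≠ N.al (N.g^[i] x)) :
    ∀ i j, i ≤ n → j ≤ n → N.g^[i] x = N.g^[j] x → i = j := by
  have key : ∀ i d, i + (d + 1) ≤ n → N.g^[i] x ≠ N.g^[i + (d + 1)] x := by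
    intro i d hd e
    have e1 := it_cancel h hx i (d + 1) e
    rw [Function.iterate_succ_apply'] at e1
    have e2 : N.al (N.g^[d] x) = x := by
      have : N.be (N.be (N.al (N.g^[d] x))) = N.al (N.g^[d] x) :=
        h.be2 _ (h.alV _ (it_mem h hx d))
      rw [← this]
      show N.be (N.g (N.g^[d] x)) = x
      rw [← e1, hxb]
    exact it_ne h hx hn d 0 (by omega) (by omega) e2
  intro i j hi hj e
  rcases Nat.lt_trichotomy i j with hij | hij | hij
  · obtain ⟨d, rfl⟩ := Nat.exists_eq_add_of_lt hij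
    exact absurd e (key i d (by omega))
  · exact hij
  · obtain ⟨d, rfl⟩ := Nat.exists_eq_add_of_lt hij
    exact absurd e.symm (key j d (by omega))

/-- ports through which the strand enters -/
def Iw (N : Net P) (x : P) (n : ℕ) : Finset P := (Finset.range (n + 1)).image fun i => N.g^[i] x

/-- ports through which the strand leaves -/
def Ow (N : Net P) (x : P) (n : ℕ) : Finset P :=
  (Finset.range (n + 1)).image fun i => N.al (N.g^[i] x)

lemma mem_Iw {x p : P} {n : ℕ} : p ∈ N.Iw x n ↔ ∃ i ≤ n, N.g^[i] x = p := by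
  simp [Iw]

lemma mem_Ow {x p : P} {n : ℕ} : p ∈ N.Ow x n ↔ ∃ i ≤ n, N.al (N.g^[i] x) = p := by
  simp [Ow]

/-- closed strand data: an arc between two cut ends, or a loop of minimal length -/
def Strand (N : Net P) (x : P) (n : ℕ) : Prop :=
  (∀ i < n, N.be (N.al (N.g^[i] x)) ≠ N.al (N.g^[i] x)) ∧
  ((N.be x = x ∧ N.be (N.al (N.g^[n] x)) = N.al (N.g^[n] x)) ∨
    (N.be (N.al (N.g^[n] x)) = x ∧ ∀ i < n, N.be (N.al (N.g^[i] x)) ≠ x))

lemma Strand.inj (h : N.Ok) {x : P} (hx : x ∈ N.V) {n : ℕ} (hs : N.Strand x n) :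
    ∀ i j, i ≤ n → j ≤ n → N.g^[i] x = N.g^[j] x → i = j := by
  obtain ⟨hn, ⟨h1, _⟩ | ⟨h1, h2⟩⟩ := hs
  · exact it_inj h hx h1 hn
  · have key : ∀ i d, i + (d + 1) ≤ n → N.g^[i] x ≠ N.g^[i + (d + 1)] x := by
      intro i d hd e
      have e1 := it_cancel h hx i (d + 1) e
      rw [Function.iterate_succ_apply'] at e1
      exact h2 d (by omega) e1.symm
    intro i j hi hj e
    rcases Nat.lt_trichotomy i j with hij | hij | hij
    · obtain ⟨d, rfl⟩ := Nat.exists_eq_add_of_lt hij
      exact absurd e (key i d (by omega))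
    · exact hij
    · obtain ⟨d, rfl⟩ := Nat.exists_eq_add_of_lt hij
      exact absurd e.symm (key j d (by omega))

lemma Strand.disj (h : N.Ok) {x : P} (hx : x ∈ N.V) {n : ℕ} (hs : N.Strand x n) :
    Disjoint (N.Iw x n) (N.Ow x n) := by
  rw [Finset.disjoint_left]
  intro p hp hp'
  obtain ⟨i, hi, rfl⟩ := mem_Iw.1 hp
  obtain ⟨j, hj, e⟩ := mem_Ow.1 hp'
  exact it_ne h hx hs.1 j i hj hi e

/-- an exit port is cut or leads to an entering port -/
lemma Strand.be_O {x : P} {n : ℕ} (hs : N.Strand x n) {p : P}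
    (hp : p ∈ N.Ow x n) : N.be p = p ∨ N.be p ∈ N.Iw x n := by
  obtain ⟨i, hi, rfl⟩ := mem_Ow.1 hp
  rcases Nat.lt_or_ge i n with hin | hin
  · refine Or.inr (mem_Iw.2 ⟨i + 1, hin, ?_⟩)
    rw [Function.iterate_succ_apply']
    rfl
  · obtain rfl : i = n := by omega
    rcases hs.2 with ⟨_, h2⟩ | ⟨h1, _⟩
    · exact Or.inl h2
    · exact Or.inr (mem_Iw.2 ⟨0, by omega, h1.symm⟩)

lemma Strand.be_I (h : N.Ok) {x : P} (hx : x ∈ N.V) {n : ℕ} (hs : N.Strand x n) {p : P}
    (hp : p ∈ N.Iw x n) : N.be p = p ∨ N.be p ∈ N.Ow x n := by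
  obtain ⟨i, hi, rfl⟩ := mem_Iw.1 hp
  cases i with
  | zero =>
    rcases hs.2 with ⟨h1, _⟩ | ⟨h1, _⟩
    · exact Or.inl h1
    · refine Or.inr (mem_Ow.2 ⟨n, le_rfl, ?_⟩)
      rw [Function.iterate_zero, id, ← h1, h.be2 _ (h.alV _ (it_mem h (h1 ▸ hx) n)), h1]
  | succ i =>
    refine Or.inr (mem_Ow.2 ⟨i, by omega, ?_⟩)
    rw [Function.iterate_succ_apply']
    exact (h.be2 _ (h.alV _ (it_mem h hx i))).symm

lemma al_I {x p : P} {n : ℕ} (hp : p ∈ N.Iw x n) : N.al p ∈ N.Ow x n := by
  obtain ⟨i, hi, rfl⟩ := mem_Iw.1 hp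
  exact mem_Ow.2 ⟨i, hi, rfl⟩

lemma al_O (h : N.Ok) {x p : P} (hx : x ∈ N.V) {n : ℕ} (hp : p ∈ N.Ow x n) :
    N.al p ∈ N.Iw x n := by
  obtain ⟨i, hi, rfl⟩ := mem_Ow.1 hp
  exact mem_Iw.2 ⟨i, hi, (h.al2 _ (it_mem h hx i)).symm⟩

lemma Strand.cl (h : N.Ok) {x : P} (hx : x ∈ N.V) {n : ℕ} (hs : N.Strand x n) :
    N.Cl (N.Iw x n ∪ N.Ow x n) := by
  refine ⟨fun p hp => ?_, fun p hp => ?_, fun p hp => ?_⟩
  · rcases Finset.mem_union.1 hp with hp | hp
    · obtain ⟨i, _, rfl⟩ := mem_Iw.1 hp
      exact it_mem h hx i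
    · obtain ⟨i, _, rfl⟩ := mem_Ow.1 hp
      exact h.alV _ (it_mem h hx i)
  · rcases Finset.mem_union.1 hp with hp | hp
    · exact Finset.mem_union_right _ (al_I hp)
    · exact Finset.mem_union_left _ (al_O h hx hp)
  · rcases Finset.mem_union.1 hp with hp | hp
    · rcases hs.be_I h hx hp with k | k
      · rw [k]; exact Finset.mem_union_left _ hp
      · exact Finset.mem_union_right _ k
    · rcases hs.be_O hp with k | k
      · rw [k]; exact Finset.mem_union_right _ hp
      · exact Finset.mem_union_left _ k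

lemma Cn_it (x : P) (i : ℕ) : N.Cn x (N.g^[i] x) := by
  induction i with
  | zero => exact Cn.refl _
  | succ i ih =>
    rw [Function.iterate_succ_apply']
    exact (ih.trans (Cn.al _)).trans (Cn.be _)

/-- the class of a strand is exactly the set of its ports -/
theorem Strand.cls (h : N.Ok) {x : P} (hx : x ∈ N.V) {n : ℕ} (hs : N.Strand x n) :
    N.cls x = N.Iw x n ∪ N.Ow x n := by
  refine cls_eq (hs.cl h hx) (Finset.mem_union_left _ (mem_Iw.2 ⟨0, by omega, rfl⟩)) ?_
  intro q hq
  rcases Finset.mem_union.1 hq with hq | hq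
  · obtain ⟨i, _, rfl⟩ := mem_Iw.1 hq
    exact Cn_it x i
  · obtain ⟨i, _, rfl⟩ := mem_Ow.1 hq
    exact (Cn_it x i).trans (Cn.al _)

/-- phase along a walk -/
def W (N : Net P) (x : P) (n : ℕ) : ℝ :=
  ∑ i ∈ Finset.range (n + 1), (N.om (N.al (N.g^[i] x)) - N.om (N.g^[i] x))

/-- **value of a strand** -/
theorem Strand.z (h : N.Ok) {x : P} (hx : x ∈ N.V) {n : ℕ} (hs : N.Strand x n) :
    N.z (N.cls x) = 2 * Real.cos (N.W x n) := by
  have hcl := hs.cl h hx
  have hd := hs.disj h hx
  have hI : N.good (N.Iw x n ∪ N.Ow x n) (N.Iw x n) := by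
    intro p hp
    rcases Finset.mem_union.1 hp with hp | hp
    · refine ⟨iff_of_false (Finset.disjoint_right.1 hd (al_I hp)) (not_not.2 hp), fun k => ?_⟩
      rcases hs.be_I h hx hp with k' | k'
      · exact absurd k' k
      · exact iff_of_false (Finset.disjoint_right.1 hd k') (not_not.2 hp)
    · have hp' := Finset.disjoint_right.1 hd hp
      refine ⟨iff_of_true (al_O h hx hp) hp', fun k => ?_⟩
      rcases hs.be_O hp with k' | k'
      · exact absurd k' k
      · exact iff_of_true k' hp'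
  have hO : N.good (N.Iw x n ∪ N.Ow x n) (N.Ow x n) := by
    intro p hp
    rcases Finset.mem_union.1 hp with hp | hp
    · have hp' := Finset.disjoint_left.1 hd hp
      refine ⟨iff_of_true (al_I hp) hp', fun k => ?_⟩
      rcases hs.be_I h hx hp with k' | k'
      · exact absurd k' k
      · exact iff_of_true k' hp'
    · refine ⟨iff_of_false (Finset.disjoint_left.1 hd (al_O h hx hp)) (not_not.2 hp), fun k => ?_⟩
      rcases hs.be_O hp with k' | k'
      · exact absurd k' k
      · exact iff_of_false (Finset.disjoint_left.1 hd k') (not_not.2 hp)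
  have hxI : x ∈ N.Iw x n := mem_Iw.2 ⟨0, by omega, rfl⟩
  have hne : N.Iw x n ≠ N.Ow x n := fun e => Finset.disjoint_left.1 hd hxI (e ▸ hxI)
  have hcls := hs.cls h hx
  have hset : (N.Iw x n ∪ N.Ow x n).powerset.filter
      (fun B => N.good (N.Iw x n ∪ N.Ow x n) B) = {N.Iw x n, N.Ow x n} := by
    ext B
    simp only [Finset.mem_filter, Finset.mem_powerset, Finset.mem_insert, Finset.mem_singleton]
    constructor
    · rintro ⟨hB, hg⟩
      have hcn : ∀ q ∈ N.Iw x n ∪ N.Ow x n, N.Cn x q := by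
        intro q hq
        rw [← hcls] at hq
        exact (mem_cls.1 hq).2
      by_cases hxB : x ∈ B
      · left
        ext q
        by_cases hq : q ∈ N.Iw x n ∪ N.Ow x n
        · exact good_Cn hcl hg hI (Finset.mem_union_left _ hxI) (hcn q hq)
            (iff_of_true hxB hxI)
        · exact iff_of_false (fun k => hq (hB k)) fun k => hq (Finset.mem_union_left _ k)
      · right
        ext q
        by_cases hq : q ∈ N.Iw x n ∪ N.Ow x n
        · exact good_Cn hcl hg hO (Finset.mem_union_left _ hxI) (hcn q hq)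
            (iff_of_false hxB (Finset.disjoint_left.1 hd hxI))
        · exact iff_of_false (fun k => hq (hB k)) fun k => hq (Finset.mem_union_right _ k)
    · rintro (rfl | rfl)
      · exact ⟨Finset.subset_union_left, hI⟩
      · exact ⟨Finset.subset_union_right, hO⟩
  have hW : N.W x n = ∑ p ∈ N.Ow x n, N.om p - ∑ p ∈ N.Iw x n, N.om p := by
    have inj := hs.inj h hx
    unfold W Ow Iw
    rw [Finset.sum_sub_distrib, Finset.sum_image, Finset.sum_image]
    · intro i hi j hj e
      simp only [Finset.coe_range, Set.mem_Iio] at hi hj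
      exact inj i j (by omega) (by omega) e
    · intro i hi j hj e
      simp only [Finset.coe_range, Set.mem_Iio] at hi hj
      refine inj i j (by omega) (by omega) ?_
      have := congrArg N.al e
      rwa [h.al2 _ (it_mem h hx i), h.al2 _ (it_mem h hx j)] at this
  have p1 : N.ph (N.Iw x n ∪ N.Ow x n) (N.Ow x n) = N.W x n := by
    rw [hW]
    unfold ph
    rw [Finset.sum_union hd]
    have s1 : ∑ p ∈ N.Iw x n, N.om p * sg (decide (p ∈ N.Ow x n)) = -∑ p ∈ N.Iw x n, N.om p := by
      rw [← Finset.sum_neg_distrib]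
      refine Finset.sum_congr rfl fun p hp => ?_
      rw [decide_eq_false (Finset.disjoint_left.1 hd hp), sg_false]
      ring
    have s2 : ∑ p ∈ N.Ow x n, N.om p * sg (decide (p ∈ N.Ow x n)) = ∑ p ∈ N.Ow x n, N.om p := by
      refine Finset.sum_congr rfl fun p hp => ?_
      rw [decide_eq_true hp, sg_true]
      ring
    rw [s1, s2]
    ring
  have p2 : N.ph (N.Iw x n ∪ N.Ow x n) (N.Iw x n) = -N.W x n := by
    rw [hW]
    unfold ph
    rw [Finset.sum_union hd]
    have s1 : ∑ p ∈ N.Iw x n, N.om p * sg (decide (p ∈ N.Iw x n)) = ∑ p ∈ N.Iw x n, N.om p := by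
      refine Finset.sum_congr rfl fun p hp => ?_
      rw [decide_eq_true hp, sg_true]
      ring
    have s2 : ∑ p ∈ N.Ow x n, N.om p * sg (decide (p ∈ N.Iw x n)) = -∑ p ∈ N.Ow x n, N.om p := by
      rw [← Finset.sum_neg_distrib]
      refine Finset.sum_congr rfl fun p hp => ?_
      rw [decide_eq_false (Finset.disjoint_right.1 hd hp), sg_false]
      ring
    rw [s1, s2]
    ring
  rw [hcls]
  unfold Net.z
  rw [hset, Finset.sum_pair hne, p1, p2, add_comm, ei_add_neg]

/-! ### every class is a strand -/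

lemma exists_fail (h : N.Ok) {y : P} (hy : y ∈ N.V) (hb : N.be y = y) :
    ∃ n, N.be (N.al (N.g^[n] y)) = N.al (N.g^[n] y) := by
  by_contra hc
  push Not at hc
  have hinj : Function.Injective fun i : ℕ => (⟨N.g^[i] y, it_mem h hy i⟩ : N.V) := by
    intro i j e
    have e' : N.g^[i] y = N.g^[j] y := congrArg Subtype.val e
    exact it_inj h hy hb (n := max i j) (fun k _ => hc k) i j (le_max_left _ _) (le_max_right _ _) e'
  exact not_injective_infinite_finite _ hinj

/-- **every port is on an arc between two cut ends or on a loop** -/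
theorem exists_strand (h : N.Ok) {p : P} (hp : p ∈ N.V) :
    ∃ x ∈ N.V, ∃ n, N.Strand x n ∧ N.cls p = N.cls x := by
  classical
  by_cases hA : ∃ i, N.be (N.al (N.g^[i] p)) = N.al (N.g^[i] p)
  · obtain ⟨i, hi⟩ := hA
    set y := N.al (N.g^[i] p) with hy
    have hyV : y ∈ N.V := h.alV _ (it_mem h hp i)
    have hex := exists_fail h hyV hi
    refine ⟨y, hyV, Nat.find hex, ⟨fun j hj => Nat.find_min hex hj, Or.inl ⟨hi, Nat.find_spec hex⟩⟩,
      ?_⟩
    have : y ∈ N.cls p := mem_cls.2 ⟨hyV, (Cn_it p i).trans (Cn.al _)⟩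
    exact (cls_eq_of_mem h hp this).symm
  · push Not at hA
    have hex : ∃ m, N.be (N.al (N.g^[m] p)) = p := by
      by_contra hc
      push Not at hc
      have hinj : Function.Injective fun i : ℕ => (⟨N.g^[i] p, it_mem h hp i⟩ : N.V) := by
        have key : ∀ i d, N.g^[i] p ≠ N.g^[i + (d + 1)] p := by
          intro i d e
          have e1 := it_cancel h hp i (d + 1) e
          rw [Function.iterate_succ_apply'] at e1
          exact hc d e1.symm
        intro i j e
        have e' : N.g^[i] p = N.g^[j] p := congrArg Subtype.val e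
        rcases Nat.lt_trichotomy i j with hij | hij | hij
        · obtain ⟨d, rfl⟩ := Nat.exists_eq_add_of_lt hij
          exact absurd e' (key i d)
        · exact hij
        · obtain ⟨d, rfl⟩ := Nat.exists_eq_add_of_lt hij
          exact absurd e'.symm (key j d)
      exact not_injective_infinite_finite _ hinj
    exact ⟨p, hp, Nat.find hex, ⟨fun j _ => hA j, Or.inr ⟨Nat.find_spec hex,
      fun j hj => Nat.find_min hex hj⟩⟩, rfl⟩

/-- every class of a closed set is the class of an arc or of a loop -/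
theorem classes_strand (h : N.Ok) {C : Finset P} (hC : N.Cl C) {c : Finset P}
    (hc : c ∈ N.classes C) : ∃ x ∈ c, ∃ n, N.Strand x n ∧ c = N.cls x := by
  obtain ⟨p, hp, rfl⟩ := Finset.mem_image.1 hc
  obtain ⟨x, hx, n, hs, e⟩ := exists_strand h (hC.sub hp)
  exact ⟨x, e ▸ self_mem_cls hx, n, hs, e⟩

lemma classes_sub (h : N.Ok) {C : Finset P} (hC : N.Cl C) {c : Finset P}
    (hc : c ∈ N.classes C) : c ⊆ C ∧ c.Nonempty ∧ N.Cl c := by
  obtain ⟨p, hp, rfl⟩ := Finset.mem_image.1 hc
  exact ⟨fun q hq => Cn.mem hC hp (mem_cls.1 hq).2, ⟨p, self_mem_cls (hC.sub hp)⟩, cls_cl h p⟩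


/-! ### walks as lists -/

/-- phase of a list of entering ports -/
def wl (N : Net P) (l : List P) : ℝ := (l.map fun p => N.om (N.al p) - N.om p).sum

lemma list_sum_range (f : ℕ → ℝ) (n : ℕ) : ((List.range n).map f).sum =
    ∑ i ∈ Finset.range n, f i := by
  induction n with
  | zero => simp
  | succ n ih => rw [List.range_succ, List.map_append, List.sum_append, ih, Finset.sum_range_succ]; simp

lemma wl_eq (x : P) (n : ℕ) : N.wl ((List.range (n + 1)).map fun i => N.g^[i] x) = N.W x n := by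
  unfold wl W
  rw [List.map_map, list_sum_range]
  rfl

lemma list_Iw (x : P) (n : ℕ) : ((List.range (n + 1)).map fun i => N.g^[i] x).toFinset =
    N.Iw x n := by
  ext p
  rw [List.mem_toFinset, List.mem_map, mem_Iw]
  exact exists_congr fun i => and_congr_left fun _ => by rw [List.mem_range, Nat.lt_succ_iff]

lemma list_Ow (x : P) (n : ℕ) :
    (((List.range (n + 1)).map fun i => N.g^[i] x).map N.al).toFinset = N.Ow x n := by
  ext p
  rw [List.mem_toFinset, List.map_map, List.mem_map, mem_Ow]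
  exact exists_congr fun i => and_congr_left fun _ => by rw [List.mem_range, Nat.lt_succ_iff]

/-- **arc between two cut ends** : its class and its value -/
theorem z_arc (h : N.Ok) {x y : P} (hx : x ∈ N.V) {l : List P} (w : N.Wa x y l)
    (h1 : N.be x = x) (h2 : N.be y = y) : l.Nodup ∧ N.cls x = l.toFinset ∪ (l.map N.al).toFinset ∧
      N.z (N.cls x) = 2 * Real.cos (N.wl l) := by
  obtain ⟨n, rfl, rfl, h3⟩ := w.data
  have hs : N.Strand x n := ⟨h3, Or.inl ⟨h1, h2⟩⟩
  refine ⟨?_, ?_, ?_⟩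
  · refine List.Nodup.map_on (fun i hi j hj e => ?_) List.nodup_range
    rw [List.mem_range] at hi hj
    exact hs.inj h hx i j (by omega) (by omega) e
  · rw [list_Iw, list_Ow]; exact hs.cls h hx
  · rw [wl_eq]; exact hs.z h hx

/-- **loop** -/
theorem z_loop (h : N.Ok) {x y : P} (hx : x ∈ N.V) {l : List P} (w : N.Wa x y l)
    (h1 : N.be y = x) (hl : l.Nodup) : N.cls x = l.toFinset ∪ (l.map N.al).toFinset ∧
      N.z (N.cls x) = 2 * Real.cos (N.wl l) := by
  obtain ⟨n, rfl, rfl, h3⟩ := w.data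
  have hs : N.Strand x n := by
    refine ⟨h3, Or.inr ⟨h1, fun i hi e => ?_⟩⟩
    have e1 : N.g^[i + 1] x = N.g^[0] x := by rw [Function.iterate_succ_apply']; exact e
    have := List.inj_on_of_nodup_map hl (List.mem_range.2 (by omega : i + 1 < n + 1))
      (List.mem_range.2 (by omega : 0 < n + 1)) e1
    omega
  refine ⟨?_, ?_⟩
  · rw [list_Iw, list_Ow]; exact hs.cls h hx
  · rw [wl_eq]; exact hs.z h hx

/-- **every class has the form of `z_arc` or of `z_loop`** -/
theorem exists_walk (h : N.Ok) {p : P} (hp : p ∈ N.V) : ∃ x ∈ N.V, ∃ y l, N.Wa x y l ∧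
    l.Nodup ∧ N.cls p = N.cls x ∧ ((N.be x = x ∧ N.be y = y) ∨ N.be y = x) := by
  obtain ⟨x, hx, n, hs, e⟩ := exists_strand h hp
  refine ⟨x, hx, _, _, Wa.of_it n hs.1, ?_, e, ?_⟩
  · refine List.Nodup.map_on (fun i hi j hj e => ?_) List.nodup_range
    rw [List.mem_range] at hi hj
    exact hs.inj h hx i j (by omega) (by omega) e
  · rcases hs.2 with k | k
    · exact Or.inl k
    · exact Or.inr k.1

/-- the values are real -/
lemma z_real (h : N.Ok) {C : Finset P} (hC : N.Cl C) : ∃ r : ℝ, N.z C = r := by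
  have key : ∀ s ⊆ N.classes C, ∃ r : ℝ, ∏ c ∈ s, N.z c = r := by
    intro s
    induction s using Finset.induction_on with
    | empty => exact fun _ => ⟨1, by simp⟩
    | insert a s ha ih =>
      intro hs
      obtain ⟨r, hr⟩ := ih fun x hx => hs (Finset.mem_insert_of_mem hx)
      obtain ⟨x, hx, n, hst, e⟩ := classes_strand h hC (hs (Finset.mem_insert_self a s))
      have hxV : x ∈ N.V := hC.sub ((classes_sub h hC (hs (Finset.mem_insert_self a s))).1 hx)
      rw [Finset.prod_insert ha, hr, e, hst.z h hxV]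
      exact ⟨2 * Real.cos (N.W x n) * r, by push_cast; rfl⟩
  obtain ⟨r, hr⟩ := key _ (Finset.Subset.refl _)
  exact ⟨r, by rw [z_classes h hC, hr]⟩

end Net

end Crest.Agent.R158.Ad350
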