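import Crest.Agent.R158.Sw0_300

/-!
# R158, patches (helper266), file Pt1: strands as walks through the tiles

Ports `T × ZMod 4` of an arbitrary environment, glueing relation `G`, splitting `s : T → Bool`
(`thru`, `tn` of `Sw0_300`).

* `pass s p` : the port through which the strand that enters through `p` leaves the tile
* `Wk s G x y l` : the strand that enters through `x` leaves through `y` after entering the tiles
  through the ports of `l`
* `tt s l` : literal clockwise turning (quarter turns) of the strand
* `Glu G` : symmetric, functional
* `Wk.det`, `Wk.prefix`, `Wk.trans`, `Wk.reverse`, `tt_reverse`, `Wk.map`, `Wk.comap`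
* `Cl s G l` : closed strand (cyclic, each port entered once)
-/

set_option autoImplicit false
set_option linter.unusedVariables false
set_option linter.unusedSectionVars false

namespace Crest.Agent.R158.Pt266

open Crest.Agent.R158.Sw300

section

variable {T : Type*}

/-- the port through which the strand leaves the tile -/
def pass (s : T → Bool) (p : T × ZMod 4) : T × ZMod 4 := (p.1, thru (s p.1) p.2)

@[simp] lemma pass_fst (s : T → Bool) (p : T × ZMod 4) : (pass s p).1 = p.1 := rfl

@[simp] lemma pass_pass (s : T → Bool) (p : T × ZMod 4) : pass s (pass s p) = p := by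
  rcases p with ⟨t, d⟩
  simp only [pass]
  rw [thru_thru]


lemma pass_inj (s : T → Bool) {p q : T × ZMod 4} (h : pass s p = pass s q) : p = q := by
  rw [← pass_pass s p, h, pass_pass]

/-- one step of the list of entered ports -/
def Stp (s : T → Bool) (G : T × ZMod 4 → T × ZMod 4 → Prop) (a b : T × ZMod 4) : Prop :=
  G (pass s a) b

/-- strands -/
inductive Wk (s : T → Bool) (G : T × ZMod 4 → T × ZMod 4 → Prop) (x : T × ZMod 4) :
    T × ZMod 4 → List (T × ZMod 4) → Prop
  | one : Wk s G x (pass s x) [x]
  | snoc {q r : T × ZMod 4} {l : List (T × ZMod 4)} : Wk s G x q l → G q r →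
      Wk s G x (pass s r) (l ++ [r])

/-- symmetric functional glueing relation -/
structure Glu (G : T × ZMod 4 → T × ZMod 4 → Prop) : Prop where
  sym : ∀ a b, G a b → G b a
  fn : ∀ a b b', G a b → G a b' → b = b'

/-- unglued port -/
def Fr (G : T × ZMod 4 → T × ZMod 4 → Prop) (a : T × ZMod 4) : Prop := ∀ b, ¬ G a b

/-- clockwise turning of a list of entered ports -/
def tt (s : T → Bool) (l : List (T × ZMod 4)) : ℤ := (l.map fun p => tn (s p.1) p.2).sum

@[simp] lemma tt_nil (s : T → Bool) : tt s [] = 0 := rfl
@[simp] lemma tt_cons (s : T → Bool) (p : T × ZMod 4) (l : List (T × ZMod 4)) :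
    tt s (p :: l) = tn (s p.1) p.2 + tt s l := by simp [tt]
@[simp] lemma tt_append (s : T → Bool) (l l' : List (T × ZMod 4)) :
    tt s (l ++ l') = tt s l + tt s l' := by simp [tt]

/-- the reversed strand -/
def rv (s : T → Bool) (l : List (T × ZMod 4)) : List (T × ZMod 4) := (l.map (pass s)).reverse

@[simp] lemma rv_rv (s : T → Bool) (l : List (T × ZMod 4)) : rv s (rv s l) = l := by
  simp only [rv, List.map_reverse, List.reverse_reverse, List.map_map]
  conv_rhs => rw [← List.map_id l]
  congr 1
  funext p
  simp

lemma tt_rv (s : T → Bool) (l : List (T × ZMod 4)) : tt s (rv s l) = - tt s l := by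
  induction l with
  | nil => simp [rv]
  | cons p l ih =>
    have e : rv s (p :: l) = rv s l ++ [pass s p] := by simp [rv]
    rw [e, tt_append, ih, tt_cons, tt_cons, tt_nil]
    simp only [pass, tn_thru]
    ring

variable {s : T → Bool} {G : T × ZMod 4 → T × ZMod 4 → Prop}

lemma Wk.iff {x y : T × ZMod 4} {l : List (T × ZMod 4)} : Wk s G x y l ↔
    List.IsChain (Stp s G) l ∧ l.head? = some x ∧ l.getLast?.map (pass s) = some y := by
  constructor
  · intro h
    induction h with
    | one => simp
    | @snoc q r l h1 h2 ih =>
      obtain ⟨h3, h4, h5⟩ := ih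
      refine ⟨?_, ?_, ?_⟩
      · rw [List.isChain_append]
        refine ⟨h3, by simp, ?_⟩
        intro a ha b hb
        simp only [List.head?_cons, Option.mem_def, Option.some.injEq] at ha hb
        subst hb
        rw [ha] at h5
        simp only [Option.map_some, Option.some.injEq] at h5
        show G (pass s a) r
        rw [h5]
        exact h2
      · cases l with
        | nil => simp at h4
        | cons a m => simpa using h4
      · simp
  · rintro ⟨h1, h2, h3⟩
    induction l using List.reverseRecOn generalizing y with
    | nil => simp at h2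
    | append_singleton l r ih =>
      simp only [List.getLast?_append, List.getLast?_singleton, Option.some_or, Option.map_some,
        Option.some.injEq] at h3
      subst h3
      cases l with
      | nil =>
        simp only [List.nil_append, List.head?_cons, Option.some.injEq] at h2
        subst h2
        exact .one
      | cons a m =>
        rw [List.isChain_append] at h1
        obtain ⟨h4, -, h5⟩ := h1
        have h6 : ((a :: m).getLast?).isSome := by simp
        obtain ⟨z, hz⟩ := Option.isSome_iff_exists.1 h6
        have h7 := h5 z (by simpa using hz) r (by simp)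
        have h8 : Wk s G x (pass s z) (a :: m) := ih h4 (by simpa using h2) (by rw [hz]; rfl)
        exact h8.snoc h7

lemma Wk.ne_nil {x y : T × ZMod 4} {l : List (T × ZMod 4)} (h : Wk s G x y l) : l ≠ [] := by
  cases h <;> simp

lemma Wk.chain {x y : T × ZMod 4} {l : List (T × ZMod 4)} (h : Wk s G x y l) :
    List.IsChain (Stp s G) l := (Wk.iff.1 h).1

lemma Wk.head {x y : T × ZMod 4} {l : List (T × ZMod 4)} (h : Wk s G x y l) : l.head? = some x :=
  (Wk.iff.1 h).2.1

lemma Wk.last {x y : T × ZMod 4} {l : List (T × ZMod 4)} (h : Wk s G x y l) :
    l.getLast? = some (pass s y) := by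
  have := (Wk.iff.1 h).2.2
  rw [Option.map_eq_some_iff] at this
  obtain ⟨z, h1, h2⟩ := this
  rw [h1, ← h2, pass_pass]

lemma Wk.exists_cons {x y : T × ZMod 4} {l : List (T × ZMod 4)} (h : Wk s G x y l) :
    ∃ m, l = x :: m := by
  have := h.head
  cases l with
  | nil => simp at this
  | cons a m =>
    simp only [List.head?_cons, Option.some.injEq] at this
    exact ⟨m, by rw [this]⟩

lemma Wk.mem_left {x y : T × ZMod 4} {l : List (T × ZMod 4)} (h : Wk s G x y l) : x ∈ l := by
  obtain ⟨m, rfl⟩ := h.exists_cons
  simp

lemma Wk.mem_right {x y : T × ZMod 4} {l : List (T × ZMod 4)} (h : Wk s G x y l) :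
    pass s y ∈ l := List.mem_of_getLast? h.last

/-- concatenation through a glueing -/
theorem Wk.trans {x q r y : T × ZMod 4} {l l' : List (T × ZMod 4)} (h1 : Wk s G x q l)
    (h2 : G q r) (h3 : Wk s G r y l') : Wk s G x y (l ++ l') := by
  induction h3 with
  | one => exact h1.snoc h2
  | snoc _ h4 ih =>
    rw [← List.append_assoc]
    exact ih.snoc h4

theorem Wk.cons {x r y : T × ZMod 4} {l : List (T × ZMod 4)} (h2 : G (pass s x) r)
    (h3 : Wk s G r y l) : Wk s G x y (x :: l) :=
  Wk.trans (Wk.one (s := s) (G := G) (x := x)) h2 h3

/-- the reversed strand -/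
theorem Wk.reverse (hs : ∀ a b, G a b → G b a) {x y : T × ZMod 4} {l : List (T × ZMod 4)}
    (h : Wk s G x y l) : Wk s G y x (rv s l) := by
  induction h with
  | one =>
    have := Wk.one (s := s) (G := G) (x := pass s x)
    simpa [rv] using this
  | @snoc q r l h1 h2 ih =>
    have e : rv s (l ++ [r]) = pass s r :: rv s l := by simp [rv]
    rw [e]
    exact Wk.cons (by rw [pass_pass]; exact hs _ _ h2) ih

lemma Wk.mono {G' : T × ZMod 4 → T × ZMod 4 → Prop} (hG : ∀ a b, G a b → G' a b)
    {x y : T × ZMod 4} {l : List (T × ZMod 4)} (h : Wk s G x y l) : Wk s G' x y l := by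
  induction h with
  | one => exact .one
  | snoc _ h2 ih => exact ih.snoc (hG _ _ h2)

/-- change of the glueing relation on the tiles of the strand -/
lemma Wk.congr {G' : T × ZMod 4 → T × ZMod 4 → Prop} {x y : T × ZMod 4} {l : List (T × ZMod 4)}
    (h : Wk s G x y l)
    (hG : ∀ a b, a.1 ∈ l.map Prod.fst → b.1 ∈ l.map Prod.fst → G a b → G' a b) :
    Wk s G' x y l := by
  induction h with
  | one => exact .one
  | @snoc q r l h1 h2 ih =>
    refine (ih fun a b ha hb => hG a b ?_ ?_).snoc (hG _ _ ?_ ?_ h2)
    · rw [List.map_append, List.mem_append]; exact Or.inl ha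
    · rw [List.map_append, List.mem_append]; exact Or.inl hb
    · rw [List.map_append, List.mem_append]
      left
      have := h1.mem_right
      rw [List.mem_map]
      exact ⟨_, this, rfl⟩
    · simp

/-- change of the splitting off the tiles of the strand -/
lemma Wk.congr_s {s' : T → Bool} {x y : T × ZMod 4} {l : List (T × ZMod 4)}
    (h : Wk s G x y l) (hs : ∀ p ∈ l, s p.1 = s' p.1) : Wk s' G x y l := by
  have key : ∀ p : T × ZMod 4, s p.1 = s' p.1 → pass s p = pass s' p := by
    intro p hp
    simp only [pass, hp]
  induction h with
  | one =>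
    rw [key x (hs x (by simp))]
    exact .one
  | @snoc q r l h1 h2 ih =>
    rw [key r (hs r (by simp))]
    exact (ih fun p hp => hs p (by simp [hp])).snoc h2


/-! ### determinism -/

/-- two chains of a functional relation with the same head: one is a prefix of the other -/
lemma chain_prefix {α : Type*} {R : α → α → Prop} (hR : ∀ a b b', R a b → R a b' → b = b') :
    ∀ {l l' : List α} {x : α}, List.IsChain R (x :: l) → List.IsChain R (x :: l') →
      (x :: l) <+: (x :: l') ∨ (x :: l') <+: (x :: l) := by
  intro l
  induction l with
  | nil => intro l' x _ _; left; simp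
  | cons a l ih =>
    intro l' x h1 h2
    cases l' with
    | nil => right; simp
    | cons b l' =>
      rw [List.isChain_cons_cons] at h1 h2
      obtain rfl := hR _ _ _ h1.1 h2.1
      rcases ih h1.2 h2.2 with h | h
      · left; simpa using h
      · right; simpa using h

lemma Stp.fn (hG : ∀ a b b', G a b → G a b' → b = b') (a b b' : T × ZMod 4) (h : Stp s G a b)
    (h' : Stp s G a b') : b = b' := hG _ _ _ h h'

/-- one strand is a prefix of the other one -/
theorem Wk.prefix (hG : ∀ a b b', G a b → G a b' → b = b') {x y y' : T × ZMod 4}
    {l l' : List (T × ZMod 4)} (h : Wk s G x y l) (h' : Wk s G x y' l') :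
    l <+: l' ∨ l' <+: l := by
  obtain ⟨m, rfl⟩ := h.exists_cons
  obtain ⟨m', rfl⟩ := h'.exists_cons
  exact chain_prefix (Stp.fn hG) h.chain h'.chain

/-- a strand that ends at a free port cannot be continued -/
theorem Wk.prefix_eq {x y y' : T × ZMod 4} {l l' : List (T × ZMod 4)} (h : Wk s G x y l)
    (hy : Fr G y) (h' : Wk s G x y' l') (hp : l <+: l') : l = l' := by
  obtain ⟨k, rfl⟩ := hp
  cases k with
  | nil => simp
  | cons a k =>
    exfalso
    have := h'.chain
    rw [List.isChain_append] at this
    obtain ⟨-, -, h3⟩ := this
    have h4 := h3 (pass s y) (by simpa using h.last) a (by simp)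
    simp only [Stp, pass_pass] at h4
    exact hy _ h4

/-- the complete strand from `x` is unique -/
theorem Wk.det (hG : ∀ a b b', G a b → G a b' → b = b') {x y y' : T × ZMod 4}
    {l l' : List (T × ZMod 4)} (h : Wk s G x y l) (hy : Fr G y) (h' : Wk s G x y' l')
    (hy' : Fr G y') : y = y' ∧ l = l' := by
  have hl : l = l' := by
    rcases h.prefix hG h' with h1 | h1
    · exact h.prefix_eq hy h' h1
    · exact (h'.prefix_eq hy' h h1).symm
  subst hl
  refine ⟨?_, rfl⟩
  have h1 := h.last
  rw [h'.last] at h1
  exact (pass_inj s (Option.some.inj h1)).symm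


/-- an initial piece of a strand is a strand, and the next port is glued -/
theorem Wk.left_of_append {x y : T × ZMod 4} {l k : List (T × ZMod 4)} {r : T × ZMod 4}
    (h : Wk s G x y (l ++ r :: k)) (hl : l ≠ []) : ∃ q, Wk s G x q l ∧ G q r := by
  have h1 := h.chain
  rw [List.isChain_append] at h1
  obtain ⟨z, hz⟩ : ∃ z, l.getLast? = some z :=
    Option.isSome_iff_exists.1 (by simpa using hl)
  refine ⟨pass s z, Wk.iff.2 ⟨h1.1, ?_, by rw [hz]; rfl⟩, h1.2.2 z (by simpa using hz) r (by simp)⟩
  have h2 := h.head
  cases l with
  | nil => exact absurd rfl hl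
  | cons a m => simpa using h2

/-- a final piece of a strand is a strand -/
theorem Wk.right_of_append {x y : T × ZMod 4} {l k : List (T × ZMod 4)} {r : T × ZMod 4}
    (h : Wk s G x y (l ++ r :: k)) : Wk s G r y (r :: k) := by
  have h1 := h.chain
  rw [List.isChain_append] at h1
  refine Wk.iff.2 ⟨h1.2.1, rfl, ?_⟩
  have h2 := h.last
  rw [List.getLast?_append_of_ne_nil _ (by simp)] at h2
  rw [h2]
  simp

/-- the ports of a strand from a free port are entered only once -/
theorem Wk.nodup (hG : Glu G) {x y : T × ZMod 4} {l : List (T × ZMod 4)} (hx : Fr G x)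
    (h : Wk s G x y l) : l.Nodup := by
  induction h with
  | one => simp
  | @snoc q r l h1 h2 ih =>
    rw [List.nodup_append]
    refine ⟨ih, by simp, ?_⟩
    rintro a ha b hb rfl
    simp only [List.mem_singleton] at hb
    subst hb
    -- `a` is entered twice: go back to `x`
    have hG' : ∀ (n : ℕ) (l₁ l₂ : List (T × ZMod 4)) (a : T × ZMod 4), l₁.length ≤ n →
        List.IsChain (Stp s G) (l₁ ++ [a]) → List.IsChain (Stp s G) (l₂ ++ [a]) →
        (l₁ ++ [a]).head? = some x → (l₂ ++ [a]).head? = some x → l₁ = l₂ := by
      intro n
      induction n with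
      | zero =>
        intro l₁ l₂ a hn c1 c2 e1 e2
        have : l₁ = [] := List.length_eq_zero_iff.1 (by omega)
        subst this
        simp only [List.nil_append, List.head?_cons, Option.some.injEq] at e1
        subst e1
        cases l₂ using List.reverseRecOn with
        | nil => rfl
        | append_singleton l b =>
          exfalso
          rw [List.append_assoc, List.isChain_append] at c2
          have := c2.2.1
          simp only [List.cons_append, List.nil_append, List.isChain_cons_cons] at this
          exact hx _ (hG.sym _ _ this.1)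
      | succ n ihn =>
        intro l₁ l₂ a hn c1 c2 e1 e2
        cases l₁ using List.reverseRecOn with
        | nil =>
          simp only [List.nil_append, List.head?_cons, Option.some.injEq] at e1
          subst e1
          cases l₂ using List.reverseRecOn with
          | nil => rfl
          | append_singleton l b =>
            exfalso
            rw [List.append_assoc, List.isChain_append] at c2
            have := c2.2.1
            simp only [List.cons_append, List.nil_append, List.isChain_cons_cons] at this
            exact hx _ (hG.sym _ _ this.1)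
        | append_singleton k₁ b₁ =>
          cases l₂ using List.reverseRecOn with
          | nil =>
            exfalso
            simp only [List.nil_append, List.head?_cons, Option.some.injEq] at e2
            subst e2
            rw [List.append_assoc, List.isChain_append] at c1
            have := c1.2.1
            simp only [List.cons_append, List.nil_append, List.isChain_cons_cons] at this
            exact hx _ (hG.sym _ _ this.1)
          | append_singleton k₂ b₂ =>
            have d1 : Stp s G b₁ a := by
              have := c1
              rw [List.append_assoc, List.isChain_append] at this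
              have := this.2.1
              simp only [List.cons_append, List.nil_append, List.isChain_cons_cons] at this
              exact this.1
            have d2 : Stp s G b₂ a := by
              have := c2
              rw [List.append_assoc, List.isChain_append] at this
              have := this.2.1
              simp only [List.cons_append, List.nil_append, List.isChain_cons_cons] at this
              exact this.1
            have e : b₁ = b₂ := pass_inj s (hG.fn _ _ _ (hG.sym _ _ d1) (hG.sym _ _ d2))
            subst e
            congr 1
            refine ihn k₁ k₂ b₁ ?_ ?_ ?_ ?_ ?_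
            · simp only [List.length_append, List.length_singleton] at hn
              omega
            · exact List.IsChain.left_of_append c1
            · exact List.IsChain.left_of_append c2
            · cases k₁ with
              | nil => simpa using e1
              | cons c k => simpa using e1
            · cases k₂ with
              | nil => simpa using e2
              | cons c k => simpa using e2
    obtain ⟨l₁, l₂, rfl⟩ := List.append_of_mem ha
    have c0 : List.IsChain (Stp s G) ((l₁ ++ a :: l₂) ++ [a]) := (h1.snoc h2).chain
    have c1 : List.IsChain (Stp s G) (l₁ ++ [a]) := by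
      have : (l₁ ++ a :: l₂) ++ [a] = (l₁ ++ [a]) ++ (l₂ ++ [a]) := by simp
      rw [this] at c0
      exact c0.left_of_append
    have hh := h1.head
    have e1 : (l₁ ++ [a]).head? = some x := by
      cases l₁ with
      | nil => simpa using hh
      | cons c k => simpa using hh
    have e2 : ((l₁ ++ a :: l₂) ++ [a]).head? = some x := by
      cases l₁ with
      | nil => simpa using hh
      | cons c k => simpa using hh
    have := congrArg List.length (hG' _ _ _ _ le_rfl c1 c0 e1 e2)
    simp at this


/-! ### transport along a map of tiles -/

/-- image of a port under a map of tiles -/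
def mp {T' : Type*} (e : T' → T) (p : T' × ZMod 4) : T × ZMod 4 := (e p.1, p.2)

@[simp] lemma mp_fst {T' : Type*} (e : T' → T) (p : T' × ZMod 4) : (mp e p).1 = e p.1 := rfl
@[simp] lemma mp_mk {T' : Type*} (e : T' → T) (t : T') (d : ZMod 4) : mp e (t, d) = (e t, d) := rfl


lemma tt_map {T' : Type*} (e : T' → T) (l : List (T' × ZMod 4)) :
    tt s (l.map (mp e)) = tt (s ∘ e) l := by
  simp [tt, List.map_map, Function.comp_def, mp]

/-- image of a strand -/
theorem Wk.map {T' : Type*} (e : T' → T) {G' : T' × ZMod 4 → T' × ZMod 4 → Prop}
    (hG : ∀ a b, G' a b → G (mp e a) (mp e b)) {x y : T' × ZMod 4} {l : List (T' × ZMod 4)}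
    (h : Wk (s ∘ e) G' x y l) : Wk s G (mp e x) (mp e y) (l.map (mp e)) := by
  induction h with
  | one => exact .one
  | @snoc q r l h1 h2 ih =>
    rw [List.map_append]
    exact ih.snoc (hG _ _ h2)


/-- closed strands -/
def Cl (s : T → Bool) (G : T × ZMod 4 → T × ZMod 4 → Prop) (l : List (T × ZMod 4)) : Prop :=
  l.Nodup ∧ ∃ x y, Wk s G x y l ∧ G y x

/-- rotation of a closed strand -/
theorem Cl.rotate {l k : List (T × ZMod 4)} (h : Cl s G (l ++ k)) : Cl s G (k ++ l) := by
  obtain ⟨hn, x, y, h1, h2⟩ := h
  refine ⟨?_, ?_⟩
  · rw [List.nodup_append_comm]; exact hn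
  · cases k with
    | nil => exact ⟨x, y, by simpa using h1, h2⟩
    | cons r k =>
      cases l with
      | nil => exact ⟨x, y, by simpa using h1, h2⟩
      | cons a m =>
        obtain ⟨q, h3, h4⟩ := h1.left_of_append (by simp)
        have h5 := h1.right_of_append
        have h6 : x = a := by
          have := h1.head
          simp only [List.cons_append, List.head?_cons, Option.some.injEq] at this
          exact this.symm
        subst h6
        exact ⟨r, q, h5.trans h2 h3, h4⟩

end

end Crest.Agent.R158.Pt266
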