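import Crest.Agent.R158.Al1_194

/-!
# R158 block F5 (doc 1925), part 2: real boundary charges, middle phases, range of `Vc`
-/

set_option autoImplicit false

namespace Crest.Agent.R158.Al194

open Crest.Agent.R158.Vt300 Finset

/-- arc weight at the charge `q` (in units `π / 3`), normalised by `w 0 = 1` -/
noncomputable def wr (q : ℝ) : ℝ :=
  Real.cos (Real.pi / 6 - q * (Real.pi / 3)) / Real.cos (Real.pi / 6)

lemma wr_int {q : ℤ} (h : -2 ≤ q ∧ q ≤ 2) : wr q = wz q := by
  unfold wr; exact wz_cos h

lemma cos_pi6_pos : 0 < Real.cos (Real.pi / 6) := by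
  rw [Real.cos_pi_div_six]; positivity

/-- middle phase: `w (q + 1) + w (q - 1) = w q` -/
lemma wr_mid (q : ℝ) : wr (q + 1) + wr (q - 1) = wr q := by
  unfold wr
  rw [← add_div]
  congr 1
  rw [show Real.pi / 6 - (q + 1) * (Real.pi / 3) = (Real.pi / 6 - q * (Real.pi / 3)) - Real.pi / 3
    by ring, show Real.pi / 6 - (q - 1) * (Real.pi / 3) =
      (Real.pi / 6 - q * (Real.pi / 3)) + Real.pi / 3 by ring, Real.cos_sub, Real.cos_add,
    Real.cos_pi_div_three]
  ring

lemma abs_wr_le (q : ℝ) : |wr q| ≤ 2 / Real.sqrt 3 := by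
  unfold wr
  rw [abs_div, abs_of_pos cos_pi6_pos, Real.cos_pi_div_six]
  have h3 : (0 : ℝ) < Real.sqrt 3 := by positivity
  rw [div_le_div_iff₀ (by positivity) h3]
  have := Real.abs_cos_le_one (Real.pi / 6 - q * (Real.pi / 3))
  nlinarith

/-- phase of the leg at the charge `q` -/
noncomputable def er (q : ℝ) : ℂ := Complex.exp (Complex.I * ((q * (Real.pi / 3) : ℝ) : ℂ))

lemma er_int (q : ℤ) : er q = v2 ^ q := by
  unfold er v2
  rw [← Complex.exp_int_mul]
  congr 1
  push_cast
  ring

lemma norm_er (q : ℝ) : ‖er q‖ = 1 := by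
  unfold er
  rw [mul_comm]
  exact Complex.norm_exp_ofReal_mul_I _

lemma er_mid (q : ℝ) : er (q + 1) + er (q - 1) = er q := by
  unfold er
  have h1 : Complex.I * (((q + 1) * (Real.pi / 3) : ℝ) : ℂ) =
      Complex.I * ((q * (Real.pi / 3) : ℝ) : ℂ) + ((Real.pi / 3 : ℝ) : ℂ) * Complex.I := by
    push_cast; ring
  have h2 : Complex.I * (((q - 1) * (Real.pi / 3) : ℝ) : ℂ) =
      Complex.I * ((q * (Real.pi / 3) : ℝ) : ℂ) + ((-(Real.pi / 3) : ℝ) : ℂ) * Complex.I := by
    push_cast; ring
  rw [h1, h2, Complex.exp_add, Complex.exp_add, ← mul_add, Complex.exp_mul_I, Complex.exp_mul_I,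
    ← Complex.ofReal_cos, ← Complex.ofReal_cos, ← Complex.ofReal_sin, ← Complex.ofReal_sin,
    Real.cos_neg, Real.sin_neg, Real.cos_pi_div_three]
  push_cast
  ring

/-- product of the arc weights and of the leg phase for arbitrary real boundary charges `c` -/
noncomputable def hR (π : ℕ → ℕ) (N k : ℕ) (c : ℕ → ℝ) : ℂ :=
  ((∏ i ∈ (range N).filter (fun i => st π k i), wr (c (π i) - c i) : ℝ) : ℂ) * er (c k)

variable {π : ℕ → ℕ} {N k : ℕ}

/-- the arc charge of the marks is between `-2` and `2` -/
lemma NCK.chg_range (h : NCK π N k) {i x1 x2 m : ℕ} (hi : i < N) (hs : st π k i) (h1 : x1 ≤ N)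
    (h2 : x2 ≤ N) (hm : m ≤ N) :
    -2 ≤ chg x1 x2 m (π i) - chg x1 x2 m i ∧ chg x1 x2 m (π i) - chg x1 x2 m i ≤ 2 := by
  rw [h.chg_eq hi hs h1 h2 hm]
  unfold ind
  split_ifs <;> omega

/-- sharp marks: `hc` is `hR` at the charges `chg` -/
lemma NCK.hc_eq (h : NCK π N k) {x1 x2 m : ℕ} (h1 : x1 ≤ N) (h2 : x2 ≤ N) (hm : m ≤ N) :
    hc π N k x1 x2 m = hR π N k (fun i => (chg x1 x2 m i : ℝ)) := by
  unfold hc hR hz
  rw [er_int]
  congr 1
  push_cast
  apply prod_congr rfl
  intro i hi
  simp only [mem_filter, mem_range] at hi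
  rw [← Int.cast_sub, wr_int (h.chg_range hi.1 hi.2 h1 h2 hm)]
  push_cast
  rfl

/-- **middle phase at one end**: changing the charge of the single end `e` by `+1` and `-1` -/
theorem NCK.hR_mid (h : NCK π N k) {e : ℕ} (he : e < N) (c : ℕ → ℝ) :
    hR π N k (Function.update c e (c e + 1)) + hR π N k (Function.update c e (c e - 1)) =
      hR π N k c := by
  classical
  unfold hR
  by_cases hk : e = k
  · subst hk
    have key : ∀ t : ℝ, ∏ i ∈ (range N).filter (fun i => st π e i),
        wr (Function.update c e t (π i) - Function.update c e t i) =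
        ∏ i ∈ (range N).filter (fun i => st π e i), wr (c (π i) - c i) := by
      intro t
      apply prod_congr rfl
      intro i hi
      simp only [mem_filter, mem_range] at hi
      have hik : i ≠ e := by rintro rfl; exact not_st_fix h hi.2
      rw [Function.update_of_ne hik, Function.update_of_ne (h.ne_k hi.1 hik)]
    rw [key, key, Function.update_self, Function.update_self, ← mul_add, er_mid]
  · -- the start of the arc of `e`
    have hke : ∀ t : ℝ, Function.update c e t k = c k := fun t =>
      Function.update_of_ne (Ne.symm hk) _ _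
    rw [hke, hke, ← add_mul, ← Complex.ofReal_add]
    congr 2
    have hpe : π e ≠ e := h.ne e he hk
    have hpk : π e ≠ k := h.ne_k he hk
    have hpN : π e < N := h.mem e he
    by_cases hs : st π k e
    · have hm : e ∈ (range N).filter (fun i => st π k i) := by
        simp only [mem_filter, mem_range]; exact ⟨he, hs⟩
      have hns : ¬ st π k (π e) := by
        unfold st at hs ⊢; rw [h.inv e he]; omega
      have key : ∀ t : ℝ, ∏ i ∈ (range N).filter (fun i => st π k i),
          wr (Function.update c e t (π i) - Function.update c e t i) =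
          wr (c (π e) - t) * ∏ i ∈ ((range N).filter (fun i => st π k i)).erase e,
            wr (c (π i) - c i) := by
        intro t
        rw [← mul_prod_erase _ _ hm, Function.update_self, Function.update_of_ne hpe]
        congr 1
        apply prod_congr rfl
        intro i hi
        simp only [mem_erase, mem_filter, mem_range] at hi
        have h1 : π i ≠ e := by
          intro hh
          have := h.inv i hi.2.1
          rw [hh] at this
          rw [this] at hns
          exact hns hi.2.2
        rw [Function.update_of_ne hi.1, Function.update_of_ne h1]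
      rw [key, key, ← add_mul, ← mul_prod_erase _ _ hm]
      congr 1
      rw [show c (π e) - (c e + 1) = (c (π e) - c e) - 1 by ring,
        show c (π e) - (c e - 1) = (c (π e) - c e) + 1 by ring, add_comm, wr_mid]
    · have hs' : st π k (π e) := by
        unfold st at hs ⊢; rw [h.inv e he]; omega
      have hm : π e ∈ (range N).filter (fun i => st π k i) := by
        simp only [mem_filter, mem_range]; exact ⟨hpN, hs'⟩
      have key : ∀ t : ℝ, ∏ i ∈ (range N).filter (fun i => st π k i),
          wr (Function.update c e t (π i) - Function.update c e t i) =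
          wr (t - c (π e)) * ∏ i ∈ ((range N).filter (fun i => st π k i)).erase (π e),
            wr (c (π i) - c i) := by
        intro t
        rw [← mul_prod_erase _ _ hm, h.inv e he, Function.update_self, Function.update_of_ne hpe]
        congr 1
        apply prod_congr rfl
        intro i hi
        simp only [mem_erase, mem_filter, mem_range] at hi
        have h0 : i ≠ e := by rintro rfl; exact hs hi.2.2
        have h1 : π i ≠ e := by
          intro hh
          have := h.inv i hi.2.1
          rw [hh] at this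
          exact hi.1 this.symm
        rw [Function.update_of_ne h0, Function.update_of_ne h1]
      rw [key, key, ← add_mul, ← mul_prod_erase _ _ hm, h.inv e he]
      congr 1
      rw [show (c e + 1) - c (π e) = (c e - c (π e)) + 1 by ring,
        show (c e - 1) - c (π e) = (c e - c (π e)) - 1 by ring, wr_mid]

/-- charges with the moving mark AT the end `e` (middle phase) -/
def chm (x1 x2 e i : ℕ) : ℤ :=
  (if x1 ≤ i then 1 else 0) + (if x2 ≤ i then 1 else 0)
    - (if e ≤ i then 1 else 0) - (if e < i then 1 else 0)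

/-- the functional `S_e` (middle phase at the end `e`) -/
noncomputable def Sm (π : ℕ → ℕ) (N k x1 x2 e : ℕ) : ℂ := hR π N k (fun i => (chm x1 x2 e i : ℝ))

/-- `S_e = h_e + h_{e+1}` -/
theorem NCK.Sm_eq (h : NCK π N k) {x1 x2 e : ℕ} (h1 : x1 ≤ N) (h2 : x2 ≤ N) (he : e < N) :
    Sm π N k x1 x2 e = hc π N k x1 x2 e + hc π N k x1 x2 (e + 1) := by
  rw [h.hc_eq h1 h2 he.le, h.hc_eq h1 h2 he]
  unfold Sm
  rw [← h.hR_mid he, add_comm]
  congr 2
  · funext i
    by_cases hi : i = e
    · subst hi
      rw [Function.update_self]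
      have e1 : chm x1 x2 i i - 1 = chg x1 x2 i i := by
        unfold chm chg; split_ifs <;> omega
      rw [← e1]; push_cast; ring
    · rw [Function.update_of_ne hi, Int.cast_inj]
      unfold chm chg
      split_ifs <;> omega
  · funext i
    by_cases hi : i = e
    · subst hi
      rw [Function.update_self]
      have e1 : chm x1 x2 i i + 1 = chg x1 x2 (i + 1) i := by
        unfold chm chg; split_ifs <;> omega
      rw [← e1]; push_cast; ring
    · rw [Function.update_of_ne hi, Int.cast_inj]
      unfold chm chg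
      split_ifs <;> omega

/-- trapezoid form of a sum over gaps -/
lemma trap (f : ℕ → ℂ) {a b : ℕ} (hab : a ≤ b) :
    (∑ m ∈ Icc a b, f m) - f b / 2 = (∑ e ∈ Ico a b, (f e + f (e + 1))) / 2 + f a / 2 := by
  induction b, hab using Nat.le_induction with
  | base => simp; ring
  | succ b hb ih =>
    have e1 : Icc a (b + 1) = insert (b + 1) (Icc a b) := by
      ext t; simp only [mem_Icc, mem_insert]; omega
    rw [sum_Ico_succ_top hb, e1, sum_insert (by simp)]
    linear_combination ih

/-- **(A1) with middle phases**: `V = (1/2) Σ_{e ∈ [x2, x3)} S_e + (1/2) h_{x2}` -/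
theorem NCK.Vc_mid (h : NCK π N k) {x1 x2 x3 : ℕ} (h12 : x1 ≤ x2) (h23 : x2 ≤ x3) (h3 : x3 ≤ N) :
    Vc π N k x1 x2 x3 = (∑ e ∈ Ico x2 x3, Sm π N k x1 x2 e) / 2 + hc π N k x1 x2 x2 / 2 := by
  rw [← h.Vc_eq h12 h23 h3, trap _ h23]
  congr 2
  apply sum_congr rfl
  intro e he
  rw [mem_Ico] at he
  rw [h.Sm_eq (by omega) (by omega) (by omega)]

/-! ### range of `Vc` -/

/-- the closed triangle with vertices `0, 1, v2` -/
noncomputable def Tri : Set ℂ := convexHull ℝ {0, 1, v2}





lemma norm_v2 : ‖v2‖ = 1 := by
  have h := norm_er ((1 : ℤ) : ℝ)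
  rw [er_int, zpow_one] at h
  exact h


end Crest.Agent.R158.Al194
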