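import Crest.Agent.R158.Al4_194
import Crest.Agent.R158.Ob0_664

/-!
# R158 block F5 (doc 1925), part 6: the official observable `HV` in indices and as a mark sum
-/

set_option autoImplicit false

namespace Crest.Agent.R158.Al194

open Crest.Agent.R158.Vt300 Crest.Agent.R158.Sw300 Crest.Agent.R158.Ob664 Finset MeasureTheory
open Crest.Agent.R158.Rs689 (PB hf)

variable {T : Type*} [DecidableEq T] {s : T → Bool} {w : Wd T}

lemma cyc_sh {N r i j k : ℕ} (hr : r < N) (hi : i < N) (hj : j < N) (hk : k < N) :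
    cyc (sh N r i : ℤ) (sh N r j : ℤ) (sh N r k : ℤ) ↔ cyc (i : ℤ) (j : ℤ) (k : ℤ) := by
  unfold cyc sh
  split_ifs <;> push_cast <;> omega

/-- cyclic order in terms of the indices read from any port -/
lemma cyc_idL (h : Ok w) {m1 x y z : Port T} (hm : m1 ∈ L w) (hx : x ∈ L w) (hy : y ∈ L w)
    (hz : z ∈ L w) : cyc (pos w x) (pos w y) (pos w z) ↔
      cyc (((rotl (L w) m1).idxOf x : ℕ) : ℤ) (((rotl (L w) m1).idxOf y : ℕ) : ℤ)
        (((rotl (L w) m1).idxOf z : ℕ) : ℤ) := by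
  rw [idxOf_rotl (nodup h) hm hx, idxOf_rotl (nodup h) hm hy, idxOf_rotl (nodup h) hm hz,
    cyc_sh (idx_lt hm) (idx_lt hx) (idx_lt hy) (idx_lt hz)]
  have a := pos_en_iff h (idx_lt hx) (idx_lt hy)
  have b := pos_en_iff h (idx_lt hy) (idx_lt hz)
  have c := pos_en_iff h (idx_lt hz) (idx_lt hx)
  rw [en_idx hx, en_idx hy] at a
  rw [en_idx hy, en_idx hz] at b
  rw [en_idx hz, en_idx hx] at c
  unfold cyc
  rw [a, b, c]
  omega

lemma idL_inj {m1 x y : Port T} (hx : x ∈ L w) (hy : y ∈ L w)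
    (e : (rotl (L w) m1).idxOf x = (rotl (L w) m1).idxOf y) : x = y := by
  have h1 := enL_idL (m1 := m1) hx
  have h2 := enL_idL (m1 := m1) hy
  unfold idL at h1 h2
  rw [← h1, e, h2]

/-- gaps under an arc, in indices -/
lemma und_iff (h : Ok w) {m1 a x : Port T} (hm : m1 ∈ L w) (ha : a ∈ L w) (hx : x ∈ L w)
    (hau : a ≠ u s w) : Und (pos w) (M s w) a x ↔
      ing (piL (L w) (M s w) m1) ((rotl (L w) m1).idxOf x) ((rotl (L w) m1).idxOf a) := by
  have hMa : M s w a ∈ L w := (Ok.inv s w h).mem _ ha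
  have hpi : piL (L w) (M s w) m1 ((rotl (L w) m1).idxOf a) = (rotl (L w) m1).idxOf (M s w a) := by
    unfold piL
    congr 2
    exact enL_idL (m1 := m1) ha
  have hne : M s w a ≠ a := fun e => hau ((Ok.inv s w h).fix _ ha e)
  have hne' : (rotl (L w) m1).idxOf (M s w a) ≠ (rotl (L w) m1).idxOf a := fun e =>
    hne (idL_inj hMa ha e)
  have heq : x = M s w a ↔ (rotl (L w) m1).idxOf x = (rotl (L w) m1).idxOf (M s w a) :=
    ⟨fun e => by rw [e], fun e => idL_inj hx hMa e⟩
  unfold Und ing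
  rw [heq, cyc_idL h hm ha hx hMa, hpi]
  unfold cyc
  split_ifs <;> omega

lemma und_u (h : Ok w) {x : Port T} : Und (pos w) (M s w) (u s w) x ↔ x = u s w := by
  unfold Und cyc
  rw [(Ok.inv s w h).uf]
  constructor
  · rintro (e | e)
    · exact e
    · omega
  · exact fun e => Or.inl e

/-- the separation event in indices -/
theorem sepO_iff (h : Ok w) {m1 x y z : Port T} (hm : m1 ∈ L w) (hx : x ∈ L w) (hy : y ∈ L w)
    (hz : z ∈ L w) (hxy : x ≠ y) :
    SepO (fun a => a ∈ L w) (pos w) (M s w) (S s w) x y z ↔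
      Sep (piL (L w) (M s w) m1) (L w).length ((rotl (L w) m1).idxOf (u s w))
        ((rotl (L w) m1).idxOf x) ((rotl (L w) m1).idxOf y) ((rotl (L w) m1).idxOf z) := by
  have hN := nckL s h hm
  constructor
  · rintro ⟨a, ha, hS, h1, h2, h3⟩
    have hau : a ≠ u s w := by
      rintro rfl
      rw [und_u h] at h1 h2
      exact hxy (h1.trans h2.symm)
    have hne : (rotl (L w) m1).idxOf a ≠ (rotl (L w) m1).idxOf (u s w) := fun e =>
      hau (idL_inj ha (Ok.inv s w h).um e)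
    refine ⟨(rotl (L w) m1).idxOf a, idL_lt ha, ?_, (und_iff h hm ha hx hau).1 h1,
      (und_iff h hm ha hy hau).1 h2, fun e => h3 ((und_iff h hm ha hz hau).2 e)⟩
    refine (stL_iff (s := s) h hm (idL_lt (m1 := m1) ha) hne).2 ?_
    rw [enL_idL ha]
    exact hS
  · rintro ⟨i, hi, hst, h1, h2, h3⟩
    have hik : i ≠ (rotl (L w) m1).idxOf (u s w) := by
      rintro rfl; exact not_st_fix hN hst
    have hid : (rotl (L w) m1).idxOf (enL (L w) m1 i) = i := idL_enL h hi
    have ha : enL (L w) m1 i ∈ L w := enL_mem hi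
    have hau : enL (L w) m1 i ≠ u s w := by
      intro e; apply hik; rw [← hid, e]
    refine ⟨enL (L w) m1 i, ha, (stL_iff h hm hi hik).1 hst, ?_, ?_, ?_⟩
    · rw [und_iff h hm ha hx hau, hid]; exact h1
    · rw [und_iff h hm ha hy hau, hid]; exact h2
    · rw [und_iff h hm ha hz hau, hid]; exact h3

/-- clockwise order of the three marks -/
def Mk (w : Wd T) (m1 m2 m3 : Port T) : Prop :=
  m1 ∈ L w ∧ m2 ∈ L w ∧ m3 ∈ L w ∧ cyc (pos w m1) (pos w m2) (pos w m3)

lemma Mk.lt (h : Ok w) {m1 m2 m3 : Port T} (hM : Mk w m1 m2 m3) :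
    0 < (rotl (L w) m1).idxOf m2 ∧ (rotl (L w) m1).idxOf m2 < (rotl (L w) m1).idxOf m3 := by
  obtain ⟨h1, h2, h3, hc⟩ := hM
  rw [cyc_idL h h1 h1 h2 h3, idxOf_rotl_self (nodup h) h1] at hc
  unfold cyc at hc
  omega

/-- **the official observable in indices** -/
theorem HV_eq_VL (h : Ok w) {m1 m2 m3 : Port T} (hM : Mk w m1 m2 m3) (s : T → Bool) :
    HV w m1 m2 m3 s = VL (L w) (M s w) (u s w) m1 m2 m3 := by
  classical
  have hlt := hM.lt h
  obtain ⟨h1, h2, h3, -⟩ := hM
  have hu := (Ok.inv s w h).um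
  have h0 := idxOf_rotl_self (nodup h) h1
  have ku : (rotl (L w) m1).idxOf (u s w) = (rotl (L w) m1).idxOf (u s w) := rfl
  have e12 : m1 ≠ m2 := by rintro rfl; omega
  have e23 : m2 ≠ m3 := by rintro rfl; omega
  have e31 : m3 ≠ m1 := by rintro rfl; omega
  have c1 : Sect (pos w) m3 m1 (u s w) ↔
      (rotl (L w) m1).idxOf (u s w) < 0 ∨ (rotl (L w) m1).idxOf m3 ≤
        (rotl (L w) m1).idxOf (u s w) := by
    have heq : u s w = m3 ↔ (rotl (L w) m1).idxOf (u s w) = (rotl (L w) m1).idxOf m3 :=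
      ⟨fun e => by rw [e], fun e => idL_inj hu h3 e⟩
    unfold Sect
    rw [heq, cyc_idL h h1 h3 hu h1, h0]
    unfold cyc
    omega
  have c2 : ¬ Sect (pos w) m3 m1 (u s w) → (Sect (pos w) m1 m2 (u s w) ↔
      (rotl (L w) m1).idxOf (u s w) < (rotl (L w) m1).idxOf m2) := by
    intro hn
    have heq : u s w = m1 ↔ (rotl (L w) m1).idxOf (u s w) = (rotl (L w) m1).idxOf m1 :=
      ⟨fun e => by rw [e], fun e => idL_inj hu h1 e⟩
    rw [h0] at heq
    unfold Sect
    rw [heq, cyc_idL h h1 h1 hu h2, h0]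
    unfold cyc
    omega
  have d1 := sepO_iff (s := s) h h1 h2 h3 h1 e23
  have d2 := sepO_iff (s := s) h h1 h1 h2 h3 e12
  have d3 := sepO_iff (s := s) h h1 h3 h1 h2 e31
  rw [h0] at d1 d2 d3
  unfold HV VO VL Vc
  by_cases hs1 : Sect (pos w) m3 m1 (u s w)
  · rw [if_pos hs1, if_pos (c1.1 hs1), if_congr d1 rfl rfl, if_congr d2 rfl rfl]
  rw [if_neg hs1, if_neg (fun e => hs1 (c1.2 e))]
  by_cases hs2 : Sect (pos w) m1 m2 (u s w)
  · rw [if_pos hs2, if_pos ((c2 hs1).1 hs2), if_congr d1 rfl rfl, if_congr d3 rfl rfl]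
  · rw [if_neg hs2, if_neg (fun e => hs2 ((c2 hs1).2 e)), if_congr d2 rfl rfl,
      if_congr d3 rfl rfl]

/-- **(A1) for the official observable, middle phases** -/
theorem HV_mid (h : Ok w) {m1 m2 m3 : Port T} (hM : Mk w m1 m2 m3) (s : T → Bool) :
    HV w m1 m2 m3 s =
      (∑ j ∈ Ico ((rotl (L w) m1).idxOf m2) ((rotl (L w) m1).idxOf m3),
        hL s w (fun x => (cM (L w) m1 m2 j x : ℝ))) / 2
      + hL s w (fun x => (cS (L w) m1 m2 ((rotl (L w) m1).idxOf m2) x : ℝ)) / 2 := by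
  rw [HV_eq_VL h hM s, VL_mid h hM.1 hM.2.1 hM.2.2.1 (hM.lt h).2.le]


/-! ### measurability and the mean -/

/-- `hL` only sees the tiles of the word -/
theorem hL_congr {s s' : T → Bool} (h : ∀ t ∈ tls w, s t = s' t) (c : Port T → ℝ) :
    hL s w c = hL s' w c := by
  obtain ⟨h1, h2, h3⟩ := state_congr w h
  unfold hL
  rw [h1, h2, h3]

theorem measurable_hL (w : Wd T) (c : Port T → ℝ) : Measurable fun s : T → Bool => hL s w c := by
  classical
  let S0 : Finset T := (tls w).toFinset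
  let r : (T → Bool) → (S0 → Bool) := fun s t => s t
  let e : (S0 → Bool) → (T → Bool) := fun z t => if h : t ∈ S0 then z ⟨t, h⟩ else false
  have hr : Measurable r := measurable_pi_lambda _ fun t => measurable_pi_apply _
  have h1 : (fun s : T → Bool => hL s w c) = (fun z => hL (e z) w c) ∘ r := by
    funext s
    refine hL_congr (fun t ht => ?_) c
    have : t ∈ S0 := List.mem_toFinset.2 ht
    simp only [e, r, dif_pos this]
  rw [h1]
  exact (measurable_of_finite _).comp hr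

/-- crude bound of `hL`, uniform in the splitting -/
theorem exists_hL_le (w : Wd T) (c : Port T → ℝ) : ∃ C : ℝ, ∀ s : T → Bool, ‖hL s w c‖ ≤ C := by
  classical
  refine ⟨(2 / Real.sqrt 3) ^ (L w).toFinset.card, fun s => ?_⟩
  have h3 : (1 : ℝ) ≤ 2 / Real.sqrt 3 := by
    rw [le_div_iff₀ (by positivity), one_mul]
    have : Real.sqrt 3 ≤ Real.sqrt 4 := Real.sqrt_le_sqrt (by norm_num)
    have h4 : Real.sqrt 4 = 2 := by
      rw [show (4 : ℝ) = 2 ^ 2 by norm_num, Real.sqrt_sq (by norm_num)]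
    linarith
  unfold hL
  rw [norm_mul, norm_er, mul_one, Complex.norm_real, Real.norm_eq_abs, abs_prod]
  calc _ ≤ ∏ _x ∈ ((L w).toFinset).filter (fun x => x ≠ u s w ∧ S s w x = true), 2 / Real.sqrt 3 :=
        prod_le_prod (fun _ _ => abs_nonneg _) fun _ _ => abs_wr_le _
    _ = (2 / Real.sqrt 3) ^ _ := by rw [prod_const]
    _ ≤ _ := pow_le_pow_right₀ h3 (card_le_card (filter_subset _ _))

theorem integrable_hL (w : Wd T) (c : Port T → ℝ) :
    Integrable (fun s : T → Bool => hL s w c) (PB fun _ : T => hf) := by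
  obtain ⟨C, hC⟩ := exists_hL_le w c
  exact Integrable.of_bound (measurable_hL w c).aestronglyMeasurable C
    (Filter.Eventually.of_forall hC)

/-- **the mean observable = half the sum of the middle-phase means + the term at `m2`** -/
theorem HW_mid (h : Ok w) {m1 m2 m3 : Port T} (hM : Mk w m1 m2 m3) :
    HW w m1 m2 m3 =
      (∑ j ∈ Ico ((rotl (L w) m1).idxOf m2) ((rotl (L w) m1).idxOf m3),
        ∫ s, hL s w (fun x => (cM (L w) m1 m2 j x : ℝ)) ∂(PB fun _ : T => hf)) / 2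
      + (∫ s, hL s w (fun x => (cS (L w) m1 m2 ((rotl (L w) m1).idxOf m2) x : ℝ))
          ∂(PB fun _ : T => hf)) / 2 := by
  unfold HW
  rw [integral_congr_ae (Filter.Eventually.of_forall fun s => HV_mid h hM s), integral_add,
    integral_div, integral_div, integral_finset_sum]
  · intro j _; exact integrable_hL w _
  · exact (integrable_finset_sum _ fun j _ => integrable_hL w _).div_const 2
  · exact (integrable_hL w _).div_const 2

end Crest.Agent.R158.Al194
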