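import Mathlib

/-!
# R158, Block CS (helper410): the consumer of the band theorem

* `amp T' T X b a O I = O ⬝ᵥ ((T' ^ b * X * T ^ a) *ᵥ I)` : amplitude with `b` rows above and
  `a` rows below the insertion `X`
* `amp_step`, `amp_step_le` : the two-row / two-column relation from the operator estimate
* `cs s H x y P Q` : discrete contour sum (double steps) of a box, `cs_split`, `cs_le_of_step`,
  `cs_sub_le`, `cs_slices`
* `Fam` : amplitude of a finite family `(Out μ, In μ)` divided by `Z`, `fam_step`, `fam_cs`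
-/

set_option autoImplicit false

noncomputable section

open Matrix Finset
open scoped Matrix.Norms.L2Operator

namespace Crest.Agent.R158.Cs410

/-! ## amplitudes -/

section amp

variable {m n : Type*} [Fintype m] [DecidableEq m] [Fintype n] [DecidableEq n]

/-- Euclidean norm of a vector -/
def nrm {k : Type*} [Fintype k] (v : k → ℂ) : ℝ := ‖(WithLp.toLp 2 v : EuclideanSpace ℂ k)‖

lemma nrm_nonneg {k : Type*} [Fintype k] (v : k → ℂ) : 0 ≤ nrm v := norm_nonneg _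

lemma nrm_sq {k : Type*} [Fintype k] (v : k → ℂ) : nrm v ^ 2 = ∑ i, ‖v i‖ ^ 2 := by
  rw [nrm, EuclideanSpace.norm_eq, Real.sq_sqrt (Finset.sum_nonneg fun i _ => sq_nonneg _)]

lemma dot_le {k : Type*} [Fintype k] (u v : k → ℂ) : ‖u ⬝ᵥ v‖ ≤ nrm u * nrm v := by
  have h1 : ‖u ⬝ᵥ v‖ ≤ ∑ i, ‖u i‖ * ‖v i‖ := by
    rw [dotProduct]
    refine (norm_sum_le _ _).trans (le_of_eq ?_)
    exact Finset.sum_congr rfl fun i _ => norm_mul _ _
  refine h1.trans ?_
  have h2 := Finset.sum_mul_sq_le_sq_mul_sq Finset.univ (fun i => ‖u i‖) fun i => ‖v i‖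
  rw [← nrm_sq, ← nrm_sq, ← mul_pow] at h2
  exact le_of_sq_le_sq h2 (mul_nonneg (nrm_nonneg u) (nrm_nonneg v))

lemma mulVec_le (A : Matrix m n ℂ) (v : n → ℂ) : nrm (A *ᵥ v) ≤ ‖A‖ * nrm v :=
  Matrix.l2_opNorm_mulVec A (WithLp.toLp 2 v)

/-- amplitude with `b` rows above and `a` rows below the insertion -/
def amp (T' : Matrix m m ℂ) (T : Matrix n n ℂ) (X : Matrix m n ℂ) (b a : ℕ) (O : m → ℂ)
    (I : n → ℂ) : ℂ :=
  O ⬝ᵥ ((T' ^ b * X * T ^ a) *ᵥ I)

theorem amp_step (T' : Matrix m m ℂ) (T : Matrix n n ℂ) (A A2 : Matrix m n ℂ) (s : ℂ) (b a : ℕ)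
    (O : m → ℂ) (I : n → ℂ) :
    amp T' T A (b + 2) a O I - amp T' T A b (a + 2) O I -
        s * (amp T' T A2 (b + 2) a O I - amp T' T A (b + 2) a O I) =
      O ⬝ᵥ ((T' ^ b * ((T' ^ 2 * A - A * T ^ 2) - s • (T' ^ 2 * (A2 - A))) * T ^ a) *ᵥ I) := by
  simp only [amp]
  rw [← dotProduct_sub, ← Matrix.sub_mulVec, ← dotProduct_sub, ← Matrix.sub_mulVec,
    ← smul_eq_mul, ← dotProduct_smul, ← Matrix.smul_mulVec, ← dotProduct_sub, ← Matrix.sub_mulVec]
  congr 2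
  simp only [pow_add, Matrix.mul_sub, Matrix.sub_mul, Matrix.mul_smul, Matrix.smul_mul, smul_sub,
    Matrix.mul_assoc]
  have e : T ^ a * (T ^ 2) = T ^ 2 * T ^ a := by rw [← pow_add, ← pow_add, add_comm]
  rw [e]

theorem amp_step_le {T' : Matrix m m ℂ} {T : Matrix n n ℂ} {A A2 : Matrix m n ℂ} {s : ℂ} {b a : ℕ}
    {E : ℝ} (hE : ‖T' ^ b * ((T' ^ 2 * A - A * T ^ 2) - s • (T' ^ 2 * (A2 - A))) * T ^ a‖ ≤ E)
    (O : m → ℂ) (I : n → ℂ) :
    ‖(amp T' T A b (a + 2) O I - amp T' T A (b + 2) a O I) +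
        s * (amp T' T A2 (b + 2) a O I - amp T' T A (b + 2) a O I)‖ ≤ E * (nrm I * nrm O) := by
  have h1 := amp_step T' T A A2 s b a O I
  have h2 : (amp T' T A b (a + 2) O I - amp T' T A (b + 2) a O I) +
        s * (amp T' T A2 (b + 2) a O I - amp T' T A (b + 2) a O I) =
      -(O ⬝ᵥ ((T' ^ b * ((T' ^ 2 * A - A * T ^ 2) - s • (T' ^ 2 * (A2 - A))) * T ^ a) *ᵥ I)) := by
    rw [← h1]; ring
  rw [h2, norm_neg]
  refine (dot_le _ _).trans ?_
  have h3 := mulVec_le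
    (T' ^ b * ((T' ^ 2 * A - A * T ^ 2) - s • (T' ^ 2 * (A2 - A))) * T ^ a) I
  calc _ ≤ nrm O * (E * nrm I) :=
        mul_le_mul_of_nonneg_left (h3.trans (mul_le_mul_of_nonneg_right hE (nrm_nonneg I)))
          (nrm_nonneg O)
    _ = _ := by ring

end amp

/-! ## contour sums -/









/-! ## families of amplitudes -/

section fam

variable {m n : Type*} [Fintype m] [DecidableEq m] [Fintype n] [DecidableEq n]
  {ι : Type*} [Fintype ι]

/-- `Σ_μ ⟨Out μ| T'^(L-a) A_j T^a |In μ⟩ / Z` -/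
def Fam (T' : Matrix m m ℂ) (T : Matrix n n ℂ) (A : ℕ → Matrix m n ℂ) (L : ℕ) (O : ι → m → ℂ)
    (I : ι → n → ℂ) (Z : ℂ) (j a : ℕ) : ℂ :=
  (∑ μ, amp T' T (A j) (L - a) a (O μ) (I μ)) / Z



end fam

end Crest.Agent.R158.Cs410
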