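import Crest.Agent.R158.Nz2_399
import Crest.Agent.R158.Ad4_350
import Crest.Agent.R158.Nz3_399

/-!
# R158, block Q1d (helper399), part 4: norm link for an arbitrary operation

`Φ` = any composition of glueings and cuts covering all ports of `A` except the open ports `O`
(350's `Rep be ch Φ (ports A \ O)`).

* `dbe be O`, `dch ch O` : glueing and phases of the double (tiles `T × Bool`, ports `jm k`)
* `norm_rep` : `∑_{B ⊆ O} ‖Φ (tilesF A) 1_B‖² = (1/2)^|A'| ∑_S z_S(double)`
* `avg` : such an average is an expectation over fair splittings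
-/

set_option autoImplicit false
set_option linter.unusedSectionVars false
set_option linter.unusedSimpArgs false

noncomputable section

open Finset
open Crest.Agent.R158.Sw300 (Port)
open Crest.Agent.R158.Ad350

namespace Crest.Agent.R158.Nz399

variable {T : Type*} [DecidableEq T]

/-- the port of the original network behind a port of the double -/
def un : Port (T × Bool) → Port T :=
  Option.map fun y => (y.1.1, if y.1.2 then -y.2 else y.2)

/-- the copy -/
def cp : Port (T × Bool) → Bool
  | none => false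
  | some y => y.1.2

@[simp] lemma un_jm (k : Bool) (p : Port T) : un (jm k p) = p := by
  cases p with
  | none => rfl
  | some y => cases k <;> simp [un, jm]

lemma cp_jm (k : Bool) {p : Port T} (h : p ≠ none) : cp (jm k p) = k := by
  cases p with
  | none => exact absurd rfl h
  | some y => cases k <;> simp [cp, jm]

lemma jm_un (q : Port (T × Bool)) : jm (cp q) (un q) = q := by
  cases q with
  | none => rfl
  | some y =>
    obtain ⟨⟨t, k⟩, d⟩ := y
    cases k <;> simp [cp, un, jm]

/-- glueing of the double, `O` = open ports -/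
def dbe (be : Port T → Port T) (O : Finset (Port T)) (q : Port (T × Bool)) : Port (T × Bool) :=
  if un q ∈ O then jm (!cp q) (un q) else jm (cp q) (be (un q))

/-- phases of the double -/
def dch (ch : Port T → ℝ) (O : Finset (Port T)) (q : Port (T × Bool)) : ℝ :=
  if un q ∈ O then 0 else ch (un q)

lemma dbe_jm (be : Port T → Port T) (O : Finset (Port T)) (k : Bool) {p : Port T}
    (h : p ≠ none) : dbe be O (jm k p) = if p ∈ O then jm (!k) p else jm k (be p) := by
  unfold dbe; rw [un_jm, cp_jm k h]

lemma dch_jm (ch : Port T → ℝ) (O : Finset (Port T)) (k : Bool) (p : Port T) :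
    dch ch O (jm k p) = if p ∈ O then 0 else ch p := by
  unfold dch; rw [un_jm]

/-- embedding of the copy `k` -/
def je (k : Bool) : Port T ↪ Port (T × Bool) := ⟨jm k, jm_inj k⟩

lemma mem_ports_double {A : Finset T} {q : Port (T × Bool)} :
    q ∈ ports (A ×ˢ (univ : Finset Bool)) ↔ un q ∈ ports A := by
  cases q with
  | none =>
    have h1 : (none : Port (T × Bool)) ∉ ports (A ×ˢ (univ : Finset Bool)) := none_ports
    have h2 : (un (none : Port (T × Bool))) ∉ ports A := none_ports
    exact ⟨fun h => absurd h h1, fun h => absurd h h2⟩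
  | some y =>
    obtain ⟨⟨t, k⟩, d⟩ := y
    have e : un (some ((t, k), d) : Port (T × Bool)) = some (t, if k then -d else d) := rfl
    rw [e, mem_ports, mem_ports]
    simp

lemma ports_double (A : Finset T) : ports (A ×ˢ (univ : Finset Bool)) =
    (ports A).map (je false) ∪ (ports A).map (je true) := by
  ext q
  rw [mem_ports_double, Finset.mem_union, Finset.mem_map, Finset.mem_map]
  constructor
  · intro h
    have := jm_un q
    cases hk : cp q
    · left; exact ⟨_, h, by rw [hk] at this; exact this⟩
    · right; exact ⟨_, h, by rw [hk] at this; exact this⟩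
  · rintro (⟨p, hp, rfl⟩ | ⟨p, hp, rfl⟩)
    · show un (jm false p) ∈ _
      rw [un_jm]; exact hp
    · show un (jm true p) ∈ _
      rw [un_jm]; exact hp

lemma ports_disj2 (A : Finset T) :
    Disjoint ((ports A).map (je false)) ((ports A).map (je true)) := by
  rw [Finset.disjoint_left]
  intro q hq hq'
  obtain ⟨p, hp, rfl⟩ := Finset.mem_map.1 hq
  obtain ⟨p', -, h⟩ := Finset.mem_map.1 hq'
  exact jm_ne (ne_none_of_mem hp) h.symm

/-- the two copies of two sets of ports -/
def JJ (B1 B2 : Finset (Port T)) : Finset (Port (T × Bool)) :=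
  B1.map (je false) ∪ B2.map (je true)

lemma mem_JJ {A B1 B2 : Finset (Port T)} (h1 : B1 ⊆ A) (_h2 : B2 ⊆ A) (hA : none ∉ A) (k : Bool)
    {p : Port T} (hp : p ∈ A) : jm k p ∈ JJ B1 B2 ↔ p ∈ (if k then B2 else B1) := by
  have hn : p ≠ none := fun h => hA (h ▸ hp)
  unfold JJ
  rw [Finset.mem_union, Finset.mem_map, Finset.mem_map]
  cases k
  · simp only [Bool.false_eq_true, if_false]
    constructor
    · rintro (⟨q, hq, h⟩ | ⟨q, hq, h⟩)
      · rw [← jm_inj false h]; exact hq
      · exact absurd h.symm (jm_ne hn)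
    · intro h; exact Or.inl ⟨p, h, rfl⟩
  · simp only [if_true]
    constructor
    · rintro (⟨q, hq, h⟩ | ⟨q, hq, h⟩)
      · exact absurd h (jm_ne fun e => hA (e ▸ h1 hq))
      · rw [← jm_inj true h]; exact hq
    · intro h; exact Or.inr ⟨p, h, rfl⟩

/-- complement of the arrows is complex conjugation -/
lemma pb_compl (ch : Port T → ℝ) (D B : Finset (Port T)) : pb ch D (D \ B) = -pb ch D B := by
  unfold pb
  rw [← Finset.sum_neg_distrib]
  refine Finset.sum_congr rfl fun p hp => ?_
  have : decide (p ∈ D \ B) = !decide (p ∈ B) := by simp [hp]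
  rw [this, sg_not]
  ring

lemma star_rep {be : Port T → Port T} {ch : Port T → ℝ}
    {Φ : ((Port T → Bool) → ℂ) → (Port T → Bool) → ℂ} {D : Finset (Port T)}
    (h : Rep be ch Φ D) (A : Finset T) (σ : Port T → Bool) :
    star (Φ (tilesF A) σ) = Φ (tilesF A) fun p => !σ p := by
  rw [h.2, h.2, star_sum]
  refine Finset.sum_bij' (fun B _ => D \ B) (fun B _ => D \ B) ?_ ?_ ?_ ?_ ?_
  · intro B hB
    simp only [Finset.mem_filter, Finset.mem_powerset] at hB ⊢
    refine ⟨Finset.sdiff_subset, fun p hp hne => ?_⟩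
    have h1 := hB.2 p hp hne
    have h2 := h.1 p hp
    simp only [Finset.mem_sdiff, h2, hp, true_and]
    tauto
  · intro B hB
    simp only [Finset.mem_filter, Finset.mem_powerset] at hB ⊢
    refine ⟨Finset.sdiff_subset, fun p hp hne => ?_⟩
    have h1 := hB.2 p hp hne
    have h2 := h.1 p hp
    simp only [Finset.mem_sdiff, h2, hp, true_and]
    tauto
  · intro B hB
    simp only [Finset.mem_filter, Finset.mem_powerset] at hB
    exact Finset.sdiff_sdiff_eq_self hB.1
  · intro B hB
    simp only [Finset.mem_filter, Finset.mem_powerset] at hB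
    exact Finset.sdiff_sdiff_eq_self hB.1
  · intro B hB
    rw [star_mul', star_ei, pb_compl, rev_tiles A]
    congr 2
    funext p
    unfold ov
    by_cases hp : p ∈ D
    · simp [hp]
    · simp [hp]

/-- the sum over the arrows of the double -/
theorem norm_rep {be : Port T → Port T} {ch : Port T → ℝ}
    {Φ : ((Port T → Bool) → ℂ) → (Port T → Bool) → ℂ} {A : Finset T} {O : Finset (Port T)}
    (hO : O ⊆ ports A) (h : Rep be ch Φ (ports A \ O)) :
    ((∑ B ∈ O.powerset, ‖Φ (tilesF A) (fun p => decide (p ∈ B))‖ ^ 2 : ℝ) : ℂ) =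
      (1 / 2) ^ (A ×ˢ (univ : Finset Bool)).card *
        ∑ S ∈ (A ×ˢ (univ : Finset Bool)).powerset,
          (tnet (A ×ˢ univ) (fun t => decide (t ∈ S)) (dbe be O) (dch ch O)).z
            (ports (A ×ˢ univ)) := by
  set D : Finset (Port T) := ports A \ O with hD
  set A' : Finset (T × Bool) := A ×ˢ univ with hA'
  have hDA : D ⊆ ports A := Finset.sdiff_subset
  have hnone : (none : Port T) ∉ ports A := none_ports
  -- closedness
  have hcl : ∀ q ∈ ports A', dbe be O q ∈ ports A' := by
    intro q hq
    rw [hA', mem_ports_double] at hq ⊢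
    unfold dbe
    split_ifs with h1
    · rw [un_jm]; exact hq
    · rw [un_jm]
      exact hDA (h.1 _ (Finset.mem_sdiff.2 ⟨hq, h1⟩))
  -- the canonical operation
  have hR : Rep (dbe be O) (dch ch O) (fun F σ => ∑ B ∈ (ports A').powerset with
      gb (dbe be O) (ports A') B, ei (pb (dch ch O) (ports A') B) * F (ov (ports A') B σ))
      (ports A') := ⟨hcl, fun _ _ => rfl⟩
  rw [← hR.tiles (fun _ => false)]
  beta_reduce
  -- left side as a triple sum
  have hL : ∀ B ∈ O.powerset, ((‖Φ (tilesF A) (fun p => decide (p ∈ B))‖ ^ 2 : ℝ) : ℂ) =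
      ∑ C1 ∈ D.powerset with gb be D C1, ∑ C2 ∈ D.powerset with gb be D C2,
        (ei (pb ch D C1) * ei (pb ch D C2)) *
          (tilesF A (fun p => decide (p ∈ B ∪ C1)) *
            tilesF A (fun p => decide (p ∈ (O \ B) ∪ C2))) := by
    intro B hB
    have hB' : B ⊆ O := Finset.mem_powerset.1 hB
    have e1 : ((‖Φ (tilesF A) (fun p => decide (p ∈ B))‖ ^ 2 : ℝ) : ℂ) =
        Φ (tilesF A) (fun p => decide (p ∈ B)) * star (Φ (tilesF A) fun p => decide (p ∈ B)) := by
      rw [RCLike.star_def, Complex.mul_conj, Complex.normSq_eq_norm_sq]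
    have ovv : ∀ (B' C : Finset (Port T)), B' ⊆ O → C ⊆ D → ∀ p ∈ ports A,
        ov D C (fun p => decide (p ∈ B')) p = decide (p ∈ B' ∪ C) := by
      intro B' C hB' hC p hp
      unfold ov
      by_cases h1 : p ∈ D
      · have h2 : p ∉ B' := fun k => (Finset.mem_sdiff.1 h1).2 (hB' k)
        simp [h1, h2]
      · have h2 : p ∉ C := fun k => h1 (hC k)
        simp [h1, h2]
    have e2 : Φ (tilesF A) (fun p => decide (p ∈ B)) = ∑ C1 ∈ D.powerset with gb be D C1,
        ei (pb ch D C1) * tilesF A (fun p => decide (p ∈ B ∪ C1)) := by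
      rw [h.2]
      refine Finset.sum_congr rfl fun C hC => ?_
      rw [Finset.mem_filter, Finset.mem_powerset] at hC
      rw [sees_tiles A _ _ (ovv B C hB' hC.1)]
    have e3 : star (Φ (tilesF A) fun p => decide (p ∈ B)) = ∑ C2 ∈ D.powerset with gb be D C2,
        ei (pb ch D C2) * tilesF A (fun p => decide (p ∈ (O \ B) ∪ C2)) := by
      rw [star_rep h, h.2]
      refine Finset.sum_congr rfl fun C hC => ?_
      rw [Finset.mem_filter, Finset.mem_powerset] at hC
      rw [sees_tiles A _ (fun p => decide (p ∈ (O \ B) ∪ C))]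
      intro p hp
      rw [← ovv (O \ B) C Finset.sdiff_subset hC.1 p hp]
      unfold ov
      by_cases h1 : p ∈ D
      · simp [h1]
      · have h2 : p ∈ O := by
          by_contra k
          exact h1 (Finset.mem_sdiff.2 ⟨hp, k⟩)
        simp [h1, h2]
    rw [e1, e3, e2, Finset.sum_mul_sum]
    refine Finset.sum_congr rfl fun C1 _ => Finset.sum_congr rfl fun C2 _ => ?_
    ring
  rw [Complex.ofReal_sum, Finset.sum_congr rfl hL]
  -- flatten
  rw [Finset.sum_congr rfl fun B _ => (Finset.sum_product' (D.powerset.filter (gb be D))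
    (D.powerset.filter (gb be D)) _).symm, ← Finset.sum_product']
  -- properties of the two copies
  have hmem : ∀ {B1 B2 : Finset (Port T)}, B1 ⊆ ports A → B2 ⊆ ports A → ∀ (k : Bool) {p : Port T},
      p ∈ ports A → (jm k p ∈ JJ B1 B2 ↔ p ∈ (if k then B2 else B1)) :=
    fun h1 h2 k p hp => mem_JJ h1 h2 hnone k hp
  have hgb : ∀ {B1 B2 : Finset (Port T)}, B1 ⊆ ports A → B2 ⊆ ports A →
      (gb (dbe be O) (ports A') (JJ B1 B2) ↔
        (∀ p ∈ O, (p ∈ B2 ↔ p ∉ B1)) ∧ gb be D B1 ∧ gb be D B2) := by
    intro B1 B2 h1 h2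
    unfold gb
    constructor
    · intro hg
      refine ⟨fun p hp => ?_, fun p hp hne => ?_, fun p hp hne => ?_⟩
      · have hpA := hO hp
        have hn : p ≠ none := ne_none_of_mem hpA
        have := hg (jm false p) (by rw [hA', mem_ports_double, un_jm]; exact hpA)
        rw [dbe_jm be O false hn, if_pos hp] at this
        have h3 := this (jm_ne hn).symm
        have e1 : (!false) = true := rfl
        rw [e1, hmem h1 h2 true hpA, hmem h1 h2 false hpA] at h3
        simpa using h3
      · have hpA := hDA hp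
        have hn : p ≠ none := ne_none_of_mem hpA
        have hpO : p ∉ O := (Finset.mem_sdiff.1 hp).2
        have := hg (jm false p) (by rw [hA', mem_ports_double, un_jm]; exact hpA)
        rw [dbe_jm be O false hn, if_neg hpO] at this
        have h3 := this fun e => hne (jm_inj false e)
        rw [hmem h1 h2 false (hDA (h.1 p hp)), hmem h1 h2 false hpA] at h3
        simpa using h3
      · have hpA := hDA hp
        have hn : p ≠ none := ne_none_of_mem hpA
        have hpO : p ∉ O := (Finset.mem_sdiff.1 hp).2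
        have := hg (jm true p) (by rw [hA', mem_ports_double, un_jm]; exact hpA)
        rw [dbe_jm be O true hn, if_neg hpO] at this
        have h3 := this fun e => hne (jm_inj true e)
        rw [hmem h1 h2 true (hDA (h.1 p hp)), hmem h1 h2 true hpA] at h3
        simpa using h3
    · rintro ⟨g0, g1, g2⟩ q hq hne
      rw [hA', mem_ports_double] at hq
      obtain ⟨p, k, rfl, hpA⟩ : ∃ p k, jm k p = q ∧ p ∈ ports A := ⟨_, _, jm_un q, hq⟩
      have hn : p ≠ none := ne_none_of_mem hpA
      rw [dbe_jm be O k hn] at hne ⊢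
      by_cases hpO : p ∈ O
      · rw [if_pos hpO, hmem h1 h2 (!k) hpA, hmem h1 h2 k hpA]
        have := g0 p hpO
        cases k
        · simpa using this
        · simp only [Bool.not_true, Bool.false_eq_true, if_false, if_true]; tauto
      · have hpD : p ∈ D := Finset.mem_sdiff.2 ⟨hpA, hpO⟩
        rw [if_neg hpO] at hne ⊢
        have hne' : be p ≠ p := fun e => hne (by rw [e])
        rw [hmem h1 h2 k (hDA (h.1 p hpD)), hmem h1 h2 k hpA]
        cases k
        · simpa using g1 p hpD hne'
        · simpa using g2 p hpD hne'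
  have hpb : ∀ {B1 B2 : Finset (Port T)}, B1 ⊆ ports A → B2 ⊆ ports A →
      pb (dch ch O) (ports A') (JJ B1 B2) = pb ch D B1 + pb ch D B2 := by
    intro B1 B2 h1 h2
    unfold pb
    rw [hA', ports_double, Finset.sum_union (ports_disj2 A), Finset.sum_map, Finset.sum_map]
    have key : ∀ k : Bool, ∑ p ∈ ports A, dch ch O (je k p) * sg (decide (je k p ∈ JJ B1 B2)) =
        ∑ p ∈ D, ch p * sg (decide (p ∈ (if k then B2 else B1))) := by
      intro k
      rw [hD, ← Finset.sum_sdiff hO]
      have e0 : ∑ p ∈ O, dch ch O (je k p) * sg (decide (je k p ∈ JJ B1 B2)) = 0 := by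
        refine Finset.sum_eq_zero fun p hp => ?_
        show dch ch O (jm k p) * _ = 0
        rw [dch_jm, if_pos hp, zero_mul]
      rw [e0, add_zero]
      refine Finset.sum_congr rfl fun p hp => ?_
      show dch ch O (jm k p) * sg (decide (jm k p ∈ JJ B1 B2)) = _
      rw [dch_jm, if_neg (Finset.mem_sdiff.1 hp).2,
        decide_eq_decide.2 (hmem h1 h2 k (Finset.mem_sdiff.1 hp).1)]
    rw [key false, key true]
    simp
  have htl : ∀ {B1 B2 : Finset (Port T)}, B1 ⊆ ports A → B2 ⊆ ports A →
      tilesF A' (ov (ports A') (JJ B1 B2) fun _ => false) =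
        tilesF A (fun p => decide (p ∈ B1)) * tilesF A (fun p => decide (p ∈ B2)) := by
    intro B1 B2 h1 h2
    rw [hA', tiles_double]
    congr 1
    · refine sees_tiles A _ _ fun p hp => ?_
      show ov _ _ _ (jm false p) = _
      unfold ov
      rw [if_pos (by rw [mem_ports_double, un_jm]; exact hp)]
      exact decide_eq_decide.2 (by simpa using hmem h1 h2 false hp)
    · refine sees_tiles A _ _ fun p hp => ?_
      show ov _ _ _ (jm true p) = _
      unfold ov
      rw [if_pos (by rw [mem_ports_double, un_jm]; exact hp)]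
      exact decide_eq_decide.2 (by simpa using hmem h1 h2 true hp)
  have hsub : ∀ {B C : Finset (Port T)}, B ⊆ O → C ⊆ D → B ∪ C ⊆ ports A := fun hB hC =>
    Finset.union_subset (hB.trans hO) (hC.trans hDA)
  have hOD : ∀ {p : Port T}, p ∈ O → p ∉ D := fun hp k => (Finset.mem_sdiff.1 k).2 hp
  -- bijection
  refine Finset.sum_bij'
    (fun x _ => JJ (x.1 ∪ x.2.1) ((O \ x.1) ∪ x.2.2))
    (fun B _ => (O.filter fun p => jm false p ∈ B, D.filter fun p => jm false p ∈ B,
      D.filter fun p => jm true p ∈ B)) ?_ ?_ ?_ ?_ ?_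
  · rintro ⟨B, C1, C2⟩ hx
    simp only [Finset.mem_product, Finset.mem_powerset, Finset.mem_filter] at hx ⊢
    obtain ⟨hB, ⟨hC1, g1⟩, hC2, g2⟩ := hx
    have s1 := hsub hB hC1
    have s2 := hsub (Finset.sdiff_subset (s := O) (t := B)) hC2
    refine ⟨?_, (hgb s1 s2).2 ⟨fun p hp => ?_, ?_, ?_⟩⟩
    · rw [hA', ports_double]
      exact Finset.union_subset_union (Finset.map_subset_map.2 s1) (Finset.map_subset_map.2 s2)
    · have h1 : p ∉ C1 := fun k => hOD hp (hC1 k)
      have h2 : p ∉ C2 := fun k => hOD hp (hC2 k)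
      simp [h1, h2, hp]
    · intro p hp hne
      have h1 : p ∉ B := fun k => hOD (hB k) hp
      have h2 : be p ∉ B := fun k => hOD (hB k) (h.1 p hp)
      simpa [h1, h2] using g1 p hp hne
    · intro p hp hne
      have h1 : p ∉ O := fun k => hOD k hp
      have h2 : be p ∉ O := fun k => hOD k (h.1 p hp)
      simpa [h1, h2] using g2 p hp hne
  · intro B hB
    simp only [Finset.mem_product, Finset.mem_powerset, Finset.mem_filter] at hB ⊢
    obtain ⟨hB, g⟩ := hB
    refine ⟨Finset.filter_subset _ _, ⟨Finset.filter_subset _ _, fun p hp hne => ?_⟩,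
      Finset.filter_subset _ _, fun p hp hne => ?_⟩
    · have hpA := hDA hp
      have := g (jm false p) (by rw [hA', mem_ports_double, un_jm]; exact hpA)
      rw [dbe_jm be O false (ne_none_of_mem hpA), if_neg (Finset.mem_sdiff.1 hp).2] at this
      have h3 := this fun e => hne (jm_inj false e)
      simpa [hp, h.1 p hp] using h3
    · have hpA := hDA hp
      have := g (jm true p) (by rw [hA', mem_ports_double, un_jm]; exact hpA)
      rw [dbe_jm be O true (ne_none_of_mem hpA), if_neg (Finset.mem_sdiff.1 hp).2] at this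
      have h3 := this fun e => hne (jm_inj true e)
      simpa [hp, h.1 p hp] using h3
  · rintro ⟨B, C1, C2⟩ hx
    simp only [Finset.mem_product, Finset.mem_powerset, Finset.mem_filter] at hx
    obtain ⟨hB, ⟨hC1, g1⟩, hC2, g2⟩ := hx
    have s1 := hsub hB hC1
    have s2 := hsub (Finset.sdiff_subset (s := O) (t := B)) hC2
    simp only [Prod.mk.injEq]
    refine ⟨?_, ?_, ?_⟩
    · ext p
      rw [Finset.mem_filter]
      constructor
      · rintro ⟨hp, h1⟩
        rw [hmem s1 s2 false (hO hp)] at h1
        simp only [Bool.false_eq_true, if_false, Finset.mem_union] at h1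
        exact h1.resolve_right fun k => hOD hp (hC1 k)
      · intro hp
        refine ⟨hB hp, ?_⟩
        rw [hmem s1 s2 false (hO (hB hp))]
        simp [hp]
    · ext p
      rw [Finset.mem_filter]
      constructor
      · rintro ⟨hp, h1⟩
        rw [hmem s1 s2 false (hDA hp)] at h1
        simp only [Bool.false_eq_true, if_false, Finset.mem_union] at h1
        exact h1.resolve_left fun k => hOD (hB k) hp
      · intro hp
        refine ⟨hC1 hp, ?_⟩
        rw [hmem s1 s2 false (hDA (hC1 hp))]
        simp [hp]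
    · ext p
      rw [Finset.mem_filter]
      constructor
      · rintro ⟨hp, h1⟩
        rw [hmem s1 s2 true (hDA hp)] at h1
        simp only [if_true, Finset.mem_union] at h1
        exact h1.resolve_left fun k => hOD (Finset.mem_sdiff.1 k).1 hp
      · intro hp
        refine ⟨hC2 hp, ?_⟩
        rw [hmem s1 s2 true (hDA (hC2 hp))]
        simp [hp]
  · intro B hB
    simp only [Finset.mem_powerset, Finset.mem_filter] at hB
    obtain ⟨hB, g⟩ := hB
    have s1 : (O.filter fun p => jm false p ∈ B) ∪ (D.filter fun p => jm false p ∈ B) ⊆ ports A :=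
      hsub (Finset.filter_subset _ _) (Finset.filter_subset _ _)
    have s2 : (O \ (O.filter fun p => jm false p ∈ B)) ∪ (D.filter fun p => jm true p ∈ B) ⊆
        ports A := hsub Finset.sdiff_subset (Finset.filter_subset _ _)
    have hsp : ∀ {p : Port T}, p ∈ ports A → p ∈ O ∨ p ∈ D := fun {p} hp => by
      by_cases hpO : p ∈ O
      · exact Or.inl hpO
      · exact Or.inr (Finset.mem_sdiff.2 ⟨hp, hpO⟩)
    have key : ∀ (k : Bool) {p : Port T}, p ∈ ports A →
        (jm k p ∈ JJ ((O.filter fun p => jm false p ∈ B) ∪ (D.filter fun p => jm false p ∈ B))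
          ((O \ (O.filter fun p => jm false p ∈ B)) ∪ (D.filter fun p => jm true p ∈ B)) ↔
          jm k p ∈ B) := by
      intro k p hp
      rw [hmem s1 s2 k hp]
      cases k
      · simp only [Bool.false_eq_true, if_false, Finset.mem_union, Finset.mem_filter]
        rcases hsp hp with k | k
        · simp [k]
        · simp [k]
      · simp only [if_true, Finset.mem_union, Finset.mem_filter, Finset.mem_sdiff]
        rcases hsp hp with k | k
        · have hn : p ≠ none := ne_none_of_mem hp
          have h4 := g (jm false p) (by rw [hA', mem_ports_double, un_jm]; exact hp)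
          rw [dbe_jm be O false hn, if_pos k] at h4
          have h5 : jm true p ∈ B ↔ jm false p ∉ B := h4 (jm_ne hn).symm
          have h6 : p ∉ D := hOD k
          simp only [k, true_and, h6, false_and, or_false]
          exact h5.symm
        · have h6 : p ∉ O := (Finset.mem_sdiff.1 k).2
          simp [k, h6]
    ext q
    constructor
    · intro hq
      have hqA : q ∈ ports A' := by
        rw [hA', ports_double]
        exact Finset.union_subset_union (Finset.map_subset_map.2 s1) (Finset.map_subset_map.2 s2) hq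
      have hp : un q ∈ ports A := mem_ports_double.1 (hA' ▸ hqA)
      have := (key (cp q) hp).1 (by rw [jm_un]; exact hq)
      rwa [jm_un] at this
    · intro hq
      have hqA : q ∈ ports A' := hB hq
      have hp : un q ∈ ports A := mem_ports_double.1 (hA' ▸ hqA)
      have := (key (cp q) hp).2 (by rw [jm_un]; exact hq)
      rwa [jm_un] at this
  · rintro ⟨B, C1, C2⟩ hx
    simp only [Finset.mem_product, Finset.mem_powerset, Finset.mem_filter] at hx
    obtain ⟨hB, ⟨hC1, g1⟩, hC2, g2⟩ := hx
    have s1 := hsub hB hC1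
    have s2 := hsub (Finset.sdiff_subset (s := O) (t := B)) hC2
    simp only
    rw [hpb s1 s2, htl s1 s2, ei_add]
    congr 2
    · congr 1
      unfold pb
      refine Finset.sum_congr rfl fun p hp => ?_
      have h1 : p ∉ B := fun k => hOD (hB k) hp
      rw [decide_eq_decide.2 (show p ∈ B ∪ C1 ↔ p ∈ C1 by simp [h1])]
    · congr 1
      unfold pb
      refine Finset.sum_congr rfl fun p hp => ?_
      have h1 : p ∉ O := fun k => hOD k hp
      rw [decide_eq_decide.2 (show p ∈ (O \ B) ∪ C2 ↔ p ∈ C2 by simp [h1])]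

/-! ### averages -/

open MeasureTheory ProbabilityTheory
open Crest.Agent.R158.Rs689 Crest.Agent.R158.Nm211

/-- **an average over the splittings of `A` is an expectation** -/
theorem avg {ι : Type*} [DecidableEq ι] (A : Finset ι) {f : (ι → Bool) → ℝ} (hf' : DepF A f) :
    ∫ s, f s ∂(PB fun _ : ι => hf) =
      (1 / 2) ^ A.card * ∑ S ∈ A.powerset, f fun t => decide (t ∈ S) := by
  have h1 := integral_restrict (fun _ : ι => hf) A (fun y => f (Nm211.ext A y))
  have h2 : ∀ z : ι → Bool, f (Nm211.ext A (A.restrict z)) = f z := fun z =>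
    hf' _ _ fun u hu => by simp [Nm211.ext, hu, Finset.restrict]
  simp_rw [h2] at h1
  rw [h1, Finset.mul_sum]
  have hw : ∀ y : A → Bool, wt (fun _ : ι => hf) A y = (1 / 2 : ℝ) ^ A.card := by
    intro y
    unfold wt
    have h : ∀ e : A, (Rs689.bern hf).real {y e} = 1 / 2 := by
      intro e
      cases y e
      · rw [bern_real_false]; show (1 : ℝ) - 1 / 2 = 1 / 2; norm_num
      · rw [bern_real_true]; rfl
    simp_rw [h]
    rw [Finset.prod_const, Finset.card_univ, Fintype.card_coe]
  refine Finset.sum_bij' (fun y _ => (Finset.univ.filter fun e : A => y e = true).map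
      (Function.Embedding.subtype _)) (fun S _ e => decide (e.1 ∈ S)) ?_ ?_ ?_ ?_ ?_
  · intro y _
    rw [Finset.mem_powerset]
    intro e he
    simp only [Finset.mem_map, Finset.mem_filter, Finset.mem_univ, true_and,
      Function.Embedding.subtype_apply, Subtype.exists] at he
    obtain ⟨a, ha, _, rfl⟩ := he
    exact ha
  · intro S _
    simp
  · intro y _
    funext e
    by_cases h : y e = true
    · simp [h]
    · have h' : y e = false := by simpa using h
      simp [h']
  · intro S hS
    rw [Finset.mem_powerset] at hS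
    ext e
    simp only [Finset.mem_map, Finset.mem_filter, Finset.mem_univ, true_and,
      Function.Embedding.subtype_apply, decide_eq_true_eq, Subtype.exists, exists_and_right,
      exists_eq_right]
    exact ⟨fun h => h.2, fun h => ⟨hS h, h⟩⟩
  · intro y _
    rw [hw]
    congr 1
    refine hf' _ _ fun u hu => ?_
    by_cases h : y ⟨u, hu⟩ = true
    · simp [Nm211.ext, hu, h]
    · have h' : y ⟨u, hu⟩ = false := by simpa using h
      simp [Nm211.ext, hu, h']

/-- the value of the network, a real number -/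
def zr (A : Finset T) (be : Port T → Port T) (ch : Port T → ℝ) (s : T → Bool) : ℝ :=
  ((tnet A s be ch).z (ports A)).re

lemma zr_dep (A : Finset T) (be : Port T → Port T) (ch : Port T → ℝ) :
    DepF A (zr A be ch) := by
  intro s s' h
  unfold zr
  rw [tnet_congr be ch h (Finset.Subset.refl _)]

lemma zr_eq {A : Finset T} {be : Port T → Port T} (ch : Port T → ℝ) (s : T → Bool)
    (hb : ∀ p ∈ ports A, be p ∈ ports A) (hb2 : ∀ p ∈ ports A, be (be p) = p) :
    (tnet A s be ch).z (ports A) = (zr A be ch s : ℂ) := by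
  obtain ⟨r, hr⟩ := Net.z_real (tnet_ok (s := s) (ch := ch) hb hb2)
    (Net.Ok.clV (tnet_ok (s := s) (ch := ch) hb hb2))
  have hr' : (tnet A s be ch).z (ports A) = (r : ℂ) := hr
  unfold zr
  rw [hr']
  simp


lemma dbe_mem {be : Port T → Port T} {A : Finset T} {O : Finset (Port T)}
    (h : ∀ p ∈ ports A \ O, be p ∈ ports A \ O) :
    ∀ q ∈ ports (A ×ˢ (univ : Finset Bool)), dbe be O q ∈ ports (A ×ˢ (univ : Finset Bool)) := by
  intro q hq
  rw [mem_ports_double] at hq ⊢
  unfold dbe
  split_ifs with h1
  · rw [un_jm]; exact hq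
  · rw [un_jm]
    exact (Finset.mem_sdiff.1 (h _ (Finset.mem_sdiff.2 ⟨hq, h1⟩))).1

lemma dbe_inv {be : Port T → Port T} {A : Finset T} {O : Finset (Port T)}
    (h : ∀ p ∈ ports A \ O, be p ∈ ports A \ O) (h2 : ∀ p ∈ ports A \ O, be (be p) = p) :
    ∀ q ∈ ports (A ×ˢ (univ : Finset Bool)), dbe be O (dbe be O q) = q := by
  intro q hq
  rw [mem_ports_double] at hq
  obtain ⟨p, k, rfl, hpA⟩ : ∃ p k, jm k p = q ∧ p ∈ ports A := ⟨_, _, jm_un q, hq⟩
  have hn : p ≠ none := ne_none_of_mem hpA
  rw [dbe_jm be O k hn]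
  split_ifs with h1
  · rw [dbe_jm be O (!k) hn, if_pos h1, Bool.not_not]
  · have hpD := Finset.mem_sdiff.2 ⟨hpA, h1⟩
    have h3 := h p hpD
    rw [Finset.mem_sdiff] at h3
    rw [dbe_jm be O k (ne_none_of_mem h3.1), if_neg h3.2, h2 p hpD]

/-- **norm link, expectation form** -/
theorem norm_exp {be : Port T → Port T} {ch : Port T → ℝ}
    {Φ : ((Port T → Bool) → ℂ) → (Port T → Bool) → ℂ} {A : Finset T} {O : Finset (Port T)}
    (hO : O ⊆ ports A) (h : Rep be ch Φ (ports A \ O)) (h2 : ∀ p ∈ ports A \ O, be (be p) = p) :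
    ∑ B ∈ O.powerset, ‖Φ (tilesF A) (fun p => decide (p ∈ B))‖ ^ 2 =
      ∫ s, zr (A ×ˢ univ) (dbe be O) (dch ch O) s ∂(PB fun _ : T × Bool => hf) := by
  have h3 := norm_rep hO h
  have h4 : ∀ S : Finset (T × Bool), (tnet (A ×ˢ univ) (fun t => decide (t ∈ S)) (dbe be O)
      (dch ch O)).z (ports (A ×ˢ univ)) = _ := fun S =>
    zr_eq (dch ch O) (fun t => decide (t ∈ S)) (dbe_mem h.1) (dbe_inv h.1 h2)
  rw [Finset.sum_congr rfl fun S _ => h4 S] at h3
  rw [avg _ (zr_dep _ _ _)]
  apply Complex.ofReal_injective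
  rw [h3]
  push_cast
  rfl

end Crest.Agent.R158.Nz399
end
private theorem rz_b3f1771676 : type_of% @_root_.Crest.Agent.R158.Nz399.cp.eq_1 := @_root_.Crest.Agent.R158.Nz399.cp.eq_1 -- L35
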