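import Crest.Agent.R158.Ao11_857
import Crest.Agent.R158.Ad5_350
import Crest.Agent.R158.Nz4_399
import Crest.Agent.R158.Cs1_410

/-!
# Row 158: norms of the half environments as doubled networks (helper857)

* `opL_sees'`, `InZ_const`, `OutZ_const` : the vectors do not depend on the arrows outside
* `low_rep`, `up_rep` : the half environments as `Rep` operations
* `low_nrm`, `up_nrm` : `‖That ^ (a + 1) In‖ ^ 2` = expectation of the doubled network
-/

set_option autoImplicit false

noncomputable section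

open Finset Matrix MeasureTheory

namespace Crest.Agent.R158.Ao857

open Crest.Agent.R158.Ad350
open Crest.Agent.R158.Ad350.St (glueL)
open Crest.Agent.R158.Sw300 (Port)
open Crest.Agent.R158.Bd932 (That e3)
open Crest.Agent.R158.Nz399 (dbe dch zr norm_exp)
open Crest.Agent.R158.Cs410 (nrm nrm_sq)
open Crest.Agent.R158.Rs689 (PB hf)
open Crest.Agent.R158.Env664 (TG Band Run PortOf portOf_some portOf_none nbP res res_of Adj4 z4)

section gen
variable {P : Type*} [DecidableEq P]

theorem opL_sees' : ∀ (l : List (Op P)) {A : Set P} {F : (P → Bool) → ℂ}, Sees F A →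
    Sees (opL l F) (A \ {q | q ∈ flat l}) := by
  intro l
  induction l with
  | nil =>
    intro A F hF
    rw [opL_nil]
    exact hF.mono fun q hq => ⟨hq, by simp [flat]⟩
  | cons o l ih =>
    intro A F hF
    rw [opL_cons]
    have h1 : Sees (opF o F) (A \ {q | q ∈ o.pts}) := by
      cases o with
      | inl e =>
        refine (ctr_sees hF e.1 e.2.1 e.2.2).mono ?_
        intro q hq
        refine ⟨hq.1, fun h => hq.2 ?_⟩
        simpa [Op.pts] using h
      | inr e =>
        refine (cut_sees hF e.1 e.2).mono ?_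
        intro q hq
        refine ⟨hq.1, fun h => hq.2 ?_⟩
        simpa [Op.pts] using h
    refine (ih h1).mono ?_
    intro q hq
    refine ⟨hq.1.1, fun h => ?_⟩
    have h' : q ∈ flat (o :: l) := h
    rw [mem_flat] at h'
    obtain ⟨o', ho', hq'⟩ := h'
    rcases List.mem_cons.1 ho' with rfl | ho'
    · exact hq.1.2 hq'
    · exact hq.2 (mem_flat.2 ⟨o', ho', hq'⟩)


/-- arrows on the open ports -/
lemma sum_pow_image {m : ℕ} {t : Fin m → P} (ht : Function.Injective t)
    (f : (Fin m → Bool) → ℝ) :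
    ∑ B ∈ (univ.image t).powerset, f (fun i => decide (t i ∈ B)) = ∑ s : Fin m → Bool, f s := by
  refine Finset.sum_bij' (fun B _ => fun i => decide (t i ∈ B))
    (fun s _ => (univ.filter fun i => s i = true).image t) (fun _ _ => Finset.mem_univ _) ?_ ?_ ?_ ?_
  · intro s _
    rw [Finset.mem_powerset]
    exact Finset.image_subset_image (Finset.filter_subset _ _)
  · intro B hB
    rw [Finset.mem_powerset] at hB
    ext q
    rw [Finset.mem_image]
    constructor
    · rintro ⟨i, hi, rfl⟩
      simpa using hi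
    · intro hq
      obtain ⟨i, -, rfl⟩ := Finset.mem_image.1 (hB hq)
      exact ⟨i, by simpa using hq, rfl⟩
  · intro s _
    funext i
    have : t i ∈ (univ.filter fun i => s i = true).image t ↔ s i = true := by
      rw [Finset.mem_image]
      constructor
      · rintro ⟨j, hj, e⟩
        rw [← ht e]
        simpa using hj
      · intro hi
        exact ⟨i, by simpa using hi, rfl⟩
    rcases h : s i with _ | _
    · rw [decide_eq_false_iff_not, this, h]; simp
    · rw [decide_eq_true_eq, this, h]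
  · intro B _
    rfl

end gen

variable {A : Finset (ℤ × ℤ)} (B : Band A)

theorem InZ_const {p y0 : ℤ} (h : B.At p y0) {Al Au : Finset (ℤ × ℤ)} (hs : Split B Al Au)
    (hadj : ∀ s ∈ Al, ∀ t ∈ Au, ¬ Adj4 s t) (φ : Port TG → ℝ) (σ σ' : Port TG → Bool) :
    InZ B Al φ (plainL A Al φ) σ = InZ B Al φ (plainL A Al φ) σ' := by
  funext t
  have h1 := InV_sees (Dl B Al) (fun i => φ (uP B i)) (x := xP B)
    (opL_sees' (plainL A Al φ) (tilesF_sees (Al.map inlE))) t
  refine h1 σ σ' ?_
  rintro q ⟨⟨hq1, hq2⟩, hq3⟩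
  exfalso
  apply hq2
  show q ∈ flat (plainL A Al φ)
  rw [plain_low B h hs hadj]
  exact ⟨Finset.mem_coe.1 hq1, fun i hi => hq3 ⟨i, hi.symm⟩⟩


/-- open ports of the lower half environment -/
def topO (a : ℕ) : Finset (Port TG) := univ.image (topP B a)
/-- open ports of the upper half environment -/
def botO (b : ℕ) : Finset (Port TG) := univ.image (botP B b)

lemma mem_topO {a : ℕ} {q : Port TG} : q ∈ topO B a ↔ ∃ i, q = topP B a i := by
  unfold topO
  rw [Finset.mem_image]
  simp only [Finset.mem_univ, true_and]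
  exact exists_congr fun i => eq_comm


lemma topO_sub (Al : Finset (ℤ × ℤ)) (a : ℕ) : topO B a ⊆ ports (lowM B Al a) := by
  intro q hq
  obtain ⟨i, rfl⟩ := (mem_topO B).1 hq
  exact mem_ports.2 (Finset.mem_union_right _ ((gI_mem_rows B).2 ⟨i.2, by omega, by omega⟩))


theorem low_rep {p y0 : ℤ} (h : B.At p y0) {Al Au : Finset (ℤ × ℤ)} (hs : Split B Al Au)
    (hadj : ∀ s ∈ Al, ∀ t ∈ Au, ¬ Adj4 s t) (c c' : ℝ) (φ : Port TG → ℝ) {a : ℕ}
    (ha : B.y1 + (a : ℤ) < y0) :
    Rep (beL B p y0) (chL B p y0 c c' φ) (opL (lowL B Al a c φ))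
      (ports (lowM B Al a) \ topO B a) := by
  have hcov := low_cover B h hs hadj c φ (a := a) (by have := h.hy2; omega)
  have h1 : (flat (lowL B Al a c φ)).toFinset = ports (lowM B Al a) \ topO B a := by
    ext q
    rw [List.mem_toFinset, hcov.2, Finset.mem_sdiff, mem_topO]
    push Not
    rfl
  rw [← h1]
  refine rep_opL hcov.1 fun o ho => ?_
  have h2 := low_ok B h hs hadj c c' φ ha o ho
  cases o with
  | inl e => exact h2
  | inr e => exact h2


lemma ports_ne_none {T : Type*} [DecidableEq T] {C : Finset T} {q : Port T} (h : q ∈ ports C) :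
    q ≠ none := by rintro rfl; exact none_ports h

/-- **the norm of the lower half environment** -/
theorem low_nrm {p y0 : ℤ} (h : B.At p y0) {Al Au : Finset (ℤ × ℤ)} (hs : Split B Al Au)
    (hadj : ∀ s ∈ Al, ∀ t ∈ Au, ¬ Adj4 s t) (c c' : ℝ) (φ : Port TG → ℝ) {a : ℕ}
    (ha : B.y1 + (a : ℤ) < y0) (σ : Port TG → Bool) :
    nrm (That (nn B + 1) c (1 / 2) ^ (a + 1) *ᵥ InZ B Al φ (plainL A Al φ) σ) ^ 2 =
      ∫ s, zr (lowM B Al a ×ˢ univ) (dbe (beL B p y0) (topO B a))
        (dch (chL B p y0 c c' φ) (topO B a)) s ∂(PB fun _ : TG × Bool => hf) := by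
  rw [← norm_exp (topO_sub B Al a) (low_rep B h hs hadj c c' φ ha) (fun q hq =>
    beL_invol B h (ports_ne_none (Finset.mem_sdiff.1 hq).1)), nrm_sq,
    ← sum_pow_image (topP_inj B a) (fun s => ‖(That (nn B + 1) c (1 / 2) ^ (a + 1) *ᵥ
      InZ B Al φ (plainL A Al φ) σ) s‖ ^ 2)]
  refine Finset.sum_congr rfl fun C _ => ?_
  have h1 := congrFun (low_amp B h hs c φ (Ll := plainL A Al φ) plainL_ports (a := a)
    (by have := h.hy2; omega)) (fun q => decide (q ∈ C))
  rw [lowL, h1, InZ_const B h hs hadj φ (fun q => decide (q ∈ C)) σ]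


end Crest.Agent.R158.Ao857
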