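import Crest.Agent.R158.Ad1_350
import Crest.Agent.R158.Bm7_857
import Crest.Agent.R158.Ad2_350
import Crest.Agent.R158.Env_664

-- ▼ part R158/Ao1_857
section

/-!
# Row 158: glueing many pairs at once (helper857)

* `ovr x τ σ` : overwrite the arrows at the ports `x i`
* `glueL_pairs` : glueing `m` disjoint pairs = one sum ovr `Fin m → Bool`
* `Sees F A` : `F` depends only on the ports in `A`; `glueL_mul_right`, `glueL_mul_left`
* `glue_stack` : glueing two networks
* `glueL_perm` : the order does not matter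
-/

set_option autoImplicit false

noncomputable section

open Finset

namespace Crest.Agent.R158.Ao857

open Crest.Agent.R158.Ad350
open Crest.Agent.R158.Ad350.St (glueL glueL_nil glueL_cons glueL_smul)

variable {P : Type*} [DecidableEq P]

/-- overwrite the arrows at the ports `x i` -/
def ovr {m : ℕ} (x : Fin m → P) (τ : Fin m → Bool) (σ : P → Bool) : P → Bool := fun q =>
  if h : ∃ i, x i = q then τ h.choose else σ q

lemma ovr_self {m : ℕ} {x : Fin m → P} (hx : Function.Injective x) (τ : Fin m → Bool)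
    (σ : P → Bool) (i : Fin m) : ovr x τ σ (x i) = τ i := by
  have h : ∃ j, x j = x i := ⟨i, rfl⟩
  rw [ovr, dif_pos h]
  exact congrArg τ (hx h.choose_spec)

lemma ovr_ne {m : ℕ} {x : Fin m → P} (τ : Fin m → Bool) (σ : P → Bool) {q : P}
    (h : ∀ i, x i ≠ q) : ovr x τ σ q = σ q := by
  rw [ovr, dif_neg]
  rintro ⟨i, hi⟩
  exact h i hi

lemma glueL_append (l l' : List (ℝ × P × P)) (F : (P → Bool) → ℂ) :
    glueL (l ++ l') F = glueL l' (glueL l F) := by
  unfold glueL
  rw [List.foldl_append]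

/-- glueing `m` disjoint pairs = one sum -/
theorem glueL_pairs : ∀ {m : ℕ} (χ : Fin m → ℝ) (x y : Fin m → P), Function.Injective x →
    Function.Injective y → (∀ i j, x i ≠ y j) → ∀ (F : (P → Bool) → ℂ) (σ : P → Bool),
    glueL (List.ofFn fun i => (χ i, x i, y i)) F σ =
      ∑ τ : Fin m → Bool, (∏ i, ei (χ i * sg (τ i))) *
        F (ovr x τ (ovr y (fun i => !τ i) σ)) := by
  intro m
  induction m with
  | zero =>
    intro χ x y _ _ _ F σ
    rw [List.ofFn_zero, glueL_nil]
    simp only [univ_unique, prod_of_isEmpty, one_mul, sum_singleton]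
    rfl
  | succ m ih =>
    intro χ x y hx hy hxy F σ
    have hx' : Function.Injective fun i : Fin m => x i.succ := fun i j h =>
      Fin.succ_injective _ (hx h)
    have hy' : Function.Injective fun i : Fin m => y i.succ := fun i j h =>
      Fin.succ_injective _ (hy h)
    rw [List.ofFn_succ, glueL_cons, ih (fun i => χ i.succ) (fun i => x i.succ)
      (fun i => y i.succ) hx' hy' (fun i j => hxy _ _), ← (Fin.consEquiv
      fun _ : Fin (m + 1) => Bool).sum_comp, Fintype.sum_prod_type, Finset.sum_comm]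
    refine Finset.sum_congr rfl fun τ _ => ?_
    simp only [ctr, Finset.mul_sum, Fin.consEquiv_apply]
    refine Finset.sum_congr rfl fun τ0 _ => ?_
    rw [Fin.prod_univ_succ]
    simp only [Fin.cons_zero, Fin.cons_succ]
    have e : Function.update (Function.update (ovr (fun i => x i.succ) τ
        (ovr (fun i => y i.succ) (fun i => !τ i) σ)) (x 0) τ0) (y 0) (!τ0) =
        ovr x (Fin.cons τ0 τ : Fin (m + 1) → Bool)
          (ovr y (fun i => !(Fin.cons τ0 τ : Fin (m + 1) → Bool) i) σ) := by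
      funext q
      by_cases h1 : q = y 0
      · subst h1
        rw [Function.update_self, ovr_ne _ _ (fun i => hxy i 0), ovr_self hy]
        rfl
      · rw [Function.update_of_ne h1]
        by_cases h2 : q = x 0
        · subst h2
          rw [Function.update_self, ovr_self hx]
          rfl
        · rw [Function.update_of_ne h2]
          by_cases h3 : ∃ i : Fin m, x i.succ = q
          · obtain ⟨i, rfl⟩ := h3
            rw [ovr_self hx, ovr_self (x := fun i : Fin m => x i.succ) hx' τ _ i]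
            rfl
          · rw [not_exists] at h3
            rw [ovr_ne (x := fun i : Fin m => x i.succ) _ _ h3, ovr_ne (x := x) _ _ (fun i => by
              refine Fin.cases (fun h => h2 h.symm) (fun i => h3 i) i)]
            by_cases h4 : ∃ i : Fin m, y i.succ = q
            · obtain ⟨i, rfl⟩ := h4
              rw [ovr_self hy, ovr_self (x := fun i : Fin m => y i.succ) hy' _ _ i]
              rfl
            · rw [not_exists] at h4
              rw [ovr_ne (x := fun i : Fin m => y i.succ) _ _ h4, ovr_ne (x := y) _ _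
                (fun i => by refine Fin.cases (fun h => h1 h.symm) (fun i => h4 i) i)]
    rw [e]
    change _ = _ * F (ovr x (Fin.cons τ0 τ : Fin (m + 1) → Bool)
          (ovr y (fun i => !(Fin.cons τ0 τ : Fin (m + 1) → Bool) i) σ))
    ring

/-! ### locality -/

/-- `F` depends only on the ports in `A` -/
def Sees (F : (P → Bool) → ℂ) (A : Set P) : Prop :=
  ∀ σ σ' : P → Bool, (∀ q ∈ A, σ q = σ' q) → F σ = F σ'

omit [DecidableEq P] in
lemma Sees.mono {F : (P → Bool) → ℂ} {A B : Set P} (h : Sees F A) (hAB : A ⊆ B) : Sees F B :=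
  fun σ σ' h' => h σ σ' fun q hq => h' q (hAB hq)

omit [DecidableEq P] in
lemma Sees.mul {F G : (P → Bool) → ℂ} {A : Set P} (hF : Sees F A) (hG : Sees G A) :
    Sees (fun σ => F σ * G σ) A := fun σ σ' h => by
  show F σ * G σ = F σ' * G σ'
  rw [hF σ σ' h, hG σ σ' h]

lemma Sees.update {F : (P → Bool) → ℂ} {A : Set P} (h : Sees F A) {a : P} (ha : a ∉ A)
    (σ : P → Bool) (v : Bool) : F (Function.update σ a v) = F σ :=
  h _ _ fun q hq => Function.update_of_ne (fun e : q = a => ha (by rwa [← e])) _ _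

lemma ctr_mul_right {F G : (P → Bool) → ℂ} {A : Set P} (hG : Sees G A) (χ : ℝ) {a b : P}
    (ha : a ∉ A) (hb : b ∉ A) :
    ctr χ a b (fun σ => F σ * G σ) = fun σ => ctr χ a b F σ * G σ := by
  funext σ
  simp only [ctr, Finset.sum_mul]
  refine Finset.sum_congr rfl fun τ _ => ?_
  rw [hG.update hb, hG.update ha]
  ring

lemma glueL_mul_right {G : (P → Bool) → ℂ} {A : Set P} (hG : Sees G A) :
    ∀ (l : List (ℝ × P × P)), (∀ e ∈ l, e.2.1 ∉ A ∧ e.2.2 ∉ A) → ∀ F : (P → Bool) → ℂ,
    glueL l (fun σ => F σ * G σ) = fun σ => glueL l F σ * G σ := by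
  intro l
  induction l with
  | nil => intro _ F; rfl
  | cons e l ih =>
    intro h F
    have h1 := h e List.mem_cons_self
    rw [glueL_cons, ctr_mul_right hG e.1 h1.1 h1.2,
      ih (fun e' he' => h e' (List.mem_cons_of_mem _ he')), glueL_cons]

lemma glueL_mul_left {F G : (P → Bool) → ℂ} {A : Set P} (hG : Sees G A)
    (l : List (ℝ × P × P)) (h : ∀ e ∈ l, e.2.1 ∉ A ∧ e.2.2 ∉ A) :
    glueL l (fun σ => G σ * F σ) = fun σ => G σ * glueL l F σ := by
  have e : (fun σ => G σ * F σ) = fun σ => F σ * G σ := by funext σ; ring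
  rw [e, glueL_mul_right hG l h F]
  funext σ
  ring

lemma Sees.ovr {F : (P → Bool) → ℂ} {A : Set P} (h : Sees F A) {m : ℕ} {x : Fin m → P}
    (hx : ∀ i, x i ∉ A) (τ : Fin m → Bool) (σ : P → Bool) : F (ovr x τ σ) = F σ :=
  h _ _ fun q hq => ovr_ne _ _ fun i e => hx i (by rwa [e])

lemma ovr_comm {m : ℕ} {x y : Fin m → P} (hxy : ∀ i j, x i ≠ y j) (τ τ' : Fin m → Bool)
    (σ : P → Bool) : ovr x τ (ovr y τ' σ) = ovr y τ' (ovr x τ σ) := by
  funext q
  by_cases h : ∃ i, x i = q
  · obtain ⟨i, rfl⟩ := h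
    rw [ovr_ne (x := y) _ _ (fun j e => hxy i j e.symm)]
    unfold Ao857.ovr
    rw [dif_pos ⟨i, rfl⟩, dif_pos ⟨i, rfl⟩]
  · have h1 : ∀ i, x i ≠ q := fun i e => h ⟨i, e⟩
    rw [ovr_ne _ _ h1]
    by_cases h' : ∃ i, y i = q
    · unfold Ao857.ovr
      rw [dif_pos h', dif_pos h']
    · have h2 : ∀ i, y i ≠ q := fun i e => h' ⟨i, e⟩
      rw [ovr_ne _ _ h2, ovr_ne _ _ h2, ovr_ne _ _ h1]

/-- glueing two networks -/
theorem glue_stack {m : ℕ} (χ : Fin m → ℝ) {x y : Fin m → P} (hx : Function.Injective x)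
    (hy : Function.Injective y) (hxy : ∀ i j, x i ≠ y j) {F G : (P → Bool) → ℂ} {A B : Set P}
    (hF : Sees F A) (hG : Sees G B) (hyA : ∀ i, y i ∉ A) (hxB : ∀ i, x i ∉ B) (σ : P → Bool) :
    glueL (List.ofFn fun i => (χ i, x i, y i)) (fun σ => F σ * G σ) σ =
      ∑ τ : Fin m → Bool, (∏ i, ei (χ i * sg (τ i))) *
        (F (ovr x τ σ) * G (ovr y (fun i => !τ i) σ)) := by
  rw [glueL_pairs χ x y hx hy hxy]
  refine Finset.sum_congr rfl fun τ _ => ?_
  have e1 : F (ovr x τ (ovr y (fun i => !τ i) σ)) = F (ovr x τ σ) := by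
    rw [ovr_comm hxy]
    exact hF.ovr hyA _ _
  have e2 : G (ovr x τ (ovr y (fun i => !τ i) σ)) = G (ovr y (fun i => !τ i) σ) :=
    hG.ovr hxB _ _
  show _ * (F _ * G _) = _
  rw [e1, e2]

/-! ### order of the glueings -/

/-- pairs of ports, pairwise disjoint -/
def Dis (l : List (ℝ × P × P)) : Prop :=
  l.Pairwise fun e e' => e.2.1 ≠ e'.2.1 ∧ e.2.1 ≠ e'.2.2 ∧ e.2.2 ≠ e'.2.1 ∧ e.2.2 ≠ e'.2.2


end Crest.Agent.R158.Ao857
end
end

-- ▼ part R158/Op1_857
section

/-!
# Row 158: the row operator as a sum over arrow fields (helper857)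

* `v6 l r d t` : isotropic percolation weight (`1/2`, `1/2`, `√3/2`)
* `prod_path` : entry of a product of matrices = sum over paths
* `That_half` : the isotropic twisted row, percolation normalisation, as a product of `v6` matrices
* `That_row` : as a sum over the auxiliary (horizontal) arrows
* `That_pow` : powers as a sum over rows of vertical arrows
-/

set_option autoImplicit false

noncomputable section

open Complex Matrix Finset
open scoped Matrix.Norms.L2Operator

namespace Crest.Agent.R158.Op857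

open Crest.Agent.R150.Base357 Crest.Agent.R150.Unit961 Crest.Agent.R150.Gap970
open Crest.Agent.R150.Vt970
open Crest.Agent.R158.Bd932 (That e3 SS_e3 ins)

/-! ### paths -/

/-- entry of a product of matrices -/
theorem prod_path {R κ : Type*} [CommSemiring R] [Fintype κ] [DecidableEq κ] : ∀ {n : ℕ}
    (A : Fin n → Matrix κ κ R) (d t : κ), (List.ofFn A).prod d t =
      ∑ h : Fin (n + 1) → κ, if h 0 = d ∧ h (Fin.last n) = t then
        ∏ j : Fin n, A j (h j.castSucc) (h j.succ) else 0 := by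
  intro n
  induction n with
  | zero =>
    intro A d t
    rw [List.ofFn_zero, List.prod_nil, Matrix.one_apply,
      ← (Equiv.funUnique (Fin 1) κ).symm.sum_comp]
    by_cases h : d = t
    · subst h
      rw [if_pos rfl, Finset.sum_eq_single d]
      · simp
      · intro x _ hx
        simp [Equiv.funUnique, hx]
      · intro hx
        exact absurd (Finset.mem_univ _) hx
    · rw [if_neg h]
      symm
      apply Finset.sum_eq_zero
      intro x _
      rw [if_neg]
      rintro ⟨h1, h2⟩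
      apply h
      rw [← h1, ← h2]
      rfl
  | succ n ih =>
    intro A d t
    rw [List.ofFn_succ, List.prod_cons, Matrix.mul_apply]
    rw [← (Fin.consEquiv fun _ : Fin (n + 2) => κ).sum_comp, Fintype.sum_prod_type]
    symm
    rw [Finset.sum_eq_single d]
    · have e1 : ∀ k : κ, A 0 d k * (List.ofFn fun i => A i.succ).prod k t =
          ∑ h : Fin (n + 1) → κ, if h 0 = k then (if h (Fin.last n) = t then
            A 0 d k * ∏ j : Fin n, A j.succ (h j.castSucc) (h j.succ) else 0) else 0 := by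
        intro k
        rw [ih, Finset.mul_sum]
        refine Finset.sum_congr rfl fun h _ => ?_
        by_cases h1 : h 0 = k
        · by_cases h2 : h (Fin.last n) = t
          · rw [if_pos ⟨h1, h2⟩, if_pos h1, if_pos h2]
          · rw [if_neg (fun h3 => h2 h3.2), if_pos h1, if_neg h2, mul_zero]
        · rw [if_neg (fun h3 => h1 h3.1), if_neg h1, mul_zero]
      rw [Finset.sum_congr rfl fun k _ => e1 k, Finset.sum_comm]
      refine Finset.sum_congr rfl fun h _ => ?_
      rw [Finset.sum_ite_eq Finset.univ (h 0), if_pos (Finset.mem_univ _)]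
      simp only [Fin.consEquiv_apply]
      have e2 : (Fin.cons d h : Fin (n + 2) → κ) (Fin.last (n + 1)) = h (Fin.last n) := by
        rw [← Fin.succ_last, Fin.cons_succ]
      rw [e2, Fin.cons_zero]
      refine if_congr (by simp) ?_ rfl
      rw [Fin.prod_univ_succ]
      simp only [Fin.castSucc_zero, Fin.cons_zero, Fin.cons_succ, ← Fin.succ_castSucc]
    · intro x _ hx
      apply Finset.sum_eq_zero
      intro h _
      rw [if_neg]
      rintro ⟨h1, _⟩
      exact hx (by simpa using h1)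
    · intro hx
      exact absurd (Finset.mem_univ _) hx


/-! ### the isotropic weights -/

/-- isotropic percolation weight -/
def v6 (l r d t : Bool) : ℂ := wt (1 / 2 : ℂ) (1 / 2) ((Real.sqrt 3 / 2 : ℝ) : ℂ) l r d t

lemma sin_six : Complex.sin ((e3 : ℂ) * (1 / 2)) = 1 / 2 := by
  have : (e3 : ℂ) * (1 / 2) = ((Real.pi / 6 : ℝ) : ℂ) := by
    rw [show e3 = Real.pi / 3 from rfl]; push_cast; ring
  rw [this, ← Complex.ofReal_sin, Real.sin_pi_div_six]
  push_cast; ring

lemma sin_half : Complex.sin ((e3 : ℂ) * (1 + 1 / 2)) = 1 := by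
  have : (e3 : ℂ) * (1 + 1 / 2) = ((Real.pi / 2 : ℝ) : ℂ) := by
    rw [show e3 = Real.pi / 3 from rfl]; push_cast; ring
  rw [this, ← Complex.ofReal_sin, Real.sin_pi_div_two]
  push_cast; ring

lemma sin_third : Complex.sin ((e3 : ℂ) * 1) = ((Real.sqrt 3 / 2 : ℝ) : ℂ) := by
  rw [mul_one, ← Complex.ofReal_sin, show e3 = Real.pi / 3 from rfl, Real.sin_pi_div_three]

lemma wt_smul (k a b c : ℂ) (l r d t : Bool) : k * wt a b c l r d t =
    wt (k * a) (k * b) (k * c) l r d t := by
  unfold wt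
  split_ifs <;> simp

lemma inv_wt (l r d t : Bool) : (SS (e3 : ℂ) (1 + 1 / 2))⁻¹ *
    wt (SS (e3 : ℂ) (1 - 1 / 2)) (SS (e3 : ℂ) (1 / 2)) (SS (e3 : ℂ) 1) l r d t =
      v6 l r d t := by
  have h3 : (e3 : ℂ) ≠ 0 := by exact_mod_cast Bd932.e3_ne
  rw [wt_smul, v6]
  have e0 : SS (e3 : ℂ) (1 + 1 / 2) = 1 / e3 := by rw [SS_e3, sin_half]
  have e1 : SS (e3 : ℂ) (1 / 2) = (1 / 2) / e3 := by rw [SS_e3, sin_six]
  have e2 : SS (e3 : ℂ) (1 - 1 / 2) = (1 / 2) / e3 := by
    rw [show (1 : ℂ) - 1 / 2 = 1 / 2 by norm_num, e1]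
  have e4 : SS (e3 : ℂ) 1 = ((Real.sqrt 3 / 2 : ℝ) : ℂ) / e3 := by rw [SS_e3, sin_third]
  rw [e0, e1, e2, e4]
  congr 1
  · field_simp
  · field_simp
  · field_simp

/-- monodromy blocks at the isotropic point -/
theorem Mh_half (M : ℕ) (d t : Bool) (s s' : Fin M → Bool) :
    Bd932.Mh M (1 / 2) d t s s' =
      (List.ofFn fun j => (Matrix.of fun a b => v6 (s j) (s' j) a b : Matrix Bool Bool ℂ)).prod
        d t := by
  have key : ∀ (M : ℕ) (s s' : Fin M → Bool),
      (List.ofFn fun j => (Matrix.of fun a b => v6 (s j) (s' j) a b : Matrix Bool Bool ℂ)).prod =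
        (SS (e3 : ℂ) (1 + 1 / 2) ^ M)⁻¹ • (List.ofFn fun j => LL (trigW (e3 : ℂ) (1 / 2 - 0)).1
          (trigW (e3 : ℂ) (1 / 2 - 0)).2.1 (trigW (e3 : ℂ) (1 / 2 - 0)).2.2 (s j) (s' j)).prod := by
    intro M
    induction M with
    | zero => intro s s'; simp
    | succ M ih =>
      intro s s'
      have e0 : (Matrix.of fun a b => v6 (s 0) (s' 0) a b : Matrix Bool Bool ℂ) =
          (SS (e3 : ℂ) (1 + 1 / 2))⁻¹ • LL (trigW (e3 : ℂ) (1 / 2 - 0)).1
            (trigW (e3 : ℂ) (1 / 2 - 0)).2.1 (trigW (e3 : ℂ) (1 / 2 - 0)).2.2 (s 0) (s' 0) := by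
        ext a b
        rw [Matrix.smul_apply, smul_eq_mul, LL_apply, sub_zero]
        exact (inv_wt _ _ _ _).symm
      rw [List.ofFn_succ, List.prod_cons, List.ofFn_succ, List.prod_cons,
        ih (fun j => s j.succ) (fun j => s' j.succ), e0, pow_succ, mul_inv, Matrix.mul_smul,
        Matrix.smul_mul, smul_smul]
  rw [key, Bd932.Mh, Matrix.smul_apply, Matrix.smul_apply]
  rfl

/-- sign of an arrow -/
def sgn (b : Bool) : ℂ := if b then 1 else -1

/-- the isotropic twisted row -/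
theorem That_half (M : ℕ) (c : ℝ) (s s' : Fin M → Bool) :
    That M c (1 / 2) s s' = ∑ d : Bool, Complex.exp (sgn d * c * I) *
      (List.ofFn fun j => (Matrix.of fun a b => v6 (s j) (s' j) a b : Matrix Bool Bool ℂ)).prod
        d d := by
  rw [Bd932.That_eq, Matrix.add_apply, Matrix.smul_apply, Matrix.smul_apply, Mh_half, Mh_half,
    Fintype.sum_bool]
  simp only [sgn, if_true, Bool.false_eq_true, if_false, smul_eq_mul, one_mul, neg_mul]

/-- the isotropic twisted row as a sum over the horizontal arrows -/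
theorem That_row (M : ℕ) (c : ℝ) (s s' : Fin M → Bool) :
    That M c (1 / 2) s s' = ∑ h : Fin (M + 1) → Bool, if h 0 = h (Fin.last M) then
      Complex.exp (sgn (h 0) * c * I) * ∏ j : Fin M, v6 (s j) (s' j) (h j.castSucc) (h j.succ)
      else 0 := by
  rw [That_half]
  have e1 : ∀ d : Bool, Complex.exp (sgn d * c * I) *
      (List.ofFn fun j => (Matrix.of fun a b => v6 (s j) (s' j) a b : Matrix Bool Bool ℂ)).prod
        d d = ∑ h : Fin (M + 1) → Bool, if h 0 = d then (if h (Fin.last M) = d then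
          Complex.exp (sgn d * c * I) * ∏ j : Fin M, v6 (s j) (s' j) (h j.castSucc) (h j.succ)
          else 0) else 0 := by
    intro d
    rw [prod_path, Finset.mul_sum]
    refine Finset.sum_congr rfl fun h _ => ?_
    by_cases h1 : h 0 = d
    · by_cases h2 : h (Fin.last M) = d
      · rw [if_pos ⟨h1, h2⟩, if_pos h1, if_pos h2]
        rfl
      · rw [if_neg (fun h3 => h2 h3.2), if_pos h1, if_neg h2, mul_zero]
    · rw [if_neg (fun h3 => h1 h3.1), if_neg h1, mul_zero]
  rw [Finset.sum_congr rfl fun d _ => e1 d, Finset.sum_comm]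
  refine Finset.sum_congr rfl fun h _ => ?_
  rw [Finset.sum_ite_eq Finset.univ (h 0), if_pos (Finset.mem_univ _)]
  exact if_congr eq_comm rfl rfl


end Crest.Agent.R158.Op857
end
end

-- ▼ part R158/Ao2_857
section

/-!
# Row 158: the row operator as a glued row of tiles (helper857)

Tile `(i, y)` = column `i`, row `y`; sides `W = 0, N = 1, E = 2, S = 3`.

* `That_ring` : the isotropic twisted row as a sum over `Fin (m + 1) → Bool`, cyclic
* `v6_w6` : the R150 weight is `w6`
* `rowL M c y` : the glueings of the row `y` (ring; seam phase `c` at the west side of column `0`)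
* `row_glue` : `glueL (rowL ..) (tiles of the row) = That M c (1/2)` (kernel form)
-/

set_option autoImplicit false

noncomputable section

open Finset Matrix
open scoped Matrix.Norms.L2Operator

namespace Crest.Agent.R158.Ao857

open Crest.Agent.R158.Ad350
open Crest.Agent.R158.Ad350.St (glueL glueL_nil glueL_cons glueL_smul)
open Crest.Agent.R158.Sw300 (Port)
open Crest.Agent.R158.Bd932 (That e3)
open Crest.Agent.R158.Op857 (v6 That_half prod_path sgn)

/-! ### the cyclic sum -/

/-- the isotropic twisted row as one cyclic sum -/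
theorem That_ring (m : ℕ) (c : ℝ) (s s' : Fin (m + 1) → Bool) :
    That (m + 1) c (1 / 2) s s' = ∑ τ : Fin (m + 1) → Bool, ei (c * sg (τ 0)) *
      ∏ j, v6 (s j) (s' j) (τ j) (τ (j + 1)) := by
  rw [Op857.That_row]
  rw [← (Fin.snocEquiv fun _ : Fin (m + 2) => Bool).sum_comp, Fintype.sum_prod_type,
    Finset.sum_comm]
  refine Finset.sum_congr rfl fun τ _ => ?_
  rw [Finset.sum_eq_single (τ 0)]
  · have e0 : (Fin.snocEquiv fun _ : Fin (m + 2) => Bool) (τ 0, τ) =
        (Fin.snoc τ (τ 0) : Fin (m + 2) → Bool) := rfl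
    rw [e0]
    have e1 : (Fin.snoc τ (τ 0) : Fin (m + 2) → Bool) 0 = τ 0 := by
      have : (0 : Fin (m + 2)) = (0 : Fin (m + 1)).castSucc := rfl
      rw [this, Fin.snoc_castSucc]
    have e2 : (Fin.snoc τ (τ 0) : Fin (m + 2) → Bool) (Fin.last (m + 1)) = τ 0 := Fin.snoc_last _ _
    rw [if_pos (by rw [e1, e2]), e1]
    have e3 : Complex.exp (sgn (τ 0) * c * Complex.I) = ei (c * sg (τ 0)) := by
      unfold ei sgn sg
      congr 1
      cases τ 0 <;> simp
    rw [e3]
    congr 1
    refine Finset.prod_congr rfl fun j _ => ?_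
    have e4 : (Fin.snoc τ (τ 0) : Fin (m + 2) → Bool) j.castSucc = τ j := Fin.snoc_castSucc ..
    have e5 : (Fin.snoc τ (τ 0) : Fin (m + 2) → Bool) j.succ = τ (j + 1) := by
      refine Fin.lastCases ?_ (fun k => ?_) j
      · rw [Fin.succ_last, Fin.snoc_last]
        congr 1
        simp
      · rw [Fin.succ_castSucc, Fin.snoc_castSucc]
        congr 1
        simp
    rw [e4, e5]
  · intro x _ hx
    have e0 : (Fin.snocEquiv fun _ : Fin (m + 2) => Bool) (x, τ) =
        (Fin.snoc τ x : Fin (m + 2) → Bool) := rfl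
    rw [e0, if_neg]
    have e1 : (Fin.snoc τ x : Fin (m + 2) → Bool) 0 = τ 0 := by
      have : (0 : Fin (m + 2)) = (0 : Fin (m + 1)).castSucc := rfl
      rw [this, Fin.snoc_castSucc]
    rw [e1, Fin.snoc_last]
    exact fun h => hx h.symm
  · intro h
    exact absurd (Finset.mem_univ _) h

/-- the weight in terms of outgoing arrows -/
lemma v6_w6 (l r d t : Bool) (o : ZMod 4 → Bool) (h0 : o 0 = d) (h1 : o 1 = l) (h2 : o 2 = !t)
    (h3 : o 3 = !r) : v6 l r d t = w6 o := by
  unfold v6 w6 Crest.Agent.R150.Base357.wt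
  rw [h0, h1, h2, h3]
  cases l <;> cases r <;> cases d <;> cases t <;> simp

/-! ### the row -/

/-- tile port -/
def tp (i y : ℕ) (d : ZMod 4) : Port (ℕ × ℕ) := some ((i, y), d)

lemma tp_inj {i y i' y' : ℕ} {d d' : ZMod 4} (h : tp i y d = tp i' y' d') :
    i = i' ∧ y = y' ∧ d = d' := by
  unfold tp at h
  simpa [and_assoc] using h

/-- glueings of the row `y` of the ring -/
def rowL (m : ℕ) (c : ℝ) (y : ℕ) : List (ℝ × Port (ℕ × ℕ) × Port (ℕ × ℕ)) :=
  List.ofFn fun i : Fin (m + 1) => (if i = 0 then c else 0, tp i y 0, tp ((i - 1 : Fin (m + 1)) : ℕ) y 2)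

/-- tiles of the row `y` -/
def rowT (m : ℕ) (y : ℕ) : Finset (ℕ × ℕ) := (Finset.range (m + 1)) ×ˢ {y}

lemma tilesF_row (m y : ℕ) (σ : Port (ℕ × ℕ) → Bool) :
    tilesF (rowT m y) σ = ∏ j : Fin (m + 1), w6 fun d => σ (tp j y d) := by
  unfold tilesF rowT
  rw [Finset.prod_product, Finset.prod_range]
  simp only [Finset.prod_singleton]
  rfl

theorem row_glue (m : ℕ) (c : ℝ) (y : ℕ) (σ : Port (ℕ × ℕ) → Bool) :
    glueL (rowL m c y) (tilesF (rowT m y)) σ =
      That (m + 1) c (1 / 2) (fun i => σ (tp i y 1)) (fun i => !σ (tp i y 3)) := by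
  have hx : Function.Injective fun i : Fin (m + 1) => tp i y 0 := fun i j h =>
    Fin.ext (tp_inj h).1
  have hy : Function.Injective fun i : Fin (m + 1) => tp ((i - 1 : Fin (m + 1)) : ℕ) y 2 := by
    intro i j h
    have := Fin.ext (tp_inj h).1
    exact sub_left_injective this
  have hxy : ∀ i j : Fin (m + 1), tp i y 0 ≠ tp ((j - 1 : Fin (m + 1)) : ℕ) y 2 := fun i j h =>
    absurd (tp_inj h).2.2 (by decide)
  rw [rowL, Ao857.glueL_pairs (fun i : Fin (m + 1) => if i = 0 then c else 0)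
    (fun i => tp i y 0) (fun i => tp ((i - 1 : Fin (m + 1)) : ℕ) y 2) hx hy hxy, That_ring]
  refine Finset.sum_congr rfl fun τ _ => ?_
  have e1 : ∏ i : Fin (m + 1), ei ((if i = 0 then c else 0) * sg (τ i)) = ei (c * sg (τ 0)) := by
    rw [Finset.prod_eq_single 0]
    · rw [if_pos rfl]
    · intro i _ hi
      rw [if_neg hi, zero_mul, ei_zero]
    · intro h
      exact absurd (Finset.mem_univ _) h
  rw [e1, tilesF_row]
  congr 1
  refine Finset.prod_congr rfl fun j _ => ?_
  symm
  apply v6_w6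
  · exact ovr_self hx τ _ j
  · rw [ovr_ne _ _ (fun i h => absurd (tp_inj h).2.2 (by decide)),
      ovr_ne _ _ (fun i h => absurd (tp_inj h).2.2 (by decide))]
  · rw [ovr_ne _ _ (fun i h => absurd (tp_inj h).2.2 (by decide))]
    have h := ovr_self hy (fun i => !τ i) σ (j + 1)
    simp only [add_sub_cancel_right] at h
    exact h
  · rw [ovr_ne _ _ (fun i h => absurd (tp_inj h).2.2 (by decide)),
      ovr_ne _ _ (fun i h => absurd (tp_inj h).2.2 (by decide)), Bool.not_not]

end Crest.Agent.R158.Ao857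
end
end

-- ▼ part R158/Ao3_857
section

/-!
# Row 158: the band operator with an inserted line as a glued network (helper857)

* `blockL m c y0 k`, `blockT m y0 k` : glueings and tiles of the rows `y0, .., y0 + k`
* `block_glue` : kernel of `That (m+1) c (1/2) ^ (k+1)`
* `insL n p a` : glueings between the row `a` (`n + 1` columns) and the row `a + 1`
  (`n + 2` columns, new column `p`), phase `-e3` west of `p`
* `band_glue` : kernel of `That' ^ (b+1) * ins n p * That ^ (a+1)`
-/

set_option autoImplicit false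

noncomputable section

open Finset Matrix
open scoped Matrix.Norms.L2Operator

namespace Crest.Agent.R158.Ao857

open Crest.Agent.R158.Ad350
open Crest.Agent.R158.Ad350.St (glueL glueL_nil glueL_cons glueL_smul)
open Crest.Agent.R158.Sw300 (Port)
open Crest.Agent.R158.Bd932 (That e3 ins lsum)

lemma tilesF_sees {T : Type*} [DecidableEq T] (A : Finset T) :
    Sees (tilesF A) (↑(ports A) : Set (Port T)) := by
  intro σ σ' h
  unfold tilesF
  refine Finset.prod_congr rfl fun t ht => ?_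
  congr 1
  funext d
  exact h _ (by simpa using ht)

/-! ### kernels -/

section

variable {P : Type*} [DecidableEq P]

/-- kernel form: upper ends `w` (arrow up = out), lower ends `u` (arrow up = in) -/
def ker {m k : ℕ} (K : Matrix (Fin m → Bool) (Fin k → Bool) ℂ) (w : Fin m → P) (u : Fin k → P) :
    (P → Bool) → ℂ := fun σ => K (fun i => σ (w i)) (fun i => !σ (u i))

omit [DecidableEq P] in
lemma ker_sees {m k : ℕ} (K : Matrix (Fin m → Bool) (Fin k → Bool) ℂ) (w : Fin m → P)
    (u : Fin k → P) : Sees (ker K w u) (Set.range w ∪ Set.range u) := by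
  intro σ σ' h
  unfold ker
  congr 1
  · funext i
    exact h _ (Or.inl ⟨i, rfl⟩)
  · funext i
    rw [h _ (Or.inr ⟨i, rfl⟩)]

/-- stacking two kernels -/
theorem ker_stack {m m' m'' : ℕ} (K1 : Matrix (Fin m → Bool) (Fin m' → Bool) ℂ)
    (K2 : Matrix (Fin m'' → Bool) (Fin m → Bool) ℂ) {x y : Fin m → P} {u : Fin m' → P}
    {w : Fin m'' → P} (hx : Function.Injective x) (hy : Function.Injective y)
    (hxy : ∀ i j, x i ≠ y j) (hxu : ∀ i j, x i ≠ u j) (hxw : ∀ i j, x i ≠ w j)
    (hyu : ∀ i j, y i ≠ u j) (hyw : ∀ i j, y i ≠ w j) :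
    glueL (List.ofFn fun i => ((0 : ℝ), x i, y i)) (fun σ => ker K1 x u σ * ker K2 w y σ) =
      ker (K2 * K1) w u := by
  funext σ
  rw [glue_stack (fun _ => 0) hx hy hxy (ker_sees K1 x u) (ker_sees K2 w y)
    (fun i => by
      rintro (⟨j, hj⟩ | ⟨j, hj⟩)
      · exact hxy j i hj
      · exact hyu i j hj.symm)
    (fun i => by
      rintro (⟨j, hj⟩ | ⟨j, hj⟩)
      · exact hxw i j hj.symm
      · exact hxy i j hj.symm)]
  unfold ker
  rw [Matrix.mul_apply]
  refine Finset.sum_congr rfl fun τ _ => ?_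
  have e1 : ∏ i : Fin m, ei (0 * sg (τ i)) = 1 := by simp
  rw [e1, one_mul, mul_comm]
  congr 1
  · congr 1
    · funext i
      exact ovr_ne _ _ fun j => hyw j i
    · funext i
      rw [ovr_self hy, Bool.not_not]
  · congr 1
    · funext i
      exact ovr_self hx _ _ i
    · funext i
      rw [ovr_ne _ _ fun j => hxu j i]

end

/-! ### blocks of rows -/

/-- vertical glueings between the rows `y` and `y + 1` -/
def verL (m : ℕ) (y : ℕ) : List (ℝ × Port (ℕ × ℕ) × Port (ℕ × ℕ)) :=
  List.ofFn fun i : Fin (m + 1) => ((0 : ℝ), tp i y 1, tp i (y + 1) 3)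

/-- glueings of the rows `y0, .., y0 + k` -/
def blockL (m : ℕ) (c : ℝ) (y0 : ℕ) : ℕ → List (ℝ × Port (ℕ × ℕ) × Port (ℕ × ℕ))
  | 0 => rowL m c y0
  | k + 1 => blockL m c y0 k ++ (rowL m c (y0 + k + 1) ++ verL m (y0 + k))

/-- tiles of the rows `y0, .., y0 + k` -/
def blockT (m y0 k : ℕ) : Finset (ℕ × ℕ) := (Finset.range (m + 1)) ×ˢ (Finset.Ico y0 (y0 + k + 1))

lemma mem_blockT {m y0 k : ℕ} {t : ℕ × ℕ} : t ∈ blockT m y0 k ↔
    t.1 < m + 1 ∧ y0 ≤ t.2 ∧ t.2 < y0 + k + 1 := by
  simp [blockT]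

lemma mem_rowT {m y : ℕ} {t : ℕ × ℕ} : t ∈ rowT m y ↔ t.1 < m + 1 ∧ t.2 = y := by
  rw [rowT, Finset.mem_product, Finset.mem_range, Finset.mem_singleton]

/-- a pair of ports with both rows in `[lo, hi]` -/
def InR (lo hi : ℕ) (e : ℝ × Port (ℕ × ℕ) × Port (ℕ × ℕ)) : Prop :=
  (∃ i y d, e.2.1 = tp i y d ∧ lo ≤ y ∧ y ≤ hi) ∧ (∃ i y d, e.2.2 = tp i y d ∧ lo ≤ y ∧ y ≤ hi)

lemma InR.mono {lo hi lo' hi' : ℕ} {e : ℝ × Port (ℕ × ℕ) × Port (ℕ × ℕ)} (h : InR lo hi e)
    (h1 : lo' ≤ lo) (h2 : hi ≤ hi') : InR lo' hi' e := by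
  obtain ⟨⟨i, y, d, e1, a1, a2⟩, ⟨j, z, f, e2, b1, b2⟩⟩ := h
  exact ⟨⟨i, y, d, e1, by omega, by omega⟩, ⟨j, z, f, e2, by omega, by omega⟩⟩

lemma rowL_in {m : ℕ} {c : ℝ} {y : ℕ} {e : ℝ × Port (ℕ × ℕ) × Port (ℕ × ℕ)}
    (h : e ∈ rowL m c y) : InR y y e := by
  unfold rowL at h
  rw [List.mem_ofFn] at h
  obtain ⟨i, rfl⟩ := h
  exact ⟨⟨_, _, _, rfl, le_rfl, le_rfl⟩, ⟨_, _, _, rfl, le_rfl, le_rfl⟩⟩

lemma verL_in {m : ℕ} {y : ℕ} {e : ℝ × Port (ℕ × ℕ) × Port (ℕ × ℕ)}
    (h : e ∈ verL m y) : InR y (y + 1) e := by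
  unfold verL at h
  rw [List.mem_ofFn] at h
  obtain ⟨i, rfl⟩ := h
  exact ⟨⟨_, _, _, rfl, le_rfl, by omega⟩, ⟨_, _, _, rfl, by omega, le_rfl⟩⟩

lemma blockL_in {m : ℕ} {c : ℝ} {y0 : ℕ} : ∀ {k : ℕ} {e : ℝ × Port (ℕ × ℕ) × Port (ℕ × ℕ)},
    e ∈ blockL m c y0 k → InR y0 (y0 + k) e := by
  intro k
  induction k with
  | zero => intro e h; exact rowL_in h
  | succ k ih =>
    intro e h
    rw [blockL, List.mem_append, List.mem_append] at h
    rcases h with h | h | h
    · exact (ih h).mono le_rfl (by omega)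
    · exact (rowL_in h).mono (by omega) (by omega)
    · exact (verL_in h).mono (by omega) (by omega)

lemma InR.not_ports {lo hi : ℕ} {e : ℝ × Port (ℕ × ℕ) × Port (ℕ × ℕ)} (h : InR lo hi e)
    {A : Finset (ℕ × ℕ)} (hA : ∀ t ∈ A, t.2 < lo ∨ hi < t.2) :
    e.2.1 ∉ (↑(ports A) : Set (Port (ℕ × ℕ))) ∧ e.2.2 ∉ (↑(ports A) : Set (Port (ℕ × ℕ))) := by
  obtain ⟨⟨i, y, d, e1, a1, a2⟩, ⟨j, z, f, e2, b1, b2⟩⟩ := h
  constructor
  · rw [e1]
    intro h
    rcases hA _ (mem_ports.1 (Finset.mem_coe.1 h)) with h | h <;> simp only at h <;> omega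
  · rw [e2]
    intro h
    rcases hA _ (mem_ports.1 (Finset.mem_coe.1 h)) with h | h <;> simp only at h <;> omega

lemma InR.not_range {lo hi : ℕ} {e : ℝ × Port (ℕ × ℕ) × Port (ℕ × ℕ)} (h : InR lo hi e)
    {A : Set (Port (ℕ × ℕ))} (hA : ∀ q ∈ A, ∃ i y d, q = tp i y d ∧ (y < lo ∨ hi < y)) :
    e.2.1 ∉ A ∧ e.2.2 ∉ A := by
  obtain ⟨⟨i, y, d, e1, a1, a2⟩, ⟨j, z, f, e2, b1, b2⟩⟩ := h
  constructor
  · intro h
    obtain ⟨i', y', d', h1, h2⟩ := hA _ h
    rw [e1] at h1
    obtain ⟨-, h3, -⟩ := tp_inj h1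
    omega
  · intro h
    obtain ⟨i', y', d', h1, h2⟩ := hA _ h
    rw [e2] at h1
    obtain ⟨-, h3, -⟩ := tp_inj h1
    omega

theorem row_ker (m : ℕ) (c : ℝ) (y : ℕ) : glueL (rowL m c y) (tilesF (rowT m y)) =
    ker (That (m + 1) c (1 / 2)) (fun i => tp i y 1) (fun i => tp i y 3) :=
  funext fun σ => row_glue m c y σ

theorem block_ker (m : ℕ) (c : ℝ) (y0 : ℕ) : ∀ k : ℕ,
    glueL (blockL m c y0 k) (tilesF (blockT m y0 k)) =
      ker (That (m + 1) c (1 / 2) ^ (k + 1)) (fun i => tp i (y0 + k) 1) (fun i => tp i y0 3) := by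
  intro k
  induction k with
  | zero =>
    have e1 : blockT m y0 0 = rowT m y0 := by
      ext t
      rw [mem_blockT, mem_rowT]
      omega
    rw [e1, blockL, row_ker, zero_add, pow_one]
    rfl
  | succ k ih =>
    have e1 : blockT m y0 (k + 1) = blockT m y0 k ∪ rowT m (y0 + k + 1) := by
      ext t
      rw [Finset.mem_union, mem_blockT, mem_blockT, mem_rowT]
      omega
    have e2 : Disjoint (blockT m y0 k) (rowT m (y0 + k + 1)) := by
      rw [Finset.disjoint_left]
      intro t h1 h2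
      rw [mem_blockT] at h1
      rw [mem_rowT] at h2
      omega
    have e3 : tilesF (blockT m y0 (k + 1)) = fun σ => tilesF (blockT m y0 k) σ *
        tilesF (rowT m (y0 + k + 1)) σ := by
      funext σ
      rw [e1]
      exact tilesF_union e2 σ
    rw [blockL, glueL_append, glueL_append, e3,
      glueL_mul_right (tilesF_sees (rowT m (y0 + k + 1))) _ (fun e he =>
        (blockL_in he).not_ports fun t ht => Or.inr (by rw [mem_rowT] at ht; omega)), ih,
      glueL_mul_left (ker_sees _ _ _) _ (fun e he => (rowL_in he).not_range ?_), row_ker]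
    · have h := ker_stack (That (m + 1) c (1 / 2) ^ (k + 1)) (That (m + 1) c (1 / 2))
        (x := fun i : Fin (m + 1) => tp i (y0 + k) 1)
        (y := fun i : Fin (m + 1) => tp i (y0 + k + 1) 3)
        (u := fun i : Fin (m + 1) => tp i y0 3)
        (w := fun i : Fin (m + 1) => tp i (y0 + k + 1) 1)
        (fun i j h => Fin.ext (tp_inj h).1) (fun i j h => Fin.ext (tp_inj h).1)
        (fun i j h => absurd (tp_inj h).2.2 (by decide))
        (fun i j h => absurd (tp_inj h).2.2 (by decide))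
        (fun i j h => by have := (tp_inj h).2.1; omega)
        (fun i j h => by have := (tp_inj h).2.1; omega)
        (fun i j h => absurd (tp_inj h).2.2 (by decide))
      rw [verL]
      refine h.trans ?_
      rw [← pow_succ']
      rfl
    · rintro q (⟨i, rfl⟩ | ⟨i, rfl⟩)
      · exact ⟨_, _, _, rfl, Or.inl (by omega)⟩
      · exact ⟨_, _, _, rfl, Or.inl (by omega)⟩

/-! ### the inserted line -/

/-- glueings between the row `a` (`n + 1` columns) and the row `a + 1` (`n + 2` columns) -/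
def insL (n : ℕ) (p : Fin (n + 2)) (a : ℕ) : List (ℝ × Port (ℕ × ℕ) × Port (ℕ × ℕ)) :=
  List.ofFn fun i : Fin (n + 1) => (if p.succAbove i < p then -e3 else 0, tp i a 1,
    tp (p.succAbove i) (a + 1) 3)

lemma lsum_insert {n : ℕ} (p : Fin (n + 2)) (τ : Fin (n + 1) → Bool) :
    lsum p (p.insertNth true τ : Fin (n + 2) → Bool) =
      ∑ i : Fin (n + 1), if p.succAbove i < p then sg (τ i) else 0 := by
  unfold lsum
  rw [Fin.sum_univ_succAbove _ p, if_neg (lt_irrefl p), zero_add]
  refine Finset.sum_congr rfl fun i _ => ?_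
  rw [Fin.insertNth_apply_succAbove]
  rfl

lemma mul_ins {n : ℕ} {k : ℕ} (K : Matrix (Fin k → Bool) (Fin (n + 2) → Bool) ℂ) (p : Fin (n + 2))
    (w : Fin k → Bool) (τ : Fin (n + 1) → Bool) : (K * ins n p) w τ =
      K w (p.insertNth true τ) *
        ∏ i : Fin (n + 1), ei ((if p.succAbove i < p then -e3 else 0) * sg (τ i)) := by
  rw [Matrix.mul_apply]
  simp only [ins, Matrix.of_apply, mul_ite, mul_zero, Finset.sum_ite_eq', Finset.mem_univ,
    if_true]
  rw [lsum_insert]
  congr 1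
  rw [ei_sum]
  unfold ei
  congr 1
  push_cast
  rw [Finset.mul_sum, ← Finset.sum_neg_distrib, Finset.sum_mul, Finset.sum_mul]
  refine Finset.sum_congr rfl fun i _ => ?_
  split_ifs <;> simp

/-- tiles of the band: rows `0..a` with `n + 1` columns, rows `a+1..a+b+1` with `n + 2` columns -/
def bandT (n a b : ℕ) : Finset (ℕ × ℕ) := blockT n 0 a ∪ blockT (n + 1) (a + 1) b

/-- glueings of the band -/
def bandL (n : ℕ) (p : Fin (n + 2)) (c c' : ℝ) (a b : ℕ) :
    List (ℝ × Port (ℕ × ℕ) × Port (ℕ × ℕ)) :=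
  blockL n c 0 a ++ (blockL (n + 1) c' (a + 1) b ++ insL n p a)

/-- **the band operator with an inserted line as a glued network** -/
theorem band_ker (n : ℕ) (p : Fin (n + 2)) (c c' : ℝ) (a b : ℕ) (σ : Port (ℕ × ℕ) → Bool)
    (hσ : σ (tp p (a + 1) 3) = false) :
    glueL (bandL n p c c' a b) (tilesF (bandT n a b)) σ =
      (That (n + 2) c' (1 / 2) ^ (b + 1) * ins n p * That (n + 1) c (1 / 2) ^ (a + 1))
        (fun i => σ (tp i (a + 1 + b) 1)) (fun i => !σ (tp i 0 3)) := by
  have e2 : Disjoint (blockT n 0 a) (blockT (n + 1) (a + 1) b) := by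
    rw [Finset.disjoint_left]
    intro t h1 h2
    rw [mem_blockT] at h1 h2
    omega
  have e4 : tilesF (bandT n a b) = fun σ => tilesF (blockT n 0 a) σ *
      tilesF (blockT (n + 1) (a + 1) b) σ := by
    funext σ
    exact tilesF_union e2 σ
  rw [bandL, glueL_append, glueL_append, e4,
    glueL_mul_right (tilesF_sees (blockT (n + 1) (a + 1) b)) _ (fun e he =>
      (blockL_in he).not_ports fun t ht => Or.inr (by rw [mem_blockT] at ht; omega)),
    block_ker,
    glueL_mul_left (ker_sees _ _ _) _ (fun e he => (blockL_in he).not_range ?_), block_ker]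
  · have hx : Function.Injective fun i : Fin (n + 1) => tp i (0 + a) 1 := fun i j h =>
      Fin.ext (tp_inj h).1
    have hy : Function.Injective fun i : Fin (n + 1) => tp (p.succAbove i) (a + 1) 3 :=
      fun i j h => Fin.succAbove_right_injective (Fin.ext (tp_inj h).1)
    have hxy : ∀ i j : Fin (n + 1), tp i (0 + a) 1 ≠ tp (p.succAbove j) (a + 1) 3 :=
      fun i j h => absurd (tp_inj h).2.2 (by decide)
    have e0 : insL n p a = List.ofFn fun i : Fin (n + 1) =>
        ((if p.succAbove i < p then -e3 else 0 : ℝ), tp i (0 + a) 1,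
          tp (p.succAbove i) (a + 1) 3) := by rw [insL, zero_add]
    rw [e0, glue_stack (fun i : Fin (n + 1) => if p.succAbove i < p then -e3 else 0) hx hy hxy
      (ker_sees _ _ _) (ker_sees _ _ _) (fun i => by
        rintro (⟨j, hj⟩ | ⟨j, hj⟩)
        · exact absurd (tp_inj hj).2.2 (by decide)
        · have := (tp_inj hj).2.1; omega)
      (fun i => by
        rintro (⟨j, hj⟩ | ⟨j, hj⟩)
        · have := (tp_inj hj).2.1; omega
        · have := (tp_inj hj).2.1; omega)]
    unfold ker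
    rw [Matrix.mul_apply]
    refine Finset.sum_congr rfl fun τ _ => ?_
    rw [mul_ins]
    have f1 : (fun i : Fin (n + 1) => ovr (fun i : Fin (n + 1) => tp i (0 + a) 1) τ σ
        (tp i (0 + a) 1)) = τ := by
      funext i
      exact ovr_self hx _ _ i
    have f2 : (fun i : Fin (n + 1) => !ovr (fun i : Fin (n + 1) => tp i (0 + a) 1) τ σ
        (tp i 0 3)) = fun i : Fin (n + 1) => !σ (tp i 0 3) := by
      funext i
      rw [ovr_ne _ _ (fun j h => absurd (tp_inj h).2.2 (by decide))]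
    have f3 : (fun i : Fin (n + 2) => ovr (fun i : Fin (n + 1) => tp (p.succAbove i) (a + 1) 3)
        (fun i => !τ i) σ (tp i (a + 1 + b) 1)) = fun i : Fin (n + 2) => σ (tp i (a + 1 + b) 1) := by
      funext i
      rw [ovr_ne _ _ (fun j h => absurd (tp_inj h).2.2 (by decide))]
    have f4 : (fun i : Fin (n + 2) => !ovr (fun i : Fin (n + 1) => tp (p.succAbove i) (a + 1) 3)
        (fun i => !τ i) σ (tp i (a + 1) 3)) = p.insertNth true τ := by
      funext j
      refine Fin.succAboveCases p ?_ (fun i => ?_) j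
      · rw [Fin.insertNth_apply_same, ovr_ne, hσ]
        · rfl
        · intro i h
          exact Fin.succAbove_ne p i (Fin.ext (tp_inj h).1)
      · rw [Fin.insertNth_apply_succAbove, ovr_self hy (fun i => !τ i) σ i, Bool.not_not]
    rw [f1, f2, f3, f4]
    ring
  · rintro q (⟨i, rfl⟩ | ⟨i, rfl⟩)
    · exact ⟨_, _, _, rfl, Or.inl (by omega)⟩
    · exact ⟨_, _, _, rfl, Or.inl (by omega)⟩

end Crest.Agent.R158.Ao857
end
private theorem rz_1b58207b48 : type_of% @_root_.Crest.Agent.R158.Ao857.blockL.eq_def := @_root_.Crest.Agent.R158.Ao857.blockL.eq_def -- L101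
private theorem rz_db7938fdb8 : type_of% @_root_.Crest.Agent.R158.Ao857.blockL.eq_1 := @_root_.Crest.Agent.R158.Ao857.blockL.eq_1 -- L101
end

-- ▼ part R158/Ao4_857
section

/-!
# Row 158: lists of glueings up to order and orientation (helper857)

* `ctr_swap` : `ctr χ a b = ctr (-χ) b a`
* `glueL_ext` : two lists of disjoint pairs with the same pairs up to orientation
* `mem_blockL`, `mem_bandL`, `dis_bandL`
-/

set_option autoImplicit false

noncomputable section

open Finset Matrix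

namespace Crest.Agent.R158.Ao857

open Crest.Agent.R158.Ad350
open Crest.Agent.R158.Ad350.St (glueL glueL_nil glueL_cons glueL_smul)
open Crest.Agent.R158.Sw300 (Port)
open Crest.Agent.R158.Bd932 (That e3 ins lsum)

section

variable {P : Type*} [DecidableEq P]

/-- the reversed glueing -/
def swp (e : ℝ × P × P) : ℝ × P × P := (-e.1, e.2.2, e.2.1)

omit [DecidableEq P] in
@[simp] lemma swp_swp (e : ℝ × P × P) : swp (swp e) = e := by
  simp [swp]

theorem ctr_swap (χ : ℝ) {a b : P} (hab : a ≠ b) (F : (P → Bool) → ℂ) :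
    ctr χ a b F = ctr (-χ) b a F := by
  funext σ
  simp only [ctr]
  rw [Fintype.sum_bool, Fintype.sum_bool, add_comm]
  rw [Function.update_comm hab, Function.update_comm hab]
  simp

omit [DecidableEq P] in
lemma Dis.ne {l : List (ℝ × P × P)} (hd : Dis l) {e e' : ℝ × P × P} (h : e ∈ l) (h' : e' ∈ l)
    (hne : e ≠ e') : e.2.1 ≠ e'.2.1 ∧ e.2.1 ≠ e'.2.2 ∧ e.2.2 ≠ e'.2.1 ∧ e.2.2 ≠ e'.2.2 := by
  have : Std.Symm (fun e e' : ℝ × P × P => e.2.1 ≠ e'.2.1 ∧ e.2.1 ≠ e'.2.2 ∧
    e.2.2 ≠ e'.2.1 ∧ e.2.2 ≠ e'.2.2) :=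
    ⟨fun a b hab => ⟨hab.1.symm, hab.2.2.1.symm, hab.2.1.symm, hab.2.2.2.symm⟩⟩
  exact List.Pairwise.forall hd h h' hne



end

/-! ### the lists of the band -/

abbrev Pr := ℝ × Port (ℕ × ℕ) × Port (ℕ × ℕ)

lemma mem_rowL {m : ℕ} {c : ℝ} {y : ℕ} {e : Pr} : e ∈ rowL m c y ↔
    ∃ i : Fin (m + 1), e = (if i = 0 then c else 0, tp i y 0, tp ((i - 1 : Fin (m + 1)) : ℕ) y 2) := by
  unfold rowL
  rw [List.mem_ofFn]
  exact exists_congr fun i => eq_comm

lemma mem_verL {m : ℕ} {y : ℕ} {e : Pr} : e ∈ verL m y ↔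
    ∃ i : Fin (m + 1), e = ((0 : ℝ), tp i y 1, tp i (y + 1) 3) := by
  unfold verL
  rw [List.mem_ofFn]
  exact exists_congr fun i => eq_comm

lemma mem_insL {n : ℕ} {p : Fin (n + 2)} {a : ℕ} {e : Pr} : e ∈ insL n p a ↔
    ∃ i : Fin (n + 1), e = (if p.succAbove i < p then -e3 else 0, tp i a 1,
      tp (p.succAbove i) (a + 1) 3) := by
  unfold insL
  rw [List.mem_ofFn]
  exact exists_congr fun i => eq_comm

lemma mem_blockL {m : ℕ} {c : ℝ} {y0 : ℕ} : ∀ {k : ℕ} {e : Pr}, e ∈ blockL m c y0 k ↔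
    (∃ y, y0 ≤ y ∧ y ≤ y0 + k ∧ e ∈ rowL m c y) ∨ (∃ y, y0 ≤ y ∧ y < y0 + k ∧ e ∈ verL m y) := by
  intro k
  induction k with
  | zero =>
    intro e
    rw [blockL]
    constructor
    · intro h
      exact Or.inl ⟨y0, le_rfl, by omega, h⟩
    · rintro (⟨y, h1, h2, h3⟩ | ⟨y, h1, h2, h3⟩)
      · have : y = y0 := by omega
        rwa [this] at h3
      · omega
  | succ k ih =>
    intro e
    rw [blockL, List.mem_append, List.mem_append, ih]
    constructor
    · rintro ((⟨y, h1, h2, h3⟩ | ⟨y, h1, h2, h3⟩) | h | h)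
      · exact Or.inl ⟨y, h1, by omega, h3⟩
      · exact Or.inr ⟨y, h1, by omega, h3⟩
      · exact Or.inl ⟨_, by omega, by omega, h⟩
      · exact Or.inr ⟨_, by omega, by omega, h⟩
    · rintro (⟨y, h1, h2, h3⟩ | ⟨y, h1, h2, h3⟩)
      · by_cases h : y = y0 + k + 1
        · rw [h] at h3; exact Or.inr (Or.inl h3)
        · exact Or.inl (Or.inl ⟨y, h1, by omega, h3⟩)
      · by_cases h : y = y0 + k
        · rw [h] at h3; exact Or.inr (Or.inr h3)
        · exact Or.inl (Or.inr ⟨y, h1, by omega, h3⟩)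

lemma mem_bandL {n : ℕ} {p : Fin (n + 2)} {c c' : ℝ} {a b : ℕ} {e : Pr} :
    e ∈ bandL n p c c' a b ↔ e ∈ blockL n c 0 a ∨ e ∈ blockL (n + 1) c' (a + 1) b ∨
      e ∈ insL n p a := by
  rw [bandL, List.mem_append, List.mem_append]

/-- disjoint ports -/
def DisP (e e' : Pr) : Prop :=
  e.2.1 ≠ e'.2.1 ∧ e.2.1 ≠ e'.2.2 ∧ e.2.2 ≠ e'.2.1 ∧ e.2.2 ≠ e'.2.2

lemma tp_ne {i y i' y' : ℕ} {d d' : ZMod 4} (h : ¬(i = i' ∧ y = y' ∧ d = d')) :
    tp i y d ≠ tp i' y' d' := fun h' => h (tp_inj h')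

lemma dis_row_row {m m' : ℕ} {c c' : ℝ} {y y' : ℕ} (hy : y ≠ y') {e e' : Pr}
    (h : e ∈ rowL m c y) (h' : e' ∈ rowL m' c' y') : DisP e e' := by
  obtain ⟨i, rfl⟩ := mem_rowL.1 h
  obtain ⟨j, rfl⟩ := mem_rowL.1 h'
  exact ⟨tp_ne fun h => hy h.2.1, tp_ne fun h => hy h.2.1, tp_ne fun h => hy h.2.1,
    tp_ne fun h => hy h.2.1⟩

lemma dis_row_ver {m m' : ℕ} {c : ℝ} {y y' : ℕ} {e e' : Pr}
    (h : e ∈ rowL m c y) (h' : e' ∈ verL m' y') : DisP e e' := by
  obtain ⟨i, rfl⟩ := mem_rowL.1 h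
  obtain ⟨j, rfl⟩ := mem_verL.1 h'
  exact ⟨tp_ne fun h => absurd h.2.2 (by decide), tp_ne fun h => absurd h.2.2 (by decide),
    tp_ne fun h => absurd h.2.2 (by decide), tp_ne fun h => absurd h.2.2 (by decide)⟩

lemma dis_row_ins {m n : ℕ} {c : ℝ} {y : ℕ} {p : Fin (n + 2)} {a : ℕ} {e e' : Pr}
    (h : e ∈ rowL m c y) (h' : e' ∈ insL n p a) : DisP e e' := by
  obtain ⟨i, rfl⟩ := mem_rowL.1 h
  obtain ⟨j, rfl⟩ := mem_insL.1 h'
  exact ⟨tp_ne fun h => absurd h.2.2 (by decide), tp_ne fun h => absurd h.2.2 (by decide),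
    tp_ne fun h => absurd h.2.2 (by decide), tp_ne fun h => absurd h.2.2 (by decide)⟩

lemma dis_ver_ver {m m' : ℕ} {y y' : ℕ} (hy : y ≠ y') {e e' : Pr}
    (h : e ∈ verL m y) (h' : e' ∈ verL m' y') : DisP e e' := by
  obtain ⟨i, rfl⟩ := mem_verL.1 h
  obtain ⟨j, rfl⟩ := mem_verL.1 h'
  exact ⟨tp_ne fun h => hy h.2.1, tp_ne fun h => absurd h.2.2 (by decide),
    tp_ne fun h => absurd h.2.2 (by decide), tp_ne fun h => hy (by omega)⟩

lemma dis_ver_ins {m n : ℕ} {y : ℕ} {p : Fin (n + 2)} {a : ℕ} (hy : y ≠ a) {e e' : Pr}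
    (h : e ∈ verL m y) (h' : e' ∈ insL n p a) : DisP e e' := by
  obtain ⟨i, rfl⟩ := mem_verL.1 h
  obtain ⟨j, rfl⟩ := mem_insL.1 h'
  exact ⟨tp_ne fun h => hy h.2.1, tp_ne fun h => absurd h.2.2 (by decide),
    tp_ne fun h => absurd h.2.2 (by decide), tp_ne fun h => hy (by omega)⟩

lemma DisP.symm {e e' : Pr} (h : DisP e e') : DisP e' e :=
  ⟨h.1.symm, h.2.2.1.symm, h.2.1.symm, h.2.2.2.symm⟩

lemma dis_rowL (m : ℕ) (c : ℝ) (y : ℕ) : Dis (rowL m c y) := by
  unfold Dis rowL
  rw [List.pairwise_ofFn]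
  intro i j hij
  refine ⟨tp_ne fun h => hij.ne (Fin.ext h.1), tp_ne fun h => absurd h.2.2 (by decide),
    tp_ne fun h => absurd h.2.2 (by decide), tp_ne fun h => hij.ne ?_⟩
  exact sub_left_injective (Fin.ext h.1)

lemma dis_verL (m : ℕ) (y : ℕ) : Dis (verL m y) := by
  unfold Dis verL
  rw [List.pairwise_ofFn]
  intro i j hij
  exact ⟨tp_ne fun h => hij.ne (Fin.ext h.1), tp_ne fun h => absurd h.2.2 (by decide),
    tp_ne fun h => absurd h.2.2 (by decide), tp_ne fun h => hij.ne (Fin.ext h.1)⟩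

lemma dis_insL (n : ℕ) (p : Fin (n + 2)) (a : ℕ) : Dis (insL n p a) := by
  unfold Dis insL
  rw [List.pairwise_ofFn]
  intro i j hij
  exact ⟨tp_ne fun h => hij.ne (Fin.ext h.1), tp_ne fun h => absurd h.2.2 (by decide),
    tp_ne fun h => absurd h.2.2 (by decide), tp_ne fun h => hij.ne
      (Fin.succAbove_right_injective (Fin.ext h.1))⟩

lemma dis_blockL (m : ℕ) (c : ℝ) (y0 : ℕ) : ∀ k : ℕ, Dis (blockL m c y0 k) := by
  intro k
  induction k with
  | zero => exact dis_rowL m c y0
  | succ k ih =>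
    rw [blockL]
    unfold Dis
    rw [List.pairwise_append, List.pairwise_append]
    refine ⟨ih, ⟨dis_rowL _ _ _, dis_verL _ _, fun e he e' he' => dis_row_ver he he'⟩, ?_⟩
    intro e he e' he'
    rw [List.mem_append] at he'
    rcases mem_blockL.1 he with ⟨y, h1, h2, h3⟩ | ⟨y, h1, h2, h3⟩ <;> rcases he' with h4 | h4
    · exact dis_row_row (by omega) h3 h4
    · exact dis_row_ver h3 h4
    · exact (dis_row_ver h4 h3).symm
    · exact dis_ver_ver (by omega) h3 h4

theorem dis_bandL (n : ℕ) (p : Fin (n + 2)) (c c' : ℝ) (a b : ℕ) : Dis (bandL n p c c' a b) := by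
  unfold bandL Dis
  rw [List.pairwise_append, List.pairwise_append]
  refine ⟨dis_blockL _ _ _ _, ⟨dis_blockL _ _ _ _, dis_insL _ _ _, ?_⟩, ?_⟩
  · intro e he e' he'
    rcases mem_blockL.1 he with ⟨y, h1, h2, h3⟩ | ⟨y, h1, h2, h3⟩
    · exact dis_row_ins h3 he'
    · exact dis_ver_ins (by omega) h3 he'
  · intro e he e' he'
    rw [List.mem_append] at he'
    rcases mem_blockL.1 he with ⟨y, h1, h2, h3⟩ | ⟨y, h1, h2, h3⟩ <;> rcases he' with h4 | h4
    · rcases mem_blockL.1 h4 with ⟨z, k1, k2, k3⟩ | ⟨z, k1, k2, k3⟩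
      · exact dis_row_row (by omega) h3 k3
      · exact dis_row_ver h3 k3
    · exact dis_row_ins h3 h4
    · rcases mem_blockL.1 h4 with ⟨z, k1, k2, k3⟩ | ⟨z, k1, k2, k3⟩
      · exact (dis_row_ver k3 h3).symm
      · exact dis_ver_ver (by omega) h3 k3
    · exact dis_ver_ins (by omega) h3 h4

lemma ne_bandL {n : ℕ} {p : Fin (n + 2)} {c c' : ℝ} {a b : ℕ} {e : Pr}
    (h : e ∈ bandL n p c c' a b) : e.2.1 ≠ e.2.2 := by
  have hr : ∀ {m : ℕ} {c : ℝ} {y : ℕ} {e : Pr}, e ∈ rowL m c y → e.2.1 ≠ e.2.2 := by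
    intro m c y e h
    obtain ⟨i, rfl⟩ := mem_rowL.1 h
    exact tp_ne fun h => absurd h.2.2 (by decide)
  have hv : ∀ {m : ℕ} {y : ℕ} {e : Pr}, e ∈ verL m y → e.2.1 ≠ e.2.2 := by
    intro m y e h
    obtain ⟨i, rfl⟩ := mem_verL.1 h
    exact tp_ne fun h => absurd h.2.2 (by decide)
  rcases mem_bandL.1 h with h | h | h
  · rcases mem_blockL.1 h with ⟨y, h1, h2, h3⟩ | ⟨y, h1, h2, h3⟩
    · exact hr h3
    · exact hv h3
  · rcases mem_blockL.1 h with ⟨y, h1, h2, h3⟩ | ⟨y, h1, h2, h3⟩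
    · exact hr h3
    · exact hv h3
  · obtain ⟨i, rfl⟩ := mem_insL.1 h
    exact tp_ne fun h => absurd h.2.2 (by decide)

end Crest.Agent.R158.Ao857
end
end

-- ▼ part R158/Ao5_857
section

/-!
# Row 158: operations (glueings and cuts), renaming, mixed contraction (helper857)

* `Op P` : glueing `inl (χ, a, b)` or cut `inr (φ, p)`; `opF`, `opL`
* `opL_perm`, `opL_mul_right`, `opL_mul_left`
* `opL_ren`, `tilesF_ren` : injective renaming of the ports / tiles
* `mix_eval` : `m` ends, some glued, some cut, as one sum over `Fin m → Bool`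
-/

set_option autoImplicit false

noncomputable section

open Finset Matrix

namespace Crest.Agent.R158.Ao857

open Crest.Agent.R158.Ad350
open Crest.Agent.R158.Ad350.St (glueL glueL_nil glueL_cons glueL_smul)
open Crest.Agent.R158.Sw300 (Port)
open Crest.Agent.R158.Bd932 (That e3 ins lsum)

section

variable {P : Type*} [DecidableEq P]

/-- operations: glueing `(χ, a, b)` or cut `(φ, p)` -/
abbrev Op (P : Type*) := (ℝ × P × P) ⊕ (ℝ × P)

/-- ports used by an operation -/
def Op.pts {P : Type*} : Op P → List P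
  | Sum.inl e => [e.2.1, e.2.2]
  | Sum.inr e => [e.2]

/-- action of an operation -/
def opF (o : Op P) (F : (P → Bool) → ℂ) : (P → Bool) → ℂ :=
  match o with
  | Sum.inl e => ctr e.1 e.2.1 e.2.2 F
  | Sum.inr e => cut e.1 e.2 F

@[simp] lemma opF_inl (e : ℝ × P × P) (F : (P → Bool) → ℂ) :
    opF (Sum.inl e) F = ctr e.1 e.2.1 e.2.2 F := rfl
@[simp] lemma opF_inr (e : ℝ × P) (F : (P → Bool) → ℂ) : opF (Sum.inr e) F = cut e.1 e.2 F := rfl

/-- list of operations -/
def opL (l : List (Op P)) (F : (P → Bool) → ℂ) : (P → Bool) → ℂ :=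
  l.foldl (fun F o => opF o F) F

@[simp] lemma opL_nil (F : (P → Bool) → ℂ) : opL [] F = F := rfl
@[simp] lemma opL_cons (o : Op P) (l : List (Op P)) (F : (P → Bool) → ℂ) :
    opL (o :: l) F = opL l (opF o F) := rfl

lemma opL_append (l l' : List (Op P)) (F : (P → Bool) → ℂ) :
    opL (l ++ l') F = opL l' (opL l F) := by
  unfold opL
  rw [List.foldl_append]

lemma opL_glueL (l : List (ℝ × P × P)) : ∀ F : (P → Bool) → ℂ,
    opL (l.map Sum.inl) F = glueL l F := by
  induction l with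
  | nil => intro F; rfl
  | cons e l ih => intro F; rw [List.map_cons, opL_cons, glueL_cons, ih]; rfl

lemma cut_mul_right {F G : (P → Bool) → ℂ} {A : Set P} (hG : Sees G A) (φ : ℝ) {p : P}
    (hp : p ∉ A) : cut φ p (fun σ => F σ * G σ) = fun σ => cut φ p F σ * G σ := by
  funext σ
  simp only [cut, Finset.sum_mul]
  refine Finset.sum_congr rfl fun τ _ => ?_
  rw [hG.update hp]
  ring

lemma opL_mul_right {G : (P → Bool) → ℂ} {A : Set P} (hG : Sees G A) :
    ∀ (l : List (Op P)), (∀ o ∈ l, ∀ q ∈ o.pts, q ∉ A) → ∀ F : (P → Bool) → ℂ,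
    opL l (fun σ => F σ * G σ) = fun σ => opL l F σ * G σ := by
  intro l
  induction l with
  | nil => intro _ F; rfl
  | cons o l ih =>
    intro h F
    have h1 := h o List.mem_cons_self
    have h2 := ih (fun o' ho' => h o' (List.mem_cons_of_mem _ ho'))
    rw [opL_cons, opL_cons]
    cases o with
    | inl e =>
      rw [opF_inl, opF_inl, ctr_mul_right hG e.1 (h1 _ (by simp [Op.pts]))
        (h1 _ (by simp [Op.pts])), h2]
    | inr e =>
      rw [opF_inr, opF_inr, cut_mul_right hG e.1 (h1 _ (by simp [Op.pts])), h2]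

lemma opL_mul_left {G : (P → Bool) → ℂ} {A : Set P} (hG : Sees G A) (l : List (Op P))
    (h : ∀ o ∈ l, ∀ q ∈ o.pts, q ∉ A) (F : (P → Bool) → ℂ) :
    opL l (fun σ => G σ * F σ) = fun σ => G σ * opL l F σ := by
  have e : (fun σ => G σ * F σ) = fun σ => F σ * G σ := by funext σ; ring
  rw [e, opL_mul_right hG l h F]
  funext σ
  ring

/-! ### what the result sees -/

lemma ctr_sees {F : (P → Bool) → ℂ} {A : Set P} (hF : Sees F A) (χ : ℝ) (a b : P) :
    Sees (ctr χ a b F) (A \ {a, b}) := by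
  intro σ σ' h
  simp only [ctr]
  refine Finset.sum_congr rfl fun τ _ => ?_
  congr 1
  refine hF _ _ fun q hq => ?_
  by_cases hb : q = b
  · subst hb; simp
  · by_cases ha : q = a
    · subst ha
      rw [Function.update_of_ne hb, Function.update_self, Function.update_of_ne hb,
        Function.update_self]
    · rw [Function.update_of_ne hb, Function.update_of_ne ha, Function.update_of_ne hb,
        Function.update_of_ne ha]
      exact h q ⟨hq, by simp [ha, hb]⟩

lemma cut_sees {F : (P → Bool) → ℂ} {A : Set P} (hF : Sees F A) (φ : ℝ) (p : P) :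
    Sees (cut φ p F) (A \ {p}) := by
  intro σ σ' h
  simp only [cut]
  refine Finset.sum_congr rfl fun τ _ => ?_
  congr 1
  refine hF _ _ fun q hq => ?_
  by_cases hb : q = p
  · subst hb; simp
  · rw [Function.update_of_ne hb, Function.update_of_ne hb]
    exact h q ⟨hq, by simpa using hb⟩

lemma opL_sees {A : Set P} : ∀ (l : List (Op P)) {F : (P → Bool) → ℂ}, Sees F A →
    Sees (opL l F) A := by
  intro l
  induction l with
  | nil => intro F hF; exact hF
  | cons o l ih =>
    intro F hF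
    rw [opL_cons]
    apply ih
    cases o with
    | inl e => exact (ctr_sees hF _ _ _).mono Set.sdiff_subset
    | inr e => exact (cut_sees hF _ _).mono Set.sdiff_subset

/-! ### order -/

/-- operations with pairwise disjoint ports -/
def DisO (l : List (Op P)) : Prop := l.Pairwise fun o o' => ∀ q ∈ o.pts, q ∉ o'.pts

lemma opF_comm {o o' : Op P} (h : ∀ q ∈ o.pts, q ∉ o'.pts) (F : (P → Bool) → ℂ) :
    opF o (opF o' F) = opF o' (opF o F) := by
  cases o with
  | inl e =>
    cases o' with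
    | inl e' =>
      simp only [opF_inl]
      have h1 := h e.2.1 (by simp [Op.pts])
      have h2 := h e.2.2 (by simp [Op.pts])
      simp only [Op.pts, List.mem_cons, List.not_mem_nil, or_false, not_or] at h1 h2
      exact ctr_comm _ _ h1.1 h2.1 h1.2 h2.2 F
    | inr e' =>
      simp only [opF_inl, opF_inr]
      have h1 := h e.2.1 (by simp [Op.pts])
      have h2 := h e.2.2 (by simp [Op.pts])
      simp only [Op.pts, List.mem_cons, List.not_mem_nil, or_false] at h1 h2
      exact (cut_ctr _ _ h1 h2 F).symm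
  | inr e =>
    cases o' with
    | inl e' =>
      simp only [opF_inl, opF_inr]
      have h1 := h e.2 (by simp [Op.pts])
      simp only [Op.pts, List.mem_cons, List.not_mem_nil, or_false, not_or] at h1
      exact cut_ctr _ _ (Ne.symm h1.1) (Ne.symm h1.2) F
    | inr e' =>
      simp only [opF_inr]
      have h1 := h e.2 (by simp [Op.pts])
      simp only [Op.pts, List.mem_cons, List.not_mem_nil, or_false] at h1
      exact cut_comm _ _ h1 F

theorem opL_perm {l l' : List (Op P)} (h : l.Perm l') (hd : DisO l) :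
    ∀ F : (P → Bool) → ℂ, opL l F = opL l' F := by
  induction h with
  | nil => intro F; rfl
  | cons e h ih =>
    intro F
    rw [opL_cons, opL_cons]
    exact ih (List.pairwise_cons.1 hd).2 _
  | swap e e' l =>
    intro F
    rw [opL_cons, opL_cons, opL_cons, opL_cons]
    have h1 := (List.pairwise_cons.1 hd).1 e List.mem_cons_self
    rw [opF_comm (o := e) (o' := e') (fun q hq hq' => h1 q hq' hq)]
  | trans h h' ih ih' =>
    intro F
    rw [ih hd F]
    refine ih' ?_ F
    exact (h.pairwise_iff (fun {a b} hab q hq hq' => hab q hq' hq)).1 hd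

/-! ### renaming -/

variable {Q : Type*} [DecidableEq Q]

/-- renamed operation -/
def Op.ren {P Q : Type*} (f : P → Q) : Op P → Op Q
  | Sum.inl e => Sum.inl (e.1, f e.2.1, f e.2.2)
  | Sum.inr e => Sum.inr (e.1, f e.2)

lemma update_comp {f : P → Q} (hf : Function.Injective f) (σ : Q → Bool) (a : P) (v : Bool) :
    Function.update σ (f a) v ∘ f = Function.update (σ ∘ f) a v := by
  funext q
  by_cases h : q = a
  · subst h; simp
  · simp only [Function.comp]
    rw [Function.update_of_ne h, Function.update_of_ne (fun e => h (hf e))]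
    rfl

lemma opF_ren {f : P → Q} (hf : Function.Injective f) (o : Op P) (F : (P → Bool) → ℂ) :
    opF (o.ren f) (fun σ => F (σ ∘ f)) = fun σ => opF o F (σ ∘ f) := by
  funext σ
  cases o with
  | inl e =>
    simp only [Op.ren, opF_inl, ctr]
    refine Finset.sum_congr rfl fun τ _ => ?_
    rw [update_comp hf, update_comp hf]
  | inr e =>
    simp only [Op.ren, opF_inr, cut]
    refine Finset.sum_congr rfl fun τ _ => ?_
    rw [update_comp hf]

theorem opL_ren {f : P → Q} (hf : Function.Injective f) (l : List (Op P)) :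
    ∀ F : (P → Bool) → ℂ, opL (l.map (Op.ren f)) (fun σ => F (σ ∘ f)) =
      fun σ => opL l F (σ ∘ f) := by
  induction l with
  | nil => intro F; rfl
  | cons o l ih =>
    intro F
    rw [List.map_cons, opL_cons, opF_ren hf, ih, opL_cons]

end

/-- tile map on ports -/
def tpm {T T' : Type*} (g : T → T') : Port T → Port T' := Option.map fun y => (g y.1, y.2)

lemma tpm_inj {T T' : Type*} {g : T → T'} (hg : Function.Injective g) :
    Function.Injective (tpm g) := by
  apply Option.map_injective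
  intro x y h
  simp only [Prod.mk.injEq] at h
  exact Prod.ext (hg h.1) h.2

lemma tilesF_ren {T T' : Type*} [DecidableEq T] [DecidableEq T'] (g : T ↪ T') (A : Finset T)
    (σ : Port T' → Bool) : tilesF (A.map g) σ = tilesF A (σ ∘ tpm g) := by
  unfold tilesF
  rw [Finset.prod_map]
  rfl

/-! ### mixed contraction -/

section

variable {P : Type*} [DecidableEq P]

lemma Blind.opF {F : (P → Bool) → ℂ} {p : P} (h : Blind F p) (o : Op P) :
    Blind (Ao857.opF o F) p := by
  cases o with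
  | inl e => exact h.ctr _ _ _
  | inr e => exact h.cut _ _

/-- `m` ends `y i`, glued to `x i` (phase `χ i` when the arrow leaves through `x i`) or cut (phase
`φ i`) -/
theorem mix_eval : ∀ {m : ℕ} (D : Fin m → Prop) [DecidablePred D] (χ φ : Fin m → ℝ)
    (x y : Fin m → P), Function.Injective x → Function.Injective y → (∀ i j, x i ≠ y j) →
    ∀ (F : (P → Bool) → ℂ), (∀ i, ¬ D i → Blind F (x i)) → ∀ (σ : P → Bool),
    opL (List.ofFn fun i => if D i then (Sum.inl (χ i, x i, y i) : Op P)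
        else Sum.inr (φ i, y i)) F σ =
      ∑ τ : Fin m → Bool, (∏ i, if D i then ei (χ i * sg (τ i)) else ei (φ i * sg (!τ i))) *
        F (ovr x τ (ovr y (fun i => !τ i) σ)) := by
  intro m
  induction m with
  | zero =>
    intro D _ χ φ x y _ _ _ F _ σ
    rw [List.ofFn_zero, opL_nil]
    simp only [univ_unique, prod_of_isEmpty, one_mul, sum_singleton]
    rfl
  | succ m ih =>
    intro D _ χ φ x y hx hy hxy F hF σ
    have hx' : Function.Injective fun i : Fin m => x i.succ := fun i j h =>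
      Fin.succ_injective _ (hx h)
    have hy' : Function.Injective fun i : Fin m => y i.succ := fun i j h =>
      Fin.succ_injective _ (hy h)
    rw [List.ofFn_succ, opL_cons, ih (fun i => D i.succ) (fun i => χ i.succ) (fun i => φ i.succ)
      (fun i => x i.succ) (fun i => y i.succ) hx' hy' (fun i j => hxy _ _) _
      (fun i hi => Blind.opF (hF i.succ hi) _), ← (Fin.consEquiv
      fun _ : Fin (m + 1) => Bool).sum_comp, Fintype.sum_prod_type, Finset.sum_comm]
    refine Finset.sum_congr rfl fun τ _ => ?_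
    have e : ∀ τ0 : Bool, Function.update (Function.update (ovr (fun i => x i.succ) τ
        (ovr (fun i => y i.succ) (fun i => !τ i) σ)) (x 0) τ0) (y 0) (!τ0) =
        ovr x (Fin.cons τ0 τ : Fin (m + 1) → Bool)
          (ovr y (fun i => !(Fin.cons τ0 τ : Fin (m + 1) → Bool) i) σ) := by
      intro τ0
      funext q
      by_cases h1 : q = y 0
      · subst h1
        rw [Function.update_self, ovr_ne _ _ (fun i => hxy i 0), ovr_self hy]
        rfl
      · rw [Function.update_of_ne h1]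
        by_cases h2 : q = x 0
        · subst h2
          rw [Function.update_self, ovr_self hx]
          rfl
        · rw [Function.update_of_ne h2]
          by_cases h3 : ∃ i : Fin m, x i.succ = q
          · obtain ⟨i, rfl⟩ := h3
            rw [ovr_self hx, ovr_self (x := fun i : Fin m => x i.succ) hx' τ _ i]
            rfl
          · rw [not_exists] at h3
            rw [ovr_ne (x := fun i : Fin m => x i.succ) _ _ h3, ovr_ne (x := x) _ _ (fun i => by
              refine Fin.cases (fun h => h2 h.symm) (fun i => h3 i) i)]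
            by_cases h4 : ∃ i : Fin m, y i.succ = q
            · obtain ⟨i, rfl⟩ := h4
              rw [ovr_self hy, ovr_self (x := fun i : Fin m => y i.succ) hy' _ _ i]
              rfl
            · rw [not_exists] at h4
              rw [ovr_ne (x := fun i : Fin m => y i.succ) _ _ h4, ovr_ne (x := y) _ _
                (fun i => by refine Fin.cases (fun h => h1 h.symm) (fun i => h4 i) i)]
    have key : ∀ σ' : P → Bool, Ao857.opF (if D 0 then (Sum.inl (χ 0, x 0, y 0) : Op P)
        else Sum.inr (φ 0, y 0)) F σ' = ∑ τ0 : Bool, (if D 0 then ei (χ 0 * sg τ0)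
          else ei (φ 0 * sg (!τ0))) *
          F (Function.update (Function.update σ' (x 0) τ0) (y 0) (!τ0)) := by
      intro σ'
      by_cases hD : D 0
      · simp only [if_pos hD, opF_inl, ctr]
      · simp only [if_neg hD, opF_inr, cut]
        rw [Fintype.sum_bool, Fintype.sum_bool, add_comm]
        have hb := hF 0 hD
        have e2 : ∀ τ0 v : Bool, F (Function.update (Function.update σ' (x 0) τ0) (y 0) v) =
            F (Function.update σ' (y 0) v) := by
          intro τ0 v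
          rw [Function.update_comm (hxy 0 0)]
          exact hb _ _
        rw [e2, e2]
        rfl
    rw [key, Finset.mul_sum]
    refine Finset.sum_congr rfl fun τ0 _ => ?_
    rw [Fin.prod_univ_succ]
    rw [e]
    change _ = (_ * ∏ i : Fin m, if D i.succ then ei (χ i.succ * sg (τ i)) else
      ei (φ i.succ * sg (!τ i))) * F (ovr x (Fin.cons τ0 τ : Fin (m + 1) → Bool)
          (ovr y (fun i => !(Fin.cons τ0 τ : Fin (m + 1) → Bool) i) σ))
    have e4 : (Fin.consEquiv fun _ : Fin (m + 1) => Bool) (τ0, τ) 0 = τ0 := rfl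
    rw [e4]
    ring

end

end Crest.Agent.R158.Ao857
end
private theorem rz_54768c8a16 : type_of% @_root_.Crest.Agent.R158.Ao857.Op.pts.eq_1 := @_root_.Crest.Agent.R158.Ao857.Op.pts.eq_1 -- L33
private theorem rz_26caa4eaf5 : type_of% @_root_.Crest.Agent.R158.Ao857.Op.ren.eq_1 := @_root_.Crest.Agent.R158.Ao857.Op.ren.eq_1 -- L203
end

-- ▼ part R158/Ao6_857
section

/-!
# Row 158: composition `Out ⬝ (K *ᵥ In)` as one network (helper857)

* `opL_congr` : equality on the configurations with a fixed arrow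
* `InV`, `OutV` : vectors of the lower / upper part (glued columns, cut columns)
* `lowOps`, `upOps` : operations joining the kernel to the two parts
* `compose` : `opL (lowOps ++ upOps) (F_low * ker K * F_up) = OutV ⬝ᵥ (K *ᵥ InV)`
-/

set_option autoImplicit false

noncomputable section

open Finset Matrix

namespace Crest.Agent.R158.Ao857

open Crest.Agent.R158.Ad350
open Crest.Agent.R158.Ad350.St (glueL glueL_nil glueL_cons glueL_smul)
open Crest.Agent.R158.Sw300 (Port)
open Crest.Agent.R158.Bd932 (That e3 ins lsum)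

section

variable {P : Type*} [DecidableEq P]

/-- equality on the configurations with a fixed arrow -/
theorem opL_congr (p : P) (v : Bool) : ∀ (l : List (Op P)), (∀ o ∈ l, p ∉ o.pts) →
    ∀ {F G : (P → Bool) → ℂ}, (∀ σ, σ p = v → F σ = G σ) → ∀ σ, σ p = v →
    opL l F σ = opL l G σ := by
  intro l
  induction l with
  | nil => intro _ F G h; exact h
  | cons o l ih =>
    intro hl F G h
    rw [opL_cons, opL_cons]
    refine ih (fun o' ho' => hl o' (List.mem_cons_of_mem _ ho')) ?_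
    intro σ hσ
    have h1 := hl o List.mem_cons_self
    cases o with
    | inl e =>
      simp only [Op.pts, List.mem_cons, List.not_mem_nil, or_false, not_or] at h1
      simp only [opF_inl, ctr]
      refine Finset.sum_congr rfl fun τ _ => ?_
      rw [h]
      rw [Function.update_of_ne h1.2, Function.update_of_ne h1.1, hσ]
    | inr e =>
      simp only [Op.pts, List.mem_cons, List.not_mem_nil, or_false] at h1
      simp only [opF_inr, cut]
      refine Finset.sum_congr rfl fun τ _ => ?_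
      rw [h]
      rw [Function.update_of_ne h1, hσ]

/-- operations joining the lower ends `u` (glued to `x i` for `D i`, otherwise cut) -/
def joinOps {m : ℕ} (D : Fin m → Prop) [DecidablePred D] (φ : Fin m → ℝ) (x u : Fin m → P) :
    List (Op P) :=
  List.ofFn fun i => if D i then (Sum.inl (0, x i, u i) : Op P) else Sum.inr (φ i, u i)

/-- vector of the lower part: `t` = arrows (up = `true`) between the two parts -/
def InV {m : ℕ} (D : Fin m → Prop) [DecidablePred D] (φ : Fin m → ℝ) (x : Fin m → P)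
    (F : (P → Bool) → ℂ) (σ : P → Bool) (t : Fin m → Bool) : ℂ :=
  (∏ i, if D i then 1 else ei (φ i * sg (!t i))) * F (ovr x t σ)

/-- covector of the upper part -/
def OutV {m : ℕ} (D : Fin m → Prop) [DecidablePred D] (φ : Fin m → ℝ) (v : Fin m → P)
    (F : (P → Bool) → ℂ) (σ : P → Bool) (s : Fin m → Bool) : ℂ :=
  (∏ i, if D i then 1 else ei (φ i * sg (s i))) * F (ovr v (fun i => !s i) σ)


/-- joining the lower part -/
theorem join_low {m k : ℕ} (K : Matrix (Fin k → Bool) (Fin m → Bool) ℂ) {w : Fin k → P}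
    {u x : Fin m → P} (D : Fin m → Prop) [DecidablePred D] (φ : Fin m → ℝ)
    {F : (P → Bool) → ℂ} {A : Set P} (hF : Sees F A) (hx : Function.Injective x)
    (hu : Function.Injective u) (hxu : ∀ i j, x i ≠ u j) (hxw : ∀ i j, x i ≠ w j)
    (huw : ∀ i j, u i ≠ w j) (huA : ∀ i, u i ∉ A) (hxA : ∀ i, ¬ D i → x i ∉ A) :
    opL (joinOps D φ x u) (fun σ => F σ * ker K w u σ) =
      fun σ => (K *ᵥ InV D φ x F σ) (fun i => σ (w i)) := by
  funext σ
  rw [joinOps, mix_eval D (fun _ => 0) φ x u hx hu hxu _ (fun i hi => ?_)]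
  · rw [Matrix.mulVec, dotProduct]
    refine Finset.sum_congr rfl fun τ _ => ?_
    have e1 : F (ovr x τ (ovr u (fun i => !τ i) σ)) = F (ovr x τ σ) := by
      rw [ovr_comm hxu]
      exact hF.ovr huA _ _
    have e2 : ker K w u (ovr x τ (ovr u (fun i => !τ i) σ)) = K (fun i => σ (w i)) τ := by
      unfold ker
      congr 1
      · funext i
        rw [ovr_ne _ _ (fun j => hxw j i), ovr_ne _ _ (fun j => huw j i)]
      · funext i
        rw [ovr_ne _ _ (fun j => hxu j i), ovr_self hu, Bool.not_not]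
    have e3 : (∏ i, if D i then ei (0 * sg (τ i)) else ei (φ i * sg (!τ i))) =
        ∏ i, if D i then 1 else ei (φ i * sg (!τ i)) := by
      refine Finset.prod_congr rfl fun i _ => ?_
      rw [zero_mul, ei_zero]
    rw [e1, e2, e3, InV]
    ring
  · intro σ v
    have h1 : F (Function.update σ (x i) v) = F σ := hF.update (hxA i hi) σ v
    have h2 : ker K w u (Function.update σ (x i) v) = ker K w u σ := by
      refine (ker_sees K w u).update ?_ σ v
      rintro (⟨j, hj⟩ | ⟨j, hj⟩)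
      · exact hxw i j hj.symm
      · exact hxu i j hj.symm
    show F _ * ker K w u _ = F _ * ker K w u _
    rw [h1, h2]

/-- joining the upper part -/
theorem join_up {k : ℕ} {w v : Fin k → P} (D : Fin k → Prop) [DecidablePred D] (φ : Fin k → ℝ)
    {F : (P → Bool) → ℂ} {G : (P → Bool) → (Fin k → Bool) → ℂ} {A B : Set P} (hF : Sees F A)
    (hG : ∀ s, Sees (fun σ => G σ s) B) (hv : Function.Injective v)
    (hw : Function.Injective w) (hvw : ∀ i j, v i ≠ w j) (hwA : ∀ i, w i ∉ A)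
    (hvA : ∀ i, ¬ D i → v i ∉ A) (hwB : ∀ i, w i ∉ B) (hvB : ∀ i, v i ∉ B) :
    opL (joinOps D φ v w) (fun σ => G σ (fun i => σ (w i)) * F σ) =
      fun σ => OutV D φ v F σ ⬝ᵥ G σ := by
  funext σ
  rw [joinOps, mix_eval D (fun _ => 0) φ v w hv hw hvw _ (fun i hi => ?_)]
  · rw [dotProduct]
    have hb : Function.Bijective fun (τ : Fin k → Bool) => fun i => !τ i := by
      constructor
      · intro a b h
        funext i
        have := congrFun h i
        simpa using this
      · intro s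
        exact ⟨fun i => !s i, by funext i; simp⟩
    refine Fintype.sum_bijective _ hb _ _ fun τ => ?_
    have e1 : F (ovr v τ (ovr w (fun i => !τ i) σ)) = F (ovr v τ σ) := by
      rw [ovr_comm hvw]
      exact hF.ovr hwA _ _
    have e2 : G (ovr v τ (ovr w (fun i => !τ i) σ)) (fun i => ovr v τ
        (ovr w (fun i => !τ i) σ) (w i)) = G σ (fun i => !τ i) := by
      have h1 : (fun i => ovr v τ (ovr w (fun i => !τ i) σ) (w i)) = fun i => !τ i := by
        funext i
        rw [ovr_ne _ _ (fun j => hvw j i), ovr_self hw]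
      rw [h1]
      have h2 := hG fun i => !τ i
      exact (h2.ovr (x := v) hvB τ (ovr w (fun i => !τ i) σ)).trans
        (h2.ovr (x := w) hwB _ σ)
    have e3 : (∏ i, if D i then ei (0 * sg (τ i)) else ei (φ i * sg (!τ i))) =
        ∏ i, if D i then 1 else ei (φ i * sg (!τ i)) := by
      refine Finset.prod_congr rfl fun i _ => ?_
      rw [zero_mul, ei_zero]
    rw [e1, e2, e3, OutV]
    simp only [Bool.not_not]
    ring
  · intro σ v'
    have h1 : F (Function.update σ (v i) v') = F σ := hF.update (hvA i hi) σ v'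
    have h2 : (fun j => Function.update σ (v i) v' (w j)) = fun j => σ (w j) := by
      funext j
      exact Function.update_of_ne (fun e => hvw i j e.symm) _ _
    have h3 : G (Function.update σ (v i) v') (fun j => σ (w j)) = G σ (fun j => σ (w j)) :=
      (hG fun j => σ (w j)).update (hvB i) σ v'
    show G _ (fun j => Function.update σ (v i) v' (w j)) * F _ = _
    rw [h1, h2, h3]

lemma InV_sees {m : ℕ} (D : Fin m → Prop) [DecidablePred D] (φ : Fin m → ℝ) {x : Fin m → P}
    {F : (P → Bool) → ℂ} {A : Set P} (hF : Sees F A) (t : Fin m → Bool) :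
    Sees (fun σ => InV D φ x F σ t) (A \ Set.range x) := by
  intro σ σ' h
  show InV D φ x F σ t = InV D φ x F σ' t
  unfold InV
  congr 1
  refine hF _ _ fun q hq => ?_
  by_cases hq2 : ∃ i, x i = q
  · unfold ovr
    rw [dif_pos hq2, dif_pos hq2]
  · have hq3 : ∀ i, x i ≠ q := fun i e => hq2 ⟨i, e⟩
    rw [ovr_ne _ _ hq3, ovr_ne _ _ hq3]
    exact h q ⟨hq, fun ⟨i, hi⟩ => hq3 i hi⟩

/-- **composition** -/
theorem compose {m k : ℕ} (K : Matrix (Fin k → Bool) (Fin m → Bool) ℂ) {w v : Fin k → P}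
    {u x : Fin m → P} (D : Fin m → Prop) [DecidablePred D] (φ : Fin m → ℝ)
    (D' : Fin k → Prop) [DecidablePred D'] (φ' : Fin k → ℝ)
    {F F' : (P → Bool) → ℂ} {A A' : Set P} (hF : Sees F A) (hF' : Sees F' A')
    (hx : Function.Injective x) (hu : Function.Injective u) (hv : Function.Injective v)
    (hw : Function.Injective w) (hxu : ∀ i j, x i ≠ u j) (hxw : ∀ i j, x i ≠ w j)
    (huw : ∀ i j, u i ≠ w j) (hvw : ∀ i j, v i ≠ w j)
    (huA : ∀ i, u i ∉ A) (hxA : ∀ i, ¬ D i → x i ∉ A) (hwA : ∀ i, w i ∉ A) (hvA : ∀ i, v i ∉ A)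
    (huA' : ∀ i, u i ∉ A') (hxA' : ∀ i, x i ∉ A') (hwA' : ∀ i, w i ∉ A')
    (hvA' : ∀ i, ¬ D' i → v i ∉ A') :
    opL (joinOps D φ x u ++ joinOps D' φ' v w) (fun σ => (F σ * ker K w u σ) * F' σ) =
      fun σ => OutV D' φ' v F' σ ⬝ᵥ (K *ᵥ InV D φ x F σ) := by
  have h1 : ∀ o ∈ joinOps D φ x u, ∀ q ∈ o.pts, q ∉ A' := by
    intro o ho q hq
    unfold joinOps at ho
    rw [List.mem_ofFn] at ho
    obtain ⟨i, rfl⟩ := ho
    by_cases hD : D i
    · simp only [if_pos hD, Op.pts, List.mem_cons, List.not_mem_nil, or_false] at hq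
      rcases hq with rfl | rfl
      · exact hxA' i
      · exact huA' i
    · simp only [if_neg hD, Op.pts, List.mem_cons, List.not_mem_nil, or_false] at hq
      rw [hq]
      exact huA' i
  rw [opL_append, opL_mul_right hF' _ h1, join_low K D φ hF hx hu hxu hxw huw huA hxA]
  refine join_up D' φ' (G := fun σ => K *ᵥ InV D φ x F σ) (B := A) hF' ?_ hv hw hvw hwA' hvA'
    hwA hvA
  intro s σ σ' h
  show (K *ᵥ InV D φ x F σ) s = (K *ᵥ InV D φ x F σ') s
  have h3 : InV D φ x F σ = InV D φ x F σ' := by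
    funext t
    exact InV_sees D φ hF t σ σ' fun q hq => h q hq.1
  rw [h3]

end

end Crest.Agent.R158.Ao857
end
end

-- ▼ part R158/Ao7_857

/-!
# Row 158: the amplitude of `G^(z)` as `Out ⬝ (K *ᵥ In)` (helper857)

Over `Env664`: `B : Band A`, `z = (p, y0)`, `B.At p y0`, `Split B Al Au`.

* `gI B i y` : tile of the column `i` of the ring at height `y`
* `nn`, `aa`, `bb`, `pp` : `n + 1` = ring width below `z`, `a + 1`, `b + 1` rows below / above, gap
* `bandOps`, `joinLow`, `joinUp` : operations of the ring rows and of the two crosscuts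
* `env_amp`
-/

set_option autoImplicit false

noncomputable section

open Finset Matrix

namespace Crest.Agent.R158.Ao857

open Crest.Agent.R158.Ad350
open Crest.Agent.R158.Ad350.St (glueL glueL_nil glueL_cons glueL_smul)
open Crest.Agent.R158.Sw300 (Port)
open Crest.Agent.R158.Bd932 (That e3 ins lsum)
open Crest.Agent.R158.Env664 (TG Band Run)

variable {A : Finset (ℤ × ℤ)} (B : Band A)

/-- tile of the column `i` of the ring at height `y` -/
def gI (i : ℕ) (y : ℤ) : TG :=
  if (i : ℤ) ≤ B.xr - B.xl then Sum.inl (B.xl + i, y) else Sum.inr ((i : ℤ) - (B.xr - B.xl + 1), y)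

lemma gI_le {i : ℕ} (h : (i : ℤ) ≤ B.xr - B.xl) (y : ℤ) : gI B i y = Sum.inl (B.xl + i, y) :=
  if_pos h

lemma gI_gt {i : ℕ} (h : ¬ (i : ℤ) ≤ B.xr - B.xl) (y : ℤ) :
    gI B i y = Sum.inr ((i : ℤ) - (B.xr - B.xl + 1), y) := if_neg h

lemma gI_inj {i j : ℕ} {y z : ℤ} (h : gI B i y = gI B j z) : i = j ∧ y = z := by
  by_cases h1 : (i : ℤ) ≤ B.xr - B.xl <;> by_cases h2 : (j : ℤ) ≤ B.xr - B.xl
  · rw [gI_le B h1, gI_le B h2] at h
    have h3 := Sum.inl_injective h
    simp only [Prod.mk.injEq] at h3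
    omega
  · rw [gI_le B h1, gI_gt B h2] at h
    exact absurd h (by simp)
  · rw [gI_gt B h1, gI_le B h2] at h
    exact absurd h (by simp)
  · rw [gI_gt B h1, gI_gt B h2] at h
    have h3 := Sum.inr_injective h
    simp only [Prod.mk.injEq] at h3
    omega

/-- the tiles of the ring rows -/
def gB : ℕ × ℕ ↪ TG := ⟨fun t => gI B t.1 (B.y1 + t.2), fun s t h => by
  obtain ⟨h1, h2⟩ := gI_inj B h
  exact Prod.ext h1 (by omega)⟩

/-- `n + 1` = width of the ring below `z` -/
def nn : ℕ := (B.xr - B.xl + B.R).toNat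

/-- `a + 1` = number of rows below `z` -/
def aa (y0 : ℤ) : ℕ := (y0 - B.y1 - 1).toNat

/-- `b + 1` = number of rows above `z` -/
def bb (y0 : ℤ) : ℕ := (B.y2 - y0 - 1).toNat

/-- the gap of the leg -/
def pp (p : ℤ) : Fin (nn B + 2) := Fin.ofNat _ (p - B.xl).toNat

lemma le_run {p y0 : ℤ} (h : B.At p y0) : B.xl ≤ B.xr := by
  have := h.hp1; have := h.hp2; omega

lemma nn_eq {p y0 : ℤ} (h : B.At p y0) : (nn B : ℤ) = B.xr - B.xl + B.R := by
  have := le_run B h
  have := B.hR
  unfold nn; omega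

lemma aa_eq {p y0 : ℤ} (h : B.At p y0) : (aa B y0 : ℤ) = y0 - B.y1 - 1 := by
  have := h.hy1
  unfold aa; omega

lemma bb_eq {p y0 : ℤ} (h : B.At p y0) : (bb B y0 : ℤ) = B.y2 - y0 - 1 := by
  have := h.hy2
  unfold bb; omega

lemma pp_eq {p y0 : ℤ} (h : B.At p y0) : ((pp B p : ℕ) : ℤ) = p - B.xl := by
  have h1 := nn_eq B h
  have h2 := h.hp1
  have h3 := h.hp2
  have h4 := B.hR
  have h5 : (pp B p : ℕ) = (p - B.xl).toNat := by
    unfold pp
    rw [Fin.val_ofNat]
    apply Nat.mod_eq_of_lt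
    omega
  rw [h5]
  omega

/-- embedding of the tiles of the region -/
def inlE : (ℤ × ℤ) ↪ TG := ⟨Sum.inl, Sum.inl_injective⟩

lemma mem_inlE {C : Finset (ℤ × ℤ)} {t : ℤ × ℤ} : (Sum.inl t : TG) ∈ C.map inlE ↔ t ∈ C := by
  rw [Finset.mem_map]
  constructor
  · rintro ⟨s, hs, h⟩
    rwa [← Sum.inl_injective h]
  · intro h
    exact ⟨t, h, rfl⟩

lemma not_inlE {C : Finset (ℤ × ℤ)} {t : ℤ × ℤ} : (Sum.inr t : TG) ∉ C.map inlE := by
  rw [Finset.mem_map]
  rintro ⟨s, -, h⟩
  exact absurd h (by simp [inlE])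

/-- tiles of the ring rows -/
def bandM (y0 : ℤ) : Finset TG := (bandT (nn B) (aa B y0) (bb B y0)).map (gB B)

lemma mem_bandT {n a b : ℕ} {t : ℕ × ℕ} : t ∈ bandT n a b ↔
    (t.1 < n + 1 ∧ t.2 < a + 1) ∨ (t.1 < n + 2 ∧ a + 1 ≤ t.2 ∧ t.2 < a + 1 + b + 1) := by
  rw [bandT, Finset.mem_union, mem_blockT, mem_blockT]
  omega

lemma gI_mem_band {p y0 : ℤ} (h : B.At p y0) {i : ℕ} {y : ℤ} :
    gI B i y ∈ bandM B y0 ↔ (i ≤ nn B ∧ B.y1 ≤ y ∧ y < y0) ∨
      (i ≤ nn B + 1 ∧ y0 ≤ y ∧ y < B.y2) := by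
  have ha := aa_eq B h
  have hb := bb_eq B h
  have h1 := h.hy1
  have h2 := h.hy2
  unfold bandM
  rw [Finset.mem_map]
  constructor
  · rintro ⟨⟨j, k⟩, hm, he⟩
    rw [mem_bandT] at hm
    obtain ⟨e1, e2⟩ := gI_inj B he
    simp only at e1 e2 hm
    omega
  · intro hm
    refine ⟨(i, (y - B.y1).toNat), ?_, ?_⟩
    · rw [mem_bandT]
      simp only
      omega
    · show gI B i (B.y1 + ((y - B.y1).toNat : ℤ)) = gI B i y
      congr 1
      omega

lemma inl_mem_band {p y0 : ℤ} (h : B.At p y0) {x y : ℤ} :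
    (Sum.inl (x, y) : TG) ∈ bandM B y0 ↔ B.xl ≤ x ∧ x ≤ B.xr ∧ B.y1 ≤ y ∧ y < B.y2 := by
  have hn := nn_eq B h
  have hR := B.hR
  have h1 := h.hy1
  have h2 := h.hy2
  by_cases hx : B.xl ≤ x ∧ x ≤ B.xr
  · have e : (Sum.inl (x, y) : TG) = gI B (x - B.xl).toNat y := by
      rw [gI_le B (by omega)]
      congr 2
      omega
    rw [e, gI_mem_band B h]
    omega
  · constructor
    · intro hm
      exfalso
      unfold bandM at hm
      rw [Finset.mem_map] at hm
      obtain ⟨⟨j, k⟩, hm, he⟩ := hm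
      by_cases hj : (j : ℤ) ≤ B.xr - B.xl
      · have he' : gI B j (B.y1 + (k : ℤ)) = Sum.inl (x, y) := he
        rw [gI_le B hj] at he'
        have := Sum.inl_injective he'
        simp only [Prod.mk.injEq] at this
        omega
      · have he' : gI B j (B.y1 + (k : ℤ)) = Sum.inl (x, y) := he
        rw [gI_gt B hj] at he'
        exact absurd he' (by simp)
    · intro hm; omega

lemma inr_mem_band {p y0 : ℤ} (h : B.At p y0) {i y : ℤ} :
    (Sum.inr (i, y) : TG) ∈ bandM B y0 ↔ B.y1 ≤ y ∧ y < B.y2 ∧ 0 ≤ i ∧ i < B.wd y0 y := by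
  have hn := nn_eq B h
  have hR := B.hR
  have h0 := le_run B h
  have h1 := h.hy1
  have h2 := h.hy2
  have hwd : B.wd y0 y = if y < y0 then B.R else B.R + 1 := rfl
  by_cases hx : 0 ≤ i
  · have e : (Sum.inr (i, y) : TG) = gI B (i + (B.xr - B.xl + 1)).toNat y := by
      rw [gI_gt B (by omega)]
      congr 2
      omega
    rw [e, gI_mem_band B h, hwd]
    split_ifs <;> omega
  · constructor
    · intro hm
      exfalso
      unfold bandM at hm
      rw [Finset.mem_map] at hm
      obtain ⟨⟨j, k⟩, hm, he⟩ := hm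
      by_cases hj : (j : ℤ) ≤ B.xr - B.xl
      · have he' : gI B j (B.y1 + (k : ℤ)) = Sum.inr (i, y) := he
        rw [gI_le B hj] at he'
        exact absurd he' (by simp)
      · have he' : gI B j (B.y1 + (k : ℤ)) = Sum.inr (i, y) := he
        rw [gI_gt B hj] at he'
        have := Sum.inr_injective he'
        simp only [Prod.mk.injEq] at this
        omega
    · intro hm; omega

/-- the region is the union of the lower part, the band and the upper part -/
structure Split (Al Au : Finset (ℤ × ℤ)) : Prop where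
  part : ∀ x y : ℤ, (x, y) ∈ A ↔ (x, y) ∈ Al ∨ (x, y) ∈ Au ∨
    (B.xl ≤ x ∧ x ≤ B.xr ∧ B.y1 ≤ y ∧ y < B.y2)
  disj : Disjoint Al Au
  dl : ∀ x y : ℤ, (x, y) ∈ Al → ¬ (B.xl ≤ x ∧ x ≤ B.xr ∧ B.y1 ≤ y ∧ y < B.y2)
  du : ∀ x y : ℤ, (x, y) ∈ Au → ¬ (B.xl ≤ x ∧ x ≤ B.xr ∧ B.y1 ≤ y ∧ y < B.y2)
  nl : ∀ x : ℤ, B.xl ≤ x → x ≤ B.xr → (x, B.y2) ∉ Al
  nu : ∀ x : ℤ, B.xl ≤ x → x ≤ B.xr → (x, B.y1 - 1) ∉ Au

variable {B}

lemma Split.tG_eq {Al Au : Finset (ℤ × ℤ)} (hs : Split B Al Au) {p y0 : ℤ} (h : B.At p y0) :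
    B.tG y0 = (Al.map inlE ∪ bandM B y0) ∪ Au.map inlE := by
  ext t
  rw [Finset.mem_union, Finset.mem_union]
  rcases t with ⟨x, y⟩ | ⟨i, y⟩
  · rw [B.inl_mem, mem_inlE, mem_inlE, inl_mem_band B h, hs.part]
    tauto
  · rw [B.inr_mem, inr_mem_band B h]
    have h1 := not_inlE (C := Al) (t := (i, y))
    have h2 := not_inlE (C := Au) (t := (i, y))
    tauto

lemma Split.disj_lb {Al Au : Finset (ℤ × ℤ)} (hs : Split B Al Au) {p y0 : ℤ} (h : B.At p y0) :
    Disjoint (Al.map inlE) (bandM B y0) := by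
  rw [Finset.disjoint_left]
  rintro (⟨x, y⟩ | ⟨i, y⟩) h1 h2
  · rw [mem_inlE] at h1
    rw [inl_mem_band B h] at h2
    exact hs.dl x y h1 h2
  · exact not_inlE h1

lemma Split.disj_ub {Al Au : Finset (ℤ × ℤ)} (hs : Split B Al Au) {p y0 : ℤ} (h : B.At p y0) :
    Disjoint (Au.map inlE) (bandM B y0) := by
  rw [Finset.disjoint_left]
  rintro (⟨x, y⟩ | ⟨i, y⟩) h1 h2
  · rw [mem_inlE] at h1
    rw [inl_mem_band B h] at h2
    exact hs.du x y h1 h2
  · exact not_inlE h1

lemma Split.disj_lu {Al Au : Finset (ℤ × ℤ)} (hs : Split B Al Au) :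
    Disjoint (Al.map inlE) (Au.map inlE) := (Finset.disjoint_map inlE).2 hs.disj

lemma ports_disj {T : Type*} [DecidableEq T] {C C' : Finset T} (h : Disjoint C C') {q : Port T}
    (h1 : q ∈ ports C) (h2 : q ∈ ports C') : False := by
  obtain ⟨t, d, rfl, ht⟩ := mem_ports' h1
  exact Finset.disjoint_left.1 h ht (mem_ports.1 h2)

variable (B)

/-- operations of the ring rows -/
def bandOps (p y0 : ℤ) (c c' : ℝ) : List (Op (Port TG)) :=
  ((bandL (nn B) (pp B p) c c' (aa B y0) (bb B y0)).map Sum.inl).map (Op.ren (tpm (gB B)))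

lemma bandL_ports {n : ℕ} {q : Fin (n + 2)} {c c' : ℝ} {a b : ℕ} {e : Pr}
    (h : e ∈ bandL n q c c' a b) : e.2.1 ∈ ports (bandT n a b) ∧ e.2.2 ∈ ports (bandT n a b) := by
  have hr : ∀ {m : ℕ} {c : ℝ} {y : ℕ} {e : Pr}, e ∈ rowL m c y → (∀ i : ℕ, i < m + 1 →
      (i, y) ∈ bandT n a b) → e.2.1 ∈ ports (bandT n a b) ∧ e.2.2 ∈ ports (bandT n a b) := by
    intro m c y e h hT
    obtain ⟨i, rfl⟩ := mem_rowL.1 h
    exact ⟨mem_ports.2 (hT _ i.2), mem_ports.2 (hT _ (i - 1 : Fin (m + 1)).2)⟩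
  have hv : ∀ {m : ℕ} {y : ℕ} {e : Pr}, e ∈ verL m y → (∀ i : ℕ, i < m + 1 →
      (i, y) ∈ bandT n a b ∧ (i, y + 1) ∈ bandT n a b) →
      e.2.1 ∈ ports (bandT n a b) ∧ e.2.2 ∈ ports (bandT n a b) := by
    intro m y e h hT
    obtain ⟨i, rfl⟩ := mem_verL.1 h
    exact ⟨mem_ports.2 (hT _ i.2).1, mem_ports.2 (hT _ i.2).2⟩
  rcases mem_bandL.1 h with h | h | h
  · rcases mem_blockL.1 h with ⟨y, h1, h2, h3⟩ | ⟨y, h1, h2, h3⟩
    · exact hr h3 fun i hi => mem_bandT.2 (by simp only; omega)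
    · exact hv h3 fun i hi => ⟨mem_bandT.2 (by simp only; omega), mem_bandT.2 (by simp only; omega)⟩
  · rcases mem_blockL.1 h with ⟨y, h1, h2, h3⟩ | ⟨y, h1, h2, h3⟩
    · exact hr h3 fun i hi => mem_bandT.2 (by simp only; omega)
    · exact hv h3 fun i hi => ⟨mem_bandT.2 (by simp only; omega), mem_bandT.2 (by simp only; omega)⟩
  · obtain ⟨i, rfl⟩ := mem_insL.1 h
    have := i.2
    have := (q.succAbove i).2
    exact ⟨mem_ports.2 (mem_bandT.2 (by simp only; omega)),
      mem_ports.2 (mem_bandT.2 (by simp only; omega))⟩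

lemma ports_map {T T' : Type*} [DecidableEq T] [DecidableEq T'] (g : T ↪ T') {C : Finset T}
    {q : Port T} (h : q ∈ ports C) : tpm g q ∈ ports (C.map g) := by
  obtain ⟨t, d, rfl, ht⟩ := mem_ports' h
  exact mem_ports.2 (Finset.mem_map_of_mem g ht)

lemma bandOps_ports {p y0 : ℤ} {c c' : ℝ} {o : Op (Port TG)} (ho : o ∈ bandOps B p y0 c c') :
    ∀ q ∈ o.pts, q ∈ ports (bandM B y0) := by
  intro q hq
  unfold bandOps at ho
  rw [List.map_map, List.mem_map] at ho
  obtain ⟨e, he, rfl⟩ := ho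
  have h1 := bandL_ports he
  simp only [Function.comp, Op.ren, Op.pts, List.mem_cons, List.not_mem_nil, or_false] at hq
  rcases hq with rfl | rfl
  · exact ports_map _ h1.1
  · exact ports_map _ h1.2

/-- ports of the lower crosscut: the row below, the first row -/
def xP (i : Fin (nn B + 1)) : Port TG := some (gI B i (B.y1 - 1), 1)
/-- lower ends of the ring rows -/
def uP (i : Fin (nn B + 1)) : Port TG := some (gI B i B.y1, 3)
/-- upper ends of the ring rows -/
def wP (i : Fin (nn B + 2)) : Port TG := some (gI B i (B.y2 - 1), 1)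
/-- ports of the row above -/
def vP (i : Fin (nn B + 2)) : Port TG := some (gI B i B.y2, 3)

/-- glued columns of the lower crosscut -/
def Dl (Al : Finset (ℤ × ℤ)) (i : Fin (nn B + 1)) : Prop :=
  ((i : ℕ) : ℤ) ≤ B.xr - B.xl ∧ (B.xl + ((i : ℕ) : ℤ), B.y1 - 1) ∈ Al
/-- glued columns of the upper crosscut -/
def Du (Au : Finset (ℤ × ℤ)) (i : Fin (nn B + 2)) : Prop :=
  ((i : ℕ) : ℤ) ≤ B.xr - B.xl ∧ (B.xl + ((i : ℕ) : ℤ), B.y2) ∈ Au

instance (Al : Finset (ℤ × ℤ)) : DecidablePred (Dl B Al) := fun _ => by unfold Dl; infer_instance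
instance (Au : Finset (ℤ × ℤ)) : DecidablePred (Du B Au) := fun _ => by unfold Du; infer_instance

/-- operations of the lower crosscut -/
def joinLow (Al : Finset (ℤ × ℤ)) (φ : Port TG → ℝ) : List (Op (Port TG)) :=
  joinOps (Dl B Al) (fun i => φ (uP B i)) (xP B) (uP B)
/-- operations of the upper crosscut -/
def joinUp (Au : Finset (ℤ × ℤ)) (φ : Port TG → ℝ) : List (Op (Port TG)) :=
  joinOps (Du B Au) (fun i => φ (wP B i)) (vP B) (wP B)

/-- the band operator -/
def Kz (p y0 : ℤ) (c c' : ℝ) : Matrix (Fin (nn B + 2) → Bool) (Fin (nn B + 1) → Bool) ℂ :=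
  That (nn B + 2) c' (1 / 2) ^ (bb B y0 + 1) * ins (nn B) (pp B p) *
    That (nn B + 1) c (1 / 2) ^ (aa B y0 + 1)

/-- the vector of the lower part -/
def InZ (Al : Finset (ℤ × ℤ)) (φ : Port TG → ℝ) (Ll : List (Op (Port TG)))
    (σ : Port TG → Bool) : (Fin (nn B + 1) → Bool) → ℂ :=
  InV (Dl B Al) (fun i => φ (uP B i)) (xP B) (opL Ll (tilesF (Al.map inlE))) σ

/-- the covector of the upper part -/
def OutZ (Au : Finset (ℤ × ℤ)) (φ : Port TG → ℝ) (Lu : List (Op (Port TG)))
    (σ : Port TG → Bool) : (Fin (nn B + 2) → Bool) → ℂ :=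
  OutV (Du B Au) (fun i => φ (wP B i)) (vP B) (opL Lu (tilesF (Au.map inlE))) σ

lemma some_ne {s t : TG} {d d' : ZMod 4} (h : ¬ (s = t ∧ d = d')) :
    (some (s, d) : Port TG) ≠ some (t, d') := fun h' => h (by simpa using h')

lemma gI_not_low {Al : Finset (ℤ × ℤ)} {i : ℕ} {y : ℤ} {d : ZMod 4}
    (h : (i : ℤ) ≤ B.xr - B.xl → (B.xl + (i : ℤ), y) ∉ Al) :
    (some (gI B i y, d) : Port TG) ∉ (↑(ports (Al.map inlE)) : Set (Port TG)) := by
  intro hm
  have hm' := mem_ports.1 (Finset.mem_coe.1 hm)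
  by_cases h1 : (i : ℤ) ≤ B.xr - B.xl
  · rw [gI_le B h1, mem_inlE] at hm'
    exact h h1 hm'
  · rw [gI_gt B h1] at hm'
    exact not_inlE hm'

/-- **the amplitude of `G^(z)`** -/
theorem env_amp {p y0 : ℤ} (h : B.At p y0) {Al Au : Finset (ℤ × ℤ)} (hs : Split B Al Au)
    (c c' : ℝ) (φ : Port TG → ℝ) {Ll Lu : List (Op (Port TG))}
    (hLl : ∀ o ∈ Ll, ∀ q ∈ o.pts, q ∈ ports (Al.map inlE))
    (hLu : ∀ o ∈ Lu, ∀ q ∈ o.pts, q ∈ ports (Au.map inlE))
    (σ : Port TG → Bool) (hσ : σ (some (Sum.inl (p, y0), 3)) = false) :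
    opL (Ll ++ (Lu ++ (bandOps B p y0 c c' ++ (joinLow B Al φ ++ joinUp B Au φ))))
        (tilesF (B.tG y0)) σ =
      OutZ B Au φ Lu σ ⬝ᵥ (Kz B p y0 c c' *ᵥ InZ B Al φ Ll σ) := by
  have hn := nn_eq B h
  have ha := aa_eq B h
  have hb := bb_eq B h
  have hpp := pp_eq B h
  have hR := B.hR
  have hy1 := h.hy1
  have hy2 := h.hy2
  have hp1 := h.hp1
  have hp2 := h.hp2
  set F := opL Ll (tilesF (Al.map inlE)) with hF
  set F' := opL Lu (tilesF (Au.map inlE)) with hF'
  have sF : Sees F (↑(ports (Al.map inlE)) : Set (Port TG)) := opL_sees _ (tilesF_sees _)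
  have sF' : Sees F' (↑(ports (Au.map inlE)) : Set (Port TG)) := opL_sees _ (tilesF_sees _)
  -- the tiles
  have e1 : tilesF (B.tG y0) = fun σ => (tilesF (Al.map inlE) σ * tilesF (bandM B y0) σ) *
      tilesF (Au.map inlE) σ := by
    funext σ
    rw [hs.tG_eq h, tilesF_union, tilesF_union (hs.disj_lb h)]
    rw [Finset.disjoint_union_left]
    exact ⟨hs.disj_lu, (hs.disj_ub h).symm⟩
  have e2 : opL Ll (fun σ => (tilesF (Al.map inlE) σ * tilesF (bandM B y0) σ) *
      tilesF (Au.map inlE) σ) = fun σ => (F σ * tilesF (bandM B y0) σ) *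
      tilesF (Au.map inlE) σ := by
    rw [opL_mul_right (tilesF_sees (Au.map inlE)) Ll (fun o ho q hq hq' =>
      ports_disj hs.disj_lu (hLl o ho q hq) (Finset.mem_coe.1 hq')),
      opL_mul_right (tilesF_sees (bandM B y0)) Ll (fun o ho q hq hq' =>
      ports_disj (hs.disj_lb h) (hLl o ho q hq) (Finset.mem_coe.1 hq'))]
  have e3 : opL Lu (fun σ => (F σ * tilesF (bandM B y0) σ) * tilesF (Au.map inlE) σ) =
      fun σ => (F σ * tilesF (bandM B y0) σ) * F' σ := by
    have hsee : Sees (fun σ => F σ * tilesF (bandM B y0) σ)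
        ((↑(ports (Al.map inlE)) : Set (Port TG)) ∪ ↑(ports (bandM B y0))) :=
      (sF.mono Set.subset_union_left).mul ((tilesF_sees _).mono Set.subset_union_right)
    refine opL_mul_left hsee Lu (fun o ho q hq hq' => ?_) _
    rcases hq' with hq' | hq'
    · exact ports_disj hs.disj_lu (Finset.mem_coe.1 hq') (hLu o ho q hq)
    · exact ports_disj (hs.disj_ub h) (hLu o ho q hq) (Finset.mem_coe.1 hq')
  have e4 : opL (bandOps B p y0 c c') (fun σ => (F σ * tilesF (bandM B y0) σ) * F' σ) =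
      fun σ => (F σ * opL (bandOps B p y0 c c') (tilesF (bandM B y0)) σ) * F' σ := by
    rw [opL_mul_right sF' _ (fun o ho q hq hq' =>
      ports_disj (hs.disj_ub h) (Finset.mem_coe.1 hq') (bandOps_ports B ho q hq)),
      opL_mul_left sF _ (fun o ho q hq hq' =>
      ports_disj (hs.disj_lb h) (Finset.mem_coe.1 hq') (bandOps_ports B ho q hq))]
  have e5 : ∀ σ : Port TG → Bool, σ (some (Sum.inl (p, y0), 3)) = false →
      opL (bandOps B p y0 c c') (tilesF (bandM B y0)) σ = ker (Kz B p y0 c c') (wP B) (uP B) σ := by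
    intro σ hσ
    have f1 : tilesF (bandM B y0) = fun σ => tilesF (bandT (nn B) (aa B y0) (bb B y0))
        (σ ∘ tpm (gB B)) := funext fun σ => tilesF_ren (gB B) _ σ
    rw [f1, bandOps, opL_ren (tpm_inj (gB B).injective), opL_glueL]
    have hleg : (σ ∘ tpm (gB B)) (tp (pp B p) (aa B y0 + 1) 3) = false := by
      have : tpm (gB B) (tp (pp B p) (aa B y0 + 1) 3) = some (Sum.inl (p, y0), 3) := by
        show (some (gI B (pp B p) (B.y1 + ((aa B y0 + 1 : ℕ) : ℤ)), 3) : Port TG) = _
        rw [gI_le B (by omega)]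
        have a1 : B.xl + ((pp B p : ℕ) : ℤ) = p := by omega
        have a2 : B.y1 + ((aa B y0 + 1 : ℕ) : ℤ) = y0 := by omega
        rw [a1, a2]
      rw [Function.comp, this]
      exact hσ
    show glueL (bandL (nn B) (pp B p) c c' (aa B y0) (bb B y0))
      (tilesF (bandT (nn B) (aa B y0) (bb B y0))) (σ ∘ tpm (gB B)) = _
    rw [band_ker _ _ c c' _ _ _ hleg]
    have g1 : (fun i : Fin (nn B + 2) => (σ ∘ tpm (gB B)) (tp i (aa B y0 + 1 + bb B y0) 1)) =
        fun i => σ (wP B i) := by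
      funext i
      show σ (some (gI B i (B.y1 + ((aa B y0 + 1 + bb B y0 : ℕ) : ℤ)), 1)) = _
      unfold wP
      have a1 : B.y1 + ((aa B y0 + 1 + bb B y0 : ℕ) : ℤ) = B.y2 - 1 := by omega
      rw [a1]
    have g2 : (fun i : Fin (nn B + 1) => !(σ ∘ tpm (gB B)) (tp i 0 3)) =
        fun i => !σ (uP B i) := by
      funext i
      show (!σ (some (gI B i (B.y1 + ((0 : ℕ) : ℤ)), 3))) = _
      unfold uP
      have a1 : B.y1 + ((0 : ℕ) : ℤ) = B.y1 := by omega
      rw [a1]
    rw [g1, g2]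
    unfold ker Kz
    rfl
  rw [opL_append, opL_append, opL_append, e1, e2, e3, e4]
  have d13 : ¬ ((3 : ZMod 4) = 1) := by decide
  have hleg1 : ∀ o ∈ joinLow B Al φ ++ joinUp B Au φ,
      (some (Sum.inl (p, y0), 3) : Port TG) ∉ o.pts := by
    have n1 : ∀ i, (some (Sum.inl (p, y0), 3) : Port TG) ≠ xP B i := fun i =>
      some_ne fun h => d13 h.2
    have n2 : ∀ i, (some (Sum.inl (p, y0), 3) : Port TG) ≠ uP B i := fun i => some_ne fun h => by
      have h1 := h.1
      by_cases hi : ((i : ℕ) : ℤ) ≤ B.xr - B.xl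
      · rw [gI_le B hi] at h1
        have := Sum.inl_injective h1
        simp only [Prod.mk.injEq] at this
        omega
      · rw [gI_gt B hi] at h1
        exact absurd h1 (by simp)
    have n3 : ∀ i, (some (Sum.inl (p, y0), 3) : Port TG) ≠ vP B i := fun i => some_ne fun h => by
      have h1 := h.1
      by_cases hi : ((i : ℕ) : ℤ) ≤ B.xr - B.xl
      · rw [gI_le B hi] at h1
        have := Sum.inl_injective h1
        simp only [Prod.mk.injEq] at this
        omega
      · rw [gI_gt B hi] at h1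
        exact absurd h1 (by simp)
    have n4 : ∀ i, (some (Sum.inl (p, y0), 3) : Port TG) ≠ wP B i := fun i =>
      some_ne fun h => d13 h.2
    intro o ho hm
    rw [List.mem_append] at ho
    rcases ho with ho | ho
    · unfold joinLow joinOps at ho
      rw [List.mem_ofFn] at ho
      obtain ⟨i, rfl⟩ := ho
      by_cases hD : Dl B Al i
      · simp only [if_pos hD, Op.pts, List.mem_cons, List.not_mem_nil, or_false] at hm
        rcases hm with hm | hm
        · exact n1 i hm
        · exact n2 i hm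
      · simp only [if_neg hD, Op.pts, List.mem_cons, List.not_mem_nil, or_false] at hm
        exact n2 i hm
    · unfold joinUp joinOps at ho
      rw [List.mem_ofFn] at ho
      obtain ⟨i, rfl⟩ := ho
      by_cases hD : Du B Au i
      · simp only [if_pos hD, Op.pts, List.mem_cons, List.not_mem_nil, or_false] at hm
        rcases hm with hm | hm
        · exact n3 i hm
        · exact n4 i hm
      · simp only [if_neg hD, Op.pts, List.mem_cons, List.not_mem_nil, or_false] at hm
        exact n4 i hm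
  rw [opL_congr (some (Sum.inl (p, y0), 3)) false _ hleg1 (G := fun σ =>
    (F σ * ker (Kz B p y0 c c') (wP B) (uP B) σ) * F' σ) (fun σ hσ => by
      show (F σ * opL (bandOps B p y0 c c') (tilesF (bandM B y0)) σ) * F' σ = _
      rw [e5 σ hσ]) σ hσ]
  have hcomp := compose (Kz B p y0 c c') (w := wP B) (v := vP B) (u := uP B) (x := xP B)
    (Dl B Al) (fun i => φ (uP B i)) (Du B Au) (fun i => φ (wP B i)) sF sF'
    (fun i j h => ?_) (fun i j h => ?_) (fun i j h => ?_) (fun i j h => ?_)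
    (fun i j => some_ne fun h => d13 h.2.symm) (fun i j => some_ne fun h => ?_)
    (fun i j => some_ne fun h => d13 h.2) (fun i j => some_ne fun h => d13 h.2)
    (fun i => gI_not_low B fun h1 h2 => ?_) (fun i hi => gI_not_low B fun h1 h2 => hi ⟨h1, h2⟩)
    (fun i => gI_not_low B fun h1 h2 => ?_) (fun i => gI_not_low B fun h1 h2 => ?_)
    (fun i => gI_not_low B fun h1 h2 => ?_) (fun i => gI_not_low B fun h1 h2 => ?_)
    (fun i => gI_not_low B fun h1 h2 => ?_) (fun i hi => gI_not_low B fun h1 h2 => hi ⟨h1, h2⟩)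
  · exact congrFun hcomp σ
  · have h1 : gI B i (B.y1 - 1) = gI B j (B.y1 - 1) := by
      unfold xP at h; simpa using h
    exact Fin.ext (gI_inj B h1).1
  · have h1 : gI B i B.y1 = gI B j B.y1 := by
      unfold uP at h; simpa using h
    exact Fin.ext (gI_inj B h1).1
  · have h1 : gI B i B.y2 = gI B j B.y2 := by
      unfold vP at h; simpa using h
    exact Fin.ext (gI_inj B h1).1
  · have h1 : gI B i (B.y2 - 1) = gI B j (B.y2 - 1) := by
      unfold wP at h; simpa using h
    exact Fin.ext (gI_inj B h1).1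
  · have := (gI_inj B h.1).2
    omega
  · exact hs.dl _ _ h2 ⟨by omega, by omega, by omega, by omega⟩
  · exact hs.dl _ _ h2 ⟨by omega, by omega, by omega, by omega⟩
  · exact hs.nl _ (by omega) (by omega) h2
  · exact hs.du _ _ h2 ⟨by omega, by omega, by omega, by omega⟩
  · exact hs.nu _ (by omega) (by omega) h2
  · exact hs.du _ _ h2 ⟨by omega, by omega, by omega, by omega⟩

end Crest.Agent.R158.Ao857
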