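import Crest.Agent.R158.Cpl6_963
import Crest.Agent.R158.Sp0_580

-- ▼ part R158/Cpl7_963
section

/-!
# Row 158 (helper963): stability of the four-arm point bound in the window

* `piv_A4_bound` : `P_v(f piv A4 e (2r)) ≤ 100 N^{3ε} (2r)^{-5/4} (2^i)^{-5/4}`
* `A4_compare` : `P_{w1}(A4 e (2r)) ≤ P_{w2}(A4 e r) + error`
* `HypL4` : lower point bound at `p = 1/2`
* `A4_low`, `A4_low_q` : the lower point bound in the window
* `A4_up_q` : the upper point bound in the window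
-/

set_option autoImplicit false

noncomputable section

namespace Crest.Agent.R158.Cpl963

open MeasureTheory ProbabilityTheory unitInterval Filter Topology
open Crest.Agent.R161.Geo729 Crest.Agent.R161.Topo374 Crest.Agent.R161.Dual374
open Crest.Agent.R161.Tas682 Crest.Agent.R161.Ring421
open Crest.Agent.R158.Rs689 Crest.Agent.R158.Qm522
open Crest.ProbabilityR.Percolation

theorem two_pow : (2 : ℝ) ^ (5 / 4 : ℝ) ≤ 3 := by
  have h1 : (2 : ℝ) ^ (5 / 4 : ℝ) = ((2 : ℝ) ^ (5 : ℕ)) ^ (1 / 4 : ℝ) := by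
    rw [← Real.rpow_natCast, ← Real.rpow_mul (by norm_num)]
    norm_num
  have h2 : (3 : ℝ) = ((3 : ℝ) ^ (4 : ℕ)) ^ (1 / 4 : ℝ) := by
    rw [← Real.rpow_natCast, ← Real.rpow_mul (by norm_num)]
    norm_num
  rw [h1, h2]
  exact Real.rpow_le_rpow (by norm_num) (by norm_num) (by norm_num)

theorem thirtytwo_pow : (32 : ℝ) ^ (5 / 4 : ℝ) ≤ 100 := by
  have h1 : (32 : ℝ) ^ (5 / 4 : ℝ) = ((32 : ℝ) ^ (5 : ℕ)) ^ (1 / 4 : ℝ) := by
    rw [← Real.rpow_natCast, ← Real.rpow_mul (by norm_num)]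
    norm_num
  have h2 : (100 : ℝ) = ((100 : ℝ) ^ (4 : ℕ)) ^ (1 / 4 : ℝ) := by
    rw [← Real.rpow_natCast, ← Real.rpow_mul (by norm_num)]
    norm_num
  rw [h1, h2]
  exact Real.rpow_le_rpow (by norm_num) (by norm_num) (by norm_num)

/-- dyadic index of an edge -/
def dy (x : P2) (f : Edge) : ℕ := Nat.log 2 (sd x (src f)).toNat

/-- probability of being pivotal for the point event -/
theorem piv_A4_bound {N r : ℕ} {ε : ℝ} {v : Edge → I} (hN : 1 ≤ N) (hε : 0 ≤ ε) (hr : 2 ≤ r)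
    (hrN : 2 * r ≤ N)
    (hT : ∀ x : P2, ∀ k l : ℕ, 1 ≤ k → k ≤ l → l ≤ N →
      (PB v).real (T2 x k l) ≤ (N : ℝ) ^ ε * ((k : ℝ) / l) ^ (5 / 4 : ℝ))
    {e f : Edge} (hf : f ∈ eAn (src e) 0 r) :
    (PB v).real (piv f (A4 e ((2 * r : ℕ) : ℤ))) ≤
      100 * ((N : ℝ) ^ (3 * ε) * ((2 * r : ℕ) : ℝ) ^ (-(5 / 4 : ℝ))) *
        ((2 : ℝ) ^ dy (src e) f) ^ (-(5 / 4 : ℝ)) := by
  have hN1 : (1 : ℝ) ≤ N := by exact_mod_cast hN
  have hN0 : (0 : ℝ) < N := by linarith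
  have hr0 : (0 : ℝ) < r := by exact_mod_cast (by omega : 0 < r)
  have hR0 : (0 : ℝ) < ((2 * r : ℕ) : ℝ) := by exact_mod_cast (by omega : 0 < 2 * r)
  have hE : 0 < (N : ℝ) ^ ε := Real.rpow_pos_of_pos hN0 _
  have hE1 : 1 ≤ (N : ℝ) ^ ε := Real.one_le_rpow hN1 hε
  have hE3 : (N : ℝ) ^ (3 * ε) = (N : ℝ) ^ ε * (N : ℝ) ^ ε * (N : ℝ) ^ ε := by
    rw [← Real.rpow_add hN0, ← Real.rpow_add hN0]
    congr 1
    ring
  obtain ⟨ρ, hρ⟩ : ∃ ρ : ℕ, (ρ : ℤ) = sd (src e) (src f) :=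
    ⟨(sd (src e) (src f)).toNat, Int.toNat_of_nonneg (sd_nonneg _ _)⟩
  have hdy : dy (src e) f = Nat.log 2 ρ := by
    unfold dy
    rw [← hρ]
    simp
  rw [mem_eAn, mem_An, mem_An] at hf
  by_cases hsmall : ρ ≤ 2
  · -- close to `e`
    have hnot : f ∉ eAn (src e) ((4 : ℕ) : ℤ) ((2 * r : ℕ) : ℤ) := by
      rw [mem_eAn, mem_An]
      rintro ⟨h, _⟩
      push_cast at h
      omega
    have h1 := (measureReal_mono (μ := PB v) (piv_A4 (e := e) (f := f) (R := ((2 * r : ℕ) : ℤ))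
      (k := ((4 : ℕ) : ℤ)) (l := ((2 * r : ℕ) : ℤ)) (by norm_num) (by push_cast; omega) le_rfl
      hnot)).trans (hT (src e) 4 (2 * r) (by norm_num) (by omega) hrN)
    refine h1.trans ?_
    have h2 : (((4 : ℕ) : ℝ) / ((2 * r : ℕ) : ℝ)) ^ (5 / 4 : ℝ) ≤
        6 * ((2 * r : ℕ) : ℝ) ^ (-(5 / 4 : ℝ)) := by
      rw [Real.div_rpow (by positivity) hR0.le, Real.rpow_neg hR0.le, div_eq_mul_inv]
      exact mul_le_mul_of_nonneg_right (by exact_mod_cast four_pow) (by positivity)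
    have h3 : (1 : ℝ) / 3 ≤ ((2 : ℝ) ^ dy (src e) f) ^ (-(5 / 4 : ℝ)) := by
      have h4 : (2 : ℝ) ^ dy (src e) f ≤ 2 := by
        rw [hdy]
        have h5 : Nat.log 2 ρ ≤ 1 := by
          have h6 : Nat.log 2 ρ ≤ Nat.log 2 2 := Nat.log_mono_right hsmall
          have h7 : Nat.log 2 2 = 1 := by decide
          omega
        calc (2 : ℝ) ^ Nat.log 2 ρ ≤ 2 ^ 1 := pow_le_pow_right₀ (by norm_num) h5
          _ = 2 := by norm_num
      have h5 : (0 : ℝ) < (2 : ℝ) ^ dy (src e) f := by positivity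
      rw [Real.rpow_neg h5.le, one_div]
      exact inv_anti₀ (Real.rpow_pos_of_pos h5 _)
        ((Real.rpow_le_rpow h5.le h4 (by norm_num)).trans two_pow)
    have hRn : 0 ≤ ((2 * r : ℕ) : ℝ) ^ (-(5 / 4 : ℝ)) := by positivity
    calc (N : ℝ) ^ ε * (((4 : ℕ) : ℝ) / ((2 * r : ℕ) : ℝ)) ^ (5 / 4 : ℝ)
        ≤ (N : ℝ) ^ (3 * ε) * (6 * ((2 * r : ℕ) : ℝ) ^ (-(5 / 4 : ℝ))) := by
          refine mul_le_mul ?_ h2 (by positivity) (by positivity)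
          exact Real.rpow_le_rpow_of_exponent_le hN1 (by linarith)
      _ = 18 * ((N : ℝ) ^ (3 * ε) * ((2 * r : ℕ) : ℝ) ^ (-(5 / 4 : ℝ))) * (1 / 3) := by ring
      _ ≤ 100 * ((N : ℝ) ^ (3 * ε) * ((2 * r : ℕ) : ℝ) ^ (-(5 / 4 : ℝ))) *
            ((2 : ℝ) ^ dy (src e) f) ^ (-(5 / 4 : ℝ)) := by
          refine mul_le_mul ?_ h3 (by norm_num) (by positivity)
          exact mul_le_mul_of_nonneg_right (by norm_num) (by positivity)
  · push Not at hsmall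
    have hρr : ρ ≤ r := by omega
    have hρ0 : (0 : ℝ) < ρ := by exact_mod_cast (by omega : 0 < ρ)
    obtain ⟨a, ha⟩ : ∃ a : ℕ, a = (ρ - 1) / 2 := ⟨_, rfl⟩
    have ha1 : 1 ≤ a := by omega
    have ha0 : (0 : ℝ) < a := by exact_mod_cast (by omega : 0 < a)
    have ha4 : ρ ≤ 4 * a := by omega
    have hne : f ≠ e := by
      rintro rfl
      rw [sd_self] at hρ
      omega
    have s1 : piv f (A4 e ((2 * r : ℕ) : ℤ)) ⊆ T2 (src e) ((1 : ℕ) : ℤ) a := by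
      refine piv_A4 (by norm_num) (by exact_mod_cast ha1) (by push_cast; omega) ?_
      rw [mem_eAn, mem_An]
      rintro ⟨h, _⟩
      omega
    have s2 : piv f (A4 e ((2 * r : ℕ) : ℤ)) ⊆ T2 (src f) ((1 : ℕ) : ℤ) a :=
      piv_A4' (s := (ρ : ℤ) - 1) hne (by omega) (by push_cast; omega) (by norm_num)
        (by exact_mod_cast ha1) (by omega)
    have s3 : piv f (A4 e ((2 * r : ℕ) : ℤ)) ⊆
        T2 (src e) ((2 * ρ : ℕ) : ℤ) ((2 * r : ℕ) : ℤ) := by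
      refine piv_A4 (by push_cast; omega) (by push_cast; omega) le_rfl ?_
      rw [mem_eAn, mem_An]
      rintro ⟨h, _⟩
      push_cast at h
      omega
    set E1 := eAn (src e) ((1 : ℕ) : ℤ) a with hE1
    set E2 := eAn (src f) ((1 : ℕ) : ℤ) a with hE2
    set E3 := eAn (src e) ((2 * ρ : ℕ) : ℤ) ((2 * r : ℕ) : ℤ) with hE3'
    have d12 : Disjoint E1 E2 := by
      rw [Finset.disjoint_left]
      intro g h1 h2
      rw [hE1, mem_eAn, mem_An, mem_An] at h1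
      rw [hE2, mem_eAn, mem_An, mem_An] at h2
      have h3 := sd_tri (src e) (src g) (src f)
      have h4 := sd_comm (src g) (src f)
      omega
    have d13 : Disjoint E1 E3 := eAn_disj (by push_cast; omega)
    have d23 : Disjoint E2 E3 := by
      rw [Finset.disjoint_left]
      intro g h1 h2
      rw [hE3', mem_eAn, mem_An, mem_An] at h2
      rw [hE2, mem_eAn, mem_An, mem_An] at h1
      have h3 := sd_tri (src e) (src f) (src g)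
      push_cast at h2
      omega
    have h1 : (PB v).real ((T2 (src e) ((1 : ℕ) : ℤ) a ∩ T2 (src f) ((1 : ℕ) : ℤ) a) ∩
        T2 (src e) ((2 * ρ : ℕ) : ℤ) ((2 * r : ℕ) : ℤ)) =
        (PB v).real (T2 (src e) ((1 : ℕ) : ℤ) a) * (PB v).real (T2 (src f) ((1 : ℕ) : ℤ) a) *
          (PB v).real (T2 (src e) ((2 * ρ : ℕ) : ℤ) ((2 * r : ℕ) : ℤ)) := by
      classical
      rw [PB_indep_real v (S := E1 ∪ E2) (T := E3) (Finset.disjoint_union_left.2 ⟨d13, d23⟩)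
        (((T2_dep _ _ _).mono Finset.subset_union_left).inter
          ((T2_dep _ _ _).mono Finset.subset_union_right)) (T2_dep _ _ _),
        PB_indep_real v d12 (T2_dep _ _ _) (T2_dep _ _ _)]
    have h2 : piv f (A4 e ((2 * r : ℕ) : ℤ)) ⊆
        (T2 (src e) ((1 : ℕ) : ℤ) a ∩ T2 (src f) ((1 : ℕ) : ℤ) a) ∩
        T2 (src e) ((2 * ρ : ℕ) : ℤ) ((2 * r : ℕ) : ℤ) := fun z hz => ⟨⟨s1 hz, s2 hz⟩, s3 hz⟩
    have b1 := hT (src e) 1 a le_rfl ha1 (by omega)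
    have b2 := hT (src f) 1 a le_rfl ha1 (by omega)
    have b3 := hT (src e) (2 * ρ) (2 * r) (by omega) (by omega) hrN
    have h3 : (PB v).real (piv f (A4 e ((2 * r : ℕ) : ℤ))) ≤
        ((N : ℝ) ^ ε * (((1 : ℕ) : ℝ) / a) ^ (5 / 4 : ℝ)) *
          ((N : ℝ) ^ ε * (((1 : ℕ) : ℝ) / a) ^ (5 / 4 : ℝ)) *
          ((N : ℝ) ^ ε * (((2 * ρ : ℕ) : ℝ) / ((2 * r : ℕ) : ℝ)) ^ (5 / 4 : ℝ)) := by
      refine (measureReal_mono h2).trans ?_
      rw [h1]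
      exact mul_le_mul (mul_le_mul b1 b2 measureReal_nonneg (by positivity)) b3
        measureReal_nonneg (by positivity)
    refine h3.trans ?_
    have h4 : (((1 : ℕ) : ℝ) / a) ^ (5 / 4 : ℝ) * (((1 : ℕ) : ℝ) / a) ^ (5 / 4 : ℝ) *
        (((2 * ρ : ℕ) : ℝ) / ((2 * r : ℕ) : ℝ)) ^ (5 / 4 : ℝ) ≤
        100 * ((2 * r : ℕ) : ℝ) ^ (-(5 / 4 : ℝ)) * ((2 : ℝ) ^ dy (src e) f) ^ (-(5 / 4 : ℝ)) := by
      have h5 : ((1 : ℕ) : ℝ) / a ≤ 4 / ρ := by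
        rw [Nat.cast_one, div_le_div_iff₀ ha0 hρ0, one_mul]
        exact_mod_cast ha4
      have h6 : (((1 : ℕ) : ℝ) / a) ^ (5 / 4 : ℝ) ≤ (4 / (ρ : ℝ)) ^ (5 / 4 : ℝ) :=
        Real.rpow_le_rpow (by positivity) h5 (by norm_num)
      have h7 : (4 / (ρ : ℝ)) ^ (5 / 4 : ℝ) * (4 / (ρ : ℝ)) ^ (5 / 4 : ℝ) *
          (((2 * ρ : ℕ) : ℝ) / ((2 * r : ℕ) : ℝ)) ^ (5 / 4 : ℝ) =
          (32 : ℝ) ^ (5 / 4 : ℝ) * ((2 * r : ℕ) : ℝ) ^ (-(5 / 4 : ℝ)) * (ρ : ℝ) ^ (-(5 / 4 : ℝ)) := by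
        rw [← Real.mul_rpow (by positivity) (by positivity),
          ← Real.mul_rpow (by positivity) (by positivity), Real.rpow_neg hR0.le,
          Real.rpow_neg hρ0.le, ← Real.inv_rpow hR0.le, ← Real.inv_rpow hρ0.le,
          ← Real.mul_rpow (by positivity) (by positivity),
          ← Real.mul_rpow (by positivity) (by positivity)]
        congr 1
        push_cast
        field_simp
        norm_num
      have h8 : (ρ : ℝ) ^ (-(5 / 4 : ℝ)) ≤ ((2 : ℝ) ^ dy (src e) f) ^ (-(5 / 4 : ℝ)) := by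
        have h9 : (0 : ℝ) < (2 : ℝ) ^ dy (src e) f := by positivity
        rw [Real.rpow_neg h9.le, Real.rpow_neg hρ0.le]
        refine inv_anti₀ (Real.rpow_pos_of_pos h9 _) (Real.rpow_le_rpow h9.le ?_ (by norm_num))
        rw [hdy]
        exact_mod_cast Nat.pow_log_le_self 2 (by omega)
      calc (((1 : ℕ) : ℝ) / a) ^ (5 / 4 : ℝ) * (((1 : ℕ) : ℝ) / a) ^ (5 / 4 : ℝ) *
            (((2 * ρ : ℕ) : ℝ) / ((2 * r : ℕ) : ℝ)) ^ (5 / 4 : ℝ)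
          ≤ (4 / (ρ : ℝ)) ^ (5 / 4 : ℝ) * (4 / (ρ : ℝ)) ^ (5 / 4 : ℝ) *
            (((2 * ρ : ℕ) : ℝ) / ((2 * r : ℕ) : ℝ)) ^ (5 / 4 : ℝ) := by
            refine mul_le_mul_of_nonneg_right (mul_le_mul h6 h6 (by positivity) (by positivity))
              (by positivity)
        _ = (32 : ℝ) ^ (5 / 4 : ℝ) * ((2 * r : ℕ) : ℝ) ^ (-(5 / 4 : ℝ)) *
              (ρ : ℝ) ^ (-(5 / 4 : ℝ)) := h7
        _ ≤ _ := by
            refine mul_le_mul (mul_le_mul_of_nonneg_right thirtytwo_pow (by positivity)) h8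
              (by positivity) (by positivity)
    calc ((N : ℝ) ^ ε * (((1 : ℕ) : ℝ) / a) ^ (5 / 4 : ℝ)) *
          ((N : ℝ) ^ ε * (((1 : ℕ) : ℝ) / a) ^ (5 / 4 : ℝ)) *
          ((N : ℝ) ^ ε * (((2 * ρ : ℕ) : ℝ) / ((2 * r : ℕ) : ℝ)) ^ (5 / 4 : ℝ))
        = (N : ℝ) ^ (3 * ε) * ((((1 : ℕ) : ℝ) / a) ^ (5 / 4 : ℝ) *
          (((1 : ℕ) : ℝ) / a) ^ (5 / 4 : ℝ) *
          (((2 * ρ : ℕ) : ℝ) / ((2 * r : ℕ) : ℝ)) ^ (5 / 4 : ℝ)) := by rw [hE3]; ring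
      _ ≤ (N : ℝ) ^ (3 * ε) * (100 * ((2 * r : ℕ) : ℝ) ^ (-(5 / 4 : ℝ)) *
            ((2 : ℝ) ^ dy (src e) f) ^ (-(5 / 4 : ℝ))) :=
          mul_le_mul_of_nonneg_left h4 (by positivity)
      _ = _ := by ring

/-- sum over the edges of a ball -/
theorem sum_dy {x : P2} {r : ℕ} (hr : 1 ≤ r) {C : ℝ} (hC : 0 ≤ C) :
    ∑ f ∈ eAn x 0 r, C * ((2 : ℝ) ^ dy x f) ^ (-(5 / 4 : ℝ)) ≤
      (Nat.log 2 r + 1) * (72 * C * (r : ℝ) ^ (3 / 4 : ℝ)) := by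
  classical
  have hmap : ∀ f ∈ eAn x 0 (r : ℤ), dy x f ∈ Finset.range (Nat.log 2 r + 1) := by
    intro f hf
    rw [mem_eAn, mem_An] at hf
    rw [Finset.mem_range, Nat.lt_succ_iff]
    exact Nat.log_mono_right (by omega)
  rw [← Finset.sum_fiberwise_of_maps_to hmap]
  have hterm : ∀ i ∈ Finset.range (Nat.log 2 r + 1),
      ∑ f ∈ (eAn x 0 (r : ℤ)).filter (fun f => dy x f = i),
        C * ((2 : ℝ) ^ dy x f) ^ (-(5 / 4 : ℝ)) ≤ 72 * C * (r : ℝ) ^ (3 / 4 : ℝ) := by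
    intro i hi
    rw [Finset.mem_range, Nat.lt_succ_iff] at hi
    have h2i : (0 : ℝ) < (2 : ℝ) ^ i := by positivity
    have h1 : ∑ f ∈ (eAn x 0 (r : ℤ)).filter (fun f => dy x f = i),
        C * ((2 : ℝ) ^ dy x f) ^ (-(5 / 4 : ℝ)) =
        (((eAn x 0 (r : ℤ)).filter (fun f => dy x f = i)).card : ℝ) *
          (C * ((2 : ℝ) ^ i) ^ (-(5 / 4 : ℝ))) := by
      rw [← nsmul_eq_mul, ← Finset.sum_const]
      refine Finset.sum_congr rfl fun f hf => ?_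
      rw [(Finset.mem_filter.1 hf).2]
    have h2 : (eAn x 0 (r : ℤ)).filter (fun f => dy x f = i) ⊆ eAn x 0 ((2 ^ (i + 1) : ℕ) : ℤ) := by
      intro f hf
      rw [Finset.mem_filter, mem_eAn, mem_An, mem_An] at hf
      obtain ⟨⟨⟨h3, _⟩, h4, _⟩, h5⟩ := hf
      have h6 := Nat.lt_pow_succ_log_self (b := 2) (by norm_num) (sd x (src f)).toNat
      have h7 : Nat.log 2 (sd x (src f)).toNat = i := h5
      rw [h7] at h6
      have h8 : sd x (src f) < ((2 ^ (i + 1) : ℕ) : ℤ) := by omega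
      have h9 := sd_nbr x (src f) (tgt f) (nbr_src_tgt f)
      rw [mem_eAn, mem_An, mem_An]
      have h10 : Nat.succ i = i + 1 := rfl
      omega
    have h3 : (((eAn x 0 (r : ℤ)).filter (fun f => dy x f = i)).card : ℝ) ≤
        72 * ((2 : ℝ) ^ i) ^ 2 := by
      have h4 : (((eAn x 0 (r : ℤ)).filter (fun f => dy x f = i)).card : ℝ) ≤
          ((eAn x 0 ((2 ^ (i + 1) : ℕ) : ℤ)).card : ℝ) := by
        exact_mod_cast Finset.card_le_card h2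
      have h5 := card_An_le (x := x) (r := 0) (R := ((2 ^ (i + 1) : ℕ) : ℤ)) (l := 2 ^ (i + 1))
        (Nat.one_le_two_pow) le_rfl
      refine h4.trans (h5.trans (le_of_eq ?_))
      push_cast
      ring
    rw [h1]
    have h4 : ((2 : ℝ) ^ i) ^ 2 * ((2 : ℝ) ^ i) ^ (-(5 / 4 : ℝ)) = ((2 : ℝ) ^ i) ^ (3 / 4 : ℝ) := by
      rw [← Real.rpow_natCast ((2 : ℝ) ^ i) 2, ← Real.rpow_add h2i]
      norm_num
    have h5 : ((2 : ℝ) ^ i) ^ (3 / 4 : ℝ) ≤ (r : ℝ) ^ (3 / 4 : ℝ) := by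
      refine Real.rpow_le_rpow h2i.le ?_ (by norm_num)
      have h6 : 2 ^ i ≤ r := (Nat.pow_le_pow_right (by norm_num) hi).trans
        (Nat.pow_log_le_self 2 (by omega))
      exact_mod_cast h6
    calc (((eAn x 0 (r : ℤ)).filter (fun f => dy x f = i)).card : ℝ) *
          (C * ((2 : ℝ) ^ i) ^ (-(5 / 4 : ℝ)))
        ≤ 72 * ((2 : ℝ) ^ i) ^ 2 * (C * ((2 : ℝ) ^ i) ^ (-(5 / 4 : ℝ))) :=
          mul_le_mul_of_nonneg_right h3 (by positivity)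
      _ = 72 * C * (((2 : ℝ) ^ i) ^ 2 * ((2 : ℝ) ^ i) ^ (-(5 / 4 : ℝ))) := by ring
      _ = 72 * C * ((2 : ℝ) ^ i) ^ (3 / 4 : ℝ) := by rw [h4]
      _ ≤ 72 * C * (r : ℝ) ^ (3 / 4 : ℝ) := mul_le_mul_of_nonneg_left h5 (by positivity)
  refine (Finset.sum_le_sum hterm).trans (le_of_eq ?_)
  rw [Finset.sum_const, Finset.card_range, nsmul_eq_mul]
  push_cast
  ring

/-- **Comparison of the point events of two laws of the window.** -/
theorem A4_compare {N r : ℕ} {ε d : ℝ} (hN : 1 ≤ N) (hε : 0 ≤ ε) (hr : 2 ≤ r)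
    (hrN : 2 * r ≤ N) (hd : 0 ≤ d)
    (hT : ∀ v ∈ Wd d, ∀ x : P2, ∀ k l : ℕ, 1 ≤ k → k ≤ l → l ≤ N →
      (PB v).real (T2 x k l) ≤ (N : ℝ) ^ ε * ((k : ℝ) / l) ^ (5 / 4 : ℝ))
    {w1 w2 : Edge → I} (h1 : w1 ∈ Wd d) (h2 : w2 ∈ Wd d) (e : Edge) :
    (PB w1).real (A4 e ((2 * r : ℕ) : ℤ)) ≤ (PB w2).real (A4 e r) +
      2 * d * ((Nat.log 2 r + 1) * (72 * (100 * ((N : ℝ) ^ (3 * ε) *
        ((2 * r : ℕ) : ℝ) ^ (-(5 / 4 : ℝ)))) * (r : ℝ) ^ (3 / 4 : ℝ))) := by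
  have h3 := PB_step_var (A4_dep e ((2 * r : ℕ) : ℤ)) (A4_dep e r)
    (A4_shrink (by omega) (by push_cast; omega)) h1 h2
    (M := fun f => 100 * ((N : ℝ) ^ (3 * ε) * ((2 * r : ℕ) : ℝ) ^ (-(5 / 4 : ℝ))) *
        ((2 : ℝ) ^ dy (src e) f) ^ (-(5 / 4 : ℝ)))
    fun v hv f hf => piv_A4_bound hN hε hr hrN (hT v hv) hf
  refine h3.trans (add_le_add le_rfl (mul_le_mul_of_nonneg_left ?_ (by positivity)))
  exact sum_dy (by omega) (by positivity)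

/-! ### the point bounds in the window -/

/-- lower four-arm point bound at `p = 1/2` -/
def HypL4 : Prop :=
  ∀ ε : ℝ, 0 < ε → ∀ᶠ r : ℕ in atTop, ∀ e : Edge,
    (r : ℝ) ^ (-(5 / 4 : ℝ) - ε) ≤ (nu hf).real (A4 e r)

theorem ev_log {ε : ℝ} (hε : 0 < ε) : ∀ᶠ n : ℕ in atTop, ((Nat.log 2 n : ℝ) + 1) ≤ (n : ℝ) ^ ε := by
  have h1 : ∀ᶠ x : ℝ in atTop, Real.log x ≤ x ^ (ε / 2) := by
    have h := (isLittleO_log_rpow_atTop (half_pos hε)).bound (show (0 : ℝ) < 1 by norm_num)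
    filter_upwards [h, eventually_ge_atTop 1] with x hx hx1
    rw [one_mul, Real.norm_of_nonneg (Real.log_nonneg hx1),
      Real.norm_of_nonneg (Real.rpow_nonneg (by linarith) _)] at hx
    exact hx
  have h2 : ∀ᶠ n : ℕ in atTop, Real.log (n : ℝ) ≤ (n : ℝ) ^ (ε / 2) :=
    (tendsto_natCast_atTop_atTop (R := ℝ)).eventually h1
  have h3 : ∀ᶠ n : ℕ in atTop, (3 : ℝ) ≤ (n : ℝ) ^ (ε / 2) :=
    ((tendsto_rpow_atTop (half_pos hε)).comp tendsto_natCast_atTop_atTop).eventually_ge_atTop _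
  filter_upwards [h2, h3, eventually_ge_atTop 1] with n h4 h5 hn
  have hn0 : (0 : ℝ) < n := by exact_mod_cast (by omega : 0 < n)
  have h6 : (Nat.log 2 n : ℝ) * Real.log 2 ≤ Real.log n := by
    rw [← Real.log_rpow (by norm_num), Real.rpow_natCast]
    refine Real.log_le_log (by positivity) ?_
    exact_mod_cast Nat.pow_log_le_self 2 (by omega)
  have h7 : (1 : ℝ) / 2 < Real.log 2 := by
    have := Real.log_two_gt_d9
    linarith
  have h8 : (Nat.log 2 n : ℝ) ≤ 2 * Real.log n := by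
    have : (0 : ℝ) ≤ (Nat.log 2 n : ℝ) := Nat.cast_nonneg _
    nlinarith
  have h9 : (n : ℝ) ^ ε = (n : ℝ) ^ (ε / 2) * (n : ℝ) ^ (ε / 2) := by
    rw [← Real.rpow_add hn0]
    congr 1
    ring
  rw [h9]
  nlinarith

/-- **(A4low)** for all product laws of the window -/
theorem A4_low (hU : HypU4) (hL : HypL4) {δ ε : ℝ} (hδ : 0 < δ) (hε : 0 < ε) :
    ∀ᶠ r : ℕ in atTop, ∀ w ∈ Wd ((r : ℝ) ^ (-(3 / 4 : ℝ) - δ)), ∀ e : Edge,
      (r : ℝ) ^ (-(5 / 4 : ℝ) - ε) ≤ (PB w).real (A4 e r) := by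
  obtain ⟨ε', hε'0, hε'1, hε'2⟩ : ∃ ε' : ℝ, 0 < ε' ∧ 16 * ε' ≤ δ ∧ 2 * ε' ≤ ε :=
    ⟨min (δ / 16) (ε / 2), by positivity, by have := min_le_left (δ / 16) (ε / 2); linarith,
      by have := min_le_right (δ / 16) (ε / 2); linarith⟩
  -- bounds at the scale `N = 2 r`
  have t2 : Tendsto (fun r : ℕ => 2 * r) atTop atTop :=
    tendsto_id.const_mul_atTop' (by norm_num : (0 : ℕ) < 2)
  have eA := t2.eventually (ann_bound hU (half_pos hδ) (ε := ε' / 4) (by positivity))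
  have eL := t2.eventually (hL ε' hε'0)
  have tend : ∀ a : ℝ, 0 < a → Tendsto (fun n : ℕ => (n : ℝ) ^ a) atTop atTop := fun a ha =>
    (tendsto_rpow_atTop ha).comp tendsto_natCast_atTop_atTop
  have ev1 : ∀ᶠ r : ℕ in atTop, (2 : ℝ) ^ (3 / 4 + δ / 2) ≤ (r : ℝ) ^ (δ / 2) :=
    (tend _ (by positivity)).eventually_ge_atTop _
  have ev2 : ∀ᶠ r : ℕ in atTop, (28800 : ℝ) ≤ ((2 * r : ℕ) : ℝ) ^ (δ / 4) :=
    t2.eventually ((tend _ (by positivity)).eventually_ge_atTop _)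
  have ev3 : ∀ᶠ r : ℕ in atTop, 2 * (2 : ℝ) ^ (5 / 4 + ε') ≤ (r : ℝ) ^ (ε - ε') :=
    (tend _ (by linarith)).eventually_ge_atTop _
  filter_upwards [eA, eL, ev1, ev2, ev3, ev_log (ε := ε' / 4) (by positivity),
    eventually_ge_atTop 2] with r hA hLr h1 h2 h3 hlog hr
  intro w hw e
  have hr0 : (0 : ℝ) < r := by exact_mod_cast (by omega : 0 < r)
  have hr1 : (1 : ℝ) ≤ r := by exact_mod_cast (by omega : 1 ≤ r)
  set N : ℕ := 2 * r with hN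
  have hN0 : (0 : ℝ) < (N : ℝ) := by exact_mod_cast (by omega : 0 < 2 * r)
  have hN1 : (1 : ℝ) ≤ (N : ℝ) := by exact_mod_cast (by omega : 1 ≤ 2 * r)
  have hNr : (N : ℝ) = 2 * r := by rw [hN]; push_cast; ring
  set d : ℝ := (N : ℝ) ^ (-(3 / 4 : ℝ) - δ / 2) with hd
  have hd0 : 0 ≤ d := by positivity
  have hrd : (r : ℝ) ^ (-(3 / 4 : ℝ) - δ) ≤ d := by
    have e1 : d = ((2 : ℝ) ^ (3 / 4 + δ / 2))⁻¹ * (r : ℝ) ^ (-(3 / 4 : ℝ) - δ / 2) := by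
      rw [hd, hNr, Real.mul_rpow (by norm_num) hr0.le, ← Real.rpow_neg (by norm_num)]
      congr 2
      ring
    have e2 : (r : ℝ) ^ (-(3 / 4 : ℝ) - δ) =
        ((r : ℝ) ^ (δ / 2))⁻¹ * (r : ℝ) ^ (-(3 / 4 : ℝ) - δ / 2) := by
      rw [← Real.rpow_neg hr0.le, ← Real.rpow_add hr0]
      congr 1
      ring
    rw [e1, e2]
    exact mul_le_mul_of_nonneg_right (inv_anti₀ (by positivity) h1) (by positivity)
  have hwd : w ∈ Wd d := fun f => (hw f).trans hrd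
  have h4 := A4_compare (N := N) (ε := ε' / 4) (d := d) (by omega) (by positivity) hr le_rfl hd0 hA
    (hf_mem_Wd hd0) hwd e
  have h5 : (N : ℝ) ^ (-(5 / 4 : ℝ) - ε') ≤ (nu hf).real (A4 e ((2 * r : ℕ) : ℤ)) := hLr e
  have h5' : (nu hf).real (A4 e ((2 * r : ℕ) : ℤ)) =
    (PB fun _ : Edge => hf).real (A4 e ((2 * r : ℕ) : ℤ)) := rfl
  -- the error term
  have hrN : (r : ℝ) ≤ N := by rw [hNr]; linarith
  have h6 : 2 * d * ((Nat.log 2 r + 1) * (72 * (100 * ((N : ℝ) ^ (3 * (ε' / 4)) *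
      ((2 * r : ℕ) : ℝ) ^ (-(5 / 4 : ℝ)))) * (r : ℝ) ^ (3 / 4 : ℝ))) ≤
      1 / 2 * (N : ℝ) ^ (-(5 / 4 : ℝ) - ε') := by
    have h7 : ((Nat.log 2 r : ℝ) + 1) ≤ (N : ℝ) ^ (ε' / 4) :=
      hlog.trans (Real.rpow_le_rpow hr0.le hrN (by positivity))
    have h8 : (r : ℝ) ^ (3 / 4 : ℝ) ≤ (N : ℝ) ^ (3 / 4 : ℝ) :=
      Real.rpow_le_rpow hr0.le hrN (by norm_num)
    have h9 : ((2 * r : ℕ) : ℝ) = (N : ℝ) := rfl
    rw [h9]
    calc 2 * d * ((Nat.log 2 r + 1) * (72 * (100 * ((N : ℝ) ^ (3 * (ε' / 4)) *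
          (N : ℝ) ^ (-(5 / 4 : ℝ)))) * (r : ℝ) ^ (3 / 4 : ℝ)))
        ≤ 2 * d * ((N : ℝ) ^ (ε' / 4) * (72 * (100 * ((N : ℝ) ^ (3 * (ε' / 4)) *
          (N : ℝ) ^ (-(5 / 4 : ℝ)))) * (N : ℝ) ^ (3 / 4 : ℝ))) := by
          gcongr
      _ = 14400 * (d * (N : ℝ) ^ (ε' / 4) * (N : ℝ) ^ (3 * (ε' / 4)) * (N : ℝ) ^ (-(5 / 4 : ℝ)) *
            (N : ℝ) ^ (3 / 4 : ℝ)) := by ring
      _ = 14400 * (N : ℝ) ^ (-(5 / 4 : ℝ) + ε' - δ / 2) := by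
          rw [hd, ← Real.rpow_add hN0, ← Real.rpow_add hN0, ← Real.rpow_add hN0,
            ← Real.rpow_add hN0]
          congr 2
          ring
      _ ≤ 14400 * (N : ℝ) ^ (-(5 / 4 : ℝ) - ε' - δ / 4) := by
          refine mul_le_mul_of_nonneg_left ?_ (by norm_num)
          exact Real.rpow_le_rpow_of_exponent_le hN1 (by linarith)
      _ = 14400 * ((N : ℝ) ^ (-(5 / 4 : ℝ) - ε') / (N : ℝ) ^ (δ / 4)) := by
          rw [← Real.rpow_sub hN0]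
      _ ≤ 1 / 2 * (N : ℝ) ^ (-(5 / 4 : ℝ) - ε') := by
          have hpos : 0 < (N : ℝ) ^ (δ / 4) := Real.rpow_pos_of_pos hN0 _
          have hA0 : 0 ≤ (N : ℝ) ^ (-(5 / 4 : ℝ) - ε') := by positivity
          rw [← mul_div_assoc, div_le_iff₀ hpos]
          nlinarith
  have h7 : 1 / 2 * (N : ℝ) ^ (-(5 / 4 : ℝ) - ε') ≤ (PB w).real (A4 e r) := by
    linarith
  refine le_trans ?_ h7
  -- final arithmetic
  have e1 : (N : ℝ) ^ (-(5 / 4 : ℝ) - ε') =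
      ((2 : ℝ) ^ (5 / 4 + ε'))⁻¹ * (r : ℝ) ^ (-(5 / 4 : ℝ) - ε') := by
    rw [hNr, Real.mul_rpow (by norm_num) hr0.le, ← Real.rpow_neg (by norm_num)]
    congr 2
    ring
  have e2 : (r : ℝ) ^ (-(5 / 4 : ℝ) - ε) =
      ((r : ℝ) ^ (ε - ε'))⁻¹ * (r : ℝ) ^ (-(5 / 4 : ℝ) - ε') := by
    rw [← Real.rpow_neg hr0.le, ← Real.rpow_add hr0]
    congr 1
    ring
  rw [e1, e2, ← mul_assoc]
  refine mul_le_mul_of_nonneg_right ?_ (by positivity)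
  calc ((r : ℝ) ^ (ε - ε'))⁻¹ ≤ (2 * (2 : ℝ) ^ (5 / 4 + ε'))⁻¹ := inv_anti₀ (by positivity) h3
    _ = 1 / 2 * ((2 : ℝ) ^ (5 / 4 + ε'))⁻¹ := by rw [mul_inv]; ring

/-- **(A4low)**, homogeneous form -/
theorem A4_low_q (hU : HypU4) (hL : HypL4) {δ ε : ℝ} (hδ : 0 < δ) (hε : 0 < ε) :
    ∀ᶠ r : ℕ in atTop, ∀ q : ℝ, |q - 1 / 2| ≤ (r : ℝ) ^ (-(3 / 4 : ℝ) - δ) → ∀ e : Edge,
      (r : ℝ) ^ (-(5 / 4 : ℝ) - ε) ≤ Fr158.Pr q (A4 e r) := by
  have ev4 : ∀ᶠ N : ℕ in atTop, (N : ℝ) ^ (-(3 / 4 : ℝ) - δ) < 1 / 4 := by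
    have h1 : Tendsto (fun N : ℕ => (N : ℝ) ^ (-(3 / 4 + δ))) atTop (𝓝 0) :=
      (tendsto_rpow_neg_atTop (by positivity)).comp tendsto_natCast_atTop_atTop
    refine (h1.eventually_lt_const (show (0 : ℝ) < 1 / 4 by norm_num)).mono fun N hN => ?_
    have e : -(3 / 4 : ℝ) - δ = -(3 / 4 + δ) := by ring
    rw [e]
    exact hN
  filter_upwards [A4_low hU hL hδ hε, ev4] with r h h4
  intro q hq e
  refine h (fun _ => clampUnit q) (fun f => ?_) e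
  rw [hf_coe, clamp_coe (hq.trans_lt h4)]
  exact hq


end Crest.Agent.R158.Cpl963
end
end

-- ▼ part R158/Cpl8_963

/-!
# Row 158 (helper963): the window statements in the language of `Sp0_580`

* `A4_eq` : the four-arm event of `Sp580` is the one of `Cpl963`
* `L4` : lower point bound at `p = 1/2` (`Sp580.A4`)
* `A4low` : 570's form in the window
-/

set_option autoImplicit false

noncomputable section

namespace Crest.Agent.R158.Cpl963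

open MeasureTheory ProbabilityTheory unitInterval Filter Topology
open Crest.Agent.R161.Geo729 Crest.Agent.R161.Topo374 Crest.Agent.R161.Dual374
open Crest.Agent.R161.Tas682 Crest.Agent.R161.Ring421
open Crest.Agent.R158.Rs689 Crest.Agent.R158.Qm522
open Crest.ProbabilityR.Percolation

theorem frc_eq (e : Edge) (b : Bool) (z : Cf) : Ru874.frc e b z = Function.update z e b := by
  unfold Ru874.frc
  congr!

/-- the two four-arm events coincide -/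
theorem A4_eq (e : Edge) (R : ℤ) : Sp580.A4 e R = A4 e R := by
  ext z
  unfold Sp580.A4 A4 A4c Sp580.Arm
  rw [Set.mem_ofPred_eq, Set.mem_ofPred_eq, Set.mem_ofPred_eq, frc_eq]
  rfl

/-- lower four-arm point bound at `p = 1/2`, in the language of `Sp580` -/
def L4 : Prop :=
  ∀ ε : ℝ, 0 < ε → ∀ᶠ r : ℕ in atTop, ∀ e : Edge,
    (r : ℝ) ^ (-(5 / 4 : ℝ) - ε) ≤ (nu hf).real (Sp580.A4 e r)

theorem L4_iff : L4 ↔ HypL4 := by
  unfold L4 HypL4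
  simp only [A4_eq]

/-- **(A4low)** -/
theorem A4low (hU : HypU4) (hL : L4) {δ ε : ℝ} (hδ : 0 < δ) (hε : 0 < ε) :
    ∀ᶠ r : ℕ in atTop, ∀ q : ℝ, |q - 1 / 2| ≤ (r : ℝ) ^ (-(3 / 4 : ℝ) - δ) → ∀ e : Edge,
      (r : ℝ) ^ (-(5 / 4 : ℝ) - ε) ≤ Fr158.Pr q (Sp580.A4 e r) := by
  have h := A4_low_q hU (L4_iff.1 hL) hδ hε
  simpa only [A4_eq] using h



end Crest.Agent.R158.Cpl963
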