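import Crest.Agent.R158.It2_200

/-!
# Row 158, BLOCK IT (helper200), part 3: interiors, outermost loops, locality

* `IntV z c`, `IntF z c` : vertices / faces surrounded by the (finite) strand through `c`
* `sgn_cases` : clockwise (vertices inside) or counter-clockwise (faces inside)
* `laminar` : two different finite strands have nested or disjoint interiors
* `outer_open`, `outer_dual` : a finite open (dual) cluster is surrounded by a strand running along it
* `Lp_congr` : locality
-/

set_option autoImplicit false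

noncomputable section

namespace Crest.Agent.R158.It200

open Crest.Agent.R161.Geo729 Crest.Agent.R161.Dual374
open Finset

/-- height of the strand through `c` at a vertex -/
def hv (z : Cfz) (c : Corner) (v : P2) : ℤ := Hv (JL z c) v

/-- height of the strand through `c` at a face -/
def hf (z : Cfz) (c : Corner) (f : P2) : ℤ := Hf (JL z c) f

/-- vertices surrounded by the strand -/
def IntV (z : Cfz) (c : Corner) : Set P2 := {v | hv z c v ≠ 0}

/-- faces surrounded by the strand -/
def IntF (z : Cfz) (c : Corner) : Set P2 := {f | hf z c f ≠ 0}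

theorem hv_eq {z : Cfz} {c d : Corner} (h : d ∈ Lp z c) : hv z d = hv z c := by
  funext v; unfold hv; rw [JL_eq h]

theorem hf_eq {z : Cfz} {c d : Corner} (h : d ∈ Lp z c) : hf z d = hf z c := by
  funext v; unfold hf; rw [JL_eq h]

theorem hv_grad {z : Cfz} {c : Corner} (hfin : (Lp z c).Finite) (d : Corner) :
    hf z c (fc d) - hv z c d.1 = JL z c d := grad (JL_fs hfin) (JL_inv z c).cons d

/-- the two types of finite strands -/
theorem sgn_cases {z : Cfz} {c : Corner} (hfin : (Lp z c).Finite) :
    ((∀ d ∈ Lp z c, hv z c d.1 = -1 ∧ hf z c (fc d) = 0) ∧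
      (∀ v, hv z c v = -1 ∨ hv z c v = 0) ∧ (∀ f, hf z c f = -1 ∨ hf z c f = 0)) ∨
    ((∀ d ∈ Lp z c, hv z c d.1 = 0 ∧ hf z c (fc d) = 1) ∧
      (∀ v, hv z c v = 0 ∨ hv z c v = 1) ∧ (∀ f, hf z c f = 0 ∨ hf z c f = 1)) := by
  obtain ⟨a, ha, h1, h2, h3⟩ := jordan hfin
  rcases ha with rfl | rfl
  · right
    refine ⟨fun d hd => ?_, fun v => ?_, fun f => ?_⟩
    · have := h1 d hd; simpa [hv, hf] using this
    · have := h2 v; simpa [hv] using this
    · have := h3 f; simpa [hf] using this
  · left
    refine ⟨fun d hd => ?_, fun v => ?_, fun f => ?_⟩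
    · have := h1 d hd; simpa [hv, hf] using this
    · have := h2 v; simpa [hv] using this
    · have := h3 f; simpa [hf] using this

/-- sign of a finite strand: `-1` if the vertices are inside, `1` if the faces are inside -/
def sg (z : Cfz) (c : Corner) : ℤ := hv z c c.1 + hf z c (fc c)

theorem sg_cases {z : Cfz} {c : Corner} (hfin : (Lp z c).Finite) :
    (sg z c = -1 ∧ (∀ d ∈ Lp z c, hv z c d.1 = -1 ∧ hf z c (fc d) = 0) ∧
      (∀ v, hv z c v = -1 ∨ hv z c v = 0) ∧ (∀ f, hf z c f = -1 ∨ hf z c f = 0)) ∨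
    (sg z c = 1 ∧ (∀ d ∈ Lp z c, hv z c d.1 = 0 ∧ hf z c (fc d) = 1) ∧
      (∀ v, hv z c v = 0 ∨ hv z c v = 1) ∧ (∀ f, hf z c f = 0 ∨ hf z c f = 1)) := by
  rcases sgn_cases hfin with h | h
  · left
    refine ⟨?_, h⟩
    have := h.1 c (mem_Lp_self z c)
    unfold sg; rw [this.1, this.2]; rfl
  · right
    refine ⟨?_, h⟩
    have := h.1 c (mem_Lp_self z c)
    unfold sg; rw [this.1, this.2]; rfl

/-- heights are `sg` times the indicator of the interior -/
theorem hv_eq_sg {z : Cfz} {c : Corner} (hfin : (Lp z c).Finite) (v : P2) :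
    hv z c v = 0 ∨ hv z c v = sg z c := by
  rcases sg_cases hfin with ⟨h, _, h2, _⟩ | ⟨h, _, h2, _⟩
  · rw [h]; exact (h2 v).symm
  · rw [h]; exact h2 v

theorem hf_eq_sg {z : Cfz} {c : Corner} (hfin : (Lp z c).Finite) (f : P2) :
    hf z c f = 0 ∨ hf z c f = sg z c := by
  rcases sg_cases hfin with ⟨h, _, _, h2⟩ | ⟨h, _, _, h2⟩
  · rw [h]; exact (h2 f).symm
  · rw [h]; exact h2 f

/-- heights of a second strand along the first one -/
theorem hv_along {z : Cfz} {c d : Corner} (hd : (Lp z d).Finite) (hne : c ∉ Lp z d) :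
    ∀ x ∈ Lp z c, hv z d x.1 = hv z d c.1 ∧ hf z d (fc x) = hv z d c.1 := by
  intro x hx
  have h1 := (JL_inv z d).const_strand (JL_fs hd) x hx
  have h2 := hv_grad hd c
  have h3 : JL z d c = 0 := JL_not_mem hne
  refine ⟨h1.1, ?_⟩
  have h4 : hf z d (fc x) = hf z d (fc c) := h1.2.1
  rw [h4]; linarith


/-- backwards induction along the diagonal ray -/
theorem ray_induct {P : P2 → Prop} {Q : P2 → Prop}
    (h0 : ∀ v, ∃ N, P (dg v N))
    (h1 : ∀ v, P (dg v 1) → Q v) (h2 : ∀ v, Q v → P v) : ∀ v, P v ∧ Q v := by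
  have key : ∀ n v, P (dg v n) → P v := by
    intro n
    induction n with
    | zero => intro v h; simpa using h
    | succ n ih =>
        intro v h
        have h' : P (dg (dg v 1) n) := by rw [dg_dg, add_comm]; exact h
        exact h2 v (h1 v (ih _ h'))
  have hP : ∀ v, P v := fun v => by
    obtain ⟨N, hN⟩ := h0 v
    exact key N v hN
  exact fun v => ⟨hP v, h1 v (hP _)⟩

theorem fc_dg2 (v : P2) : fc (dg v 1, 2) = v := by
  obtain ⟨x, y⟩ := v
  simp [fc, dg]

theorem fc_zero (v : P2) : fc (v, 0) = v := by simp [fc]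

theorem hv_far {z : Cfz} {c : Corner} (hfin : (Lp z c).Finite) (v : P2) :
    ∃ N, ∀ k ≥ N, hv z c (dg v k) = 0 := by
  obtain ⟨N, hN⟩ := (JL_fs hfin).bound v
  refine ⟨N, fun k hk => Hv_eq_zero_of_ray fun l q => ?_⟩
  rw [dg_dg]
  exact hN _ (by omega) q

/-- if the strand `d` is inside the strand `c` (at one point of `d`) and `c` is outside `d`, then the
interior of `d` is contained in that of `c` -/
theorem nested {z : Cfz} {c d : Corner} (hc : (Lp z c).Finite) (hd : (Lp z d).Finite)
    (hne : c ∉ Lp z d) (hout : hv z d c.1 = 0) :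
    (∀ v, hv z d v ≠ 0 → hv z c v = hv z c d.1) ∧ (∀ f, hf z d f ≠ 0 → hf z c f = hv z c d.1) := by
  have hne' : d ∉ Lp z c := fun h => hne h.symm
  have a1 := hv_along hd hne
  have a2 := hv_along hc hne'
  have key := ray_induct (P := fun v => hv z d v ≠ 0 → hv z c v = hv z c d.1)
    (Q := fun f => hf z d f ≠ 0 → hf z c f = hv z c d.1) ?_ ?_ ?_
  · exact ⟨fun v => (key v).1, fun f => (key f).2⟩
  · intro v
    obtain ⟨N, hN⟩ := hv_far hd v
    exact ⟨N, fun h => absurd (hN N le_rfl) h⟩
  · intro v hP hQ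
    by_cases hm : (dg v 1, (2 : Fin 4)) ∈ Lp z c
    · -- crossing `c` : heights of `d` vanish there
      have := (a1 _ hm).2
      rw [fc_dg2, hout] at this
      exact absurd this hQ
    · have g2 := hv_grad hc (dg v 1, 2)
      rw [fc_dg2, JL_not_mem hm] at g2
      simp only at g2
      by_cases hm' : (dg v 1, (2 : Fin 4)) ∈ Lp z d
      · have := (a2 _ hm').2
        rw [fc_dg2] at this
        exact this
      · have g3 := hv_grad hd (dg v 1, 2)
        rw [fc_dg2, JL_not_mem hm'] at g3
        simp only at g3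
        have h4 : hv z d (dg v 1) ≠ 0 := by
          intro h; apply hQ; linarith
        have := hP h4
        linarith
  · intro v hQ hP
    by_cases hm : (v, (0 : Fin 4)) ∈ Lp z c
    · have := (a1 _ hm).1
      rw [hout] at this
      exact absurd this hP
    · have g2 := hv_grad hc (v, 0)
      rw [fc_zero, JL_not_mem hm] at g2
      simp only at g2
      by_cases hm' : (v, (0 : Fin 4)) ∈ Lp z d
      · exact (a2 _ hm').1
      · have g3 := hv_grad hd (v, 0)
        rw [fc_zero, JL_not_mem hm'] at g3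
        simp only at g3
        have h4 : hf z d v ≠ 0 := by
          intro h; apply hP; linarith
        have := hQ h4
        linarith

/-- two different finite strands: at least one of them is outside the other -/
theorem one_outside {z : Cfz} {c d : Corner} (hc : (Lp z c).Finite) (hd : (Lp z d).Finite)
    (hne : c ∉ Lp z d) : hv z d c.1 = 0 ∨ hv z c d.1 = 0 := by
  have hne' : d ∉ Lp z c := fun h => hne h.symm
  have a1 := hv_along hd hne
  have a2 := hv_along hc hne'
  by_contra hcon
  push Not at hcon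
  obtain ⟨n1, n2⟩ := hcon
  have key := ray_induct (P := fun v => hv z d v = 0 ∧ hv z c v = 0)
    (Q := fun f => hf z d f = 0 ∧ hf z c f = 0) ?_ ?_ ?_
  · exact n1 (key c.1).1.1
  · intro v
    obtain ⟨N, hN⟩ := hv_far hd v
    obtain ⟨N', hN'⟩ := hv_far hc v
    exact ⟨max N N', hN _ (le_max_left _ _), hN' _ (le_max_right _ _)⟩
  · rintro v ⟨p1, p2⟩
    by_cases hm : (dg v 1, (2 : Fin 4)) ∈ Lp z c
    · exact absurd ((a1 _ hm).1.symm.trans p1) n1
    · by_cases hm' : (dg v 1, (2 : Fin 4)) ∈ Lp z d
      · exact absurd ((a2 _ hm').1.symm.trans p2) n2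
      · have g2 := hv_grad hc (dg v 1, 2)
        have g3 := hv_grad hd (dg v 1, 2)
        rw [fc_dg2, JL_not_mem hm] at g2
        rw [fc_dg2, JL_not_mem hm'] at g3
        simp only at g2 g3
        exact ⟨by linarith, by linarith⟩
  · rintro v ⟨p1, p2⟩
    by_cases hm : (v, (0 : Fin 4)) ∈ Lp z c
    · have := (a1 _ hm).2
      rw [fc_zero, p1] at this
      exact absurd this.symm n1
    · by_cases hm' : (v, (0 : Fin 4)) ∈ Lp z d
      · have := (a2 _ hm').2
        rw [fc_zero, p2] at this
        exact absurd this.symm n2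
      · have g2 := hv_grad hc (v, 0)
        have g3 := hv_grad hd (v, 0)
        rw [fc_zero, JL_not_mem hm] at g2
        rw [fc_zero, JL_not_mem hm'] at g3
        simp only at g2 g3
        exact ⟨by linarith, by linarith⟩

/-- **laminarity**: interiors of two different finite strands are nested or disjoint -/
theorem laminar {z : Cfz} {c d : Corner} (hc : (Lp z c).Finite) (hd : (Lp z d).Finite)
    (hne : c ∉ Lp z d) :
    (IntV z d ⊆ IntV z c ∧ IntF z d ⊆ IntF z c) ∨ (IntV z c ⊆ IntV z d ∧ IntF z c ⊆ IntF z d) ∨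
      (Disjoint (IntV z c) (IntV z d) ∧ Disjoint (IntF z c) (IntF z d)) := by
  have hne' : d ∉ Lp z c := fun h => hne h.symm
  have main : ∀ {c d : Corner}, (Lp z c).Finite → (Lp z d).Finite → c ∉ Lp z d →
      hv z d c.1 = 0 → (IntV z d ⊆ IntV z c ∧ IntF z d ⊆ IntF z c) ∨
      (Disjoint (IntV z c) (IntV z d) ∧ Disjoint (IntF z c) (IntF z d)) := by
    intro c d hc hd hne hout
    obtain ⟨n1, n2⟩ := nested hc hd hne hout
    by_cases h : hv z c d.1 = 0
    · right
      rw [Set.disjoint_left, Set.disjoint_left]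
      refine ⟨fun v h1 h2 => h1 ?_, fun v h1 h2 => h1 ?_⟩
      · rw [n1 v h2, h]
      · rw [n2 v h2, h]
    · left
      refine ⟨fun v h1 => ?_, fun v h1 => ?_⟩
      · show hv z c v ≠ 0
        rw [n1 v h1]; exact h
      · show hf z c v ≠ 0
        rw [n2 v h1]; exact h
  rcases one_outside hc hd hne with h | h
  · rcases main hc hd hne h with h' | h'
    · exact Or.inl h'
    · exact Or.inr (Or.inr h')
  · rcases main hd hc hne' h with h' | h'
    · exact Or.inr (Or.inl h')
    · exact Or.inr (Or.inr ⟨h'.1.symm, h'.2.symm⟩)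

/-! ### outermost loops -/

/-- open cluster -/
def OCl (z : Cfz) (v : P2) : Set P2 := {u | Relation.ReflTransGen (PStep (fun e => z e = true)) v u}

/-- dual cluster -/
def DCl (z : Cfz) (f : P2) : Set P2 :=
  {g | Relation.ReflTransGen (DStep (fun e => z e = false)) f g}

theorem rtg_symm {α : Type*} {r : α → α → Prop} (hs : ∀ a b, r a b → r b a) {a b : α}
    (h : Relation.ReflTransGen r a b) : Relation.ReflTransGen r b a := by
  induction h with
  | refl => exact .refl
  | tail _ h2 ih => exact Relation.ReflTransGen.head (hs _ _ h2) ih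

/-- the right vertices of a strand lie in one open cluster -/
theorem Lp_v {z : Cfz} {c : Corner} : ∀ d ∈ Lp z c, d.1 ∈ OCl z c.1 := by
  refine Lp_induct .refl ?_ ?_
  · intro d _ hd
    cases hz : z (ah d) with
    | true => exact Relation.ReflTransGen.tail hd (step_open hz).1
    | false => rw [(step_closed hz).2]; exact hd
  · intro d _ hd
    have hd' : d.1 ∈ OCl z c.1 := hd
    cases hz : z (ah (pv z d)) with
    | true =>
        have h1 := (step_open hz).1
        rw [nx_pv] at h1
        exact Relation.ReflTransGen.tail hd' h1.symm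
    | false =>
        have h1 := (step_closed hz).2
        rw [nx_pv] at h1
        rw [← h1]; exact hd'

/-- the left faces of a strand lie in one dual cluster -/
theorem Lp_f {z : Cfz} {c : Corner} : ∀ d ∈ Lp z c, fc d ∈ DCl z (fc c) := by
  refine Lp_induct .refl ?_ ?_
  · intro d _ hd
    cases hz : z (ah d) with
    | true => rw [(step_open hz).2]; exact hd
    | false => exact Relation.ReflTransGen.tail hd (step_closed hz).1
  · intro d _ hd
    have hd' : fc d ∈ DCl z (fc c) := hd
    cases hz : z (ah (pv z d)) with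
    | true =>
        have h1 := (step_open hz).2
        rw [nx_pv] at h1
        rw [← h1]; exact hd'
    | false =>
        have h1 := (step_closed hz).1
        rw [nx_pv] at h1
        exact Relation.ReflTransGen.tail hd' h1.symm

theorem Lp_finite_of_v {z : Cfz} {c : Corner} (h : (OCl z c.1).Finite) : (Lp z c).Finite :=
  ((h.prod (Set.finite_univ (α := Fin 4)))).subset fun d hd => ⟨Lp_v d hd, trivial⟩

theorem Lp_finite_of_f {z : Cfz} {c : Corner} (h : (DCl z (fc c)).Finite) : (Lp z c).Finite := by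
  have h1 : (⋃ q : Fin 4, (fun f : P2 =>
      ((match q with
        | 0 => (f.1, f.2)
        | 1 => (f.1, f.2 + 1)
        | 2 => (f.1 + 1, f.2 + 1)
        | 3 => (f.1 + 1, f.2) : P2), q)) '' DCl z (fc c)).Finite :=
    Set.finite_iUnion fun q => h.image _
  refine h1.subset fun d hd => ?_
  rw [Set.mem_iUnion]
  refine ⟨d.2, fc d, Lp_f d hd, ?_⟩
  obtain ⟨⟨a, b⟩, q⟩ := d
  fin_cases q <;> simp [fc]

/-- **outermost loop of a finite open cluster**: there is a corner at the cluster whose strand is finite,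
runs along the cluster and surrounds all of it (clockwise). -/
theorem outer_open {z : Cfz} {v : P2} (h : (OCl z v).Finite) :
    ∃ c : Corner, c.1 ∈ OCl z v ∧ (Lp z c).Finite ∧ ∀ u ∈ OCl z v, hv z c u = -1 := by
  obtain ⟨u, hu, hmax⟩ := h.exists_maximalFor (fun u : P2 => u.1 + u.2) _ ⟨v, .refl⟩
  have hcl : ∀ w, w ∈ OCl z u → w ∈ OCl z v := fun w hw => Relation.ReflTransGen.trans hu hw
  have hfin : (Lp z (u, 0)).Finite := Lp_finite_of_v (h.subset hcl)
  have hval : hv z (u, 0) u = -1 := by
    have hmem : ∀ k ≥ 1, ∀ q, JL z (u, 0) (dg u k, q) = 0 := by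
      intro k hk q
      refine JL_not_mem fun hm => ?_
      have h1 := hcl _ (Lp_v _ hm)
      have h2 := hmax h1 (by simp only [dg]; omega)
      simp only [dg] at h2
      omega
    have h1 : Hv (JL z (u, 0)) u = ∑ k ∈ range 1,
        (JL z (u, 0) (dg u (k + 1), 2) - JL z (u, 0) (dg u k, 0)) := Hv_eq hmem
    unfold hv
    rw [h1, Finset.sum_range_one, dg_zero, JL_mem (mem_Lp_self _ _), hmem 1 le_rfl]
    rfl
  refine ⟨(u, 0), hu, hfin, fun w hw => ?_⟩
  have h1 : Relation.ReflTransGen (PStep (fun e => z e = true)) u w :=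
    Relation.ReflTransGen.trans (rtg_symm (fun _ _ h => PStep.symm h) hu) hw
  have h2 := (JL_inv z (u, 0)).hv_path (JL_fs hfin) h1
  unfold hv at hval ⊢
  rw [← h2, hval]


/-! ### locality -/

/-- edges visited by a strand -/
def Ve (z : Cfz) (c : Corner) : Set Edge := ah '' Lp z c

theorem bh_mem_Ve {z : Cfz} {c d : Corner} (h : d ∈ Lp z c) : bh d ∈ Ve z c :=
  ⟨pv z d, pv_mem_Lp.2 h, ah_pv z d⟩

theorem Lp_congr_sub {z z' : Cfz} {c : Corner} (h : ∀ e ∈ Ve z c, z e = z' e) :
    Lp z c ⊆ Lp z' c := by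
  intro d hd
  refine Lp_induct (P := fun d => d ∈ Lp z' c) (mem_Lp_self z' c) ?_ ?_ d hd
  · intro d hd hd'
    rw [nx_congr (h _ ⟨d, hd, rfl⟩)]
    exact nx_mem_Lp.2 hd'
  · intro d hd hd'
    rw [pv_congr (h _ (bh_mem_Ve hd))]
    exact pv_mem_Lp.2 hd'

/-- **locality**: a strand only depends on the edges it visits -/
theorem Lp_congr {z z' : Cfz} {c : Corner} (h : ∀ e ∈ Ve z c, z e = z' e) : Lp z c = Lp z' c := by
  have key : ∀ d ∈ Lp z' c, d ∈ Lp z c := by
    refine Lp_induct (mem_Lp_self z c) ?_ ?_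
    · intro d _ hd
      rw [← nx_congr (h _ ⟨d, hd, rfl⟩)]
      exact nx_mem_Lp.2 hd
    · intro d _ hd
      rw [← pv_congr (h _ (bh_mem_Ve hd))]
      exact pv_mem_Lp.2 hd
  exact Set.Subset.antisymm (Lp_congr_sub h) key

end Crest.Agent.R158.It200
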