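import Mathlib
import Crest.Agent.R158.Cpl8_963
import Crest.Agent.R158.It3_200

-- ▼ part R158/Ax1_107
section

/-!
# R158, A4 (helper107): exponent closure `B, C, D => α₂ = 1/4, α₄ = 5/4`

Abstract decreasing sequences `P2, P4 : ℕ → ℝ` in `[0,1]`, with polynomial slack in the scales:
* `SB P2`    : `n^(-1/4-ε) ≤ P2 n`
* `SC P2 P4` : `P4 m ≤ n^(-1+ε) P2 n` for `m ≥ n^(1+ε)`
* `SD P2 P4` : `n^(-3/4-ε) (P2 m)^2 ≤ P4 n` for `m ≥ n^(1+ε)`

Conclusions `p2_up`, `p4_up`, `p4_lo`.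
-/

set_option autoImplicit false

noncomputable section

namespace Crest.Agent.R158.Ax107

open Filter Topology

/-- lower bound for the two-arm probability -/
def SB (P2 : ℕ → ℝ) : Prop :=
  ∀ ε : ℝ, 0 < ε → ∀ᶠ n : ℕ in atTop, (n : ℝ) ^ (-(1 / 4 : ℝ) - ε) ≤ P2 n

/-- upper bound of four arms by two arms -/
def SC (P2 P4 : ℕ → ℝ) : Prop :=
  ∀ ε : ℝ, 0 < ε → ∀ᶠ n : ℕ in atTop, ∀ m : ℕ, (n : ℝ) ^ (1 + ε) ≤ m →
    P4 m ≤ (n : ℝ) ^ (-1 + ε) * P2 n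

/-- lower bound of four arms by two arms -/
def SD (P2 P4 : ℕ → ℝ) : Prop :=
  ∀ ε : ℝ, 0 < ε → ∀ᶠ n : ℕ in atTop, ∀ m : ℕ, (n : ℝ) ^ (1 + ε) ≤ m →
    (n : ℝ) ^ (-(3 / 4 : ℝ) - ε) * P2 m ^ 2 ≤ P4 n

/-- `P2 ≤ n^(-a+ε)` -/
def UpB (P : ℕ → ℝ) (a : ℝ) : Prop :=
  ∀ ε : ℝ, 0 < ε → ∀ᶠ n : ℕ in atTop, P n ≤ (n : ℝ) ^ (-a + ε)

/-- `n^(-a-ε) ≤ P2` -/
def LoB (P : ℕ → ℝ) (a : ℝ) : Prop :=
  ∀ ε : ℝ, 0 < ε → ∀ᶠ n : ℕ in atTop, (n : ℝ) ^ (-a - ε) ≤ P n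

theorem ev_pow (c : ℝ) (hc : 0 < c) (K : ℝ) : ∀ᶠ n : ℕ in atTop, K ≤ (n : ℝ) ^ c :=
  ((tendsto_rpow_atTop hc).comp tendsto_natCast_atTop_atTop).eventually_ge_atTop K

/-- comparison of scales: `lo N ≤ n ≤ N^b` -/
theorem fl_bounds {b : ℝ} (hb : 0 < b) : ∀ᶠ N : ℕ in atTop,
    ((⌊(N : ℝ) ^ b⌋₊ : ℕ) : ℝ) ≤ (N : ℝ) ^ b ∧ (N : ℝ) ^ b / 2 ≤ ((⌊(N : ℝ) ^ b⌋₊ : ℕ) : ℝ) := by
  filter_upwards [ev_pow b hb 2] with N h
  have h0 : 0 ≤ (N : ℝ) ^ b := by linarith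
  refine ⟨Nat.floor_le h0, ?_⟩
  have := Nat.lt_floor_add_one ((N : ℝ) ^ b)
  linarith

theorem fl_tendsto {b : ℝ} (hb : 0 < b) :
    Tendsto (fun N : ℕ => ⌊(N : ℝ) ^ b⌋₊) atTop atTop :=
  tendsto_nat_floor_atTop.comp ((tendsto_rpow_atTop hb).comp tendsto_natCast_atTop_atTop)

theorem ce_bounds {b : ℝ} (hb : 0 < b) : ∀ᶠ N : ℕ in atTop,
    (N : ℝ) ^ b ≤ ((⌈(N : ℝ) ^ b⌉₊ : ℕ) : ℝ) ∧ ((⌈(N : ℝ) ^ b⌉₊ : ℕ) : ℝ) ≤ 2 * (N : ℝ) ^ b := by
  filter_upwards [ev_pow b hb 1] with N h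
  have h0 : 0 ≤ (N : ℝ) ^ b := by linarith
  refine ⟨Nat.le_ceil _, ?_⟩
  have := Nat.ceil_lt_add_one h0
  linarith

theorem ce_tendsto {b : ℝ} (hb : 0 < b) :
    Tendsto (fun N : ℕ => ⌈(N : ℝ) ^ b⌉₊) atTop atTop :=
  tendsto_nat_ceil_atTop.comp ((tendsto_rpow_atTop hb).comp tendsto_natCast_atTop_atTop)

/-- one step of the closure -/
theorem step {P2 P4 : ℕ → ℝ} (h0 : ∀ n, 0 ≤ P2 n) (hC : SC P2 P4) (hD : SD P2 P4) {a : ℝ}
    (ha0 : 0 ≤ a) (ha1 : a ≤ 1 / 4) (ha : UpB P2 a) : UpB P2 ((a + 1 / 4) / 2) := by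
  intro ε hε
  obtain ⟨δ, hδ0, hδ1, hδ2⟩ : ∃ δ : ℝ, 0 < δ ∧ δ ≤ 1 / 16 ∧ 5 * δ ≤ ε :=
    ⟨min (1 / 16) (ε / 5), by positivity, min_le_left _ _,
      by have := min_le_right (1 / 16) (ε / 5); linarith⟩
  set b : ℝ := 1 - 4 * δ with hb
  have hb0 : 0 < b := by linarith
  -- `n = ⌊N^b⌋`, `m = ⌈n^(1+δ)⌉`
  have e1 := (fl_tendsto hb0).eventually (hC δ hδ0)
  have e2 := ((ce_tendsto (b := 1 + δ) (by linarith)).comp (fl_tendsto hb0)).eventually (hD δ hδ0)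
  have e3 := (fl_tendsto hb0).eventually (ha δ hδ0)
  have e4 := (fl_tendsto hb0).eventually (ce_bounds (b := 1 + δ) (by linarith))
  have e5 := (fl_tendsto hb0).eventually (eventually_ge_atTop 1)
  filter_upwards [e1, e2, e3, e4, e5, fl_bounds hb0, ev_pow δ hδ0 4, eventually_ge_atTop 1] with
    N h1 h2 h3 h4 h5 h6 h7 hN1
  set n : ℕ := ⌊(N : ℝ) ^ b⌋₊ with hn
  set m : ℕ := ⌈(n : ℝ) ^ (1 + δ)⌉₊ with hm
  have hN : (1 : ℝ) ≤ N := by exact_mod_cast hN1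
  have hN0 : (0 : ℝ) < N := by linarith
  have hn1 : (1 : ℝ) ≤ n := by exact_mod_cast h5
  have hn0 : (0 : ℝ) < n := by linarith
  have k1 : P4 m ≤ (n : ℝ) ^ (-1 + δ) * P2 n := h1 m h4.1
  have hmN : (m : ℝ) ≤ (N : ℝ) ^ (1 - 2 * δ) := by
    have q1 : (n : ℝ) ^ (1 + δ) ≤ (N : ℝ) ^ (b * (1 + δ)) := by
      rw [Real.rpow_mul hN0.le]
      exact Real.rpow_le_rpow hn0.le h6.1 (by linarith)
    have q2 : (2 : ℝ) ≤ (N : ℝ) ^ δ := by linarith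
    calc (m : ℝ) ≤ 2 * (n : ℝ) ^ (1 + δ) := h4.2
      _ ≤ (N : ℝ) ^ δ * (N : ℝ) ^ (b * (1 + δ)) :=
          mul_le_mul q2 q1 (Real.rpow_nonneg hn0.le _) (by linarith)
      _ = (N : ℝ) ^ (δ + b * (1 + δ)) := (Real.rpow_add hN0 _ _).symm
      _ ≤ _ := Real.rpow_le_rpow_of_exponent_le hN (by rw [hb]; nlinarith)
  have hm1 : (1 : ℝ) ≤ m := (Real.one_le_rpow hn1 (by linarith)).trans h4.1
  have hm0 : (0 : ℝ) < m := by linarith
  have hmN' : (m : ℝ) ^ (1 + δ) ≤ N := by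
    calc (m : ℝ) ^ (1 + δ) ≤ ((N : ℝ) ^ (1 - 2 * δ)) ^ (1 + δ) :=
          Real.rpow_le_rpow hm0.le hmN (by linarith)
      _ = (N : ℝ) ^ ((1 - 2 * δ) * (1 + δ)) := (Real.rpow_mul hN0.le _ _).symm
      _ ≤ (N : ℝ) ^ (1 : ℝ) := Real.rpow_le_rpow_of_exponent_le hN (by nlinarith)
      _ = N := Real.rpow_one _
  have k2 : (m : ℝ) ^ (-(3 / 4 : ℝ) - δ) * P2 N ^ 2 ≤ P4 m := h2 N hmN'
  -- combine
  have k3 : (m : ℝ) ^ (-(3 / 4 : ℝ) - δ) * P2 N ^ 2 ≤ (n : ℝ) ^ (-1 + δ) * (n : ℝ) ^ (-a + δ) :=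
    k2.trans (k1.trans (mul_le_mul_of_nonneg_left h3 (Real.rpow_nonneg hn0.le _)))
  have k4 : P2 N ^ 2 ≤ (m : ℝ) ^ ((3 / 4 : ℝ) + δ) *
      ((n : ℝ) ^ (-1 + δ) * (n : ℝ) ^ (-a + δ)) := by
    have hp : 0 < (m : ℝ) ^ (-(3 / 4 : ℝ) - δ) := Real.rpow_pos_of_pos hm0 _
    have hq : (m : ℝ) ^ ((3 / 4 : ℝ) + δ) * (m : ℝ) ^ (-(3 / 4 : ℝ) - δ) = 1 := by
      rw [← Real.rpow_add hm0]
      rw [show (3 / 4 : ℝ) + δ + (-(3 / 4 : ℝ) - δ) = 0 by ring, Real.rpow_zero]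
    calc P2 N ^ 2 = ((m : ℝ) ^ ((3 / 4 : ℝ) + δ) * (m : ℝ) ^ (-(3 / 4 : ℝ) - δ)) * P2 N ^ 2 := by
          rw [hq, one_mul]
      _ = (m : ℝ) ^ ((3 / 4 : ℝ) + δ) * ((m : ℝ) ^ (-(3 / 4 : ℝ) - δ) * P2 N ^ 2) := by ring
      _ ≤ _ := mul_le_mul_of_nonneg_left k3 (Real.rpow_nonneg hm0.le _)
  have k5 : (m : ℝ) ^ ((3 / 4 : ℝ) + δ) ≤ (N : ℝ) ^ ((3 / 4 : ℝ) + δ) := by
    refine Real.rpow_le_rpow hm0.le (hmN.trans ?_) (by linarith)
    calc (N : ℝ) ^ (1 - 2 * δ) ≤ (N : ℝ) ^ (1 : ℝ) :=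
          Real.rpow_le_rpow_of_exponent_le hN (by linarith)
      _ = N := Real.rpow_one _
  have k6 : (n : ℝ) ^ (-1 + δ) * (n : ℝ) ^ (-a + δ) ≤
      (N : ℝ) ^ δ * (N : ℝ) ^ (-(1 + a) + 7 * δ) := by
    rw [← Real.rpow_add hn0]
    have q1 : (n : ℝ) ^ (-1 + δ + (-a + δ)) ≤ ((N : ℝ) ^ b / 2) ^ (-1 + δ + (-a + δ)) :=
      Real.rpow_le_rpow_of_nonpos (by positivity) h6.2 (by linarith)
    have q2 : ((N : ℝ) ^ b / 2) ^ (-1 + δ + (-a + δ)) =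
        (N : ℝ) ^ (b * (-1 + δ + (-a + δ))) * (2 : ℝ) ^ (1 - δ + (a - δ)) := by
      rw [Real.div_rpow (Real.rpow_nonneg hN0.le _) (by norm_num), ← Real.rpow_mul hN0.le,
        div_eq_mul_inv, ← Real.rpow_neg (by norm_num)]
      congr 2
      ring
    have q3 : (2 : ℝ) ^ (1 - δ + (a - δ)) ≤ 4 := by
      calc (2 : ℝ) ^ (1 - δ + (a - δ)) ≤ (2 : ℝ) ^ (2 : ℝ) :=
            Real.rpow_le_rpow_of_exponent_le (by norm_num) (by linarith)
        _ = 4 := by norm_num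
    have q4 : (N : ℝ) ^ (b * (-1 + δ + (-a + δ))) ≤ (N : ℝ) ^ (-(1 + a) + 7 * δ) :=
      Real.rpow_le_rpow_of_exponent_le hN (by rw [hb]; nlinarith)
    calc _ ≤ _ := q1
      _ = _ := q2
      _ ≤ (N : ℝ) ^ (-(1 + a) + 7 * δ) * (N : ℝ) ^ δ :=
          mul_le_mul q4 (q3.trans h7) (by positivity) (Real.rpow_nonneg hN0.le _)
      _ = _ := mul_comm _ _
  have k7 : P2 N ^ 2 ≤ ((N : ℝ) ^ (-((a + 1 / 4) / 2) + ε)) ^ 2 := by
    calc P2 N ^ 2 ≤ _ := k4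
      _ ≤ (N : ℝ) ^ ((3 / 4 : ℝ) + δ) * ((N : ℝ) ^ δ * (N : ℝ) ^ (-(1 + a) + 7 * δ)) :=
          mul_le_mul k5 k6 (by positivity) (by positivity)
      _ = (N : ℝ) ^ ((3 / 4 : ℝ) + δ + (δ + (-(1 + a) + 7 * δ))) := by
          rw [← Real.rpow_add hN0 δ, ← Real.rpow_add hN0]
      _ ≤ (N : ℝ) ^ ((-((a + 1 / 4) / 2) + ε) * 2) :=
          Real.rpow_le_rpow_of_exponent_le hN (by nlinarith)
      _ = _ := by rw [Real.rpow_mul hN0.le]; norm_cast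
  exact (sq_le_sq₀ (h0 N) (Real.rpow_nonneg hN0.le _)).1 k7

/-- **upper bound of the two-arm probability** -/
theorem p2_up {P2 P4 : ℕ → ℝ} (h0 : ∀ n, 0 ≤ P2 n) (h1 : ∀ n, P2 n ≤ 1) (hC : SC P2 P4)
    (hD : SD P2 P4) : UpB P2 (1 / 4) := by
  have base : UpB P2 0 := by
    intro ε hε
    filter_upwards [eventually_ge_atTop 1] with n hn
    have : (1 : ℝ) ≤ (n : ℝ) ^ (-0 + ε) := Real.one_le_rpow (by exact_mod_cast hn) (by linarith)
    exact (h1 n).trans this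
  have key : ∀ k : ℕ, UpB P2 (1 / 4 - (1 / 4) * (1 / 2) ^ k) := by
    intro k
    induction k with
    | zero => simpa using base
    | succ k ih =>
        have hk0 : (0 : ℝ) ≤ (1 / 2 : ℝ) ^ k := by positivity
        have hk1 : (1 / 2 : ℝ) ^ k ≤ 1 := pow_le_one₀ (by norm_num) (by norm_num)
        have := step h0 hC hD (by linarith) (by linarith) ih
        rw [pow_succ]
        convert this using 1
        ring
  intro ε hε
  obtain ⟨k, hk⟩ : ∃ k : ℕ, (1 / 2 : ℝ) ^ k < ε := exists_pow_lt_of_lt_one hε (by norm_num)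
  filter_upwards [key k (ε / 2) (by positivity), eventually_ge_atTop 1] with n hn hn1
  exact hn.trans (Real.rpow_le_rpow_of_exponent_le (by exact_mod_cast hn1) (by linarith))

/-- **upper bound of the four-arm probability** -/
theorem p4_up {P2 P4 : ℕ → ℝ} (hP : UpB P2 (1 / 4)) (hC : SC P2 P4) : UpB P4 (5 / 4) := by
  intro ε hε
  obtain ⟨δ, hδ0, hδ1, hδ2⟩ : ∃ δ : ℝ, 0 < δ ∧ δ ≤ 1 / 16 ∧ 6 * δ ≤ ε :=
    ⟨min (1 / 16) (ε / 6), by positivity, min_le_left _ _,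
      by have := min_le_right (1 / 16) (ε / 6); linarith⟩
  set b : ℝ := 1 - 2 * δ with hb
  have hb0 : 0 < b := by linarith
  have e1 := (fl_tendsto hb0).eventually (hC δ hδ0)
  have e3 := (fl_tendsto hb0).eventually (hP δ hδ0)
  have e5 := (fl_tendsto hb0).eventually (eventually_ge_atTop 1)
  filter_upwards [e1, e3, e5, fl_bounds hb0, ev_pow δ hδ0 4, eventually_ge_atTop 1] with
    N h1 h3 h5 h6 h7 hN1
  set n : ℕ := ⌊(N : ℝ) ^ b⌋₊ with hn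
  have hN : (1 : ℝ) ≤ N := by exact_mod_cast hN1
  have hN0 : (0 : ℝ) < N := by linarith
  have hn1 : (1 : ℝ) ≤ n := by exact_mod_cast h5
  have hn0 : (0 : ℝ) < n := by linarith
  have hnN : (n : ℝ) ^ (1 + δ) ≤ N := by
    calc (n : ℝ) ^ (1 + δ) ≤ ((N : ℝ) ^ b) ^ (1 + δ) :=
          Real.rpow_le_rpow hn0.le h6.1 (by linarith)
      _ = (N : ℝ) ^ (b * (1 + δ)) := (Real.rpow_mul hN0.le _ _).symm
      _ ≤ (N : ℝ) ^ (1 : ℝ) := Real.rpow_le_rpow_of_exponent_le hN (by rw [hb]; nlinarith)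
      _ = N := Real.rpow_one _
  have k1 : P4 N ≤ (n : ℝ) ^ (-1 + δ) * P2 n := h1 N hnN
  have q1 : (n : ℝ) ^ (-1 + δ + (-(1 / 4) + δ)) ≤ ((N : ℝ) ^ b / 2) ^ (-1 + δ + (-(1 / 4) + δ)) :=
    Real.rpow_le_rpow_of_nonpos (by positivity) h6.2 (by linarith)
  have q2 : ((N : ℝ) ^ b / 2) ^ (-1 + δ + (-(1 / 4) + δ)) =
      (N : ℝ) ^ (b * (-1 + δ + (-(1 / 4) + δ))) * (2 : ℝ) ^ (5 / 4 - 2 * δ) := by
    rw [Real.div_rpow (Real.rpow_nonneg hN0.le _) (by norm_num), ← Real.rpow_mul hN0.le,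
      div_eq_mul_inv, ← Real.rpow_neg (by norm_num)]
    congr 2
    ring
  have q3 : (2 : ℝ) ^ (5 / 4 - 2 * δ) ≤ 4 := by
    calc (2 : ℝ) ^ (5 / 4 - 2 * δ) ≤ (2 : ℝ) ^ (2 : ℝ) :=
          Real.rpow_le_rpow_of_exponent_le (by norm_num) (by linarith)
      _ = 4 := by norm_num
  calc P4 N ≤ (n : ℝ) ^ (-1 + δ) * P2 n := k1
    _ ≤ (n : ℝ) ^ (-1 + δ) * (n : ℝ) ^ (-(1 / 4) + δ) :=
        mul_le_mul_of_nonneg_left h3 (Real.rpow_nonneg hn0.le _)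
    _ = (n : ℝ) ^ (-1 + δ + (-(1 / 4) + δ)) := (Real.rpow_add hn0 _ _).symm
    _ ≤ _ := q1
    _ = _ := q2
    _ ≤ (N : ℝ) ^ (b * (-1 + δ + (-(1 / 4) + δ))) * (N : ℝ) ^ δ :=
        mul_le_mul_of_nonneg_left (q3.trans h7) (Real.rpow_nonneg hN0.le _)
    _ = (N : ℝ) ^ (b * (-1 + δ + (-(1 / 4) + δ)) + δ) := (Real.rpow_add hN0 _ _).symm
    _ ≤ _ := Real.rpow_le_rpow_of_exponent_le hN (by rw [hb]; nlinarith)

/-- **lower bound of the four-arm probability** -/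
theorem p4_lo {P2 P4 : ℕ → ℝ} (hB : SB P2) (hD : SD P2 P4) : LoB P4 (5 / 4) := by
  intro ε hε
  obtain ⟨δ, hδ0, hδ1, hδ2⟩ : ∃ δ : ℝ, 0 < δ ∧ δ ≤ 1 / 16 ∧ 5 * δ ≤ ε :=
    ⟨min (1 / 16) (ε / 5), by positivity, min_le_left _ _,
      by have := min_le_right (1 / 16) (ε / 5); linarith⟩
  have e1 := (ce_tendsto (b := 1 + δ) (by linarith)).eventually (hB δ hδ0)
  filter_upwards [e1, hD δ hδ0, ce_bounds (b := 1 + δ) (by linarith), ev_pow δ hδ0 2,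
    eventually_ge_atTop 1] with N h1 h2 h4 h7 hN1
  set m : ℕ := ⌈(N : ℝ) ^ (1 + δ)⌉₊ with hm
  have hN : (1 : ℝ) ≤ N := by exact_mod_cast hN1
  have hN0 : (0 : ℝ) < N := by linarith
  have hm1 : (1 : ℝ) ≤ m := (Real.one_le_rpow hN (by linarith)).trans h4.1
  have hm0 : (0 : ℝ) < m := by linarith
  have hmN : (m : ℝ) ≤ (N : ℝ) ^ (1 + 2 * δ) := by
    calc (m : ℝ) ≤ 2 * (N : ℝ) ^ (1 + δ) := h4.2
      _ ≤ (N : ℝ) ^ δ * (N : ℝ) ^ (1 + δ) :=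
          mul_le_mul_of_nonneg_right h7 (Real.rpow_nonneg hN0.le _)
      _ = (N : ℝ) ^ (δ + (1 + δ)) := (Real.rpow_add hN0 _ _).symm
      _ = _ := by ring_nf
  have k1 : (N : ℝ) ^ ((1 + 2 * δ) * (-(1 / 4 : ℝ) - δ)) ≤ P2 m := by
    refine le_trans ?_ h1
    rw [Real.rpow_mul hN0.le]
    exact Real.rpow_le_rpow_of_nonpos hm0 hmN (by linarith)
  have k2 : (N : ℝ) ^ (-(3 / 4 : ℝ) - δ) *
      ((N : ℝ) ^ ((1 + 2 * δ) * (-(1 / 4 : ℝ) - δ))) ^ 2 ≤ P4 N := by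
    refine le_trans ?_ (h2 m h4.1)
    exact mul_le_mul_of_nonneg_left (pow_le_pow_left₀ (Real.rpow_nonneg hN0.le _) k1 2)
      (Real.rpow_nonneg hN0.le _)
  refine le_trans ?_ k2
  rw [← Real.rpow_natCast, ← Real.rpow_mul hN0.le, ← Real.rpow_add hN0]
  refine Real.rpow_le_rpow_of_exponent_le hN ?_
  push_cast
  nlinarith

/-! ### from stronger forms of the hypotheses -/

/-- exact scales -/
theorem sc_of {P2 P4 : ℕ → ℝ} (m4 : Antitone P4)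
    (h : ∀ ε : ℝ, 0 < ε → ∀ᶠ n : ℕ in atTop, P4 n ≤ (n : ℝ) ^ (-1 + ε) * P2 n) : SC P2 P4 := by
  intro ε hε
  filter_upwards [h ε hε, eventually_ge_atTop 1] with n hn hn1 m hm
  refine (m4 ?_).trans hn
  have h1 : (n : ℝ) ≤ (n : ℝ) ^ (1 + ε) := by
    conv_lhs => rw [← Real.rpow_one (n : ℝ)]
    exact Real.rpow_le_rpow_of_exponent_le (by exact_mod_cast hn1) (by linarith)
  exact_mod_cast h1.trans hm



theorem sd_of_const {P2 P4 : ℕ → ℝ} (h0 : ∀ n, 0 ≤ P2 n) (m2 : Antitone P2)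
    (h : ∀ ε : ℝ, 0 < ε → ∃ K : ℕ, ∀ᶠ n : ℕ in atTop,
      (n : ℝ) ^ (-(3 / 4 : ℝ) - ε) * P2 (K * n) ^ 2 ≤ P4 n) : SD P2 P4 := by
  intro ε hε
  obtain ⟨K, hK⟩ := h ε hε
  filter_upwards [hK, eventually_ge_atTop 1, ev_pow ε hε K] with n hn hn1 hKn m hm
  refine le_trans ?_ hn
  have hn0 : (0 : ℝ) < n := by exact_mod_cast hn1
  have h1 : ((K * n : ℕ) : ℝ) ≤ (n : ℝ) ^ (1 + ε) := by
    push_cast
    rw [Real.rpow_add hn0, Real.rpow_one, mul_comm]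
    exact mul_le_mul_of_nonneg_left hKn hn0.le
  have h2 : K * n ≤ m := by exact_mod_cast h1.trans hm
  exact mul_le_mul_of_nonneg_left (pow_le_pow_left₀ (h0 _) (m2 h2) 2) (by positivity)


end Crest.Agent.R158.Ax107
end
end

-- ▼ part R158/Ax2_107

/-!
# R158, A4 (helper107): literal form of the closure

* `p4 n` : `P_{1/2}(Sp580.A4 ((0,0),false) n)`; `A4_prob` : the same for every edge
* `p2 n` : `P_{1/2}(P2ev n)`, `P2ev n` : the open cluster of `(0,0)` and the dual cluster of the face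
  `(0,0)` reach sup distance `n`
* `final` : `SB p2 → SC p2 p4 → SD p2 p4 → L4 ∧ P4U ∧ P2 bounds`
-/

set_option autoImplicit false

noncomputable section

namespace Crest.Agent.R158.Ax107

open Filter Topology MeasureTheory ProbabilityTheory unitInterval
open Crest.Agent.R161.Geo729 Crest.Agent.R161.Topo374 Crest.Agent.R161.Dual374
open Crest.Agent.R161.Tas682 Crest.Agent.R161.Ring421
open Crest.Agent.R158.Rs689 Crest.Agent.R158.Cpl963 Crest.Agent.R158.Sp580 Crest.Agent.R158.Ru874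
open Crest.Agent.R158.It200 (OCl DCl)

local notation "μh" => Crest.Agent.R158.Rs689.nu Crest.Agent.R158.Rs689.hf

/-! ### symmetries of the four-arm event -/

theorem frc_shift (a : P2) (e : Edge) (b : Bool) (z : Cf) :
    frc e b (shiftZ a z) = shiftZ a (frc (e.1 + a, e.2) b z) := by
  funext i
  by_cases h : i = e
  · subst h
    rw [frc_self]
    show b = frc (i.1 + a, i.2) b z (i.1 + a, i.2)
    rw [frc_self]
  · rw [frc_ne h]
    show z (i.1 + a, i.2) = frc (e.1 + a, e.2) b z (i.1 + a, i.2)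
    rw [frc_ne]
    intro h'
    apply h
    rw [Prod.mk.injEq] at h'
    exact Prod.ext (add_right_cancel h'.1) h'.2


theorem tgt_add (e : Edge) (a : P2) : tgt (e.1 + a, e.2) = tgt e + a := by
  obtain ⟨⟨x, y⟩, b⟩ := e
  obtain ⟨a1, a2⟩ := a
  cases b
  · simp [tgt]; ring
  · simp [tgt]; ring

theorem ball_shift (x a : P2) (R : ℤ) :
    {w : P2 | w - a ∈ {v : P2 | sd x v ≤ R}} = {v | sd (x + a) v ≤ R} := by
  ext w
  have h := sd_add x a (w - a)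
  rw [sub_add_cancel] at h
  simp only [Set.mem_ofPred_eq, h]

theorem A4_shift (e : Edge) (a : P2) (R : ℤ) :
    shiftZ a ⁻¹' Sp580.A4 e R = Sp580.A4 (e.1 + a, e.2) R := by
  ext z
  have key : ∀ u v : P2, OC (frc e false (shiftZ a z)) {v | sd (src e) v ≤ R} u v ↔
      OC (frc (e.1 + a, e.2) false z) {v | sd (src e + a) v ≤ R} (u + a) (v + a) := by
    intro u v
    rw [frc_shift, OC_shift_iff, ball_shift]
  show ((∃ v ∈ {v | sd (src e) v = R}, OC (frc e false (shiftZ a z)) {v | sd (src e) v ≤ R}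
      (src e) v) ∧ (∃ v ∈ {v | sd (src e) v = R}, OC (frc e false (shiftZ a z))
      {v | sd (src e) v ≤ R} (tgt e) v) ∧ ¬ OC (frc e false (shiftZ a z))
      {v | sd (src e) v ≤ R} (src e) (tgt e)) ↔
    ((∃ v ∈ {v | sd (src e + a) v = R}, OC (frc (e.1 + a, e.2) false z)
      {v | sd (src e + a) v ≤ R} (src e + a) v) ∧ (∃ v ∈ {v | sd (src e + a) v = R},
      OC (frc (e.1 + a, e.2) false z) {v | sd (src e + a) v ≤ R} (tgt (e.1 + a, e.2)) v) ∧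
      ¬ OC (frc (e.1 + a, e.2) false z) {v | sd (src e + a) v ≤ R} (src e + a)
        (tgt (e.1 + a, e.2)))
  rw [tgt_add]
  have ex : ∀ u : P2, (∃ v ∈ {v | sd (src e) v = R}, OC (frc e false (shiftZ a z))
      {v | sd (src e) v ≤ R} u v) ↔ ∃ v ∈ {v | sd (src e + a) v = R},
      OC (frc (e.1 + a, e.2) false z) {v | sd (src e + a) v ≤ R} (u + a) v := by
    intro u
    constructor
    · rintro ⟨v, hv, h⟩
      exact ⟨v + a, by
        show sd (src e + a) (v + a) = R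
        rw [sd_add]; exact hv, (key u v).1 h⟩
    · rintro ⟨v, hv, h⟩
      refine ⟨v - a, ?_, (key u (v - a)).2 (by rw [sub_add_cancel]; exact h)⟩
      show sd (src e) (v - a) = R
      rw [← sd_add (src e) a, sub_add_cancel]; exact hv
  rw [ex, ex, key]

/-- transposition of edges -/
def trE : Edge ≃ Edge where
  toFun e := ((e.1.2, e.1.1), !e.2)
  invFun e := ((e.1.2, e.1.1), !e.2)
  left_inv e := by simp
  right_inv e := by simp

/-- transposition of configurations -/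
def trZ (z : Cf) : Cf := fun e => z (trE e)

theorem src_trE (e : Edge) : src (trE e) = (src e).swap := rfl

theorem tgt_trE (e : Edge) : tgt (trE e) = (tgt e).swap := by
  obtain ⟨⟨x, y⟩, b⟩ := e
  cases b <;> rfl

theorem trE_trE (e : Edge) : trE (trE e) = e := by
  obtain ⟨⟨x, y⟩, b⟩ := e
  simp [trE]

theorem trZ_trZ (z : Cf) : trZ (trZ z) = z := by
  funext e
  show z (trE (trE e)) = z e
  rw [trE_trE]

theorem trZ_map (p : I) : (Rs689.nu p).map trZ = Rs689.nu p :=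
  PB_map_equiv trE.symm (fun _ : Edge => p)

theorem meas_trZ : Measurable trZ := measurable_pi_lambda _ fun _ => measurable_pi_apply _

theorem sd_swap (x v : P2) : sd x.swap v.swap = sd x v := by
  unfold sd
  exact max_comm _ _

theorem OC_tr {z : Cf} {S : Set P2} {u v : P2} (h : OC (trZ z) S u v) :
    OC z {w | w.swap ∈ S} u.swap v.swap := by
  refine ⟨by simpa using h.1, ?_⟩
  obtain ⟨_, h⟩ := h
  induction h with
  | refl => exact .refl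
  | @tail b c _ h2 ih =>
    obtain ⟨⟨e, he, h3⟩, hb, hc⟩ := h2
    refine ih.tail ⟨⟨trE e, he, ?_⟩, by simpa using hb, by simpa using hc⟩
    rw [src_trE, tgt_trE]
    rcases h3 with ⟨rfl, rfl⟩ | ⟨rfl, rfl⟩
    · exact Or.inl ⟨rfl, rfl⟩
    · exact Or.inr ⟨rfl, rfl⟩

theorem OC_tr_iff {z : Cf} {S : Set P2} {u v : P2} :
    OC (trZ z) S u v ↔ OC z {w | w.swap ∈ S} u.swap v.swap := by
  refine ⟨OC_tr, fun h => ?_⟩
  have h1 : OC (trZ (trZ z)) {w | w.swap ∈ S} u.swap v.swap := by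
    rw [trZ_trZ]; exact h
  have h2 := OC_tr h1
  have h3 : {w : P2 | w.swap ∈ {w : P2 | w.swap ∈ S}} = S := by
    ext w
    simp
  rw [h3] at h2
  simpa using h2

theorem frc_tr (e : Edge) (b : Bool) (z : Cf) : frc e b (trZ z) = trZ (frc (trE e) b z) := by
  funext i
  by_cases h : i = e
  · subst h
    rw [frc_self]
    show b = frc (trE i) b z (trE i)
    rw [frc_self]
  · rw [frc_ne h]
    show z (trE i) = frc (trE e) b z (trE i)
    rw [frc_ne]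
    intro h'
    exact h (trE.injective h')

theorem ball_swap (x : P2) (R : ℤ) :
    {w : P2 | w.swap ∈ {v : P2 | sd x v ≤ R}} = {v | sd x.swap v ≤ R} := by
  ext w
  have h := sd_swap x w.swap
  rw [Prod.swap_swap] at h
  simp only [Set.mem_ofPred_eq, h]

theorem A4_tr (e : Edge) (R : ℤ) : trZ ⁻¹' Sp580.A4 e R = Sp580.A4 (trE e) R := by
  ext z
  have key : ∀ u v : P2, OC (frc e false (trZ z)) {v | sd (src e) v ≤ R} u v ↔
      OC (frc (trE e) false z) {v | sd (src e).swap v ≤ R} u.swap v.swap := by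
    intro u v
    rw [frc_tr, OC_tr_iff, ball_swap]
  show ((∃ v ∈ {v | sd (src e) v = R}, OC (frc e false (trZ z)) {v | sd (src e) v ≤ R}
      (src e) v) ∧ (∃ v ∈ {v | sd (src e) v = R}, OC (frc e false (trZ z))
      {v | sd (src e) v ≤ R} (tgt e) v) ∧ ¬ OC (frc e false (trZ z))
      {v | sd (src e) v ≤ R} (src e) (tgt e)) ↔
    ((∃ v ∈ {v | sd (src e).swap v = R}, OC (frc (trE e) false z)
      {v | sd (src e).swap v ≤ R} (src e).swap v) ∧ (∃ v ∈ {v | sd (src e).swap v = R},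
      OC (frc (trE e) false z) {v | sd (src e).swap v ≤ R} (tgt (trE e)) v) ∧
      ¬ OC (frc (trE e) false z) {v | sd (src e).swap v ≤ R} (src e).swap
        (tgt (trE e)))
  rw [tgt_trE]
  have ex : ∀ u : P2, (∃ v ∈ {v | sd (src e) v = R}, OC (frc e false (trZ z))
      {v | sd (src e) v ≤ R} u v) ↔ ∃ v ∈ {v | sd (src e).swap v = R},
      OC (frc (trE e) false z) {v | sd (src e).swap v ≤ R} u.swap v := by
    intro u
    constructor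
    · rintro ⟨v, hv, h⟩
      exact ⟨v.swap, by
        show sd (src e).swap v.swap = R
        rw [sd_swap]; exact hv, (key u v).1 h⟩
    · rintro ⟨v, hv, h⟩
      refine ⟨v.swap, ?_, (key u v.swap).2 (by rw [Prod.swap_swap]; exact h)⟩
      show sd (src e) v.swap = R
      rw [← sd_swap (src e), Prod.swap_swap]; exact hv
  rw [ex, ex, key]

theorem A4_meas (e : Edge) (R : ℤ) : MeasurableSet (Sp580.A4 e R) := by
  rw [Cpl963.A4_eq]
  exact (Cpl963.A4_dep e R).measurableSet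

theorem A4_prob_shift (p : I) (e : Edge) (a : P2) (R : ℤ) :
    (Rs689.nu p).real (Sp580.A4 (e.1 + a, e.2) R) = (Rs689.nu p).real (Sp580.A4 e R) := by
  have h := tInv p a
  rw [← A4_shift]
  conv_rhs => rw [← h]
  rw [measureReal_def, measureReal_def, Measure.map_apply (measurable_shiftZ a)
    (A4_meas _ _)]

theorem A4_prob_tr (p : I) (e : Edge) (R : ℤ) :
    (Rs689.nu p).real (Sp580.A4 (trE e) R) = (Rs689.nu p).real (Sp580.A4 e R) := by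
  have h := trZ_map p
  rw [← A4_tr]
  conv_rhs => rw [← h]
  rw [measureReal_def, measureReal_def, Measure.map_apply meas_trZ (A4_meas _ _)]

/-- **the probability of four arms does not depend on the edge** -/
theorem A4_prob (p : I) (e : Edge) (R : ℤ) :
    (Rs689.nu p).real (Sp580.A4 e R) = (Rs689.nu p).real (Sp580.A4 ((0, 0), false) R) := by
  obtain ⟨v, b⟩ := e
  have h1 := A4_prob_shift p ((0, 0), b) v R
  have h2 : (((0, 0), b).1 + v, ((0, 0), b).2) = ((v, b) : Edge) := by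
    have : ((0, 0) : P2) + v = v := zero_add v
    exact Prod.ext this rfl
  rw [h2] at h1
  rw [h1]
  cases b
  · rfl
  · exact A4_prob_tr p ((0, 0), false) R

/-! ### the two sequences -/

/-- four-arm probability at `p = 1/2` -/
def p4 (n : ℕ) : ℝ := (μh).real (Sp580.A4 ((0, 0), false) n)

/-- two-arm event at the corner `((0,0),0)` -/
def P2ev (n : ℕ) : Set Cf :=
  {z | (∃ v ∈ OCl z (0, 0), (n : ℤ) ≤ sd (0, 0) v) ∧ ∃ g ∈ DCl z (0, 0), (n : ℤ) ≤ sd (0, 0) g}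

/-- two-arm probability at `p = 1/2` -/
def p2 (n : ℕ) : ℝ := (μh).real (P2ev n)

theorem p2_nonneg (n : ℕ) : 0 ≤ p2 n := measureReal_nonneg

theorem p2_le_one (n : ℕ) : p2 n ≤ 1 := measureReal_le_one

theorem p4_nonneg (n : ℕ) : 0 ≤ p4 n := measureReal_nonneg

theorem p4_le_one (n : ℕ) : p4 n ≤ 1 := measureReal_le_one

theorem p2_anti : Antitone p2 := by
  intro n m h
  refine measureReal_mono ?_
  rintro z ⟨⟨v, hv, h1⟩, g, hg, h2⟩
  have h3 : (n : ℤ) ≤ m := by exact_mod_cast h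
  exact ⟨⟨v, hv, h3.trans h1⟩, g, hg, h3.trans h2⟩

/-- upper four-arm point bound at `p = 1/2` (808's input) -/
def P4U : Prop :=
  ∀ ε : ℝ, 0 < ε → ∀ᶠ r : ℕ in atTop, ∀ e : Edge,
    (μh).real (Sp580.A4 e r) ≤ (r : ℝ) ^ (-(5 / 4 : ℝ) + ε)

/-- **the closure** -/
theorem final (hB : SB p2) (hC : SC p2 p4) (hD : SD p2 p4) :
    Cpl963.L4 ∧ P4U ∧ UpB p2 (1 / 4) ∧ LoB p2 (1 / 4) := by
  have h1 := p2_up p2_nonneg p2_le_one hC hD
  refine ⟨?_, ?_, h1, hB⟩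
  · intro ε hε
    filter_upwards [p4_lo hB hD ε hε] with r hr e
    rw [A4_prob]; exact hr
  · intro ε hε
    filter_upwards [p4_up h1 hC ε hε] with r hr e
    rw [A4_prob]; exact hr

end Crest.Agent.R158.Ax107
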