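import Crest.Agent.R158.Os4_488
import Crest.Agent.R158.Qm1_522

/-!
# Row 158, Block OS (helper488), part 5: the one-arm bound at near-critical parameters

* `RScale c p N` : `c ≤ Pr p (LR n)` and `Pr p (BT n) ≤ 1 - c` for `1 ≤ n ≤ N` (the body of `HypC`)
* `rs_primal`, `rs_dual` : `RS` (hard-way crossings) for `Pr p` and for the dual law
* `circ_dual_ge` : dual circuits have probability at least `c^16` at all scales up to `N`
* `al c`, `Ca c` : explicit exponent in `(0, 1/2]` and constant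
* `arm_nc` : `P(B_s(x) ↔ distance R) ≤ Ca c (s/R)^(al c)` for `1 ≤ s ≤ R ≤ N`
* `piv_nc` : `∑_blocks P(block pivotal for a crossing) ≥ κ(c) (N/m)^(al c/2) f(1-f)`
* `piv_nc_LR` : the same for `LR n`, with `f(1-f) ≥ c(1-c)`
-/

set_option autoImplicit false

noncomputable section

namespace Crest.Agent.R158.Os488

open MeasureTheory Filter Topology unitInterval
open Crest.ProbabilityR.Percolation Crest.ProbabilityR.FirstPassage
open Crest.Agent.R158.Rs689 Crest.Agent.R161.Tas682 Crest.Agent.R161.Geo729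
open Crest.Agent.R161.Topo374 Crest.Agent.R161.Ifc372
open Crest.Agent.R158.Fr158 Crest.Agent.R158.Qm522

/-- RSW, primal and dual, at the scales `1, …, N` (the body of `HypC`) -/
def RScale (c p : ℝ) (N : ℕ) : Prop :=
  ∀ n : ℕ, 1 ≤ n → n ≤ N → c ≤ Pr p (LR n) ∧ Pr p (BT n) ≤ 1 - c

theorem RScale.mono {c p : ℝ} {N N' : ℕ} (h : RScale c p N) (hN : N' ≤ N) : RScale c p N' :=
  fun n h1 h2 => h n h1 (h2.trans hN)

theorem RScale.anti {c c' p : ℝ} {N : ℕ} (h : RScale c p N) (hc : c' ≤ c) : RScale c' p N :=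
  fun n h1 h2 => ⟨hc.trans (h n h1 h2).1, (h n h1 h2).2.trans (by linarith)⟩

theorem lrn_eq (p : ℝ) (n : ℤ) : Pr p (LR n) = xpr (clampUnit p) (3 * n) n := by
  have h := lr_eq_xpr (clampUnit p) 0 (3 * n) 0 n
  rw [sub_zero, sub_zero] at h
  exact h

theorem btn_eq (p : ℝ) (n : ℤ) : Pr p (BT n) = xpr (clampUnit p) n (3 * n) := by
  have h := bt_eq_xpr (clampUnit p) 0 (3 * n) 0 n
  rw [sub_zero, sub_zero] at h
  exact h



/-- hard-way crossings of the primal law -/
theorem rs_primal {c p : ℝ} {N : ℕ} (h : RScale c p N) : RS (Pr p) c N := by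
  intro n h1 h2
  lift n to ℕ using (by omega)
  have h3 := (h n (by exact_mod_cast h1) (by exact_mod_cast h2)).1
  exact h3

/-- dual hard-way crossings -/
theorem xpr_dual_ge {c p : ℝ} {N : ℕ} (h : RScale c p N) {n : ℤ} (h1 : 1 ≤ n) (h2 : n ≤ N) :
    c ≤ xpr (σ (clampUnit p)) (3 * n) n := by
  lift n to ℕ using (by omega)
  have h3 := (h n (by exact_mod_cast h1) (by exact_mod_cast h2)).2
  rw [btn_eq] at h3
  have h4 := xpr_dual (clampUnit p) n (3 * n) (by omega) (by omega)
  have h5 : xpr (σ (clampUnit p)) (3 * (n : ℤ) + 1) (n - 1) ≤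
      xpr (σ (clampUnit p)) (3 * (n : ℤ)) n :=
    xpr_mono _ (by omega) (by omega) (by omega)
  linarith





/-- the exponent of the one-arm bound -/
def al (c : ℝ) : ℝ := -Real.log (1 - c ^ 16 / 2) / Real.log 4












end Crest.Agent.R158.Os488
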