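import Crest.Agent.R158.Ld2_570
import Crest.Agent.R158.Hp7_814
import Mathlib.NumberTheory.Harmonic.Bounds

-- ▼ part R158/Bb1_488
section

/-!
# Row 158, Block G (helper488): boundary blocks, part 1: one block

* `TT_sy`, `TW_sy` : symmetries
* `blk_L`, `blk_R`, `blk_B`, `blk_T` : a block close to one side of the rectangle
-/

set_option autoImplicit false

noncomputable section

namespace Crest.Agent.R158.Bb488

open MeasureTheory ProbabilityTheory unitInterval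
open Crest.ProbabilityR.Percolation (clampUnit)
open Crest.Agent.R161.Geo729 Crest.Agent.R161.Topo374 Crest.Agent.R161.Dual374
open Crest.Agent.R161.Tas682 Crest.Agent.R158.Rs689 Crest.Agent.R161.Sym597
open Crest.Agent.R158.Ru874 Crest.Agent.R158.Hp814 Crest.Agent.R158.Os488
open Crest.Agent.R158.Ld570 (XR bdK Blk)

/-! ### symmetries -/

theorem TT_sy (g : Sy) (p : I) {D D' J J' O O' : Set P2} (hf : D.Finite)
    (hD : ∀ v, v ∈ D ↔ g.V v ∈ D') (hI : ∀ v, v ∈ J ↔ g.V v ∈ J') (hO : ∀ v, v ∈ O ↔ g.V v ∈ O') :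
    (nu p).real (TT D' J' O') = (nu p).real (TT D J O) := by
  have hm : MeasurableSet (TT D J O) := (dep_TT hf J O).measurableSet
  rw [← g.prob p hm]
  congr 1
  ext z
  have key : ∀ u v : P2, OC (fun e => z (g.E e)) D u v ↔ OC z D' (g.V u) (g.V v) :=
    fun u v => g.oc_iff hD
  constructor
  · rintro ⟨u, hu, v, hv, u', hu', v', hv', h1, h2, h3⟩
    obtain ⟨u, rfl⟩ := g.V.surjective u
    obtain ⟨v, rfl⟩ := g.V.surjective v
    obtain ⟨u', rfl⟩ := g.V.surjective u'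
    obtain ⟨v', rfl⟩ := g.V.surjective v'
    exact ⟨u, (hI u).2 hu, v, (hO v).2 hv, u', (hI u').2 hu', v', (hO v').2 hv', (key _ _).2 h1,
      (key _ _).2 h2, fun h => h3 ((key _ _).1 h)⟩
  · rintro ⟨u, hu, v, hv, u', hu', v', hv', h1, h2, h3⟩
    exact ⟨g.V u, (hI u).1 hu, g.V v, (hO v).1 hv, g.V u', (hI u').1 hu', g.V v', (hO v').1 hv',
      (key _ _).1 h1, (key _ _).1 h2, fun h => h3 ((key _ _).2 h)⟩

theorem TW_sy (g : Sy) (p : I) {D D' J J' O O' W W' : Set P2} (hf : D.Finite)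
    (hD : ∀ v, v ∈ D ↔ g.V v ∈ D') (hI : ∀ v, v ∈ J ↔ g.V v ∈ J') (hO : ∀ v, v ∈ O ↔ g.V v ∈ O')
    (hW : ∀ v, v ∈ W ↔ g.V v ∈ W') :
    (nu p).real (TW D' J' O' W') = (nu p).real (TW D J O W) := by
  have hm : MeasurableSet (TW D J O W) := (dep_TW hf J O W).measurableSet
  rw [← g.prob p hm]
  congr 1
  ext z
  have key : ∀ u v : P2, OC (fun e => z (g.E e)) D u v ↔ OC z D' (g.V u) (g.V v) :=
    fun u v => g.oc_iff hD
  constructor
  · rintro ⟨u, hu, v, hv, h1, h2⟩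
    obtain ⟨u, rfl⟩ := g.V.surjective u
    obtain ⟨v, rfl⟩ := g.V.surjective v
    refine ⟨u, (hI u).2 hu, v, (hO v).2 hv, (key _ _).2 h1, fun w hw h => ?_⟩
    exact h2 _ ((hW w).1 hw) ((key _ _).1 h)
  · rintro ⟨u, hu, v, hv, h1, h2⟩
    refine ⟨g.V u, (hI u).1 hu, g.V v, (hO v).1 hv, (key _ _).1 h1, fun w hw h => ?_⟩
    obtain ⟨w, rfl⟩ := g.V.surjective w
    exact h2 _ ((hW w).2 hw) ((key _ _).2 h)

/-! ### half annuli -/

theorem TT_HA (z : P2) (s R : ℤ) :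
    TT (HA z s R : Finset P2) {v | sd z v = s} {v | sd z v = R} = TTh z s R := rfl

theorem TW_HA (z : P2) (s R : ℤ) :
    TW (HA z s R : Finset P2) {v | sd z v = s} {v | sd z v = R} {v | v.2 = z.2} ⊆ TWh z s R := by
  rintro y ⟨u, hu, v, hv, h1, h2⟩
  exact ⟨u, hu, v, hv, h1, fun b hb h => h2 b hb h.symm⟩

section Half

variable {p : I} {c : ℝ} {N1 N2 : ℤ} (h : Rsw p c N1 N2) {l R : ℤ} (hl : 1 ≤ l) (hlR : l ≤ R)
  (hN1 : l + 1 ≤ N1) (hN2 : R ≤ N2)

include h hl hlR hN1 hN2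

/-- bottom -/
theorem half_B {z : P2} {D : Set P2} (hD : D = (HA z l R : Finset P2)) :
    (nu p).real (TT D {v | sd z v = l} {v | sd z v = R}) ≤ 160 / c ^ 3 * ((l : ℝ) / R) ∧
    (nu p).real (TW D {v | sd z v = l} {v | sd z v = R} {v | v.2 = z.2}) ≤
      160 / c ^ 3 * ((l : ℝ) / R) := by
  subst hD
  have h1 := two_arm h z hl hlR hN1 hN2
  constructor
  · rw [TT_HA]
    exact (measureReal_mono Set.subset_union_left).trans h1
  · exact (measureReal_mono ((TW_HA z l R).trans Set.subset_union_right)).trans h1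

/-- general position, through a symmetry -/
theorem half_sy (g : Sy) (hsd : ∀ x v, sd (g.V x) (g.V v) = sd x v) {z : P2} {D : Set P2}
    (hD : ∀ v, v ∈ (HA z l R : Finset P2) ↔ g.V v ∈ D) {W : Set P2}
    (hW : ∀ v : P2, v.2 = z.2 ↔ g.V v ∈ W) :
    (nu p).real (TT D {v | sd (g.V z) v = l} {v | sd (g.V z) v = R}) ≤
      160 / c ^ 3 * ((l : ℝ) / R) ∧
    (nu p).real (TW D {v | sd (g.V z) v = l} {v | sd (g.V z) v = R} W) ≤
      160 / c ^ 3 * ((l : ℝ) / R) := by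
  have h1 := half_B h hl hlR hN1 hN2 (z := z) rfl
  constructor
  · rw [TT_sy g p (D := (HA z l R : Finset P2)) (J := {v | sd z v = l}) (O := {v | sd z v = R})
      (Finset.finite_toSet _) hD (fun v => by
        show sd z v = l ↔ sd (g.V z) (g.V v) = l
        rw [hsd]) (fun v => by
        show sd z v = R ↔ sd (g.V z) (g.V v) = R
        rw [hsd])]
    exact h1.1
  · rw [TW_sy g p (D := (HA z l R : Finset P2)) (J := {v | sd z v = l}) (O := {v | sd z v = R})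
      (W := {v | v.2 = z.2})
      (Finset.finite_toSet _) hD (fun v => by
        show sd z v = l ↔ sd (g.V z) (g.V v) = l
        rw [hsd]) (fun v => by
        show sd z v = R ↔ sd (g.V z) (g.V v) = R
        rw [hsd]) hW]
    exact h1.2

end Half

/-! ### composition of symmetries -/

/-- composition -/
def comp (g k : Sy) : Sy where
  V := k.V.trans g.V
  E := k.E.trans g.E
  ok e := by
    show (src (g.E (k.E e)) = g.V (k.V (src e)) ∧ tgt (g.E (k.E e)) = g.V (k.V (tgt e))) ∨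
      (src (g.E (k.E e)) = g.V (k.V (tgt e)) ∧ tgt (g.E (k.E e)) = g.V (k.V (src e)))
    rcases k.ok e with ⟨h1, h2⟩ | ⟨h1, h2⟩ <;> rcases g.ok (k.E e) with ⟨h3, h4⟩ | ⟨h3, h4⟩
    · left; rw [h3, h4, h1, h2]; exact ⟨rfl, rfl⟩
    · right; rw [h3, h4, h1, h2]; exact ⟨rfl, rfl⟩
    · right; rw [h3, h4, h1, h2]; exact ⟨rfl, rfl⟩
    · left; rw [h3, h4, h1, h2]; exact ⟨rfl, rfl⟩

theorem comp_V (g k : Sy) (v : P2) : (comp g k).V v = g.V (k.V v) := rfl

/-! ### the four sides of a rectangle -/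

section Sides

variable {p : I} {c : ℝ} {N1 N2 : ℤ} (h : Rsw p c N1 N2) {l R : ℤ} (hl : 1 ≤ l) (hlR : l ≤ R)
  (hN1 : l + 1 ≤ N1) (hN2 : R ≤ N2)

include h hl hlR hN1 hN2

theorem side_B {b d x : ℤ} (h1 : R ≤ x) (h2 : x + R ≤ b) (h3 : R ≤ d) :
    (nu p).real (TT (Rect 0 b 0 d ∩ An (x, 0) l R) {v | sd (x, 0) v = l} {v | sd (x, 0) v = R}) ≤
      160 / c ^ 3 * ((l : ℝ) / R) := by
  refine (half_B h hl hlR hN1 hN2 (z := (x, 0)) ?_).1
  ext v
  simp only [An, Set.mem_inter_iff, mem_rect, Set.mem_ofPred_eq, Finset.mem_coe, mem_HA]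
  constructor
  · rintro ⟨⟨h4, h5, h6, h7⟩, h8, h9⟩
    exact ⟨h6, h8, h9⟩
  · rintro ⟨h4, h5, h6⟩
    have h7 := sd_le.1 h6
    simp only at h7 h4
    exact ⟨⟨by omega, by omega, by omega, by omega⟩, h5, h6⟩

theorem side_T {b d x : ℤ} (h1 : R ≤ x) (h2 : x + R ≤ b) (h3 : R ≤ d) :
    (nu p).real (TT (Rect 0 b 0 d ∩ An (x, d) l R) {v | sd (x, d) v = l} {v | sd (x, d) v = R}) ≤
      160 / c ^ 3 * ((l : ℝ) / R) := by
  have key := (half_sy h hl hlR hN1 hN2 (syR (Refl.horiz d)) (horiz_sd _) (z := (x, 0))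
    (D := Rect 0 b 0 d ∩ An (x, d) l R) (W := {v | v.2 = d}) ?_ ?_).1
  · rw [horiz_V] at key
    simpa using key
  · intro v
    have e1 : sd (x, d) ((syR (Refl.horiz d)).V v) = sd (x, 0) v := by
      have := horiz_sd d (x, 0) v
      rw [horiz_V d (x, 0)] at this
      simpa using this
    simp only [An, Set.mem_inter_iff, mem_rect, Set.mem_ofPred_eq, mem_HA, e1]
    rw [horiz_V]
    simp only
    constructor
    · rintro ⟨h4, h5, h6⟩
      have h7 := sd_le.1 h6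
      simp only at h7
      exact ⟨⟨by omega, by omega, by omega, by omega⟩, h5, h6⟩
    · rintro ⟨⟨h4, h5, h6, h7⟩, h8, h9⟩
      exact ⟨by omega, h8, h9⟩
  · intro v
    rw [horiz_V]
    simp only [Set.mem_ofPred_eq]
    omega

theorem side_L {b d y : ℤ} (h1 : R ≤ y) (h2 : y + R ≤ d) (h3 : R ≤ b) :
    (nu p).real (TW (Rect 0 b 0 d ∩ An (0, y) l R) {v | sd (0, y) v = l} {v | sd (0, y) v = R}
      {v | v.1 = 0}) ≤ 160 / c ^ 3 * ((l : ℝ) / R) := by
  have key := (half_sy h hl hlR hN1 hN2 (syR (Refl.diag 0)) diag_sd (z := (y, 0))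
    (D := Rect 0 b 0 d ∩ An (0, y) l R) (W := {v | v.1 = 0}) ?_ ?_).2
  · rw [diag_V] at key
    exact key
  · intro v
    have e1 : sd (0, y) ((syR (Refl.diag 0)).V v) = sd (y, 0) v := by
      have := diag_sd (y, 0) v
      rw [diag_V (y, 0)] at this
      exact this
    simp only [An, Set.mem_inter_iff, mem_rect, Set.mem_ofPred_eq, mem_HA, e1]
    rw [diag_V]
    simp only
    constructor
    · rintro ⟨h4, h5, h6⟩
      have h7 := sd_le.1 h6
      simp only at h7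
      exact ⟨⟨by omega, by omega, by omega, by omega⟩, h5, h6⟩
    · rintro ⟨⟨h4, h5, h6, h7⟩, h8, h9⟩
      exact ⟨by omega, h8, h9⟩
  · intro v
    rw [diag_V]
    exact Iff.rfl

theorem side_R {b d y : ℤ} (h1 : R ≤ y) (h2 : y + R ≤ d) (h3 : R ≤ b) :
    (nu p).real (TW (Rect 0 b 0 d ∩ An (b, y) l R) {v | sd (b, y) v = l} {v | sd (b, y) v = R}
      {v | v.1 = b}) ≤ 160 / c ^ 3 * ((l : ℝ) / R) := by
  have hsd : ∀ x v, sd ((comp (syR (Refl.vert b)) (syR (Refl.diag 0))).V x)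
      ((comp (syR (Refl.vert b)) (syR (Refl.diag 0))).V v) = sd x v := by
    intro x v
    rw [comp_V, comp_V, vert_sd, diag_sd]
  have key := (half_sy h hl hlR hN1 hN2 (comp (syR (Refl.vert b)) (syR (Refl.diag 0))) hsd
    (z := (y, 0)) (D := Rect 0 b 0 d ∩ An (b, y) l R) (W := {v | v.1 = b}) ?_ ?_).2
  · rw [comp_V, diag_V, vert_V] at key
    simpa using key
  · intro v
    have e1 : sd (b, y) ((comp (syR (Refl.vert b)) (syR (Refl.diag 0))).V v) = sd (y, 0) v := by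
      have := hsd (y, 0) v
      rw [comp_V _ _ (y, 0), diag_V, vert_V] at this
      simpa using this
    simp only [An, Set.mem_inter_iff, mem_rect, Set.mem_ofPred_eq, mem_HA, e1]
    rw [comp_V, diag_V, vert_V]
    simp only
    constructor
    · rintro ⟨h4, h5, h6⟩
      have h7 := sd_le.1 h6
      simp only at h7
      exact ⟨⟨by omega, by omega, by omega, by omega⟩, h5, h6⟩
    · rintro ⟨⟨h4, h5, h6, h7⟩, h8, h9⟩
      exact ⟨by omega, h8, h9⟩
  · intro v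
    rw [comp_V, diag_V, vert_V]
    simp only [Set.mem_ofPred_eq]
    omega

end Sides

/-! ### pivotal blocks -/

/-- a pivotal block of the grid is a pivotal block of edges -/
theorem pivS_sub (m : ℕ) (k : P2) (A : Set Cf) :
    PivS (blk m) k A ⊆ Ru874.BPiv {e | blk m e = k} A := by
  rintro z ⟨z', hz, hn⟩
  by_cases h1 : z ∈ A
  · have h2 : z' ∉ A := fun h => hn ⟨fun _ => h1, fun _ => h⟩
    exact ⟨z, z', fun _ _ => rfl, fun e he => hz e he, h1, h2⟩
  · have h2 : z' ∈ A := by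
      by_contra h
      exact hn ⟨fun h' => absurd h' h, fun h' => absurd h' h1⟩
    exact ⟨z', z, fun e he => hz e he, fun _ _ => rfl, h2, h1⟩

/-- coordinates of an edge of the block `k` -/
theorem blk_coord {m : ℕ} (hm : 1 ≤ m) {k : P2} {e : Edge} (he : blk m e = k) :
    ((m : ℤ) * k.1 ≤ (src e).1 ∧ (src e).1 ≤ m * k.1 + m - 1) ∧
    ((m : ℤ) * k.2 ≤ (src e).2 ∧ (src e).2 ≤ m * k.2 + m - 1) := by
  have hm0 : (0 : ℤ) < m := by exact_mod_cast hm
  subst he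
  have a3 := Int.emod_nonneg (src e).1 hm0.ne'
  have a4 := Int.emod_lt_of_pos (src e).1 hm0
  have a5 := Int.emod_nonneg (src e).2 hm0.ne'
  have a6 := Int.emod_lt_of_pos (src e).2 hm0
  have a7 := Int.mul_ediv_add_emod (src e).1 m
  have a8 := Int.mul_ediv_add_emod (src e).2 m
  unfold blk
  simp only
  refine ⟨⟨by linarith, by linarith⟩, by linarith, by linarith⟩

theorem tgt_coord (e : Edge) : (src e).1 ≤ (tgt e).1 ∧ (tgt e).1 ≤ (src e).1 + 1 ∧
    (src e).2 ≤ (tgt e).2 ∧ (tgt e).2 ≤ (src e).2 + 1 := by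
  obtain ⟨⟨x, y⟩, b⟩ := e
  cases b <;> simp [src, tgt]

/-- the block is in the open ball of radius `l` around `c0`, with its targets in the closed one -/
theorem blk_ball {m : ℕ} (hm : 1 ≤ m) {k c0 : P2} {l : ℤ}
    (h1 : c0.1 - l < m * k.1) (h2 : (m : ℤ) * k.1 + m - 1 < c0.1 + l)
    (h3 : c0.2 - l < m * k.2) (h4 : (m : ℤ) * k.2 + m - 1 < c0.2 + l) :
    (∀ e ∈ {e : Edge | blk m e = k}, sd c0 (src e) ≤ l ∧ sd c0 (tgt e) ≤ l) ∧
    (∀ e ∈ {e : Edge | blk m e = k}, ¬ (l ≤ sd c0 (src e) ∧ l ≤ sd c0 (tgt e))) := by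
  have key : ∀ e ∈ {e : Edge | blk m e = k}, sd c0 (src e) ≤ l - 1 ∧ sd c0 (tgt e) ≤ l := by
    intro e he
    obtain ⟨⟨a1, a2⟩, a3, a4⟩ := blk_coord hm he
    obtain ⟨b1, b2, b3, b4⟩ := tgt_coord e
    exact ⟨sd_le.2 ⟨by omega, by omega, by omega, by omega⟩,
      sd_le.2 ⟨by omega, by omega, by omega, by omega⟩⟩
  refine ⟨fun e he => ⟨(key e he).1.trans (by omega), (key e he).2⟩, fun e he h => ?_⟩
  have := (key e he).1
  omega

section OneBlock

variable {p : I} {c : ℝ} {N1 N2 : ℤ} (h : Rsw p c N1 N2) {m : ℕ} (hm : 1 ≤ m) {l R : ℤ}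
  (hl : 1 ≤ l) (hlR : l ≤ R) (hN1 : l + 1 ≤ N1) (hN2 : R ≤ N2)

include h hm hl hlR hN1 hN2

/-- a block close to the bottom -/
theorem blk_B {b d : ℤ} {k : P2} (hk0 : 0 ≤ k.2) (hk : (m : ℤ) * k.2 + m - 1 < l)
    (hml : (m : ℤ) ≤ l) (h1 : R ≤ m * k.1) (h2 : m * k.1 + R ≤ b) (h3 : R ≤ d) :
    (nu p).real (PivS (blk m) k (XR 0 b 0 d)) ≤ 160 / c ^ 3 * ((l : ℝ) / R) := by
  have hm0 : (0 : ℤ) < m := by exact_mod_cast hm
  have hk2 : 0 ≤ (m : ℤ) * k.2 := by positivity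
  obtain ⟨hH, hD⟩ := blk_ball hm (k := k) (c0 := ((m : ℤ) * k.1, 0)) (l := l)
    (by simp only; omega) (by simp only; omega) (by simp only; omega) (by simp only; omega)
  refine (measureReal_mono ((pivS_sub m k _).trans ?_)).trans
    (side_B h hl hlR hN1 hN2 (b := b) (d := d) (x := m * k.1) h1 h2 h3)
  unfold XR
  rw [setOf_LRc]
  refine bpiv_TT hlR hH hD ?_ ?_
  · intro a ha
    have ha' : a.1 = 0 := ha
    exact le_sd.2 (by simp only; omega)
  · intro a ha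
    have ha' : a.1 = b := ha
    exact le_sd.2 (by simp only; omega)

/-- a block close to the top -/
theorem blk_T {b d : ℤ} {k : P2} (hk0 : (m : ℤ) * k.2 ≤ d) (hk : d - l < (m : ℤ) * k.2)
    (hml : (m : ℤ) ≤ l) (h1 : R ≤ m * k.1) (h2 : m * k.1 + R ≤ b) (h3 : R ≤ d) :
    (nu p).real (PivS (blk m) k (XR 0 b 0 d)) ≤ 160 / c ^ 3 * ((l : ℝ) / R) := by
  have hm0 : (0 : ℤ) < m := by exact_mod_cast hm
  obtain ⟨hH, hD⟩ := blk_ball hm (k := k) (c0 := ((m : ℤ) * k.1, d)) (l := l)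
    (by simp only; omega) (by simp only; omega) (by simp only; omega) (by simp only; omega)
  refine (measureReal_mono ((pivS_sub m k _).trans ?_)).trans
    (side_T h hl hlR hN1 hN2 (b := b) (d := d) (x := m * k.1) h1 h2 h3)
  unfold XR
  rw [setOf_LRc]
  refine bpiv_TT hlR hH hD ?_ ?_
  · intro a ha
    have ha' : a.1 = 0 := ha
    exact le_sd.2 (by simp only; omega)
  · intro a ha
    have ha' : a.1 = b := ha
    exact le_sd.2 (by simp only; omega)

/-- a block close to the left side -/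
theorem blk_L {b d : ℤ} {k : P2} (hk0 : 0 ≤ k.1) (hk : (m : ℤ) * k.1 + m - 1 < l)
    (hml : (m : ℤ) ≤ l) (h1 : R ≤ m * k.2) (h2 : m * k.2 + R ≤ d) (h3 : R ≤ b) :
    (nu p).real (PivS (blk m) k (XR 0 b 0 d)) ≤ 160 / c ^ 3 * ((l : ℝ) / R) := by
  have hm0 : (0 : ℤ) < m := by exact_mod_cast hm
  have hk2 : 0 ≤ (m : ℤ) * k.1 := by positivity
  obtain ⟨hH, hD⟩ := blk_ball hm (k := k) (c0 := (0, (m : ℤ) * k.2)) (l := l)
    (by simp only; omega) (by simp only; omega) (by simp only; omega) (by simp only; omega)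
  refine (measureReal_mono ((pivS_sub m k _).trans ?_)).trans
    (side_L h hl hlR hN1 hN2 (b := b) (d := d) (y := m * k.2) h1 h2 h3)
  unfold XR
  rw [setOf_LRc]
  refine bpiv_TW hlR hH hD ?_
  intro a ha
  have ha' : a.1 = b := ha
  exact le_sd.2 (by simp only; omega)

/-- a block close to the right side -/
theorem blk_R {b d : ℤ} {k : P2} (hk0 : (m : ℤ) * k.1 ≤ b) (hk : b - l < (m : ℤ) * k.1)
    (hml : (m : ℤ) ≤ l) (h1 : R ≤ m * k.2) (h2 : m * k.2 + R ≤ d) (h3 : R ≤ b) :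
    (nu p).real (PivS (blk m) k (XR 0 b 0 d)) ≤ 160 / c ^ 3 * ((l : ℝ) / R) := by
  have hm0 : (0 : ℤ) < m := by exact_mod_cast hm
  obtain ⟨hH, hD⟩ := blk_ball hm (k := k) (c0 := (b, (m : ℤ) * k.2)) (l := l)
    (by simp only; omega) (by simp only; omega) (by simp only; omega) (by simp only; omega)
  refine (measureReal_mono ((pivS_sub m k _).trans ?_)).trans
    (side_R h hl hlR hN1 hN2 (b := b) (d := d) (y := m * k.2) h1 h2 h3)
  unfold XR
  rw [setOf_LRc]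
  refine bpiv_TW' hlR hH hD ?_
  intro a ha
  have ha' : a.1 = 0 := ha
  exact le_sd.2 (by simp only; omega)

end OneBlock

end Crest.Agent.R158.Bb488
end
end

-- ▼ part R158/Bb2_488

/-!
# Row 158, Block G (helper488): boundary blocks, part 2: counting

* `hypBD : HypBD`
-/

set_option autoImplicit false

noncomputable section

namespace Crest.Agent.R158.Bb488

open MeasureTheory ProbabilityTheory unitInterval
open Crest.ProbabilityR.Percolation (clampUnit)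
open Crest.Agent.R161.Geo729 Crest.Agent.R161.Topo374 Crest.Agent.R161.Dual374
open Crest.Agent.R161.Tas682 Crest.Agent.R158.Rs689 Crest.Agent.R161.Sym597
open Crest.Agent.R158.Ru874 Crest.Agent.R158.Hp814 Crest.Agent.R158.Os488
open Crest.Agent.R158.Fr158 (eIn mem_eIn Pr Pr_nonneg Pr_le_one)
open Crest.Agent.R158.Ld570 (XR bdK Blk HypBD)

/-- the summand -/
def G (m W s n : ℕ) (j : ℤ) : ℝ :=
  (s : ℝ) / (m * (j + 1)) + (s : ℝ) / (W - m * j + m) + (s : ℝ) / n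

theorem G_nonneg {m W s n : ℕ} {j : ℤ} (hj0 : 0 ≤ j) (hj : (m : ℤ) * j ≤ W) :
    0 ≤ G m W s n j := by
  have h1 : (0 : ℝ) ≤ j := by exact_mod_cast hj0
  have h2 : (m : ℝ) * j ≤ W := by exact_mod_cast hj
  have h3 : (0 : ℝ) ≤ (W : ℝ) - m * j + m := by
    have : (0 : ℝ) ≤ m := by positivity
    linarith
  unfold G
  positivity

/-- one block -/
theorem one_block {K P : ℝ} (hK : 1 ≤ K) {m s n W : ℕ} (hm : 1 ≤ m) (hms : m ≤ s) (hsn : s ≤ n)
    {j : ℤ} (hj0 : 0 ≤ j) (hj : (m : ℤ) * j ≤ W) (hP1 : P ≤ 1)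
    (hP : ∀ R : ℤ, 2 * (s : ℤ) ≤ R → R ≤ m * j → m * j + R ≤ W → R ≤ n →
      P ≤ K * (((2 * s : ℤ) : ℝ) / R)) : P ≤ 4 * K * G m W s n j := by
  have hm0 : (1 : ℝ) ≤ m := by exact_mod_cast hm
  have hms0 : (m : ℝ) ≤ s := by exact_mod_cast hms
  have hsn0 : (s : ℝ) ≤ n := by exact_mod_cast hsn
  have hj1 : (0 : ℝ) ≤ j := by exact_mod_cast hj0
  have hj2 : (m : ℝ) * j ≤ W := by exact_mod_cast hj
  have hs0 : (0 : ℝ) < s := by linarith
  have hn0 : (0 : ℝ) < n := by linarith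
  have hmj : (0 : ℝ) ≤ (m : ℝ) * j := by positivity
  have d1 : (0 : ℝ) < (m : ℝ) * (j + 1) := by positivity
  have d2 : (0 : ℝ) < (W : ℝ) - m * j + m := by linarith
  have g1 : 0 ≤ (s : ℝ) / (m * (j + 1)) := by positivity
  have g2 : 0 ≤ (s : ℝ) / (W - m * j + m) := by positivity
  have g3 : 0 ≤ (s : ℝ) / n := by positivity
  -- it is enough to bound by one term
  have key : ∀ t : ℝ, (t = (s : ℝ) / (m * (j + 1)) ∨ t = (s : ℝ) / (W - m * j + m) ∨
      t = (s : ℝ) / n) → P ≤ 4 * K * t → P ≤ 4 * K * G m W s n j := by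
    intro t ht h1
    refine h1.trans (mul_le_mul_of_nonneg_left ?_ (by positivity))
    unfold G
    rcases ht with rfl | rfl | rfl <;> linarith
  set R : ℤ := min (min (m * j) (W - m * j)) n with hR
  have hR1 : R ≤ m * j := (min_le_left _ _).trans (min_le_left _ _)
  have hR2 : R ≤ W - m * j := (min_le_left _ _).trans (min_le_right _ _)
  have hR3 : R ≤ n := min_le_right _ _
  have hRc : R = m * j ∨ R = W - m * j ∨ R = n := by omega
  by_cases h2 : 2 * (s : ℤ) ≤ R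
  · have h3 := hP R h2 hR1 (by omega) hR3
    have h4 : 2 * (s : ℝ) ≤ R := by exact_mod_cast h2
    have hR0 : (0 : ℝ) < R := by linarith
    have h5 : ((2 * s : ℤ) : ℝ) = 2 * s := by push_cast; ring
    rw [h5] at h3
    have fin : ∀ d : ℝ, 0 < d → d ≤ 2 * R → K * (2 * (s : ℝ) / R) ≤ 4 * K * (s / d) := by
      intro d hd hdR
      have : 2 * (s : ℝ) / R ≤ 4 * (s / d) := by
        rw [← mul_div_assoc, div_le_div_iff₀ hR0 hd]
        nlinarith
      calc K * (2 * (s : ℝ) / R) ≤ K * (4 * (s / d)) :=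
            mul_le_mul_of_nonneg_left this (by linarith)
        _ = _ := by ring
    rcases hRc with h6 | h6 | h6
    · refine key _ (Or.inl rfl) (h3.trans (fin _ d1 ?_))
      have : (R : ℝ) = m * j := by rw [h6]; push_cast; ring
      rw [this] at h4 ⊢
      nlinarith
    · refine key _ (Or.inr (Or.inl rfl)) (h3.trans (fin _ d2 ?_))
      have : (R : ℝ) = W - m * j := by rw [h6]; push_cast; ring
      rw [this] at h4 ⊢
      linarith
    · refine key _ (Or.inr (Or.inr rfl)) (h3.trans (fin _ hn0 ?_))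
      have : (R : ℝ) = n := by rw [h6]; push_cast; ring
      rw [this]
      linarith
  · have h4 : (R : ℝ) < 2 * s := by
      have : R < 2 * (s : ℤ) := not_le.1 h2
      exact_mod_cast this
    have fin : ∀ d : ℝ, 0 < d → d ≤ 4 * s → P ≤ 4 * K * (s / d) := by
      intro d hd hds
      have : 1 ≤ 4 * (s / d) := by
        rw [← mul_div_assoc, le_div_iff₀ hd]
        linarith
      refine hP1.trans ?_
      calc (1 : ℝ) = 1 * 1 := by ring
        _ ≤ K * (4 * (s / d)) := mul_le_mul hK this (by norm_num) (by linarith)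
        _ = _ := by ring
    rcases hRc with h6 | h6 | h6
    · refine key _ (Or.inl rfl) (fin _ d1 ?_)
      have : (R : ℝ) = m * j := by rw [h6]; push_cast; ring
      rw [this] at h4
      linarith
    · refine key _ (Or.inr (Or.inl rfl)) (fin _ d2 ?_)
      have : (R : ℝ) = W - m * j := by rw [h6]; push_cast; ring
      rw [this] at h4
      linarith
    · refine key _ (Or.inr (Or.inr rfl)) (fin _ hn0 ?_)
      have : (R : ℝ) = n := by rw [h6]; push_cast; ring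
      rw [this] at h4
      linarith

/-- sums over integer intervals -/
theorem sum_Icc_int (M : ℕ) (g : ℤ → ℝ) :
    ∑ j ∈ Finset.Icc (0 : ℤ) M, g j = ∑ i ∈ Finset.range (M + 1), g i := by
  refine (Finset.sum_nbij (fun i : ℕ => (i : ℤ)) ?_ ?_ ?_ fun _ _ => rfl).symm
  · intro i hi
    rw [Finset.mem_range] at hi
    rw [Finset.mem_Icc]
    exact ⟨by omega, by omega⟩
  · intro a _ b _ h
    have h' : (a : ℤ) = (b : ℤ) := h
    exact_mod_cast h'
  · intro j hj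
    rw [Finset.coe_Icc, Set.mem_Icc] at hj
    refine ⟨j.toNat, ?_, ?_⟩
    · rw [Finset.mem_coe, Finset.mem_range]
      omega
    · show ((j.toNat : ℕ) : ℤ) = j
      omega

/-- harmonic sum -/
theorem harm (M : ℕ) : ∑ i ∈ Finset.range (M + 1), (1 : ℝ) / ((i : ℝ) + 1) ≤
    1 + Real.log ((M : ℝ) + 1) := by
  have h1 := harmonic_le_one_add_log (M + 1)
  have h2 : ((harmonic (M + 1) : ℚ) : ℝ) = ∑ i ∈ Finset.range (M + 1), (1 : ℝ) / ((i : ℝ) + 1) := by
    unfold harmonic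
    push_cast
    exact Finset.sum_congr rfl fun i _ => (one_div _).symm
  rw [h2] at h1
  exact_mod_cast h1

theorem sum_G {m W s n : ℕ} (hm : 1 ≤ m) (hms : m ≤ s) (hsn : s ≤ n) (hW : W ≤ 3 * n) :
    ∑ j ∈ Finset.Icc (0 : ℤ) ((W : ℤ) / m), G m W s n j ≤
      10 * ((s : ℝ) / m) * (1 + Real.log ((n : ℝ) / m)) := by
  have hm0 : (1 : ℝ) ≤ m := by exact_mod_cast hm
  have hms0 : (m : ℝ) ≤ s := by exact_mod_cast hms
  have hsn0 : (s : ℝ) ≤ n := by exact_mod_cast hsn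
  have hmp : (0 : ℝ) < m := by linarith
  have hsp : (0 : ℝ) < s := by linarith
  have hnp : (0 : ℝ) < n := by linarith
  have hmn0 : (m : ℝ) ≤ n := by linarith
  set M : ℕ := W / m with hM
  have e0 : (W : ℤ) / m = (M : ℕ) := by rw [hM]; push_cast; rfl
  have hMW : m * M ≤ W := Nat.mul_div_le W m
  have hMW' : (m : ℝ) * M ≤ W := by exact_mod_cast hMW
  have hW' : (W : ℝ) ≤ 3 * n := by exact_mod_cast hW
  have hM1 : (M : ℝ) + 1 ≤ 4 * ((n : ℝ) / m) := by
    rw [← mul_div_assoc, le_div_iff₀ hmp]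
    nlinarith
  rw [e0, sum_Icc_int]
  -- the three sums
  set H := ∑ i ∈ Finset.range (M + 1), (1 : ℝ) / ((i : ℝ) + 1) with hH
  have hH0 := harm M
  have hL0 : 0 ≤ Real.log ((n : ℝ) / m) := Real.log_nonneg (by
    rw [le_div_iff₀ hmp]
    linarith)
  have hlog : Real.log ((M : ℝ) + 1) ≤ 1.4 + Real.log ((n : ℝ) / m) := by
    have h1 : Real.log ((M : ℝ) + 1) ≤ Real.log (4 * ((n : ℝ) / m)) :=
      Real.log_le_log (by positivity) hM1
    rw [Real.log_mul (by norm_num) (by positivity)] at h1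
    have h2 : Real.log 4 ≤ 1.4 := by
      have h3 : Real.log 4 = 2 * Real.log 2 := by
        rw [show (4 : ℝ) = 2 ^ 2 by norm_num, Real.log_pow]
        push_cast
        ring
      have h4 := Real.log_two_lt_d9
      rw [h3]
      linarith
    linarith
  have t1 : ∑ i ∈ Finset.range (M + 1), (s : ℝ) / (m * (((i : ℕ) : ℤ) + 1)) = (s : ℝ) / m * H := by
    rw [hH, Finset.mul_sum]
    refine Finset.sum_congr rfl fun i _ => ?_
    have : (0 : ℝ) < (i : ℝ) + 1 := by positivity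
    push_cast
    field_simp
  have t2 : ∑ i ∈ Finset.range (M + 1), (s : ℝ) / (W - m * ((i : ℕ) : ℤ) + m) ≤
      (s : ℝ) / m * H := by
    rw [hH, Finset.mul_sum,
      ← Finset.sum_range_reflect (fun i : ℕ => (s : ℝ) / m * (1 / ((i : ℝ) + 1))) (M + 1)]
    refine Finset.sum_le_sum fun i hi => ?_
    rw [Finset.mem_range] at hi
    have h1 : ((M + 1 - 1 - i : ℕ) : ℝ) = M - i := by
      rw [Nat.add_sub_cancel, Nat.cast_sub (by omega)]
    rw [h1]
    have h2 : (i : ℝ) ≤ M := by exact_mod_cast (by omega : i ≤ M)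
    have h3 : (0 : ℝ) < (M : ℝ) - i + 1 := by linarith
    have h4 : (m : ℝ) * ((M : ℝ) - i + 1) ≤ W - m * i + m := by linarith
    have h5 : (0 : ℝ) < m * ((M : ℝ) - i + 1) := by positivity
    push_cast
    calc (s : ℝ) / (W - m * i + m) ≤ s / (m * ((M : ℝ) - i + 1)) :=
          div_le_div_of_nonneg_left hsp.le h5 h4
      _ = _ := by field_simp
  have t3 : ∑ _i ∈ Finset.range (M + 1), (s : ℝ) / n ≤ 4 * ((s : ℝ) / m) := by
    rw [Finset.sum_const, Finset.card_range, nsmul_eq_mul]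
    push_cast
    calc ((M : ℝ) + 1) * (s / n) ≤ 4 * ((n : ℝ) / m) * (s / n) :=
          mul_le_mul_of_nonneg_right hM1 (by positivity)
      _ = _ := by field_simp
  have e1 : ∑ i ∈ Finset.range (M + 1), G m W s n ((i : ℕ) : ℤ) =
      ∑ i ∈ Finset.range (M + 1), (s : ℝ) / (m * (((i : ℕ) : ℤ) + 1)) +
      ∑ i ∈ Finset.range (M + 1), (s : ℝ) / (W - m * ((i : ℕ) : ℤ) + m) +
      ∑ _i ∈ Finset.range (M + 1), (s : ℝ) / n := by
    rw [← Finset.sum_add_distrib, ← Finset.sum_add_distrib]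
    rfl
  rw [e1, t1]
  have hH1 : H ≤ 2.4 + Real.log ((n : ℝ) / m) := by linarith
  have hq : 0 < (s : ℝ) / m := by positivity
  calc (s : ℝ) / m * H + ∑ i ∈ Finset.range (M + 1), (s : ℝ) / (W - m * ((i : ℕ) : ℤ) + m) +
        ∑ _i ∈ Finset.range (M + 1), (s : ℝ) / n
      ≤ (s : ℝ) / m * H + (s : ℝ) / m * H + 4 * ((s : ℝ) / m) := by linarith
    _ = (s : ℝ) / m * (2 * H + 4) := by ring
    _ ≤ (s : ℝ) / m * (10 * (1 + Real.log ((n : ℝ) / m))) :=
        mul_le_mul_of_nonneg_left (by linarith) hq.le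
    _ = _ := by ring

/-! ### strips -/

theorem strip1 {T : Finset P2} {a b M : ℤ} {f : P2 → ℝ} {g : ℤ → ℝ}
    (hT : ∀ k ∈ T, (a ≤ k.1 ∧ k.1 ≤ b) ∧ 0 ≤ k.2 ∧ k.2 ≤ M) (hf : ∀ k ∈ T, f k ≤ g k.2)
    (hg : ∀ j ∈ Finset.Icc (0 : ℤ) M, 0 ≤ g j) {N : ℝ} (hN : ((b - a + 1).toNat : ℝ) ≤ N) {B : ℝ}
    (hB : ∑ j ∈ Finset.Icc (0 : ℤ) M, g j ≤ B) : ∑ k ∈ T, f k ≤ N * B := by
  have h0 : 0 ≤ ∑ j ∈ Finset.Icc (0 : ℤ) M, g j := Finset.sum_nonneg hg
  calc ∑ k ∈ T, f k ≤ ∑ k ∈ T, g k.2 := Finset.sum_le_sum hf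
    _ ≤ ∑ k ∈ Finset.Icc a b ×ˢ Finset.Icc (0 : ℤ) M, g k.2 := by
        refine Finset.sum_le_sum_of_subset_of_nonneg (fun k hk => ?_) fun k hk _ => ?_
        · rw [Finset.mem_product, Finset.mem_Icc, Finset.mem_Icc]
          exact hT k hk
        · exact hg _ (Finset.mem_product.1 hk).2
    _ = (b - a + 1).toNat * ∑ j ∈ Finset.Icc (0 : ℤ) M, g j := by
        rw [Finset.sum_product]
        simp only
        rw [Finset.sum_const, Int.card_Icc, nsmul_eq_mul]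
        congr 3
        ring
    _ ≤ N * B := mul_le_mul hN hB h0 ((Nat.cast_nonneg _).trans hN)

theorem strip2 {T : Finset P2} {a b M : ℤ} {f : P2 → ℝ} {g : ℤ → ℝ}
    (hT : ∀ k ∈ T, (a ≤ k.2 ∧ k.2 ≤ b) ∧ 0 ≤ k.1 ∧ k.1 ≤ M) (hf : ∀ k ∈ T, f k ≤ g k.1)
    (hg : ∀ j ∈ Finset.Icc (0 : ℤ) M, 0 ≤ g j) {N : ℝ} (hN : ((b - a + 1).toNat : ℝ) ≤ N) {B : ℝ}
    (hB : ∑ j ∈ Finset.Icc (0 : ℤ) M, g j ≤ B) : ∑ k ∈ T, f k ≤ N * B := by
  have h1 := strip1 (T := T.map (Equiv.prodComm ℤ ℤ).toEmbedding) (f := fun k => f k.swap) (g := g)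
    (a := a) (b := b) (M := M) (by
      intro k hk
      rw [Finset.mem_map_equiv] at hk
      exact hT _ hk) (by
      intro k hk
      rw [Finset.mem_map_equiv] at hk
      exact hf _ hk) hg hN hB
  rw [Finset.sum_map] at h1
  simpa using h1

theorem sum_union_le' {T U : Finset P2} {f : P2 → ℝ} (hf : ∀ k, 0 ≤ f k) :
    ∑ k ∈ T ∪ U, f k ≤ ∑ k ∈ T, f k + ∑ k ∈ U, f k := by
  rw [← Finset.sum_union_inter]
  have : 0 ≤ ∑ k ∈ T ∩ U, f k := Finset.sum_nonneg fun k _ => hf k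
  linarith

/-- membership in `bdK` -/
theorem mem_bdK {m : ℕ} (hm : 1 ≤ m) {b d s : ℤ} {k : P2} (hk : k ∈ bdK m 0 b 0 d s) :
    (0 ≤ k.1 ∧ (m : ℤ) * k.1 ≤ b) ∧ (0 ≤ k.2 ∧ (m : ℤ) * k.2 ≤ d) ∧
    ((m : ℤ) * k.1 < s ∨ b - s < m * k.1 + m - 1 ∨ (m : ℤ) * k.2 < s ∨
      d - s < m * k.2 + m - 1) := by
  classical
  have hm0 : (0 : ℤ) < m := by exact_mod_cast hm
  unfold bdK at hk
  rw [Finset.mem_filter, Finset.mem_image] at hk
  obtain ⟨⟨e0, h0, h1⟩, h2⟩ := hk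
  unfold rS at h0
  rw [mem_eIn, mem_rV, mem_rV, mem_rect, mem_rect] at h0
  obtain ⟨⟨a1, a2⟩, a3, a4⟩ := blk_coord hm h1
  push Not at h2
  obtain ⟨e, h3, h4⟩ := h2
  obtain ⟨⟨b1, b2⟩, b3, b4⟩ := blk_coord hm h3
  have c1 : 0 ≤ k.1 := by
    by_contra h
    have : k.1 ≤ -1 := by omega
    have : (m : ℤ) * k.1 ≤ m * (-1) := mul_le_mul_of_nonneg_left this hm0.le
    omega
  have c2 : 0 ≤ k.2 := by
    by_contra h
    have : k.2 ≤ -1 := by omega
    have : (m : ℤ) * k.2 ≤ m * (-1) := mul_le_mul_of_nonneg_left this hm0.le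
    omega
  refine ⟨⟨c1, by omega⟩, ⟨c2, by omega⟩, ?_⟩
  unfold Ld570.Blk at h4
  omega

/-- number of rows of a strip -/
theorem rows_low {m s : ℕ} (hm : 1 ≤ m) (hms : m ≤ s) :
    ((((s : ℤ) / m) - 0 + 1).toNat : ℝ) ≤ 4 * ((s : ℝ) / m) := by
  have hm0 : (0 : ℤ) < m := by exact_mod_cast hm
  have hmp : (0 : ℝ) < m := by exact_mod_cast hm
  rw [← mul_div_assoc, le_div_iff₀ hmp]
  have h1 : (0 : ℤ) ≤ (s : ℤ) / m := Int.ediv_nonneg (by omega) hm0.le
  have h2 : (((s : ℤ) / m) - 0 + 1).toNat * (m : ℤ) ≤ 4 * s := by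
    rw [Int.toNat_of_nonneg (by omega)]
    have h3 : (s : ℤ) / m * m ≤ s := Int.ediv_mul_le _ hm0.ne'
    have h4 : (m : ℤ) ≤ s := by exact_mod_cast hms
    nlinarith
  exact_mod_cast h2

theorem rows_high {m s W : ℕ} (hm : 1 ≤ m) (hms : m ≤ s) :
    ((((W : ℤ) / m) - ((W : ℤ) - 2 * s) / m + 1).toNat : ℝ) ≤ 4 * ((s : ℝ) / m) := by
  have hm0 : (0 : ℤ) < m := by exact_mod_cast hm
  have hmp : (0 : ℝ) < m := by exact_mod_cast hm
  rw [← mul_div_assoc, le_div_iff₀ hmp]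
  have h1 : ((W : ℤ) - 2 * s) / m ≤ (W : ℤ) / m := Int.ediv_le_ediv hm0 (by omega)
  have h2 : (((W : ℤ) / m) - ((W : ℤ) - 2 * s) / m + 1).toNat * (m : ℤ) ≤ 4 * s := by
    rw [Int.toNat_of_nonneg (by omega)]
    have h3 : (W : ℤ) / m * m ≤ W := Int.ediv_mul_le _ hm0.ne'
    have h4 : (m : ℤ) ≤ s := by exact_mod_cast hms
    have h5 := Int.lt_ediv_add_one_mul_self ((W : ℤ) - 2 * s) hm0
    nlinarith
  exact_mod_cast h2

/-- **(BD)** boundary blocks -/
theorem hypBD : HypBD := by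
  obtain ⟨c0, hc0, hc1, hbelow⟩ := rsw_below
  intro c hc
  set c' := cR (min c c0) with hc'
  have hcp : 0 < c' := cR_pos (lt_min hc hc0)
  have hcl : c' ≤ 1 := (cR_le_half (lt_min hc hc0) ((min_le_right _ _).trans hc1)).trans
    (by norm_num)
  set K : ℝ := 160 / c' ^ 3 with hK
  have hK1 : 1 ≤ K := by
    have h1 : c' ^ 3 ≤ 1 := pow_le_one₀ hcp.le hcl
    rw [hK, le_div_iff₀ (by positivity)]
    linarith
  refine ⟨4 * (4 * (4 * K * 10)), by positivity, fun q hq0 hq m s n hm hms hsn hR => ?_⟩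
  have hm0 : (1 : ℝ) ≤ m := by exact_mod_cast hm
  have hmp : (0 : ℝ) < m := by linarith
  have hmpz : (0 : ℤ) < m := by exact_mod_cast hm
  have hms' : (m : ℤ) ≤ s := by exact_mod_cast hms
  have hqh : clampUnit q ≤ hf := by
    rw [← clampUnit_half]
    exact Set.monotone_projIcc _ hq
  have hRs := hbelow (clampUnit q) hqh c ((16 * s : ℕ) : ℤ) hc (rs_primal hR)
  set f : P2 → ℝ := fun k => Pr q (PivS (blk m) k (XR 0 n 0 (3 * n))) with hf'
  have hf0 : ∀ k, 0 ≤ f k := fun k => Pr_nonneg _ _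
  have hf1 : ∀ k, f k ≤ 1 := fun k => Pr_le_one _ _
  classical
  set B := bdK m 0 n 0 (3 * n) s with hB
  set T1 := B.filter fun k => (m : ℤ) * k.1 < s with hT1
  set T2 := B.filter fun k => (n : ℤ) - s < m * k.1 + m - 1 with hT2
  set T3 := B.filter fun k => (m : ℤ) * k.2 < s with hT3
  set T4 := B.filter fun k => (3 * n : ℤ) - s < m * k.2 + m - 1 with hT4
  have hsub : B ⊆ (T1 ∪ T2) ∪ (T3 ∪ T4) := by
    intro k hk
    have h1 := (mem_bdK hm hk).2.2
    rw [Finset.mem_union, Finset.mem_union, Finset.mem_union, hT1, hT2, hT3, hT4,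
      Finset.mem_filter, Finset.mem_filter, Finset.mem_filter, Finset.mem_filter]
    tauto
  have hsum : ∑ k ∈ B, f k ≤ (∑ k ∈ T1, f k + ∑ k ∈ T2, f k) + (∑ k ∈ T3, f k + ∑ k ∈ T4, f k) := by
    refine (Finset.sum_le_sum_of_subset_of_nonneg hsub fun k _ _ => hf0 k).trans ?_
    refine (sum_union_le' hf0).trans ?_
    exact add_le_add (sum_union_le' hf0) (sum_union_le' hf0)
  -- the four strips
  set X : ℝ := 4 * ((s : ℝ) / m) * (4 * K * (10 * ((s : ℝ) / m) *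
    (1 + Real.log ((n : ℝ) / m)))) with hX
  have hidx : ∀ {W : ℕ} {j : ℤ}, 0 ≤ j → (m : ℤ) * j ≤ W → j ≤ (W : ℤ) / m := by
    intro W j _ h
    rw [Int.le_ediv_iff_mul_le hmpz]
    linarith
  have hidx' : ∀ {W : ℕ} {j : ℤ}, j ∈ Finset.Icc (0 : ℤ) ((W : ℤ) / m) →
      0 ≤ j ∧ (m : ℤ) * j ≤ W := by
    intro W j hj
    rw [Finset.mem_Icc, Int.le_ediv_iff_mul_le hmpz] at hj
    exact ⟨hj.1, by linarith [hj.2]⟩
  have hGn : ∀ {W : ℕ}, ∀ j ∈ Finset.Icc (0 : ℤ) ((W : ℤ) / m), 0 ≤ 4 * K * G m W s n j := by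
    intro W j hj
    obtain ⟨h1, h2⟩ := hidx' hj
    have := G_nonneg (s := s) (n := n) h1 h2
    positivity
  have hGs : ∀ {W : ℕ}, W ≤ 3 * n → ∑ j ∈ Finset.Icc (0 : ℤ) ((W : ℤ) / m), 4 * K * G m W s n j ≤
      4 * K * (10 * ((s : ℝ) / m) * (1 + Real.log ((n : ℝ) / m))) := by
    intro W hW
    rw [← Finset.mul_sum]
    exact mul_le_mul_of_nonneg_left (sum_G hm hms hsn hW) (by positivity)
  have e3n : (((3 * n : ℕ) : ℕ) : ℤ) = 3 * (n : ℤ) := by push_cast; ring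
  have s1 : ∑ k ∈ T1, f k ≤ X := by
    refine strip1 (a := 0) (b := (s : ℤ) / m) (M := ((3 * n : ℕ) : ℤ) / m)
      (g := fun j => 4 * K * G m (3 * n) s n j) ?_ ?_ hGn (rows_low hm hms) (hGs le_rfl)
    · intro k hk
      rw [hT1, Finset.mem_filter] at hk
      obtain ⟨⟨a1, a2⟩, ⟨a3, a4⟩, -⟩ := mem_bdK hm hk.1
      exact ⟨⟨a1, hidx a1 hk.2.le⟩, a3, hidx a3 (by rw [e3n]; exact a4)⟩
    · intro k hk
      rw [hT1, Finset.mem_filter] at hk
      obtain ⟨⟨a1, a2⟩, ⟨a3, a4⟩, -⟩ := mem_bdK hm hk.1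
      refine one_block hK1 hm hms hsn a3 (by rw [e3n]; exact a4) (hf1 k) fun R h1 h2 h3 h4 => ?_
      exact blk_L (hRs R) hm (l := 2 * (s : ℤ)) (by omega) h1 (by push_cast; omega) le_rfl a1
        (by omega) (by omega) h2 (by rw [e3n] at h3; exact h3) h4
  have s2 : ∑ k ∈ T2, f k ≤ X := by
    refine strip1 (a := ((n : ℤ) - 2 * s) / m) (b := (n : ℤ) / m) (M := ((3 * n : ℕ) : ℤ) / m)
      (g := fun j => 4 * K * G m (3 * n) s n j) ?_ ?_ hGn (rows_high hm hms) (hGs le_rfl)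
    · intro k hk
      rw [hT2, Finset.mem_filter] at hk
      obtain ⟨⟨a1, a2⟩, ⟨a3, a4⟩, -⟩ := mem_bdK hm hk.1
      refine ⟨⟨?_, hidx a1 a2⟩, a3, hidx a3 (by rw [e3n]; exact a4)⟩
      rw [← Int.lt_add_one_iff, Int.ediv_lt_iff_lt_mul hmpz]
      have h1 : (k.1 + 1) * (m : ℤ) = m * k.1 + m := by ring
      rw [h1]
      omega
    · intro k hk
      rw [hT2, Finset.mem_filter] at hk
      obtain ⟨⟨a1, a2⟩, ⟨a3, a4⟩, -⟩ := mem_bdK hm hk.1
      refine one_block hK1 hm hms hsn a3 (by rw [e3n]; exact a4) (hf1 k) fun R h1 h2 h3 h4 => ?_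
      exact blk_R (hRs R) hm (l := 2 * (s : ℤ)) (by omega) h1 (by push_cast; omega) le_rfl a2
        (by omega) (by omega) h2 (by rw [e3n] at h3; exact h3) h4
  have s3 : ∑ k ∈ T3, f k ≤ X := by
    refine strip2 (a := 0) (b := (s : ℤ) / m) (M := (n : ℤ) / m)
      (g := fun j => 4 * K * G m n s n j) ?_ ?_ hGn (rows_low hm hms) (hGs (by omega))
    · intro k hk
      rw [hT3, Finset.mem_filter] at hk
      obtain ⟨⟨a1, a2⟩, ⟨a3, a4⟩, -⟩ := mem_bdK hm hk.1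
      exact ⟨⟨a3, hidx a3 hk.2.le⟩, a1, hidx a1 a2⟩
    · intro k hk
      rw [hT3, Finset.mem_filter] at hk
      obtain ⟨⟨a1, a2⟩, ⟨a3, a4⟩, -⟩ := mem_bdK hm hk.1
      refine one_block hK1 hm hms hsn a1 a2 (hf1 k) fun R h1 h2 h3 h4 => ?_
      exact blk_B (hRs R) hm (l := 2 * (s : ℤ)) (by omega) h1 (by push_cast; omega) le_rfl a3
        (by omega) (by omega) h2 h3 (by omega)
  have s4 : ∑ k ∈ T4, f k ≤ X := by
    refine strip2 (a := (((3 * n : ℕ) : ℤ) - 2 * s) / m) (b := ((3 * n : ℕ) : ℤ) / m)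
      (M := (n : ℤ) / m)
      (g := fun j => 4 * K * G m n s n j) ?_ ?_ hGn (rows_high hm hms) (hGs (by omega))
    · intro k hk
      rw [hT4, Finset.mem_filter] at hk
      obtain ⟨⟨a1, a2⟩, ⟨a3, a4⟩, -⟩ := mem_bdK hm hk.1
      refine ⟨⟨?_, hidx a3 (by rw [e3n]; exact a4)⟩, a1, hidx a1 a2⟩
      rw [← Int.lt_add_one_iff, Int.ediv_lt_iff_lt_mul hmpz]
      have h1 : (k.2 + 1) * (m : ℤ) = m * k.2 + m := by ring
      rw [h1, e3n]
      omega
    · intro k hk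
      rw [hT4, Finset.mem_filter] at hk
      obtain ⟨⟨a1, a2⟩, ⟨a3, a4⟩, -⟩ := mem_bdK hm hk.1
      refine one_block hK1 hm hms hsn a1 a2 (hf1 k) fun R h1 h2 h3 h4 => ?_
      exact blk_T (hRs R) hm (l := 2 * (s : ℤ)) (by omega) h1 (by push_cast; omega) le_rfl a4
        (by omega) (by omega) h2 h3 (by omega)
  have hfin : ∑ k ∈ B, f k ≤ 4 * X := by linarith
  refine hfin.trans (le_of_eq ?_)
  rw [hX]
  ring

end Crest.Agent.R158.Bb488
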