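import Mathlib
import Crest.Agent.R158.Bk0_430

-- ▼ part R158/Ts1_405
section

/-!
# R158, T1 part 1: non crossing matchings of a half plane (abstract strand diagrams)

A diagram: at every integer level `t` (between the levels `t` and `t+1`) at most one generator
`g t = some q` (a cap on the lower strands `q, q+1` and a cup on the upper strands `q, q+1`).
`mt g K p` = position where the path entering the slab `0..K` from above at `p` comes back to the
top (or `none`).  It is an involution without fixed points and non crossing, and the rotation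
number of the path is `sign (j - p)` (`0` for a path through the slab).
-/

set_option autoImplicit false

namespace Crest.Agent.R158.Ts405

/-- fixed point free partial involution -/
def Inv (m : ℤ → Option ℤ) : Prop := ∀ p j, m p = some j → m j = some p ∧ j ≠ p

/-- non crossing: everything below an arc is matched below the arc -/
def NC (m : ℤ → Option ℤ) : Prop :=
  ∀ p j, m p = some j → ∀ l, p < l → l < j → ∃ l', m l = some l' ∧ p < l' ∧ l' < j

/-- add the generator `q` on top -/
def ap (q : ℤ) (m : ℤ → Option ℤ) (p : ℤ) : Option ℤ :=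
  if p = q then some (q + 1) else if p = q + 1 then some q else
    match m p with
    | none => none
    | some j => if j = q then m (q + 1) else if j = q + 1 then m q else some j

theorem ap_q (q : ℤ) (m : ℤ → Option ℤ) : ap q m q = some (q + 1) := by simp [ap]

theorem ap_q1 (q : ℤ) (m : ℤ → Option ℤ) : ap q m (q + 1) = some q := by simp [ap]

theorem ap_none {q p : ℤ} {m : ℤ → Option ℤ} (h1 : p ≠ q) (h2 : p ≠ q + 1) (h : m p = none) :
    ap q m p = none := by simp [ap, h1, h2, h]

theorem ap_other {q p j : ℤ} {m : ℤ → Option ℤ} (h1 : p ≠ q) (h2 : p ≠ q + 1)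
    (h : m p = some j) (h3 : j ≠ q) (h4 : j ≠ q + 1) : ap q m p = some j := by
  simp [ap, h1, h2, h, h3, h4]

theorem ap_left {q p : ℤ} {m : ℤ → Option ℤ} (h1 : p ≠ q) (h2 : p ≠ q + 1)
    (h : m p = some q) : ap q m p = m (q + 1) := by simp [ap, h1, h2, h]

theorem ap_right {q p : ℤ} {m : ℤ → Option ℤ} (h1 : p ≠ q) (h2 : p ≠ q + 1)
    (h : m p = some (q + 1)) : ap q m p = m q := by simp [ap, h1, h2, h]

/-- case analysis for `ap q m p = some j` -/
theorem ap_cases {q p j : ℤ} {m : ℤ → Option ℤ} (h : ap q m p = some j) :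
    (p = q ∧ j = q + 1) ∨ (p = q + 1 ∧ j = q) ∨
    (p ≠ q ∧ p ≠ q + 1 ∧
      ((m p = some j ∧ j ≠ q ∧ j ≠ q + 1) ∨ (m p = some q ∧ m (q + 1) = some j) ∨
        (m p = some (q + 1) ∧ m q = some j))) := by
  by_cases h1 : p = q
  · left
    subst h1
    rw [ap_q] at h
    exact ⟨rfl, (Option.some.inj h).symm⟩
  by_cases h2 : p = q + 1
  · right; left
    subst h2
    rw [ap_q1] at h
    exact ⟨rfl, (Option.some.inj h).symm⟩
  right; right
  refine ⟨h1, h2, ?_⟩
  rcases hm : m p with _ | j0
  · rw [ap_none h1 h2 hm] at h; exact absurd h (by simp)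
  · by_cases h3 : j0 = q
    · subst h3
      rw [ap_left h1 h2 hm] at h
      right; left; exact ⟨rfl, h⟩
    · by_cases h4 : j0 = q + 1
      · subst h4
        rw [ap_right h1 h2 hm] at h
        right; right; exact ⟨rfl, h⟩
      · rw [ap_other h1 h2 hm h3 h4] at h
        have := Option.some.inj h
        subst this
        left; exact ⟨rfl, h3, h4⟩

theorem inv_ap {m : ℤ → Option ℤ} (hi : Inv m) (q : ℤ) : Inv (ap q m) := by
  intro p j h
  rcases ap_cases h with ⟨rfl, rfl⟩ | ⟨rfl, rfl⟩ | ⟨h1, h2, h3⟩
  · exact ⟨ap_q1 _ _, by omega⟩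
  · exact ⟨ap_q _ _, by omega⟩
  · rcases h3 with ⟨h4, h5, h6⟩ | ⟨h4, h5⟩ | ⟨h4, h5⟩
    · obtain ⟨h7, h8⟩ := hi _ _ h4
      exact ⟨ap_other h5 h6 h7 h1 h2, h8⟩
    · obtain ⟨h7, h8⟩ := hi _ _ h4
      obtain ⟨h9, h10⟩ := hi _ _ h5
      -- j ≠ q : else m q = some (q+1), p = q+1
      have hjq : j ≠ q := by
        rintro rfl
        rw [h7] at h9
        exact h2 (Option.some.inj h9)
      refine ⟨?_, ?_⟩
      · rw [ap_right hjq h10 h9, h7]
      · rintro rfl
        rw [h9] at h4
        have := Option.some.inj h4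
        omega
    · obtain ⟨h7, h8⟩ := hi _ _ h4
      obtain ⟨h9, h10⟩ := hi _ _ h5
      have hjq : j ≠ q + 1 := by
        rintro rfl
        rw [h7] at h9
        exact h1 (Option.some.inj h9)
      refine ⟨?_, ?_⟩
      · rw [ap_left h10 hjq h9, h7]
      · rintro rfl
        rw [h9] at h4
        have := Option.some.inj h4
        omega

theorem nc_ap {m : ℤ → Option ℤ} (hi : Inv m) (hn : NC m) (q : ℤ) : NC (ap q m) := by
  intro p j h l hpl hlj
  rcases ap_cases h with ⟨rfl, rfl⟩ | ⟨rfl, rfl⟩ | ⟨h1, h2, h3⟩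
  · omega
  · omega
  · rcases h3 with ⟨h4, h5, h6⟩ | ⟨h4, h5⟩ | ⟨h4, h5⟩
    · by_cases hlq : l = q
      · subst hlq
        exact ⟨l + 1, ap_q _ _, by omega, by omega⟩
      by_cases hlq1 : l = q + 1
      · subst hlq1
        exact ⟨q, ap_q1 _ _, by omega, by omega⟩
      obtain ⟨l', h7, h8, h9⟩ := hn _ _ h4 l hpl hlj
      by_cases h10 : l' = q
      · subst h10
        obtain ⟨l'', h11, h12, h13⟩ := hn _ _ h4 (l' + 1) (by omega) (by omega)
        exact ⟨l'', by rw [ap_left hlq hlq1 h7, h11], h12, h13⟩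
      by_cases h10' : l' = q + 1
      · subst h10'
        obtain ⟨l'', h11, h12, h13⟩ := hn _ _ h4 q (by omega) (by omega)
        exact ⟨l'', by rw [ap_right hlq hlq1 h7, h11], h12, h13⟩
      exact ⟨l', ap_other hlq hlq1 h7 h10 h10', h8, h9⟩
    · -- p matched with q, q+1 matched with j
      obtain ⟨h7, h8⟩ := hi _ _ h4
      obtain ⟨h9, h10⟩ := hi _ _ h5
      have hjq : j ≠ q := by
        rintro rfl
        rw [h7] at h9
        exact h2 (Option.some.inj h9)
      by_cases hlq : l = q
      · subst hlq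
        exact ⟨l + 1, ap_q _ _, by omega, by omega⟩
      by_cases hlq1 : l = q + 1
      · subst hlq1
        exact ⟨q, ap_q1 _ _, by omega, by omega⟩
      rcases lt_or_gt_of_ne h1 with hpq | hpq
      · -- p < q
        have hj : q + 1 < j := by
          rcases lt_or_gt_of_ne h10 with hj | hj
          · exfalso
            obtain ⟨l', h11, h12, h13⟩ := hn _ _ h4 j (by omega) (by omega)
            rw [h9] at h11
            have := Option.some.inj h11
            omega
          · exact hj
        rcases lt_or_gt_of_ne hlq with hl | hl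
        · obtain ⟨l', h11, h12, h13⟩ := hn _ _ h4 l hpl hl
          exact ⟨l', ap_other hlq hlq1 h11 (by omega) (by omega), by omega, by omega⟩
        · obtain ⟨l', h11, h12, h13⟩ := hn _ _ h5 l (by omega) hlj
          exact ⟨l', ap_other hlq hlq1 h11 (by omega) (by omega), by omega, by omega⟩
      · -- q < p
        exfalso
        obtain ⟨l', h11, h12, h13⟩ := hn _ _ h7 (q + 1) (by omega) (by omega)
        rw [h5] at h11
        have := Option.some.inj h11
        omega
    · -- p matched with q+1, q matched with j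
      obtain ⟨h7, h8⟩ := hi _ _ h4
      obtain ⟨h9, h10⟩ := hi _ _ h5
      have hjq : j ≠ q + 1 := by
        rintro rfl
        rw [h7] at h9
        exact h1 (Option.some.inj h9)
      by_cases hlq : l = q
      · subst hlq
        exact ⟨l + 1, ap_q _ _, by omega, by omega⟩
      by_cases hlq1 : l = q + 1
      · subst hlq1
        exact ⟨q, ap_q1 _ _, by omega, by omega⟩
      rcases lt_or_gt_of_ne h1 with hpq | hpq
      · -- p < q: p < j < q
        obtain ⟨l0, h11, h12, h13⟩ := hn _ _ h4 q (by omega) (by omega)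
        rw [h5] at h11
        have hl0 := Option.some.inj h11
        subst hl0
        obtain ⟨l', h14, h15, h16⟩ := hn _ _ h4 l hpl (by omega)
        have hl'q : l' ≠ q := by
          rintro rfl
          have := (hi _ _ h14).1
          rw [h5] at this
          have := Option.some.inj this
          omega
        have hl'j : l' < j := by
          rcases lt_trichotomy l' j with h17 | h17 | h17
          · exact h17
          · exfalso
            subst h17
            have := (hi _ _ h14).1
            rw [h9] at this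
            have := Option.some.inj this
            omega
          · exfalso
            obtain ⟨l2, h18, h19, h20⟩ := hn _ _ h9 l' (by omega) (by omega)
            have := (hi _ _ h14).1
            rw [this] at h18
            have := Option.some.inj h18
            omega
        exact ⟨l', ap_other hlq hlq1 h14 hl'q (by omega), h15, hl'j⟩
      · -- q + 1 < p < j
        obtain ⟨l', h14, h15, h16⟩ := hn _ _ h5 l (by omega) hlj
        have hl'q : l' ≠ q + 1 := by
          rintro rfl
          have := (hi _ _ h14).1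
          rw [h7] at this
          have := Option.some.inj this
          omega
        have hl'j : p < l' := by
          rcases lt_trichotomy l' p with h17 | h17 | h17
          · exfalso
            obtain ⟨l2, h18, h19, h20⟩ := hn _ _ h7 l' (by omega) (by omega)
            have := (hi _ _ h14).1
            rw [this] at h18
            have := Option.some.inj h18
            omega
          · exfalso
            subst h17
            have := (hi _ _ h14).1
            rw [h4] at this
            have := Option.some.inj this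
            omega
          · exact h17
        exact ⟨l', ap_other hlq hlq1 h14 (by omega) hl'q, hl'j, h16⟩

/-- matching at the top of the slab `0..K` -/
def mt (g : ℤ → Option ℤ) : ℕ → ℤ → Option ℤ
  | 0 => fun _ => none
  | K + 1 => match g K with
    | none => mt g K
    | some q => ap q (mt g K)

theorem mt_inv (g : ℤ → Option ℤ) (K : ℕ) : Inv (mt g K) := by
  induction K with
  | zero => intro p j h; simp [mt] at h
  | succ K ih =>
    rcases hg : g K with _ | q
    · simpa [mt, hg] using ih
    · simpa [mt, hg] using inv_ap ih q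

theorem mt_nc (g : ℤ → Option ℤ) (K : ℕ) : NC (mt g K) := by
  induction K with
  | zero => intro p j h; simp [mt] at h
  | succ K ih =>
    rcases hg : g K with _ | q
    · simpa [mt, hg] using ih
    · simpa [mt, hg] using nc_ap (mt_inv g K) ih q

/-! ## darts and paths -/

/-- position, level, direction (`true` = up) -/
abbrev AD : Type := ℤ × ℤ × Bool

/-- next dart -/
def nx (g : ℤ → Option ℤ) (d : AD) : AD :=
  if d.2.2 then
    match g d.2.1 with
    | none => (d.1, d.2.1 + 1, true)
    | some q => if d.1 = q then (q + 1, d.2.1, false) else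
        if d.1 = q + 1 then (q, d.2.1, false) else (d.1, d.2.1 + 1, true)
  else
    match g (d.2.1 - 1) with
    | none => (d.1, d.2.1 - 1, false)
    | some q => if d.1 = q then (q + 1, d.2.1, true) else
        if d.1 = q + 1 then (q, d.2.1, true) else (d.1, d.2.1 - 1, false)

/-- rotation (in half turns, after the correction by the type of the edge) -/
def rho (g : ℤ → Option ℤ) (d : AD) : ℤ :=
  if d.2.2 then
    match g d.2.1 with
    | none => 0
    | some q => if d.1 = q then -1 else if d.1 = q + 1 then 1 else 0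
  else
    match g (d.2.1 - 1) with
    | none => 0
    | some q => if d.1 = q then 1 else if d.1 = q + 1 then -1 else 0

/-- strictly inside the slab of height `K` (a dart that goes down from the top is inside) -/
def Ins (K : ℤ) (d : AD) : Prop := d.2.1 ≤ K ∧ (d.2.2 = true → d.2.1 < K)

/-- path from `d` to `d'`, all darts but the last one inside the slab of height `K` -/
inductive Seg (g : ℤ → Option ℤ) (K : ℤ) : AD → AD → ℤ → Prop
  | refl (d : AD) : Seg g K d d 0
  | step {d d' : AD} {k : ℤ} (h : Ins K d) (hs : Seg g K (nx g d) d' k) :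
      Seg g K d d' (rho g d + k)

theorem Seg.trans {g : ℤ → Option ℤ} {K : ℤ} {d d' d'' : AD} {k k' : ℤ}
    (h : Seg g K d d' k) (h' : Seg g K d' d'' k') : Seg g K d d'' (k + k') := by
  induction h with
  | refl d => simpa using h'
  | step hi _ ih =>
    have := Seg.step hi (ih h')
    rw [add_assoc]; exact this

theorem Seg.mono {g : ℤ → Option ℤ} {K K' : ℤ} (hK : K ≤ K') {d d' : AD} {k : ℤ}
    (h : Seg g K d d' k) : Seg g K' d d' k := by
  induction h with
  | refl d => exact Seg.refl d
  | step hi _ ih => exact Seg.step ⟨le_trans hi.1 hK, fun h => lt_of_lt_of_le (hi.2 h) hK⟩ ih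

theorem Seg.one {g : ℤ → Option ℤ} {K : ℤ} {d d' : AD} {k : ℤ} (h : Ins K d)
    (hd : nx g d = d') (hk : rho g d = k) : Seg g K d d' k := by
  subst hd; subst hk
  have := Seg.step (g := g) (d' := nx g d) (k := 0) h (Seg.refl _)
  simpa using this

/-- sign of `j - p` -/
def sg (p j : ℤ) : ℤ := if p < j then 1 else -1

/-- **rotation of the paths that enter a slab from above** -/
theorem seg_top (g : ℤ → Option ℤ) (K : ℕ) :
    ∀ p : ℤ, (∀ j, mt g K p = some j → Seg g K (p, (K : ℤ), false) (j, (K : ℤ), true) (sg p j)) ∧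
      (mt g K p = none → ∃ p', Seg g K (p, (K : ℤ), false) (p', 0, false) 0) := by
  induction K with
  | zero =>
    intro p
    refine ⟨fun j h => by simp [mt] at h, fun _ => ⟨p, ?_⟩⟩
    exact Seg.refl _
  | succ K ih =>
    intro p
    have hKK : ((K : ℕ) : ℤ) ≤ ((K + 1 : ℕ) : ℤ) := by push_cast; omega
    have hlev : (((K + 1 : ℕ) : ℤ)) - 1 = (K : ℤ) := by push_cast; ring
    have hcast : (((K + 1 : ℕ) : ℤ)) = (K : ℤ) + 1 := by push_cast; ring
    have insTop : Ins ((K + 1 : ℕ) : ℤ) (p, ((K + 1 : ℕ) : ℤ), false) :=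
      ⟨le_refl _, fun h => by simp at h⟩
    have insUp : ∀ j : ℤ, Ins ((K + 1 : ℕ) : ℤ) (j, (K : ℤ), true) := fun j =>
      ⟨hKK, fun _ => by push_cast; omega⟩
    rcases hg : g K with _ | q
    · -- no generator
      have hmt : mt g (K + 1) = mt g K := by simp [mt, hg]
      have hdown : Seg g ((K + 1 : ℕ) : ℤ) (p, ((K + 1 : ℕ) : ℤ), false) (p, (K : ℤ), false) 0 := by
        refine Seg.one insTop ?_ ?_
        · simp [nx, hg]
        · simp [rho, hg]
      have hup : ∀ j : ℤ, Seg g ((K + 1 : ℕ) : ℤ) (j, (K : ℤ), true) (j, ((K + 1 : ℕ) : ℤ), true) 0 := by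
        intro j
        refine Seg.one (insUp j) ?_ ?_
        · simp [nx, hg]
        · simp [rho, hg]
      rw [hmt]
      refine ⟨fun j h => ?_, fun h => ?_⟩
      · have h1 := (((ih p).1 j h).mono hKK)
        have := (hdown.trans h1).trans (hup j)
        simpa using this
      · obtain ⟨p', h1⟩ := (ih p).2 h
        exact ⟨p', by simpa using hdown.trans (h1.mono hKK)⟩
    · have hmt : mt g (K + 1) = ap q (mt g K) := by simp [mt, hg]
      rw [hmt]
      have hinv := mt_inv g K
      have hnc := mt_nc g K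
      -- elementary moves
      have hupo : ∀ j : ℤ, j ≠ q → j ≠ q + 1 →
          Seg g ((K + 1 : ℕ) : ℤ) (j, (K : ℤ), true) (j, ((K + 1 : ℕ) : ℤ), true) 0 := by
        intro j h1 h2
        refine Seg.one (insUp j) ?_ ?_
        · simp [nx, hg, h1, h2]
        · simp [rho, hg, h1, h2]
      have hupq : Seg g ((K + 1 : ℕ) : ℤ) (q, (K : ℤ), true) (q + 1, (K : ℤ), false) (-1) := by
        refine Seg.one (insUp q) ?_ ?_
        · simp [nx, hg]
        · simp [rho, hg]
      have hupq1 : Seg g ((K + 1 : ℕ) : ℤ) (q + 1, (K : ℤ), true) (q, (K : ℤ), false) 1 := by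
        refine Seg.one (insUp (q + 1)) ?_ ?_
        · simp [nx, hg]
        · simp [rho, hg]
      by_cases hpq : p = q
      · subst hpq
        refine ⟨fun j h => ?_, fun h => ?_⟩
        · rw [ap_q] at h
          have := Option.some.inj h
          subst this
          refine Seg.one insTop ?_ ?_
          · simp [nx, hg]
          · simp [rho, hg, sg]
        · rw [ap_q] at h; exact absurd h (by simp)
      by_cases hpq1 : p = q + 1
      · subst hpq1
        refine ⟨fun j h => ?_, fun h => ?_⟩
        · rw [ap_q1] at h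
          have := Option.some.inj h
          subst this
          refine Seg.one insTop ?_ ?_
          · simp [nx, hg]
          · simp [rho, hg, sg]
        · rw [ap_q1] at h; exact absurd h (by simp)
      have hdown : Seg g ((K + 1 : ℕ) : ℤ) (p, ((K + 1 : ℕ) : ℤ), false) (p, (K : ℤ), false) 0 := by
        refine Seg.one insTop ?_ ?_
        · simp [nx, hg, hpq, hpq1]
        · simp [rho, hg, hpq, hpq1]
      refine ⟨fun j h => ?_, fun h => ?_⟩
      · rcases ap_cases h with ⟨h1, _⟩ | ⟨h1, _⟩ | ⟨_, _, h3⟩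
        · exact absurd h1 hpq
        · exact absurd h1 hpq1
        · rcases h3 with ⟨h4, h5, h6⟩ | ⟨h4, h5⟩ | ⟨h4, h5⟩
          · have h1 := (((ih p).1 j h4).mono hKK)
            have := (hdown.trans h1).trans (hupo j h5 h6)
            simpa using this
          · obtain ⟨h7, h8⟩ := hinv _ _ h4
            obtain ⟨h9, h10⟩ := hinv _ _ h5
            have hjq : j ≠ q := by
              rintro rfl
              rw [h7] at h9
              exact hpq1 (Option.some.inj h9)
            have h1 := (((ih p).1 q h4).mono hKK)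
            have h2 := (((ih (q + 1)).1 j h5).mono hKK)
            have h3 := (((hdown.trans h1).trans hupq).trans h2).trans (hupo j hjq h10)
            have hs : 0 + sg p q + -1 + sg (q + 1) j + 0 = sg p j := by
              unfold sg
              rcases lt_or_gt_of_ne hpq with hp | hp
              · rcases lt_or_gt_of_ne h10 with hj | hj
                · by_cases hjp : j < p
                  · rw [if_pos hp, if_neg (by omega), if_neg (by omega)]; norm_num
                  · exfalso
                    have hne : j ≠ p := by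
                      rintro rfl
                      rw [h9] at h4
                      have := Option.some.inj h4
                      omega
                    obtain ⟨l', h11, h12, h13⟩ := hnc _ _ h4 j (by omega) (by omega)
                    rw [h9] at h11
                    have := Option.some.inj h11
                    omega
                · rw [if_pos hp, if_pos (by omega), if_pos (by omega)]; norm_num
              · obtain ⟨l', h11, h12, h13⟩ := hnc _ _ h7 (q + 1) (by omega) (by omega)
                rw [h5] at h11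
                have := Option.some.inj h11
                subst this
                rw [if_neg (by omega), if_pos (by omega), if_neg (by omega)]; norm_num
            rw [← hs]; exact h3
          · obtain ⟨h7, h8⟩ := hinv _ _ h4
            obtain ⟨h9, h10⟩ := hinv _ _ h5
            have hjq : j ≠ q + 1 := by
              rintro rfl
              rw [h7] at h9
              exact hpq (Option.some.inj h9)
            have h1 := (((ih p).1 (q + 1) h4).mono hKK)
            have h2 := (((ih q).1 j h5).mono hKK)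
            have h3 := (((hdown.trans h1).trans hupq1).trans h2).trans (hupo j h10 hjq)
            have hs : 0 + sg p (q + 1) + 1 + sg q j + 0 = sg p j := by
              unfold sg
              rcases lt_or_gt_of_ne hpq with hp | hp
              · obtain ⟨l', h11, h12, h13⟩ := hnc _ _ h4 q (by omega) (by omega)
                rw [h5] at h11
                have := Option.some.inj h11
                subst this
                rw [if_pos (by omega), if_neg (by omega), if_pos (by omega)]; norm_num
              · by_cases hj : j < q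
                · rw [if_neg (by omega), if_neg (by omega), if_neg (by omega)]; norm_num
                · by_cases hjp : p < j
                  · rw [if_neg (by omega), if_pos (by omega), if_pos (by omega)]; norm_num
                  · exfalso
                    have hne : j ≠ p := by
                      rintro rfl
                      rw [h9] at h4
                      have := Option.some.inj h4
                      omega
                    obtain ⟨l', h11, h12, h13⟩ := hnc _ _ h7 j (by omega) (by omega)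
                    rw [h9] at h11
                    have := Option.some.inj h11
                    omega
            rw [← hs]; exact h3
      · rcases hm : mt g K p with _ | j0
        · obtain ⟨p', h1⟩ := (ih p).2 hm
          exact ⟨p', by simpa using hdown.trans (h1.mono hKK)⟩
        · by_cases h3 : j0 = q
          · subst h3
            rw [ap_left hpq hpq1 hm] at h
            obtain ⟨p', h1⟩ := (ih (j0 + 1)).2 h
            refine ⟨p', ?_⟩
            have h2 := (((ih p).1 j0 hm).mono hKK)
            have h5 := ((hdown.trans h2).trans hupq).trans (h1.mono hKK)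
            have hp : p < j0 := by
              by_contra hc
              obtain ⟨h7, h8⟩ := hinv _ _ hm
              obtain ⟨l', h11, _, _⟩ := hnc _ _ h7 (j0 + 1) (by omega) (by omega)
              rw [h] at h11
              exact absurd h11 (by simp)
            have hs : 0 + sg p j0 + -1 + 0 = 0 := by
              unfold sg; rw [if_pos hp]; norm_num
            rw [hs] at h5; exact h5
          · by_cases h4 : j0 = q + 1
            · subst h4
              rw [ap_right hpq hpq1 hm] at h
              obtain ⟨p', h1⟩ := (ih q).2 h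
              refine ⟨p', ?_⟩
              have h2 := (((ih p).1 (q + 1) hm).mono hKK)
              have h5 := ((hdown.trans h2).trans hupq1).trans (h1.mono hKK)
              have hp : ¬ p < q + 1 := by
                intro hc
                obtain ⟨l', h11, _, _⟩ := hnc _ _ hm q (by omega) (by omega)
                rw [h] at h11
                exact absurd h11 (by simp)
              have hs : 0 + sg p (q + 1) + 1 + 0 = 0 := by
                unfold sg; rw [if_neg hp]; norm_num
              rw [hs] at h5; exact h5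
            · rw [ap_other hpq hpq1 hm h3 h4] at h
              exact absurd h (by simp)

end Crest.Agent.R158.Ts405
private theorem rz_9a4dd0406d : type_of% @_root_.Crest.Agent.R158.Ts405.mt.eq_def := @_root_.Crest.Agent.R158.Ts405.mt.eq_def -- L239
private theorem rz_61770da40f : type_of% @_root_.Crest.Agent.R158.Ts405.mt.eq_1 := @_root_.Crest.Agent.R158.Ts405.mt.eq_1 -- L239
private theorem rz_9ad07b1ab9 : type_of% @_root_.Crest.Agent.R158.Ts405.nx.eq_1 := @_root_.Crest.Agent.R158.Ts405.nx.eq_1 -- L267
private theorem rz_d6f8b77cc7 : type_of% @_root_.Crest.Agent.R158.Ts405.rho.eq_1 := @_root_.Crest.Agent.R158.Ts405.rho.eq_1 -- L280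
end

-- ▼ part R158/Ts2_405
section

/-!
# R158, T1 part 2: rotation number of closed loops and of through paths (abstract diagrams)
-/

set_option autoImplicit false

namespace Crest.Agent.R158.Ts405

/-- total rotation of the first `m` steps -/
def rot (g : ℤ → Option ℤ) (m : ℕ) (d : AD) : ℤ :=
  ∑ i ∈ Finset.range m, rho g ((nx g)^[i] d)

theorem rot_zero (g : ℤ → Option ℤ) (d : AD) : rot g 0 d = 0 := by simp [rot]

theorem rot_add (g : ℤ → Option ℤ) (a b : ℕ) (d : AD) :
    rot g (a + b) d = rot g a d + rot g b ((nx g)^[a] d) := by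
  unfold rot
  rw [Finset.sum_range_add]
  congr 1
  refine Finset.sum_congr rfl fun i _ => ?_
  rw [← Function.iterate_add_apply, add_comm i a]

theorem rot_succ (g : ℤ → Option ℤ) (a : ℕ) (d : AD) :
    rot g (a + 1) d = rho g d + rot g a (nx g d) := by
  rw [add_comm a 1, rot_add]
  simp [rot]

theorem rot_one (g : ℤ → Option ℤ) (d : AD) : rot g 1 d = rho g d := by
  simp [rot]

theorem Seg.iter {g : ℤ → Option ℤ} {K : ℤ} {d d' : AD} {k : ℤ} (h : Seg g K d d' k) :
    ∃ m : ℕ, (∀ i < m, Ins K ((nx g)^[i] d)) ∧ (nx g)^[m] d = d' ∧ rot g m d = k := by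
  induction h with
  | refl d => exact ⟨0, by simp, rfl, rot_zero g d⟩
  | @step d d' k hi _ ih =>
    obtain ⟨m, h1, h2, h3⟩ := ih
    refine ⟨m + 1, ?_, ?_, ?_⟩
    · intro i hi'
      rcases i with _ | i
      · simpa using hi
      · rw [Function.iterate_succ_apply]
        exact h1 i (by omega)
    · rw [Function.iterate_succ_apply]; exact h2
    · rw [rot_succ, h3]

/-! ### reversal -/

/-- reversed dart -/
def rv (d : AD) : AD := (d.1, d.2.1, !d.2.2)

theorem rv_rv (d : AD) : rv (rv d) = d := by simp [rv]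

theorem nx_rv (g : ℤ → Option ℤ) (d : AD) : nx g (rv (nx g d)) = rv d := by
  obtain ⟨p, t, b⟩ := d
  cases b
  · rcases hg : g (t - 1) with _ | q
    · simp [nx, rv, hg]
    · by_cases h1 : p = q
      · subst h1; simp [nx, rv, hg]
      · by_cases h2 : p = q + 1
        · subst h2; simp [nx, rv, hg]
        · simp [nx, rv, hg, h1, h2]
  · rcases hg : g t with _ | q
    · simp [nx, rv, hg]
    · by_cases h1 : p = q
      · subst h1; simp [nx, rv, hg]
      · by_cases h2 : p = q + 1
        · subst h2; simp [nx, rv, hg]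
        · simp [nx, rv, hg, h1, h2]

theorem rho_rv (g : ℤ → Option ℤ) (d : AD) : rho g (rv (nx g d)) = - rho g d := by
  obtain ⟨p, t, b⟩ := d
  cases b
  · rcases hg : g (t - 1) with _ | q
    · simp [nx, rv, rho, hg]
    · by_cases h1 : p = q
      · subst h1; simp [nx, rv, rho, hg]
      · by_cases h2 : p = q + 1
        · subst h2; simp [nx, rv, rho, hg]
        · simp [nx, rv, rho, hg, h1, h2]
  · rcases hg : g t with _ | q
    · simp [nx, rv, rho, hg]
    · by_cases h1 : p = q
      · subst h1; simp [nx, rv, rho, hg]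
      · by_cases h2 : p = q + 1
        · subst h2; simp [nx, rv, rho, hg]
        · simp [nx, rv, rho, hg, h1, h2]

theorem nx_inj (g : ℤ → Option ℤ) : Function.Injective (nx g) := by
  intro a b h
  have h1 := nx_rv g a
  have h2 := nx_rv g b
  rw [h] at h1
  have h3 : rv a = rv b := by rw [← h1, ← h2]
  have := congrArg rv h3
  rwa [rv_rv, rv_rv] at this

theorem iter_rv (g : ℤ → Option ℤ) (m : ℕ) (d : AD) :
    (nx g)^[m] (rv ((nx g)^[m] d)) = rv d := by
  induction m generalizing d with
  | zero => rfl
  | succ m ih =>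
    have h1 : (nx g)^[m + 1] d = nx g ((nx g)^[m] d) := Function.iterate_succ_apply' _ _ _
    rw [h1, Function.iterate_succ_apply, nx_rv, ih]

theorem rot_rv (g : ℤ → Option ℤ) (m : ℕ) (d : AD) :
    rot g m (rv ((nx g)^[m] d)) = - rot g m d := by
  induction m generalizing d with
  | zero => simp [rot]
  | succ m ih =>
    have h1 : (nx g)^[m + 1] d = nx g ((nx g)^[m] d) := Function.iterate_succ_apply' _ _ _
    have h2 : rot g (m + 1) d = rot g m d + rho g ((nx g)^[m] d) := by
      rw [rot_add, rot_one]
    rw [h1, rot_succ, nx_rv, ih, h2, rho_rv]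
    ring

/-! ### closed loops -/

/-- what precedes a dart at level `t` pointing down, when level `t+1` is not visited -/
theorem pred_down {g : ℤ → Option ℤ} {d : AD} {p t : ℤ} (h : nx g d = (p, t, false))
    (hl : d.2.1 ≤ t) : ∃ q, g t = some q ∧
      ((p = q ∧ d = (q + 1, t, true)) ∨ (p = q + 1 ∧ d = (q, t, true))) := by
  obtain ⟨a, s, b⟩ := d
  simp only at hl
  cases b
  · rcases hg : g (s - 1) with _ | q
    · simp [nx, hg] at h
      omega
    · by_cases h1 : a = q
      · subst h1; simp [nx, hg] at h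
      · by_cases h2 : a = q + 1
        · subst h2; simp [nx, hg] at h
        · simp [nx, hg, h1, h2] at h
          omega
  · rcases hg : g s with _ | q
    · simp [nx, hg] at h
    · by_cases h1 : a = q
      · subst h1
        simp [nx, hg] at h
        obtain ⟨h3, h4⟩ := h
        subst h4
        exact ⟨a, hg, Or.inr ⟨h3.symm, rfl⟩⟩
      · by_cases h2 : a = q + 1
        · subst h2
          simp [nx, hg] at h
          obtain ⟨h3, h4⟩ := h
          subst h4
          exact ⟨q, hg, Or.inl ⟨h3.symm, rfl⟩⟩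
        · simp [nx, hg, h1, h2] at h

/-- what follows a dart at level `t` pointing up, when level `t+1` is not visited -/
theorem succ_up {g : ℤ → Option ℤ} {j t : ℤ} (hl : (nx g (j, t, true)).2.1 ≤ t) :
    ∃ q, g t = some q ∧ ((j = q ∧ nx g (j, t, true) = (q + 1, t, false)) ∨
      (j = q + 1 ∧ nx g (j, t, true) = (q, t, false))) := by
  rcases hg : g t with _ | q
  · simp [nx, hg] at hl
  · by_cases h1 : j = q
    · subst h1
      exact ⟨j, rfl, Or.inl ⟨rfl, by simp [nx, hg]⟩⟩
    · by_cases h2 : j = q + 1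
      · subst h2
        exact ⟨q, rfl, Or.inr ⟨rfl, by simp [nx, hg]⟩⟩
      · simp [nx, hg, h1, h2] at hl

theorem iter_mod {α : Type*} (f : α → α) {N : ℕ} {d : α} (h : f^[N] d = d) (i k : ℕ) :
    f^[i + k * N] d = f^[i] d := by
  induction k with
  | zero => simp
  | succ k ih =>
    have : i + (k + 1) * N = (i + k * N) + N := by ring
    rw [this, Function.iterate_add_apply, h, ih]

/-- the total rotation over a period does not depend on the starting point -/
theorem rot_shift (g : ℤ → Option ℤ) {N : ℕ} {d : AD} (h : (nx g)^[N] d = d) (i : ℕ) :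
    rot g N ((nx g)^[i] d) = rot g N d := by
  have h1 := rot_add g i N d
  have h2 := rot_add g N i d
  rw [h] at h2
  rw [add_comm N i] at h2
  linarith

/-- **rotation number of a closed loop, and its top vertex** -/
theorem closed_loop (g : ℤ → Option ℤ) (N : ℕ) (hN : 0 < N) (d : AD)
    (hper : (nx g)^[N] d = d) (hmin : ∀ i, 0 < i → i < N → (nx g)^[i] d ≠ d)
    (hlow : ∀ i, 0 < ((nx g)^[i] d).2.1) :
    ∃ (i : ℕ) (q t : ℤ), i < N ∧ g t = some q ∧ (∀ k, ((nx g)^[k] d).2.1 ≤ t) ∧
      (((nx g)^[i] d = (q + 1, t, true) ∧ rot g N d = 2) ∨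
        ((nx g)^[i] d = (q, t, true) ∧ rot g N d = -2)) := by
  classical
  -- the highest level
  obtain ⟨i0, hi0, hmax⟩ := Finset.exists_max_image (Finset.range N)
    (fun i => ((nx g)^[i] d).2.1) ⟨0, Finset.mem_range.mpr hN⟩
  set t : ℤ := ((nx g)^[i0] d).2.1 with ht
  have hall : ∀ k, ((nx g)^[k] d).2.1 ≤ t := by
    intro k
    have h1 : k = k % N + (k / N) * N := by rw [mul_comm]; exact (Nat.mod_add_div k N).symm
    rw [h1, iter_mod _ hper]
    exact hmax _ (Finset.mem_range.mpr (Nat.mod_lt _ hN))
  -- a dart pointing down at level t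
  obtain ⟨i1, p, hi1⟩ : ∃ i1 p, (nx g)^[i1] d = (p, t, false) := by
    rcases hb : (nx g)^[i0] d with ⟨a, s, b⟩
    have hs : s = t := by rw [ht, hb]
    subst hs
    cases b
    · exact ⟨i0, a, hb⟩
    · have h1 : (nx g)^[i0 + 1] d = nx g (a, t, true) := by
        rw [Function.iterate_succ_apply', hb]
      have h2 : (nx g (a, t, true)).2.1 ≤ t := by
        rw [← h1]; exact hall _
      obtain ⟨q, _, h3 | h3⟩ := succ_up h2
      · exact ⟨i0 + 1, q + 1, by rw [h1, h3.2]⟩
      · exact ⟨i0 + 1, q, by rw [h1, h3.2]⟩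
  -- predecessor
  have hpred : ∃ a, nx g a = (p, t, false) ∧ a.2.1 ≤ t ∧ ∃ k, a = (nx g)^[k] d := by
    rcases i1 with _ | i1
    · refine ⟨(nx g)^[N - 1] d, ?_, hall _, _, rfl⟩
      rw [← Function.iterate_succ_apply' (nx g)]
      have : N - 1 + 1 = N := by omega
      rw [Nat.succ_eq_add_one, this, hper]
      exact hi1
    · refine ⟨(nx g)^[i1] d, ?_, hall _, _, rfl⟩
      rw [← Function.iterate_succ_apply' (nx g)]; exact hi1
  obtain ⟨a, ha, hal, ka, hka⟩ := hpred
  obtain ⟨q, hq, hcase⟩ := pred_down ha hal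
  have htpos : 0 < t := by
    have := hlow i0
    rw [← ht] at this; exact this
  obtain ⟨K, hK⟩ : ∃ K : ℕ, (K : ℤ) = t := ⟨t.toNat, Int.toNat_of_nonneg htpos.le⟩
  have hq' : g (K : ℤ) = some q := by rw [hK]; exact hq
  have hperi : (nx g)^[N] (p, t, false) = (p, t, false) := by
    rw [← hi1, ← Function.iterate_add_apply, add_comm, Function.iterate_add_apply, hper]
  have hmini : ∀ i, 0 < i → i < N → (nx g)^[i] (p, t, false) ≠ (p, t, false) := by
    intro i h1 h2 h3
    -- shift back to d
    have h4 : (nx g)^[i1] ((nx g)^[i] d) = (nx g)^[i1] d := by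
      rw [← Function.iterate_add_apply, add_comm, Function.iterate_add_apply, hi1, h3]
    exact hmin i h1 h2 ((nx_inj g).iterate i1 h4)
  have hrot : rot g N (p, t, false) = rot g N d := by
    rw [← hi1]; exact rot_shift g hper i1
  -- top path
  rcases hm : mt g K p with _ | j
  · exfalso
    obtain ⟨p', hseg⟩ := (seg_top g K p).2 hm
    obtain ⟨m, _, h2, _⟩ := hseg.iter
    have h3 := hlow (m + i1)
    rw [Function.iterate_add_apply, hi1, ← hK, h2] at h3
    simp at h3
  · obtain ⟨m, h1, h2, h3⟩ := ((seg_top g K p).1 j hm).iter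
    have hjp := (mt_inv g K _ _ hm).2
    rw [hK] at h1 h2 h3
    have hnext : (nx g (j, t, true)).2.1 ≤ t := by
      have := hall ((m + i1) + 1)
      rw [Function.iterate_succ_apply', Function.iterate_add_apply, hi1, h2] at this
      exact this
    obtain ⟨q2, hq2, hcase2⟩ := succ_up hnext
    have hqq : q2 = q := by
      rw [hq] at hq2
      exact (Option.some.inj hq2).symm
    subst hqq
    have hclose : (nx g)^[m + 1] (p, t, false) = (p, t, false) := by
      rw [Function.iterate_succ_apply', h2]
      rcases hcase with ⟨hp, _⟩ | ⟨hp, _⟩ <;> rcases hcase2 with ⟨hj, hx⟩ | ⟨hj, hx⟩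
      · exfalso; omega
      · rw [hx, hp]
      · rw [hx, hp]
      · exfalso; omega
    have hfirst : ∀ i, 0 < i → i < m + 1 → (nx g)^[i] (p, t, false) ≠ (p, t, false) := by
      intro i h4 h5 h6
      obtain ⟨i', rfl⟩ : ∃ i', i = i' + 1 := ⟨i - 1, by omega⟩
      rw [Function.iterate_succ_apply'] at h6
      have h7 := h1 i' (by omega)
      obtain ⟨q3, _, h8⟩ := pred_down h6 h7.1
      rcases h8 with ⟨_, h9⟩ | ⟨_, h9⟩
      · rw [h9] at h7
        have := h7.2 rfl
        simp at this
      · rw [h9] at h7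
        have := h7.2 rfl
        simp at this
    have hNm : N = m + 1 := by
      rcases lt_trichotomy N (m + 1) with h4 | h4 | h4
      · exact absurd hperi (hfirst N hN h4)
      · exact h4
      · exact absurd hclose (hmini (m + 1) (by omega) h4)
    have hrN : rot g N d = sg p j + rho g (j, t, true) := by
      rw [← hrot, hNm, rot_add, rot_one, h3, h2]
    -- the index of (j, t, true)
    have hidx : ∃ i, i < N ∧ (nx g)^[i] d = (j, t, true) := by
      refine ⟨(m + i1) % N, Nat.mod_lt _ hN, ?_⟩
      have h5 : (m + i1) = (m + i1) % N + ((m + i1) / N) * N := by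
        rw [mul_comm]; exact (Nat.mod_add_div _ N).symm
      have h6 : (nx g)^[m + i1] d = (j, t, true) := by
        rw [Function.iterate_add_apply, hi1, h2]
      rw [h5, iter_mod _ hper] at h6
      exact h6
    obtain ⟨i, hiN, hi⟩ := hidx
    rcases hcase with ⟨hp, _⟩ | ⟨hp, _⟩ <;> rcases hcase2 with ⟨hj, hx⟩ | ⟨hj, hx⟩
    · exfalso; omega
    · refine ⟨i, q2, t, hiN, hq, hall, Or.inl ⟨by rw [hi, hj], ?_⟩⟩
      rw [hrN, hj, hp]
      simp [sg, rho, hq]
    · refine ⟨i, q2, t, hiN, hq, hall, Or.inr ⟨by rw [hi, hj], ?_⟩⟩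
      rw [hrN, hj, hp]
      simp [sg, rho, hq]
    · exfalso; omega

/-! ### through paths -/

theorem down_forever {g : ℤ → Option ℤ} (hg : ∀ t < 0, g t = none) (p : ℤ) (m : ℕ) :
    (nx g)^[m] (p, 0, false) = (p, -(m : ℤ), false) := by
  induction m with
  | zero => simp
  | succ m ih =>
    rw [Function.iterate_succ_apply', ih]
    have : g (-(m : ℤ) - 1) = none := hg _ (by omega)
    simp [nx, this]
    ring

/-- **rotation of a path from the bottom to the top of a slab vanishes** -/
theorem through (g : ℤ → Option ℤ) (hg : ∀ t < 0, g t = none) (K m : ℕ) (p j : ℤ)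
    (hend : (nx g)^[m] (p, 0, true) = (j, (K : ℤ), true))
    (hins : ∀ i, i < m → Ins (K : ℤ) ((nx g)^[i] (p, 0, true))) :
    rot g m (p, 0, true) = 0 := by
  -- the reversed path
  have hr1 : (nx g)^[m] (j, (K : ℤ), false) = (p, 0, false) := by
    have := iter_rv g m (p, 0, true)
    rw [hend] at this
    simpa [rv] using this
  have hr2 : rot g m (j, (K : ℤ), false) = - rot g m (p, 0, true) := by
    have := rot_rv g m (p, 0, true)
    rw [hend] at this
    simpa [rv] using this
  have hr3 : ∀ i, i ≤ m → (nx g)^[i] (j, (K : ℤ), false) = rv ((nx g)^[m - i] (p, 0, true)) := by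
    intro i hi
    have h1 : (nx g)^[i] ((nx g)^[m - i] (p, 0, true)) = (j, (K : ℤ), true) := by
      rw [← Function.iterate_add_apply]
      have : i + (m - i) = m := by omega
      rw [this, hend]
    have h2 := iter_rv g i ((nx g)^[m - i] (p, 0, true))
    rw [h1] at h2
    simpa [rv] using h2
  rcases hm : mt g K j with _ | j'
  · obtain ⟨p', hseg⟩ := (seg_top g K j).2 hm
    obtain ⟨m', h1, h2, h3⟩ := hseg.iter
    have hmm : m' = m := by
      rcases lt_trichotomy m' m with h4 | h4 | h4
      · exfalso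
        obtain ⟨e, rfl⟩ : ∃ e, m = e + m' := ⟨m - m', by omega⟩
        rw [Function.iterate_add_apply, h2, down_forever hg] at hr1
        have := congrArg (fun x : AD => x.2.1) hr1
        simp at this
        omega
      · exact h4
      · exfalso
        obtain ⟨e, rfl⟩ : ∃ e, m' = e + m := ⟨m' - m, by omega⟩
        rw [Function.iterate_add_apply, hr1, down_forever hg] at h2
        have := congrArg (fun x : AD => x.2.1) h2
        simp at this
        omega
    subst hmm
    rw [h3] at hr2
    linarith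
  · exfalso
    obtain ⟨m', h1, h2, h3⟩ := ((seg_top g K j).1 j' hm).iter
    rcases le_or_gt m' m with h4 | h4
    · have h5 := hr3 m' h4
      rw [h2] at h5
      have h6 : (nx g)^[m - m'] (p, 0, true) = (j', (K : ℤ), false) := by
        have := congrArg rv h5
        rw [rv_rv] at this
        rw [← this]; simp [rv]
      rcases hk : m - m' with _ | k
      · rw [hk] at h6
        simp at h6
      · rw [hk, Function.iterate_succ_apply'] at h6
        have h7 := hins k (by omega)
        obtain ⟨q3, _, h8⟩ := pred_down h6 h7.1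
        rcases h8 with ⟨_, h9⟩ | ⟨_, h9⟩
        · rw [h9] at h7
          have := h7.2 rfl
          simp at this
        · rw [h9] at h7
          have := h7.2 rfl
          simp at this
    · obtain ⟨e, rfl⟩ : ∃ e, m' = e + m := ⟨m' - m, by omega⟩
      rw [Function.iterate_add_apply, hr1, down_forever hg] at h2
      simp at h2

end Crest.Agent.R158.Ts405
end

-- ▼ part R158/Ts3_405
section

/-!
# R158, T1 part 3: brickwork lattice, simulation by abstract diagrams

Brickwork lattice: edge `(p, n)` joins row `n` to row `n + 1`; the vertex `(q, n)` (`q ≡ n` mod 2)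
touches the edges `(q, n-1), (q+1, n-1)` below and `(q, n), (q+1, n)` above.  `s q n = true`:
the two lower edges are joined and the two upper edges are joined; `false`: straight.
-/

set_option autoImplicit false

namespace Crest.Agent.R158.Ts405

/-- position of the vertex of row `r` touching the edge position `p` -/
def vq (p r : ℤ) : ℤ := if (p - r) % 2 = 0 then p else p - 1

theorem vq_spec (p r : ℤ) : (vq p r - r) % 2 = 0 ∧ (vq p r = p ∨ vq p r + 1 = p) := by
  unfold vq
  split_ifs with h
  · exact ⟨h, Or.inl rfl⟩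
  · exact ⟨by omega, Or.inr (by omega)⟩

theorem vq_unique {p r q : ℤ} (h : (q - r) % 2 = 0) (h2 : p = q ∨ p = q + 1) : vq p r = q := by
  unfold vq
  rcases h2 with rfl | rfl
  · rw [if_pos h]
  · rw [if_neg (by omega)]; ring

/-- next dart in the brickwork lattice; `(p, n, true)` = edge `(p, n)` directed up -/
def nb (s : ℤ → ℤ → Bool) (d : AD) : AD :=
  if d.2.2 then
    if s (vq d.1 (d.2.1 + 1)) (d.2.1 + 1) then (2 * vq d.1 (d.2.1 + 1) + 1 - d.1, d.2.1, false)
    else (d.1, d.2.1 + 1, true)
  else
    if s (vq d.1 d.2.1) d.2.1 then (2 * vq d.1 d.2.1 + 1 - d.1, d.2.1, true)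
    else (d.1, d.2.1 - 1, false)

/-- rotation of one step in the brickwork lattice -/
def rb (s : ℤ → ℤ → Bool) (d : AD) : ℤ :=
  if d.2.2 then
    if s (vq d.1 (d.2.1 + 1)) (d.2.1 + 1) then
      (if d.1 = vq d.1 (d.2.1 + 1) then -1 else 1) else 0
  else
    if s (vq d.1 d.2.1) d.2.1 then (if d.1 = vq d.1 d.2.1 then 1 else -1) else 0

/-- letters of the window `[-X, X]`, rows `≥ b` -/
def gw (s : ℤ → ℤ → Bool) (X b : ℤ) (t : ℤ) : Option ℤ :=
  if 0 ≤ t ∧ ((t % (2 * X + 1) - X) - (b + t / (2 * X + 1))) % 2 = 0 ∧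
      s (t % (2 * X + 1) - X) (b + t / (2 * X + 1)) = true then
    some (t % (2 * X + 1) - X) else none

/-- level of the edges between row `n` and row `n+1` -/
def lv (X b n : ℤ) : ℤ := (n + 1 - b) * (2 * X + 1)

def ph (X b : ℤ) (d : AD) : AD := (d.1, lv X b d.2.1, d.2.2)

theorem gw_neg (s : ℤ → ℤ → Bool) (X b t : ℤ) (h : t < 0) : gw s X b t = none := by
  unfold gw
  rw [if_neg]
  rintro ⟨h1, _⟩
  omega

/-- the letter of the vertex `(q, r)` -/
theorem gw_at (s : ℤ → ℤ → Bool) {X b : ℤ} (hX : 0 ≤ X) {q r : ℤ} (hr : b ≤ r)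
    (hq1 : -X ≤ q) (hq2 : q ≤ X) :
    gw s X b ((r - b) * (2 * X + 1) + (q + X)) =
      if (q - r) % 2 = 0 ∧ s q r = true then some q else none := by
  have hW : 0 < 2 * X + 1 := by omega
  have h1 : ((r - b) * (2 * X + 1) + (q + X)) % (2 * X + 1) = q + X := by
    rw [add_comm, mul_comm, Int.add_mul_emod_self_left]
    exact Int.emod_eq_of_lt (by omega) (by omega)
  have h2 : ((r - b) * (2 * X + 1) + (q + X)) / (2 * X + 1) = r - b := by
    rw [add_comm, mul_comm, Int.add_mul_ediv_left _ _ (by omega)]
    rw [Int.ediv_eq_zero_of_lt (by omega) (by omega)]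
    ring
  have h3 : 0 ≤ (r - b) * (2 * X + 1) + (q + X) := by
    have : 0 ≤ (r - b) * (2 * X + 1) := mul_nonneg (by omega) (by omega)
    omega
  unfold gw
  rw [h1, h2]
  have h4 : q + X - X = q := by ring
  have h5 : b + (r - b) = r := by ring
  rw [h4, h5]
  by_cases hc : (q - r) % 2 = 0 ∧ s q r = true
  · rw [if_pos hc, if_pos ⟨h3, hc⟩]
  · rw [if_neg hc, if_neg (fun h => hc h.2)]


/-- the letter at level `t` does not touch the strand `p` -/
def Free (g : ℤ → Option ℤ) (t p : ℤ) : Prop := ∀ q, g t = some q → p ≠ q ∧ p ≠ q + 1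

theorem nx_up_free {g : ℤ → Option ℤ} {t p : ℤ} (h : Free g t p) :
    nx g (p, t, true) = (p, t + 1, true) ∧ rho g (p, t, true) = 0 := by
  rcases hg : g t with _ | q
  · simp [nx, rho, hg]
  · obtain ⟨h1, h2⟩ := h q hg
    simp [nx, rho, hg, h1, h2]

theorem nx_down_free {g : ℤ → Option ℤ} {t p : ℤ} (h : Free g (t - 1) p) :
    nx g (p, t, false) = (p, t - 1, false) ∧ rho g (p, t, false) = 0 := by
  rcases hg : g (t - 1) with _ | q
  · simp [nx, rho, hg]
  · obtain ⟨h1, h2⟩ := h q hg
    simp [nx, rho, hg, h1, h2]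

theorem pass_up {g : ℤ → Option ℤ} {t p : ℤ} {k : ℕ}
    (h : ∀ i : ℕ, i < k → Free g (t + i) p) :
    ∀ i, i ≤ k → (nx g)^[i] (p, t, true) = (p, t + i, true) ∧ rot g i (p, t, true) = 0 := by
  intro i
  induction i with
  | zero => intro _; simp [rot]
  | succ i ih =>
    intro hi
    obtain ⟨h1, h2⟩ := ih (by omega)
    obtain ⟨h3, h4⟩ := nx_up_free (h i (by omega))
    refine ⟨?_, ?_⟩
    · rw [Function.iterate_succ_apply', h1, h3]
      push_cast; rw [add_assoc]
    · rw [rot_add, rot_one, h1, h2, h4]; norm_num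

theorem pass_down {g : ℤ → Option ℤ} {t p : ℤ} {k : ℕ}
    (h : ∀ i : ℕ, i < k → Free g (t - 1 - i) p) :
    ∀ i, i ≤ k → (nx g)^[i] (p, t, false) = (p, t - i, false) ∧ rot g i (p, t, false) = 0 := by
  intro i
  induction i with
  | zero => intro _; simp [rot]
  | succ i ih =>
    intro hi
    obtain ⟨h1, h2⟩ := ih (by omega)
    have h0 : Free g (t - i - 1) p := by
      have := h i (by omega)
      have he : t - 1 - (i : ℤ) = t - i - 1 := by ring
      rwa [he] at this
    obtain ⟨h3, h4⟩ := nx_down_free h0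
    refine ⟨?_, ?_⟩
    · rw [Function.iterate_succ_apply', h1, h3]
      push_cast
      congr 2
      ring
    · rw [rot_add, rot_one, h1, h2, h4]; norm_num

/-- properties of the simulation of one lattice step from `d` by `m` abstract steps -/
structure Sim (s : ℤ → ℤ → Bool) (X b : ℤ) (d : AD) (m : ℕ) : Prop where
  pos : 0 < m
  fin : (nx (gw s X b))^[m] (ph X b d) = ph X b (nb s d)
  rot : rot (gw s X b) m (ph X b d) = rb s d
  mid : ∀ i, 0 < i → i < m → ¬ (2 * X + 1) ∣ ((nx (gw s X b))^[i] (ph X b d)).2.1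
  lo : ∀ i, i ≤ m → lv X b d.2.1 - (if d.2.2 then 0 else (2 * X + 1)) ≤
    ((nx (gw s X b))^[i] (ph X b d)).2.1
  hi : ∀ i, i ≤ m → ((nx (gw s X b))^[i] (ph X b d)).2.1 ≤
    lv X b d.2.1 + (if d.2.2 then (2 * X + 1) else 0)
  ins : ∀ i, i < m → ((nx (gw s X b))^[i] (ph X b d)).2.2 = true →
    ((nx (gw s X b))^[i] (ph X b d)).2.1 < lv X b d.2.1 + (if d.2.2 then (2 * X + 1) else 0)
  cap : ∀ i, i < m → ∀ a t q, (nx (gw s X b))^[i] (ph X b d) = (a, t, true) →
    gw s X b t = some q → (a = q ∨ a = q + 1) → d = (a, b + t / (2 * X + 1) - 1, true)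

theorem not_dvd_mid {X k t : ℤ} (h1 : k * (2 * X + 1) < t) (h2 : t < (k + 1) * (2 * X + 1)) :
    ¬ (2 * X + 1) ∣ t := by
  rintro ⟨c, hc⟩
  have hW : 0 < 2 * X + 1 := by nlinarith
  rw [hc, mul_comm (2 * X + 1) c] at h1 h2
  have h3 := lt_of_mul_lt_mul_right h1 hW.le
  have h4 := lt_of_mul_lt_mul_right h2 hW.le
  omega


theorem bounce_up {g : ℤ → Option ℤ} {t p q : ℤ} {k : ℕ}
    (h : ∀ i : ℕ, i < k → Free g (t + i) p) (h' : ∀ i : ℕ, i < k → Free g (t + i) (2 * q + 1 - p))
    (hq : g (t + k) = some q) (hp : p = q ∨ p = q + 1) :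
    ∀ i, i ≤ k → (nx g)^[k + 1 + i] (p, t, true) = (2 * q + 1 - p, t + k - i, false) ∧
      rot g (k + 1 + i) (p, t, true) = if p = q then -1 else 1 := by
  have hb : nx g (p, t + k, true) = (2 * q + 1 - p, t + k, false) ∧
      rho g (p, t + k, true) = if p = q then -1 else 1 := by
    rcases hp with rfl | rfl
    · simp [nx, rho, hq]
      ring
    · simp [nx, rho, hq]
      ring
  have h1 := pass_up h k le_rfl
  have h2 : (nx g)^[k + 1] (p, t, true) = (2 * q + 1 - p, t + k, false) := by
    rw [Function.iterate_succ_apply', h1.1, hb.1]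
  have h3 : rot g (k + 1) (p, t, true) = if p = q then -1 else 1 := by
    rw [rot_add, rot_one, h1.1, h1.2, hb.2, zero_add]
  intro i hi
  have h4 := pass_down (g := g) (t := t + k) (p := 2 * q + 1 - p) (k := k) (by
    intro j hj
    have := h' (k - 1 - j) (by omega)
    have he : t + ((k - 1 - j : ℕ) : ℤ) = t + k - 1 - j := by
      have : ((k - 1 - j : ℕ) : ℤ) = k - 1 - j := by omega
      rw [this]; ring
    rwa [he] at this) i hi
  refine ⟨?_, ?_⟩
  · rw [add_comm (k + 1) i, Function.iterate_add_apply, h2, h4.1]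
  · rw [rot_add, h3, h2, h4.2, add_zero]

theorem bounce_down {g : ℤ → Option ℤ} {t p q : ℤ} {k : ℕ}
    (h : ∀ i : ℕ, i < k → Free g (t - 1 - i) p)
    (h' : ∀ i : ℕ, i < k → Free g (t - 1 - i) (2 * q + 1 - p))
    (hq : g (t - 1 - k) = some q) (hp : p = q ∨ p = q + 1) :
    ∀ i, i ≤ k → (nx g)^[k + 1 + i] (p, t, false) = (2 * q + 1 - p, t - k + i, true) ∧
      rot g (k + 1 + i) (p, t, false) = if p = q then 1 else -1 := by
  have hq' : g (t - k - 1) = some q := by
    rw [← hq]; congr 1; ring
  have hb : nx g (p, t - k, false) = (2 * q + 1 - p, t - k, true) ∧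
      rho g (p, t - k, false) = if p = q then 1 else -1 := by
    rcases hp with rfl | rfl
    · simp [nx, rho, hq']
      ring
    · simp [nx, rho, hq']
      ring
  have h1 := pass_down h k le_rfl
  have h2 : (nx g)^[k + 1] (p, t, false) = (2 * q + 1 - p, t - k, true) := by
    rw [Function.iterate_succ_apply', h1.1, hb.1]
  have h3 : rot g (k + 1) (p, t, false) = if p = q then 1 else -1 := by
    rw [rot_add, rot_one, h1.1, h1.2, hb.2, zero_add]
  intro i hi
  have h4 := pass_up (g := g) (t := t - k) (p := 2 * q + 1 - p) (k := k) (by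
    intro j hj
    have := h' (k - 1 - j) (by omega)
    have he : t - 1 - ((k - 1 - j : ℕ) : ℤ) = t - k + j := by
      have : ((k - 1 - j : ℕ) : ℤ) = k - 1 - j := by omega
      rw [this]; ring
    rwa [he] at this) i hi
  refine ⟨?_, ?_⟩
  · rw [add_comm (k + 1) i, Function.iterate_add_apply, h2, h4.1]
  · rw [rot_add, h3, h2, h4.2, add_zero]

/-- letters of row `r` not touching `p` -/
theorem free_row (s : ℤ → ℤ → Bool) {X b : ℤ} (hX : 0 ≤ X) {r : ℤ} (hr : b ≤ r) {p q : ℤ}
    (hq1 : -X ≤ q) (hq2 : q ≤ X) (hne : q ≠ vq p r ∨ s (vq p r) r = false) :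
    Free (gw s X b) ((r - b) * (2 * X + 1) + (q + X)) p := by
  intro q' hq'
  rw [gw_at s hX hr hq1 hq2] at hq'
  split_ifs at hq' with hc
  have hqq := Option.some.inj hq'
  subst hqq
  constructor
  · intro hp
    have := vq_unique hc.1 (Or.inl hp)
    rcases hne with h | h
    · exact h this.symm
    · rw [this, hc.2] at h
      exact absurd h (by simp)
  · intro hp
    have := vq_unique hc.1 (Or.inr hp)
    rcases hne with h | h
    · exact h this.symm
    · rw [this, hc.2] at h
      exact absurd h (by simp)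

end Crest.Agent.R158.Ts405
end

-- ▼ part R158/Ts4_405
section

/-!
# R158, T1 part 4: simulation of the brickwork lattice by abstract diagrams
-/

set_option autoImplicit false

namespace Crest.Agent.R158.Ts405

theorem vq_mate (p r : ℤ) : vq (2 * vq p r + 1 - p) r = vq p r := by
  obtain ⟨h1, h2⟩ := vq_spec p r
  apply vq_unique h1
  rcases h2 with h | h
  · right; omega
  · left; omega

theorem sim_up (s : ℤ → ℤ → Bool) {X b : ℤ} (hX : 0 ≤ X) {p n : ℤ} (hb : b ≤ n + 1)
    (hp1 : -X < p) (hp2 : p ≤ X) : ∃ m, Sim s X b (p, n, true) m := by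
  obtain ⟨W, hW⟩ : ∃ W : ℕ, (W : ℤ) = 2 * X + 1 := ⟨(2 * X + 1).toNat, by
    rw [Int.toNat_of_nonneg]; omega⟩
  set L : ℤ := lv X b n with hL
  have hL' : L = (n + 1 - b) * (2 * X + 1) := rfl
  obtain ⟨hv1, hv2⟩ := vq_spec p (n + 1)
  set q : ℤ := vq p (n + 1) with hq
  have hqX1 : -X ≤ q := by omega
  have hqX2 : q ≤ X := by omega
  have hfree : ∀ p' : ℤ, vq p' (n + 1) = q → ∀ i : ℕ, i < W →
      ((i : ℤ) ≠ q + X ∨ s q (n + 1) = false) → Free (gw s X b) (L + i) p' := by
    intro p' hp' i hi hne
    have h1 := free_row s hX (b := b) (r := n + 1) hb (p := p') (q := (i : ℤ) - X) (by omega)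
      (by omega) (by
        rw [hp']
        rcases hne with h | h
        · left; omega
        · right; exact h)
    have h2 : (n + 1 - b) * (2 * X + 1) + ((i : ℤ) - X + X) = L + i := by rw [hL']; ring
    rwa [h2] at h1
  have hph : ph X b (p, n, true) = (p, L, true) := rfl
  rcases hs : s q (n + 1) with _ | _
  · -- straight
    have hpass := pass_up (g := gw s X b) (t := L) (p := p) (k := W)
      (fun i hi => hfree p rfl i hi (Or.inr hs))
    have hnb : nb s (p, n, true) = (p, n + 1, true) := by
      simp [nb, ← hq, hs]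
    have hrb : rb s (p, n, true) = 0 := by
      simp [rb, ← hq, hs]
    refine ⟨W, ⟨by omega, ?_, ?_, ?_, ?_, ?_, ?_, ?_⟩⟩
    · rw [hph, (hpass W le_rfl).1, hnb]
      unfold ph lv
      simp only
      rw [hW, hL']
      congr 2
      ring
    · rw [hph, (hpass W le_rfl).2, hrb]
    · intro i h1 h2
      rw [hph, (hpass i h2.le).1]
      refine not_dvd_mid (k := n + 1 - b) ?_ ?_
      · simp only; rw [hL']; omega
      · simp only; rw [hL']
        have : (n + 1 - b + 1) * (2 * X + 1) = (n + 1 - b) * (2 * X + 1) + (2 * X + 1) := by ring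
        omega
    · intro i hi
      rw [hph, (hpass i hi).1]
      simp only [if_true]; rw [← hL]; omega
    · intro i hi
      rw [hph, (hpass i hi).1]
      simp only [if_true]; rw [← hL]; omega
    · intro i hi _
      rw [hph, (hpass i hi.le).1]
      simp only [if_true]; rw [← hL]; omega
    · intro i hi a t q' h1 h2 h3
      rw [hph, (hpass i hi.le).1] at h1
      have ha : p = a := congrArg (fun x : AD => x.1) h1
      have ht : L + i = t := congrArg (fun x : AD => x.2.1) h1
      subst ha
      subst ht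
      have := hfree p rfl i hi (Or.inr hs) q' h2
      rcases h3 with h3 | h3
      · exact absurd h3 this.1
      · exact absurd h3 this.2
  · -- cap
    obtain ⟨k, hk⟩ : ∃ k : ℕ, (k : ℤ) = q + X := ⟨(q + X).toNat, Int.toNat_of_nonneg (by omega)⟩
    have hgq : gw s X b (L + k) = some q := by
      have h1 := gw_at s hX (b := b) (r := n + 1) hb hqX1 hqX2
      rw [if_pos ⟨hv1, hs⟩] at h1
      rw [← h1, hL', hk]
    have hpq : p = q ∨ p = q + 1 := by
      rcases hv2 with h | h
      · left; exact h.symm
      · right; exact h.symm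
    have hf1 : ∀ i : ℕ, i < k → Free (gw s X b) (L + i) p := fun i hi =>
      hfree p rfl i (by omega) (Or.inl (by omega))
    have hf2 : ∀ i : ℕ, i < k → Free (gw s X b) (L + i) (2 * q + 1 - p) := fun i hi =>
      hfree _ (vq_mate p (n + 1)) i (by omega) (Or.inl (by omega))
    have hA := pass_up hf1
    have hB := bounce_up hf1 hf2 hgq hpq
    have hnb : nb s (p, n, true) = (2 * q + 1 - p, n, false) := by
      simp [nb, ← hq, hs]
    have hrb : rb s (p, n, true) = if p = q then -1 else 1 := by
      simp [rb, ← hq, hs]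
    have hsplit : ∀ i : ℕ, i ≤ 2 * k + 1 → i ≤ k ∨ ∃ i', i = k + 1 + i' ∧ i' ≤ k := by
      intro i hi
      rcases le_or_gt i k with h | h
      · exact Or.inl h
      · exact Or.inr ⟨i - (k + 1), by omega, by omega⟩
    refine ⟨k + 1 + k, ⟨by omega, ?_, ?_, ?_, ?_, ?_, ?_, ?_⟩⟩
    · rw [hph, (hB k le_rfl).1, hnb]
      unfold ph
      simp only
      rw [← hL]
      congr 2
      ring
    · rw [hph, (hB k le_rfl).2, hrb]
    · intro i h1 h2
      rcases hsplit i (by omega) with h3 | ⟨i', rfl, h3⟩
      · rw [hph, (hA i h3).1]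
        refine not_dvd_mid (k := n + 1 - b) ?_ ?_
        · simp only; rw [hL']; omega
        · simp only; rw [hL']
          have : (n + 1 - b + 1) * (2 * X + 1) = (n + 1 - b) * (2 * X + 1) + (2 * X + 1) := by ring
          omega
      · rw [hph, (hB i' h3).1]
        refine not_dvd_mid (k := n + 1 - b) ?_ ?_
        · simp only; rw [hL']; omega
        · simp only; rw [hL']
          have : (n + 1 - b + 1) * (2 * X + 1) = (n + 1 - b) * (2 * X + 1) + (2 * X + 1) := by ring
          omega
    · intro i hi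
      rcases hsplit i (by omega) with h3 | ⟨i', rfl, h3⟩
      · rw [hph, (hA i h3).1]
        simp only [if_true]; rw [← hL]; omega
      · rw [hph, (hB i' h3).1]
        simp only [if_true]; rw [← hL]; omega
    · intro i hi
      rcases hsplit i (by omega) with h3 | ⟨i', rfl, h3⟩
      · rw [hph, (hA i h3).1]
        simp only [if_true]; rw [← hL]; omega
      · rw [hph, (hB i' h3).1]
        simp only [if_true]; rw [← hL]; omega
    · intro i hi hup
      rcases hsplit i (by omega) with h3 | ⟨i', rfl, h3⟩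
      · rw [hph, (hA i h3).1]
        simp only [if_true]; rw [← hL]; omega
      · rw [hph, (hB i' h3).1] at hup
        simp at hup
    · intro i hi a t q' h1 h2 h3
      rcases hsplit i (by omega) with h4 | ⟨i', rfl, h4⟩
      · rw [hph, (hA i h4).1] at h1
        have ha : p = a := congrArg (fun x : AD => x.1) h1
        have ht : L + i = t := congrArg (fun x : AD => x.2.1) h1
        subst ha
        have hdiv : t / (2 * X + 1) = n + 1 - b := by
          rw [← ht, hL', add_comm, mul_comm, Int.add_mul_ediv_left _ _ (by omega),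
            Int.ediv_eq_zero_of_lt (by omega) (by omega)]
          ring
        rw [hdiv]
        congr 2
        ring
      · rw [hph, (hB i' h4).1] at h1
        simp at h1

theorem sim_down (s : ℤ → ℤ → Bool) {X b : ℤ} (hX : 0 ≤ X) {p n : ℤ} (hb : b ≤ n)
    (hp1 : -X < p) (hp2 : p ≤ X) : ∃ m, Sim s X b (p, n, false) m := by
  obtain ⟨W, hW⟩ : ∃ W : ℕ, (W : ℤ) = 2 * X + 1 := ⟨(2 * X + 1).toNat, by
    rw [Int.toNat_of_nonneg]; omega⟩
  set L : ℤ := lv X b n with hL
  have hL' : L = (n - b) * (2 * X + 1) + (2 * X + 1) := by rw [hL]; unfold lv; ring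
  have hup : (n - b + 1) * (2 * X + 1) = (n - b) * (2 * X + 1) + (2 * X + 1) := by ring
  obtain ⟨hv1, hv2⟩ := vq_spec p n
  set q : ℤ := vq p n with hq
  have hqX1 : -X ≤ q := by omega
  have hqX2 : q ≤ X := by omega
  have hfree : ∀ p' : ℤ, vq p' n = q → ∀ i : ℕ, i < W →
      ((i : ℤ) ≠ X - q ∨ s q n = false) → Free (gw s X b) (L - 1 - i) p' := by
    intro p' hp' i hi hne
    have h1 := free_row s hX (b := b) (r := n) hb (p := p') (q := X - (i : ℤ)) (by omega)
      (by omega) (by
        rw [hp']
        rcases hne with h | h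
        · left; omega
        · right; exact h)
    have h2 : (n - b) * (2 * X + 1) + (X - (i : ℤ) + X) = L - 1 - i := by rw [hL']; ring
    rwa [h2] at h1
  have hph : ph X b (p, n, false) = (p, L, false) := rfl
  rcases hs : s q n with _ | _
  · -- straight
    have hpass := pass_down (g := gw s X b) (t := L) (p := p) (k := W)
      (fun i hi => hfree p rfl i hi (Or.inr hs))
    have hnb : nb s (p, n, false) = (p, n - 1, false) := by
      simp [nb, ← hq, hs]
    have hrb : rb s (p, n, false) = 0 := by
      simp [rb, ← hq, hs]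
    refine ⟨W, ⟨by omega, ?_, ?_, ?_, ?_, ?_, ?_, ?_⟩⟩
    · rw [hph, (hpass W le_rfl).1, hnb]
      unfold ph lv
      simp only
      rw [hW, hL']
      congr 2
      ring
    · rw [hph, (hpass W le_rfl).2, hrb]
    · intro i h1 h2
      rw [hph, (hpass i h2.le).1]
      refine not_dvd_mid (k := n - b) ?_ ?_
      · simp only; omega
      · simp only; omega
    · intro i hi
      rw [hph, (hpass i hi).1]
      simp only; rw [← hL]; simp only [Bool.false_eq_true, if_false]; omega
    · intro i hi
      rw [hph, (hpass i hi).1]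
      simp only; rw [← hL]; simp only [Bool.false_eq_true, if_false]; omega
    · intro i hi hup'
      rw [hph, (hpass i hi.le).1] at hup'
      simp at hup'
    · intro i hi a t q' h1 h2 h3
      rw [hph, (hpass i hi.le).1] at h1
      simp at h1
  · -- cup
    obtain ⟨k, hk⟩ : ∃ k : ℕ, (k : ℤ) = X - q := ⟨(X - q).toNat, Int.toNat_of_nonneg (by omega)⟩
    have hgq : gw s X b (L - 1 - k) = some q := by
      have h1 := gw_at s hX (b := b) (r := n) hb hqX1 hqX2
      rw [if_pos ⟨hv1, hs⟩] at h1
      rw [← h1, hL', hk]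
      congr 1
      ring
    have hpq : p = q ∨ p = q + 1 := by
      rcases hv2 with h | h
      · left; exact h.symm
      · right; exact h.symm
    have hf1 : ∀ i : ℕ, i < k → Free (gw s X b) (L - 1 - i) p := fun i hi =>
      hfree p rfl i (by omega) (Or.inl (by omega))
    have hf2 : ∀ i : ℕ, i < k → Free (gw s X b) (L - 1 - i) (2 * q + 1 - p) := fun i hi =>
      hfree _ (vq_mate p n) i (by omega) (Or.inl (by omega))
    have hA := pass_down hf1
    have hB := bounce_down hf1 hf2 hgq hpq
    have hnb : nb s (p, n, false) = (2 * q + 1 - p, n, true) := by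
      simp [nb, ← hq, hs]
    have hrb : rb s (p, n, false) = if p = q then 1 else -1 := by
      simp [rb, ← hq, hs]
    have hsplit : ∀ i : ℕ, i ≤ 2 * k + 1 → i ≤ k ∨ ∃ i', i = k + 1 + i' ∧ i' ≤ k := by
      intro i hi
      rcases le_or_gt i k with h | h
      · exact Or.inl h
      · exact Or.inr ⟨i - (k + 1), by omega, by omega⟩
    refine ⟨k + 1 + k, ⟨by omega, ?_, ?_, ?_, ?_, ?_, ?_, ?_⟩⟩
    · rw [hph, (hB k le_rfl).1, hnb]
      unfold ph
      simp only
      rw [← hL]
      congr 2
      ring
    · rw [hph, (hB k le_rfl).2, hrb]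
    · intro i h1 h2
      rcases hsplit i (by omega) with h3 | ⟨i', rfl, h3⟩
      · rw [hph, (hA i h3).1]
        refine not_dvd_mid (k := n - b) ?_ ?_
        · simp only; omega
        · simp only; omega
      · rw [hph, (hB i' h3).1]
        refine not_dvd_mid (k := n - b) ?_ ?_
        · simp only; omega
        · simp only; omega
    · intro i hi
      rcases hsplit i (by omega) with h3 | ⟨i', rfl, h3⟩
      · rw [hph, (hA i h3).1]
        simp only; rw [← hL]; simp only [Bool.false_eq_true, if_false]; omega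
      · rw [hph, (hB i' h3).1]
        simp only; rw [← hL]; simp only [Bool.false_eq_true, if_false]; omega
    · intro i hi
      rcases hsplit i (by omega) with h3 | ⟨i', rfl, h3⟩
      · rw [hph, (hA i h3).1]
        simp only; rw [← hL]; simp only [Bool.false_eq_true, if_false]; omega
      · rw [hph, (hB i' h3).1]
        simp only; rw [← hL]; simp only [Bool.false_eq_true, if_false]; omega
    · intro i hi hup'
      rcases hsplit i (by omega) with h3 | ⟨i', rfl, h3⟩
      · rw [hph, (hA i h3).1] at hup'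
        simp at hup'
      · rw [hph, (hB i' h3).1]
        simp only; rw [← hL]; simp only [Bool.false_eq_true, if_false]; omega
    · intro i hi a t q' h1 h2 h3
      rcases hsplit i (by omega) with h4 | ⟨i', rfl, h4⟩
      · rw [hph, (hA i h4).1] at h1
        simp at h1
      · exfalso
        rw [hph, (hB i' h4).1] at h1
        have ha : 2 * q + 1 - p = a := congrArg (fun x : AD => x.1) h1
        have ht : L - k + i' = t := congrArg (fun x : AD => x.2.1) h1
        subst ha
        subst ht
        have h5 := hfree _ (vq_mate p n) (k - 1 - i') (by omega) (Or.inl (by omega)) q'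
        have h6 : L - 1 - ((k - 1 - i' : ℕ) : ℤ) = L - k + i' := by
          have : ((k - 1 - i' : ℕ) : ℤ) = k - 1 - i' := by omega
          rw [this]; ring
        rw [h6] at h5
        have h7 := h5 h2
        rcases h3 with h3 | h3
        · exact h7.1 h3
        · exact h7.2 h3

end Crest.Agent.R158.Ts405
end

-- ▼ part R158/Ts5_405
section

/-!
# R158, T1 part 5: rotation numbers in the brickwork lattice

* `brick_closed`: a closed strand has rotation `±2` (in half turns), sign read at its top vertex
* `brick_through`: a path from level `n0` to level `n1` inside the strip has rotation `0`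
* `brick_periodic`: a strand that is periodic under `(P, D)`, `D ≠ 0`, has rotation `0` per period
-/

set_option autoImplicit false

namespace Crest.Agent.R158.Ts405

/-- total rotation of the first `m` steps in the brickwork lattice -/
def rotb (s : ℤ → ℤ → Bool) (m : ℕ) (d : AD) : ℤ :=
  ∑ i ∈ Finset.range m, rb s ((nb s)^[i] d)

theorem rotb_add (s : ℤ → ℤ → Bool) (a b : ℕ) (d : AD) :
    rotb s (a + b) d = rotb s a d + rotb s b ((nb s)^[a] d) := by
  unfold rotb
  rw [Finset.sum_range_add]
  congr 1
  refine Finset.sum_congr rfl fun i _ => ?_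
  rw [← Function.iterate_add_apply, add_comm i a]

theorem rotb_one (s : ℤ → ℤ → Bool) (d : AD) : rotb s 1 d = rb s d := by simp [rotb]

theorem rotb_succ (s : ℤ → ℤ → Bool) (a : ℕ) (d : AD) :
    rotb s (a + 1) d = rb s d + rotb s a (nb s d) := by
  rw [add_comm a 1, rotb_add]
  simp [rotb]

/-! ### chaining the simulations -/

theorem chain {s : ℤ → ℤ → Bool} {X b : ℤ} {d : AD} {m : ℕ → ℕ} (N : ℕ)
    (hm : ∀ i, i < N → Sim s X b ((nb s)^[i] d) (m i)) :
    ∀ i, i ≤ N → (nx (gw s X b))^[∑ j ∈ Finset.range i, m j] (ph X b d) = ph X b ((nb s)^[i] d) ∧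
      rot (gw s X b) (∑ j ∈ Finset.range i, m j) (ph X b d) = rotb s i d := by
  intro i
  induction i with
  | zero => intro _; simp [rot, rotb]
  | succ i ih =>
    intro hi
    obtain ⟨h1, h2⟩ := ih (by omega)
    have h3 := hm i (by omega)
    rw [Finset.sum_range_succ]
    refine ⟨?_, ?_⟩
    · rw [add_comm, Function.iterate_add_apply, h1, h3.fin, Function.iterate_succ_apply']
    · rw [rot_add, h2, h1, h3.rot, rotb_add, rotb_one]

theorem chain_le {m : ℕ → ℕ} {N : ℕ} (hm : ∀ i, i < N → 0 < m i) :
    ∀ i, i ≤ N → i ≤ ∑ j ∈ Finset.range i, m j := by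
  intro i
  induction i with
  | zero => intro _; simp
  | succ i ih =>
    intro hi
    have h1 := ih (by omega)
    have h2 := hm i (by omega)
    rw [Finset.sum_range_succ]
    omega

theorem chain_split {m : ℕ → ℕ} : ∀ (N k : ℕ), k < ∑ j ∈ Finset.range N, m j →
    ∃ j e, j < N ∧ e < m j ∧ k = (∑ i ∈ Finset.range j, m i) + e := by
  intro N
  induction N with
  | zero => intro k hk; simp at hk
  | succ N ih =>
    intro k hk
    rw [Finset.sum_range_succ] at hk
    by_cases h : k < ∑ j ∈ Finset.range N, m j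
    · obtain ⟨j, e, h1, h2, h3⟩ := ih k h
      exact ⟨j, e, by omega, h2, h3⟩
    · exact ⟨N, k - ∑ j ∈ Finset.range N, m j, by omega, by omega, by omega⟩

theorem ph_inj {X b : ℤ} (hX : 0 ≤ X) {d d' : AD} (h : ph X b d = ph X b d') : d = d' := by
  obtain ⟨p, n, c⟩ := d
  obtain ⟨p', n', c'⟩ := d'
  have h1 : p = p' := congrArg (fun x : AD => x.1) h
  have h2 : lv X b n = lv X b n' := congrArg (fun x : AD => x.2.1) h
  have h3 : c = c' := congrArg (fun x : AD => x.2.2) h
  unfold lv at h2
  have h4 := mul_right_cancel₀ (by omega : (2 * X + 1) ≠ 0) h2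
  have h5 : n = n' := by omega
  rw [h1, h3, h5]

/-- **closed strands** -/
theorem brick_closed (s : ℤ → ℤ → Bool) (N : ℕ) (hN : 0 < N) (d : AD)
    (hper : (nb s)^[N] d = d) (hmin : ∀ i, 0 < i → i < N → (nb s)^[i] d ≠ d) :
    ∃ (j : ℕ) (q n : ℤ), j < N ∧ (q - n) % 2 = 0 ∧ s q n = true ∧
      (∀ k, ((nb s)^[k] d).2.1 ≤ n - 1) ∧
      (((nb s)^[j] d = (q + 1, n - 1, true) ∧ rotb s N d = 2) ∨
        ((nb s)^[j] d = (q, n - 1, true) ∧ rotb s N d = -2)) := by
  classical
  -- window
  obtain ⟨X, hX0, hX⟩ : ∃ X : ℤ, 0 ≤ X ∧ ∀ k, -X < ((nb s)^[k] d).1 ∧ ((nb s)^[k] d).1 ≤ X := by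
    refine ⟨∑ i ∈ Finset.range N, (|((nb s)^[i] d).1| + 1), ?_, ?_⟩
    · exact Finset.sum_nonneg fun i _ => by positivity
    · intro k
      have h1 : k = k % N + (k / N) * N := by rw [mul_comm]; exact (Nat.mod_add_div k N).symm
      rw [h1, iter_mod _ hper]
      have h2 := Finset.single_le_sum (f := fun i => |((nb s)^[i] d).1| + 1)
        (fun i _ => by positivity) (Finset.mem_range.mpr (Nat.mod_lt k hN))
      have h3 := abs_lt.mp (lt_of_lt_of_le (lt_add_one _) h2)
      exact ⟨h3.1, h3.2.le⟩
  obtain ⟨b, hb⟩ : ∃ b : ℤ, ∀ k, b + 1 ≤ ((nb s)^[k] d).2.1 := by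
    refine ⟨-∑ i ∈ Finset.range N, (|((nb s)^[i] d).2.1| + 1), ?_⟩
    intro k
    have h1 : k = k % N + (k / N) * N := by rw [mul_comm]; exact (Nat.mod_add_div k N).symm
    rw [h1, iter_mod _ hper]
    have h2 := Finset.single_le_sum (f := fun i => |((nb s)^[i] d).2.1| + 1)
      (fun i _ => by positivity) (Finset.mem_range.mpr (Nat.mod_lt k hN))
    have h3 := abs_lt.mp (lt_of_lt_of_le (lt_add_one _) h2)
    omega
  have hW : 0 < 2 * X + 1 := by omega
  have hsim : ∀ k, ∃ m, Sim s X b ((nb s)^[k] d) m := by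
    intro k
    rcases hd : (nb s)^[k] d with ⟨p, n, c⟩
    have h1 := hX k
    have h2 := hb k
    rw [hd] at h1 h2
    simp only at h1 h2
    cases c
    · exact sim_down s hX0 (by omega) h1.1 h1.2
    · exact sim_up s hX0 (by omega) h1.1 h1.2
  choose m hm using hsim
  have hch := chain (s := s) (X := X) (b := b) (d := d) (m := m) N (fun i _ => hm i)
  set g := gw s X b with hg
  set T : ℕ := ∑ j ∈ Finset.range N, m j with hT
  have hTN : N ≤ T := chain_le (fun i _ => (hm i).pos) N le_rfl
  have hperT : (nx g)^[T] (ph X b d) = ph X b d := by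
    have := (hch N le_rfl).1
    rw [hper] at this
    exact this
  have hminT : ∀ k, 0 < k → k < T → (nx g)^[k] (ph X b d) ≠ ph X b d := by
    intro k h1 h2 h3
    obtain ⟨j, e, h4, h5, h6⟩ := chain_split N k h2
    have h7 : (nx g)^[k] (ph X b d) = (nx g)^[e] (ph X b ((nb s)^[j] d)) := by
      rw [h6, add_comm, Function.iterate_add_apply, (hch j h4.le).1]
    rcases Nat.eq_zero_or_pos e with h8 | h8
    · subst h8
      rw [h7] at h3
      simp only [Function.iterate_zero, id_eq] at h3
      have h9 := ph_inj hX0 h3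
      have hj0 : 0 < j := by
        rcases Nat.eq_zero_or_pos j with h10 | h10
        · subst h10; simp at h6; omega
        · exact h10
      exact hmin j hj0 h4 h9
    · apply (hm j).mid e h8 h5
      rw [← hg, ← h7, h3]
      exact ⟨d.2.1 + 1 - b, by unfold ph lv; ring⟩
  have hlow : ∀ k, 0 < ((nx g)^[k] (ph X b d)).2.1 := by
    intro k
    have hT0 : 0 < T := by omega
    have h1 : k = k % T + (k / T) * T := by rw [mul_comm]; exact (Nat.mod_add_div k T).symm
    rw [h1, iter_mod _ hperT]
    obtain ⟨j, e, h4, h5, h6⟩ := chain_split N (k % T) (Nat.mod_lt k hT0)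
    have h7 : (nx g)^[k % T] (ph X b d) = (nx g)^[e] (ph X b ((nb s)^[j] d)) := by
      rw [h6, add_comm, Function.iterate_add_apply, (hch j h4.le).1]
    rw [h7]
    refine lt_of_lt_of_le ?_ ((hm j).lo e h5.le)
    have h8 := hb j
    have h9 : 1 * (2 * X + 1) ≤ (((nb s)^[j] d).2.1 - b) * (2 * X + 1) :=
      mul_le_mul_of_nonneg_right (by omega) hW.le
    have h10 : lv X b ((nb s)^[j] d).2.1
        = (((nb s)^[j] d).2.1 - b) * (2 * X + 1) + (2 * X + 1) := by unfold lv; ring
    rw [h10]
    split_ifs <;> omega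
  obtain ⟨i, q, t, hi, hq, hmax, hcase⟩ := closed_loop g T (by omega) (ph X b d) hperT hminT hlow
  have hrot : rot g T (ph X b d) = rotb s N d := (hch N le_rfl).2
  -- data of the letter
  have hq' : 0 ≤ t ∧ ((t % (2 * X + 1) - X) - (b + t / (2 * X + 1))) % 2 = 0 ∧
      s (t % (2 * X + 1) - X) (b + t / (2 * X + 1)) = true ∧ t % (2 * X + 1) - X = q := by
    rw [hg] at hq
    unfold gw at hq
    split_ifs at hq with hc
    exact ⟨hc.1, hc.2.1, hc.2.2, Option.some.inj hq⟩
  obtain ⟨ht0, hpar, hst, hqe⟩ := hq'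
  rw [hqe] at hpar hst
  obtain ⟨j, e, h4, h5, h6⟩ := chain_split N i hi
  have h7 : (nx g)^[i] (ph X b d) = (nx g)^[e] (ph X b ((nb s)^[j] d)) := by
    rw [h6, add_comm, Function.iterate_add_apply, (hch j h4.le).1]
  refine ⟨j, q, b + t / (2 * X + 1), h4, hpar, hst, ?_, ?_⟩
  · intro k
    have h1 : k = k % N + (k / N) * N := by rw [mul_comm]; exact (Nat.mod_add_div k N).symm
    rw [h1, iter_mod _ hper]
    have h2 := (hch (k % N) (Nat.mod_lt k hN).le).1
    have h3 := hmax (∑ j ∈ Finset.range (k % N), m j)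
    rw [h2] at h3
    have h8 : (((nb s)^[k % N] d).2.1 + 1 - b) * (2 * X + 1) ≤ t := h3
    have h9 := (Int.le_ediv_iff_mul_le hW).mpr h8
    omega
  · rcases hcase with ⟨h8, h9⟩ | ⟨h8, h9⟩
    · left
      refine ⟨?_, by rw [← hrot, h9]⟩
      rw [h7] at h8
      exact (hm j).cap e h5 _ _ q h8 hq (Or.inr rfl)
    · right
      refine ⟨?_, by rw [← hrot, h9]⟩
      rw [h7] at h8
      exact (hm j).cap e h5 _ _ q h8 hq (Or.inl rfl)

/-- **paths through a strip** -/
theorem brick_through (s : ℤ → ℤ → Bool) (m' : ℕ) (p n0 j n1 : ℤ)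
    (hend : (nb s)^[m'] (p, n0, true) = (j, n1, true))
    (hlo : ∀ i, 0 < i → i < m' → n0 + 1 ≤ ((nb s)^[i] (p, n0, true)).2.1)
    (hhi : ∀ i, i < m' → ((nb s)^[i] (p, n0, true)).2.1 ≤ n1 - 1) :
    rotb s m' (p, n0, true) = 0 := by
  classical
  rcases Nat.eq_zero_or_pos m' with h0 | hpos
  · subst h0; simp [rotb]
  have hn01 : n0 ≤ n1 - 1 := by simpa using hhi 0 hpos
  set d : AD := (p, n0, true) with hd
  obtain ⟨X, hX0, hX⟩ : ∃ X : ℤ, 0 ≤ X ∧ ∀ k, k < m' →
      -X < ((nb s)^[k] d).1 ∧ ((nb s)^[k] d).1 ≤ X := by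
    refine ⟨∑ i ∈ Finset.range m', (|((nb s)^[i] d).1| + 1), ?_, ?_⟩
    · exact Finset.sum_nonneg fun i _ => by positivity
    · intro k hk
      have h2 := Finset.single_le_sum (f := fun i => |((nb s)^[i] d).1| + 1)
        (fun i _ => by positivity) (Finset.mem_range.mpr hk)
      have h3 := abs_lt.mp (lt_of_lt_of_le (lt_add_one _) h2)
      exact ⟨h3.1, h3.2.le⟩
  have hW : 0 < 2 * X + 1 := by omega
  have hsim : ∀ k, k < m' → ∃ m, Sim s X (n0 + 1) ((nb s)^[k] d) m := by
    intro k hk
    rcases hdd : (nb s)^[k] d with ⟨a, n, c⟩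
    have h1 := hX k hk
    rw [hdd] at h1
    simp only at h1
    rcases Nat.eq_zero_or_pos k with h2 | h2
    · subst h2
      simp only [Function.iterate_zero, id_eq] at hdd
      rw [hd] at hdd
      have e1 : n0 = n := congrArg (fun x : AD => x.2.1) hdd
      have e2 : true = c := congrArg (fun x : AD => x.2.2) hdd
      subst e1; subst e2
      exact sim_up s hX0 (by omega) h1.1 h1.2
    · have h3 := hlo k h2 hk
      rw [hdd] at h3
      simp only at h3
      cases c
      · exact sim_down s hX0 (by omega) h1.1 h1.2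
      · exact sim_up s hX0 (by omega) h1.1 h1.2
  have hsim' : ∀ k, ∃ m, k < m' → Sim s X (n0 + 1) ((nb s)^[k] d) m := by
    intro k
    by_cases hk : k < m'
    · obtain ⟨m, hm⟩ := hsim k hk; exact ⟨m, fun _ => hm⟩
    · exact ⟨0, fun h => absurd h hk⟩
  choose m hm using hsim'
  have hch := chain (s := s) (X := X) (b := n0 + 1) (d := d) (m := m) m' hm
  set g := gw s X (n0 + 1) with hg
  set T : ℕ := ∑ j ∈ Finset.range m', m j with hT
  have hphd : ph X (n0 + 1) d = (p, 0, true) := by
    unfold ph lv; rw [hd]; simp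
  obtain ⟨K, hK⟩ : ∃ K : ℕ, (K : ℤ) = lv X (n0 + 1) n1 := ⟨(lv X (n0 + 1) n1).toNat, by
    rw [Int.toNat_of_nonneg]
    unfold lv
    exact mul_nonneg (by omega) hW.le⟩
  have hphe : ph X (n0 + 1) (j, n1, true) = (j, (K : ℤ), true) := by
    unfold ph; simp only; rw [hK]
  have hres := through g (fun t ht => gw_neg s X _ t ht) K T p j (by
    have := (hch m' le_rfl).1
    rw [hend, hphe, hphd] at this
    exact this) (by
    intro k hk
    obtain ⟨i, e, h4, h5, h6⟩ := chain_split m' k hk
    have h7 : (nx g)^[k] (ph X (n0 + 1) d) = (nx g)^[e] (ph X (n0 + 1) ((nb s)^[i] d)) := by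
      rw [h6, add_comm, Function.iterate_add_apply, (hch i h4.le).1]
    rw [hphd] at h7
    rw [h7]
    have hS := hm i h4
    have hbd : lv X (n0 + 1) ((nb s)^[i] d).2.1 + (2 * X + 1) ≤ K := by
      rw [hK]
      have h8 := hhi i h4
      have h9 : (((nb s)^[i] d).2.1 + 1 - (n0 + 1) + 1) * (2 * X + 1)
          ≤ (n1 + 1 - (n0 + 1)) * (2 * X + 1) := mul_le_mul_of_nonneg_right (by omega) hW.le
      unfold lv
      have h10 : (((nb s)^[i] d).2.1 + 1 - (n0 + 1) + 1) * (2 * X + 1)
        = (((nb s)^[i] d).2.1 + 1 - (n0 + 1)) * (2 * X + 1) + (2 * X + 1) := by ring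
      omega
    refine ⟨?_, fun hup => ?_⟩
    · have h8 := hS.hi e h5.le
      rw [← hg] at h8
      split_ifs at h8 <;> omega
    · have h8 := hS.ins e h5 hup
      rw [← hg] at h8
      split_ifs at h8 <;> omega)
  have h9 := (hch m' le_rfl).2
  rw [hphd] at h9
  rw [← h9]
  exact hres

end Crest.Agent.R158.Ts405
end

-- ▼ part R158/Ts6_405
section

/-!
# R158, T1 part 6: periodic strands have rotation zero
-/

set_option autoImplicit false

namespace Crest.Agent.R158.Ts405

/-! ### reversal in the brickwork lattice -/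

theorem nb_rv (s : ℤ → ℤ → Bool) (d : AD) : nb s (rv (nb s d)) = rv d := by
  obtain ⟨p, n, c⟩ := d
  cases c
  · rcases hs : s (vq p n) n with _ | _
    · have h1 : nb s (p, n, false) = (p, n - 1, false) := by simp [nb, hs]
      have hs' : s (vq p (n - 1 + 1)) (n - 1 + 1) = false := by
        rw [sub_add_cancel]; exact hs
      rw [h1]
      simp only [rv, Bool.not_false]
      simp only [nb, if_true]
      rw [hs']
      simp
    · have h1 : nb s (p, n, false) = (2 * vq p n + 1 - p, n, true) := by simp [nb, hs]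
      rw [h1]
      simp only [rv, Bool.not_true, Bool.not_false]
      have h2 := vq_mate p n
      simp only [nb, Bool.false_eq_true, if_false]
      rw [h2, hs]
      simp
  · rcases hs : s (vq p (n + 1)) (n + 1) with _ | _
    · have h1 : nb s (p, n, true) = (p, n + 1, true) := by simp [nb, hs]
      rw [h1]
      simp [rv, nb, hs]
    · have h1 : nb s (p, n, true) = (2 * vq p (n + 1) + 1 - p, n, false) := by simp [nb, hs]
      rw [h1]
      simp only [rv, Bool.not_true, Bool.not_false]
      have h2 := vq_mate p (n + 1)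
      simp only [nb, if_true]
      rw [h2, hs]
      simp

theorem rb_rv (s : ℤ → ℤ → Bool) (d : AD) : rb s (rv (nb s d)) = - rb s d := by
  obtain ⟨p, n, c⟩ := d
  cases c
  · rcases hs : s (vq p n) n with _ | _
    · have h1 : nb s (p, n, false) = (p, n - 1, false) := by simp [nb, hs]
      have hs' : s (vq p (n - 1 + 1)) (n - 1 + 1) = false := by
        rw [sub_add_cancel]; exact hs
      rw [h1]
      simp only [rv, Bool.not_false]
      simp only [rb, if_true]
      rw [hs']
      simp [hs]
    · have h1 : nb s (p, n, false) = (2 * vq p n + 1 - p, n, true) := by simp [nb, hs]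
      rw [h1]
      simp only [rv, Bool.not_true]
      have h2 := vq_mate p n
      obtain ⟨_, h4⟩ := vq_spec p n
      simp only [rb, Bool.false_eq_true, if_false]
      rw [h2, hs]
      simp only [if_true]
      split_ifs <;> omega
  · rcases hs : s (vq p (n + 1)) (n + 1) with _ | _
    · have h1 : nb s (p, n, true) = (p, n + 1, true) := by simp [nb, hs]
      rw [h1]
      simp [rv, rb, hs]
    · have h1 : nb s (p, n, true) = (2 * vq p (n + 1) + 1 - p, n, false) := by simp [nb, hs]
      rw [h1]
      simp only [rv, Bool.not_false]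
      have h2 := vq_mate p (n + 1)
      obtain ⟨_, h4⟩ := vq_spec p (n + 1)
      simp only [rb, if_true]
      rw [h2, hs]
      simp only [if_true]
      split_ifs <;> omega


theorem iterb_rv (s : ℤ → ℤ → Bool) (m : ℕ) (d : AD) :
    (nb s)^[m] (rv ((nb s)^[m] d)) = rv d := by
  induction m generalizing d with
  | zero => rfl
  | succ m ih =>
    have h1 : (nb s)^[m + 1] d = nb s ((nb s)^[m] d) := Function.iterate_succ_apply' _ _ _
    rw [h1, Function.iterate_succ_apply, nb_rv, ih]

theorem rotb_rv (s : ℤ → ℤ → Bool) (m : ℕ) (d : AD) :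
    rotb s m (rv ((nb s)^[m] d)) = - rotb s m d := by
  induction m generalizing d with
  | zero => simp [rotb]
  | succ m ih =>
    have h1 : (nb s)^[m + 1] d = nb s ((nb s)^[m] d) := Function.iterate_succ_apply' _ _ _
    have h2 : rotb s (m + 1) d = rotb s m d + rb s ((nb s)^[m] d) := by
      rw [rotb_add, rotb_one]
    rw [h1, rotb_succ, nb_rv, ih, h2, rb_rv]
    ring

/-! ### translations -/

def sh (P D : ℤ) (d : AD) : AD := (d.1 + P, d.2.1 + D, d.2.2)

theorem vq_sh {P D : ℤ} (hPD : (P - D) % 2 = 0) (p r : ℤ) : vq (p + P) (r + D) = vq p r + P := by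
  obtain ⟨h1, h2⟩ := vq_spec p r
  apply vq_unique (by omega)
  rcases h2 with h | h
  · left; omega
  · right; omega

theorem nb_sh {s : ℤ → ℤ → Bool} {P D : ℤ} (hPD : (P - D) % 2 = 0)
    (hs : ∀ q n, s (q + P) (n + D) = s q n) (d : AD) : nb s (sh P D d) = sh P D (nb s d) := by
  obtain ⟨p, n, c⟩ := d
  have e1 : n + D + 1 = n + 1 + D := by ring
  cases c
  · have h0 : s (vq (p + P) (n + D)) (n + D) = s (vq p n) n := by rw [vq_sh hPD, hs]
    have h1 := vq_sh hPD p n
    rcases hc : s (vq p n) n with _ | _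
    · rw [hc] at h0
      simp [nb, sh, h0, hc]
      ring
    · rw [hc, h1] at h0
      simp [nb, sh, h0, hc, h1]
      ring
  · have h1 := vq_sh hPD p (n + 1)
    have h0 : s (vq (p + P) (n + 1 + D)) (n + 1 + D) = s (vq p (n + 1)) (n + 1) := by
      rw [h1, hs]
    rcases hc : s (vq p (n + 1)) (n + 1) with _ | _
    · rw [hc] at h0
      simp [nb, sh, e1, h0, hc]
    · rw [hc, h1] at h0
      simp [nb, sh, e1, h0, hc, h1]
      ring

theorem rb_sh {s : ℤ → ℤ → Bool} {P D : ℤ} (hPD : (P - D) % 2 = 0)
    (hs : ∀ q n, s (q + P) (n + D) = s q n) (d : AD) : rb s (sh P D d) = rb s d := by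
  obtain ⟨p, n, c⟩ := d
  have e1 : n + D + 1 = n + 1 + D := by ring
  cases c
  · have h0 : s (vq (p + P) (n + D)) (n + D) = s (vq p n) n := by rw [vq_sh hPD, hs]
    have h1 := vq_sh hPD p n
    rcases hc : s (vq p n) n with _ | _
    · rw [hc] at h0
      simp [rb, sh, h0, hc]
    · rw [hc, h1] at h0
      simp [rb, sh, h0, hc, h1]
  · have h1 := vq_sh hPD p (n + 1)
    have h0 : s (vq (p + P) (n + 1 + D)) (n + 1 + D) = s (vq p (n + 1)) (n + 1) := by
      rw [h1, hs]
    rcases hc : s (vq p (n + 1)) (n + 1) with _ | _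
    · rw [hc] at h0
      simp [rb, sh, e1, h0, hc]
    · rw [hc, h1] at h0
      simp [rb, sh, e1, h0, hc, h1]

theorem iterb_sh {s : ℤ → ℤ → Bool} {P D : ℤ} (hPD : (P - D) % 2 = 0)
    (hs : ∀ q n, s (q + P) (n + D) = s q n) (d : AD) (m : ℕ) :
    (nb s)^[m] (sh P D d) = sh P D ((nb s)^[m] d) := by
  induction m with
  | zero => rfl
  | succ m ih => rw [Function.iterate_succ_apply', ih, nb_sh hPD hs, Function.iterate_succ_apply']

theorem rotb_sh {s : ℤ → ℤ → Bool} {P D : ℤ} (hPD : (P - D) % 2 = 0)
    (hs : ∀ q n, s (q + P) (n + D) = s q n) (d : AD) (m : ℕ) :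
    rotb s m (sh P D d) = rotb s m d := by
  unfold rotb
  refine Finset.sum_congr rfl fun i _ => ?_
  rw [iterb_sh hPD hs, rb_sh hPD hs]

/-! ### levels -/

theorem level_up {s : ℤ → ℤ → Bool} {d : AD} {n0 : ℤ} (h1 : d.2.1 ≤ n0)
    (h2 : n0 < (nb s d).2.1) : d.2.1 = n0 ∧ d.2.2 = true ∧ nb s d = (d.1, n0 + 1, true) := by
  obtain ⟨p, n, c⟩ := d
  simp only at h1
  cases c
  · rcases hs : s (vq p n) n with _ | _
    · have h3 : nb s (p, n, false) = (p, n - 1, false) := by simp [nb, hs]
      rw [h3] at h2; simp only at h2; omega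
    · have h3 : nb s (p, n, false) = (2 * vq p n + 1 - p, n, true) := by simp [nb, hs]
      rw [h3] at h2; simp only at h2; omega
  · rcases hs : s (vq p (n + 1)) (n + 1) with _ | _
    · have h3 : nb s (p, n, true) = (p, n + 1, true) := by simp [nb, hs]
      rw [h3] at h2 ⊢; simp only at h2 ⊢
      have : n = n0 := by omega
      subst this
      exact ⟨rfl, trivial, rfl⟩
    · have h3 : nb s (p, n, true) = (2 * vq p (n + 1) + 1 - p, n, false) := by simp [nb, hs]
      rw [h3] at h2; simp only at h2; omega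

/-- **periodic strands, upward drift** -/
theorem periodic_pos {s : ℤ → ℤ → Bool} {P D : ℤ} (hPD : (P - D) % 2 = 0)
    (hs : ∀ q n, s (q + P) (n + D) = s q n) (hD : 0 < D) {N : ℕ} (hN : 0 < N) {d : AD}
    (hper : (nb s)^[N] d = sh P D d) : rotb s N d = 0 := by
  classical
  set ν : ℕ → ℤ := fun i => ((nb s)^[i] d).2.1 with hν
  have hadd : ∀ i, (nb s)^[i + N] d = sh P D ((nb s)^[i] d) := by
    intro i
    rw [Function.iterate_add_apply, hper, iterb_sh hPD hs]
  have hνN : ∀ i, ν (i + N) = ν i + D := by
    intro i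
    simp only [hν]
    rw [hadd i]
    rfl
  have hνk : ∀ k i, ν (i + k * N) = ν i + k * D := by
    intro k
    induction k with
    | zero => intro i; simp
    | succ k ih =>
      intro i
      have h1 : i + (k + 1) * N = (i + k * N) + N := by ring
      rw [h1, hνN, ih]
      push_cast; ring
  -- bounds over a period
  obtain ⟨n0, hn0⟩ : ∃ n0 : ℤ, ∀ i, i < N → ν i ≤ n0 := by
    refine ⟨∑ i ∈ Finset.range N, |ν i|, fun i hi => ?_⟩
    exact le_trans (le_abs_self _) (Finset.single_le_sum (f := fun i => |ν i|)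
      (fun i _ => abs_nonneg _) (Finset.mem_range.mpr hi))
  obtain ⟨n2, hn2⟩ : ∃ n2 : ℤ, ∀ i, i < N → n2 ≤ ν i := by
    refine ⟨-∑ i ∈ Finset.range N, |ν i|, fun i hi => ?_⟩
    have h1 := Finset.single_le_sum (f := fun i => |ν i|)
      (fun i _ => abs_nonneg _) (Finset.mem_range.mpr hi)
    have h2 := neg_abs_le (ν i)
    omega
  have hgrow : ∀ i, n2 + (i / N : ℕ) ≤ ν i := by
    intro i
    have h1 : i = i % N + (i / N) * N := by rw [mul_comm]; exact (Nat.mod_add_div i N).symm
    have h2 := hνk (i / N) (i % N)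
    rw [← h1] at h2
    rw [h2]
    have h3 := hn2 (i % N) (Nat.mod_lt i hN)
    have h4 : ((i / N : ℕ) : ℤ) * 1 ≤ ((i / N : ℕ) : ℤ) * D :=
      mul_le_mul_of_nonneg_left (by omega) (by positivity)
    omega
  -- the last visit below n0
  obtain ⟨k0, hk0, hk0'⟩ : ∃ k0, ν k0 ≤ n0 ∧ ∀ i, k0 < i → n0 < ν i := by
    have hbdd : ∀ i, ν i ≤ n0 → i < (n0 - n2 + 1).toNat * N := by
      intro i hi
      by_contra hc
      push Not at hc
      have h1 := hgrow i
      have h2 : (n0 - n2 + 1).toNat ≤ i / N := (Nat.le_div_iff_mul_le hN).mpr hc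
      have h3 := Int.self_le_toNat (n0 - n2 + 1)
      omega
    have hex : ∃ i, ν i ≤ n0 := ⟨0, hn0 0 hN⟩
    set B := (n0 - n2 + 1).toNat * N with hB
    refine ⟨Nat.findGreatest (fun i => ν i ≤ n0) B, ?_, ?_⟩
    · exact Nat.findGreatest_spec (P := fun i => ν i ≤ n0) (m := 0) (Nat.zero_le _) (hn0 0 hN)
    · intro i hi
      by_contra hc
      push Not at hc
      have h1 := hbdd i hc
      exact absurd hc (Nat.findGreatest_is_greatest hi h1.le)
  -- first visits
  have hexF : ∀ c : ℕ, ∃ i, n0 + c * D ≤ ν i := by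
    intro c
    refine ⟨(n0 + c * D - n2).toNat * N, ?_⟩
    have h1 := hgrow ((n0 + c * D - n2).toNat * N)
    rw [Nat.mul_div_cancel _ hN] at h1
    have h3 := Int.self_le_toNat (n0 + c * D - n2)
    omega
  set F : ℕ → ℕ := fun c => Nat.find (hexF c) with hF
  have hFspec : ∀ c : ℕ, n0 + c * D ≤ ν (F c) := fun c => Nat.find_spec (hexF c)
  have hFmin : ∀ (c : ℕ) i, i < F c → ν i < n0 + c * D := fun c i hi => by
    have := Nat.find_min (hexF c) hi
    push Not at this; exact this
  have hFsucc : ∀ c, F (c + 1) = F c + N := by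
    intro c
    apply le_antisymm
    · apply Nat.find_min'
      rw [hνN]
      have := hFspec c
      push_cast
      have h2 : (((c : ℤ) + 1)) * D = c * D + D := by ring
      omega
    · by_contra hc
      push Not at hc
      have h1 := hFspec (c + 1)
      have h2 : N ≤ F (c + 1) := by
        by_contra h3
        push Not at h3
        have h4 := hn0 _ h3
        have h5 : (0 : ℤ) ≤ (c : ℤ) * D := by positivity
        push_cast at h1
        have h6 : (((c : ℤ) + 1)) * D = c * D + D := by ring
        omega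
      obtain ⟨e, he⟩ := Nat.exists_eq_add_of_le h2
      have h3 : e < F c := by omega
      have h4 := hFmin c e h3
      have h5 : F (c + 1) = e + N := by omega
      rw [h5, hνN] at h1
      push_cast at h1
      have h6 : (((c : ℤ) + 1)) * D = c * D + D := by ring
      omega
  have hFge : ∀ c, c ≤ F c := by
    intro c
    induction c with
    | zero => omega
    | succ c ih => rw [hFsucc]; omega
  -- rotation from k0 to F c
  have hk0n : ν (k0 + 1) > n0 := hk0' _ (by omega)
  have hstart : (nb s)^[k0] d = (((nb s)^[k0] d).1, n0, true) := by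
    have h1 : (nb s)^[k0 + 1] d = nb s ((nb s)^[k0] d) := Function.iterate_succ_apply' _ _ _
    have h2 := level_up (s := s) (d := (nb s)^[k0] d) (n0 := n0) hk0 (by rw [← h1]; exact hk0n)
    rcases hd : (nb s)^[k0] d with ⟨a, n, c⟩
    rw [hd] at h2
    simp only at h2
    rw [h2.1, h2.2.1]
  have key : ∀ c, 1 ≤ c → k0 < F c → rotb s (F c - k0) ((nb s)^[k0] d) = 0 := by
    intro c hc1 hc
    have hcD : (0 : ℤ) < (c : ℤ) * D := by positivity
    have hF1 : 1 ≤ F c := by omega
    have h1 : ν (F c - 1) ≤ n0 + c * D - 1 := by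
      have := hFmin c (F c - 1) (by omega)
      omega
    have h2 : (nb s)^[F c] d = nb s ((nb s)^[F c - 1] d) := by
      rw [← Function.iterate_succ_apply' (nb s)]
      congr 1
      omega
    have h3 := level_up (s := s) (d := (nb s)^[F c - 1] d) (n0 := n0 + c * D - 1) h1 (by
      rw [← h2]
      have := hFspec c
      simp only [hν] at this
      omega)
    have h4 : (nb s)^[F c] d = (((nb s)^[F c - 1] d).1, n0 + c * D, true) := by
      rw [h2, h3.2.2]
      congr 2
      ring
    have h5 : (nb s)^[F c - k0] ((nb s)^[k0] d) = (nb s)^[F c] d := by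
      rw [← Function.iterate_add_apply]; congr 1; omega
    rw [hstart]
    refine brick_through s (F c - k0) _ n0 (((nb s)^[F c - 1] d).1) (n0 + c * D) ?_ ?_ ?_
    · rw [← hstart, h5, h4]
    · intro i hi1 _
      rw [← hstart, ← Function.iterate_add_apply]
      have := hk0' (i + k0) (by omega)
      simp only [hν] at this
      omega
    · intro i hi
      rw [← hstart, ← Function.iterate_add_apply]
      have := hFmin c (i + k0) (by omega)
      simp only [hν] at this
      omega
  have hc0 := hFge (k0 + 1)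
  have e1 := key (k0 + 1) (by omega) (by omega)
  have e2 := key (k0 + 1 + 1) (by omega) (by rw [hFsucc]; omega)
  have e3 : F (k0 + 1 + 1) - k0 = (F (k0 + 1) - k0) + N := by rw [hFsucc]; omega
  rw [e3, rotb_add, e1, zero_add] at e2
  have e4 : (nb s)^[F (k0 + 1) - k0] ((nb s)^[k0] d) = (nb s)^[F (k0 + 1)] d := by
    rw [← Function.iterate_add_apply]; congr 1; omega
  rw [e4] at e2
  -- shift invariance of the period sum
  set i := F (k0 + 1) with hi
  have h1 := rotb_add s i N d
  have h2 := rotb_add s N i d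
  rw [hper, rotb_sh hPD hs] at h2
  rw [add_comm N i] at h2
  linarith

/-- **periodic strands with vertical drift have rotation zero** -/
theorem brick_periodic {s : ℤ → ℤ → Bool} {P D : ℤ} (hPD : (P - D) % 2 = 0)
    (hs : ∀ q n, s (q + P) (n + D) = s q n) (hD : D ≠ 0) {N : ℕ} (hN : 0 < N) {d : AD}
    (hper : (nb s)^[N] d = sh P D d) : rotb s N d = 0 := by
  rcases lt_or_gt_of_ne hD with h | h
  · -- reversed strand
    have hs' : ∀ q n, s (q + -P) (n + -D) = s q n := by
      intro q n
      have := hs (q + -P) (n + -D)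
      rw [← this]
      congr 1 <;> ring
    have h1 := iterb_rv s N d
    rw [hper] at h1
    have h2 : rv d = sh (-P) (-D) (rv (sh P D d)) := by
      simp [rv, sh]
    rw [h2] at h1
    have h3 := periodic_pos (P := -P) (D := -D) (by omega) hs' (by omega) hN h1
    have h4 := rotb_rv s N d
    rw [hper, h3] at h4
    linarith
  · exact periodic_pos hPD hs h hN hper

end Crest.Agent.R158.Ts405
end

-- ▼ part R158/Ts7_405

/-!
# R158, T1 part 7: turning numbers of the strands of `Bk0_430` over `ℤ × ℤ`
-/

set_option autoImplicit false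

namespace Crest.Agent.R158.Ts405

open Crest.Agent.R158.Bk430 (ME HasPar par vp ori hd tl kap turn)

/-- brickwork coordinates of a canonically oriented edge -/
def Phi (e : ME ℤ ℤ) : AD :=
  (if e.2 then e.1.1 - e.1.2 else e.1.1 - e.1.2 + 1, e.1.1 + e.1.2, ori e)

/-- the splitting in brickwork coordinates -/
def sbr (s : ℤ × ℤ → Bool) (q n : ℤ) : Bool := s ((q + n) / 2, (n - q) / 2)

theorem sbr_at (s : ℤ × ℤ → Bool) {q n i j : ℤ} (h1 : q = i - j) (h2 : n = i + j) :
    sbr s q n = s (i, j) := by
  unfold sbr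
  have e1 : (q + n) / 2 = i := by omega
  have e2 : (n - q) / 2 = j := by omega
  rw [e1, e2]

theorem vp_int (i j : ℤ) : vp ((i, j) : ℤ × ℤ) = decide ((i + j) % 2 = 1) := by
  unfold vp
  simp only [HasPar.par]
  by_cases h1 : i % 2 = 1 <;> by_cases h2 : j % 2 = 1
  · have : ¬ (i + j) % 2 = 1 := by omega
    simp [h1, h2, this]
  · have : (i + j) % 2 = 1 := by omega
    simp [h1, h2, this]
  · have : (i + j) % 2 = 1 := by omega
    simp [h1, h2, this]
  · have : ¬ (i + j) % 2 = 1 := by omega
    simp [h1, h2, this]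

/-- type of an edge -/
def ty (e : ME ℤ ℤ) : ℤ := if e.2 then 1 else 0

theorem step_main (s : ℤ × ℤ → Bool) (e : ME ℤ ℤ) :
    nb (sbr s) (Phi e) = Phi (Bk430.nx s e) ∧
      turn s e = 2 * rb (sbr s) (Phi e) + (ty (Bk430.nx s e) - ty e) := by
  obtain ⟨⟨i, j⟩, c⟩ := e
  by_cases hp : (i + j) % 2 = 1
  · have hv : vp ((i, j) : ℤ × ℤ) = true := by rw [vp_int]; simp [hp]
    have hv1 : vp ((i + 1, j) : ℤ × ℤ) = false := by rw [vp_int]; simp; omega
    have hv2 : vp ((i, j - 1) : ℤ × ℤ) = false := by rw [vp_int]; simp; omega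
    have hv3 : vp ((i - 1, j) : ℤ × ℤ) = false := by rw [vp_int]; simp; omega
    have hv4 : vp ((i + 1, j - 1) : ℤ × ℤ) = true := by rw [vp_int]; simp; omega
    cases c
    · -- H(v), v odd, directed right
      have hhd : hd (((i, j), false) : ME ℤ ℤ) = (i + 1, j) := by simp [hd, hv]
      have hphi : Phi ((i, j), false) = (i - j + 1, i + j, true) := by simp [Phi, ori, hv]
      have hvq : vq (i - j + 1) (i + j + 1) = i - j + 1 := vq_unique (by omega) (Or.inl rfl)
      have hsb : sbr s (i - j + 1) (i + j + 1) = s (i + 1, j) := sbr_at s (by ring) (by ring)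
      rcases hs : s (i + 1, j) with _ | _
      · have hnx : Bk430.nx s ((i, j), false) = ((i + 1, j), true) := by
          simp [Bk430.nx, hhd, hv, hs]
        rw [hs] at hsb
        rw [hnx, hphi]
        refine ⟨?_, ?_⟩
        · simp [nb, hvq, hsb, Phi, ori, hv1]
          constructor <;> ring
        · simp [turn, kap, hhd, hv1, hs, rb, hvq, hsb, ty]
      · have hnx : Bk430.nx s ((i, j), false) = ((i + 1, j - 1), true) := by
          simp [Bk430.nx, hhd, hv, hs]
        rw [hs] at hsb
        rw [hnx, hphi]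
        refine ⟨?_, ?_⟩
        · simp [nb, hvq, hsb, Phi, ori, hv4]
          ring
        · simp [turn, kap, hhd, hv1, hs, rb, hvq, hsb, ty]
    · -- V(v), v odd, directed down
      have hhd : hd (((i, j), true) : ME ℤ ℤ) = (i, j) := by simp [hd, hv]
      have hphi : Phi ((i, j), true) = (i - j, i + j, false) := by simp [Phi, ori, hv]
      have hvq : vq (i - j) (i + j) = i - j := vq_unique (by omega) (Or.inl rfl)
      have hsb : sbr s (i - j) (i + j) = s (i, j) := sbr_at s (by ring) (by ring)
      rcases hs : s (i, j) with _ | _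
      · have hnx : Bk430.nx s ((i, j), true) = ((i - 1, j), false) := by
          simp [Bk430.nx, hhd, hv, hs]
        rw [hs] at hsb
        rw [hnx, hphi]
        refine ⟨?_, ?_⟩
        · simp [nb, hvq, hsb, Phi, ori, hv3]
          constructor <;> ring
        · simp [turn, kap, hhd, hv, hs, rb, hvq, hsb, ty]
      · have hnx : Bk430.nx s ((i, j), true) = ((i, j), false) := by
          simp [Bk430.nx, hhd, hv, hs]
        rw [hs] at hsb
        rw [hnx, hphi]
        refine ⟨?_, ?_⟩
        · simp [nb, hvq, hsb, Phi, ori, hv]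
          ring
        · simp [turn, kap, hhd, hv, hs, rb, hvq, hsb, ty]
  · have hv : vp ((i, j) : ℤ × ℤ) = false := by rw [vp_int]; simp; omega
    have hv1 : vp ((i - 1, j) : ℤ × ℤ) = true := by rw [vp_int]; simp; omega
    have hv2 : vp ((i, j - 1) : ℤ × ℤ) = true := by rw [vp_int]; simp; omega
    have hv3 : vp ((i, j + 1) : ℤ × ℤ) = true := by rw [vp_int]; simp; omega
    have hv4 : vp ((i - 1, j + 1) : ℤ × ℤ) = false := by rw [vp_int]; simp; omega
    cases c
    · -- H(v), v even, directed left
      have hhd : hd (((i, j), false) : ME ℤ ℤ) = (i, j) := by simp [hd, hv]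
      have hphi : Phi ((i, j), false) = (i - j + 1, i + j, false) := by simp [Phi, ori, hv]
      have hvq : vq (i - j + 1) (i + j) = i - j := vq_unique (by omega) (Or.inr rfl)
      have hsb : sbr s (i - j) (i + j) = s (i, j) := sbr_at s (by ring) (by ring)
      rcases hs : s (i, j) with _ | _
      · have hnx : Bk430.nx s ((i, j), false) = ((i, j - 1), true) := by
          simp [Bk430.nx, hhd, hv, hs]
        rw [hs] at hsb
        rw [hnx, hphi]
        refine ⟨?_, ?_⟩
        · simp [nb, hvq, hsb, Phi, ori, hv2]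
          constructor <;> ring
        · simp [turn, kap, hhd, hv, hs, rb, hvq, hsb, ty]
      · have hnx : Bk430.nx s ((i, j), false) = ((i, j), true) := by
          simp [Bk430.nx, hhd, hv, hs]
        rw [hs] at hsb
        rw [hnx, hphi]
        refine ⟨?_, ?_⟩
        · simp [nb, hvq, hsb, Phi, ori, hv]
          ring
        · simp [turn, kap, hhd, hv, hs, rb, hvq, hsb, ty]
    · -- V(v), v even, directed up
      have hhd : hd (((i, j), true) : ME ℤ ℤ) = (i, j + 1) := by simp [hd, hv]
      have hphi : Phi ((i, j), true) = (i - j, i + j, true) := by simp [Phi, ori, hv]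
      have hvq : vq (i - j) (i + j + 1) = i - j - 1 := vq_unique (by omega) (Or.inr (by ring))
      have hsb : sbr s (i - j - 1) (i + j + 1) = s (i, j + 1) := sbr_at s (by ring) (by ring)
      rcases hs : s (i, j + 1) with _ | _
      · have hnx : Bk430.nx s ((i, j), true) = ((i, j + 1), false) := by
          simp [Bk430.nx, hhd, hv, hs]
        rw [hs] at hsb
        rw [hnx, hphi]
        refine ⟨?_, ?_⟩
        · simp [nb, hvq, hsb, Phi, ori, hv3]
          constructor <;> ring
        · simp [turn, kap, hhd, hv3, hs, rb, hvq, hsb, ty]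
      · have hnx : Bk430.nx s ((i, j), true) = ((i - 1, j + 1), false) := by
          simp [Bk430.nx, hhd, hv, hs]
        rw [hs] at hsb
        rw [hnx, hphi]
        refine ⟨?_, ?_⟩
        · simp [nb, hvq, hsb, Phi, ori, hv4]
          ring
        · have hne : i - j ≠ i - j - 1 := by omega
          simp [turn, kap, hhd, hv3, hs, rb, hvq, hsb, ty, hne]


theorem iter_main (s : ℤ × ℤ → Bool) (e : ME ℤ ℤ) (k : ℕ) :
    (nb (sbr s))^[k] (Phi e) = Phi ((Bk430.nx s)^[k] e) := by
  induction k with
  | zero => rfl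
  | succ k ih =>
    rw [Function.iterate_succ_apply', ih, (step_main s _).1, Function.iterate_succ_apply']

/-- sum of the turns along a strand -/
theorem turn_sum (s : ℤ × ℤ → Bool) (e : ME ℤ ℤ) (k : ℕ) :
    ∑ i ∈ Finset.range k, turn s ((Bk430.nx s)^[i] e)
      = 2 * rotb (sbr s) k (Phi e) + (ty ((Bk430.nx s)^[k] e) - ty e) := by
  induction k with
  | zero => simp [rotb]
  | succ k ih =>
    rw [Finset.sum_range_succ, ih, rotb_add, rotb_one, iter_main, (step_main s _).2,
      Function.iterate_succ_apply']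
    ring

theorem Phi_inj : Function.Injective Phi := by
  rintro ⟨⟨i, j⟩, c⟩ ⟨⟨i', j'⟩, c'⟩ h
  have h1 : (if c then i - j else i - j + 1) = (if c' then i' - j' else i' - j' + 1) :=
    congrArg (fun x : AD => x.1) h
  have h2 : i + j = i' + j' := congrArg (fun x : AD => x.2.1) h
  cases c <;> cases c' <;> simp at h1
  · have e1 : i = i' := by omega
    have e2 : j = j' := by omega
    rw [e1, e2]
  · omega
  · omega
  · have e1 : i = i' := by omega
    have e2 : j = j' := by omega
    rw [e1, e2]

/-- **T1 (a): turning number of a closed strand, with its top vertex `u`.**  All edges of the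
strand are below the antidiagonal through `u`; the strand passes the cap at `u` (`s u = true`);
the turning number is `+4` iff it goes from S to W there (`+4`: the inside is on the left). -/
theorem T1_closed (s : ℤ × ℤ → Bool) (e : ME ℤ ℤ) (k : ℕ) (hk : 0 < k)
    (hper : (Bk430.nx s)^[k] e = e) (hmin : ∀ i, 0 < i → i < k → (Bk430.nx s)^[i] e ≠ e) :
    ∃ (i : ℕ) (u : ℤ × ℤ), i < k ∧ s u = true ∧
      (∀ l, ((Bk430.nx s)^[l] e).1.1 + ((Bk430.nx s)^[l] e).1.2 ≤ u.1 + u.2 - 1) ∧
      (((Bk430.nx s)^[i] e = ((u.1, u.2 - 1), true) ∧ ori ((Bk430.nx s)^[i] e) = true ∧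
          ∑ l ∈ Finset.range k, turn s ((Bk430.nx s)^[l] e) = 4) ∨
        ((Bk430.nx s)^[i] e = ((u.1 - 1, u.2), false) ∧ ori ((Bk430.nx s)^[i] e) = true ∧
          ∑ l ∈ Finset.range k, turn s ((Bk430.nx s)^[l] e) = -4)) := by
  have h1 : (nb (sbr s))^[k] (Phi e) = Phi e := by rw [iter_main, hper]
  have h2 : ∀ i, 0 < i → i < k → (nb (sbr s))^[i] (Phi e) ≠ Phi e := by
    intro i hi1 hi2 h
    rw [iter_main] at h
    exact hmin i hi1 hi2 (Phi_inj h)
  obtain ⟨i, q, n, hi, hpar, hs, hlev, hcase⟩ := brick_closed (sbr s) k hk (Phi e) h1 h2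
  have hsum := turn_sum s e k
  rw [hper, sub_self, add_zero] at hsum
  have e1 : (n + q) / 2 + (n - q) / 2 = n := by omega
  have e2 : (n + q) / 2 - (n - q) / 2 = q := by omega
  refine ⟨i, ((q + n) / 2, (n - q) / 2), hi, hs, ?_, ?_⟩
  · intro l
    have h3 := hlev l
    rw [iter_main] at h3
    have h4 : (Phi ((Bk430.nx s)^[l] e)).2.1
      = ((Bk430.nx s)^[l] e).1.1 + ((Bk430.nx s)^[l] e).1.2 := rfl
    rw [h4] at h3
    simp only
    omega
  · rcases hcase with ⟨h3, h4⟩ | ⟨h3, h4⟩
    · left
      rw [iter_main] at h3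
      rcases he : (Bk430.nx s)^[i] e with ⟨⟨a, b⟩, c⟩
      rw [he] at h3
      have h5 : (if c then a - b else a - b + 1) = q + 1 := congrArg (fun x : AD => x.1) h3
      have h6 : a + b = n - 1 := congrArg (fun x : AD => x.2.1) h3
      have h7 : ori (((a, b), c) : ME ℤ ℤ) = true := congrArg (fun x : AD => x.2.2) h3
      refine ⟨?_, h7, by rw [hsum, h4]; norm_num⟩
      cases c
      · simp at h5; omega
      · simp at h5
        simp only [Prod.mk.injEq, and_true]
        constructor <;> omega
    · right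
      rw [iter_main] at h3
      rcases he : (Bk430.nx s)^[i] e with ⟨⟨a, b⟩, c⟩
      rw [he] at h3
      have h5 : (if c then a - b else a - b + 1) = q := congrArg (fun x : AD => x.1) h3
      have h6 : a + b = n - 1 := congrArg (fun x : AD => x.2.1) h3
      have h7 : ori (((a, b), c) : ME ℤ ℤ) = true := congrArg (fun x : AD => x.2.2) h3
      refine ⟨?_, h7, by rw [hsum, h4]; norm_num⟩
      cases c
      · simp at h5
        simp only [Prod.mk.injEq, and_true]
        constructor <;> omega
      · simp at h5; omega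

/-- translation of an edge -/
def shE (P : ℤ × ℤ) (e : ME ℤ ℤ) : ME ℤ ℤ := ((e.1.1 + P.1, e.1.2 + P.2), e.2)

theorem Phi_shE {P : ℤ × ℤ} (hP : (P.1 + P.2) % 2 = 0) (e : ME ℤ ℤ) :
    Phi (shE P e) = sh (P.1 - P.2) (P.1 + P.2) (Phi e) := by
  obtain ⟨⟨i, j⟩, c⟩ := e
  have h1 : vp ((i + P.1, j + P.2) : ℤ × ℤ) = vp ((i, j) : ℤ × ℤ) := by
    rw [vp_int, vp_int]
    congr 1
    apply propext
    omega
  have h2 : ori (((i + P.1, j + P.2), c) : ME ℤ ℤ) = ori (((i, j), c) : ME ℤ ℤ) := by
    unfold ori; rw [h1]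
  unfold Phi shE sh
  simp only [Prod.mk.injEq]
  refine ⟨?_, by ring, h2⟩
  split_ifs <;> ring

/-- **T1 (b), first case: drift not antidiagonal** -/
theorem T1_periodic_diag (s : ℤ × ℤ → Bool) (P : ℤ × ℤ) (hP : (P.1 + P.2) % 2 = 0)
    (hs : ∀ u : ℤ × ℤ, s (u.1 + P.1, u.2 + P.2) = s u) (hne : P.1 + P.2 ≠ 0)
    (e : ME ℤ ℤ) (k : ℕ) (hk : 0 < k) (hper : (Bk430.nx s)^[k] e = shE P e) :
    ∑ l ∈ Finset.range k, turn s ((Bk430.nx s)^[l] e) = 0 := by
  rw [turn_sum, hper]
  have h1 : ty (shE P e) = ty e := rfl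
  rw [h1, sub_self, add_zero]
  have h2 : rotb (sbr s) k (Phi e) = 0 := by
    refine brick_periodic (P := P.1 - P.2) (D := P.1 + P.2) (by omega) ?_ hne hk ?_
    · intro q n
      unfold sbr
      have := hs ((q + n) / 2, (n - q) / 2)
      simp only at this
      rw [← this]
      congr 2
      · omega
      · omega
    · rw [iter_main, hper, Phi_shE hP]
  rw [h2]; norm_num

/-! ### reflection `i ↦ -i` -/

def rfE (e : ME ℤ ℤ) : ME ℤ ℤ := if e.2 then ((-e.1.1, e.1.2), true) else ((-e.1.1 - 1, e.1.2), false)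

def rfS (s : ℤ × ℤ → Bool) (u : ℤ × ℤ) : Bool := !s (-u.1, u.2)

theorem vp_rf (i j : ℤ) : vp ((-i, j) : ℤ × ℤ) = vp ((i, j) : ℤ × ℤ) := by
  rw [vp_int, vp_int]; congr 1; apply propext; omega

theorem vp_rf' (i j : ℤ) : vp ((-i - 1, j) : ℤ × ℤ) = !vp ((i, j) : ℤ × ℤ) := by
  rw [vp_int, vp_int]
  by_cases h : (i + j) % 2 = 1
  · have : ¬ (-i - 1 + j) % 2 = 1 := by omega
    simp [h, this]
  · have : (-i - 1 + j) % 2 = 1 := by omega
    simp [h, this]

theorem nx_rf (s : ℤ × ℤ → Bool) (e : ME ℤ ℤ) :
    Bk430.nx (rfS s) (rfE e) = rfE (Bk430.nx s e) ∧ turn (rfS s) (rfE e) = - turn s e := by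
  obtain ⟨⟨i, j⟩, c⟩ := e
  have g1 := vp_rf i j
  have g2 := vp_rf' i j
  have g3 := vp_rf i (j + 1)
  have g4 := vp_rf (i + 1) j
  cases c <;> cases hv : vp ((i, j) : ℤ × ℤ)
  · -- H, even: directed left, head (i,j)
    have hhd : hd (((i, j), false) : ME ℤ ℤ) = (i, j) := by simp [hd, hv]
    have hhd' : hd (((-i - 1, j), false) : ME ℤ ℤ) = (-i, j) := by simp [hd, g2, hv]
    refine ⟨?_, ?_⟩
    · cases hs : s (i, j) <;> simp [Bk430.nx, rfE, rfS, hhd, hhd', g2, hv, hs]
    · cases hs : s (i, j) <;> simp [turn, kap, rfE, rfS, hhd, hhd', g1, hv, hs]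
  · have hhd : hd (((i, j), false) : ME ℤ ℤ) = (i + 1, j) := by simp [hd, hv]
    have hhd' : hd (((-i - 1, j), false) : ME ℤ ℤ) = (-i - 1, j) := by simp [hd, g2, hv]
    have e1 : -(-i - 1) = i + 1 := by ring
    have e2 : -(i + 1) = -i - 1 := by ring
    have hv1 : vp ((i + 1, j) : ℤ × ℤ) = false := by simp [hv]
    rw [hv1, e2] at g4
    refine ⟨?_, ?_⟩
    · cases hs : s (i + 1, j) <;> simp [Bk430.nx, rfE, rfS, hhd, hhd', g2, hv, hs, e1, e2]
    · cases hs : s (i + 1, j) <;> simp [turn, kap, rfE, rfS, hhd, hhd', g4, hv, hs, e1]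
  · have hhd : hd (((i, j), true) : ME ℤ ℤ) = (i, j + 1) := by simp [hd, hv]
    have hhd' : hd (((-i, j), true) : ME ℤ ℤ) = (-i, j + 1) := by simp [hd, g1, hv]
    have hv1 : vp ((i, j + 1) : ℤ × ℤ) = true := by simp [hv]
    rw [hv1] at g3
    refine ⟨?_, ?_⟩
    · cases hs : s (i, j + 1) <;> simp [Bk430.nx, rfE, rfS, hhd, hhd', g1, hv, hs]
    · cases hs : s (i, j + 1) <;> simp [turn, kap, rfE, rfS, hhd, hhd', g3, hv, hs]
  · have hhd : hd (((i, j), true) : ME ℤ ℤ) = (i, j) := by simp [hd, hv]
    have hhd' : hd (((-i, j), true) : ME ℤ ℤ) = (-i, j) := by simp [hd, g1, hv]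
    refine ⟨?_, ?_⟩
    · cases hs : s (i, j) <;> simp [Bk430.nx, rfE, rfS, hhd, hhd', g1, hv, hs]
    · cases hs : s (i, j) <;> simp [turn, kap, rfE, rfS, hhd, hhd', g1, hv, hs]

end Crest.Agent.R158.Ts405
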