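import Crest.Agent.R161.Dual_374

-- ▼ part R158/It1_200
section

/-!
# Row 158, BLOCK IT (helper200), part 1: interfaces (medial strands) of a bond configuration of `ℤ²`

A *corner* `(v, q)` is the medial edge between the vertex `v` (on its right) and the face `fc (v,q)`
(on its left); `q = 0,1,2,3` = NE, SE, SW, NW.  The medial edge `(v, q)` runs from the midpoint of the
edge `bh (v,q)` to the midpoint of `ah (v,q)`.  `nx z` is the successor map of the configuration `z`:
at an open edge the strand keeps its face and changes its vertex (left turn), at a closed edge it keeps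
its vertex and changes its face (right turn).

* `nxE z : Corner ≃ Corner`
* `side_v`, `side_f` : the right side of a strand is an open path, the left side a dual path
* `nx_congr`, `iter_congr`: locality
-/

set_option autoImplicit false

namespace Crest.Agent.R158.It200

open Crest.Agent.R161.Geo729 Crest.Agent.R161.Dual374

/-- bond configurations (same as `Rs689.Cfz`, `Tas682.Cf`) -/
abbrev Cfz : Type := Edge → Bool

/-- corners = medial edges -/
abbrev Corner : Type := P2 × Fin 4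

/-- the face on the left of the corner -/
def fc (c : Corner) : P2 :=
  match c.2 with
  | 0 => (c.1.1, c.1.2)
  | 1 => (c.1.1, c.1.2 - 1)
  | 2 => (c.1.1 - 1, c.1.2 - 1)
  | 3 => (c.1.1 - 1, c.1.2)

/-- the edge ahead -/
def ah (c : Corner) : Edge :=
  match c.2 with
  | 0 => ((c.1.1, c.1.2), false)
  | 1 => ((c.1.1, c.1.2 - 1), true)
  | 2 => ((c.1.1 - 1, c.1.2), false)
  | 3 => ((c.1.1, c.1.2), true)

/-- the edge behind -/
def bh (c : Corner) : Edge :=
  match c.2 with
  | 0 => ((c.1.1, c.1.2), true)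
  | 1 => ((c.1.1, c.1.2), false)
  | 2 => ((c.1.1, c.1.2 - 1), true)
  | 3 => ((c.1.1 - 1, c.1.2), false)

/-- the other endpoint of the edge ahead -/
def wa (c : Corner) : P2 :=
  match c.2 with
  | 0 => (c.1.1 + 1, c.1.2)
  | 1 => (c.1.1, c.1.2 - 1)
  | 2 => (c.1.1 - 1, c.1.2)
  | 3 => (c.1.1, c.1.2 + 1)

/-- the other endpoint of the edge behind -/
def wb (c : Corner) : P2 :=
  match c.2 with
  | 0 => (c.1.1, c.1.2 + 1)
  | 1 => (c.1.1 + 1, c.1.2)
  | 2 => (c.1.1, c.1.2 - 1)
  | 3 => (c.1.1 - 1, c.1.2)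

/-- right turn (`q + 1`) -/
def rr (q : Fin 4) : Fin 4 :=
  match q with
  | 0 => 1
  | 1 => 2
  | 2 => 3
  | 3 => 0

/-- left turn (`q - 1`) -/
def rl (q : Fin 4) : Fin 4 :=
  match q with
  | 0 => 3
  | 1 => 0
  | 2 => 1
  | 3 => 2

@[simp] theorem rl_rr (q : Fin 4) : rl (rr q) = q := by fin_cases q <;> rfl
@[simp] theorem rr_rl (q : Fin 4) : rr (rl q) = q := by fin_cases q <;> rfl

/-- successor through an open edge (left turn) -/
def nxo (c : Corner) : Corner := (wa c, rl c.2)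

/-- successor along a closed edge (right turn) -/
def nxc (c : Corner) : Corner := (c.1, rr c.2)

/-- predecessor through an open edge -/
def pvo (c : Corner) : Corner := (wb c, rr c.2)

/-- predecessor along a closed edge -/
def pvc (c : Corner) : Corner := (c.1, rl c.2)

/-- successor -/
def nx (z : Cfz) (c : Corner) : Corner := if z (ah c) = true then nxo c else nxc c

/-- predecessor -/
def pv (z : Cfz) (c : Corner) : Corner := if z (bh c) = true then pvo c else pvc c

theorem bh_nxo (c : Corner) : bh (nxo c) = ah c := by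
  obtain ⟨⟨a, b⟩, q⟩ := c
  fin_cases q <;> simp [nxo, wa, ah, bh, rl]

theorem bh_nxc (c : Corner) : bh (nxc c) = ah c := by
  obtain ⟨⟨a, b⟩, q⟩ := c
  fin_cases q <;> simp [nxc, ah, bh, rr]

theorem ah_pvo (c : Corner) : ah (pvo c) = bh c := by
  obtain ⟨⟨a, b⟩, q⟩ := c
  fin_cases q <;> simp [pvo, wb, ah, bh, rr]

theorem ah_pvc (c : Corner) : ah (pvc c) = bh c := by
  obtain ⟨⟨a, b⟩, q⟩ := c
  fin_cases q <;> simp [pvc, ah, bh, rl]

theorem pvo_nxo (c : Corner) : pvo (nxo c) = c := by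
  obtain ⟨⟨a, b⟩, q⟩ := c
  fin_cases q <;> simp [nxo, pvo, wa, wb, rl, rr]

theorem pvc_nxc (c : Corner) : pvc (nxc c) = c := by
  obtain ⟨⟨a, b⟩, q⟩ := c
  fin_cases q <;> simp [nxc, pvc, rl, rr]

theorem nxo_pvo (c : Corner) : nxo (pvo c) = c := by
  obtain ⟨⟨a, b⟩, q⟩ := c
  fin_cases q <;> simp [nxo, pvo, wa, wb, rl, rr]

theorem nxc_pvc (c : Corner) : nxc (pvc c) = c := by
  obtain ⟨⟨a, b⟩, q⟩ := c
  fin_cases q <;> simp [nxc, pvc, rl, rr]

theorem pv_nx (z : Cfz) (c : Corner) : pv z (nx z c) = c := by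
  unfold nx
  split_ifs with h
  · rw [pv, bh_nxo, if_pos h, pvo_nxo]
  · rw [pv, bh_nxc, if_neg h, pvc_nxc]

theorem nx_pv (z : Cfz) (c : Corner) : nx z (pv z c) = c := by
  unfold pv
  split_ifs with h
  · rw [nx, ah_pvo, if_pos h, nxo_pvo]
  · rw [nx, ah_pvc, if_neg h, nxc_pvc]

/-- the successor map as a permutation of the corners -/
def nxE (z : Cfz) : Equiv.Perm Corner where
  toFun := nx z
  invFun := pv z
  left_inv := pv_nx z
  right_inv := nx_pv z

@[simp] theorem nxE_apply (z : Cfz) (c : Corner) : nxE z c = nx z c := rfl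
@[simp] theorem nxE_symm_apply (z : Cfz) (c : Corner) : (nxE z).symm c = pv z c := rfl

theorem nx_open {z : Cfz} {c : Corner} (h : z (ah c) = true) : nx z c = nxo c := if_pos h

theorem nx_closed {z : Cfz} {c : Corner} (h : z (ah c) = false) : nx z c = nxc c :=
  if_neg (by rw [h]; simp)


theorem ah_pv (z : Cfz) (c : Corner) : ah (pv z c) = bh c := by
  unfold pv; split_ifs
  · exact ah_pvo c
  · exact ah_pvc c

/-! ### sides -/

theorem fc_nxo (c : Corner) : fc (nxo c) = fc c := by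
  obtain ⟨⟨a, b⟩, q⟩ := c
  fin_cases q <;> simp [nxo, wa, fc, rl]

@[simp] theorem fst_nxc (c : Corner) : (nxc c).1 = c.1 := rfl
@[simp] theorem fst_nxo (c : Corner) : (nxo c).1 = wa c := rfl

/-- the endpoints of the edge ahead are the vertex of the corner and `wa` -/
theorem ah_ends (c : Corner) :
    (c.1 = src (ah c) ∧ wa c = tgt (ah c)) ∨ (c.1 = tgt (ah c) ∧ wa c = src (ah c)) := by
  obtain ⟨⟨a, b⟩, q⟩ := c
  fin_cases q <;> simp [wa, ah, src, tgt]

/-- the faces of the edge ahead are the face of the corner and that of `nxc` -/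
theorem ah_faces (c : Corner) :
    (fc c = fA (ah c) ∧ fc (nxc c) = fB (ah c)) ∨ (fc c = fB (ah c) ∧ fc (nxc c) = fA (ah c)) := by
  obtain ⟨⟨a, b⟩, q⟩ := c
  fin_cases q <;> simp [fc, ah, fA, fB, nxc, rr]


theorem step_open {z : Cfz} {c : Corner} (h : z (ah c) = true) :
    PStep (fun e => z e = true) c.1 (nx z c).1 ∧ fc (nx z c) = fc c := by
  rw [nx_open h]
  exact ⟨⟨ah c, h, ah_ends c⟩, fc_nxo c⟩

theorem step_closed {z : Cfz} {c : Corner} (h : z (ah c) = false) :
    DStep (fun e => z e = false) (fc c) (fc (nx z c)) ∧ (nx z c).1 = c.1 := by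
  rw [nx_closed h]
  exact ⟨⟨ah c, h, ah_faces c⟩, rfl⟩

/-- right side: the vertices along a strand are joined by open edges -/
theorem side_v (z : Cfz) (c : Corner) (k : ℕ) :
    Relation.ReflTransGen (PStep (fun e => z e = true)) c.1 ((nx z)^[k] c).1 := by
  induction k with
  | zero => exact Relation.ReflTransGen.refl
  | succ k ih =>
      rw [Function.iterate_succ_apply']
      set d := (nx z)^[k] c
      cases h : z (ah d) with
      | true => exact ih.tail (step_open h).1
      | false => rw [(step_closed h).2]; exact ih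



/-- left side, with control of the edges crossed -/
theorem side_f' (z : Cfz) (c : Corner) (k : ℕ) :
    Relation.ReflTransGen (DStep (fun e => z e = false ∧ ∃ j < k, e = ah ((nx z)^[j] c)))
      (fc c) (fc ((nx z)^[k] c)) := by
  induction k with
  | zero => exact Relation.ReflTransGen.refl
  | succ k ih =>
      rw [Function.iterate_succ_apply']
      have ih' : Relation.ReflTransGen (DStep (fun e => z e = false ∧
          ∃ j < k + 1, e = ah ((nx z)^[j] c))) (fc c) (fc ((nx z)^[k] c)) :=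
        Relation.ReflTransGen.mono
          (fun a b ⟨e, ⟨h1, j, hj, h2⟩, h3⟩ => ⟨e, ⟨h1, j, by omega, h2⟩, h3⟩) _ _ ih
      cases h : z (ah ((nx z)^[k] c)) with
      | true => rw [(step_open h).2]; exact ih'
      | false =>
          refine ih'.tail ⟨ah ((nx z)^[k] c), ⟨h, k, by omega, rfl⟩, ?_⟩
          rw [nx_closed h]
          exact ah_faces _

/-! ### locality -/

theorem nx_congr {z z' : Cfz} {c : Corner} (h : z (ah c) = z' (ah c)) : nx z c = nx z' c := by
  unfold nx; rw [h]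

theorem pv_congr {z z' : Cfz} {c : Corner} (h : z (bh c) = z' (bh c)) : pv z c = pv z' c := by
  unfold pv; rw [h]


/-! ### the four corners at an edge -/

/-- first incoming corner (at the source) -/
def i1 (e : Edge) : Corner := if e.2 then (e.1, 3) else (e.1, 0)
/-- second incoming corner (at the target) -/
def i2 (e : Edge) : Corner := if e.2 then ((e.1.1, e.1.2 + 1), 1) else ((e.1.1 + 1, e.1.2), 2)
/-- first outgoing corner (at the source) -/
def o1 (e : Edge) : Corner := if e.2 then (e.1, 0) else (e.1, 1)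
/-- second outgoing corner (at the target) -/
def o2 (e : Edge) : Corner := if e.2 then ((e.1.1, e.1.2 + 1), 2) else ((e.1.1 + 1, e.1.2), 3)

theorem ah_eq_iff (c : Corner) (e : Edge) : ah c = e ↔ c = i1 e ∨ c = i2 e := by
  obtain ⟨⟨a, b⟩, q⟩ := c
  obtain ⟨⟨x, y⟩, s⟩ := e
  fin_cases q <;> cases s <;> simp [ah, i1, i2] <;> omega

theorem bh_eq_iff (c : Corner) (e : Edge) : bh c = e ↔ c = o1 e ∨ c = o2 e := by
  obtain ⟨⟨a, b⟩, q⟩ := c
  obtain ⟨⟨x, y⟩, s⟩ := e
  fin_cases q <;> cases s <;> simp [bh, o1, o2] <;> omega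

@[simp] theorem ah_i1 (e : Edge) : ah (i1 e) = e := (ah_eq_iff _ _).2 (Or.inl rfl)
@[simp] theorem ah_i2 (e : Edge) : ah (i2 e) = e := (ah_eq_iff _ _).2 (Or.inr rfl)
@[simp] theorem bh_o1 (e : Edge) : bh (o1 e) = e := (bh_eq_iff _ _).2 (Or.inl rfl)
@[simp] theorem bh_o2 (e : Edge) : bh (o2 e) = e := (bh_eq_iff _ _).2 (Or.inr rfl)

theorem i1_ne_i2 (e : Edge) : i1 e ≠ i2 e := by
  obtain ⟨⟨x, y⟩, s⟩ := e
  cases s <;> simp [i1, i2]


theorem nxo_i1 (e : Edge) : nxo (i1 e) = o2 e := by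
  obtain ⟨⟨x, y⟩, s⟩ := e
  cases s <;> simp [i1, o2, nxo, wa, rl]

theorem nxo_i2 (e : Edge) : nxo (i2 e) = o1 e := by
  obtain ⟨⟨x, y⟩, s⟩ := e
  cases s <;> simp [i2, o1, nxo, wa, rl]

theorem nxc_i1 (e : Edge) : nxc (i1 e) = o1 e := by
  obtain ⟨⟨x, y⟩, s⟩ := e
  cases s <;> simp [i1, o1, nxc, rr]

theorem nxc_i2 (e : Edge) : nxc (i2 e) = o2 e := by
  obtain ⟨⟨x, y⟩, s⟩ := e
  cases s <;> simp [i2, o2, nxc, rr]

@[simp] theorem fst_i1 (e : Edge) : (i1 e).1 = src e := by
  obtain ⟨⟨x, y⟩, s⟩ := e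
  cases s <;> simp [i1]

@[simp] theorem fst_i2 (e : Edge) : (i2 e).1 = tgt e := by
  obtain ⟨⟨x, y⟩, s⟩ := e
  cases s <;> simp [i2, tgt]

@[simp] theorem fst_o1 (e : Edge) : (o1 e).1 = src e := by
  obtain ⟨⟨x, y⟩, s⟩ := e
  cases s <;> simp [o1]

@[simp] theorem fst_o2 (e : Edge) : (o2 e).1 = tgt e := by
  obtain ⟨⟨x, y⟩, s⟩ := e
  cases s <;> simp [o2, tgt]

theorem nx_i1 (z : Cfz) (e : Edge) : nx z (i1 e) = if z e = true then o2 e else o1 e := by
  unfold nx; rw [ah_i1, nxo_i1, nxc_i1]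

theorem nx_i2 (z : Cfz) (e : Edge) : nx z (i2 e) = if z e = true then o1 e else o2 e := by
  unfold nx; rw [ah_i2, nxo_i2, nxc_i2]

end Crest.Agent.R158.It200
private theorem rz_5323306897 : type_of% @_root_.Crest.Agent.R158.It200.rl.eq_1 := @_root_.Crest.Agent.R158.It200.rl.eq_1 -- L78
private theorem rz_ddd2dd77eb : type_of% @_root_.Crest.Agent.R158.It200.rr.eq_1 := @_root_.Crest.Agent.R158.It200.rr.eq_1 -- L70
end

-- ▼ part R158/It2_200

/-!
# Row 158, BLOCK IT (helper200), part 2: winding heights and the Jordan property of medial loops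

* `Cons J` : `J : Corner → ℤ` is a flow (in = out at every edge)
* `Hv J v`, `Hf J f` : winding height of a vertex / a face (signed crossings of the NE ray)
* `grad` : `Hf J (fc c) - Hv J c.1 = J c`
* `Lp z c` : the strand through `c` (two-sided orbit), `JL z c` its indicator
* `jordan` : for a finite strand, `Hv = a` on all right vertices, `Hf = a + 1` on all left faces,
  `a ∈ {0,-1}`, and all heights are in `{a, a+1}`
-/

set_option autoImplicit false

noncomputable section

namespace Crest.Agent.R158.It200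

open Crest.Agent.R161.Geo729 Crest.Agent.R161.Dual374
open Finset

/-- `v + (k,k)` -/
def dg (v : P2) (k : ℕ) : P2 := (v.1 + k, v.2 + k)

@[simp] theorem dg_zero (v : P2) : dg v 0 = v := by simp [dg]

theorem dg_dg (v : P2) (k l : ℕ) : dg (dg v k) l = dg v (k + l) := by
  simp only [dg, Prod.mk.injEq]; push_cast; constructor <;> ring

theorem dg_inj (v : P2) : Function.Injective (dg v) := by
  intro k l h
  simp only [dg, Prod.mk.injEq] at h
  omega

/-- flows -/
def Cons (J : Corner → ℤ) : Prop := ∀ e, J (i1 e) + J (i2 e) = J (o1 e) + J (o2 e)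

/-- winding height of a vertex -/
def Hv (J : Corner → ℤ) (v : P2) : ℤ := ∑ᶠ k : ℕ, (J (dg v (k + 1), 2) - J (dg v k, 0))

/-- winding height of a face -/
def Hf (J : Corner → ℤ) (f : P2) : ℤ := ∑ᶠ k : ℕ, (J (dg f (k + 1), 2) - J (dg f (k + 1), 0))

/-- finite support -/
abbrev Fs (J : Corner → ℤ) : Prop := (Function.support J).Finite

theorem Fs.bound {J : Corner → ℤ} (hJ : Fs J) (v : P2) :
    ∃ N : ℕ, ∀ k ≥ N, ∀ q, J (dg v k, q) = 0 := by
  have h1 : Set.Finite {k : ℕ | ∃ q, J (dg v k, q) ≠ 0} := by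
    have : {k : ℕ | ∃ q, J (dg v k, q) ≠ 0} ⊆ (dg v) ⁻¹' (Prod.fst '' Function.support J) := by
      rintro k ⟨q, hq⟩
      exact ⟨(dg v k, q), hq, rfl⟩
    exact ((hJ.image _).preimage (dg_inj v).injOn).subset this
  obtain ⟨N, hN⟩ := h1.bddAbove
  refine ⟨N + 1, fun k hk q => ?_⟩
  by_contra h
  have := hN ⟨q, h⟩
  omega

theorem Hv_eq {J : Corner → ℤ} {v : P2} {N : ℕ} (hN : ∀ k ≥ N, ∀ q, J (dg v k, q) = 0) :
    Hv J v = ∑ k ∈ range N, (J (dg v (k + 1), 2) - J (dg v k, 0)) := by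
  unfold Hv
  refine finsum_eq_sum_of_support_subset _ ?_
  intro k hk
  rw [coe_range, Set.mem_Iio]
  by_contra h
  apply hk
  show J (dg v (k + 1), 2) - J (dg v k, 0) = 0
  rw [hN k (by omega), hN (k + 1) (by omega)]; rfl

theorem Hf_eq {J : Corner → ℤ} {v : P2} {N : ℕ} (hN : ∀ k ≥ N, ∀ q, J (dg v k, q) = 0) :
    Hf J v = ∑ k ∈ range N, (J (dg v (k + 1), 2) - J (dg v (k + 1), 0)) := by
  unfold Hf
  refine finsum_eq_sum_of_support_subset _ ?_
  intro k hk
  rw [coe_range, Set.mem_Iio]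
  by_contra h
  apply hk
  show J (dg v (k + 1), 2) - J (dg v (k + 1), 0) = 0
  rw [hN (k + 1) (by omega), hN (k + 1) (by omega)]; rfl

/-- **gradient of the height** -/
theorem grad {J : Corner → ℤ} (hJ : Fs J) (hC : Cons J) (c : Corner) :
    Hf J (fc c) - Hv J c.1 = J c := by
  obtain ⟨v, q⟩ := c
  obtain ⟨N1, hN1⟩ := hJ.bound v
  obtain ⟨N2, hN2⟩ := hJ.bound (fc (v, q))
  set N := max N1 N2
  have h1 : ∀ k ≥ N, ∀ q, J (dg v k, q) = 0 := fun k hk => hN1 k (le_trans (le_max_left _ _) hk)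
  have h2 : ∀ k ≥ N, ∀ q', J (dg (fc (v, q)) k, q') = 0 :=
    fun k hk => hN2 k (le_trans (le_max_right _ _) hk)
  rw [Hv_eq h1, Hf_eq h2, ← Finset.sum_sub_distrib]
  have tel : ∀ q' : Fin 4, ∑ k ∈ range N, (J (dg v k, q') - J (dg v (k + 1), q')) = J (v, q') := by
    intro q'
    rw [Finset.sum_range_sub' (fun k => J (dg v k, q')), h1 N le_rfl, dg_zero, sub_zero]
  rw [← tel q]
  refine Finset.sum_congr rfl fun k _ => ?_
  fin_cases q
  · show J (dg (v.1, v.2) (k + 1), 2) - J (dg (v.1, v.2) (k + 1), 0) -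
      (J (dg v (k + 1), 2) - J (dg v k, 0)) = J (dg v k, 0) - J (dg v (k + 1), 0)
    ring
  · have e1 := hC (dg v k, false)
    have e2 := hC (dg (v.1, v.2 - 1) (k + 1), true)
    have a1 : ((dg v k).1 + 1, (dg v k).2) = dg (v.1, v.2 - 1) (k + 1) := by
      simp only [dg, Prod.mk.injEq]; push_cast; constructor <;> ring
    have a2 : ((dg (v.1, v.2 - 1) (k + 1)).1, (dg (v.1, v.2 - 1) (k + 1)).2 + 1)
        = dg v (k + 1) := by
      refine Prod.ext ?_ ?_ <;> simp [dg, add_assoc]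
    simp only [i1, i2, o1, o2, if_true, Bool.false_eq_true, if_false, a1, a2] at e1 e2
    show J (dg (v.1, v.2 - 1) (k + 1), 2) - J (dg (v.1, v.2 - 1) (k + 1), 0) -
      (J (dg v (k + 1), 2) - J (dg v k, 0)) = J (dg v k, 1) - J (dg v (k + 1), 1)
    linarith
  · have a1 : dg (v.1 - 1, v.2 - 1) (k + 1) = dg v k := by
      simp only [dg, Prod.mk.injEq]; push_cast; constructor <;> ring
    show J (dg (v.1 - 1, v.2 - 1) (k + 1), 2) - J (dg (v.1 - 1, v.2 - 1) (k + 1), 0) -
      (J (dg v (k + 1), 2) - J (dg v k, 0)) = J (dg v k, 2) - J (dg v (k + 1), 2)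
    rw [a1]; ring
  · have e1 := hC (dg v k, true)
    have e2 := hC (dg (v.1 - 1, v.2) (k + 1), false)
    have a1 : ((dg v k).1, (dg v k).2 + 1) = dg (v.1 - 1, v.2) (k + 1) := by
      simp only [dg, Prod.mk.injEq]; push_cast; constructor <;> ring
    have a2 : ((dg (v.1 - 1, v.2) (k + 1)).1 + 1, (dg (v.1 - 1, v.2) (k + 1)).2)
        = dg v (k + 1) := by
      refine Prod.ext ?_ ?_ <;> simp [dg, add_assoc]
    simp only [i1, i2, o1, o2, if_true, Bool.false_eq_true, if_false, a1, a2] at e1 e2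
    show J (dg (v.1 - 1, v.2) (k + 1), 2) - J (dg (v.1 - 1, v.2) (k + 1), 0) -
      (J (dg v (k + 1), 2) - J (dg v k, 0)) = J (dg v k, 3) - J (dg v (k + 1), 3)
    linarith

/-! ### linearity -/

theorem Fs.add {J K : Corner → ℤ} (hJ : Fs J) (hK : Fs K) : Fs (J + K) :=
  (hJ.union hK).subset (Function.support_add J K)

theorem Fs.neg {J : Corner → ℤ} (hJ : Fs J) : Fs (-J) := by
  unfold Fs; rwa [Function.support_neg]

theorem Fs.smul {J : Corner → ℤ} (hJ : Fs J) (a : ℤ) : Fs (a • J) :=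
  hJ.subset (by intro c hc; simp only [Function.mem_support, Pi.smul_apply, smul_eq_mul,
    ne_eq, mul_eq_zero, not_or] at hc; exact hc.2)

theorem Cons.add {J K : Corner → ℤ} (hJ : Cons J) (hK : Cons K) : Cons (J + K) := by
  intro e
  have h1 := hJ e
  have h2 := hK e
  simp only [Pi.add_apply]
  linarith

theorem Cons.smul {J : Corner → ℤ} (hJ : Cons J) (a : ℤ) : Cons (a • J) := by
  intro e
  have h1 := hJ e
  simp only [Pi.smul_apply, smul_eq_mul, ← mul_add, h1]

theorem Hv_add {J K : Corner → ℤ} (hJ : Fs J) (hK : Fs K) (v : P2) :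
    Hv (J + K) v = Hv J v + Hv K v := by
  obtain ⟨N1, h1⟩ := hJ.bound v
  obtain ⟨N2, h2⟩ := hK.bound v
  have h1' : ∀ k ≥ max N1 N2, ∀ q, J (dg v k, q) = 0 :=
    fun k hk => h1 k (le_trans (le_max_left _ _) hk)
  have h2' : ∀ k ≥ max N1 N2, ∀ q, K (dg v k, q) = 0 :=
    fun k hk => h2 k (le_trans (le_max_right _ _) hk)
  rw [Hv_eq h1', Hv_eq h2', Hv_eq (N := max N1 N2), ← Finset.sum_add_distrib]
  · refine Finset.sum_congr rfl fun k _ => ?_
    simp only [Pi.add_apply]; ring
  · intro k hk q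
    simp only [Pi.add_apply, h1' k hk q, h2' k hk q, add_zero]

theorem Hf_add {J K : Corner → ℤ} (hJ : Fs J) (hK : Fs K) (v : P2) :
    Hf (J + K) v = Hf J v + Hf K v := by
  obtain ⟨N1, h1⟩ := hJ.bound v
  obtain ⟨N2, h2⟩ := hK.bound v
  have h1' : ∀ k ≥ max N1 N2, ∀ q, J (dg v k, q) = 0 :=
    fun k hk => h1 k (le_trans (le_max_left _ _) hk)
  have h2' : ∀ k ≥ max N1 N2, ∀ q, K (dg v k, q) = 0 :=
    fun k hk => h2 k (le_trans (le_max_right _ _) hk)
  rw [Hf_eq h1', Hf_eq h2', Hf_eq (N := max N1 N2), ← Finset.sum_add_distrib]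
  · refine Finset.sum_congr rfl fun k _ => ?_
    simp only [Pi.add_apply]; ring
  · intro k hk q
    simp only [Pi.add_apply, h1' k hk q, h2' k hk q, add_zero]



@[simp] theorem Hv_zero (v : P2) : Hv 0 v = 0 := by
  rw [Hv_eq (N := 0) (by intro k _ q; rfl)]; simp

@[simp] theorem Hf_zero (v : P2) : Hf 0 v = 0 := by
  rw [Hf_eq (N := 0) (by intro k _ q; rfl)]; simp

/-! ### heights outside a box -/

theorem Hv_eq_zero_of_ray {J : Corner → ℤ} {v : P2} (h : ∀ k q, J (dg v k, q) = 0) :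
    Hv J v = 0 := by
  rw [Hv_eq (N := 0) (fun k _ => h k)]; simp

/-- constancy across a step to the right -/
theorem Hv_right {J : Corner → ℤ} (hJ : Fs J) (hC : Cons J) {v : P2} (h0 : J (v, 0) = 0)
    (h3 : J ((v.1 + 1, v.2), 3) = 0) : Hv J (v.1 + 1, v.2) = Hv J v := by
  have g1 := grad hJ hC (v, 0)
  have g2 := grad hJ hC ((v.1 + 1, v.2), 3)
  have e1 : fc (v, 0) = v := by simp [fc]
  have e2 : fc ((v.1 + 1, v.2), 3) = v := by simp [fc]
  rw [e1, h0] at g1
  rw [e2, h3] at g2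
  simp only at g1 g2
  linarith

/-- constancy across a step upwards -/
theorem Hv_up {J : Corner → ℤ} (hJ : Fs J) (hC : Cons J) {v : P2} (h0 : J (v, 0) = 0)
    (h1 : J ((v.1, v.2 + 1), 1) = 0) : Hv J (v.1, v.2 + 1) = Hv J v := by
  have g1 := grad hJ hC (v, 0)
  have g2 := grad hJ hC ((v.1, v.2 + 1), 1)
  have e1 : fc (v, 0) = v := by simp [fc]
  have e2 : fc ((v.1, v.2 + 1), 1) = v := by simp [fc]
  rw [e1, h0] at g1
  rw [e2, h1] at g2
  simp only at g1 g2
  linarith

/-- **heights vanish at vertices outside a box containing the support** -/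
theorem Hv_out {J : Corner → ℤ} (hJ : Fs J) (hC : Cons J) {x0 x1 y0 y1 : ℤ}
    (hB : ∀ c, J c ≠ 0 → x0 ≤ c.1.1 ∧ c.1.1 ≤ x1 ∧ y0 ≤ c.1.2 ∧ c.1.2 ≤ y1) {v : P2}
    (hv : v.1 < x0 ∨ x1 < v.1 ∨ v.2 < y0 ∨ y1 < v.2) : Hv J v = 0 := by
  have hz : ∀ c : Corner, (c.1.1 < x0 ∨ x1 < c.1.1 ∨ c.1.2 < y0 ∨ y1 < c.1.2) → J c = 0 := by
    intro c hc
    by_contra h
    have := hB c h
    omega
  have hup : ∀ u : P2, (x1 < u.1 ∨ y1 < u.2) → Hv J u = 0 := by
    intro u hu
    refine Hv_eq_zero_of_ray fun k q => hz _ ?_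
    simp only [dg]
    omega
  -- below: go right
  have hbelow : ∀ n : ℕ, ∀ u : P2, u.2 < y0 → x1 < u.1 + n → Hv J u = 0 := by
    intro n
    induction n with
    | zero => intro u _ h2; exact hup u (Or.inl (by push_cast at h2; linarith))
    | succ n ih =>
        intro u h1 h2
        have h3 := Hv_right hJ hC (v := u) (hz _ (by right; right; left; exact h1))
          (hz _ (by right; right; left; exact h1))
        rw [← h3]
        exact ih _ h1 (by push_cast at h2 ⊢; linarith)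
  have hleft : ∀ n : ℕ, ∀ u : P2, u.1 < x0 → y1 < u.2 + n → Hv J u = 0 := by
    intro n
    induction n with
    | zero => intro u _ h2; exact hup u (Or.inr (by push_cast at h2; linarith))
    | succ n ih =>
        intro u h1 h2
        have h3 := Hv_up hJ hC (v := u) (hz _ (by left; exact h1)) (hz _ (by left; exact h1))
        rw [← h3]
        exact ih _ h1 (by push_cast at h2 ⊢; linarith)
  rcases hv with h | h | h | h
  · exact hleft (y1 + 1 - v.2).toNat v h (by have := Int.self_le_toNat (y1 + 1 - v.2); linarith)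
  · exact hup v (Or.inl h)
  · exact hbelow (x1 + 1 - v.1).toNat v h (by have := Int.self_le_toNat (x1 + 1 - v.1); linarith)
  · exact hup v (Or.inr h)

/-- faces with a vertex outside the box -/
theorem Hf_out {J : Corner → ℤ} (hJ : Fs J) (hC : Cons J) {x0 x1 y0 y1 : ℤ}
    (hB : ∀ c, J c ≠ 0 → x0 ≤ c.1.1 ∧ c.1.1 ≤ x1 ∧ y0 ≤ c.1.2 ∧ c.1.2 ≤ y1) {c : Corner}
    (hv : c.1.1 < x0 ∨ x1 < c.1.1 ∨ c.1.2 < y0 ∨ y1 < c.1.2) : Hf J (fc c) = 0 := by
  have h1 := grad hJ hC c
  have h2 : J c = 0 := by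
    by_contra h
    have := hB c h
    omega
  rw [Hv_out hJ hC hB hv, h2] at h1
  linarith

/-! ### invariance along open / closed edges -/

/-- flow of a configuration: constant along strands -/
def Inv (z : Cfz) (J : Corner → ℤ) : Prop := ∀ c, J (nx z c) = J c

theorem Inv.cons {z : Cfz} {J : Corner → ℤ} (h : Inv z J) : Cons J := by
  intro e
  have h1 := h (i1 e)
  have h2 := h (i2 e)
  rw [nx_i1] at h1
  rw [nx_i2] at h2
  split_ifs at h1 h2 <;> linarith

theorem Inv.hv_open {z : Cfz} {J : Corner → ℤ} (h : Inv z J) (hJ : Fs J) {e : Edge}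
    (he : z e = true) : Hv J (src e) = Hv J (tgt e) := by
  have g1 := grad hJ h.cons (i1 e)
  have g2 := grad hJ h.cons (o2 e)
  have h1 := h (i1 e)
  rw [nx_i1, if_pos he] at h1
  have h2 : fc (o2 e) = fc (i1 e) := by rw [← nxo_i1, fc_nxo]
  rw [h2, h1] at g2
  rw [fst_i1] at g1
  rw [fst_o2] at g2
  linarith

theorem fA_or_fB (e : Edge) : (fc (i1 e) = fA e ∧ fc (o1 e) = fB e) ∨
    (fc (i1 e) = fB e ∧ fc (o1 e) = fA e) := by
  obtain ⟨⟨x, y⟩, s⟩ := e
  cases s <;> simp [i1, o1, fc, fA, fB]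

theorem Inv.hf_closed {z : Cfz} {J : Corner → ℤ} (h : Inv z J) (hJ : Fs J) {e : Edge}
    (he : z e = false) : Hf J (fA e) = Hf J (fB e) := by
  have g1 := grad hJ h.cons (i1 e)
  have g2 := grad hJ h.cons (o1 e)
  have h1 := h (i1 e)
  rw [nx_i1, if_neg (by rw [he]; simp)] at h1
  rw [fst_i1] at g1
  rw [fst_o1, h1] at g2
  rcases fA_or_fB e with ⟨h2, h3⟩ | ⟨h2, h3⟩ <;> rw [h2] at g1 <;> rw [h3] at g2 <;> linarith

theorem Inv.hv_path {z : Cfz} {J : Corner → ℤ} (h : Inv z J) (hJ : Fs J) {u v : P2}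
    (hp : Relation.ReflTransGen (PStep (fun e => z e = true)) u v) : Hv J u = Hv J v := by
  induction hp with
  | refl => rfl
  | tail _ hs ih =>
      obtain ⟨e, he, ⟨rfl, rfl⟩ | ⟨rfl, rfl⟩⟩ := hs
      · rw [ih, h.hv_open hJ he]
      · rw [ih, h.hv_open hJ he]

theorem Inv.hf_path {z : Cfz} {J : Corner → ℤ} (h : Inv z J) (hJ : Fs J) {u v : P2}
    (hp : Relation.ReflTransGen (DStep (fun e => z e = false)) u v) : Hf J u = Hf J v := by
  induction hp with
  | refl => rfl
  | tail _ hs ih =>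
      obtain ⟨e, he, ⟨rfl, rfl⟩ | ⟨rfl, rfl⟩⟩ := hs
      · rw [ih, h.hf_closed hJ he]
      · rw [ih, h.hf_closed hJ he]

/-! ### strands -/

/-- the strand through `c` -/
def Lp (z : Cfz) (c : Corner) : Set Corner := {d | (nxE z).SameCycle c d}

theorem mem_Lp_self (z : Cfz) (c : Corner) : c ∈ Lp z c := Equiv.Perm.SameCycle.refl _ _

theorem nx_mem_Lp {z : Cfz} {c d : Corner} : nx z d ∈ Lp z c ↔ d ∈ Lp z c :=
  Equiv.Perm.sameCycle_apply_right

theorem pv_mem_Lp {z : Cfz} {c d : Corner} : pv z d ∈ Lp z c ↔ d ∈ Lp z c := by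
  rw [← nx_mem_Lp (d := pv z d), nx_pv]

theorem Lp_eq {z : Cfz} {c d : Corner} (h : d ∈ Lp z c) : Lp z d = Lp z c := by
  ext x
  exact ⟨fun hx => h.trans hx, fun hx => h.symm.trans hx⟩

theorem Lp_disj {z : Cfz} {c d : Corner} (h : d ∉ Lp z c) : Disjoint (Lp z c) (Lp z d) := by
  rw [Set.disjoint_left]
  intro x hx hx'
  exact h (Equiv.Perm.SameCycle.trans hx hx'.symm)

/-- induction along a strand -/
theorem Lp_induct {z : Cfz} {c : Corner} {P : Corner → Prop} (h0 : P c)
    (hs : ∀ d ∈ Lp z c, P d → P (nx z d)) (hp : ∀ d ∈ Lp z c, P d → P (pv z d)) :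
    ∀ d ∈ Lp z c, P d := by
  have key : ∀ n : ℤ, P (((nxE z) ^ n) c) := by
    intro n
    have mem : ∀ n : ℤ, ((nxE z) ^ n) c ∈ Lp z c := fun n => ⟨n, rfl⟩
    induction n using Int.induction_on with
    | zero => simpa using h0
    | succ n ih =>
        have := hs _ (mem n) ih
        rw [add_comm, zpow_add, zpow_one, Equiv.Perm.mul_apply]
        exact this
    | pred n ih =>
        have := hp _ (mem (-n)) ih
        rw [sub_eq_add_neg, add_comm, zpow_add, zpow_neg_one, Equiv.Perm.mul_apply]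
        exact this
  rintro d ⟨n, rfl⟩
  exact key n

/-- indicator of a strand -/
def JL (z : Cfz) (c : Corner) : Corner → ℤ := (Lp z c).indicator 1

theorem JL_mem {z : Cfz} {c d : Corner} (h : d ∈ Lp z c) : JL z c d = 1 := by
  unfold JL; rw [Set.indicator_of_mem h]; rfl

theorem JL_not_mem {z : Cfz} {c d : Corner} (h : d ∉ Lp z c) : JL z c d = 0 :=
  Set.indicator_of_notMem h _

theorem JL_inv (z : Cfz) (c : Corner) : Inv z (JL z c) := by
  intro d
  by_cases h : d ∈ Lp z c
  · rw [JL_mem h, JL_mem (nx_mem_Lp.2 h)]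
  · rw [JL_not_mem h, JL_not_mem (fun h' => h (nx_mem_Lp.1 h'))]

theorem JL_fs {z : Cfz} {c : Corner} (h : (Lp z c).Finite) : Fs (JL z c) :=
  h.subset Set.support_indicator_subset

theorem JL_eq {z : Cfz} {c d : Corner} (h : d ∈ Lp z c) : JL z d = JL z c := by
  unfold JL; rw [Lp_eq h]

/-- an invariant flow that does not meet the strand has constant heights along it -/
theorem Inv.const_strand {z : Cfz} {J : Corner → ℤ} (h : Inv z J) (hJ : Fs J) {c : Corner} :
    ∀ d ∈ Lp z c, Hv J d.1 = Hv J c.1 ∧ Hf J (fc d) = Hf J (fc c) ∧ J d = J c := by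
  have hstep : ∀ d, Hv J (nx z d).1 = Hv J d.1 ∧ Hf J (fc (nx z d)) = Hf J (fc d) ∧
      J (nx z d) = J d := by
    intro d
    have h1 := h d
    have g1 := grad hJ h.cons d
    have g2 := grad hJ h.cons (nx z d)
    cases hz : z (ah d) with
    | true =>
        have h2 := (step_open hz).2
        rw [h2, h1] at g2
        exact ⟨by linarith, by rw [h2], h1⟩
    | false =>
        have h2 := (step_closed hz).2
        rw [h2, h1] at g2
        exact ⟨by rw [h2], by linarith, h1⟩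
  refine Lp_induct ⟨rfl, rfl, rfl⟩ ?_ ?_
  · intro d _ hd
    obtain ⟨a, b, e⟩ := hstep d
    exact ⟨a.trans hd.1, b.trans hd.2.1, e.trans hd.2.2⟩
  · intro d _ hd
    obtain ⟨a, b, e⟩ := hstep (pv z d)
    rw [nx_pv] at a b e
    exact ⟨a.symm.trans hd.1, b.symm.trans hd.2.1, e.symm.trans hd.2.2⟩

/-- **Jordan property of a finite strand** -/
theorem jordan {z : Cfz} {c : Corner} (hfin : (Lp z c).Finite) :
    ∃ a : ℤ, (a = 0 ∨ a = -1) ∧
      (∀ d ∈ Lp z c, Hv (JL z c) d.1 = a ∧ Hf (JL z c) (fc d) = a + 1) ∧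
      (∀ v, Hv (JL z c) v = a ∨ Hv (JL z c) v = a + 1) ∧
      (∀ f, Hf (JL z c) f = a ∨ Hf (JL z c) f = a + 1) := by
  set J := JL z c with hJdef
  have hI : Inv z J := JL_inv z c
  have hF : Fs J := JL_fs hfin
  set a := Hv J c.1 with ha
  have hside : ∀ d ∈ Lp z c, Hv J d.1 = a ∧ Hf J (fc d) = a + 1 := by
    intro d hd
    have h1 := (hI.const_strand hF d hd).1
    have h2 := grad hF hI.cons d
    rw [hJdef, JL_mem hd, ← hJdef] at h2
    exact ⟨h1, by linarith⟩
  -- backwards induction along the diagonal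
  have key : ∀ v, ∀ n : ℕ, (∀ k ≥ n, ∀ q, J (dg v k, q) = 0) →
      ((a = 0 ∨ a = -1) ∨ Hv J v = 0) ∧ (Hv J v = 0 ∨ Hv J v = a ∨ Hv J v = a + 1) := by
    intro v n
    induction n generalizing v with
    | zero =>
        intro h
        have : Hv J v = 0 := Hv_eq_zero_of_ray fun k q => h k (Nat.zero_le _) q
        exact ⟨Or.inr this, Or.inl this⟩
    | succ n ih =>
        intro h
        have h' : ∀ k ≥ n, ∀ q, J (dg (dg v 1) k, q) = 0 := by
          intro k hk q
          rw [dg_dg]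
          exact h _ (by omega) q
        obtain ⟨A, B⟩ := ih (dg v 1) h'
        have e2 : fc (dg v 1, 2) = v := by
          obtain ⟨x, y⟩ := v
          simp [fc, dg]
        have e0 : fc (v, 0) = v := by simp [fc]
        have g2 := grad hF hI.cons (dg v 1, 2)
        have g0 := grad hF hI.cons (v, 0)
        rw [e2] at g2
        rw [e0] at g0
        simp only at g0 g2
        have c2 : J (dg v 1, 2) = 0 ∨ (J (dg v 1, 2) = 1 ∧ Hv J (dg v 1) = a) := by
          by_cases hm : (dg v 1, (2 : Fin 4)) ∈ Lp z c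
          · right; exact ⟨JL_mem hm, (hside _ hm).1⟩
          · left; exact JL_not_mem hm
        have c0 : J (v, 0) = 0 ∨ (J (v, 0) = 1 ∧ Hv J v = a) := by
          by_cases hm : (v, (0 : Fin 4)) ∈ Lp z c
          · right; exact ⟨JL_mem hm, (hside _ hm).1⟩
          · left; exact JL_not_mem hm
        constructor
        · by_contra hcon
          push Not at hcon
          obtain ⟨⟨n0, n1⟩, n2⟩ := hcon
          have hA : Hv J (dg v 1) = 0 := by
            rcases A with A | A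
            · rcases A with A | A
              · exact absurd A n0
              · exact absurd A n1
            · exact A
          rcases c2 with c2 | ⟨c2, c2'⟩
          · rcases c0 with c0 | ⟨c0, c0'⟩
            · apply n2; linarith
            · apply n1; linarith
          · apply n0; rw [← c2']; exact hA
        · rcases c0 with c0 | ⟨c0, c0'⟩
          · rcases c2 with c2 | ⟨c2, c2'⟩
            · have : Hv J v = Hv J (dg v 1) := by linarith
              rw [this]; exact B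
            · right; right; linarith
          · right; left; exact c0'
  have hall : ∀ v, ((a = 0 ∨ a = -1) ∨ Hv J v = 0) ∧
      (Hv J v = 0 ∨ Hv J v = a ∨ Hv J v = a + 1) := by
    intro v
    obtain ⟨N, hN⟩ := hF.bound v
    exact key v N hN
  have ha' : a = 0 ∨ a = -1 := by
    rcases (hall c.1).1 with h | h
    · exact h
    · exact Or.inl h
  have hv : ∀ v, Hv J v = a ∨ Hv J v = a + 1 := by
    intro v
    rcases (hall v).2 with h | h | h
    · rcases ha' with h' | h'
      · left; rw [h, h']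
      · right; rw [h, h']; rfl
    · exact Or.inl h
    · exact Or.inr h
  refine ⟨a, ha', hside, hv, fun f => ?_⟩
  have g0 := grad hF hI.cons (f, 0)
  have e0 : fc (f, 0) = f := by simp [fc]
  rw [e0] at g0
  simp only at g0
  by_cases hm : (f, (0 : Fin 4)) ∈ Lp z c
  · have := (hside _ hm).2
    rw [e0] at this
    exact Or.inr this
  · have : J (f, 0) = 0 := JL_not_mem hm
    rcases hv f with h | h
    · left; linarith
    · right; linarith

end Crest.Agent.R158.It200
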