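import Mathlib
import Crest.Agent.R158.Bk0_430
import Crest.Prelude.Def_SixVertex
import Crest.Agent.R158.Bs_410

-- ▼ part R158/Bk1_430
section

/-!
# R158, Block B (helper430), file 1: six-vertex weights as sums over splittings

`f : ME A B → Bool` = set of edges whose arrow is opposite to the canonical orientation.
* `cmp b fW fE fN fS` : compatibility of the flips with the splitting `b` at a vertex
* `lw` local weight of (flips, splitting), `lw_sum` : sum over the splitting = six-vertex weight
* `W6 f s = ∏ v, lw`, `W6_eq` : `= if f ∘ nx s = f then exp (i lam/4 ∑ turn e * sgb (f e)) else 0`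
-/

set_option autoImplicit false

namespace Crest.Agent.R158.Bk430

open Finset Complex

/-- compatibility with a splitting -/
def cmp (b fW fE fN fS : Bool) : Prop := if b then fW = fS ∧ fE = fN else fW = fN ∧ fE = fS

instance (b fW fE fN fS : Bool) : Decidable (cmp b fW fE fN fS) := by unfold cmp; infer_instance

/-- turn at a vertex of parity `p` for the splitting `b` -/
def kb (p b : Bool) : ℤ := if b = p then 1 else -1

/-- ice rule in terms of flips -/
def ice (fW fE fN fS : Bool) : Prop := fW.toNat + fE.toNat = fN.toNat + fS.toNat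

instance (fW fE fN fS : Bool) : Decidable (ice fW fE fN fS) := by unfold ice; infer_instance

/-- local weight of a splitting -/
noncomputable def lw (lam : ℝ) (p b fW fE fN fS : Bool) : ℂ :=
  if cmp b fW fE fN fS then exp (I * (lam / 4 * (kb p b * (sgb fW + sgb fE) : ℤ))) else 0

theorem exp_two_cos (x : ℝ) : exp (I * x) + exp (-(I * x)) = (2 * Real.cos x : ℝ) := by
  have h := Complex.two_cos (x : ℂ)
  push_cast
  rw [h]
  congr 1
  · congr 1; ring
  · congr 1; ring

/-- local six-vertex weight -/
noncomputable def w6 (lam : ℝ) (fW fE fN fS : Bool) : ℝ :=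
  if ice fW fE fN fS then (if fW = fE then 2 * Real.cos (lam / 2) else 1) else 0

theorem lw_sum (lam : ℝ) (p fW fE fN fS : Bool) :
    ∑ b : Bool, lw lam p b fW fE fN fS = (w6 lam fW fE fN fS : ℂ) := by
  have h1 : exp (I * (lam / 4 * 2)) + exp (-(I * (lam / 4 * 2))) = 2 * Complex.cos (lam / 2) := by
    have h := exp_two_cos (lam / 2)
    have e1 : I * ((lam : ℂ) / 4 * 2) = I * ((lam / 2 : ℝ) : ℂ) := by push_cast; ring
    rw [e1, h]
    push_cast
    rfl
  have h2 : exp (-(I * (lam / 4 * 2))) + exp (I * (lam / 4 * 2)) = 2 * Complex.cos (lam / 2) := by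
    rw [add_comm, h1]
  rw [Fintype.sum_bool]
  cases p <;> cases fW <;> cases fE <;> cases fN <;> cases fS <;>
    simp [lw, cmp, kb, sgb, w6, ice] <;>
    first | exact h1 | exact h2

section Generic

variable {A B : Type*} [AddGroupWithOne A] [AddGroupWithOne B] [HasPar A] [HasPar B]

/-- the four edges at a vertex -/
def eW (v : A × B) : ME A B := ((v.1 - 1, v.2), false)
def eE (v : A × B) : ME A B := (v, false)
def eN (v : A × B) : ME A B := (v, true)
def eS (v : A × B) : ME A B := ((v.1, v.2 - 1), true)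

theorem kap_eq (s : A × B → Bool) (v : A × B) : kap s v = kb (vp v) (s v) := rfl

/-- compatibility of the flips `f` with the splitting `s` at `v` -/
def cmpAt (f : ME A B → Bool) (s : A × B → Bool) (v : A × B) : Prop :=
  cmp (s v) (f (eW v)) (f (eE v)) (f (eN v)) (f (eS v))

theorem hd_eq_iff (e : ME A B) (v : A × B) :
    hd e = v ↔ e = (if vp v then eN v else eE v) ∨ e = (if vp v then eS v else eW v) := by
  obtain ⟨⟨a, b⟩, c⟩ := e
  obtain ⟨x, y⟩ := v
  cases c
  · cases h : vp (a, b)
    · simp only [hd, h]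
      constructor
      · intro he
        simp only [Bool.false_eq_true, if_false, Prod.mk.injEq] at he
        obtain ⟨rfl, rfl⟩ := he
        simp [h, eE]
      · rintro (he | he)
        · split_ifs at he with h1
          · simp [eN] at he
          · simp only [eE, Prod.mk.injEq, and_true] at he
            simp [he.1, he.2]
        · split_ifs at he with h1
          · simp [eS] at he
          · simp only [eW, Prod.mk.injEq, and_true] at he
            obtain ⟨rfl, rfl⟩ := he
            simp at h h1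
            rw [h] at h1
            exact absurd h1 (by simp)
    · simp only [hd, h]
      constructor
      · intro he
        simp only [Bool.false_eq_true, if_false, if_true, Prod.mk.injEq] at he
        obtain ⟨rfl, rfl⟩ := he
        simp [h, eW]
      · rintro (he | he)
        · split_ifs at he with h1
          · simp [eN] at he
          · simp only [eE, Prod.mk.injEq, and_true] at he
            obtain ⟨rfl, rfl⟩ := he
            exact absurd h h1
        · split_ifs at he with h1
          · simp [eS] at he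
          · simp only [eW, Prod.mk.injEq, and_true] at he
            obtain ⟨rfl, rfl⟩ := he
            simp
  · cases h : vp (a, b)
    · simp only [hd, h]
      constructor
      · intro he
        simp only [Bool.false_eq_true, if_false, if_true, Prod.mk.injEq] at he
        obtain ⟨rfl, rfl⟩ := he
        simp [h, eS]
      · rintro (he | he)
        · split_ifs at he with h1
          · simp only [eN, Prod.mk.injEq, and_true] at he
            obtain ⟨rfl, rfl⟩ := he
            rw [h] at h1
            exact absurd h1 (by simp)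
          · simp [eE] at he
        · split_ifs at he with h1
          · simp only [eS, Prod.mk.injEq, and_true] at he
            obtain ⟨rfl, rfl⟩ := he
            simp
          · simp [eW] at he
    · simp only [hd, h]
      constructor
      · intro he
        simp only [if_true, Prod.mk.injEq] at he
        obtain ⟨rfl, rfl⟩ := he
        simp [h, eN]
      · rintro (he | he)
        · split_ifs at he with h1
          · simp only [eN, Prod.mk.injEq, and_true] at he
            simp [he.1, he.2]
          · simp [eE] at he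
        · split_ifs at he with h1
          · simp only [eS, Prod.mk.injEq, and_true] at he
            obtain ⟨rfl, rfl⟩ := he
            simp only [vp_sub_snd, h1] at h
            exact absurd h (by simp)
          · simp [eW] at he

theorem in_ne (v : A × B) : (if vp v then eN v else eE v) ≠ (if vp v then eS v else eW v) := by
  intro h
  have : vp (if vp v then eN v else eE v).1 = vp (if vp v then eS v else eW v).1 := by rw [h]
  cases hv : vp v <;> simp [hv, eN, eE, eS, eW] at this

theorem sum_hd {R : Type*} [AddCommMonoid R] [Fintype A] [Fintype B] [DecidableEq A]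
    [DecidableEq B] (v : A × B) (g : ME A B → R) :
    ∑ e ∈ univ.filter (fun e => hd e = v), g e =
      g (if vp v then eN v else eE v) + g (if vp v then eS v else eW v) := by
  have : univ.filter (fun e : ME A B => hd e = v) =
      {(if vp v then eN v else eE v), (if vp v then eS v else eW v)} := by
    ext e
    simp only [mem_filter, mem_univ, true_and, mem_insert, mem_singleton]
    exact hd_eq_iff e v
  rw [this, Finset.sum_pair (in_ne v)]

/-- global compatibility = invariance along strands -/
theorem cmp_iff (f : ME A B → Bool) (s : A × B → Bool) :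
    (∀ v, cmpAt f s v) ↔ ∀ e, f (nx s e) = f e := by
  constructor
  · intro h e
    have h1 := h (hd e)
    unfold cmpAt cmp at h1
    obtain ⟨⟨a, b⟩, c⟩ := e
    cases c <;> cases hv : vp (a, b) <;> simp only [nx, hd, hv] at h1 ⊢ <;>
      simp [eW, eE, eN, eS] at h1 ⊢ <;> split_ifs at h1 ⊢ <;> simp_all
  · intro h v
    unfold cmpAt cmp
    cases hv : vp v
    · have h1 := h (eE v)
      have h2 := h (eW v)
      cases hs : s v <;>
        simp [nx, hd, eW, eE, eN, eS, hv, hs] at h1 h2 ⊢ <;> simp_all
    · have h1 := h (eN v)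
      have h2 := h (eS v)
      cases hs : s v <;>
        simp [nx, hd, eW, eE, eN, eS, hv, hs] at h1 h2 ⊢ <;> simp_all

section Fin

variable [Fintype A] [Fintype B] [DecidableEq A] [DecidableEq B]

/-- sum of the local exponents = sum of the turns along the strands -/
theorem sum_turn (f : ME A B → Bool) (s : A × B → Bool) (h : ∀ v, cmpAt f s v) :
    ∑ v : A × B, kap s v * (sgb (f (eW v)) + sgb (f (eE v))) =
      ∑ e : ME A B, turn s e * sgb (f e) := by
  rw [← Finset.sum_fiberwise (s := univ) (g := fun e : ME A B => hd e)]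
  refine Finset.sum_congr rfl fun v _ => ?_
  have h1 : ∑ e ∈ univ.filter (fun e : ME A B => hd e = v), turn s e * sgb (f e) =
      ∑ e ∈ univ.filter (fun e : ME A B => hd e = v), kap s v * sgb (f e) := by
    refine Finset.sum_congr rfl fun e he => ?_
    rw [mem_filter] at he
    rw [turn, he.2]
  rw [h1, sum_hd v (fun e => kap s v * sgb (f e))]
  have h2 := h v
  unfold cmpAt cmp at h2
  cases hv : vp v
  · simp only [Bool.false_eq_true, if_false]
    ring
  · simp only [if_true]
    cases hs : s v
    · rw [hs] at h2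
      simp only [Bool.false_eq_true, if_false] at h2
      rw [h2.1, h2.2]
      ring
    · rw [hs] at h2
      simp only [if_true] at h2
      rw [h2.1, h2.2]
      ring

/-- product of the local weights -/
noncomputable def W6 (lam : ℝ) (f : ME A B → Bool) (s : A × B → Bool) : ℂ :=
  ∏ v : A × B, lw lam (vp v) (s v) (f (eW v)) (f (eE v)) (f (eN v)) (f (eS v))

open Classical in
theorem W6_eq (lam : ℝ) (f : ME A B → Bool) (s : A × B → Bool) :
    W6 lam f s = if ∀ e, f (nx s e) = f e then
      exp (I * (lam / 4 * (∑ e : ME A B, turn s e * sgb (f e) : ℤ))) else 0 := by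
  unfold W6 lw
  rw [Finset.prod_ite_zero]
  have hiff : (∀ v ∈ (univ : Finset (A × B)), cmp (s v) (f (eW v)) (f (eE v)) (f (eN v)) (f (eS v)))
      ↔ ∀ e, f (nx s e) = f e := by
    rw [← cmp_iff]
    simp [cmpAt]
  by_cases h : ∀ e, f (nx s e) = f e
  · rw [if_pos h, if_pos (hiff.2 h), ← Complex.exp_sum, ← sum_turn f s ((cmp_iff f s).2 h)]
    congr 1
    rw [← Finset.mul_sum, ← Finset.mul_sum]
    congr 1
    congr 1
    push_cast
    rfl
  · rw [if_neg h, if_neg (fun h' => h (hiff.1 h'))]

/-- six-vertex weight in terms of flips -/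
noncomputable def wt6 (lam : ℝ) (f : ME A B → Bool) : ℝ :=
  ∏ v : A × B, w6 lam (f (eW v)) (f (eE v)) (f (eN v)) (f (eS v))

theorem sum_W6 (lam : ℝ) (f : ME A B → Bool) :
    ∑ s : A × B → Bool, W6 lam f s = (wt6 lam f : ℂ) := by
  have h : ∀ v : A × B, ((w6 lam (f (eW v)) (f (eE v)) (f (eN v)) (f (eS v)) : ℝ) : ℂ) =
      ∑ b : Bool, lw lam (vp v) b (f (eW v)) (f (eE v)) (f (eN v)) (f (eS v)) :=
    fun v => (lw_sum lam (vp v) _ _ _ _).symm
  unfold W6 wt6
  rw [Complex.ofReal_prod]
  simp_rw [h]
  rw [Finset.prod_univ_sum, Fintype.piFinset_univ]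


end Fin

end Generic

end Crest.Agent.R158.Bk430
end

-- ▼ part R158/Bk2_430
section

/-!
# R158, Block B (helper430), file 2: orbit sums

* `so e` canonical sign, `Bal f` balance of the columns
* `Gw lam c s` = sum over the balanced orientations of the loops of `s` of
  `cos (∑ e, (lam/4 * turn s e + c e * so e) * sgb (f e))`
* `sum_Gw` : six-vertex sum = `∑ s, Gw lam c s`
* `sum_inv` : invariant flips = functions on the orbits
-/

set_option autoImplicit false

namespace Crest.Agent.R158.Bk430

open Finset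

section Orbits

variable {E : Type*} [Fintype E] [DecidableEq E]

/-- orbits of a permutation -/
abbrev Orb (P : Equiv.Perm E) : Type _ := Quotient (Equiv.Perm.SameCycle.setoid P)

/-- the orbit of a point -/
def orb (P : Equiv.Perm E) (e : E) : Orb P := Quotient.mk _ e

omit [Fintype E] [DecidableEq E] in
theorem orb_apply (P : Equiv.Perm E) (e : E) : orb P (P e) = orb P e :=
  Quotient.sound (s := Equiv.Perm.SameCycle.setoid P)
    ((Equiv.Perm.sameCycle_apply_left (f := P)).2 (Equiv.Perm.SameCycle.refl P e))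

omit [Fintype E] [DecidableEq E] in
theorem inv_zpow {X : Type*} (P : Equiv.Perm E) (f : E → X) (h : ∀ e, f (P e) = f e) (k : ℤ)
    (e : E) : f ((P ^ k) e) = f e := by
  have h' : ∀ e, f (P⁻¹ e) = f e := fun e => by
    have := h (P⁻¹ e)
    rw [show P (P⁻¹ e) = e from P.apply_symm_apply e] at this
    exact this.symm
  induction k using Int.induction_on generalizing e with
  | zero => simp
  | succ n ih =>
    rw [zpow_add_one, Equiv.Perm.mul_apply, ih, h]
  | pred n ih =>
    rw [zpow_sub_one, Equiv.Perm.mul_apply, ih, h']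

open Classical in
noncomputable instance (P : Equiv.Perm E) : Fintype (Orb P) := Quotient.fintype _

/-- invariant functions = functions on the orbits -/
def invEquiv {X : Type*} (P : Equiv.Perm E) :
    {f : E → X // ∀ e, f (P e) = f e} ≃ (Orb P → X) where
  toFun f := Quotient.lift f.1 (fun a b hab => by
    obtain ⟨k, hk⟩ : Equiv.Perm.SameCycle P a b := hab
    rw [← hk, inv_zpow P f.1 f.2])
  invFun g := ⟨fun e => g (orb P e), fun e => congrArg g (orb_apply P e)⟩
  left_inv f := by
    ext e
    rfl
  right_inv g := by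
    funext l
    induction l using Quotient.inductionOn with
    | h e => rfl

open Classical in
theorem sum_inv {R : Type*} [AddCommMonoid R] (P : Equiv.Perm E) (F : (E → Bool) → R) :
    ∑ f : E → Bool, (if ∀ e, f (P e) = f e then F f else 0) =
      ∑ g : Orb P → Bool, F (fun e => g (orb P e)) := by
  rw [← Finset.sum_filter]
  rw [← Finset.sum_subtype_eq_sum_filter]
  rw [show (univ.subtype fun f : E → Bool => ∀ e, f (P e) = f e) =
    (univ : Finset {f : E → Bool // ∀ e, f (P e) = f e}) from by ext; simp]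
  refine Fintype.sum_equiv (invEquiv P) _ _ fun f => ?_
  congr 1

open Classical in
omit [DecidableEq E] in
theorem sum_orb {R : Type*} [CommRing R] (P : Equiv.Perm E) (a : E → R) (g : Orb P → R) :
    ∑ e, a e * g (orb P e) = ∑ l, (∑ e with orb P e = l, a e) * g l := by
  rw [← Finset.sum_fiberwise (s := univ) (g := fun e => orb P e)]
  refine Finset.sum_congr rfl fun l _ => ?_
  rw [Finset.sum_mul]
  refine Finset.sum_congr rfl fun e he => ?_
  rw [mem_filter] at he
  rw [he.2]

end Orbits

section Factor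

variable {Λ : Type*} [Fintype Λ] [DecidableEq Λ]

omit [Fintype Λ] [DecidableEq Λ] in
theorem exp_sgb_sum (a : ℝ) :
    ∑ b : Bool, Complex.exp (Complex.I * (a * (sgb b : ℤ))) = (2 * Real.cos a : ℝ) := by
  rw [Fintype.sum_bool, ← exp_two_cos, add_comm]
  congr 1
  · congr 1; simp [sgb]
  · congr 1; simp [sgb]

open Classical in
/-- factorisation of a constrained sum over signs -/
theorem factor (p : Λ → Prop) (a : Λ → ℝ) (Q : (Λ → Bool) → Prop)
    (Q' : ({l // ¬ p l} → Bool) → Prop) (hQ : ∀ g, Q g ↔ Q' (fun l => g l)) :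
    ∑ g : Λ → Bool, (if Q g then Real.cos (∑ l, a l * sgb (g l)) else 0) =
      (∏ l : {l // p l}, 2 * Real.cos (a l)) *
        ∑ g : {l // ¬ p l} → Bool, (if Q' g then Real.cos (∑ l : {l // ¬ p l}, a l * sgb (g l))
          else 0) := by
  have h1 : ∀ g : Λ → Bool, (if Q g then Real.cos (∑ l, a l * sgb (g l)) else 0) =
      (if Q' (fun l => g l) then Complex.exp (Complex.I * (∑ l : {l // p l}, a l * sgb (g l) : ℝ)) *
        Complex.exp (Complex.I * (∑ l : {l // ¬ p l}, a l * sgb (g l) : ℝ)) else 0 : ℂ).re := by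
    intro g
    by_cases h : Q g
    · rw [if_pos h, if_pos ((hQ g).1 h), ← Complex.exp_add, ← mul_add, ← Complex.ofReal_add,
        Fintype.sum_subtype_add_sum_subtype p (fun l => a l * ((sgb (g l) : ℤ) : ℝ)), mul_comm,
        Complex.exp_ofReal_mul_I_re]
    · rw [if_neg h, if_neg (fun h' => h ((hQ g).2 h'))]
      simp
  simp_rw [h1]
  rw [← Complex.re_sum]
  have h6 : ∑ g : Λ → Bool, (if Q' (fun l => g l) then
        Complex.exp (Complex.I * (∑ l : {l // p l}, a l * sgb (g l) : ℝ)) *
        Complex.exp (Complex.I * (∑ l : {l // ¬ p l}, a l * sgb (g l) : ℝ)) else 0 : ℂ) =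
      ∑ q : ({l // p l} → Bool) × ({l // ¬ p l} → Bool), (if Q' q.2 then
        Complex.exp (Complex.I * (∑ l : {l // p l}, a l * sgb (q.1 l) : ℝ)) *
        Complex.exp (Complex.I * (∑ l : {l // ¬ p l}, a l * sgb (q.2 l) : ℝ)) else 0 : ℂ) :=
    Fintype.sum_equiv (Equiv.piEquivPiSubtypeProd p (fun _ => Bool)) _ _ (fun g => rfl)
  rw [h6, Fintype.sum_prod_type]
  have h2 : ∑ g : {l // p l} → Bool,
      Complex.exp (Complex.I * (∑ l : {l // p l}, a l * sgb (g l) : ℝ)) =
      ((∏ l : {l // p l}, 2 * Real.cos (a l) : ℝ) : ℂ) := by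
    have h3 : ∀ g : {l // p l} → Bool,
        Complex.exp (Complex.I * (∑ l : {l // p l}, a l * sgb (g l) : ℝ)) =
        ∏ l : {l // p l}, Complex.exp (Complex.I * (a l * (sgb (g l) : ℤ))) := by
      intro g
      rw [← Complex.exp_sum, ← Finset.mul_sum]
      push_cast
      rfl
    simp_rw [h3]
    have h4 := Finset.prod_univ_sum (fun _ : {l // p l} => (univ : Finset Bool))
      (fun l b => Complex.exp (Complex.I * (a l * (sgb b : ℤ))))
    rw [Fintype.piFinset_univ] at h4
    rw [← h4, Complex.ofReal_prod]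
    exact Finset.prod_congr rfl fun l _ => exp_sgb_sum (a l)
  have h5 : ∀ (g : {l // p l} → Bool), ∑ g' : {l // ¬ p l} → Bool,
      (if Q' g' then Complex.exp (Complex.I * (∑ l : {l // p l}, a l * sgb (g l) : ℝ)) *
        Complex.exp (Complex.I * (∑ l : {l // ¬ p l}, a l * sgb (g' l) : ℝ)) else 0 : ℂ) =
      Complex.exp (Complex.I * (∑ l : {l // p l}, a l * sgb (g l) : ℝ)) *
        ∑ g' : {l // ¬ p l} → Bool, (if Q' g' then
          Complex.exp (Complex.I * (∑ l : {l // ¬ p l}, a l * sgb (g' l) : ℝ)) else 0 : ℂ) := by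
    intro g
    rw [Finset.mul_sum]
    refine Finset.sum_congr rfl fun g' _ => ?_
    split_ifs <;> simp
  simp only
  simp_rw [h5]
  rw [← Finset.sum_mul, h2, Complex.re_ofReal_mul, Complex.re_sum]
  congr 1
  refine Finset.sum_congr rfl fun g' _ => ?_
  split_ifs
  · rw [mul_comm, Complex.exp_ofReal_mul_I_re]
  · simp

end Factor

section Torus

variable {A B : Type*} [AddGroupWithOne A] [AddGroupWithOne B] [HasPar A] [HasPar B]

/-- canonical sign of an edge: `1` if right / up -/
def so (e : ME A B) : ℤ := if ori e then 1 else -1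

variable [Fintype A] [Fintype B]

/-- balance: the net horizontal flux through every column vanishes -/
def Bal (f : ME A B → Bool) : Prop :=
  ∀ i : A, ∑ j : B, so (((i, j), false) : ME A B) * sgb (f ((i, j), false)) = 0

variable [DecidableEq A] [DecidableEq B]

open Classical in
/-- sum over the balanced orientations of the loops -/
noncomputable def Gw (lam : ℝ) (c : ME A B → ℝ) (s : A × B → Bool) : ℝ :=
  ∑ f : ME A B → Bool, if ∀ e, f (nx s e) = f e then
    (if Bal f then Real.cos (∑ e, (lam / 4 * turn s e + c e * so e) * sgb (f e)) else 0) else 0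

open Classical in
/-- **six-vertex sum = sum over the splittings** -/
theorem sum_Gw (lam : ℝ) (c : ME A B → ℝ) :
    ∑ f : ME A B → Bool, (if Bal f then wt6 lam f * Real.cos (∑ e, c e * so e * sgb (f e)) else 0) =
      ∑ s : A × B → Bool, Gw lam c s := by
  have h1 : ∀ f : ME A B → Bool, (if Bal f then
      wt6 lam f * Real.cos (∑ e, c e * so e * sgb (f e)) else 0) =
      (if Bal f then ∑ s : A × B → Bool,
        W6 lam f s * Complex.exp (Complex.I * (∑ e, c e * so e * sgb (f e) : ℝ)) else 0).re := by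
    intro f
    split_ifs with h
    · rw [← Finset.sum_mul, sum_W6, Complex.re_ofReal_mul]
      congr 1
      rw [mul_comm, Complex.exp_ofReal_mul_I_re]
    · simp
  simp_rw [h1]
  rw [← Complex.re_sum]
  have h2 : ∀ f : ME A B → Bool, (if Bal f then ∑ s : A × B → Bool,
        W6 lam f s * Complex.exp (Complex.I * (∑ e, c e * so e * sgb (f e) : ℝ)) else 0) =
        ∑ s : A × B → Bool, if Bal f then
          W6 lam f s * Complex.exp (Complex.I * (∑ e, c e * so e * sgb (f e) : ℝ)) else 0 := by
    intro f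
    split_ifs with h
    · rfl
    · simp
  simp_rw [h2]
  rw [Finset.sum_comm, Complex.re_sum]
  refine Finset.sum_congr rfl fun s _ => ?_
  rw [Complex.re_sum, Gw]
  refine Finset.sum_congr rfl fun f _ => ?_
  by_cases hb : Bal f
  · rw [if_pos hb, if_pos hb, W6_eq]
    split_ifs with hc
    · rw [← Complex.exp_add]
      rw [show (Complex.I * ((lam : ℂ) / 4 * ((∑ e : ME A B, turn s e * sgb (f e) : ℤ) : ℂ)) +
        Complex.I * ((∑ e, c e * so e * sgb (f e) : ℝ) : ℂ)) =
        ((∑ e, (lam / 4 * turn s e + c e * so e) * sgb (f e) : ℝ) : ℂ) * Complex.I from by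
          push_cast
          rw [← mul_add, mul_comm]
          congr 1
          rw [Finset.mul_sum, ← Finset.sum_add_distrib]
          refine Finset.sum_congr rfl fun e _ => ?_
          ring]
      rw [Complex.exp_ofReal_mul_I_re]
    · simp
  · rw [if_neg hb, if_neg hb]
    split_ifs <;> simp

/-- loops of a splitting -/
abbrev Lp (s : A × B → Bool) : Type _ := Orb (nxE s)

open Classical in
/-- total turn of a loop -/
noncomputable def Tl (s : A × B → Bool) (l : Lp s) : ℤ := ∑ e with orb (nxE s) e = l, turn s e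

open Classical in
/-- pairing of the edge function `c` with a loop -/
noncomputable def th (c : ME A B → ℝ) (s : A × B → Bool) (l : Lp s) : ℝ :=
  ∑ e with orb (nxE s) e = l, c e * so e

open Classical in
/-- horizontal flux of a loop through the column `i` -/
noncomputable def Fl (s : A × B → Bool) (i : A) (l : Lp s) : ℤ :=
  ∑ j with orb (nxE s) ((i, j), false) = l, so (((i, j), false) : ME A B)

open Classical in
theorem Gw_orb (lam : ℝ) (c : ME A B → ℝ) (s : A × B → Bool) :
    Gw lam c s = ∑ g : Lp s → Bool, if ∀ i, ∑ l, Fl s i l * sgb (g l) = 0 then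
      Real.cos (∑ l, (lam / 4 * Tl s l + th c s l) * sgb (g l)) else 0 := by
  unfold Gw
  have h := sum_inv (nxE s) (fun f : ME A B → Bool => if Bal f then
    Real.cos (∑ e, (lam / 4 * turn s e + c e * so e) * sgb (f e)) else 0)
  refine Eq.trans (Finset.sum_congr rfl fun f _ => ?_) (h.trans ?_)
  · congr 1
  refine Finset.sum_congr rfl fun g _ => ?_
  have h1 : Bal (fun e => g (orb (nxE s) e)) ↔ ∀ i, ∑ l, Fl s i l * sgb (g l) = 0 := by
    unfold Bal
    refine forall_congr' fun i => ?_
    have : ∑ j : B, so (((i, j), false) : ME A B) * sgb (g (orb (nxE s) ((i, j), false))) =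
        ∑ l, Fl s i l * sgb (g l) := by
      rw [← Finset.sum_fiberwise (s := univ) (g := fun j => orb (nxE s) (((i, j), false) : ME A B))]
      refine Finset.sum_congr rfl fun l _ => ?_
      rw [Fl, Finset.sum_mul]
      refine Finset.sum_congr rfl fun j hj => ?_
      rw [mem_filter] at hj
      rw [hj.2]
    rw [this]
  have h2 : ∑ e, (lam / 4 * turn s e + c e * so e) * sgb (g (orb (nxE s) e)) =
      ∑ l, (lam / 4 * Tl s l + th c s l) * sgb (g l) := by
    have := sum_orb (nxE s) (fun e => lam / 4 * (turn s e : ℝ) + c e * (so e : ℝ))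
      (fun l => ((sgb (g l) : ℤ) : ℝ))
    rw [this]
    refine Finset.sum_congr rfl fun l _ => ?_
    congr 1
    rw [Finset.sum_add_distrib, Tl, th, ← Finset.mul_sum]
    push_cast
    rfl
  by_cases hb : Bal (fun e => g (orb (nxE s) e))
  · rw [if_pos hb, if_pos (h1.1 hb), h2]
  · rw [if_neg hb, if_neg (fun h' => hb (h1.2 h'))]

/-- topology of the loops on the torus (helper405's T1), `Ctr` = contractible -/
structure TT (s : A × B → Bool) (Ctr : Lp s → Prop) : Prop where
  c_turn : ∀ l, Ctr l → Tl s l = 4 ∨ Tl s l = -4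
  c_flux : ∀ l, Ctr l → ∀ i, Fl s i l = 0
  n_turn : ∀ l, ¬ Ctr l → Tl s l = 0
  n_card : ∀ l, ¬ Ctr l → min (Fintype.card A) (Fintype.card B) ≤
    Nat.card {e : ME A B // orb (nxE s) e = l}

open Classical in
/-- balanced orientations of the non contractible loops -/
def BalN (s : A × B → Bool) (Ctr : Lp s → Prop) (g : {l // ¬ Ctr l} → Bool) : Prop :=
  ∀ i, ∑ l : {l // ¬ Ctr l}, Fl s i l * sgb (g l) = 0

open Classical in
/-- non contractible part -/
noncomputable def Nb (c : ME A B → ℝ) (s : A × B → Bool) (Ctr : Lp s → Prop) : ℝ :=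
  ∑ g : {l // ¬ Ctr l} → Bool, if BalN s Ctr g then
    Real.cos (∑ l : {l // ¬ Ctr l}, th c s l * sgb (g l)) else 0

open Classical in
theorem Gw_factor {s : A × B → Bool} {Ctr : Lp s → Prop} (h : TT s Ctr) (c : ME A B → ℝ) :
    Gw (Real.pi / 3) c s =
      (∏ l : {l // Ctr l}, 2 * Real.cos (Real.pi / 12 * Tl s l + th c s l)) * Nb c s Ctr := by
  rw [Gw_orb]
  have hf := factor Ctr (fun l => Real.pi / 3 / 4 * Tl s l + th c s l)
    (fun g => ∀ i, ∑ l, Fl s i l * sgb (g l) = 0) (BalN s Ctr) ?_
  · refine Eq.trans (Finset.sum_congr rfl fun g _ => by congr) (hf.trans ?_)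
    congr 1
    · refine Finset.prod_congr rfl fun l _ => ?_
      congr 2
      ring
    · unfold Nb
      refine Finset.sum_congr rfl fun g _ => ?_
      congr 2
      refine Finset.sum_congr rfl fun l _ => ?_
      rw [h.n_turn l.1 l.2]
      simp
  · intro g
    unfold BalN
    refine forall_congr' fun i => ?_
    rw [← Fintype.sum_subtype_add_sum_subtype Ctr (fun l => Fl s i l * sgb (g l))]
    have : ∑ l : {l // Ctr l}, Fl s i l * sgb (g l) = 0 :=
      Finset.sum_eq_zero fun l _ => by rw [h.c_flux l.1 l.2 i]; simp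
    rw [this, zero_add]

theorem cos_turn {x : ℤ} (h : x = 4 ∨ x = -4) : 2 * Real.cos (Real.pi / 12 * x) = 1 := by
  rcases h with rfl | rfl
  · rw [show Real.pi / 12 * ((4 : ℤ) : ℝ) = Real.pi / 3 by push_cast; ring, Real.cos_pi_div_three]
    norm_num
  · rw [show Real.pi / 12 * ((-4 : ℤ) : ℝ) = -(Real.pi / 3) by push_cast; ring, Real.cos_neg,
      Real.cos_pi_div_three]
    norm_num

omit [DecidableEq A] [DecidableEq B] in
theorem th_zero (s : A × B → Bool) (l : Lp s) : th (fun _ => 0) s l = 0 := by
  simp [th]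

/-- weight of a splitting -/
noncomputable def wG (s : A × B → Bool) : ℝ := Gw (Real.pi / 3) (fun _ => 0) s

open Classical in
theorem wG_eq {s : A × B → Bool} {Ctr : Lp s → Prop} (h : TT s Ctr) :
    wG s = ((univ.filter fun g : {l // ¬ Ctr l} → Bool => BalN s Ctr g).card : ℝ) := by
  unfold wG
  rw [Gw_factor h, Finset.prod_eq_one, one_mul]
  · unfold Nb
    simp only [th_zero, zero_mul, Finset.sum_const_zero, Real.cos_zero]
    rw [Finset.sum_boole]
  · intro l _
    rw [th_zero, add_zero, cos_turn (h.c_turn l.1 l.2)]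

omit [Fintype A] [DecidableEq A] [DecidableEq B] in
theorem sum_so_column (i : A) : ∑ j : B, so (((i, j), false) : ME A B) = 0 := by
  have h1 : ∑ j : B, so (((i, j), false) : ME A B) = ∑ j : B, so (((i, j + 1), false) : ME A B) :=
    (Equiv.sum_comp (Equiv.addRight (1 : B)) fun j => so (((i, j), false) : ME A B)).symm
  have h2 : ∀ j : B, so (((i, j + 1), false) : ME A B) = - so (((i, j), false) : ME A B) := by
    intro j
    have h3 : ori (((i, j + 1), false) : ME A B) = !ori (((i, j), false) : ME A B) := by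
      simp [ori]
    unfold so
    rw [h3]
    cases ori (((i, j), false) : ME A B) <;> simp
  simp_rw [h2] at h1
  rw [Finset.sum_neg_distrib] at h1
  omega

open Classical in
theorem one_le_wG {s : A × B → Bool} {Ctr : Lp s → Prop} (h : TT s Ctr) : 1 ≤ wG s := by
  rw [wG_eq h]
  have : (fun _ => false) ∈ univ.filter fun g : {l // ¬ Ctr l} → Bool => BalN s Ctr g := by
    rw [mem_filter]
    refine ⟨mem_univ _, fun i => ?_⟩
    have h1 : ∑ l, Fl s i l = 0 := by
      unfold Fl
      rw [Finset.sum_fiberwise (s := univ) (g := fun j => orb (nxE s) (((i, j), false) : ME A B))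
        (f := fun j => so (((i, j), false) : ME A B))]
      exact sum_so_column i
    rw [← Fintype.sum_subtype_add_sum_subtype Ctr (fun l => Fl s i l)] at h1
    have h2 : ∑ l : {l // Ctr l}, Fl s i l = 0 :=
      Finset.sum_eq_zero fun l _ => h.c_flux l.1 l.2 i
    rw [h2, zero_add] at h1
    simpa [sgb] using h1
  exact_mod_cast Finset.card_pos.2 ⟨_, this⟩

omit [DecidableEq A] [DecidableEq B] in
open Classical in
theorem card_nc {s : A × B → Bool} {Ctr : Lp s → Prop} (h : TT s Ctr)
    (hA : 0 < Fintype.card A) (hB : 0 < Fintype.card B) :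
    Fintype.card {l // ¬ Ctr l} ≤ 2 * max (Fintype.card A) (Fintype.card B) := by
  have h1 : ∑ l : {l // ¬ Ctr l}, Nat.card {e : ME A B // orb (nxE s) e = l.1} ≤
      Fintype.card (ME A B) := by
    have h2 : ∑ l : Lp s, Nat.card {e : ME A B // orb (nxE s) e = l} =
        Fintype.card (ME A B) := by
      simp_rw [Nat.card_eq_fintype_card]
      rw [← Fintype.card_sigma]
      exact Fintype.card_congr (Equiv.sigmaFiberEquiv (fun e : ME A B => orb (nxE s) e))
    rw [← h2, ← Fintype.sum_subtype_add_sum_subtype Ctr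
      (fun l => Nat.card {e : ME A B // orb (nxE s) e = l})]
    exact Nat.le_add_left _ _
  have h3 : Fintype.card {l // ¬ Ctr l} * min (Fintype.card A) (Fintype.card B) ≤
      Fintype.card (ME A B) := by
    refine le_trans ?_ h1
    rw [← smul_eq_mul, ← Finset.card_univ, ← Finset.sum_const]
    exact Finset.sum_le_sum fun l _ => h.n_card l.1 l.2
  rw [Fintype.card_prod, Fintype.card_prod, Fintype.card_bool] at h3
  rcases le_total (Fintype.card A) (Fintype.card B) with hle | hle
  · rw [min_eq_left hle] at h3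
    rw [max_eq_right hle]
    refine Nat.le_of_mul_le_mul_right (c := Fintype.card A) ?_ hA
    calc _ ≤ _ := h3
      _ = _ := by ring
  · rw [min_eq_right hle] at h3
    rw [max_eq_left hle]
    refine Nat.le_of_mul_le_mul_right (c := Fintype.card B) ?_ hB
    calc _ ≤ _ := h3
      _ = _ := by ring

open Classical in
theorem wG_le {s : A × B → Bool} {Ctr : Lp s → Prop} (h : TT s Ctr)
    (hA : 0 < Fintype.card A) (hB : 0 < Fintype.card B) :
    wG s ≤ 2 ^ (2 * max (Fintype.card A) (Fintype.card B)) := by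
  rw [wG_eq h]
  have h1 : (univ.filter fun g : {l // ¬ Ctr l} → Bool => BalN s Ctr g).card ≤
      2 ^ (Fintype.card {l // ¬ Ctr l}) := by
    refine (Finset.card_le_univ _).trans ?_
    rw [Fintype.card_fun, Fintype.card_bool]
  have h2 : 2 ^ (Fintype.card {l // ¬ Ctr l}) ≤
      2 ^ (2 * max (Fintype.card A) (Fintype.card B)) :=
    Nat.pow_le_pow_right (by norm_num) (card_nc h hA hB)
  exact_mod_cast h1.trans h2

open Classical in
theorem abs_Nb_le {s : A × B → Bool} {Ctr : Lp s → Prop} (h : TT s Ctr) (c : ME A B → ℝ) :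
    |Nb c s Ctr| ≤ wG s := by
  rw [wG_eq h]
  unfold Nb
  refine (Finset.abs_sum_le_sum_abs _ _).trans ?_
  rw [← Finset.sum_boole]
  refine Finset.sum_le_sum fun g _ => ?_
  split_ifs
  · exact Real.abs_cos_le_one _
  · simp

omit [DecidableEq A] [DecidableEq B] in
open Classical in
theorem abs_prod_le {s : A × B → Bool} {Ctr : Lp s → Prop} (h : TT s Ctr) (c : ME A B → ℝ) :
    |∏ l : {l // Ctr l}, 2 * Real.cos (Real.pi / 12 * Tl s l + th c s l)| ≤
      2 ^ (univ.filter fun e : ME A B => c e ≠ 0).card := by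
  rw [Finset.abs_prod]
  have h1 : ∀ l : {l // Ctr l}, |2 * Real.cos (Real.pi / 12 * Tl s l + th c s l)| ≤
      if ∃ e, orb (nxE s) e = l.1 ∧ c e ≠ 0 then 2 else 1 := by
    intro l
    split_ifs with hl
    · rw [abs_mul, abs_of_pos (by norm_num : (0 : ℝ) < 2)]
      have := Real.abs_cos_le_one (Real.pi / 12 * Tl s l + th c s l)
      linarith
    · have h2 : th c s l = 0 := by
        unfold th
        refine Finset.sum_eq_zero fun e he => ?_
        rw [mem_filter] at he
        have : c e = 0 := by
          by_contra hce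
          exact hl ⟨e, he.2, hce⟩
        rw [this, zero_mul]
      rw [h2, add_zero, cos_turn (h.c_turn l.1 l.2)]
      norm_num
  refine (Finset.prod_le_prod (fun _ _ => abs_nonneg _) (fun l _ => h1 l)).trans ?_
  rw [Finset.prod_ite, Finset.prod_const, Finset.prod_const, one_pow, mul_one]
  refine pow_le_pow_right₀ (by norm_num) ?_
  have h3 : ∀ l ∈ (univ.filter fun l : {l // Ctr l} => ∃ e, orb (nxE s) e = l.1 ∧ c e ≠ 0),
      ∃ e ∈ (univ.filter fun e : ME A B => c e ≠ 0), orb (nxE s) e = l.1 := by
    intro l hl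
    rw [mem_filter] at hl
    obtain ⟨e, he, hce⟩ := hl.2
    exact ⟨e, by rw [mem_filter]; exact ⟨mem_univ _, hce⟩, he⟩
  have h4 : (univ.filter fun l : {l // Ctr l} => ∃ e, orb (nxE s) e = l.1 ∧ c e ≠ 0).card =
      ((univ.filter fun l : {l // Ctr l} => ∃ e, orb (nxE s) e = l.1 ∧ c e ≠ 0).image
        Subtype.val).card := (Finset.card_image_of_injective _ Subtype.val_injective).symm
  rw [h4]
  refine (Finset.card_le_card (t := (univ.filter fun e : ME A B => c e ≠ 0).image
    (fun e => orb (nxE s) e)) ?_).trans Finset.card_image_le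
  intro l hl
  rw [mem_image] at hl
  obtain ⟨l', hl', rfl⟩ := hl
  obtain ⟨e, he, hel⟩ := h3 l' hl'
  rw [mem_image]
  exact ⟨e, he, hel⟩

theorem abs_Gw_le {s : A × B → Bool} {Ctr : Lp s → Prop} (h : TT s Ctr) (c : ME A B → ℝ) :
    |Gw (Real.pi / 3) c s| ≤ 2 ^ (univ.filter fun e : ME A B => c e ≠ 0).card * wG s := by
  classical
  rw [Gw_factor h, abs_mul]
  have h1 : 0 ≤ wG s := le_trans zero_le_one (one_le_wG h)
  refine mul_le_mul ?_ (abs_Nb_le h c) (abs_nonneg _) (by positivity)
  convert abs_prod_le h c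

end Torus

end Crest.Agent.R158.Bk430
end

-- ▼ part R158/Bk3_430

/-!
# R158, Block B (helper430), file 3: the torus expectation of S0211 as a sum over splittings
-/

set_option autoImplicit false

namespace Crest.Agent.R158.Bk430

open Finset Crest.ProbabilityR.SixVertex

/-! ### parity on `ZMod M`, `M` even -/

instance instHasParZMod (M : ℕ) [NeZero M] [hM : Fact (Even M)] : HasPar (ZMod M) where
  par a := decide (a.val % 2 = 1)
  par_add_one a := by
    obtain ⟨k, hk⟩ := hM.out
    have hpos : 0 < M := Nat.pos_of_ne_zero (NeZero.ne M)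
    have h1 : 1 < M := by omega
    have : Fact (1 < M) := ⟨h1⟩
    have hlt := a.val_lt
    have h2 : (a + 1).val = (a.val + 1) % M := by rw [ZMod.val_add, ZMod.val_one]
    rw [h2]
    rcases Nat.lt_or_ge (a.val + 1) M with h | h
    · rw [Nat.mod_eq_of_lt h]
      by_cases h3 : a.val % 2 = 1
      · have : ¬ ((a.val + 1) % 2 = 1) := by omega
        simp [h3, this]
      · have : ((a.val + 1) % 2 = 1) := by omega
        simp [h3, this]
    · have h3 : a.val + 1 = M := by omega
      rw [h3, Nat.mod_self]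
      have h4 : a.val % 2 = 1 := by omega
      simp [h4]

theorem par_intCast (M : ℕ) [NeZero M] [hM : Fact (Even M)] (a : ℤ) :
    par ((a : ZMod M)) = par a := by
  induction a using Int.induction_on with
  | zero =>
    simp [par]
  | succ n ih =>
    push_cast at ih ⊢
    rw [par_add_one, par_add_one, ih]
  | pred n ih =>
    push_cast at ih ⊢
    rw [par_sub_one, par_sub_one, ih]

/-! ### arrows and flips -/

section Arr

variable {M L : ℕ} [NeZero M] [NeZero L] [Fact (Even M)] [Fact (Even L)]

/-- direction of an edge -/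
def dir (σ : Arrows M L) (e : ME (ZMod M) (ZMod L)) : Bool := if e.2 then σ.2 e.1 else σ.1 e.1

/-- arrows ↔ flips with respect to the canonical orientation -/
def flipEquiv : Arrows M L ≃ (ME (ZMod M) (ZMod L) → Bool) where
  toFun σ e := xor (dir σ e) (ori e)
  invFun f := (fun v => xor (f (v, false)) (ori (v, false)), fun v => xor (f (v, true)) (ori (v, true)))
  left_inv σ := by
    ext v <;> simp [dir]
  right_inv f := by
    funext e
    obtain ⟨v, b⟩ := e
    cases b <;> simp [dir]

/-- sign of the direction -/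
def sgd (σ : Arrows M L) (e : ME (ZMod M) (ZMod L)) : ℤ := if dir σ e then 1 else -1

theorem sgd_eq (σ : Arrows M L) (e : ME (ZMod M) (ZMod L)) :
    sgd σ e = so e * sgb (flipEquiv σ e) := by
  have h : flipEquiv σ e = xor (dir σ e) (ori e) := rfl
  rcases Bool.eq_false_or_eq_true (dir σ e) with h1 | h1 <;>
    rcases Bool.eq_false_or_eq_true (ori e) with h2 | h2 <;> simp [sgd, so, sgb, h, h1, h2]

theorem ice_iff (σ : Arrows M L) (v : ZMod M × ZMod L) :
    inDegree σ v = 2 ↔ ice (flipEquiv σ (eW v)) (flipEquiv σ (eE v)) (flipEquiv σ (eN v))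
      (flipEquiv σ (eS v)) := by
  obtain ⟨a, b⟩ := v
  simp only [inDegree, ice, flipEquiv, Equiv.coe_fn_mk, dir, ori, eW, eE, eN, eS]
  simp only [vp_sub_fst, vp_sub_snd, Bool.false_eq_true, if_false, if_true]
  cases vp (a, b) <;> cases σ.1 (a - 1, b) <;> cases σ.1 (a, b) <;> cases σ.2 (a, b - 1) <;>
    cases σ.2 (a, b) <;> simp

theorem typeC_iff (σ : Arrows M L) (v : ZMod M × ZMod L) :
    σ.1 (v.1 - 1, v.2) ≠ σ.1 v ↔ flipEquiv σ (eW v) = flipEquiv σ (eE v) := by
  obtain ⟨a, b⟩ := v
  simp only [flipEquiv, Equiv.coe_fn_mk, dir, ori, eW, eE]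
  simp only [vp_sub_fst, Bool.false_eq_true, if_false]
  cases vp (a, b) <;> cases σ.1 (a - 1, b) <;> cases σ.1 (a, b) <;> simp

theorem bal_iff (σ : Arrows M L) :
    (∀ i : ZMod M, 2 * (univ.filter fun j : ZMod L => σ.1 (i, j) = true).card = L) ↔
      Bal (flipEquiv σ) := by
  unfold Bal
  refine forall_congr' fun i => ?_
  have h1 : ∑ j : ZMod L, so (((i, j), false) : ME (ZMod M) (ZMod L)) *
      sgb (flipEquiv σ ((i, j), false)) = ∑ j : ZMod L, (if σ.1 (i, j) = true then (1 : ℤ) else -1) := by
    refine Finset.sum_congr rfl fun j _ => ?_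
    rw [← sgd_eq]
    simp [sgd, dir]
  rw [h1]
  have h2 : ∑ j : ZMod L, (if σ.1 (i, j) = true then (1 : ℤ) else -1) =
      2 * ((univ.filter fun j : ZMod L => σ.1 (i, j) = true).card : ℤ) - L := by
    have h3 : ∀ j : ZMod L, (if σ.1 (i, j) = true then (1 : ℤ) else -1) =
        2 * (if σ.1 (i, j) = true then (1 : ℤ) else 0) - 1 := by
      intro j; split_ifs <;> norm_num
    simp_rw [h3]
    rw [Finset.sum_sub_distrib, ← Finset.mul_sum, Finset.sum_boole]
    simp [ZMod.card]
  rw [h2]
  omega

open Classical in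
theorem wt6_eq (lam : ℝ) (σ : Arrows M L) :
    wt6 lam (flipEquiv σ) = if ∀ v, inDegree σ v = 2 then
      (2 * Real.cos (lam / 2)) ^ numTypeC σ else 0 := by
  unfold wt6 w6
  rw [Finset.prod_ite_zero]
  have h1 : (∀ v ∈ (univ : Finset (ZMod M × ZMod L)), ice (flipEquiv σ (eW v))
      (flipEquiv σ (eE v)) (flipEquiv σ (eN v)) (flipEquiv σ (eS v))) ↔
      ∀ v, inDegree σ v = 2 := by
    simp only [mem_univ, true_implies]
    exact forall_congr' fun v => (ice_iff σ v).symm
  by_cases h : ∀ v, inDegree σ v = 2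
  · rw [if_pos h, if_pos (h1.2 h)]
    unfold numTypeC
    rw [Finset.prod_ite, Finset.prod_const, Finset.prod_const, one_pow, mul_one]
    congr 2
    ext v
    simp only [mem_filter, mem_univ, true_and]
    exact (typeC_iff σ v).symm
  · rw [if_neg h, if_neg (fun h' => h (h1.1 h'))]

theorem sqrt_three_eq : Real.sqrt 3 = 2 * Real.cos (Real.pi / 3 / 2) := by
  rw [show Real.pi / 3 / 2 = Real.pi / 6 by ring, Real.cos_pi_div_six]
  ring

open Classical in
theorem sum_arrows (c : ME (ZMod M) (ZMod L) → ℝ) :
    ∑ σ : Arrows M L, (if IsBalancedIce σ then Real.sqrt 3 ^ numTypeC σ *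
      Real.cos (∑ e, c e * sgd σ e) else 0) = ∑ s, Gw (Real.pi / 3) c s := by
  rw [← sum_Gw]
  refine Fintype.sum_equiv flipEquiv _ _ fun σ => ?_
  have h1 : ∑ e, c e * (sgd σ e : ℝ) = ∑ e, c e * so e * sgb (flipEquiv σ e) := by
    refine Finset.sum_congr rfl fun e _ => ?_
    rw [sgd_eq]
    push_cast
    ring
  rw [wt6_eq, h1, ← sqrt_three_eq]
  unfold IsBalancedIce
  by_cases h2 : ∀ v, inDegree σ v = 2
  · by_cases h3 : Bal (flipEquiv σ)
    · rw [if_pos ⟨h2, (bal_iff σ).2 h3⟩, if_pos h3, if_pos h2]
    · rw [if_neg (fun h => h3 ((bal_iff σ).1 h.2)), if_neg h3]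
  · rw [if_neg (fun h => h2 h.1), if_neg h2]
    simp

theorem sum_arrows_one : (∑ σ : Arrows M L, by
    classical exact if IsBalancedIce σ then Real.sqrt 3 ^ numTypeC σ else 0) =
    ∑ s : ZMod M × ZMod L → Bool, wG s := by
  classical
  have h := sum_arrows (M := M) (L := L) (fun _ => 0)
  simp only [zero_mul, Finset.sum_const_zero, Real.cos_zero, mul_one] at h
  unfold wG
  rw [← h]

/-- **torus expectation of the cosine of a linear functional of the arrows** -/
theorem torusExpectation_cos (c : ME (ZMod M) (ZMod L) → ℝ) :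
    torusExpectation M L (Real.sqrt 3) (fun σ => Real.cos (∑ e, c e * sgd σ e)) =
      (∑ s, Gw (Real.pi / 3) c s) / ∑ s : ZMod M × ZMod L → Bool, wG s := by
  classical
  unfold torusExpectation
  rw [← sum_arrows, ← sum_arrows_one]

end Arr

/-! ### the relative height as a linear functional of the arrows -/

/-- coefficients of the path from the face `(0,0)` to the face `(p,q)` -/
noncomputable def pathC (p q : ℤ) : ME ℤ ℤ →₀ ℝ :=
  (∑ i ∈ Ico (p + 1) 1, Finsupp.single (((i, 0), true) : ME ℤ ℤ) (1 : ℝ) -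
    ∑ i ∈ Ico 1 (p + 1), Finsupp.single (((i, 0), true) : ME ℤ ℤ) (1 : ℝ)) +
  (∑ j ∈ Ico 1 (q + 1), Finsupp.single (((p, j), false) : ME ℤ ℤ) (1 : ℝ) -
    ∑ j ∈ Ico (q + 1) 1, Finsupp.single (((p, j), false) : ME ℤ ℤ) (1 : ℝ))

/-- coefficients of the pairing of the height with the charge `m` -/
noncomputable def chC (m : ℤ × ℤ →₀ ℝ) : ME ℤ ℤ →₀ ℝ :=
  m.sum fun pq a => a • pathC pq.1 pq.2

theorem lc_pathC (x : ME ℤ ℤ → ℝ) (p q : ℤ) :
    Finsupp.linearCombination ℝ x (pathC p q) =
      (∑ i ∈ Ico (p + 1) 1, x ((i, 0), true) - ∑ i ∈ Ico 1 (p + 1), x ((i, 0), true)) +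
      (∑ j ∈ Ico 1 (q + 1), x ((p, j), false) - ∑ j ∈ Ico (q + 1) 1, x ((p, j), false)) := by
  simp [pathC, map_sum, Finsupp.linearCombination_single]

theorem lc_chC (x : ME ℤ ℤ → ℝ) (m : ℤ × ℤ →₀ ℝ) :
    Finsupp.linearCombination ℝ x (chC m) =
      m.sum fun pq a => a * Finsupp.linearCombination ℝ x (pathC pq.1 pq.2) := by
  unfold chC
  rw [Finsupp.sum, map_sum, Finsupp.sum]
  refine Finset.sum_congr rfl fun pq _ => ?_
  rw [map_smul, smul_eq_mul]

/-- discrete integration along the path -/
theorem lc_path_grad (H : ℤ × ℤ → ℝ) (x : ME ℤ ℤ → ℝ)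
    (h1 : ∀ i j, H (i, j) - H (i - 1, j) = - x ((i, j), true))
    (h2 : ∀ i j, H (i, j) - H (i, j - 1) = x ((i, j), false)) (p q : ℤ) :
    Finsupp.linearCombination ℝ x (pathC p q) = H (p, q) - H (0, 0) := by
  rw [lc_pathC]
  have key : ∀ (f g : ℤ → ℝ) (hfg : ∀ i, f i - f (i - 1) = g i) (n : ℤ),
      ∑ i ∈ Ico 1 (n + 1), g i - ∑ i ∈ Ico (n + 1) 1, g i = f n - f 0 := by
    intro f g hfg n
    have up : ∀ k : ℕ, ∑ i ∈ Ico 1 ((k : ℤ) + 1), g i = f k - f 0 := by
      intro k
      induction k with
      | zero => simp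
      | succ k ih =>
        have h3 : Ico 1 (((k + 1 : ℕ) : ℤ) + 1) = insert ((k : ℤ) + 1) (Ico 1 ((k : ℤ) + 1)) := by
          ext z; simp only [mem_Ico, mem_insert]; push_cast; omega
        rw [h3, Finset.sum_insert (by simp), ih]
        have h4 := hfg ((k : ℤ) + 1)
        rw [add_sub_cancel_right] at h4
        push_cast
        linarith
    have dn : ∀ k : ℕ, ∑ i ∈ Ico (-(k : ℤ) + 1) 1, g i = f 0 - f (-(k : ℤ)) := by
      intro k
      induction k with
      | zero => simp
      | succ k ih =>
        have h3 : Ico (-((k + 1 : ℕ) : ℤ) + 1) 1 = insert (-(k : ℤ)) (Ico (-(k : ℤ) + 1) 1) := by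
          ext z; simp only [mem_Ico, mem_insert]; push_cast; omega
        rw [h3, Finset.sum_insert (by simp), ih]
        have h4 := hfg (-(k : ℤ))
        have h5 : -((k + 1 : ℕ) : ℤ) = -(k : ℤ) - 1 := by push_cast; ring
        rw [h5]
        linarith
    rcases le_total 0 n with hn | hn
    · obtain ⟨k, rfl⟩ := Int.eq_ofNat_of_zero_le hn
      rw [up k, Ico_eq_empty (by omega)]
      simp
    · obtain ⟨k, hk⟩ := Int.eq_ofNat_of_zero_le (show (0 : ℤ) ≤ -n by omega)
      obtain rfl : n = -(k : ℤ) := by omega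
      rw [dn k, Ico_eq_empty (by omega)]
      simp
  have e1 := key (fun i => H (i, 0)) (fun i => - x ((i, 0), true)) (fun i => h1 i 0) p
  have e2 := key (fun j => H (p, j)) (fun j => x ((p, j), false)) (fun j => h2 p j) q
  simp only [Finset.sum_neg_distrib] at e1
  linarith

/-- neutral charges only see the gradient -/
theorem lc_chC_grad (H : ℤ × ℤ → ℝ) (x : ME ℤ ℤ → ℝ)
    (h1 : ∀ i j, H (i, j) - H (i - 1, j) = - x ((i, j), true))
    (h2 : ∀ i j, H (i, j) - H (i, j - 1) = x ((i, j), false)) (m : ℤ × ℤ →₀ ℝ)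
    (hm : m.sum (fun _ a => a) = 0) :
    Finsupp.linearCombination ℝ x (chC m) = m.sum fun pq a => a * H pq := by
  rw [lc_chC]
  simp_rw [lc_path_grad H x h1 h2]
  have : (m.sum fun pq a => a * (H (pq.1, pq.2) - H (0, 0))) =
      (m.sum fun pq a => a * H pq) - (m.sum fun _ a => a) * H (0, 0) := by
    simp only [Finsupp.sum, mul_sub, Finset.sum_sub_distrib, Finset.sum_mul]
  rw [this, hm, zero_mul, sub_zero]

/-- projection of the medial edges of the plane to the torus -/
def proj (M L : ℕ) (e : ME ℤ ℤ) : ME (ZMod M) (ZMod L) := (((e.1.1 : ZMod M), (e.1.2 : ZMod L)), e.2)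

section Arr2

variable {M L : ℕ} [NeZero M] [NeZero L] [Fact (Even M)] [Fact (Even L)]

omit [NeZero M] [NeZero L] [Fact (Even M)] [Fact (Even L)] in
theorem relHeight_eq (σ : Arrows M L) (p q : ℤ) : (relHeight σ p q : ℝ) =
    Finsupp.linearCombination ℝ (fun e => (sgd σ (proj M L e) : ℝ)) (pathC p q) := by
  rw [lc_pathC]
  unfold relHeight signedSum
  have h1 : ∀ i : ℤ, (if σ.2 ((i : ZMod M), (0 : ZMod L)) then (-1 : ℤ) else 1) =
      - sgd σ (proj M L ((i, 0), true)) := by
    intro i
    simp only [sgd, dir, proj, if_true, Int.cast_zero]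
    split_ifs <;> simp
  have h2 : ∀ j : ℤ, (if σ.1 ((p : ZMod M), (j : ZMod L)) then (1 : ℤ) else -1) =
      sgd σ (proj M L ((p, j), false)) := by
    intro j
    simp [sgd, dir, proj]
  simp_rw [h1, h2]
  push_cast
  simp only [Finset.sum_neg_distrib]
  ring

omit [NeZero M] [NeZero L] [Fact (Even M)] [Fact (Even L)] in
theorem hq_eq (σ : Arrows M L) (m : ℤ × ℤ →₀ ℝ) : Bs410.hq σ m =
    Finsupp.linearCombination ℝ (fun e => (sgd σ (proj M L e) : ℝ)) (chC m) := by
  rw [lc_chC]
  unfold Bs410.hq
  simp_rw [relHeight_eq]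

/-- coefficients on the torus -/
noncomputable def pushC (M L : ℕ) (C : ME ℤ ℤ →₀ ℝ) : ME (ZMod M) (ZMod L) → ℝ :=
  Finsupp.mapDomain (proj M L) C

omit [Fact (Even M)] [Fact (Even L)] in
theorem sum_pushC (C : ME ℤ ℤ →₀ ℝ) (x : ME (ZMod M) (ZMod L) → ℝ) :
    ∑ e, pushC M L C e * x e = Finsupp.linearCombination ℝ (fun e => x (proj M L e)) C := by
  have h := Finsupp.linearCombination_mapDomain ℝ (v' := x) (proj M L) C
  rw [show (fun e => x (proj M L e)) = x ∘ proj M L from rfl, ← h]
  rw [Finsupp.linearCombination_apply, Finsupp.sum_fintype _ _ (by simp)]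
  simp [pushC]

/-- **the torus mean of `cos (h (m))` as a ratio of sums over splittings** -/
theorem latMean_eq (m : ℤ × ℤ →₀ ℝ) : Bs410.latMean M L (Real.sqrt 3) m =
    (∑ s, Gw (Real.pi / 3) (pushC M L (chC m)) s) / ∑ s : ZMod M × ZMod L → Bool, wG s := by
  unfold Bs410.latMean
  rw [dif_pos ⟨NeZero.ne M, NeZero.ne L⟩, ← torusExpectation_cos]
  congr 1
  funext σ
  rw [hq_eq, ← sum_pushC (C := chC m) (fun e => (sgd σ e : ℝ))]

end Arr2

end Crest.Agent.R158.Bk430
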