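import Crest.Agent.R158.Ts7_405
import Crest.Agent.R158.Bk3_430

-- ▼ part R158/Ts8_405
section

/-!
# R158, T1 part 8: periodic strands of `Bk0_430` over `ℤ × ℤ` have turning number zero
-/

set_option autoImplicit false

namespace Crest.Agent.R158.Ts405

open Crest.Agent.R158.Bk430 (ME HasPar par vp ori hd tl kap turn)

theorem iter_rf (s : ℤ × ℤ → Bool) (e : ME ℤ ℤ) (k : ℕ) :
    (Bk430.nx (rfS s))^[k] (rfE e) = rfE ((Bk430.nx s)^[k] e) := by
  induction k with
  | zero => rfl
  | succ k ih =>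
    rw [Function.iterate_succ_apply', ih, (nx_rf s _).1, Function.iterate_succ_apply']

/-- **T1 (b)**: `s` invariant under the even translation `P ≠ 0`; a strand with
`nx^[k] e = e + P` has total turn `0` over the `k` steps. -/
theorem T1_periodic (s : ℤ × ℤ → Bool) (P : ℤ × ℤ) (hP : (P.1 + P.2) % 2 = 0)
    (hs : ∀ u : ℤ × ℤ, s (u.1 + P.1, u.2 + P.2) = s u) (hne : P ≠ 0)
    (e : ME ℤ ℤ) (k : ℕ) (hk : 0 < k) (hper : (Bk430.nx s)^[k] e = shE P e) :
    ∑ l ∈ Finset.range k, turn s ((Bk430.nx s)^[l] e) = 0 := by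
  by_cases h : P.1 + P.2 = 0
  · have h2 : -P.1 + P.2 ≠ 0 := by
      intro h3
      apply hne
      have e1 : P.1 = 0 := by omega
      have e2 : P.2 = 0 := by omega
      exact Prod.ext e1 e2
    have h3 := T1_periodic_diag (rfS s) (-P.1, P.2) (by simp only; omega) (by
      intro u
      simp only [rfS]
      have := hs (-u.1 + -P.1 , u.2)
      have h4 := hs (-(u.1 + -P.1) + -P.1, u.2 + P.2 + -P.2)
      simp only at h4
      have e1 : -(u.1 + -P.1) + -P.1 + P.1 = -(u.1 + -P.1) := by ring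
      have e2 : u.2 + P.2 + -P.2 + P.2 = u.2 + P.2 := by ring
      have e3 : -(u.1 + -P.1) + -P.1 = -u.1 := by ring
      have e4 : u.2 + P.2 + -P.2 = u.2 := by ring
      rw [e1, e2, e3, e4] at h4
      rw [h4]) h2 (rfE e) k hk (by
      rw [iter_rf, hper]
      obtain ⟨⟨i, j⟩, c⟩ := e
      cases c
      · simp [rfE, shE]; ring
      · simp [rfE, shE]; ring)
    have h5 : ∀ l, turn (rfS s) ((Bk430.nx (rfS s))^[l] (rfE e)) = - turn s ((Bk430.nx s)^[l] e) := by
      intro l
      rw [iter_rf, (nx_rf s _).2]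
    rw [Finset.sum_congr rfl (fun l _ => h5 l), Finset.sum_neg_distrib] at h3
    linarith
  · exact T1_periodic_diag s P hP hs h e k hk hper

end Crest.Agent.R158.Ts405
end

-- ▼ part R158/Ts9_405

/-!
# R158, T1 part 9: the structure `TT` of `Bk2_430` on the torus `ZMod M × ZMod L`
-/

set_option autoImplicit false

namespace Crest.Agent.R158.Ts405

open Finset
open Crest.Agent.R158.Bk430 (ME HasPar par vp ori hd tl kap turn proj orb Orb nxE Tl Fl so Lp TT tl_nx)

/-! ### cycles of a permutation -/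

section Cyc

variable {E : Type*} [Fintype E] [DecidableEq E]

omit [DecidableEq E] in
theorem mp_pos (P : Equiv.Perm E) (e : E) : 0 < Function.minimalPeriod P e := by
  apply Function.minimalPeriod_pos_of_mem_periodicPts
  obtain ⟨n, hn, h⟩ := isOfFinOrder_iff_pow_eq_one.mp (isOfFinOrder_of_finite P)
  refine ⟨n, hn, ?_⟩
  rw [Function.IsPeriodicPt, Function.IsFixedPt, Equiv.Perm.iterate_eq_pow, h]
  rfl

open Classical in
theorem sum_cycle {R : Type*} [AddCommMonoid R] (P : Equiv.Perm E) (e : E) (f : E → R) :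
    ∑ x with orb P x = orb P e, f x = ∑ i ∈ range (Function.minimalPeriod P e), f (P^[i] e) := by
  set k := Function.minimalPeriod P e with hk
  have hkpos := mp_pos P e
  have hper : P^[k] e = e := Function.iterate_minimalPeriod
  have himg : (univ.filter fun x => orb P x = orb P e) = (range k).image (fun i => P^[i] e) := by
    ext x
    simp only [mem_filter, mem_univ, true_and, mem_image, mem_range]
    constructor
    · intro h
      have h1 : P.SameCycle x e := Quotient.exact h
      obtain ⟨i, hi⟩ := h1.symm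
      refine ⟨(i % (k : ℤ)).toNat, ?_, ?_⟩
      · have h2 := Int.emod_lt_of_pos i (show (0 : ℤ) < k by exact_mod_cast hkpos)
        have h3 := Int.emod_nonneg i (show (k : ℤ) ≠ 0 by exact_mod_cast hkpos.ne')
        omega
      · have h3 := Int.emod_nonneg i (show (k : ℤ) ≠ 0 by exact_mod_cast hkpos.ne')
        have h4 : (P ^ k) e = e := by rw [← Equiv.Perm.iterate_eq_pow]; exact hper
        have h5 : ∀ n : ℤ, ((P ^ (k : ℤ)) ^ n) e = e := by
          intro n
          have : (P ^ (k : ℤ)) e = e := by rw [zpow_natCast]; exact h4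
          exact Equiv.Perm.zpow_apply_eq_self_of_apply_eq_self this n
        have h6 : (P ^ i) e = (P ^ (i % (k : ℤ))) e := by
          conv_lhs => rw [← Int.emod_add_mul_ediv i k]
          rw [zpow_add, Equiv.Perm.mul_apply, zpow_mul, h5]
        rw [Equiv.Perm.iterate_eq_pow, ← zpow_natCast, Int.toNat_of_nonneg h3, ← h6, hi]
    · rintro ⟨i, _, rfl⟩
      rw [Equiv.Perm.iterate_eq_pow]
      refine Quotient.sound ?_
      exact Equiv.Perm.SameCycle.symm ⟨i, by rw [zpow_natCast]⟩
  rw [himg, Finset.sum_image]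
  intro i hi j hj hij
  simp only [coe_range, Set.mem_Iio] at hi hj
  have h1 : i % k = j % k := (Function.iterate_eq_iterate_iff_of_lt_minimalPeriod hi hj).mp hij ▸ rfl
  rwa [Nat.mod_eq_of_lt hi, Nat.mod_eq_of_lt hj] at h1

end Cyc


/-! ### lifting to the plane -/

section Lift

variable {M L : ℕ} [NeZero M] [NeZero L] [Fact (Even M)] [Fact (Even L)]

/-- lift of a splitting -/
def sL (s : ZMod M × ZMod L → Bool) (u : ℤ × ℤ) : Bool := s ((u.1 : ZMod M), (u.2 : ZMod L))

theorem vp_proj (i j : ℤ) : vp (((i : ZMod M), (j : ZMod L)) : ZMod M × ZMod L)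
    = vp ((i, j) : ℤ × ℤ) := by
  unfold vp
  simp only [Bk430.par_intCast]

theorem hd_proj (e : ME ℤ ℤ) :
    hd (proj M L e) = (((hd e).1 : ZMod M), ((hd e).2 : ZMod L)) := by
  obtain ⟨⟨i, j⟩, c⟩ := e
  have h := vp_proj (M := M) (L := L) i j
  cases c <;> cases hv : vp ((i, j) : ℤ × ℤ) <;> rw [hv] at h <;> simp [hd, proj, h, hv]

theorem tl_proj (e : ME ℤ ℤ) :
    tl (proj M L e) = (((tl e).1 : ZMod M), ((tl e).2 : ZMod L)) := by
  obtain ⟨⟨i, j⟩, c⟩ := e
  have h := vp_proj (M := M) (L := L) i j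
  cases c <;> cases hv : vp ((i, j) : ℤ × ℤ) <;> rw [hv] at h <;> simp [tl, proj, h, hv]

theorem ori_proj (e : ME ℤ ℤ) : ori (proj M L e) = ori e := by
  obtain ⟨⟨i, j⟩, c⟩ := e
  have h := vp_proj (M := M) (L := L) i j
  simp [ori, proj, h]

theorem so_proj (e : ME ℤ ℤ) : so (proj M L e) = so e := by
  unfold so; rw [ori_proj]

theorem nx_proj (s : ZMod M × ZMod L → Bool) (e : ME ℤ ℤ) :
    proj M L (Bk430.nx (sL s) e) = Bk430.nx s (proj M L e) := by
  have h1 := hd_proj (M := M) (L := L) e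
  obtain ⟨⟨i, j⟩, c⟩ := e
  have h := vp_proj (M := M) (L := L) i j
  have hs : s (hd (proj M L ((i, j), c))) = sL s (hd (((i, j), c) : ME ℤ ℤ)) := by
    rw [h1]; rfl
  cases c
  · rcases hc : decide (sL s (hd (((i, j), false) : ME ℤ ℤ)) = !vp ((i, j) : ℤ × ℤ)) with _ | _
    · have hc' : ¬ (sL s (hd (((i, j), false) : ME ℤ ℤ)) = !vp ((i, j) : ℤ × ℤ)) := by
        simpa using hc
      have hc2 : ¬ (s (hd (proj M L ((i, j), false))) = !vp (proj M L ((i, j), false)).1) := by
        rw [hs]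
        have : (proj M L ((i, j), false)).1 = (((i : ZMod M), (j : ZMod L))) := rfl
        rw [this, h]; exact hc'
      have e1 : Bk430.nx (sL s) ((i, j), false)
          = (((hd (((i, j), false) : ME ℤ ℤ)).1, (hd (((i, j), false) : ME ℤ ℤ)).2 - 1), true) := by
        unfold Bk430.nx
        rw [if_neg (by simp), if_neg hc']
      have e2 : Bk430.nx s (proj M L ((i, j), false))
          = (((hd (proj M L ((i, j), false))).1, (hd (proj M L ((i, j), false))).2 - 1), true) := by
        unfold Bk430.nx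
        rw [if_neg (by simp [proj]), if_neg hc2]
      rw [e1, e2, h1]
      simp [proj]
    · have hc' : (sL s (hd (((i, j), false) : ME ℤ ℤ)) = !vp ((i, j) : ℤ × ℤ)) := by
        simpa using hc
      have hc2 : (s (hd (proj M L ((i, j), false))) = !vp (proj M L ((i, j), false)).1) := by
        rw [hs]
        have : (proj M L ((i, j), false)).1 = (((i : ZMod M), (j : ZMod L))) := rfl
        rw [this, h]; exact hc'
      have e1 : Bk430.nx (sL s) ((i, j), false)
          = ((hd (((i, j), false) : ME ℤ ℤ)), true) := by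
        unfold Bk430.nx
        rw [if_neg (by simp), if_pos hc']
      have e2 : Bk430.nx s (proj M L ((i, j), false)) = ((hd (proj M L ((i, j), false))), true) := by
        unfold Bk430.nx
        rw [if_neg (by simp [proj]), if_pos hc2]
      rw [e1, e2, h1]
      simp [proj]
  · rcases hc : decide (sL s (hd (((i, j), true) : ME ℤ ℤ)) = vp ((i, j) : ℤ × ℤ)) with _ | _
    · have hc' : ¬ (sL s (hd (((i, j), true) : ME ℤ ℤ)) = vp ((i, j) : ℤ × ℤ)) := by
        simpa using hc
      have hc2 : ¬ (s (hd (proj M L ((i, j), true))) = vp (proj M L ((i, j), true)).1) := by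
        rw [hs]
        have : (proj M L ((i, j), true)).1 = (((i : ZMod M), (j : ZMod L))) := rfl
        rw [this, h]; exact hc'
      have e1 : Bk430.nx (sL s) ((i, j), true)
          = (((hd (((i, j), true) : ME ℤ ℤ)).1 - 1, (hd (((i, j), true) : ME ℤ ℤ)).2), false) := by
        unfold Bk430.nx
        rw [if_pos (by simp), if_neg hc']
      have e2 : Bk430.nx s (proj M L ((i, j), true))
          = (((hd (proj M L ((i, j), true))).1 - 1, (hd (proj M L ((i, j), true))).2), false) := by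
        unfold Bk430.nx
        rw [if_pos (by simp [proj]), if_neg hc2]
      rw [e1, e2, h1]
      simp [proj]
    · have hc' : (sL s (hd (((i, j), true) : ME ℤ ℤ)) = vp ((i, j) : ℤ × ℤ)) := by
        simpa using hc
      have hc2 : (s (hd (proj M L ((i, j), true))) = vp (proj M L ((i, j), true)).1) := by
        rw [hs]
        have : (proj M L ((i, j), true)).1 = (((i : ZMod M), (j : ZMod L))) := rfl
        rw [this, h]; exact hc'
      have e1 : Bk430.nx (sL s) ((i, j), true)
          = ((hd (((i, j), true) : ME ℤ ℤ)), false) := by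
        unfold Bk430.nx
        rw [if_pos (by simp), if_pos hc']
      have e2 : Bk430.nx s (proj M L ((i, j), true)) = ((hd (proj M L ((i, j), true))), false) := by
        unfold Bk430.nx
        rw [if_pos (by simp [proj]), if_pos hc2]
      rw [e1, e2, h1]
      simp [proj]

theorem iter_proj (s : ZMod M × ZMod L → Bool) (e : ME ℤ ℤ) (k : ℕ) :
    proj M L ((Bk430.nx (sL s))^[k] e) = (Bk430.nx s)^[k] (proj M L e) := by
  induction k with
  | zero => rfl
  | succ k ih => rw [Function.iterate_succ_apply', nx_proj, ih, Function.iterate_succ_apply']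

theorem turn_proj (s : ZMod M × ZMod L → Bool) (e : ME ℤ ℤ) :
    turn s (proj M L e) = turn (sL s) e := by
  unfold turn kap
  rw [hd_proj]
  have h := vp_proj (M := M) (L := L) (hd e).1 (hd e).2
  rw [h]
  rfl

/-- a lift of an edge of the torus -/
def lft (e : ME (ZMod M) (ZMod L)) : ME ℤ ℤ := (((e.1.1.val : ℤ), (e.1.2.val : ℤ)), e.2)

omit [Fact (Even M)] [Fact (Even L)] in
theorem proj_lft (e : ME (ZMod M) (ZMod L)) : proj M L (lft e) = e := by
  obtain ⟨⟨i, j⟩, c⟩ := e
  simp [proj, lft]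

omit [NeZero M] [NeZero L] [Fact (Even M)] [Fact (Even L)] in
theorem proj_eq_iff {e e' : ME ℤ ℤ} (h : proj M L e = proj M L e') :
    ∃ a b : ℤ, e = shE (M * a, L * b) e' := by
  obtain ⟨⟨i, j⟩, c⟩ := e
  obtain ⟨⟨i', j'⟩, c'⟩ := e'
  have h1 : (i : ZMod M) = (i' : ZMod M) := congrArg (fun x : ME (ZMod M) (ZMod L) => x.1.1) h
  have h2 : (j : ZMod L) = (j' : ZMod L) := congrArg (fun x : ME (ZMod M) (ZMod L) => x.1.2) h
  have h3 : c = c' := congrArg (fun x : ME (ZMod M) (ZMod L) => x.2) h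
  obtain ⟨a, ha⟩ := (ZMod.intCast_eq_intCast_iff_dvd_sub i' i M).mp h1.symm
  obtain ⟨b, hb⟩ := (ZMod.intCast_eq_intCast_iff_dvd_sub j' j L).mp h2.symm
  refine ⟨a, b, ?_⟩
  subst h3
  unfold shE
  simp only [Prod.mk.injEq, and_true]
  constructor <;> linarith

/-- period of an edge of the torus -/
noncomputable def per (s : ZMod M × ZMod L → Bool) (e : ME (ZMod M) (ZMod L)) : ℕ :=
  Function.minimalPeriod (nxE s) e

theorem per_pos (s : ZMod M × ZMod L → Bool) (e : ME (ZMod M) (ZMod L)) : 0 < per s e :=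
  mp_pos _ _

theorem per_iter (s : ZMod M × ZMod L → Bool) (e : ME (ZMod M) (ZMod L)) :
    (Bk430.nx s)^[per s e] e = e :=
  Function.iterate_minimalPeriod (f := nxE s)

theorem per_min (s : ZMod M × ZMod L → Bool) (e : ME (ZMod M) (ZMod L)) {i : ℕ} (h1 : 0 < i)
    (h2 : i < per s e) : (Bk430.nx s)^[i] e ≠ e := by
  intro h
  have : Function.IsPeriodicPt (nxE s) i e := h
  exact absurd (this.minimalPeriod_le h1) (not_le.mpr h2)

/-- contractible loops -/
def Ctr (s : ZMod M × ZMod L → Bool) (l : Lp s) : Prop :=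
  ∃ e : ME ℤ ℤ, orb (nxE s) (proj M L e) = l ∧
    (Bk430.nx (sL s))^[per s (proj M L e)] e = e

/-- displacement of the tail vertex -/
theorem tl_hd (e : ME ℤ ℤ) :
    ((hd e).1 = (tl e).1 + (if e.2 then 0 else so e)) ∧
      ((hd e).2 = (tl e).2 + (if e.2 then so e else 0)) := by
  obtain ⟨⟨i, j⟩, c⟩ := e
  cases c <;> cases hv : vp ((i, j) : ℤ × ℤ) <;> simp [hd, tl, so, ori, hv]

theorem so_abs (e : ME ℤ ℤ) : so e = 1 ∨ so e = -1 := by
  unfold so; split_ifs <;> simp

theorem tl_iter (s : ℤ × ℤ → Bool) (e : ME ℤ ℤ) (k : ℕ) :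
    |(tl ((Bk430.nx s)^[k] e)).1 - (tl e).1| ≤ k ∧ |(tl ((Bk430.nx s)^[k] e)).2 - (tl e).2| ≤ k := by
  induction k with
  | zero => simp
  | succ k ih =>
    rw [Function.iterate_succ_apply', tl_nx]
    obtain ⟨h1, h2⟩ := tl_hd ((Bk430.nx s)^[k] e)
    have h3 := so_abs ((Bk430.nx s)^[k] e)
    rw [h1, h2]
    obtain ⟨i1, i2⟩ := ih
    rw [abs_le] at i1 i2
    push_cast
    constructor
    · rw [abs_le]
      split_ifs <;> rcases h3 with h3 | h3 <;> constructor <;> omega
    · rw [abs_le]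
      split_ifs <;> rcases h3 with h3 | h3 <;> constructor <;> omega

theorem tl_shE {P : ℤ × ℤ} (hP : (P.1 + P.2) % 2 = 0) (e : ME ℤ ℤ) :
    tl (shE P e) = ((tl e).1 + P.1, (tl e).2 + P.2) := by
  obtain ⟨⟨i, j⟩, c⟩ := e
  have h1 : vp ((i + P.1, j + P.2) : ℤ × ℤ) = vp ((i, j) : ℤ × ℤ) := by
    rw [vp_int, vp_int]
    congr 1
    apply propext
    omega
  cases c <;> cases hv : vp ((i, j) : ℤ × ℤ) <;> rw [hv] at h1 <;>
    simp [tl, shE, h1, hv] <;> ring


/-! ### the theorem -/

theorem even_MP (M L : ℕ) [hM : Fact (Even M)] [hL : Fact (Even L)] (a b : ℤ) :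
    ((M : ℤ) * a + (L : ℤ) * b) % 2 = 0 := by
  obtain ⟨m, hm⟩ := hM.out
  obtain ⟨l, hl⟩ := hL.out
  have : (M : ℤ) * a + (L : ℤ) * b = 2 * ((m : ℤ) * a + l * b) := by
    rw [hm, hl]; push_cast; ring
  rw [this]
  exact Int.mul_emod_right 2 _

theorem lift_iter (s : ZMod M × ZMod L → Bool) (e : ME ℤ ℤ) :
    ∃ a b : ℤ, (Bk430.nx (sL s))^[per s (proj M L e)] e = shE (M * a, L * b) e := by
  apply proj_eq_iff (M := M) (L := L)
  rw [iter_proj, per_iter]

/-- counting function of a residue class -/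
def psi (M : ℕ) (i0 : ℤ) (x : ℤ) : ℤ := (x - i0 + M - 1) / M

theorem psi_succ (M : ℕ) (hM : 0 < M) (i0 x : ℤ) :
    psi M i0 (x + 1) - psi M i0 x = if (M : ℤ) ∣ x - i0 then 1 else 0 := by
  unfold psi
  have hM' : (0 : ℤ) < M := by exact_mod_cast hM
  have e1 : x + 1 - i0 + M - 1 = (x - i0) + M * 1 := by ring
  rw [e1, Int.add_mul_ediv_left _ _ hM'.ne']
  split_ifs with h
  · obtain ⟨c, hc⟩ := h
    have e2 : x - i0 + M - 1 = (M - 1) + M * c := by rw [hc]; ring
    rw [e2, Int.add_mul_ediv_left _ _ hM'.ne', hc, Int.mul_ediv_cancel_left _ hM'.ne',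
      Int.ediv_eq_zero_of_lt (by omega) (by omega)]
    ring
  · have h1 := Int.emod_add_mul_ediv (x - i0) M
    have h2 := Int.emod_nonneg (x - i0) hM'.ne'
    have h3 := Int.emod_lt_of_pos (x - i0) hM'
    have h4 : (x - i0) % M ≠ 0 := fun h5 => h (Int.dvd_of_emod_eq_zero h5)
    have e2 : x - i0 + M - 1 = ((x - i0) % M - 1) + M * ((x - i0) / M + 1) := by
      have : M * ((x - i0) / M + 1) = M * ((x - i0) / M) + M := by ring
      rw [this]
      omega
    have e3 : ((x - i0) % M - 1) / M = 0 := Int.ediv_eq_zero_of_lt (by omega) (by omega)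
    rw [e2, Int.add_mul_ediv_left _ _ hM'.ne', e3]
    ring

open Classical in
theorem Fl_eq (s : ZMod M × ZMod L → Bool) (i : ZMod M) (e : ME (ZMod M) (ZMod L)) :
    Fl s i (orb (nxE s) e) = ∑ t ∈ range (per s e),
      (if ((Bk430.nx s)^[t] e).2 = false ∧ ((Bk430.nx s)^[t] e).1.1 = i
        then so ((Bk430.nx s)^[t] e) else 0) := by
  have h := sum_cycle (nxE s) e (fun x : ME (ZMod M) (ZMod L) =>
    if x.2 = false ∧ x.1.1 = i then so x else 0)
  have h2 : ∀ t, (nxE s)^[t] e = (Bk430.nx s)^[t] e := fun t => rfl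
  simp_rw [h2] at h
  refine Eq.trans ?_ h
  unfold Fl
  rw [Finset.sum_filter, Finset.sum_filter]
  rw [Fintype.sum_prod_type, Fintype.sum_prod_type]
  rw [Finset.sum_eq_single i]
  · refine Finset.sum_congr rfl fun j _ => ?_
    rw [Fintype.sum_bool]
    simp
  · intro a _ ha
    refine Finset.sum_eq_zero fun j _ => ?_
    rw [Fintype.sum_bool]
    simp [ha]
  · intro h; exact absurd (mem_univ _) h

/-- telescoping of a vertex function along a strand -/
theorem tele (s : ℤ × ℤ → Bool) (F : ℤ → ℤ) (e : ME ℤ ℤ) (k : ℕ) :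
    ∑ t ∈ range k, (F (hd ((Bk430.nx s)^[t] e)).1 - F (tl ((Bk430.nx s)^[t] e)).1)
      = F (tl ((Bk430.nx s)^[k] e)).1 - F (tl e).1 := by
  induction k with
  | zero => simp
  | succ k ih =>
    rw [Finset.sum_range_succ, ih, Function.iterate_succ_apply', tl_nx]
    ring

/-- **T1 on the torus** -/
theorem TT_torus (s : ZMod M × ZMod L → Bool) : TT s (Ctr s) := by
  classical
  have hturn : ∀ e : ME ℤ ℤ, Tl s (orb (nxE s) (proj M L e))
      = ∑ t ∈ range (per s (proj M L e)), turn (sL s) ((Bk430.nx (sL s))^[t] e) := by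
    intro e
    unfold Tl
    rw [sum_cycle]
    refine Finset.sum_congr rfl fun t _ => ?_
    have : (nxE s)^[t] (proj M L e) = (Bk430.nx s)^[t] (proj M L e) := rfl
    rw [this, ← iter_proj, turn_proj]
  have hnot : ∀ l, ¬ Ctr s l → ∃ e : ME ℤ ℤ, orb (nxE s) (proj M L e) = l ∧
      ∃ a b : ℤ, (Bk430.nx (sL s))^[per s (proj M L e)] e = shE (M * a, L * b) e ∧
        (a ≠ 0 ∨ b ≠ 0) := by
    intro l hl
    induction l using Quotient.inductionOn with
    | h e0 =>
      refine ⟨lft e0, by rw [proj_lft]; rfl, ?_⟩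
      obtain ⟨a, b, hab⟩ := lift_iter s (lft e0)
      refine ⟨a, b, hab, ?_⟩
      by_contra hc
      push Not at hc
      obtain ⟨rfl, rfl⟩ := hc
      apply hl
      refine ⟨lft e0, by rw [proj_lft]; rfl, ?_⟩
      rw [hab]
      simp [shE]
  refine ⟨?_, ?_, ?_, ?_⟩
  · rintro l ⟨e, rfl, he⟩
    rw [hturn e]
    obtain ⟨_, _, _, _, _, h⟩ := T1_closed (sL s) e (per s (proj M L e)) (per_pos _ _) he (by
      intro i h1 h2 h3
      apply per_min s (proj M L e) h1 h2
      rw [← iter_proj, h3])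
    rcases h with h | h
    · left; exact h.2.2
    · right; exact h.2.2
  · rintro l ⟨e, rfl, he⟩ i
    rw [Fl_eq]
    have hpos : 0 < M := Nat.pos_of_ne_zero (NeZero.ne M)
    have h1 : ∀ t, (if ((Bk430.nx s)^[t] (proj M L e)).2 = false ∧
        ((Bk430.nx s)^[t] (proj M L e)).1.1 = i then so ((Bk430.nx s)^[t] (proj M L e)) else 0)
        = psi M i.val (hd ((Bk430.nx (sL s))^[t] e)).1 - psi M i.val (tl ((Bk430.nx (sL s))^[t] e)).1 := by
      intro t
      rw [← iter_proj, so_proj]
      set x := (Bk430.nx (sL s))^[t] e with hx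
      have h2 : (proj M L x).2 = x.2 := rfl
      have h3 : (proj M L x).1.1 = (x.1.1 : ZMod M) := rfl
      rw [h2, h3]
      obtain ⟨⟨a, b⟩, c⟩ := x
      have h4 : ((a : ZMod M) = i) ↔ (M : ℤ) ∣ a - i.val := by
        have e1 : i = ((i.val : ℤ) : ZMod M) := by simp
        conv_lhs => rw [e1]
        rw [eq_comm, ZMod.intCast_eq_intCast_iff_dvd_sub]
      have h5 := psi_succ M hpos i.val a
      cases c
      · cases hv : vp ((a, b) : ℤ × ℤ)
        · simp only [hd, tl, so, ori, hv, Bool.false_eq_true, if_false, Bool.xor_false]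
          simp only [true_and, h4]
          split_ifs at h5 ⊢ <;> linarith
        · simp only [hd, tl, so, ori, hv, Bool.false_eq_true, if_false, if_true, Bool.xor_false]
          simp only [true_and, h4]
          split_ifs at h5 ⊢ <;> linarith
      · cases hv : vp ((a, b) : ℤ × ℤ) <;> simp [hd, tl, hv]
    rw [Finset.sum_congr rfl (fun t _ => h1 t), tele (sL s) (psi M i.val), he]
    ring
  · intro l hl
    obtain ⟨e, rfl, a, b, hab, hne⟩ := hnot l hl
    rw [hturn e]
    refine T1_periodic (sL s) (M * a, L * b) (even_MP M L a b) ?_ ?_ e _ (per_pos _ _) hab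
    · intro u
      simp [sL]
    · intro h
      have h1 : (M : ℤ) * a = 0 := congrArg (fun x : ℤ × ℤ => x.1) h
      have h2 : (L : ℤ) * b = 0 := congrArg (fun x : ℤ × ℤ => x.2) h
      have hM0 : (M : ℤ) ≠ 0 := by exact_mod_cast NeZero.ne M
      have hL0 : (L : ℤ) ≠ 0 := by exact_mod_cast NeZero.ne L
      rcases hne with h3 | h3
      · exact h3 ((mul_eq_zero.mp h1).resolve_left hM0)
      · exact h3 ((mul_eq_zero.mp h2).resolve_left hL0)
  · intro l hl
    obtain ⟨e, rfl, a, b, hab, hne⟩ := hnot l hl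
    have hcard : Nat.card {x : ME (ZMod M) (ZMod L) // orb (nxE s) x = orb (nxE s) (proj M L e)}
        = per s (proj M L e) := by
      have h1 := sum_cycle (nxE s) (proj M L e) (fun _ => (1 : ℕ))
      rw [Finset.sum_const, Finset.sum_const, smul_eq_mul, smul_eq_mul, mul_one, mul_one,
        Finset.card_range] at h1
      rw [Nat.card_eq_fintype_card, Fintype.card_subtype]
      exact h1
    rw [hcard, ZMod.card, ZMod.card]
    have h1 := tl_iter (sL s) e (per s (proj M L e))
    rw [hab, tl_shE (even_MP M L a b)] at h1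
    simp only [add_sub_cancel_left] at h1
    obtain ⟨h2, h3⟩ := h1
    rcases hne with h4 | h4
    · refine le_trans (min_le_left _ _) ?_
      have h5 : (M : ℤ) ≤ |(M : ℤ) * a| := by
        rw [abs_mul, Nat.abs_cast]
        have h6 : 1 ≤ |a| := Int.one_le_abs h4
        nlinarith [Int.natCast_nonneg M]
      exact_mod_cast le_trans h5 h2
    · refine le_trans (min_le_right _ _) ?_
      have h5 : (L : ℤ) ≤ |(L : ℤ) * b| := by
        rw [abs_mul, Nat.abs_cast]
        have h6 : 1 ≤ |b| := Int.one_le_abs h4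
        nlinarith [Int.natCast_nonneg L]
      exact_mod_cast le_trans h5 h3

end Lift

end Crest.Agent.R158.Ts405
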