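import Mathlib
import Crest.Agent.R158.It4_200
import Crest.Agent.R158.Wf0_850

-- ▼ part R158/Vx1_107
section

/-!
# R158, Block V (helper107), file 1: trigonometry of one vertex

`Fw q = 2 cos (π/3 + q)` (loop weight with enclosed charge `q`), `Sw q = 2 sin (π/3 + q)`.
A loop of sign `σ = ±1` and height pairing `θ` encloses the charge `σ θ`.

* `Fw_add_half`, `Fw_sub_half` : a half charge `± π/2`
* `vert_open`, `vert_closed`   : the two identities behind the vertex algebra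
-/

set_option autoImplicit false

noncomputable section

namespace Crest.Agent.R158.Vx107

open Real

/-- loop weight -/
def Fw (q : ℝ) : ℝ := 2 * cos (π / 3 + q)

/-- its conjugate -/
def Sw (q : ℝ) : ℝ := 2 * sin (π / 3 + q)

theorem Fw_zero : Fw 0 = 1 := by
  unfold Fw; rw [add_zero, cos_pi_div_three]; norm_num

theorem abs_Fw_le (q : ℝ) : |Fw q| ≤ 2 := by
  unfold Fw; rw [abs_mul]; have := abs_cos_le_one (π / 3 + q)
  rw [abs_of_pos (by norm_num : (0 : ℝ) < 2)]; linarith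

theorem abs_Sw_le (q : ℝ) : |Sw q| ≤ 2 := by
  unfold Sw; rw [abs_mul]; have := abs_sin_le_one (π / 3 + q)
  rw [abs_of_pos (by norm_num : (0 : ℝ) < 2)]; linarith

theorem Fw_add_half (q : ℝ) : Fw (q + π / 2) = -Sw q := by
  unfold Fw Sw; rw [← add_assoc, cos_add_pi_div_two]; ring

theorem Fw_sub_half (q : ℝ) : Fw (q - π / 2) = Sw q := by
  unfold Fw Sw
  rw [show π / 3 + (q - π / 2) = (π / 3 + q) - π / 2 by ring, cos_sub_pi_div_two]

theorem Fw_add_pi (q : ℝ) : Fw (q + π) = -Fw q := by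
  unfold Fw; rw [← add_assoc, cos_add_pi]; ring

theorem Fw_sub_pi (q : ℝ) : Fw (q - π) = -Fw q := by
  unfold Fw
  rw [show π / 3 + (q - π) = (π / 3 + q) - π by ring, cos_sub_pi]; ring

/-- sign `σ = ±1`: pairing changed by a half charge -/
theorem Fw_sg_add {σ : ℝ} (hσ : σ = 1 ∨ σ = -1) (θ : ℝ) :
    Fw (σ * (θ + π / 2)) = -(σ * Sw (σ * θ)) := by
  rcases hσ with rfl | rfl
  · rw [one_mul, one_mul, one_mul, Fw_add_half]
  · rw [show (-1 : ℝ) * (θ + π / 2) = -1 * θ - π / 2 by ring, Fw_sub_half]; ring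

theorem Fw_sg_sub {σ : ℝ} (hσ : σ = 1 ∨ σ = -1) (θ : ℝ) :
    Fw (σ * (θ - π / 2)) = σ * Sw (σ * θ) := by
  rcases hσ with rfl | rfl
  · rw [one_mul, one_mul, one_mul, Fw_sub_half]
  · rw [show (-1 : ℝ) * (θ - π / 2) = -1 * θ + π / 2 by ring, Fw_add_half]; ring

theorem tan_pi_div_six' : tan (π / 6) = 1 / √3 := tan_pi_div_six

theorem sqrt3_sq : (√3 : ℝ) * √3 = 3 := mul_self_sqrt (by norm_num)

/-- expansion of the weights -/
theorem Fw_eq (q : ℝ) : Fw q = cos q - √3 * sin q := by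
  unfold Fw; rw [cos_add, cos_pi_div_three, sin_pi_div_three]; ring

theorem Sw_eq (q : ℝ) : Sw q = √3 * cos q + sin q := by
  unfold Sw; rw [sin_add, cos_pi_div_three, sin_pi_div_three]; ring

/-- side by side -/
theorem vert_side (a b : ℝ) :
    Fw a * Fw b - Fw (a + b) = (1 / 2) * (Fw a * Fw b + Sw a * Sw b)
      - tan (π / 6) / 2 * (Sw a * Fw b + Sw b * Fw a + 2 * Sw (a + b)) := by
  have h3 := sqrt3_sq
  have hp : (√3 : ℝ) ≠ 0 := by
    intro h; rw [h] at h3; norm_num at h3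
  rw [tan_pi_div_six', Fw_eq a, Fw_eq b, Fw_eq (a + b), Sw_eq a, Sw_eq b, Sw_eq (a + b), cos_add,
    sin_add]
  field_simp
  ring_nf
  have h2 : (√3 : ℝ) ^ 2 = 3 := by rw [sq]; exact h3
  have h4 : (√3 : ℝ) ^ 3 = 3 * √3 := by rw [pow_succ, h2]
  rw [h4, h2]
  ring

/-- nested -/
theorem vert_nest (a b : ℝ) :
    Fw a * Fw b - Fw (a - b) = (1 / 2) * (Fw a * Fw b - Sw a * Sw b)
      + tan (π / 6) / 2 * (Sw a * Fw b - Sw b * Fw a + 2 * Sw (a - b)) := by
  have h3 := sqrt3_sq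
  have hp : (√3 : ℝ) ≠ 0 := by
    intro h; rw [h] at h3; norm_num at h3
  rw [tan_pi_div_six', Fw_eq a, Fw_eq b, Fw_eq (a - b), Sw_eq a, Sw_eq b, Sw_eq (a - b), cos_sub,
    sin_sub]
  field_simp
  ring_nf
  have h2 : (√3 : ℝ) ^ 2 = 3 := by rw [sq]; exact h3
  have h4 : (√3 : ℝ) ^ 3 = 3 * √3 := by rw [pow_succ, h2]
  rw [h4, h2]
  ring

/-- **two loops at an open edge, one at the closed edge** (signs `σ` of the big loop, `σ₁ σ₂` of the
pieces, as in `It200.split_closed_open`) -/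
theorem vert_open {σ σ₁ σ₂ : ℝ}
    (h : (σ = 1 ∧ σ₁ = 1 ∧ σ₂ = 1) ∨ (σ = -1 ∧ σ₁ = -1 ∧ σ₂ = 1) ∨ (σ = -1 ∧ σ₁ = 1 ∧ σ₂ = -1))
    (θ₁ θ₂ : ℝ) :
    Fw (σ₁ * θ₁) * Fw (σ₂ * θ₂) - Fw (σ * (θ₁ + θ₂)) =
      (1 / 2) * (Fw (σ₁ * θ₁) * Fw (σ₂ * θ₂) + σ₁ * Sw (σ₁ * θ₁) * (σ₂ * Sw (σ₂ * θ₂)))
      - tan (π / 6) / 2 * (σ₁ * Sw (σ₁ * θ₁) * Fw (σ₂ * θ₂) + σ₂ * Sw (σ₂ * θ₂) * Fw (σ₁ * θ₁)
          + 2 * (σ * Sw (σ * (θ₁ + θ₂)))) := by
  rcases h with ⟨rfl, rfl, rfl⟩ | ⟨rfl, rfl, rfl⟩ | ⟨rfl, rfl, rfl⟩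
  · have h := vert_side θ₁ θ₂
    simp only [one_mul]
    linarith
  · have h := vert_nest (-θ₁) θ₂
    rw [show -θ₁ - θ₂ = -1 * (θ₁ + θ₂) by ring] at h
    simp only [one_mul, show (-1 : ℝ) * θ₁ = -θ₁ by ring]
    linarith
  · have h := vert_nest (-θ₂) θ₁
    rw [show -θ₂ - θ₁ = -1 * (θ₁ + θ₂) by ring] at h
    simp only [one_mul, show (-1 : ℝ) * θ₂ = -θ₂ by ring]
    linarith

/-- **two loops at a closed edge, one at the open edge** (signs as in `It200.split_open_closed`) -/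
theorem vert_closed {σ σ₁ σ₂ : ℝ}
    (h : (σ = -1 ∧ σ₁ = -1 ∧ σ₂ = -1) ∨ (σ = 1 ∧ σ₁ = 1 ∧ σ₂ = -1) ∨ (σ = 1 ∧ σ₁ = -1 ∧ σ₂ = 1))
    (θ₁ θ₂ : ℝ) :
    Fw (σ * (θ₁ + θ₂)) - Fw (σ₁ * θ₁) * Fw (σ₂ * θ₂) =
      -((1 / 2) * (Fw (σ₁ * θ₁) * Fw (σ₂ * θ₂) + σ₁ * Sw (σ₁ * θ₁) * (σ₂ * Sw (σ₂ * θ₂))))
      - tan (π / 6) / 2 * (σ₁ * Sw (σ₁ * θ₁) * Fw (σ₂ * θ₂) + σ₂ * Sw (σ₂ * θ₂) * Fw (σ₁ * θ₁)
          + 2 * (σ * Sw (σ * (θ₁ + θ₂)))) := by
  rcases h with ⟨rfl, rfl, rfl⟩ | ⟨rfl, rfl, rfl⟩ | ⟨rfl, rfl, rfl⟩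
  · have h := vert_side (-θ₁) (-θ₂)
    rw [show -θ₁ + -θ₂ = -1 * (θ₁ + θ₂) by ring] at h
    simp only [show (-1 : ℝ) * θ₁ = -θ₁ by ring, show (-1 : ℝ) * θ₂ = -θ₂ by ring]
    linarith
  · have h := vert_nest θ₁ (-θ₂)
    rw [show θ₁ - -θ₂ = 1 * (θ₁ + θ₂) by ring] at h
    simp only [one_mul, show (-1 : ℝ) * θ₂ = -θ₂ by ring] at h ⊢
    linarith
  · have h := vert_nest θ₂ (-θ₁)
    rw [show θ₂ - -θ₁ = 1 * (θ₁ + θ₂) by ring] at h
    simp only [one_mul, show (-1 : ℝ) * θ₁ = -θ₁ by ring] at h ⊢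
    linarith

/-! ### normal forms of the difference (open minus closed) -/

theorem Fw_mul_sub_side (a b : ℝ) : Fw a * Fw b - Fw (a + b) = 4 * sin a * sin b := by
  have h3 := sqrt3_sq
  rw [Fw_eq a, Fw_eq b, Fw_eq (a + b), cos_add, sin_add]
  have h2 : (√3 : ℝ) ^ 2 = 3 := by rw [sq]; exact h3
  ring_nf
  rw [h2]
  ring

theorem Fw_mul_sub_nest (a b : ℝ) : Fw a * Fw b - Fw (a - b) = 4 * sin (a - π / 3) * sin b := by
  have h3 := sqrt3_sq
  rw [Fw_eq a, Fw_eq b, Fw_eq (a - b), cos_sub, sin_sub, sin_sub, cos_pi_div_three,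
    sin_pi_div_three]
  have h2 : (√3 : ℝ) ^ 2 = 3 := by rw [sq]; exact h3
  ring_nf
  rw [h2]
  ring

end Crest.Agent.R158.Vx107
end
end

-- ▼ part R158/Vx2_107

/-!
# R158, Block V (helper107), file 2: the weight functional and its value at the strands of one edge

* `mass m A`  : charge of `m : Face →₀ ℝ` inside `A`;  `Ntr m` : total charge zero
* `W m z`     : `∏ᶠ A ∈ Lps z, Fw (mass m A)`
* `th m z c`  : pairing of `m` with the winding height of the strand through `c`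
* `mass_eq`   : the charge inside the loop of `c` is `sg z c * th m z c`
* `Rest z e`  : the loops of `z` not passing at the edge `e`; `rest_flip`
* `W_one`, `W_two` : factorisation if one / two strands pass at `e`
-/

set_option autoImplicit false

noncomputable section

namespace Crest.Agent.R158.Vx107

open Crest.Agent.R161.Geo729 Crest.Agent.R161.Dual374
open Crest.Agent.R161.Tas682 (sd)
open Crest.Agent.R158.It200 Crest.Agent.R158.Wf850
open Function

/-- charge inside `A` -/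
def mass (m : Face →₀ ℝ) (A : Finset Face) : ℝ := ∑ f ∈ A, m f

/-- total charge -/
def tot (m : Face →₀ ℝ) : ℝ := m.sum fun _ a => a

/-- neutral charges -/
def Ntr (m : Face →₀ ℝ) : Prop := tot m = 0

theorem mass_add (m x : Face →₀ ℝ) (A : Finset Face) : mass (m + x) A = mass m A + mass x A := by
  unfold mass; rw [← Finset.sum_add_distrib]; rfl

theorem mass_neg (m : Face →₀ ℝ) (A : Finset Face) : mass (-m) A = -mass m A := by
  unfold mass; rw [← Finset.sum_neg_distrib]; rfl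

theorem mass_smul (r : ℝ) (m : Face →₀ ℝ) (A : Finset Face) : mass (r • m) A = r * mass m A := by
  unfold mass; rw [Finset.mul_sum]; rfl

theorem tot_add (m x : Face →₀ ℝ) : tot (m + x) = tot m + tot x := by
  unfold tot
  rw [Finsupp.sum_add_index' (fun _ => rfl) (fun _ _ _ => rfl)]

theorem tot_neg (m : Face →₀ ℝ) : tot (-m) = -tot m := by
  have h := tot_add m (-m)
  rw [add_neg_cancel] at h
  have h0 : tot (0 : Face →₀ ℝ) = 0 := Finsupp.sum_zero_index
  rw [h0] at h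
  linarith

theorem tot_smul (r : ℝ) (m : Face →₀ ℝ) : tot (r • m) = r * tot m := by
  unfold tot
  rw [Finsupp.sum_smul_index (fun _ => rfl), Finsupp.mul_sum]

theorem Ntr.add {m x : Face →₀ ℝ} (h1 : Ntr m) (h2 : Ntr x) : Ntr (m + x) := by
  unfold Ntr at *
  rw [tot_add, h1, h2, add_zero]

theorem Ntr.neg {m : Face →₀ ℝ} (h1 : Ntr m) : Ntr (-m) := by
  unfold Ntr at *
  rw [tot_neg, h1, neg_zero]

theorem Ntr.smul {m : Face →₀ ℝ} (r : ℝ) (h1 : Ntr m) : Ntr (r • m) := by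
  unfold Ntr at *
  rw [tot_smul, h1, mul_zero]

/-- the weight of a configuration -/
def W (m : Face →₀ ℝ) (z : Cfz) : ℝ := ∏ᶠ A ∈ Lps z, Fw (mass m A)

theorem sd_nonneg (x v : P2) : 0 ≤ sd x v := le_max_of_le_left (abs_nonneg _)

/-- the support lies in a box -/
theorem exists_box (m : Face →₀ ℝ) : ∃ n : ℤ, m.support ⊆ BF (0, 0) n := by
  refine ⟨∑ f ∈ m.support, sd (0, 0) f.1, fun f hf => ?_⟩
  rw [mem_BF]
  exact Finset.single_le_sum (f := fun f : Face => sd (0, 0) f.1) (fun g _ => sd_nonneg _ _) hf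

/-- a loop with non-zero charge splits a box containing the charges -/
theorem splits_of_mass {m : Face →₀ ℝ} (hm : Ntr m) {n : ℤ} (hn : m.support ⊆ BF (0, 0) n)
    {A : Finset Face} (hA : mass m A ≠ 0) : Splits A (BF (0, 0) n) := by
  constructor
  · by_contra hcon
    push Not at hcon
    apply hA
    unfold mass
    refine Finset.sum_eq_zero fun f hf => ?_
    by_contra h
    exact hcon f (hn (Finsupp.mem_support_iff.2 h)) hf
  · by_contra hcon
    push Not at hcon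
    apply hA
    have h1 : tot m = ∑ f ∈ A, m f :=
      Finsupp.sum_of_support_subset m (hn.trans hcon) _ (fun _ _ => rfl)
    unfold mass
    rw [← h1]; exact hm

theorem fin_mass {m : Face →₀ ℝ} (hm : Ntr m) (z : Cfz) :
    {A | A ∈ Lps z ∧ mass m A ≠ 0}.Finite := by
  obtain ⟨n, hn⟩ := exists_box m
  exact (fin_split z (0, 0) n).subset fun A hA => ⟨hA.1, splits_of_mass hm hn hA.2⟩

theorem fin_supp {m : Face →₀ ℝ} (hm : Ntr m) {z : Cfz} {S : Set (Finset Face)} (hS : S ⊆ Lps z) :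
    (S ∩ mulSupport fun A => Fw (mass m A)).Finite := by
  refine (fin_mass hm z).subset fun A hA => ⟨hS hA.1, fun h => hA.2 ?_⟩
  show Fw (mass m A) = 1
  rw [h, Fw_zero]

/-! ### pairing with heights -/

/-- pairing of the charge with the height of the strand through `c` -/
def th (m : Face →₀ ℝ) (z : Cfz) (c : Corner) : ℝ := m.sum fun f a => a * (ht z c f : ℝ)

theorem th_add (m x : Face →₀ ℝ) (z : Cfz) (c : Corner) :
    th (m + x) z c = th m z c + th x z c := by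
  unfold th
  exact Finsupp.sum_add_index' (fun _ => by ring) (fun _ _ _ => by ring)

theorem th_smul (r : ℝ) (m : Face →₀ ℝ) (z : Cfz) (c : Corner) :
    th (r • m) z c = r * th m z c := by
  unfold th
  rw [Finsupp.sum_smul_index (fun _ => by ring), Finsupp.mul_sum]
  exact Finsupp.sum_congr fun f _ => by ring

theorem th_single (f : Face) (r : ℝ) (z : Cfz) (c : Corner) :
    th (Finsupp.single f r) z c = r * (ht z c f : ℝ) := by
  unfold th
  exact Finsupp.sum_single_index (by ring)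

theorem th_neg (m : Face →₀ ℝ) (z : Cfz) (c : Corner) : th (-m) z c = -th m z c := by
  have h := th_smul (-1) m z c
  rw [neg_one_smul] at h
  rw [h]; ring

theorem ht_eq {z : Cfz} {c d : Corner} (h : d ∈ Lp z c) : ht z d = ht z c := by
  funext f; unfold ht; rw [hv_eq h, hf_eq h]


theorem ht_cases {z : Cfz} {c : Corner} (hfin : (Lp z c).Finite) (f : Face) :
    ht z c f = 0 ∨ ht z c f = sg z c := by
  obtain ⟨v, b⟩ := f
  cases b
  · exact hv_eq_sg hfin v
  · exact hf_eq_sg hfin v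

theorem sg_one {z : Cfz} {c : Corner} (hfin : (Lp z c).Finite) : sg z c = 1 ∨ sg z c = -1 := by
  rcases sg_cases hfin with ⟨h, -⟩ | ⟨h, -⟩
  · exact Or.inr h
  · exact Or.inl h

theorem sg_one' {z : Cfz} {c : Corner} (hfin : (Lp z c).Finite) :
    (sg z c : ℝ) = 1 ∨ (sg z c : ℝ) = -1 := by
  rcases sg_one hfin with h | h
  · left; rw [h]; norm_num
  · right; rw [h]; norm_num


/-- **the charge inside a loop** -/
theorem mass_eq {z : Cfz} {c : Corner} (hfin : (Lp z c).Finite) {A : Finset Face}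
    (hA : ∀ f, f ∈ A ↔ ht z c f ≠ 0) (m : Face →₀ ℝ) : mass m A = sg z c * th m z c := by
  classical
  have h1 : mass m A = ∑ f ∈ m.support, if f ∈ A then m f else 0 := by
    unfold mass
    rw [← Finset.sum_filter]
    refine (Finset.sum_subset_zero_on_sdiff ?_ ?_ fun _ _ => rfl).symm
    · intro f hf; exact (Finset.mem_filter.1 hf).2
    · intro f hf
      rw [Finset.mem_sdiff, Finset.mem_filter, not_and_or] at hf
      rcases hf.2 with h | h
      · exact Finsupp.notMem_support_iff.1 h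
      · exact absurd hf.1 h
  have hs : (sg z c : ℝ) * sg z c = 1 := by
    rcases sg_one' hfin with h | h <;> rw [h] <;> norm_num
  rw [h1]
  unfold th Finsupp.sum
  rw [Finset.mul_sum]
  refine Finset.sum_congr rfl fun f _ => ?_
  dsimp only
  by_cases hf : f ∈ A
  · rw [if_pos hf]
    have h2 := (hA f).1 hf
    rcases ht_cases hfin f with h | h
    · exact absurd h h2
    · rw [h]
      calc m f = m f * 1 := (mul_one _).symm
        _ = m f * ((sg z c : ℝ) * sg z c) := by rw [hs]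
        _ = _ := by ring
  · rw [if_neg hf]
    have h2 : ht z c f = 0 := by
      by_contra h
      exact hf ((hA f).2 h)
    rw [h2]; simp

/-! ### the strands at an edge -/

/-- loops of `z` which do not pass at `e` -/
def Rest (z : Cfz) (e : Edge) : Set (Finset Face) :=
  {A | A ∈ Lps z ∧ ¬ sepC A (i1 e) ∧ ¬ sepC A (i2 e)}

/-- their weight -/
def RP (m : Face →₀ ℝ) (z : Cfz) (e : Edge) : ℝ := ∏ᶠ A ∈ Rest z e, Fw (mass m A)

theorem rest_flip_sub (z : Cfz) (e : Edge) : Rest z e ⊆ Rest (flip z e) e := by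
  rintro A ⟨⟨c, hc, hA⟩, h1, h2⟩
  rw [sep_iff hc hA] at h1 h2
  have h3 : Lp (flip z e) c = Lp z c := flip_other h1 h2
  have h4 : JL (flip z e) c = JL z c := by unfold JL; rw [h3]
  have h5 : ht (flip z e) c = ht z c := by funext f; unfold ht hv hf; rw [h4]
  have hc' : (Lp (flip z e) c).Finite := by rw [h3]; exact hc
  have hA' : ∀ f, f ∈ A ↔ ht (flip z e) c f ≠ 0 := by intro f; rw [h5]; exact hA f
  refine ⟨⟨c, hc', hA'⟩, ?_, ?_⟩
  · rw [sep_iff hc' hA', h3]; exact h1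
  · rw [sep_iff hc' hA', h3]; exact h2

theorem rest_flip (z : Cfz) (e : Edge) : Rest (flip z e) e = Rest z e := by
  refine Set.Subset.antisymm ?_ (rest_flip_sub z e)
  have h := rest_flip_sub (flip z e) e
  rwa [It200.flip_flip] at h

theorem RP_flip (m : Face →₀ ℝ) (z : Cfz) (e : Edge) : RP m (flip z e) e = RP m z e := by
  unfold RP; rw [rest_flip]

theorem fc_o2 (e : Edge) : fc (o2 e) = fc (i1 e) := by rw [← nxo_i1, fc_nxo]
theorem fc_o1 (e : Edge) : fc (o1 e) = fc (i2 e) := by rw [← nxo_i2, fc_nxo]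

/-- the outgoing corners belong to the strands of the incoming ones -/
theorem out_mem (z : Cfz) (e : Edge) :
    (o1 e ∈ Lp z (i1 e) ∧ o2 e ∈ Lp z (i2 e)) ∨ (o1 e ∈ Lp z (i2 e) ∧ o2 e ∈ Lp z (i1 e)) := by
  cases h : z e with
  | true => exact Or.inr ⟨o1_mem_open h, o2_mem_open h⟩
  | false => exact Or.inl ⟨o1_mem_closed h, o2_mem_closed h⟩

/-- the four faces at `e` are on the same side of a loop that does not pass at `e` -/
theorem rest_faces {z : Cfz} {e : Edge} {A : Finset Face} (hA : A ∈ Rest z e) :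
    ((src e, false) ∈ A ↔ (tgt e, false) ∈ A) ∧ ((src e, false) ∈ A ↔ (fc (i1 e), true) ∈ A) ∧
      ((src e, false) ∈ A ↔ (fc (i2 e), true) ∈ A) := by
  obtain ⟨⟨c, hc, hA'⟩, h1, h2⟩ := hA
  have h3 : ¬ sepC A (o1 e) := by
    rw [sep_iff hc hA'] at h1 h2 ⊢
    intro h
    rcases out_mem z e with ⟨h4, -⟩ | ⟨h4, -⟩
    · exact h1 (by rw [← Lp_eq h, Lp_eq h4]; exact mem_Lp_self _ _)
    · exact h2 (by rw [← Lp_eq h, Lp_eq h4]; exact mem_Lp_self _ _)
  unfold sepC cv cf at h1 h2 h3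
  rw [not_not] at h1 h2 h3
  rw [fst_i1] at h1
  rw [fst_i2] at h2
  rw [fst_o1, fc_o1] at h3
  exact ⟨h3.trans h2.symm, h1, h3⟩

/-- one strand -/
theorem lps_one {z : Cfz} {e : Edge} (hfin : (Lp z (i1 e)).Finite) (h : i2 e ∈ Lp z (i1 e))
    {A : Finset Face} (hA : ∀ f, f ∈ A ↔ ht z (i1 e) f ≠ 0) :
    Lps z = insert A (Rest z e) ∧ A ∉ Rest z e := by
  have hAL : A ∈ Lps z := ⟨_, hfin, hA⟩
  have s1 : sepC A (i1 e) := (sep_iff hfin hA _).2 (mem_Lp_self _ _)
  have s2 : sepC A (i2 e) := (sep_iff hfin hA _).2 h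
  refine ⟨?_, fun h => h.2.1 s1⟩
  ext B
  constructor
  · intro hB
    by_cases b1 : sepC B (i1 e)
    · exact Or.inl (sep_uniq hB hAL b1 s1)
    · by_cases b2 : sepC B (i2 e)
      · exact Or.inl (sep_uniq hB hAL b2 s2)
      · exact Or.inr ⟨hB, b1, b2⟩
  · rintro (rfl | hB)
    · exact hAL
    · exact hB.1

/-- two strands -/
theorem lps_two {z : Cfz} {e : Edge} (hfin : (Lp z (i1 e)).Finite) (hfin' : (Lp z (i2 e)).Finite)
    (h : i2 e ∉ Lp z (i1 e)) {A B : Finset Face} (hA : ∀ f, f ∈ A ↔ ht z (i1 e) f ≠ 0)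
    (hB : ∀ f, f ∈ B ↔ ht z (i2 e) f ≠ 0) :
    Lps z = insert A (insert B (Rest z e)) ∧ A ∉ insert B (Rest z e) ∧ B ∉ Rest z e := by
  have hAL : A ∈ Lps z := ⟨_, hfin, hA⟩
  have hBL : B ∈ Lps z := ⟨_, hfin', hB⟩
  have s1 : sepC A (i1 e) := (sep_iff hfin hA _).2 (mem_Lp_self _ _)
  have s2 : sepC B (i2 e) := (sep_iff hfin' hB _).2 (mem_Lp_self _ _)
  have s3 : ¬ sepC A (i2 e) := by rw [sep_iff hfin hA]; exact h
  refine ⟨?_, ?_, fun h => h.2.2 s2⟩
  · ext C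
    constructor
    · intro hC
      by_cases b1 : sepC C (i1 e)
      · exact Or.inl (sep_uniq hC hAL b1 s1)
      · by_cases b2 : sepC C (i2 e)
        · exact Or.inr (Or.inl (sep_uniq hC hBL b2 s2))
        · exact Or.inr (Or.inr ⟨hC, b1, b2⟩)
    · rintro (rfl | rfl | hB)
      · exact hAL
      · exact hBL
      · exact hB.1
  · rintro (h' | h')
    · rw [h'] at s3; exact s3 s2
    · exact h'.2.1 s1

theorem rest_sub (z : Cfz) (e : Edge) : Rest z e ⊆ Lps z := fun _ h => h.1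

/-- **factorisation, one strand** -/
theorem W_one {z : Cfz} {e : Edge} (hfin : (Lp z (i1 e)).Finite) (h : i2 e ∈ Lp z (i1 e))
    {m : Face →₀ ℝ} (hm : Ntr m) :
    W m z = Fw (sg z (i1 e) * th m z (i1 e)) * RP m z e := by
  obtain ⟨A, -, hA⟩ := exists_int hfin
  obtain ⟨h1, h2⟩ := lps_one hfin h hA
  unfold W RP
  rw [h1, finprod_mem_insert' _ h2 (fin_supp hm (rest_sub z e)), mass_eq hfin hA]

/-- **factorisation, two strands** -/
theorem W_two {z : Cfz} {e : Edge} (hfin : (Lp z (i1 e)).Finite) (hfin' : (Lp z (i2 e)).Finite)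
    (h : i2 e ∉ Lp z (i1 e)) {m : Face →₀ ℝ} (hm : Ntr m) :
    W m z = Fw (sg z (i1 e) * th m z (i1 e)) * Fw (sg z (i2 e) * th m z (i2 e)) * RP m z e := by
  obtain ⟨A, -, hA⟩ := exists_int hfin
  obtain ⟨B, hBL, hB⟩ := exists_int hfin'
  obtain ⟨h1, h2, h3⟩ := lps_two hfin hfin' h hA hB
  have h4 : insert B (Rest z e) ⊆ Lps z := by
    rintro C (rfl | hC)
    · exact hBL
    · exact hC.1
  unfold W RP
  rw [h1, finprod_mem_insert' _ h2 (fin_supp hm h4),
    finprod_mem_insert' _ h3 (fin_supp hm (rest_sub z e)), mass_eq hfin hA, mass_eq hfin' hB]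
  ring

/-- charges which do not see the other loops -/
def Loc0 (x : Face →₀ ℝ) (z : Cfz) (e : Edge) : Prop := ∀ A ∈ Rest z e, mass x A = 0

theorem RP_add {m x : Face →₀ ℝ} {z : Cfz} {e : Edge} (h : Loc0 x z e) :
    RP (m + x) z e = RP m z e := by
  unfold RP
  refine finprod_mem_congr rfl fun A hA => ?_
  rw [mass_add, h A hA, add_zero]

end Crest.Agent.R158.Vx107
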