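import Mathlib
import Crest.Agent.R158.Bk6_430
import Crest.Agent.R158.Vx2_107
import Crest.Agent.R158.Ts9_405
import Crest.Agent.R158.Bk5_430
import Crest.Agent.R158.Fi1_442
import Crest.Prelude.Def_SixVertex
import Crest.Agent.R158.Bs_410
import Crest.Agent.R158.Vx5_107

-- ▼ part R158/Bk7_430
section

/-!
# R158, Block B (helper430), file 7: dictionary between percolation and six-vertex coordinates

* `fm : Face → ℤ × ℤ`, `fmE`  : vertex `(x,y)` ↦ face `(x+y, y-x)`, dual face `(x,y)` ↦ `(x+y+1, y-x)`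
* `ev : Edge → ℤ × ℤ`, `evE`  : edge `((x,y),false)` ↦ vertex `(x+y+1, y-x)`,
  `((x,y),true)` ↦ `(x+y+1, y-x+1)`
* `spl z` : splitting of the configuration `z`, `spl z (ev e) = xor (z e) e.2`
* `cm : Corner → ME ℤ ℤ`, `cm_nx : cm (nx z c) = nx (spl z) (cm c)`
* `map_spl : (nu hf).map spl = PU`
* `H6` : height in six-vertex coordinates; `wst_cm`
-/

set_option autoImplicit false

noncomputable section

namespace Crest.Agent.R158.Bk430

open Finset MeasureTheory
open Crest.Agent.R161.Geo729 Crest.Agent.R161.Dual374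
open Crest.Agent.R158.It200 (Cfz Corner Lp Lp_induct Lp_eq mem_Lp_self JL JL_mem JL_not_mem ah fc wa
  nxo nxc rl rr)
open Crest.Agent.R158.Wf850 (Face Lps cv cf ht sepC sep_iff exists_int)
open Crest.Agent.R158.Rs689 (PB nu)

/-! ### faces -/

/-- percolation faces → six-vertex faces -/
def fm (f : Face) : ℤ × ℤ :=
  if f.2 then (f.1.1 + f.1.2 + 1, f.1.2 - f.1.1) else (f.1.1 + f.1.2, f.1.2 - f.1.1)

/-- the dictionary of the faces -/
def fmE : Face ≃ ℤ × ℤ where
  toFun := fm
  invFun v := if (v.1 + v.2) % 2 = 0 then (((v.1 - v.2) / 2, (v.1 + v.2) / 2), false)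
    else (((v.1 - 1 - v.2) / 2, (v.1 - 1 + v.2) / 2), true)
  left_inv f := by
    obtain ⟨⟨x, y⟩, b⟩ := f
    cases b
    · simp only [fm, Bool.false_eq_true, if_false]
      rw [if_pos (by omega)]
      congr 2 <;> omega
    · simp only [fm, if_true]
      rw [if_neg (by omega)]
      congr 2 <;> omega
  right_inv v := by
    obtain ⟨a, b⟩ := v
    simp only [fm]
    split_ifs with h1 h2 h2 <;> simp only [Prod.mk.injEq] <;> simp_all <;> omega

@[simp] theorem fmE_apply (f : Face) : fmE f = fm f := rfl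

/-! ### edges -/

/-- percolation edges → six-vertex vertices -/
def ev (e : Edge) : ℤ × ℤ :=
  if e.2 then (e.1.1 + e.1.2 + 1, e.1.2 - e.1.1 + 1) else (e.1.1 + e.1.2 + 1, e.1.2 - e.1.1)

/-- the dictionary of the edges -/
def evE : Edge ≃ ℤ × ℤ where
  toFun := ev
  invFun v := if (v.1 + v.2) % 2 = 0 then (((v.1 - v.2) / 2, (v.1 + v.2) / 2 - 1), true)
    else (((v.1 - 1 - v.2) / 2, (v.1 - 1 + v.2) / 2), false)
  left_inv e := by
    obtain ⟨⟨x, y⟩, b⟩ := e
    cases b
    · simp only [ev, Bool.false_eq_true, if_false]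
      rw [if_neg (by omega)]
      congr 2 <;> omega
    · simp only [ev, if_true]
      rw [if_pos (by omega)]
      congr 2 <;> omega
  right_inv v := by
    obtain ⟨a, b⟩ := v
    simp only [ev]
    split_ifs with h1 h2 h2 <;> simp only [Prod.mk.injEq] <;> simp_all <;> omega

@[simp] theorem evE_apply (e : Edge) : evE e = ev e := rfl

/-- splitting of a configuration -/
def spl (z : Cfz) : ℤ × ℤ → Bool := fun v => xor (z (evE.symm v)) (evE.symm v).2

theorem spl_ev (z : Cfz) (e : Edge) : spl z (ev e) = xor (z e) e.2 := by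
  unfold spl
  rw [← evE_apply, Equiv.symm_apply_apply]


/-! ### corners -/

/-- corners → medial edges -/
def cm (c : Corner) : ME ℤ ℤ :=
  match c.2 with
  | 0 => ((c.1.1 + c.1.2 + 1, c.1.2 - c.1.1), true)
  | 1 => ((c.1.1 + c.1.2, c.1.2 - c.1.1), false)
  | 2 => ((c.1.1 + c.1.2, c.1.2 - c.1.1), true)
  | 3 => ((c.1.1 + c.1.2, c.1.2 - c.1.1 + 1), false)

/-- inverse of `cm` -/
def mc (e : ME ℤ ℤ) : Corner :=
  if e.2 then
    if (e.1.1 + e.1.2) % 2 = 0 then (((e.1.1 - e.1.2) / 2, (e.1.1 + e.1.2) / 2), 2)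
    else (((e.1.1 - 1 - e.1.2) / 2, (e.1.1 - 1 + e.1.2) / 2), 0)
  else
    if (e.1.1 + e.1.2) % 2 = 0 then (((e.1.1 - e.1.2) / 2, (e.1.1 + e.1.2) / 2), 1)
    else (((e.1.1 - e.1.2 + 1) / 2, (e.1.1 + e.1.2 - 1) / 2), 3)

theorem fin4 (q : Fin 4) : q = 0 ∨ q = 1 ∨ q = 2 ∨ q = 3 := by fin_cases q <;> simp

theorem cm0 (x y : ℤ) : cm ((x, y), 0) = ((x + y + 1, y - x), true) := rfl
theorem cm1 (x y : ℤ) : cm ((x, y), 1) = ((x + y, y - x), false) := rfl
theorem cm2 (x y : ℤ) : cm ((x, y), 2) = ((x + y, y - x), true) := rfl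
theorem cm3 (x y : ℤ) : cm ((x, y), 3) = ((x + y, y - x + 1), false) := rfl

theorem mc_cm (c : Corner) : mc (cm c) = c := by
  obtain ⟨⟨x, y⟩, q⟩ := c
  rcases fin4 q with rfl | rfl | rfl | rfl
  · rw [cm0]
    simp only [mc, if_true]
    rw [if_neg (by omega)]
    congr 2 <;> omega
  · rw [cm1]
    simp only [mc, Bool.false_eq_true, if_false]
    rw [if_pos (by omega)]
    congr 2 <;> omega
  · rw [cm2]
    simp only [mc, if_true]
    rw [if_pos (by omega)]
    congr 2 <;> omega
  · rw [cm3]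
    simp only [mc, Bool.false_eq_true, if_false]
    rw [if_neg (by omega)]
    congr 2 <;> omega

theorem cm_mc (e : ME ℤ ℤ) : cm (mc e) = e := by
  obtain ⟨⟨a, b⟩, c⟩ := e
  cases c
  · simp only [mc, Bool.false_eq_true, if_false]
    split_ifs with h
    · simp only [cm]; congr 2 <;> omega
    · simp only [cm]; congr 2 <;> omega
  · simp only [mc, if_true]
    split_ifs with h
    · simp only [cm]; congr 2 <;> omega
    · simp only [cm]; congr 2 <;> omega

/-- the dictionary of the medial edges -/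
def cmE : Corner ≃ ME ℤ ℤ := ⟨cm, mc, mc_cm, cm_mc⟩

theorem vp_eq (a b : ℤ) : vp (a, b) = decide ((a + b) % 2 = 1) := by
  simp only [vp, par]
  by_cases h1 : a % 2 = 1 <;> by_cases h2 : b % 2 = 1 <;> simp [h1, h2] <;> omega

theorem hd_cm (c : Corner) : hd (cm c) = ev (ah c) := by
  obtain ⟨⟨x, y⟩, q⟩ := c
  rcases fin4 q with rfl | rfl | rfl | rfl
  · have e : vp ((x + y + 1, y - x) : ℤ × ℤ) = true := by rw [vp_eq, decide_eq_true_eq]; omega
    rw [cm0]
    simp [hd, ah, ev, e] <;> omega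
  · have e : vp ((x + y, y - x) : ℤ × ℤ) = false := by
      rw [vp_eq, decide_eq_false_iff_not]; omega
    rw [cm1]
    simp [hd, ah, ev, e] <;> omega
  · have e : vp ((x + y, y - x) : ℤ × ℤ) = false := by
      rw [vp_eq, decide_eq_false_iff_not]; omega
    rw [cm2]
    simp [hd, ah, ev, e] <;> omega
  · have e : vp ((x + y, y - x + 1) : ℤ × ℤ) = true := by rw [vp_eq, decide_eq_true_eq]; omega
    rw [cm3]
    simp [hd, ah, ev, e] <;> omega

/-- **conjugation of the successor maps** -/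
theorem cm_nx (z : Cfz) (c : Corner) : cm (It200.nx z c) = nx (spl z) (cm c) := by
  have h1 : spl z (hd (cm c)) = xor (z (ah c)) (ah c).2 := by rw [hd_cm, spl_ev]
  unfold nx
  rw [h1, hd_cm]
  obtain ⟨⟨x, y⟩, q⟩ := c
  cases hz : z (ah ((x, y), q))
  · rw [It200.nx_closed hz]
    fin_cases q
    · have e : vp ((x + y + 1, y - x) : ℤ × ℤ) = true := by
        rw [vp_eq, decide_eq_true_eq]; omega
      simp [cm, nxc, rr, ah, ev, e] <;> omega
    · have e : vp ((x + y, y - x) : ℤ × ℤ) = false := by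
        rw [vp_eq, decide_eq_false_iff_not]; omega
      simp [cm, nxc, rr, ah, ev, e] <;> omega
    · have e : vp ((x + y, y - x) : ℤ × ℤ) = false := by
        rw [vp_eq, decide_eq_false_iff_not]; omega
      simp [cm, nxc, rr, ah, ev, e] <;> omega
    · have e : vp ((x + y, y - x + 1) : ℤ × ℤ) = true := by
        rw [vp_eq, decide_eq_true_eq]; omega
      simp [cm, nxc, rr, ah, ev, e] <;> omega
  · rw [It200.nx_open hz]
    fin_cases q
    · have e : vp ((x + y + 1, y - x) : ℤ × ℤ) = true := by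
        rw [vp_eq, decide_eq_true_eq]; omega
      simp [cm, nxo, wa, rl, ah, ev, e] <;> omega
    · have e : vp ((x + y, y - x) : ℤ × ℤ) = false := by
        rw [vp_eq, decide_eq_false_iff_not]; omega
      simp [cm, nxo, wa, rl, ah, ev, e] <;> omega
    · have e : vp ((x + y, y - x) : ℤ × ℤ) = false := by
        rw [vp_eq, decide_eq_false_iff_not]; omega
      simp [cm, nxo, wa, rl, ah, ev, e] <;> omega
    · have e : vp ((x + y, y - x + 1) : ℤ × ℤ) = true := by
        rw [vp_eq, decide_eq_true_eq]; omega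
      simp [cm, nxo, wa, rl, ah, ev, e] <;> omega

theorem cm_iter (z : Cfz) (k : ℕ) (c : Corner) :
    cm ((It200.nx z)^[k] c) = (nx (spl z))^[k] (cm c) := by
  induction k generalizing c with
  | zero => rfl
  | succ k ih => rw [Function.iterate_succ_apply, Function.iterate_succ_apply, ih, cm_nx]

end Crest.Agent.R158.Bk430
end
end

-- ▼ part R158/Bk8_430
section

/-!
# R158, Block B (helper430), file 8: the plane functional in percolation coordinates

* `map_spl : (nu hf).map spl = PU`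
* `Gpl_W` : `Gpl (chC (m.mapDomain fm)) (spl z) = Vx107.W m z` if the strands through the paths
  are finite
* `Pi6_W` : `Pi6 (m.mapDomain fm) = ∫ z, Vx107.W m z ∂(nu hf)`
-/

set_option autoImplicit false

noncomputable section

namespace Crest.Agent.R158.Bk430

open Finset MeasureTheory
open Crest.Agent.R161.Geo729 Crest.Agent.R161.Dual374
open Crest.Agent.R158.It200 (Cfz Corner Lp Lp_induct Lp_eq mem_Lp_self JL JL_mem JL_not_mem ah fc
  hv_grad sg nx_mem_Lp)
open Crest.Agent.R158.Wf850 (Face Lps cv cf ht sepC sep_iff exists_int sep_uniq ht_cv ht_cf)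
open Crest.Agent.R158.Rs689 (PB nu bern bern_map_not PB_map_equiv hf)

/-! ### the law -/

theorem sym_hf : unitInterval.symm hf = hf := by
  ext
  simp [hf]
  norm_num

theorem bern_xor (b : Bool) : (bern hf).map (fun x => xor x b) = bern hf := by
  cases b
  · simp
  · have h := bern_map_not hf
    rw [sym_hf] at h
    simpa using h

theorem meas_spl : Measurable spl :=
  measurable_pi_lambda _ fun v =>
    (Measurable.of_discrete (f := fun x : Bool => xor x (evE.symm v).2)).comp
      (measurable_pi_apply (evE.symm v))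

theorem map_spl : (nu hf).map spl = PU := by
  have h1 : (PB fun _ : Edge => hf).map (fun (z : Edge → Bool) (v : ℤ × ℤ) => z (evE.symm v)) =
      PB fun _ : ℤ × ℤ => hf := PB_map_equiv evE (fun _ => hf)
  have h2 : (PB fun _ : ℤ × ℤ => hf).map (fun (z : ℤ × ℤ → Bool) (v : ℤ × ℤ) =>
      xor (z v) (evE.symm v).2) = PB fun _ : ℤ × ℤ => hf := by
    unfold PB
    rw [Measure.infinitePi_map_pi (μ := fun _ : ℤ × ℤ => bern hf)
      (f := fun (v : ℤ × ℤ) (x : Bool) => xor x (evE.symm v).2) fun v => Measurable.of_discrete]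
    congr 1
    funext v
    exact bern_xor _
  have h3 : spl = (fun (z : ℤ × ℤ → Bool) (v : ℤ × ℤ) => xor (z v) (evE.symm v).2) ∘
      (fun (z : Edge → Bool) (v : ℤ × ℤ) => z (evE.symm v)) := rfl
  have m1 : Measurable (fun (z : Edge → Bool) (v : ℤ × ℤ) => z (evE.symm v)) :=
    measurable_pi_lambda _ fun v => measurable_pi_apply _
  have m2 : Measurable (fun (z : ℤ × ℤ → Bool) (v : ℤ × ℤ) => xor (z v) (evE.symm v).2) :=
    measurable_pi_lambda _ fun v =>
      (Measurable.of_discrete (f := fun x : Bool => xor x (evE.symm v).2)).comp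
        (measurable_pi_apply v)
  rw [h3, ← Measure.map_map m2 m1]
  unfold nu PU
  rw [h1, h2]

/-! ### heights -/

/-- height of a strand in six-vertex coordinates -/
def H6 (z : Cfz) (c : Corner) (v : ℤ × ℤ) : ℝ := (ht z c (fmE.symm v) : ℝ)

theorem H6_fm (z : Cfz) (c : Corner) (f : Face) : H6 z c (fm f) = ht z c f := by
  unfold H6
  rw [← fmE_apply, Equiv.symm_apply_apply]

/-- the medial edge of a corner separates its dual face and its vertex -/
theorem fm_cv (x y : ℤ) : fm ((x, y), false) = (x + y, y - x) := rfl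
theorem fm_cf (x y : ℤ) : fm ((x, y), true) = (x + y + 1, y - x) := rfl

theorem jump_true {z : Cfz} {c : Corner} (hfin : (It200.Lp z c).Finite) {l : Finset (ME ℤ ℤ)}
    (hl : ∀ d, cm d ∈ l ↔ d ∈ It200.Lp z c) (i j : ℤ) :
    H6 z c (i, j) - H6 z c (i - 1, j) = - grd l ((i, j), true) := by
  classical
  rcases Int.even_or_odd (i + j) with h | h
  · obtain ⟨x, y, rfl, rfl⟩ : ∃ x y : ℤ, i = x + y ∧ j = y - x :=
      ⟨(i - j) / 2, (i + j) / 2, by obtain ⟨k, hk⟩ := h; omega, by obtain ⟨k, hk⟩ := h; omega⟩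
    have e1 : H6 z c (x + y, y - x) = It200.hv z c (x, y) := H6_fm z c ((x, y), false)
    have e2 : H6 z c (x + y - 1, y - x) = It200.hf z c (x - 1, y - 1) := by
      have := H6_fm z c ((x - 1, y - 1), true)
      rw [fm_cf] at this
      rw [← show ((x - 1 + (y - 1) + 1, y - 1 - (x - 1)) : ℤ × ℤ) = (x + y - 1, y - x) from by
        congr 1 <;> ring]
      exact this
    have e3 := hv_grad hfin ((x, y), 2)
    have e4 : so (((x + y, y - x), true) : ME ℤ ℤ) = 1 := by
      unfold so ori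
      rw [vp_eq]
      rw [decide_eq_false (by omega)]
      rfl
    have e5 : fc ((x, y), 2) = (x - 1, y - 1) := rfl
    rw [e5] at e3
    have e6 := hl ((x, y), 2)
    rw [cm2] at e6
    rw [e1, e2]
    unfold grd
    by_cases h3 : ((x, y), 2) ∈ It200.Lp z c
    · rw [if_pos (e6.2 h3), e4]
      rw [JL_mem h3] at e3
      have e7 : (It200.hf z c (x - 1, y - 1) : ℝ) - (It200.hv z c (x, y) : ℝ) = 1 := by
        exact_mod_cast e3
      push_cast
      linarith
    · rw [if_neg (fun h => h3 (e6.1 h))]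
      rw [JL_not_mem h3] at e3
      have e7 : (It200.hf z c (x - 1, y - 1) : ℝ) - (It200.hv z c (x, y) : ℝ) = 0 := by
        exact_mod_cast e3
      linarith
  · obtain ⟨x, y, rfl, rfl⟩ : ∃ x y : ℤ, i = x + y + 1 ∧ j = y - x :=
      ⟨(i - 1 - j) / 2, (i - 1 + j) / 2, by obtain ⟨k, hk⟩ := h; omega,
        by obtain ⟨k, hk⟩ := h; omega⟩
    have e1 : H6 z c (x + y + 1, y - x) = It200.hf z c (x, y) := H6_fm z c ((x, y), true)
    have e2 : H6 z c (x + y + 1 - 1, y - x) = It200.hv z c (x, y) := by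
      rw [add_sub_cancel_right]
      exact H6_fm z c ((x, y), false)
    have e3 := hv_grad hfin ((x, y), 0)
    have e4 : so (((x + y + 1, y - x), true) : ME ℤ ℤ) = -1 := by
      unfold so ori
      rw [vp_eq]
      rw [decide_eq_true (by omega)]
      rfl
    have e5 : fc ((x, y), 0) = (x, y) := rfl
    rw [e5] at e3
    have e6 := hl ((x, y), 0)
    rw [cm0] at e6
    rw [e1, e2]
    unfold grd
    by_cases h3 : ((x, y), 0) ∈ It200.Lp z c
    · rw [if_pos (e6.2 h3), e4]
      rw [JL_mem h3] at e3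
      have e7 : (It200.hf z c (x, y) : ℝ) - (It200.hv z c (x, y) : ℝ) = 1 := by
        exact_mod_cast e3
      push_cast
      linarith
    · rw [if_neg (fun h => h3 (e6.1 h))]
      rw [JL_not_mem h3] at e3
      have e7 : (It200.hf z c (x, y) : ℝ) - (It200.hv z c (x, y) : ℝ) = 0 := by
        exact_mod_cast e3
      linarith

theorem jump_false {z : Cfz} {c : Corner} (hfin : (It200.Lp z c).Finite) {l : Finset (ME ℤ ℤ)}
    (hl : ∀ d, cm d ∈ l ↔ d ∈ It200.Lp z c) (i j : ℤ) :
    H6 z c (i, j) - H6 z c (i, j - 1) = grd l ((i, j), false) := by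
  classical
  rcases Int.even_or_odd (i + j) with h | h
  · obtain ⟨x, y, rfl, rfl⟩ : ∃ x y : ℤ, i = x + y ∧ j = y - x :=
      ⟨(i - j) / 2, (i + j) / 2, by obtain ⟨k, hk⟩ := h; omega, by obtain ⟨k, hk⟩ := h; omega⟩
    have e1 : H6 z c (x + y, y - x) = It200.hv z c (x, y) := H6_fm z c ((x, y), false)
    have e2 : H6 z c (x + y, y - x - 1) = It200.hf z c (x, y - 1) := by
      have := H6_fm z c ((x, y - 1), true)
      rw [fm_cf] at this
      rw [← show ((x + (y - 1) + 1, y - 1 - x) : ℤ × ℤ) = (x + y, y - x - 1) from by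
        congr 1 <;> ring]
      exact this
    have e3 := hv_grad hfin ((x, y), 1)
    have e4 : so (((x + y, y - x), false) : ME ℤ ℤ) = -1 := by
      unfold so ori
      rw [vp_eq]
      rw [decide_eq_false (by omega)]
      rfl
    have e5 : fc ((x, y), 1) = (x, y - 1) := rfl
    rw [e5] at e3
    have e6 := hl ((x, y), 1)
    rw [cm1] at e6
    rw [e1, e2]
    unfold grd
    by_cases h3 : ((x, y), 1) ∈ It200.Lp z c
    · rw [if_pos (e6.2 h3), e4]
      rw [JL_mem h3] at e3
      have e7 : (It200.hf z c (x, y - 1) : ℝ) - (It200.hv z c (x, y) : ℝ) = 1 := by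
        exact_mod_cast e3
      push_cast
      linarith
    · rw [if_neg (fun h => h3 (e6.1 h))]
      rw [JL_not_mem h3] at e3
      have e7 : (It200.hf z c (x, y - 1) : ℝ) - (It200.hv z c (x, y) : ℝ) = 0 := by
        exact_mod_cast e3
      linarith
  · obtain ⟨x, y, rfl, rfl⟩ : ∃ x y : ℤ, i = x + y ∧ j = y - x + 1 :=
      ⟨(i - j + 1) / 2, (i + j - 1) / 2, by obtain ⟨k, hk⟩ := h; omega,
        by obtain ⟨k, hk⟩ := h; omega⟩
    have e1 : H6 z c (x + y, y - x + 1) = It200.hf z c (x - 1, y) := by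
      have := H6_fm z c ((x - 1, y), true)
      rw [fm_cf] at this
      rw [← show ((x - 1 + y + 1, y - (x - 1)) : ℤ × ℤ) = (x + y, y - x + 1) from by
        congr 1 <;> ring]
      exact this
    have e2 : H6 z c (x + y, y - x + 1 - 1) = It200.hv z c (x, y) := by
      rw [add_sub_cancel_right]
      exact H6_fm z c ((x, y), false)
    have e3 := hv_grad hfin ((x, y), 3)
    have e4 : so (((x + y, y - x + 1), false) : ME ℤ ℤ) = 1 := by
      unfold so ori
      rw [vp_eq]
      rw [decide_eq_true (by omega)]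
      rfl
    have e5 : fc ((x, y), 3) = (x - 1, y) := rfl
    rw [e5] at e3
    have e6 := hl ((x, y), 3)
    rw [cm3] at e6
    rw [e1, e2]
    unfold grd
    by_cases h3 : ((x, y), 3) ∈ It200.Lp z c
    · rw [if_pos (e6.2 h3), e4]
      rw [JL_mem h3] at e3
      have e7 : (It200.hf z c (x - 1, y) : ℝ) - (It200.hv z c (x, y) : ℝ) = 1 := by
        exact_mod_cast e3
      push_cast
      linarith
    · rw [if_neg (fun h => h3 (e6.1 h))]
      rw [JL_not_mem h3] at e3
      have e7 : (It200.hf z c (x - 1, y) : ℝ) - (It200.hv z c (x, y) : ℝ) = 0 := by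
        exact_mod_cast e3
      linarith

end Crest.Agent.R158.Bk430
end
end

-- ▼ part R158/Bk9_430
section

/-!
# R158, Block B (helper430), file 9: `Pi6 = ∫ W`

* `Gpl_W` : `Gpl (chC (m.mapDomain fm)) (spl z) = Vx107.W m z` if the strands through the paths
  are finite
* `Pi6_W` : `Pi6 (m.mapDomain fm) = ∫ z, Vx107.W m z ∂(nu hf)`
-/

set_option autoImplicit false

noncomputable section

namespace Crest.Agent.R158.Bk430

open Finset MeasureTheory
open Crest.Agent.R161.Geo729 Crest.Agent.R161.Dual374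
open Crest.Agent.R158.It200 (Cfz Corner Lp_induct Lp_eq mem_Lp_self JL JL_mem JL_not_mem ah fc
  hv_grad sg nx_mem_Lp nx_pv)
open Crest.Agent.R158.Wf850 (Face Lps cv cf ht sepC sep_iff exists_int sep_uniq ht_cv ht_cf)
open Crest.Agent.R158.Rs689 (PB nu hf)
open Crest.Agent.R158.Vx107 (Ntr tot mass Fw W mass_eq ht_cases sg_one' Fw_zero)

theorem cm_inj : Function.Injective cm := cmE.injective

theorem iter_mem_Lp (z : Cfz) (c : Corner) (k : ℕ) : (It200.nx z)^[k] c ∈ It200.Lp z c := by
  induction k with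
  | zero => exact mem_Lp_self z c
  | succ k ih => rw [Function.iterate_succ_apply']; exact nx_mem_Lp.2 ih

theorem px_stF {N : ℕ} {s : ℤ × ℤ → Bool} {e e' : ME ℤ ℤ} (he : ∀ k : ℕ, (nx s)^[k] e ∈ Bx N)
    (h : e' ∈ stF N s e) : px s e' ∈ stF N s e := by
  rw [mem_stF he] at h ⊢
  obtain ⟨k, rfl⟩ := h
  rcases Nat.eq_zero_or_pos k with rfl | hk
  · obtain ⟨p, hp, hpe⟩ := closes he
    refine ⟨p - 1, ?_⟩
    have : (nx s)^[p - 1 + 1] e = e := by rw [Nat.sub_add_cancel hp]; exact hpe
    rw [Function.iterate_succ_apply'] at this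
    rw [Function.iterate_zero_apply]
    conv_rhs => rw [← this, px_nx]
  · refine ⟨k - 1, ?_⟩
    conv_rhs => rw [← Nat.sub_add_cancel hk, Function.iterate_succ_apply', px_nx]

theorem cm_pv (z : Cfz) (c : Corner) : cm (It200.pv z c) = px (spl z) (cm c) := by
  have h := cm_nx z (It200.pv z c)
  rw [nx_pv] at h
  rw [h, px_nx]

theorem mem_strand {z : Cfz} {c : Corner} {N : ℕ}
    (he : ∀ k : ℕ, (nx (spl z))^[k] (cm c) ∈ Bx N) (d : Corner) :
    cm d ∈ stF N (spl z) (cm c) ↔ d ∈ It200.Lp z c := by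
  constructor
  · intro h
    rw [mem_stF he] at h
    obtain ⟨k, hk⟩ := h
    rw [← cm_iter] at hk
    rw [← cm_inj hk]
    exact iter_mem_Lp z c k
  · refine Lp_induct (P := fun d => cm d ∈ stF N (spl z) (cm c)) ?_ ?_ ?_ d
    · rw [mem_stF he]; exact ⟨0, rfl⟩
    · intro d _ hd
      rw [mem_stF he] at hd ⊢
      obtain ⟨k, hk⟩ := hd
      exact ⟨k + 1, by rw [Function.iterate_succ_apply', hk, cm_nx]⟩
    · intro d _ hd
      rw [cm_pv]
      exact px_stF he hd

theorem fin_strand {z : Cfz} {c : Corner} {N : ℕ}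
    (he : ∀ k : ℕ, (nx (spl z))^[k] (cm c) ∈ Bx N) : (It200.Lp z c).Finite := by
  refine Set.Finite.subset (Set.Finite.preimage (cm_inj.injOn)
    (Finset.finite_toSet (stF N (spl z) (cm c)))) fun d hd => ?_
  exact (mem_strand he d).2 hd

theorem exists_Bx (S : Set (ME ℤ ℤ)) (hS : S.Finite) : ∃ N : ℕ, ∀ e ∈ S, e ∈ Bx N := by
  refine ⟨hS.toFinset.sup fun e => max e.1.1.natAbs e.1.2.natAbs, fun e he => ?_⟩
  have h1 : max e.1.1.natAbs e.1.2.natAbs ≤
      hS.toFinset.sup fun e : ME ℤ ℤ => max e.1.1.natAbs e.1.2.natAbs :=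
    Finset.le_sup (f := fun e : ME ℤ ℤ => max e.1.1.natAbs e.1.2.natAbs)
      (hS.mem_toFinset.2 he)
  rw [max_le_iff] at h1
  rw [mem_Bx]
  omega

theorem loc_of_fin {z : Cfz} {c : Corner} (h : (It200.Lp z c).Finite) :
    ∃ N : ℕ, ∀ k : ℕ, (nx (spl z))^[k] (cm c) ∈ Bx N := by
  obtain ⟨N, hN⟩ := exists_Bx (cm '' It200.Lp z c) (h.image _)
  refine ⟨N, fun k => ?_⟩
  rw [← cm_iter]
  exact hN _ ⟨_, iter_mem_Lp z c k, rfl⟩

/-! ### the weight of a strand -/

theorem sum_m6 (m : Face →₀ ℝ) (z : Cfz) (c : Corner) :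
    ((m.mapDomain fm).sum fun pq a => a * H6 z c pq) = Vx107.th m z c := by
  rw [Finsupp.sum_mapDomain_index (fun _ => by ring) (fun _ _ _ => by ring)]
  unfold Vx107.th
  refine Finsupp.sum_congr fun f _ => ?_
  rw [H6_fm]

theorem ntr_m6 {m : Face →₀ ℝ} (hm : Ntr m) : (m.mapDomain fm).sum (fun _ a => a) = 0 := by
  rw [Finsupp.sum_mapDomain_index (fun _ => rfl) (fun _ _ _ => rfl)]
  exact hm

theorem H6_fin {z : Cfz} {c : Corner} {A : Finset Face} (hA : ∀ f, f ∈ A ↔ ht z c f ≠ 0) :
    (Function.support (H6 z c)).Finite := by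
  refine Set.Finite.subset ((Finset.finite_toSet A).image fm) fun v hv => ?_
  refine ⟨fmE.symm v, ?_, ?_⟩
  · rw [Finset.mem_coe, hA]
    intro h
    apply hv
    unfold H6
    rw [h]
    norm_num
  · rw [← fmE_apply, Equiv.apply_symm_apply]

theorem wst_fin {z : Cfz} {c : Corner} {N : ℕ}
    (he : ∀ k : ℕ, (nx (spl z))^[k] (cm c) ∈ Bx N) {m : Face →₀ ℝ} (hm : Ntr m)
    {A : Finset Face} (hA : ∀ f, f ∈ A ↔ ht z c f ≠ 0) :
    wst (chC (m.mapDomain fm)) (spl z) (stF N (spl z) (cm c)) = Fw (mass m A) := by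
  have hfin := fin_strand he
  have hl : ∀ d, cm d ∈ stF N (spl z) (cm c) ↔ d ∈ It200.Lp z c := mem_strand he
  obtain ⟨ε, u, hε, hu, hw⟩ := wst_closed he (H6 z c) (H6_fin hA)
    (fun i j => jump_true hfin hl i j) (fun i j => jump_false hfin hl i j)
    (m.mapDomain fm) (ntr_m6 hm)
  rw [hw, sum_m6, mass_eq hfin hA]
  have h1 : ε = sg z c := by
    unfold H6 at hu
    rcases ht_cases hfin (fmE.symm u) with h | h
    · rw [h] at hu
      push_cast at hu
      rcases hε with h' | h' <;> rw [h'] at hu <;> norm_num at hu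
    · rw [h] at hu
      exact hu.symm
  rw [h1]
  rfl

/-- a loop that does not meet the paths has charge zero -/
theorem mass_zero {z : Cfz} {c : Corner} {N : ℕ}
    (he : ∀ k : ℕ, (nx (spl z))^[k] (cm c) ∈ Bx N) {m : Face →₀ ℝ} (hm : Ntr m)
    {A : Finset Face} (hA : ∀ f, f ∈ A ↔ ht z c f ≠ 0)
    (hd : ∀ e ∈ (chC (m.mapDomain fm)).support, e ∉ stF N (spl z) (cm c)) : mass m A = 0 := by
  classical
  have hfin := fin_strand he
  have hl : ∀ d, cm d ∈ stF N (spl z) (cm c) ↔ d ∈ It200.Lp z c := mem_strand he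
  have h1 := lc_chC_grad (H6 z c) (grd (stF N (spl z) (cm c)))
    (fun i j => jump_true hfin hl i j) (fun i j => jump_false hfin hl i j)
    (m.mapDomain fm) (ntr_m6 hm)
  rw [sum_m6] at h1
  rw [mass_eq hfin hA, ← h1, Finsupp.linearCombination_apply, Finsupp.sum]
  rw [Finset.sum_eq_zero, mul_zero]
  intro e he'
  unfold grd
  rw [if_neg (hd e he'), smul_zero]

/-! ### the functional -/

/-- **the plane functional of the paths is the product over the loops** -/
theorem Gpl_W {z : Cfz} {N : ℕ} {m : Face →₀ ℝ} (hm : Ntr m)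
    (hl : Loc (chC (m.mapDomain fm)) N (spl z)) :
    Gpl (chC (m.mapDomain fm)) (spl z) = W m z := by
  classical
  rw [Gpl_eq hl]
  unfold GN
  rw [if_pos hl]
  set C := chC (m.mapDomain fm) with hC
  set s := spl z with hs
  have hcm : ∀ e : ME ℤ ℤ, ∃ c, cm c = e := fun e => ⟨mc e, cm_mc e⟩
  have h1 : ∀ l ∈ C.support.image (stF N s), ∃ A, A ∈ Lps z ∧ (∀ d, sepC A d ↔ cm d ∈ l) ∧
      wst C s l = Fw (mass m A) := by
    intro l hl'
    rw [mem_image] at hl'
    obtain ⟨e, he, rfl⟩ := hl'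
    obtain ⟨c, rfl⟩ := hcm e
    have h2 := hl _ he
    have hfin := fin_strand h2
    obtain ⟨A, hAL, hA⟩ := exists_int hfin
    refine ⟨A, hAL, fun d => ?_, wst_fin h2 hm hA⟩
    rw [sep_iff hfin hA, mem_strand h2]
  choose! Φ hΦ1 hΦ2 hΦ3 using h1
  have hinj : Set.InjOn Φ (C.support.image (stF N s) : Finset (Finset (ME ℤ ℤ))) := by
    intro l1 hl1 l2 hl2 h
    ext e
    obtain ⟨c, rfl⟩ := hcm e
    rw [← hΦ2 l1 hl1, ← hΦ2 l2 hl2, h]
  have h2 : ∏ l ∈ C.support.image (stF N s), wst C s l =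
      ∏ A ∈ (C.support.image (stF N s)).image Φ, Fw (mass m A) := by
    rw [Finset.prod_image hinj]
    exact Finset.prod_congr rfl fun l hl' => hΦ3 l hl'
  rw [h2]
  unfold W
  symm
  refine finprod_mem_eq_prod_of_inter_mulSupport_eq _ ?_
  ext A
  simp only [Set.mem_inter_iff]
  refine and_congr_left fun hA1 => ?_
  constructor
  · intro hA2
    obtain ⟨c, hc, hA⟩ := id hA2
    obtain ⟨N', he'⟩ := loc_of_fin hc
    have hmass : mass m A ≠ 0 := by
      intro h
      apply hA1
      show Fw (mass m A) = 1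
      rw [h, Fw_zero]
    have h3 : ∃ e ∈ C.support, e ∈ stF N' s (cm c) := by
      by_contra hcon
      push Not at hcon
      exact hmass (mass_zero he' hm hA hcon)
    obtain ⟨e, he, hel⟩ := h3
    obtain ⟨d, rfl⟩ := hcm e
    have h4 : stF N s (cm d) ∈ C.support.image (stF N s) := mem_image_of_mem _ he
    have h5 : sepC (Φ (stF N s (cm d))) d := by
      rw [hΦ2 _ h4, mem_stF (hl _ he)]
      exact ⟨0, rfl⟩
    have h6 : sepC A d := by
      rw [sep_iff hc hA, ← mem_strand he']
      exact hel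
    rw [sep_uniq hA2 (hΦ1 _ h4) h6 h5]
    exact Finset.mem_coe.2 (mem_image_of_mem _ h4)
  · intro hA2
    rw [Finset.mem_coe, mem_image] at hA2
    obtain ⟨l, hl', rfl⟩ := hA2
    exact hΦ1 l hl'

theorem fin_all (hF : FinS) : ∀ᵐ z ∂(nu hf), ∀ e : ME ℤ ℤ, ∃ N : ℕ, ∀ k : ℕ,
    (nx (spl z))^[k] e ∈ Bx N := by
  unfold FinS at hF
  rw [← map_spl] at hF
  exact ae_of_ae_map meas_spl.aemeasurable hF

/-- **the plane functional in percolation coordinates** -/
theorem Pi6_W (hF : FinS) {m : Face →₀ ℝ} (hm : Ntr m) :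
    Pi6 (m.mapDomain fm) = ∫ z, W m z ∂(nu hf) := by
  unfold Pi6
  rw [← map_spl, integral_map meas_spl.aemeasurable (meas_Gpl _).aestronglyMeasurable]
  refine integral_congr_ae ?_
  filter_upwards [fin_all hF] with z hz
  obtain ⟨N, hN⟩ := exists_Loc hz (chC (m.mapDomain fm))
  exact Gpl_W hm hN

end Crest.Agent.R158.Bk430
end
end

-- ▼ part R158/Tl1_405
section

/-!
# R158, block B3, part 1: local laws of weakly tilted product measures

`V` finite, `w : (V → Bool) → ℝ` with `1 ≤ w ≤ W`; `A i` the event that the configuration agrees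
with a given pattern on `S i`, the `S i` pairwise disjoint of the same size `s`.  If the tilted
probabilities of all the `A i` are equal to `P`, then for `0 < t ≤ 1`

`P ≤ 2^{-s} (1 + t) + log W / (t K)`, `K` the number of indices.
-/

set_option autoImplicit false

namespace Crest.Agent.R158.Tl405

open Finset

variable {V : Type*} [Fintype V] [DecidableEq V]

/-- number of configurations agreeing with `y` on `T` -/
theorem card_agree (T : Finset V) (y : V → Bool) :
    (univ.filter fun ω : V → Bool => ∀ v ∈ T, ω v = y v).card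
      = 2 ^ (Fintype.card V - T.card) := by
  classical
  have h1 : (univ.filter fun ω : V → Bool => ∀ v ∈ T, ω v = y v)
      = Fintype.piFinset (fun v => if v ∈ T then ({y v} : Finset Bool) else univ) := by
    ext ω
    simp only [mem_filter, mem_univ, true_and, Fintype.mem_piFinset]
    constructor
    · intro h v
      by_cases hv : v ∈ T
      · simp [hv, h v hv]
      · simp [hv]
    · intro h v hv
      have := h v
      simpa [hv] using this
  rw [h1, Fintype.card_piFinset]
  have h2 : ∀ v : V, (if v ∈ T then ({y v} : Finset Bool) else univ).card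
      = if v ∈ T then 1 else 2 := by
    intro v
    by_cases hv : v ∈ T <;> simp [hv]
  rw [Finset.prod_congr rfl (fun v _ => h2 v), Finset.prod_ite]
  simp only [prod_const_one, one_mul, prod_const]
  congr 1
  rw [← Finset.card_compl]
  congr 1
  ext v
  simp

/-- indicator of agreement with `y` on `T` -/
noncomputable def ag (T : Finset V) (y : V → Bool) (ω : V → Bool) : ℝ :=
  by classical exact if ∀ v ∈ T, ω v = y v then 1 else 0

theorem sum_ag (T : Finset V) (y : V → Bool) :
    ∑ ω : V → Bool, ag T y ω = 2 ^ (Fintype.card V) * (1 / 2 : ℝ) ^ T.card := by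
  classical
  unfold ag
  rw [Finset.sum_boole, card_agree]
  have hT : T.card ≤ Fintype.card V := Finset.card_le_univ T
  push_cast
  have : (2 : ℝ) ^ (Fintype.card V) = 2 ^ (Fintype.card V - T.card) * 2 ^ T.card := by
    rw [← pow_add]; congr 1; omega
  rw [this, mul_assoc, ← mul_pow]
  norm_num

variable {ι : Type*} [Fintype ι] [DecidableEq ι]

theorem prod_ag (S : ι → Finset V) (hd : ∀ i j, i ≠ j → Disjoint (S i) (S j))
    (y : ι → V → Bool) (J : Finset ι) :
    ∃ z : V → Bool, ∀ ω : V → Bool, ∏ i ∈ J, ag (S i) (y i) ω = ag (J.biUnion S) z ω := by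
  classical
  refine ⟨fun v => if h : ∃ i, v ∈ S i then y h.choose v else false, fun ω => ?_⟩
  have key : ∀ i, ∀ v ∈ S i, (if h : ∃ i, v ∈ S i then y h.choose v else false) = y i v := by
    intro i v hv
    have h : ∃ i, v ∈ S i := ⟨i, hv⟩
    rw [dif_pos h]
    have h3 : h.choose = i := by
      by_contra hne
      exact (Finset.disjoint_left.mp (hd _ _ hne) h.choose_spec) hv
    rw [h3]
  unfold ag
  by_cases hall : ∀ v ∈ J.biUnion S, ω v = (if h : ∃ i, v ∈ S i then y h.choose v else false)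
  · rw [if_pos hall]
    refine Finset.prod_eq_one fun i hi => ?_
    rw [if_pos]
    intro v hv
    rw [hall v (Finset.mem_biUnion.mpr ⟨i, hi, hv⟩), key i v hv]
  · rw [if_neg hall]
    simp only [not_forall] at hall
    obtain ⟨v, hv, hne⟩ := hall
    obtain ⟨i, hi, hvi⟩ := Finset.mem_biUnion.mp hv
    refine Finset.prod_eq_zero hi ?_
    rw [if_neg]
    intro h
    exact hne (by rw [h v hvi, key i v hvi])

/-- exponential moment of the number of agreements -/
theorem sum_exp (S : ι → Finset V) (hd : ∀ i j, i ≠ j → Disjoint (S i) (S j))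
    (y : ι → V → Bool) (s : ℕ) (hs : ∀ i, (S i).card = s) (t : ℝ) :
    ∑ ω : V → Bool, Real.exp (t * ∑ i, ag (S i) (y i) ω)
      = 2 ^ (Fintype.card V) * (1 + (Real.exp t - 1) * (1 / 2 : ℝ) ^ s) ^ (Fintype.card ι) := by
  classical
  have h1 : ∀ ω : V → Bool, Real.exp (t * ∑ i, ag (S i) (y i) ω)
      = ∏ i, ((Real.exp t - 1) * ag (S i) (y i) ω + 1) := by
    intro ω
    rw [Finset.mul_sum, Real.exp_sum]
    refine Finset.prod_congr rfl fun i _ => ?_
    unfold ag
    split_ifs <;> simp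
  simp_rw [h1]
  have h2 : ∀ ω : V → Bool, ∏ i, ((Real.exp t - 1) * ag (S i) (y i) ω + 1)
      = ∑ J : Finset ι, (Real.exp t - 1) ^ J.card * ∏ i ∈ J, ag (S i) (y i) ω := by
    intro ω
    rw [Finset.prod_add]
    simp only [prod_const_one, mul_one, Finset.powerset_univ]
    refine Finset.sum_congr rfl fun J _ => ?_
    rw [Finset.prod_mul_distrib, Finset.prod_const]
  simp_rw [h2]
  rw [Finset.sum_comm]
  have h3 : ∀ J : Finset ι, ∑ ω : V → Bool, (Real.exp t - 1) ^ J.card * ∏ i ∈ J, ag (S i) (y i) ω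
      = 2 ^ (Fintype.card V) * ((Real.exp t - 1) * (1 / 2 : ℝ) ^ s) ^ J.card := by
    intro J
    obtain ⟨z, hz⟩ := prod_ag S hd y J
    simp_rw [hz]
    rw [← Finset.mul_sum, sum_ag]
    have hc : (J.biUnion S).card = J.card * s := by
      rw [Finset.card_biUnion (fun i _ j _ hij => hd i j hij)]
      simp [hs]
    rw [hc, mul_comm J.card s, pow_mul, mul_pow]
    ring
  rw [Finset.sum_congr rfl (fun J _ => h3 J), ← Finset.mul_sum]
  congr 1
  have h4 := Finset.prod_add (fun _ : ι => (Real.exp t - 1) * (1 / 2 : ℝ) ^ s) (fun _ => (1 : ℝ))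
    (univ : Finset ι)
  simp only [prod_const, Finset.powerset_univ, Finset.card_univ, one_pow, mul_one] at h4
  rw [add_comm, h4]

/-- **local law of a tilted product measure, upper bound** -/
theorem tilt_upper (w : (V → Bool) → ℝ) (W : ℝ) (hw1 : ∀ ω, 1 ≤ w ω) (hwW : ∀ ω, w ω ≤ W)
    [Nonempty ι] (S : ι → Finset V) (hd : ∀ i j, i ≠ j → Disjoint (S i) (S j))
    (y : ι → V → Bool) (s : ℕ) (hs : ∀ i, (S i).card = s) (P : ℝ)
    (hP : ∀ i, ∑ ω : V → Bool, w ω * ag (S i) (y i) ω = P * ∑ ω : V → Bool, w ω)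
    (t : ℝ) (ht : 0 < t) (ht1 : t ≤ 1) :
    P ≤ (1 / 2 : ℝ) ^ s * (1 + t) + Real.log W / (t * Fintype.card ι) := by
  classical
  set K : ℝ := (Fintype.card ι : ℝ) with hK
  have hKpos : 0 < K := by
    rw [hK]; exact_mod_cast Fintype.card_pos
  set q : ℝ := (1 / 2 : ℝ) ^ s with hq
  have hq0 : 0 ≤ q := by positivity
  have hW1 : 1 ≤ W := le_trans (hw1 (fun _ => false)) (hwW _)
  set Z : ℝ := ∑ ω : V → Bool, w ω with hZ
  have hZ2 : (2 : ℝ) ^ (Fintype.card V) ≤ Z := by
    have : ∑ ω : V → Bool, (1 : ℝ) ≤ Z := Finset.sum_le_sum fun ω _ => hw1 ω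
    simpa using this
  have hZpos : 0 < Z := lt_of_lt_of_le (by positivity) hZ2
  set c : ℝ := t * K * P with hc
  -- Jensen by the tangent line
  have hJ : Real.exp c * Z ≤ ∑ ω : V → Bool, w ω * Real.exp (t * ∑ i, ag (S i) (y i) ω) := by
    have h1 : ∀ ω : V → Bool, w ω * (Real.exp c * (1 + (t * ∑ i, ag (S i) (y i) ω - c)))
        ≤ w ω * Real.exp (t * ∑ i, ag (S i) (y i) ω) := by
      intro ω
      refine mul_le_mul_of_nonneg_left ?_ (le_trans zero_le_one (hw1 ω))
      have h2 : Real.exp (t * ∑ i, ag (S i) (y i) ω)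
          = Real.exp c * Real.exp (t * ∑ i, ag (S i) (y i) ω - c) := by
        rw [← Real.exp_add]; congr 1; ring
      rw [h2]
      refine mul_le_mul_of_nonneg_left ?_ (Real.exp_nonneg _)
      have := Real.add_one_le_exp (t * ∑ i, ag (S i) (y i) ω - c)
      linarith
    refine le_trans (le_of_eq ?_) (Finset.sum_le_sum fun ω _ => h1 ω)
    have h3 : ∀ ω : V → Bool, w ω * (Real.exp c * (1 + (t * ∑ i, ag (S i) (y i) ω - c)))
        = Real.exp c * (1 - c) * w ω
          + Real.exp c * t * ∑ i, w ω * ag (S i) (y i) ω := by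
      intro ω
      rw [← Finset.mul_sum]; ring
    simp_rw [h3]
    rw [Finset.sum_add_distrib, ← Finset.mul_sum, ← Finset.mul_sum, Finset.sum_comm]
    rw [Finset.sum_congr rfl (fun i _ => hP i)]
    simp only [Finset.sum_const, Finset.card_univ, nsmul_eq_mul]
    rw [← hK, ← hZ, hc]; ring
  have hU : ∑ ω : V → Bool, w ω * Real.exp (t * ∑ i, ag (S i) (y i) ω)
      ≤ W * (2 ^ (Fintype.card V) * (1 + (Real.exp t - 1) * q) ^ (Fintype.card ι)) := by
    rw [hq, ← sum_exp S hd y s hs t, Finset.mul_sum]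
    exact Finset.sum_le_sum fun ω _ =>
      mul_le_mul_of_nonneg_right (hwW ω) (Real.exp_nonneg _)
  have hE : Real.exp c ≤ W * (1 + (Real.exp t - 1) * q) ^ (Fintype.card ι) := by
    have h5 : Real.exp c * 2 ^ (Fintype.card V)
        ≤ (W * (1 + (Real.exp t - 1) * q) ^ (Fintype.card ι)) * 2 ^ (Fintype.card V) := by
      calc Real.exp c * 2 ^ (Fintype.card V) ≤ Real.exp c * Z :=
            mul_le_mul_of_nonneg_left hZ2 (Real.exp_nonneg _)
        _ ≤ _ := le_trans hJ hU
        _ = _ := by ring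
    exact le_of_mul_le_mul_right h5 (by positivity)
  have hexp1 : Real.exp t - 1 ≤ t + t ^ 2 := by
    have := Real.abs_exp_sub_one_sub_id_le (x := t) (by rw [abs_of_pos ht]; exact ht1)
    have h6 := (abs_le.mp this).2
    linarith
  have hexp0 : 0 ≤ Real.exp t - 1 := by
    have := Real.add_one_le_exp t
    linarith
  have hlog : c ≤ Real.log W + K * (q * (t + t ^ 2)) := by
    have h7 : Real.exp c ≤ W * Real.exp (K * (q * (t + t ^ 2))) := by
      refine le_trans hE ?_
      refine mul_le_mul_of_nonneg_left ?_ (by linarith)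
      have h8 : (1 + (Real.exp t - 1) * q) ≤ Real.exp (q * (t + t ^ 2)) := by
        have := Real.add_one_le_exp (q * (t + t ^ 2))
        nlinarith
      calc (1 + (Real.exp t - 1) * q) ^ (Fintype.card ι)
          ≤ (Real.exp (q * (t + t ^ 2))) ^ (Fintype.card ι) :=
            pow_le_pow_left₀ (by positivity) h8 _
        _ = Real.exp (K * (q * (t + t ^ 2))) := by
            rw [← Real.exp_nat_mul]
    have h9 : Real.exp c ≤ Real.exp (Real.log W + K * (q * (t + t ^ 2))) := by
      rw [Real.exp_add, Real.exp_log (by linarith)]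
      exact h7
    exact Real.exp_le_exp.mp h9
  have htK : 0 < t * K := by positivity
  have h10 : P = c / (t * K) := by
    rw [hc]; field_simp
  rw [h10]
  have h11 : c / (t * K) ≤ (Real.log W + K * (q * (t + t ^ 2))) / (t * K) :=
    div_le_div_of_nonneg_right hlog htK.le
  refine le_trans h11 (le_of_eq ?_)
  field_simp
  ring

end Crest.Agent.R158.Tl405
end

-- ▼ part R158/Tl2_405
section

/-!
# R158, block B3: the tilted law of the splittings of the torus converges locally to the
uniform product law of the plane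

`B3 : (∑ s, wG s * g (sL s)) / (∑ s, wG s) → E g` for every local function `g`, uniformly in
the even length `M ≥ L` of the torus `M × L`, as the even number `L → ∞`.
-/

set_option autoImplicit false

namespace Crest.Agent.R158.Tl405

open Finset
open Crest.Agent.R158.Bk430 (ME HasPar par vp ori hd tl kap turn proj orb Orb nxE so Gw wG Bal sgb)
open Crest.Agent.R158.Ts405 (sL Ctr TT_torus)

section Trans

variable {A B : Type*} [AddCommGroupWithOne A] [AddCommGroupWithOne B] [HasPar A] [HasPar B]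

/-- translation of vertices -/
def trV (a : A) (b : B) (v : A × B) : A × B := (v.1 + a, v.2 + b)

/-- translation of edges -/
def trE (a : A) (b : B) (e : ME A B) : ME A B := (trV a b e.1, e.2)

theorem hd_tr {a : A} {b : B} (hab : ∀ v : A × B, vp (trV a b v) = vp v) (e : ME A B) :
    hd (trE a b e) = trV a b (hd e) := by
  obtain ⟨⟨i, j⟩, c⟩ := e
  have h := hab (i, j)
  simp only [trV] at h
  cases c <;> cases hv : vp ((i, j) : A × B) <;> rw [hv] at h <;>
    simp [hd, trE, trV, h, hv, add_right_comm]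

theorem nx_tr {a : A} {b : B} (hab : ∀ v : A × B, vp (trV a b v) = vp v) (s : A × B → Bool)
    (e : ME A B) : Bk430.nx s (trE a b e) = trE a b (Bk430.nx (fun v => s (trV a b v)) e) := by
  have h1 := hd_tr hab e
  unfold Bk430.nx
  rw [h1]
  have h2 : vp (trE a b e).1 = vp e.1 := hab e.1
  rw [h2]
  have h3 : (trE a b e).2 = e.2 := rfl
  rw [h3]
  split_ifs <;> simp [trE, trV, sub_add_eq_add_sub]

theorem turn_tr {a : A} {b : B} (hab : ∀ v : A × B, vp (trV a b v) = vp v) (s : A × B → Bool)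
    (e : ME A B) : turn s (trE a b e) = turn (fun v => s (trV a b v)) e := by
  unfold turn kap
  rw [hd_tr hab, hab]

theorem so_tr {a : A} {b : B} (hab : ∀ v : A × B, vp (trV a b v) = vp v) (e : ME A B) :
    so (trE a b e) = so e := by
  unfold so ori
  have h2 : vp (trE a b e).1 = vp e.1 := hab e.1
  rw [h2]
  rfl

/-- translation of edges as an equivalence -/
def trEq (a : A) (b : B) : ME A B ≃ ME A B where
  toFun := trE a b
  invFun := trE (-a) (-b)
  left_inv e := by simp [trE, trV]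
  right_inv e := by simp [trE, trV]

variable [Fintype A] [Fintype B] [DecidableEq A] [DecidableEq B]

open Classical in
theorem wG_tr {a : A} {b : B} (hab : ∀ v : A × B, vp (trV a b v) = vp v) (s : A × B → Bool) :
    wG (fun v => s (trV a b v)) = wG s := by
  unfold wG Gw
  refine Fintype.sum_equiv (Equiv.arrowCongr (trEq a b) (Equiv.refl Bool)) _ _ fun f => ?_
  have hf : ∀ e, (Equiv.arrowCongr (trEq a b) (Equiv.refl Bool)) f (trE a b e) = f e := by
    intro e
    simp only [Equiv.arrowCongr_apply, Equiv.coe_refl, Function.comp_apply, id_eq]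
    congr 1
    exact (trEq a b).symm_apply_apply e
  set F := (Equiv.arrowCongr (trEq a b) (Equiv.refl Bool)) f with hF
  have h1 : (∀ e, f (Bk430.nx (fun v => s (trV a b v)) e) = f e) ↔ ∀ e, F (Bk430.nx s e) = F e := by
    constructor
    · intro h e
      obtain ⟨e', rfl⟩ := (trEq a b).surjective e
      show F (Bk430.nx s (trE a b e')) = F (trE a b e')
      rw [nx_tr hab, hf, hf, h]
    · intro h e
      have := h (trE a b e)
      rw [nx_tr hab, hf, hf] at this
      exact this
  have h2 : Bal f ↔ Bal F := by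
    unfold Bal
    have key : ∀ i : A, ∑ j : B, so (((i, j), false) : ME A B) * sgb (f ((i, j), false))
        = ∑ j : B, so (((i + a, j), false) : ME A B) * sgb (F ((i + a, j), false)) := by
      intro i
      refine Fintype.sum_equiv (Equiv.addRight b) _ _ fun j => ?_
      have e1 : (((i + a, (Equiv.addRight b) j), false) : ME A B) = trE a b ((i, j), false) := by
        simp [trE, trV]
      rw [e1, so_tr hab, hf]
    constructor
    · intro h i
      have := key (i - a)
      rw [sub_add_cancel] at this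
      rw [← this]; exact h _
    · intro h i
      rw [key]; exact h _
  have h3 : (∑ e, (Real.pi / 3 / 4 * turn (fun v => s (trV a b v)) e + 0 * so e) * sgb (f e) : ℝ)
      = ∑ e, (Real.pi / 3 / 4 * turn s e + 0 * so e) * sgb (F e) := by
    refine Fintype.sum_equiv (trEq a b) _ _ fun e => ?_
    show _ = (Real.pi / 3 / 4 * (turn s (trE a b e) : ℝ) + 0 * (so (trE a b e) : ℝ))
      * (sgb (F (trE a b e)) : ℝ)
    rw [turn_tr hab, so_tr hab, hf]
  by_cases c1 : ∀ e, f (Bk430.nx (fun v => s (trV a b v)) e) = f e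
  · rw [if_pos c1, if_pos (h1.mp c1)]
    by_cases c2 : Bal f
    · rw [if_pos c2, if_pos (h2.mp c2), h3]
    · rw [if_neg c2, if_neg (fun h => c2 (h2.mpr h))]
  · rw [if_neg c1, if_neg (fun h => c1 (h1.mpr h))]

end Trans


/-! ### windows on the torus -/

section Torus

variable {M L : ℕ} [NeZero M] [NeZero L] [Fact (Even M)] [Fact (Even L)]

theorem par_even (k : ZMod M) (c : ℤ) : par (k + ((2 * c : ℤ) : ZMod M)) = par k := by
  have e1 : k = ((k.val : ℤ) : ZMod M) := by simp
  rw [e1, ← Int.cast_add, Bk430.par_intCast, Bk430.par_intCast]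
  show decide (((k.val : ℤ) + 2 * c) % 2 = 1) = decide ((k.val : ℤ) % 2 = 1)
  congr 1
  apply propext
  omega

theorem vp_even (c d : ℤ) (v : ZMod M × ZMod L) :
    vp (trV ((2 * c : ℤ) : ZMod M) ((2 * d : ℤ) : ZMod L) v) = vp v := by
  unfold vp trV
  simp only [par_even]

/-- the vertex of the torus under `u + (2 n i, 2 n j)` -/
def pv (M L : ℕ) (n : ℕ) (ij : ℕ × ℕ) (u : ℤ × ℤ) : ZMod M × ZMod L :=
  (((u.1 + 2 * n * ij.1 : ℤ) : ZMod M), ((u.2 + 2 * n * ij.2 : ℤ) : ZMod L))

theorem coord_inj {M n : ℕ} (hn : 0 < n) {u u' : ℤ} (hu : -n ≤ u ∧ u < n)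
    (hu' : -n ≤ u' ∧ u' < n) {i i' : ℕ} (hi : i < M / (2 * n)) (hi' : i' < M / (2 * n))
    (h : ((u + 2 * n * i : ℤ) : ZMod M) = ((u' + 2 * n * i' : ℤ) : ZMod M)) : u = u' ∧ i = i' := by
  obtain ⟨c, hc⟩ := (ZMod.intCast_eq_intCast_iff_dvd_sub _ _ M).mp h
  have hMn : (M / (2 * n)) * (2 * n) ≤ M := Nat.div_mul_le_self _ _
  have h1 : ((i : ℤ) + 1) * (2 * n) ≤ M := by
    have : (i + 1) * (2 * n) ≤ (M / (2 * n)) * (2 * n) := Nat.mul_le_mul_right _ hi
    exact_mod_cast le_trans this hMn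
  have h2 : ((i' : ℤ) + 1) * (2 * n) ≤ M := by
    have : (i' + 1) * (2 * n) ≤ (M / (2 * n)) * (2 * n) := Nat.mul_le_mul_right _ hi'
    exact_mod_cast le_trans this hMn
  have e1 : ((i : ℤ) + 1) * (2 * n) = 2 * n * i + 2 * n := by ring
  have e2 : ((i' : ℤ) + 1) * (2 * n) = 2 * n * i' + 2 * n := by ring
  rw [e1] at h1
  rw [e2] at h2
  have p1 : (0 : ℤ) ≤ 2 * n * i := by positivity
  have p2 : (0 : ℤ) ≤ 2 * n * i' := by positivity
  have hc0 : c = 0 := by
    by_contra hne
    rcases lt_or_gt_of_ne hne with h3 | h3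
    · have : (M : ℤ) * c ≤ -M := by nlinarith [Int.natCast_nonneg M]
      omega
    · have : (M : ℤ) ≤ M * c := by nlinarith [Int.natCast_nonneg M]
      omega
  rw [hc0, mul_zero] at hc
  have h5 : (2 * (n : ℤ)) * ((i' : ℤ) - i) = u - u' := by linarith
  have h6 : (i' : ℤ) - i = 0 := by
    by_contra hne
    have hn' : (0 : ℤ) < 2 * n := by positivity
    rcases lt_or_gt_of_ne hne with h7 | h7
    · have : (2 * (n : ℤ)) * ((i' : ℤ) - i) ≤ -(2 * n) := by nlinarith
      omega
    · have : (2 * (n : ℤ)) ≤ (2 * (n : ℤ)) * ((i' : ℤ) - i) := by nlinarith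
      omega
  rw [h6, mul_zero] at h5
  exact ⟨by omega, by omega⟩

/-- agreement with the pattern `y` on the window `B` -/
noncomputable def agB (B : Finset (ℤ × ℤ)) (y : ℤ × ℤ → Bool) (s : ℤ × ℤ → Bool) : ℝ :=
  by classical exact if ∀ u ∈ B, s u = y u then 1 else 0

/-- **upper bound for the local law** -/
theorem local_upper (B : Finset (ℤ × ℤ)) (n : ℕ) (hn : 0 < n)
    (hB : ∀ u ∈ B, (-(n : ℤ) ≤ u.1 ∧ u.1 < n) ∧ (-(n : ℤ) ≤ u.2 ∧ u.2 < n))
    (hM : 2 * n ≤ M) (hL : 2 * n ≤ L) (y : ℤ × ℤ → Bool) (t : ℝ) (ht : 0 < t) (ht1 : t ≤ 1) :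
    (∑ s : ZMod M × ZMod L → Bool, wG s * agB B y (sL s)) / (∑ s : ZMod M × ZMod L → Bool, wG s)
      ≤ (1 / 2 : ℝ) ^ B.card * (1 + t) +
        Real.log (2 ^ (2 * max M L)) / (t * ((M / (2 * n) : ℕ) * (L / (2 * n) : ℕ) : ℝ)) := by
  classical
  have hw1 : ∀ s : ZMod M × ZMod L → Bool, 1 ≤ wG s := fun s => Bk430.one_le_wG (TT_torus s)
  have hwW : ∀ s : ZMod M × ZMod L → Bool, wG s ≤ 2 ^ (2 * max M L) := by
    intro s
    have := Bk430.wG_le (TT_torus s) Fintype.card_pos Fintype.card_pos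
    rw [ZMod.card, ZMod.card] at this
    exact this
  set ι := Fin (M / (2 * n)) × Fin (L / (2 * n)) with hι
  have hK1 : 0 < M / (2 * n) := Nat.div_pos hM (by omega)
  have hK2 : 0 < L / (2 * n) := Nat.div_pos hL (by omega)
  have : Nonempty ι := ⟨(⟨0, hK1⟩, ⟨0, hK2⟩)⟩
  set pw : ι → ℤ × ℤ → ZMod M × ZMod L := fun i u => pv M L n ((i.1 : ℕ), (i.2 : ℕ)) u with hpw
  have hinj : ∀ (i j : ι) (u v : ℤ × ℤ), u ∈ B → v ∈ B → pw i u = pw j v → u = v ∧ i = j := by
    intro i j u v hu hv h
    have h1 := congrArg (fun x : ZMod M × ZMod L => x.1) h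
    have h2 := congrArg (fun x : ZMod M × ZMod L => x.2) h
    obtain ⟨a1, a2⟩ := coord_inj hn (hB u hu).1 (hB v hv).1 i.1.2 j.1.2 h1
    obtain ⟨b1, b2⟩ := coord_inj hn (hB u hu).2 (hB v hv).2 i.2.2 j.2.2 h2
    exact ⟨Prod.ext a1 b1, Prod.ext (Fin.ext a2) (Fin.ext b2)⟩
  set S : ι → Finset (ZMod M × ZMod L) := fun i => B.image (pw i) with hS
  set Y : ι → ZMod M × ZMod L → Bool := fun i v =>
    if h : ∃ u ∈ B, pw i u = v then y h.choose else false with hY
  have hYv : ∀ i, ∀ u ∈ B, Y i (pw i u) = y u := by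
    intro i u hu
    have h : ∃ u' ∈ B, pw i u' = pw i u := ⟨u, hu, rfl⟩
    simp only [hY]
    rw [dif_pos h]
    have := (hinj i i _ _ h.choose_spec.1 hu h.choose_spec.2).1
    rw [this]
  have hagS : ∀ i (ω : ZMod M × ZMod L → Bool), ag (S i) (Y i) ω
      = if ∀ u ∈ B, ω (pw i u) = y u then 1 else 0 := by
    intro i ω
    unfold ag
    by_cases h : ∀ u ∈ B, ω (pw i u) = y u
    · rw [if_pos h, if_pos]
      intro v hv
      obtain ⟨u, hu, rfl⟩ := Finset.mem_image.mp hv
      rw [hYv i u hu, h u hu]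
    · rw [if_neg h, if_neg]
      intro h2
      apply h
      intro u hu
      rw [h2 _ (Finset.mem_image_of_mem _ hu), hYv i u hu]
  have hcard : ∀ i, (S i).card = B.card := by
    intro i
    apply Finset.card_image_of_injOn
    intro u hu v hv h
    exact (hinj i i u v hu hv h).1
  have hdisj : ∀ i j, i ≠ j → Disjoint (S i) (S j) := by
    intro i j hij
    rw [Finset.disjoint_left]
    intro v hv1 hv2
    obtain ⟨u, hu, rfl⟩ := Finset.mem_image.mp hv1
    obtain ⟨u', hu', h⟩ := Finset.mem_image.mp hv2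
    exact hij ((hinj i j u u' hu hu' h.symm).2)
  set Z : ℝ := ∑ s : ZMod M × ZMod L → Bool, wG s with hZ
  have hZpos : 0 < Z := by
    have : ∑ s : ZMod M × ZMod L → Bool, (1 : ℝ) ≤ Z := Finset.sum_le_sum fun s _ => hw1 s
    refine lt_of_lt_of_le ?_ this
    simp
  set P : ℝ := (∑ s : ZMod M × ZMod L → Bool, wG s * agB B y (sL s)) / Z with hP
  have hPi : ∀ i, ∑ ω : ZMod M × ZMod L → Bool, wG ω * ag (S i) (Y i) ω = P * Z := by
    intro i
    rw [hP, div_mul_cancel₀ _ hZpos.ne']
    -- substitution by the translation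
    set a : ZMod M := ((2 * (n * (i.1 : ℕ)) : ℤ) : ZMod M) with ha
    set b : ZMod L := ((2 * (n * (i.2 : ℕ)) : ℤ) : ZMod L) with hb
    have hab : ∀ v : ZMod M × ZMod L, vp (trV a b v) = vp v := fun v => vp_even _ _ v
    let τ : (ZMod M × ZMod L → Bool) ≃ (ZMod M × ZMod L → Bool) :=
      { toFun := fun s v => s (trV a b v)
        invFun := fun s v => s (trV (-a) (-b) v)
        left_inv := fun s => by funext v; simp [trV]
        right_inv := fun s => by funext v; simp [trV] }
    refine Fintype.sum_equiv τ _ _ fun s => ?_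
    have h1 : wG (τ s) = wG s := wG_tr hab s
    rw [h1, hagS]
    congr 1
    unfold agB
    have h2 : ∀ u : ℤ × ℤ, sL (τ s) u = s (pw i u) := by
      intro u
      show s (trV a b ((u.1 : ZMod M), (u.2 : ZMod L))) = _
      congr 1
      simp only [hpw, pv, trV, ha, hb]
      push_cast
      refine Prod.ext ?_ ?_
      · simp only; ring
      · simp only; ring
    simp_rw [h2]
  have hmain := tilt_upper wG (2 ^ (2 * max M L)) hw1 hwW S hdisj Y B.card hcard P hPi t ht ht1
  refine le_trans hmain (le_of_eq ?_)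
  have hcι : (Fintype.card ι : ℝ) = ((M / (2 * n) : ℕ) : ℝ) * ((L / (2 * n) : ℕ) : ℝ) := by
    have h0 : Fintype.card ι = (M / (2 * n)) * (L / (2 * n)) := by
      show Fintype.card (Fin (M / (2 * n)) × Fin (L / (2 * n))) = _
      rw [Fintype.card_prod, Fintype.card_fin, Fintype.card_fin]
    rw [h0]
    push_cast
    rfl
  rw [hcι]

end Torus

end Crest.Agent.R158.Tl405
end

-- ▼ part R158/Tl3_405
section

/-!
# R158, block B3: the local limit of the tilted law of the torus, two sided form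
-/

set_option autoImplicit false

namespace Crest.Agent.R158.Tl405

open Finset
open Crest.Agent.R158.Bk430 (wG)
open Crest.Agent.R158.Ts405 (sL Ctr TT_torus)

/-- extension of a pattern by `false` -/
def ext (B : Finset (ℤ × ℤ)) (y : B → Bool) (u : ℤ × ℤ) : Bool :=
  if h : u ∈ B then y ⟨u, h⟩ else false

theorem ext_mem (B : Finset (ℤ × ℤ)) (y : B → Bool) {u : ℤ × ℤ} (h : u ∈ B) :
    ext B y u = y ⟨u, h⟩ := dif_pos h

theorem agB_ext (B : Finset (ℤ × ℤ)) (y : B → Bool) (s : ℤ × ℤ → Bool) :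
    agB B (ext B y) s = if y = (fun u : B => s u) then 1 else 0 := by
  classical
  unfold agB
  by_cases h : y = fun u : B => s u
  · rw [if_pos h, if_pos]
    intro u hu
    rw [ext_mem B y hu, h]
  · rw [if_neg h, if_neg]
    intro h2
    apply h
    funext u
    rw [h2 u u.2, ext_mem B y u.2]

theorem sum_agB (B : Finset (ℤ × ℤ)) (F : (B → Bool) → ℝ) (s : ℤ × ℤ → Bool) :
    ∑ y : B → Bool, F y * agB B (ext B y) s = F (fun u : B => s u) := by
  classical
  simp_rw [agB_ext]
  simp

theorem div_two_le {M n : ℕ} (hn : 0 < n) (hM : 2 * n ≤ M) :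
    (M : ℝ) / (4 * n) ≤ ((M / (2 * n) : ℕ) : ℝ) := by
  have h1 : M < (M / (2 * n) + 1) * (2 * n) := by
    rw [mul_comm]; exact Nat.lt_mul_div_succ M (by omega)
  have h2 : 1 ≤ M / (2 * n) := Nat.div_pos hM (by omega)
  have h3 : M ≤ (M / (2 * n)) * (4 * n) := by nlinarith
  rw [div_le_iff₀ (by positivity)]
  exact_mod_cast h3

theorem local_upper' (B : Finset (ℤ × ℤ)) (n : ℕ) (hn : 0 < n)
    (hB : ∀ u ∈ B, (-(n : ℤ) ≤ u.1 ∧ u.1 < n) ∧ (-(n : ℤ) ≤ u.2 ∧ u.2 < n))
    (δ : ℝ) (hδ : 0 < δ) (hδ1 : δ ≤ 1) {M L : ℕ} [NeZero M] [NeZero L] [Fact (Even M)]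
    [Fact (Even L)] (hL : 2 * n ≤ L) (hL2 : 128 * (n : ℝ) ^ 2 / δ ^ 2 ≤ L) (hML : L ≤ M)
    (y : ℤ × ℤ → Bool) :
    (∑ s : ZMod M × ZMod L → Bool, wG s * agB B y (sL s)) / (∑ s : ZMod M × ZMod L → Bool, wG s)
      ≤ (1 / 2 : ℝ) ^ B.card + δ := by
  have h := local_upper (M := M) (L := L) B n hn hB (le_trans hL hML) hL y (δ / 2) (by positivity)
    (by linarith)
  refine le_trans h ?_
  have hn' : (0 : ℝ) < n := by exact_mod_cast hn
  have hLpos : (0 : ℝ) < L := by
    have : 0 < L := by omega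
    exact_mod_cast this
  have hMpos : (0 : ℝ) < M := by
    have : 0 < M := by omega
    exact_mod_cast this
  have h1 : Real.log (2 ^ (2 * max M L)) ≤ 2 * M := by
    rw [max_eq_left hML, Real.log_pow]
    push_cast
    have : Real.log 2 ≤ 1 := by
      have := Real.log_two_lt_d9
      linarith
    nlinarith
  have h2 : (M : ℝ) / (4 * n) * (L / (4 * n)) ≤ ((M / (2 * n) : ℕ) : ℝ) * ((L / (2 * n) : ℕ) : ℝ) :=
    mul_le_mul (div_two_le hn (le_trans hL hML)) (div_two_le hn hL) (by positivity) (by positivity)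
  have h0 : 0 < (M : ℝ) / (4 * n) * (L / (4 * n)) := by positivity
  have h3 : Real.log (2 ^ (2 * max M L)) / (δ / 2 * (((M / (2 * n) : ℕ) : ℝ) *
      ((L / (2 * n) : ℕ) : ℝ))) ≤ 2 * M / (δ / 2 * ((M : ℝ) / (4 * n) * (L / (4 * n)))) := by
    apply div_le_div₀ (by positivity) h1 (by positivity)
    exact mul_le_mul_of_nonneg_left h2 (by positivity)
  have h4 : 2 * (M : ℝ) / (δ / 2 * ((M : ℝ) / (4 * n) * (L / (4 * n)))) = 64 * n ^ 2 / (δ * L) := by
    field_simp
    ring
  have h5 : 64 * (n : ℝ) ^ 2 / (δ * L) ≤ δ / 2 := by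
    rw [div_le_iff₀ (by positivity)]
    rw [div_le_iff₀ (by positivity)] at hL2
    nlinarith
  have h6 : (1 / 2 : ℝ) ^ B.card ≤ 1 := pow_le_one₀ (by norm_num) (by norm_num)
  have h7 : (0 : ℝ) ≤ (1 / 2 : ℝ) ^ B.card := by positivity
  nlinarith

/-- **B3** -/
theorem B3 (B : Finset (ℤ × ℤ)) (g : (ℤ × ℤ → Bool) → ℝ)
    (hg : ∀ s s', (∀ u ∈ B, s u = s' u) → g s = g s') (ε : ℝ) (hε : 0 < ε) :
    ∃ L0 : ℕ, ∀ (M L : ℕ) [NeZero M] [NeZero L] [Fact (Even M)] [Fact (Even L)],
      L0 ≤ L → L ≤ M →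
      |(∑ s : ZMod M × ZMod L → Bool, wG s * g (sL s)) / (∑ s : ZMod M × ZMod L → Bool, wG s)
        - (1 / 2 : ℝ) ^ B.card * ∑ y : B → Bool, g (ext B y)| ≤ ε := by
  classical
  obtain ⟨n, hn, hB⟩ : ∃ n : ℕ, 0 < n ∧
      ∀ u ∈ B, (-(n : ℤ) ≤ u.1 ∧ u.1 < n) ∧ (-(n : ℤ) ≤ u.2 ∧ u.2 < n) := by
    refine ⟨(∑ u ∈ B, (u.1.natAbs + u.2.natAbs)) + 1, by omega, fun u hu => ?_⟩
    have := Finset.single_le_sum (f := fun u : ℤ × ℤ => u.1.natAbs + u.2.natAbs)
      (fun _ _ => Nat.zero_le _) hu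
    omega
  set Q : ℝ := 2 ^ B.card with hQ
  have hQ1 : 1 ≤ Q := one_le_pow₀ (by norm_num)
  have hq : (1 / 2 : ℝ) ^ B.card * Q = 1 := by
    rw [hQ, ← mul_pow]; norm_num
  set G : ℝ := 1 + ∑ y : B → Bool, |g (ext B y)| with hG
  have hG1 : 1 ≤ G := by
    rw [hG]
    have : 0 ≤ ∑ y : B → Bool, |g (ext B y)| := Finset.sum_nonneg fun _ _ => abs_nonneg _
    linarith
  set δ : ℝ := min 1 (ε / (G * Q)) with hδ
  have hδpos : 0 < δ := by
    rw [hδ]; exact lt_min one_pos (by positivity)
  have hδ1 : δ ≤ 1 := min_le_left _ _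
  have hδ2 : δ * (G * Q) ≤ ε := by
    have : δ ≤ ε / (G * Q) := min_le_right _ _
    rwa [le_div_iff₀ (by positivity)] at this
  refine ⟨max (2 * n) (⌈128 * (n : ℝ) ^ 2 / δ ^ 2⌉₊), ?_⟩
  intro M L _ _ _ _ hL0 hML
  have hL1 : 2 * n ≤ L := le_trans (le_max_left _ _) hL0
  have hL2 : 128 * (n : ℝ) ^ 2 / δ ^ 2 ≤ L := by
    refine le_trans (Nat.le_ceil _) ?_
    exact_mod_cast le_trans (le_max_right _ _) hL0
  set Z : ℝ := ∑ s : ZMod M × ZMod L → Bool, wG s with hZ
  have hw1 : ∀ s : ZMod M × ZMod L → Bool, 1 ≤ wG s := fun s => Bk430.one_le_wG (TT_torus s)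
  have hZpos : 0 < Z := by
    have : ∑ s : ZMod M × ZMod L → Bool, (1 : ℝ) ≤ Z := Finset.sum_le_sum fun s _ => hw1 s
    refine lt_of_lt_of_le ?_ this
    simp
  set P : (B → Bool) → ℝ := fun y =>
    (∑ s : ZMod M × ZMod L → Bool, wG s * agB B (ext B y) (sL s)) / Z with hP
  set q : ℝ := (1 / 2 : ℝ) ^ B.card with hqd
  have hup : ∀ y, P y ≤ q + δ := fun y =>
    local_upper' B n hn hB δ hδpos hδ1 hL1 hL2 hML (ext B y)
  -- representation of the mean
  have hrep : ∀ F : (B → Bool) → ℝ,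
      (∑ s : ZMod M × ZMod L → Bool, wG s * F (fun u : B => sL s u)) / Z = ∑ y, F y * P y := by
    intro F
    have h1 : ∀ s : ZMod M × ZMod L → Bool, wG s * F (fun u : B => sL s u)
        = ∑ y, F y * (wG s * agB B (ext B y) (sL s)) := by
      intro s
      rw [← sum_agB B F (sL s), Finset.mul_sum]
      refine Finset.sum_congr rfl fun y _ => ?_
      ring
    rw [Finset.sum_congr rfl (fun s _ => h1 s), Finset.sum_comm, Finset.sum_div]
    refine Finset.sum_congr rfl fun y _ => ?_
    rw [← Finset.mul_sum, mul_div_assoc]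
  have hsumP : ∑ y, P y = 1 := by
    have := hrep (fun _ => 1)
    simp only [mul_one, one_mul] at this
    rw [← this]
    exact div_self hZpos.ne'
  have hcardQ : ((Fintype.card (B → Bool) : ℕ) : ℝ) = Q := by
    rw [Fintype.card_fun, Fintype.card_bool, Fintype.card_coe, hQ]
    push_cast
    rfl
  have habs : ∀ y, |P y - q| ≤ Q * δ := by
    intro y
    rw [abs_le]
    constructor
    · -- lower bound from the total mass
      have h1 : ∑ y', P y' = P y + ∑ y' ∈ univ.erase y, P y' := by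
        rw [← Finset.add_sum_erase univ P (mem_univ y)]
      have h2 : ∑ y' ∈ univ.erase y, P y' ≤ ∑ y' ∈ (univ.erase y : Finset (B → Bool)), (q + δ) :=
        Finset.sum_le_sum fun y' _ => hup y'
      rw [Finset.sum_const, Finset.card_erase_of_mem (mem_univ y), Finset.card_univ,
        nsmul_eq_mul] at h2
      have h3 : ((Fintype.card (B → Bool) - 1 : ℕ) : ℝ) = Q - 1 := by
        rw [Nat.cast_sub Fintype.card_pos, hcardQ]
        push_cast
        rfl
      rw [h3] at h2
      have h4 : (Q - 1) * (q + δ) = 1 - q + (Q - 1) * δ := by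
        have : Q * q = 1 := by rw [mul_comm]; exact hq
        nlinarith
      nlinarith
    · have h1 := hup y
      nlinarith
  have hgrep : (∑ s : ZMod M × ZMod L → Bool, wG s * g (sL s)) / Z = ∑ y, g (ext B y) * P y := by
    rw [← hrep (fun y => g (ext B y))]
    congr 1
    refine Finset.sum_congr rfl fun s _ => ?_
    congr 1
    apply hg
    intro u hu
    rw [ext_mem B _ hu]
  rw [hgrep, Finset.mul_sum, ← Finset.sum_sub_distrib]
  have h5 : ∀ y : B → Bool, |g (ext B y) * P y - q * g (ext B y)| ≤ |g (ext B y)| * (Q * δ) := by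
    intro y
    have : g (ext B y) * P y - q * g (ext B y) = g (ext B y) * (P y - q) := by ring
    rw [this, abs_mul]
    exact mul_le_mul_of_nonneg_left (habs y) (abs_nonneg _)
  calc |∑ y : B → Bool, (g (ext B y) * P y - q * g (ext B y))|
      ≤ ∑ y : B → Bool, |g (ext B y) * P y - q * g (ext B y)| := Finset.abs_sum_le_sum_abs _ _
    _ ≤ ∑ y : B → Bool, |g (ext B y)| * (Q * δ) := Finset.sum_le_sum fun y _ => h5 y
    _ = (∑ y : B → Bool, |g (ext B y)|) * (Q * δ) := by rw [Finset.sum_mul]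
    _ ≤ G * (Q * δ) := by
        refine mul_le_mul_of_nonneg_right ?_ (by positivity)
        rw [hG]; linarith
    _ ≤ ε := by nlinarith

end Crest.Agent.R158.Tl405
end

-- ▼ part R158/Tl4_405
section

/-!
# R158: the two torus inputs `T1` and `B3` of `Bk5_430`
-/

set_option autoImplicit false

namespace Crest.Agent.R158.Tl405

open Finset MeasureTheory
open Crest.Agent.R158.Bk430 (wG ME TT CtrM lift proj orb nxE PU Vx mem_Vx)
open Crest.Agent.R158.Ts405 (sL Ctr TT_torus per per_pos per_iter per_min shE lift_iter iter_proj)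
open Crest.Agent.R158.Rs689 (PB hf wt integral_restrict bern_real_true bern_real_false)

section

variable {M L : ℕ} [NeZero M] [NeZero L] [Fact (Even M)] [Fact (Even L)]

omit [NeZero M] [NeZero L] [Fact (Even M)] [Fact (Even L)] in
theorem shE_zero_of_iter (s : ZMod M × ZMod L → Bool) {P : ℤ × ℤ} (hP : (P.1 + P.2) % 2 = 0)
    (hs : ∀ u : ℤ × ℤ, sL s (u.1 + P.1, u.2 + P.2) = sL s u) {e : ME ℤ ℤ} {k : ℕ}
    (h : (Bk430.nx (sL s))^[k] e = shE P e) (c : ℕ) :
    (Bk430.nx (sL s))^[c * k] e = shE (c * P.1, c * P.2) e := by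
  have hnx : ∀ e : ME ℤ ℤ, Bk430.nx (sL s) (shE P e) = shE P (Bk430.nx (sL s) e) := by
    intro e
    have hab : ∀ v : ℤ × ℤ, Bk430.vp (trV P.1 P.2 v) = Bk430.vp v := by
      intro v
      show Bk430.vp ((v.1 + P.1, v.2 + P.2) : ℤ × ℤ) = Bk430.vp ((v.1, v.2) : ℤ × ℤ)
      rw [Ts405.vp_int, Ts405.vp_int]
      congr 1
      apply propext
      omega
    have h1 := nx_tr hab (sL s) e
    have h2 : (fun v : ℤ × ℤ => sL s (trV P.1 P.2 v)) = sL s := by
      funext v
      exact hs v
    rw [h2] at h1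
    exact h1
  have hit : ∀ (m : ℕ) (e : ME ℤ ℤ), (Bk430.nx (sL s))^[m] (shE P e)
      = shE P ((Bk430.nx (sL s))^[m] e) := by
    intro m e
    induction m with
    | zero => rfl
    | succ m ih => rw [Function.iterate_succ_apply', ih, hnx, Function.iterate_succ_apply']
  induction c with
  | zero => simp [shE]
  | succ c ih =>
    have e1 : (c + 1) * k = c * k + k := by ring
    rw [e1, Function.iterate_add_apply, h, hit, ih]
    unfold shE
    simp only [Prod.mk.injEq, and_true]
    push_cast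
    constructor <;> ring

theorem CtrM_eq (s : ZMod M × ZMod L → Bool) : CtrM s = Ctr s := by
  funext l
  apply propext
  constructor
  · rintro ⟨e, he, k, hk, hke⟩
    refine ⟨e, he, ?_⟩
    have hke' : (Bk430.nx (sL s))^[k] e = e := hke
    obtain ⟨a, b, hab⟩ := lift_iter s e
    set p := per s (proj M L e) with hp
    have hdvd : p ∣ k := by
      have h1 : (Bk430.nx s)^[k] (proj M L e) = proj M L e := by
        rw [← iter_proj, hke']
      have h2 : Function.IsPeriodicPt (nxE s) k (proj M L e) := h1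
      exact h2.minimalPeriod_dvd
    obtain ⟨c, hc⟩ := hdvd
    have hc0 : 0 < c := by
      rcases Nat.eq_zero_or_pos c with h | h
      · subst h; omega
      · exact h
    have h3 := shE_zero_of_iter s (P := (M * a, L * b)) (Ts405.even_MP M L a b)
      (by intro u; simp [sL]) hab c
    rw [mul_comm c p, ← hc, hke'] at h3
    have h4 : e.1.1 = e.1.1 + c * (M * a) := congrArg (fun x : ME ℤ ℤ => x.1.1) h3
    have h5 : e.1.2 = e.1.2 + c * (L * b) := congrArg (fun x : ME ℤ ℤ => x.1.2) h3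
    have h6 : (c : ℤ) * (M * a) = 0 := by linarith
    have h7 : (c : ℤ) * (L * b) = 0 := by linarith
    have hc' : (c : ℤ) ≠ 0 := by exact_mod_cast hc0.ne'
    have h8 : (M : ℤ) * a = 0 := (mul_eq_zero.mp h6).resolve_left hc'
    have h9 : (L : ℤ) * b = 0 := (mul_eq_zero.mp h7).resolve_left hc'
    rw [hab, h8, h9]
    simp [shE]
  · rintro ⟨e, he, h⟩
    exact ⟨e, he, _, per_pos s _, h⟩

end

/-- **T1 of `Bk5_430`** -/
theorem T1_main : Bk430.T1 := by
  intro M L _ _ _ _ s
  rw [CtrM_eq]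
  exact TT_torus s

/-- uniform version of `B3` -/
theorem B3u (B : Finset (ℤ × ℤ)) (ε : ℝ) (hε : 0 < ε) :
    ∃ L0 : ℕ, ∀ (M L : ℕ) [NeZero M] [NeZero L] [Fact (Even M)] [Fact (Even L)],
      L0 ≤ L → L ≤ M → ∀ g : (ℤ × ℤ → Bool) → ℝ, (∀ s, |g s| ≤ 1) →
      (∀ s s', (∀ u ∈ B, s u = s' u) → g s = g s') →
      |(∑ s : ZMod M × ZMod L → Bool, wG s * g (sL s)) / (∑ s : ZMod M × ZMod L → Bool, wG s)
        - (1 / 2 : ℝ) ^ B.card * ∑ y : B → Bool, g (ext B y)| ≤ ε := by
  classical
  set Q : ℝ := 2 ^ B.card with hQ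
  have hQ1 : 1 ≤ Q := one_le_pow₀ (by norm_num)
  have hcardQ : ((Fintype.card (B → Bool) : ℕ) : ℝ) = Q := by
    rw [Fintype.card_fun, Fintype.card_bool, Fintype.card_coe, hQ]
    push_cast
    rfl
  -- apply B3 to each pattern
  have h1 : ∀ y : B → Bool, ∃ L0 : ℕ, ∀ (M L : ℕ) [NeZero M] [NeZero L] [Fact (Even M)]
      [Fact (Even L)], L0 ≤ L → L ≤ M →
      |(∑ s : ZMod M × ZMod L → Bool, wG s * agB B (ext B y) (sL s)) /
        (∑ s : ZMod M × ZMod L → Bool, wG s)
        - (1 / 2 : ℝ) ^ B.card * ∑ z : B → Bool, agB B (ext B y) (ext B z)| ≤ ε / Q := by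
    intro y
    refine B3 B (agB B (ext B y)) ?_ (ε / Q) (by positivity)
    intro s s' h
    rw [agB_ext, agB_ext]
    have : (fun u : B => s u) = fun u : B => s' u := by funext u; exact h u u.2
    rw [this]
  choose L0 hL0 using h1
  refine ⟨univ.sup L0, ?_⟩
  intro M L _ _ _ _ hL hML g hg1 hg
  set Z : ℝ := ∑ s : ZMod M × ZMod L → Bool, wG s with hZ
  have hone : ∀ y : B → Bool, ∑ z : B → Bool, agB B (ext B y) (ext B z) = 1 := by
    intro y
    have e : ∀ z : B → Bool, agB B (ext B y) (ext B z) = if y = z then 1 else 0 := by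
      intro z
      rw [agB_ext]
      congr 1
      apply propext
      constructor
      · intro h; rw [h]; funext u; rw [ext_mem B z u.2]
      · intro h; rw [h]; funext u; rw [ext_mem B z u.2]
    simp_rw [e]
    simp
  have hrep : (∑ s : ZMod M × ZMod L → Bool, wG s * g (sL s)) / Z
      = ∑ y : B → Bool, g (ext B y) *
        ((∑ s : ZMod M × ZMod L → Bool, wG s * agB B (ext B y) (sL s)) / Z) := by
    have h2 : ∀ s : ZMod M × ZMod L → Bool, wG s * g (sL s)
        = ∑ y : B → Bool, g (ext B y) * (wG s * agB B (ext B y) (sL s)) := by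
      intro s
      have h3 := sum_agB B (fun y => g (ext B y)) (sL s)
      have h4 : g (ext B fun u : B => sL s u) = g (sL s) := by
        apply hg
        intro u hu
        rw [ext_mem B _ hu]
      rw [h4] at h3
      rw [← h3, Finset.mul_sum]
      refine Finset.sum_congr rfl fun y _ => ?_
      ring
    rw [Finset.sum_congr rfl (fun s _ => h2 s), Finset.sum_comm, Finset.sum_div]
    refine Finset.sum_congr rfl fun y _ => ?_
    rw [← Finset.mul_sum, mul_div_assoc]
  rw [hrep, Finset.mul_sum, ← Finset.sum_sub_distrib]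
  have h5 : ∀ y : B → Bool, |g (ext B y) *
        ((∑ s : ZMod M × ZMod L → Bool, wG s * agB B (ext B y) (sL s)) / Z)
        - (1 / 2 : ℝ) ^ B.card * g (ext B y)| ≤ ε / Q := by
    intro y
    have h6 := hL0 y M L (le_trans (Finset.le_sup (mem_univ y)) hL) hML
    rw [hone y, mul_one] at h6
    have h7 : g (ext B y) *
        ((∑ s : ZMod M × ZMod L → Bool, wG s * agB B (ext B y) (sL s)) / Z)
        - (1 / 2 : ℝ) ^ B.card * g (ext B y) = g (ext B y) *
        ((∑ s : ZMod M × ZMod L → Bool, wG s * agB B (ext B y) (sL s)) / Z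
          - (1 / 2 : ℝ) ^ B.card) := by ring
    rw [h7, abs_mul]
    calc _ ≤ 1 * (ε / Q) := mul_le_mul (hg1 _) h6 (abs_nonneg _) zero_le_one
      _ = ε / Q := one_mul _
  refine le_trans (Finset.abs_sum_le_sum_abs _ _) (le_trans (Finset.sum_le_sum fun y _ => h5 y) ?_)
  rw [Finset.sum_const, Finset.card_univ, nsmul_eq_mul, hcardQ]
  apply le_of_eq
  field_simp

theorem wt_half (B : Finset (ℤ × ℤ)) (y : B → Bool) :
    wt (fun _ : ℤ × ℤ => hf) B y = (1 / 2 : ℝ) ^ B.card := by
  unfold wt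
  have h : ∀ e : B, (Rs689.bern hf).real {y e} = 1 / 2 := by
    intro e
    cases y e
    · rw [bern_real_false]; show (1 : ℝ) - 1 / 2 = 1 / 2; norm_num
    · rw [bern_real_true]; rfl
  simp_rw [h]
  rw [Finset.prod_const, Finset.card_univ, Fintype.card_coe]

theorem integral_loc (B : Finset (ℤ × ℤ)) (g : (ℤ × ℤ → Bool) → ℝ)
    (hg : ∀ s s', (∀ u ∈ B, s u = s' u) → g s = g s') :
    ∫ s, g s ∂PU = (1 / 2 : ℝ) ^ B.card * ∑ y : B → Bool, g (ext B y) := by
  have h1 := integral_restrict (fun _ : ℤ × ℤ => hf) B (fun y => g (ext B y))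
  have h2 : ∀ z : ℤ × ℤ → Bool, g (ext B (B.restrict z)) = g z := by
    intro z
    apply hg
    intro u hu
    rw [ext_mem B _ hu]
    rfl
  simp_rw [h2] at h1
  unfold Bk430.PU
  rw [h1, Finset.mul_sum]
  simp_rw [wt_half]
  congr!

/-- **B3 of `Bk5_430`** -/
theorem B3_main : Bk430.B3 := by
  intro n ε hε
  obtain ⟨L0, hL0⟩ := B3u (Vx n) ε hε
  refine ⟨L0, fun L hL M hM _ _ _ _ F hF1 hF => ?_⟩
  have h := hL0 M (2 * L) (by omega) hM F hF1 hF
  rw [integral_loc (Vx n) F hF]
  have h2 : ∀ s : ZMod M × ZMod (2 * L) → Bool, F (lift s) * wG s = wG s * F (sL s) := by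
    intro s
    rw [mul_comm]
    rfl
  rw [Finset.sum_congr rfl (fun s _ => h2 s)]
  exact h

end Crest.Agent.R158.Tl405
end

-- ▼ part R158/Fi2_442
section

/-!
# R158, Block B (helper442), file 2: `Bk430.FinS`

* `finS : Bk430.FinS` : almost surely all the strands of a uniform splitting of the plane are finite
-/

set_option autoImplicit false

namespace Crest.Agent.R158.Fi442

open MeasureTheory Crest.Agent.R158.Rs689

/-- **all the strands are finite** -/
theorem finS : Bk430.FinS := by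
  have h := ae_strand
  unfold Bk430.FinS Bk430.PU
  filter_upwards [h] with s hs e
  exact exists_box (hs e)

end Crest.Agent.R158.Fi442
end

-- ▼ part R158/En1_510
section

/-!
# Row 158, block EN (helper510), part 1: signed measures with a density

* `nm v` : Euclidean norm on `ℝ × ℝ`, `euclidDist x y = nm (x - y)`
* `sd f` : the signed measure `f(x) dx`
* `vint_sd` : `∫ᵛ g d(sd f) = ∫ g f`
* `Pf f R C` : `f` measurable, `|f| ≤ C`, `f = 0` off the ball of radius `R`
* `En f g` : the double integral of the Green kernel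
* `fin_sd`, `carrier_sd`, `mass_sd`, `energy_sd`
-/

set_option autoImplicit false

noncomputable section

open MeasureTheory Filter Topology Set
open scoped ENNReal NNReal
open Crest.ProbabilityR.SixVertex

namespace Crest.Agent.R158.En510

/-- the plane -/
abbrev P2r : Type := ℝ × ℝ

/-- Euclidean norm -/
def nm (v : P2r) : ℝ := Real.sqrt (v.1 ^ 2 + v.2 ^ 2)

lemma euclidDist_eq (x y : P2r) : euclidDist x y = nm (x - y) := rfl

lemma nm_nonneg (v : P2r) : 0 ≤ nm v := Real.sqrt_nonneg _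

lemma nm_sq (v : P2r) : nm v ^ 2 = v.1 ^ 2 + v.2 ^ 2 := Real.sq_sqrt (by positivity)


lemma nm_neg (v : P2r) : nm (-v) = nm v := by simp [nm]

lemma nm_sub_comm (x y : P2r) : nm (x - y) = nm (y - x) := by
  rw [← nm_neg, neg_sub]

lemma nm_smul (t : ℝ) (v : P2r) : nm (t • v) = |t| * nm v := by
  have h : (t • v).1 ^ 2 + (t • v).2 ^ 2 = t ^ 2 * (v.1 ^ 2 + v.2 ^ 2) := by
    simp only [Prod.smul_fst, Prod.smul_snd, smul_eq_mul]; ring
  rw [nm, nm, h, Real.sqrt_mul (by positivity), Real.sqrt_sq_eq_abs]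

lemma abs_fst_le (v : P2r) : |v.1| ≤ nm v := by
  rw [← Real.sqrt_sq_eq_abs]
  exact Real.sqrt_le_sqrt (by nlinarith [sq_nonneg v.2])

lemma abs_snd_le (v : P2r) : |v.2| ≤ nm v := by
  rw [← Real.sqrt_sq_eq_abs]
  exact Real.sqrt_le_sqrt (by nlinarith [sq_nonneg v.1])

lemma nm_le_add (v : P2r) : nm v ≤ |v.1| + |v.2| := by
  rw [nm]
  refine Real.sqrt_le_iff.2 ⟨by positivity, ?_⟩
  have := mul_nonneg (abs_nonneg v.1) (abs_nonneg v.2)
  nlinarith [sq_abs v.1, sq_abs v.2]

lemma nm_add_le (u v : P2r) : nm (u + v) ≤ nm u + nm v := by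
  rw [nm]
  refine Real.sqrt_le_iff.2 ⟨add_nonneg (nm_nonneg _) (nm_nonneg _), ?_⟩
  have h1 := nm_sq u
  have h2 := nm_sq v
  have h3 : u.1 * v.1 + u.2 * v.2 ≤ nm u * nm v := by
    have h : (u.1 * v.1 + u.2 * v.2) ^ 2 ≤ (nm u * nm v) ^ 2 := by
      rw [mul_pow, h1, h2]; nlinarith [sq_nonneg (u.1 * v.2 - u.2 * v.1)]
    exact (le_abs_self _).trans (abs_le_of_sq_le_sq h (mul_nonneg (nm_nonneg _) (nm_nonneg _)))
  have h4 : (u + v).1 ^ 2 + (u + v).2 ^ 2 = nm u ^ 2 + nm v ^ 2 + 2 * (u.1 * v.1 + u.2 * v.2) := by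
    rw [h1, h2]; simp only [Prod.fst_add, Prod.snd_add]; ring
  rw [h4]; nlinarith


lemma nm_pos {v : P2r} (h : v ≠ 0) : 0 < nm v := by
  rcases (nm_nonneg v).lt_or_eq with h0 | h0
  · exact h0
  · exfalso
    apply h
    have h1 := nm_sq v
    rw [← h0] at h1
    have h2 : v.1 = 0 := by nlinarith [sq_nonneg v.1, sq_nonneg v.2]
    have h3 : v.2 = 0 := by nlinarith [sq_nonneg v.1, sq_nonneg v.2]
    exact Prod.ext h2 h3

lemma nm_sub_pos {x y : P2r} (h : x ≠ y) : 0 < nm (x - y) := nm_pos (sub_ne_zero.2 h)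

lemma continuous_nm : Continuous nm := by unfold nm; fun_prop


/-! ### the signed measure `f dx` -/

/-- the signed measure with density `f` -/
def sd (f : P2r → ℝ) : SignedMeasure P2r := (volume : Measure P2r).withDensityᵥ f

lemma variation_sd {f : P2r → ℝ} (hf : Integrable f) :
    (sd f).variation = (volume : Measure P2r).withDensity (fun x => ‖f x‖ₑ) :=
  Measure.variation_withDensityᵥ hf


/-- integral against `f dx` -/
theorem vint_sd {f g : P2r → ℝ} (hf : Integrable f) (hfm : Measurable f)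
    (h : Integrable (fun x => g x * f x)) : ∫ᵛ x, g x ∂<•(sd f) = ∫ x, g x * f x := by
  have hp := isFiniteMeasure_withDensity_ofReal hf.2
  have hn := isFiniteMeasure_withDensity_ofReal hf.neg.2
  have e := withDensityᵥ_eq_withDensity_pos_part_sub_withDensity_neg_part hf
  have mp : Measurable fun x => ENNReal.ofReal (f x) := hfm.ennreal_ofReal
  have mn : Measurable fun x => ENNReal.ofReal (-f x) := hfm.neg.ennreal_ofReal
  have tp : ∀ x, (ENNReal.ofReal (f x)).toReal = max (f x) 0 := fun x => ENNReal.toReal_ofReal' 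
  have tn : ∀ x, (ENNReal.ofReal (-f x)).toReal = max (-f x) 0 := fun x => ENNReal.toReal_ofReal'
  have ip : Integrable (fun x => max (f x) 0 * g x) := by
    have hs : Measurable fun x => if 0 ≤ f x then (1 : ℝ) else 0 :=
      Measurable.ite (measurableSet_le measurable_const hfm) measurable_const measurable_const
    refine (h.mul_bdd (c := 1) hs.aestronglyMeasurable (Eventually.of_forall fun x => by
      split_ifs <;> simp)).congr (Eventually.of_forall fun x => ?_)
    simp only
    split_ifs with h0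
    · rw [max_eq_left h0]; ring
    · rw [max_eq_right (not_le.1 h0).le]; ring
  have im : Integrable (fun x => max (-f x) 0 * g x) := by
    have hs : Measurable fun x => if 0 ≤ f x then (0 : ℝ) else -1 :=
      Measurable.ite (measurableSet_le measurable_const hfm) measurable_const measurable_const
    refine (h.mul_bdd (c := 1) hs.aestronglyMeasurable (Eventually.of_forall fun x => by
      split_ifs <;> simp)).congr (Eventually.of_forall fun x => ?_)
    simp only
    split_ifs with h0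
    · rw [max_eq_right (by linarith)]; ring
    · rw [max_eq_left (by linarith [not_le.1 h0])]; ring
  have gp : Integrable g (volume.withDensity fun x => ENNReal.ofReal (f x)) := by
    rw [integrable_withDensity_iff_integrable_smul' mp (Eventually.of_forall fun x =>
      ENNReal.ofReal_lt_top)]
    simpa only [tp, smul_eq_mul] using ip
  have gn : Integrable g (volume.withDensity fun x => ENNReal.ofReal (-f x)) := by
    rw [integrable_withDensity_iff_integrable_smul' mn (Eventually.of_forall fun x =>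
      ENNReal.ofReal_lt_top)]
    simpa only [tn, smul_eq_mul] using im
  rw [sd, e, VectorMeasure.integral_sub_vectorMeasure, VectorMeasure.integral_toSignedMeasure,
    VectorMeasure.integral_toSignedMeasure,
    integral_withDensity_eq_integral_toReal_smul mp (Eventually.of_forall fun x =>
      ENNReal.ofReal_lt_top),
    integral_withDensity_eq_integral_toReal_smul mn (Eventually.of_forall fun x =>
      ENNReal.ofReal_lt_top)]
  · simp only [tp, tn, smul_eq_mul]
    rw [← integral_sub ip im]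
    congr 1; funext x
    rcases le_total 0 (f x) with h0 | h0
    · rw [max_eq_left h0, max_eq_right (by linarith)]; ring
    · rw [max_eq_right h0, max_eq_left (by linarith)]; ring
  · simpa [VectorMeasure.Integrable, Measure.variation_toSignedMeasure] using gp
  · simpa [VectorMeasure.Integrable, Measure.variation_toSignedMeasure] using gn

/-! ### profiles -/

/-- bounded measurable function carried by the ball of radius `R` -/
structure Pf (f : P2r → ℝ) (R C : ℝ) : Prop where
  meas : Measurable f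
  bdd : ∀ x, |f x| ≤ C
  supp : ∀ x, R < nm x → f x = 0

lemma Pf.nonneg {f : P2r → ℝ} {R C : ℝ} (h : Pf f R C) : 0 ≤ C := (abs_nonneg _).trans (h.bdd 0)

/-- the square of half side `R` -/
def Sq (R : ℝ) : Set P2r := Icc (-R) R ×ˢ Icc (-R) R

lemma measurableSet_Sq (R : ℝ) : MeasurableSet (Sq R) := measurableSet_Icc.prod measurableSet_Icc

lemma isCompact_Sq (R : ℝ) : IsCompact (Sq R) := isCompact_Icc.prod isCompact_Icc

lemma mem_Sq_of_nm_le {R : ℝ} {x : P2r} (h : nm x ≤ R) : x ∈ Sq R := by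
  refine ⟨?_, ?_⟩
  · exact abs_le.1 ((abs_fst_le x).trans h)
  · exact abs_le.1 ((abs_snd_le x).trans h)

lemma Pf.zero_off {f : P2r → ℝ} {R C : ℝ} (h : Pf f R C) {x : P2r} (hx : x ∉ Sq R) : f x = 0 := by
  apply h.supp
  by_contra h2
  exact hx (mem_Sq_of_nm_le (not_lt.1 h2))

lemma volume_Sq_lt_top (R : ℝ) : volume (Sq R) < ⊤ := (isCompact_Sq R).measure_lt_top

lemma Pf.integrable {f : P2r → ℝ} {R C : ℝ} (h : Pf f R C) : Integrable f := by
  have : Integrable ((Sq R).indicator fun _ => C) :=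
    (integrable_indicator_iff (measurableSet_Sq R)).2
      (integrableOn_const (volume_Sq_lt_top R).ne)
  refine this.mono' h.meas.aestronglyMeasurable (Eventually.of_forall fun x => ?_)
  by_cases hx : x ∈ Sq R
  · rw [indicator_of_mem hx]; exact h.bdd x
  · rw [indicator_of_notMem hx, h.zero_off hx]; simp

/-- the Euclidean norm of the difference is measurable -/
lemma measurable_logDist : Measurable fun p : P2r × P2r => Real.log (nm (p.1 - p.2)) :=
  Real.measurable_log.comp (continuous_nm.measurable.comp (measurable_fst.sub measurable_snd))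

/-- pointwise bound of the logarithm by a one-dimensional one -/
lemma abs_log_nm_le {K : ℝ} (hK : 1 ≤ K) {v : P2r} (h1 : v.1 ≠ 0) (h : nm v ≤ K) :
    |Real.log (nm v)| ≤ |Real.log v.1| + Real.log K := by
  have hv : v ≠ 0 := fun h0 => h1 (by rw [h0]; rfl)
  have hp := nm_pos hv
  have h2 : Real.log |v.1| ≤ Real.log (nm v) :=
    Real.log_le_log (abs_pos.2 h1) (abs_fst_le v)
  rw [Real.log_abs] at h2
  have h3 : Real.log (nm v) ≤ Real.log K := Real.log_le_log hp h
  have h4 := Real.log_nonneg hK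
  rw [abs_le]
  constructor
  · linarith [neg_abs_le (Real.log v.1)]
  · linarith [abs_nonneg (Real.log v.1)]

/-! ### local integrability of the logarithm -/

/-- dominating function -/
def Wd (R K : ℝ) (v : P2r) : ℝ := (Sq R).indicator (fun v => |Real.log v.1| + Real.log K) v

lemma Wd_nonneg {R K : ℝ} (hK : 1 ≤ K) (v : P2r) : 0 ≤ Wd R K v := by
  unfold Wd
  by_cases h : v ∈ Sq R
  · rw [indicator_of_mem h]
    have := Real.log_nonneg hK
    positivity
  · rw [indicator_of_notMem h]

lemma integrable_Wd (R K : ℝ) : Integrable (Wd R K) := by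
  unfold Wd
  rw [integrable_indicator_iff (measurableSet_Sq R)]
  refine Integrable.add ?_ (integrableOn_const (volume_Sq_lt_top R).ne)
  have e : (volume : Measure P2r).restrict (Sq R) =
      ((volume : Measure ℝ).restrict (Icc (-R) R)).prod ((volume : Measure ℝ).restrict (Icc (-R) R)) := by
    rw [Measure.prod_restrict]; rfl
  rw [e]
  have hfin : IsFiniteMeasure ((volume : Measure ℝ).restrict (Icc (-R) R)) := by
    refine ⟨?_⟩
    rw [Measure.restrict_apply_univ]
    exact isCompact_Icc.measure_lt_top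
  have h1 : Integrable (fun t : ℝ => |Real.log t|) ((volume : Measure ℝ).restrict (Icc (-R) R)) := by
    rcases le_or_gt (-R) R with hR | hR
    · have h0 : IntervalIntegrable Real.log volume (-R) R := intervalIntegral.intervalIntegrable_log'
      rw [intervalIntegrable_iff_integrableOn_Icc_of_le hR] at h0
      exact h0.abs
    · rw [Icc_eq_empty (not_le.2 hR), Measure.restrict_empty]
      exact integrable_zero_measure
  exact h1.comp_fst ((volume : Measure ℝ).restrict (Icc (-R) R))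

lemma ae_fst_ne (a : ℝ) : ∀ᵐ v : P2r, v.1 ≠ a := by
  have h : ∀ᵐ t : ℝ, t ≠ a := by
    simp [ae_iff]
  exact (Measure.quasiMeasurePreserving_fst (μ := (volume : Measure ℝ))
    (ν := (volume : Measure ℝ))).ae h

lemma ae_sub_fst_ne (x : P2r) : ∀ᵐ y : P2r, (x - y).1 ≠ 0 := by
  filter_upwards [ae_fst_ne x.1] with y hy h
  apply hy
  have : (x - y).1 = x.1 - y.1 := rfl
  rw [this] at h
  linarith

lemma ae_pair_fst_ne : ∀ᵐ p : P2r × P2r, (p.1 - p.2).1 ≠ 0 := by
  have hm : MeasurableSet {p : P2r × P2r | (p.1 - p.2).1 ≠ 0} := by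
    have : Measurable fun p : P2r × P2r => (p.1 - p.2).1 :=
      measurable_fst.comp (measurable_fst.sub measurable_snd)
    exact this (measurableSet_singleton (0:ℝ)).compl
  have h := (Measure.ae_prod_iff_ae_ae (μ := (volume : Measure P2r)) (ν := (volume : Measure P2r))
    hm).2 (Eventually.of_forall fun x => ae_sub_fst_ne x)
  exact h

lemma ae_pair_ne : ∀ᵐ p : P2r × P2r, p.1 ≠ p.2 := by
  filter_upwards [ae_pair_fst_ne] with p hp h
  rw [h] at hp
  simp at hp

lemma greenKernel_eq (x y : P2r) :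
    greenKernel x y = -(2 * Real.pi)⁻¹ * Real.log (nm (x - y)) := rfl

lemma greenKernel_comm (x y : P2r) : greenKernel x y = greenKernel y x := by
  rw [greenKernel_eq, greenKernel_eq, nm_sub_comm]

lemma measurable_greenKernel : Measurable fun p : P2r × P2r => greenKernel p.1 p.2 :=
  measurable_logDist.const_mul _

lemma greenKernel_bound {R R' : ℝ} {x y : P2r} (hR : 0 ≤ R) (hR' : 0 ≤ R') (hx : nm x ≤ R)
    (hy : nm y ≤ R') (h : (x - y).1 ≠ 0) :
    |greenKernel x y| ≤ (2 * Real.pi)⁻¹ * Wd (R + R') (1 + R + R') (x - y) := by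
  rw [greenKernel_eq, abs_mul, abs_neg, abs_of_nonneg (by positivity)]
  refine mul_le_mul_of_nonneg_left ?_ (by positivity)
  have h1 : nm (x - y) ≤ R + R' := by
    have := nm_add_le x (-y)
    rw [nm_neg, ← sub_eq_add_neg] at this
    linarith
  have h2 := abs_log_nm_le (K := 1 + R + R') (by linarith) h (by linarith)
  rw [Wd, indicator_of_mem (mem_Sq_of_nm_le h1)]
  exact h2

/-- integrability in one variable -/
lemma integrable_green_right {g : P2r → ℝ} {R C : ℝ} (hg : Pf g R C) (x : P2r) :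
    Integrable fun y => greenKernel x y * g y := by
  set R' := max R 0 with hR'
  have hW : Integrable fun y => (2 * Real.pi)⁻¹ * Wd (nm x + R') (1 + nm x + R') (x - y) * C :=
    (((integrable_Wd _ _).comp_sub_left x).const_mul _).mul_const _
  refine hW.mono' ?_ ?_
  · exact ((measurable_greenKernel.comp (measurable_const.prodMk measurable_id)).mul
      hg.meas).aestronglyMeasurable
  · filter_upwards [ae_sub_fst_ne x] with y hy
    rw [Real.norm_eq_abs, abs_mul]
    rcases le_or_gt (nm y) R with h | h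
    · exact mul_le_mul (greenKernel_bound (nm_nonneg x) (le_max_right _ _) le_rfl
        (h.trans (le_max_left _ _)) hy) (hg.bdd y) (abs_nonneg _)
        (mul_nonneg (by positivity) (Wd_nonneg (by
          have := nm_nonneg x; have := le_max_right R 0; linarith) _))
    · rw [hg.supp y h, abs_zero, mul_zero]
      exact mul_nonneg (mul_nonneg (by positivity) (Wd_nonneg (by
          have := nm_nonneg x; have := le_max_right R 0; linarith) _)) hg.nonneg

/-- integrability of the kernel against a product of profiles -/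
lemma integrable_green {f g : P2r → ℝ} {R C R' C' : ℝ} (hf : Pf f R C) (hg : Pf g R' C') :
    Integrable fun p : P2r × P2r => greenKernel p.1 p.2 * (f p.1 * g p.2) := by
  set A := max R 0 with hA
  set B := max R' 0 with hB
  have hA0 : 0 ≤ A := le_max_right _ _
  have hB0 : 0 ≤ B := le_max_right _ _
  have h1 : Integrable ((Sq B).indicator fun _ : P2r => (1:ℝ)) :=
    (integrable_indicator_iff (measurableSet_Sq B)).2
      (integrableOn_const (volume_Sq_lt_top B).ne)
  have hc := MeasureTheory.Integrable.convolution_integrand (ContinuousLinearMap.mul ℝ ℝ) h1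
    (integrable_Wd (A + B) (1 + A + B))
  have hW : Integrable fun p : P2r × P2r =>
      ((2 * Real.pi)⁻¹ * (C * C')) * ((Sq B).indicator (fun _ => (1:ℝ)) p.2 *
        Wd (A + B) (1 + A + B) (p.1 - p.2)) := by
    exact Integrable.const_mul hc _
  refine hW.mono' ?_ ?_
  · exact (measurable_greenKernel.mul ((hf.meas.comp measurable_fst).mul
      (hg.meas.comp measurable_snd))).aestronglyMeasurable
  · filter_upwards [ae_pair_fst_ne] with p hp
    have hW0 := Wd_nonneg (R := A + B) (K := 1 + A + B) (by linarith) (p.1 - p.2)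
    have hi0 : 0 ≤ (Sq B).indicator (fun _ => (1:ℝ)) p.2 := indicator_nonneg (fun _ _ => zero_le_one) _
    have hC := hf.nonneg
    have hC' := hg.nonneg
    rw [Real.norm_eq_abs, abs_mul, abs_mul]
    rcases le_or_gt (nm p.1) R with h | h
    · rcases le_or_gt (nm p.2) R' with h' | h'
      · have hk := greenKernel_bound hA0 hB0 (h.trans (le_max_left _ _))
          (h'.trans (le_max_left _ _)) hp
        rw [indicator_of_mem (mem_Sq_of_nm_le (h'.trans (le_max_left _ _)))]
        calc |greenKernel p.1 p.2| * (|f p.1| * |g p.2|)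
            ≤ ((2 * Real.pi)⁻¹ * Wd (A + B) (1 + A + B) (p.1 - p.2)) * (C * C') :=
              mul_le_mul hk (mul_le_mul (hf.bdd _) (hg.bdd _) (abs_nonneg _) hC)
                (by positivity) (by positivity)
          _ = _ := by ring
      · rw [hg.supp _ h', abs_zero, mul_zero, mul_zero]
        positivity
    · rw [hf.supp _ h, abs_zero, zero_mul, mul_zero]
      positivity

/-! ### energy -/

/-- mutual energy -/
def En (f g : P2r → ℝ) : ℝ := ∫ p : P2r × P2r, greenKernel p.1 p.2 * (f p.1 * g p.2)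

lemma En_symm (f g : P2r → ℝ) : En f g = En g f := by
  have h := integral_prod_swap (μ := (volume : Measure P2r)) (ν := (volume : Measure P2r))
    (fun p : P2r × P2r => greenKernel p.1 p.2 * (f p.1 * g p.2))
  unfold En
  refine Eq.trans h.symm (integral_congr_ae (Eventually.of_forall fun p => ?_))
  simp only [Prod.swap]
  rw [greenKernel_comm, mul_comm (f _)]

theorem energy_sd {f : P2r → ℝ} {R C : ℝ} (hf : Pf f R C) : energy (sd f) = En f f := by
  have h1 : ∀ x, ∫ᵛ y, greenKernel x y ∂<•(sd f) = ∫ y, greenKernel x y * f y := fun x =>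
    vint_sd hf.integrable hf.meas (integrable_green_right hf x)
  have hi := integrable_green hf hf
  have e : ∀ x, (∫ y, greenKernel x y * f y) * f x = ∫ y, greenKernel x y * (f x * f y) := by
    intro x
    rw [← integral_mul_const]
    congr 1; funext y; ring
  have h2 : Integrable fun x => (∫ y, greenKernel x y * f y) * f x := by
    simp only [e]
    exact hi.integral_prod_left
  rw [energy]
  simp only [h1]
  rw [vint_sd hf.integrable hf.meas h2]
  simp only [e]
  rw [En]
  exact (integral_prod _ hi).symm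

theorem carrier_sd {f : P2r → ℝ} {R C : ℝ} (hf : Pf f R C) :
    ∃ K : Set P2r, IsCompact K ∧ (sd f).variation Kᶜ = 0 := by
  refine ⟨Sq R, isCompact_Sq R, ?_⟩
  rw [variation_sd hf.integrable, withDensity_apply _ (measurableSet_Sq R).compl]
  rw [setLIntegral_congr_fun (g := fun _ => 0) (measurableSet_Sq R).compl]
  · simp
  · intro x hx
    simp only [hf.zero_off hx, enorm_zero]

theorem mass_sd {f : P2r → ℝ} (hf : Integrable f) : sd f univ = ∫ x, f x := by
  rw [sd, withDensityᵥ_apply hf MeasurableSet.univ, setIntegral_univ]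

lemma sd_apply {f : P2r → ℝ} (hf : Integrable f) {s : Set P2r} (hs : MeasurableSet s) :
    sd f s = ∫ x in s, f x := withDensityᵥ_apply hf hs

theorem fin_sd {f : P2r → ℝ} {R C : ℝ} (hf : Pf f R C) : HasFiniteEnergy (sd f) := by
  have hi := (integrable_green hf hf).2
  have hfe : Measurable fun x => ‖f x‖ₑ := hf.meas.enorm
  rw [HasFiniteEnergy, variation_sd hf.integrable, prod_withDensity hfe hfe]
  have hmp : Measurable fun p : P2r × P2r => ‖f p.1‖ₑ * ‖f p.2‖ₑ :=
    (hfe.comp measurable_fst).mul (hfe.comp measurable_snd)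
  have hlog : Measurable fun p : P2r × P2r => logPlusInvDist p.1 p.2 := by
    have : (fun p : P2r × P2r => logPlusInvDist p.1 p.2) = fun p => if p.1 = p.2 then ⊤ else
      ENNReal.ofReal (-Real.log (nm (p.1 - p.2))) := rfl
    rw [this]
    exact Measurable.ite (measurableSet_eq_fun measurable_fst measurable_snd) measurable_const
      measurable_logDist.neg.ennreal_ofReal
  rw [lintegral_withDensity_eq_lintegral_mul _ hmp hlog]
  have key : ∫⁻ p : P2r × P2r, ((fun p : P2r × P2r => ‖f p.1‖ₑ * ‖f p.2‖ₑ) *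
      fun p : P2r × P2r => logPlusInvDist p.1 p.2) p
      ∂((volume : Measure P2r).prod volume) ≤
      ∫⁻ p : P2r × P2r, ENNReal.ofReal (2 * Real.pi) *
        ‖greenKernel p.1 p.2 * (f p.1 * f p.2)‖ₑ ∂((volume : Measure P2r).prod volume) := by
    refine lintegral_mono_ae ?_
    have hne : ∀ᵐ p : P2r × P2r ∂((volume : Measure P2r).prod volume), p.1 ≠ p.2 := ae_pair_ne
    filter_upwards [hne] with p hp
    simp only [Pi.mul_apply]
    rw [logPlusInvDist, if_neg hp, enorm_mul, enorm_mul, greenKernel_eq, euclidDist_eq, enorm_mul,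
      enorm_neg]
    have h2 : ENNReal.ofReal (2 * Real.pi) * ‖(2 * Real.pi)⁻¹‖ₑ = 1 := by
      rw [Real.enorm_eq_ofReal (by positivity), ← ENNReal.ofReal_mul (by positivity),
        mul_inv_cancel₀ (by positivity), ENNReal.ofReal_one]
    calc ‖f p.1‖ₑ * ‖f p.2‖ₑ * ENNReal.ofReal (-Real.log (nm (p.1 - p.2)))
        ≤ ‖f p.1‖ₑ * ‖f p.2‖ₑ * ‖Real.log (nm (p.1 - p.2))‖ₑ := by
          gcongr
          rw [Real.enorm_eq_ofReal_abs]
          exact ENNReal.ofReal_le_ofReal (neg_le_abs _)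
      _ = (ENNReal.ofReal (2 * Real.pi) * ‖(2 * Real.pi)⁻¹‖ₑ) *
          (‖Real.log (nm (p.1 - p.2))‖ₑ * (‖f p.1‖ₑ * ‖f p.2‖ₑ)) := by rw [h2, one_mul, mul_comm]
      _ = _ := by ring
  refine lt_of_le_of_lt key ?_
  rw [lintegral_const_mul' _ _ ENNReal.ofReal_ne_top]
  exact ENNReal.mul_lt_top ENNReal.ofReal_lt_top hi

end Crest.Agent.R158.En510
end
end

-- ▼ part R158/En2_510
section

/-!
# Row 158, block EN (helper510), part 2: bilinearity, scaling, far field
-/

set_option autoImplicit false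

noncomputable section

open MeasureTheory Filter Topology Set
open scoped ENNReal NNReal
open Crest.ProbabilityR.SixVertex

namespace Crest.Agent.R158.En510

/-! ### algebra of profiles -/

lemma Pf.mono {f : P2r → ℝ} {R C R' C' : ℝ} (h : Pf f R C) (hR : R ≤ R') (hC : C ≤ C') :
    Pf f R' C' :=
  ⟨h.meas, fun x => (h.bdd x).trans hC, fun x hx => h.supp x (hR.trans_lt hx)⟩

lemma Pf.zero {R : ℝ} : Pf (fun _ => 0) R 0 :=
  ⟨measurable_const, fun _ => by simp, fun _ _ => rfl⟩

lemma Pf.add {f g : P2r → ℝ} {R C R' C' : ℝ} (hf : Pf f R C) (hg : Pf g R' C') :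
    Pf (fun x => f x + g x) (max R R') (C + C') :=
  ⟨hf.meas.add hg.meas, fun x => (abs_add_le _ _).trans (add_le_add (hf.bdd x) (hg.bdd x)),
    fun x hx => by rw [hf.supp x ((le_max_left _ _).trans_lt hx),
      hg.supp x ((le_max_right _ _).trans_lt hx), add_zero]⟩

lemma Pf.const_mul {f : P2r → ℝ} {R C : ℝ} (hf : Pf f R C) (a : ℝ) :
    Pf (fun x => a * f x) R (|a| * C) :=
  ⟨hf.meas.const_mul a, fun x => by rw [abs_mul]; exact mul_le_mul_of_nonneg_left (hf.bdd x) (abs_nonneg a),
    fun x hx => by rw [hf.supp x hx, mul_zero]⟩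

lemma Pf.sum {ι : Type*} (s : Finset ι) {f : ι → P2r → ℝ} {R : ι → ℝ} {C : ι → ℝ} {R0 : ℝ}
    (hR : ∀ i ∈ s, R i ≤ R0) (hf : ∀ i ∈ s, Pf (f i) (R i) (C i)) :
    Pf (fun x => ∑ i ∈ s, f i x) R0 (∑ i ∈ s, C i) := by
  refine ⟨Finset.measurable_sum _ fun i hi => (hf i hi).meas, fun x => ?_, fun x hx => ?_⟩
  · exact (Finset.abs_sum_le_sum_abs _ _).trans (Finset.sum_le_sum fun i hi => (hf i hi).bdd x)
  · exact Finset.sum_eq_zero fun i hi => (hf i hi).supp x ((hR i hi).trans_lt hx)

lemma Pf.abs {f : P2r → ℝ} {R C : ℝ} (hf : Pf f R C) : Pf (fun x => |f x|) R C :=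
  ⟨hf.meas.abs, fun x => by rw [abs_abs]; exact hf.bdd x, fun x hx => by rw [hf.supp x hx, abs_zero]⟩


lemma En_const_mul_left (f h : P2r → ℝ) (a : ℝ) : En (fun x => a * f x) h = a * En f h := by
  unfold En
  rw [← integral_const_mul]
  congr 1; funext p; ring

lemma En_const_mul_right (f h : P2r → ℝ) (a : ℝ) : En f (fun x => a * h x) = a * En f h := by
  rw [En_symm, En_const_mul_left, En_symm]

lemma En_sum_left {ι : Type*} (s : Finset ι) {f : ι → P2r → ℝ} {R : ι → ℝ} {C : ι → ℝ}
    {h : P2r → ℝ} {R' C' : ℝ} (hf : ∀ i ∈ s, Pf (f i) (R i) (C i)) (hh : Pf h R' C') :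
    En (fun x => ∑ i ∈ s, f i x) h = ∑ i ∈ s, En (f i) h := by
  unfold En
  rw [← integral_finsetSum s fun i hi => integrable_green (hf i hi) hh]
  congr 1; funext p
  rw [Finset.sum_mul, Finset.mul_sum]

lemma En_sum_right {ι : Type*} (s : Finset ι) {f : ι → P2r → ℝ} {R : ι → ℝ} {C : ι → ℝ}
    {h : P2r → ℝ} {R' C' : ℝ} (hf : ∀ i ∈ s, Pf (f i) (R i) (C i)) (hh : Pf h R' C') :
    En h (fun x => ∑ i ∈ s, f i x) = ∑ i ∈ s, En h (f i) := by
  rw [En_symm, En_sum_left s hf hh]
  exact Finset.sum_congr rfl fun i _ => En_symm _ _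

/-! ### rescaling -/

/-- the profile `f` moved to `x` and shrunk by `r` -/
def pr (f : P2r → ℝ) (x : P2r) (r : ℝ) (y : P2r) : ℝ := (r⁻¹ ^ 2) * f (r⁻¹ • (y - x))

lemma measurable_scl (x : P2r) (r : ℝ) : Measurable fun y : P2r => r⁻¹ • (y - x) :=
  (measurable_id.sub_const x).const_smul r⁻¹

lemma pr_eq_zero {f : P2r → ℝ} {R C : ℝ} (hf : Pf f R C) {x : P2r} {r : ℝ} (hr : 0 < r) {y : P2r}
    (h : r * R < nm (y - x)) : pr f x r y = 0 := by
  unfold pr
  rw [hf.supp, mul_zero]
  rw [nm_smul, abs_of_pos (inv_pos.2 hr), ← div_eq_inv_mul, lt_div_iff₀ hr]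
  linarith

lemma Pf.pr {f : P2r → ℝ} {R C : ℝ} (hf : Pf f R C) (x : P2r) {r : ℝ} (hr : 0 < r) :
    Pf (pr f x r) (nm x + r * R) (r⁻¹ ^ 2 * C) := by
  refine ⟨(hf.meas.comp (measurable_scl x r)).const_mul _, fun y => ?_, fun y hy => ?_⟩
  · unfold En510.pr
    rw [abs_mul, abs_of_nonneg (by positivity)]
    exact mul_le_mul_of_nonneg_left (hf.bdd _) (by positivity)
  · apply pr_eq_zero hf hr
    have h1 := nm_add_le (y - x) x
    rw [sub_add_cancel] at h1
    linarith




instance instHaar4 : Measure.IsAddHaarMeasure (volume : Measure (P2r × P2r)) :=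
  Measure.prod.instIsAddHaarMeasure _ _

lemma finrank_P4 : Module.finrank ℝ (P2r × P2r) = 4 := by simp

lemma greenKernel_scale {r : ℝ} (hr : 0 < r) (x : P2r) {u v : P2r} (h : u ≠ v) :
    greenKernel u v = greenKernel (r⁻¹ • (u - x)) (r⁻¹ • (v - x)) - (2 * Real.pi)⁻¹ * Real.log r := by
  rw [greenKernel_eq, greenKernel_eq]
  have e : r⁻¹ • (u - x) - r⁻¹ • (v - x) = r⁻¹ • (u - v) := by
    rw [← smul_sub]; congr 1; abel
  rw [e, nm_smul, abs_of_pos (inv_pos.2 hr), Real.log_mul (inv_pos.2 hr).ne' (nm_sub_pos h).ne',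
    Real.log_inv]
  ring

/-- **scaling of the mutual energy** -/
theorem En_pr {f g : P2r → ℝ} {R C R' C' : ℝ} (hf : Pf f R C) (hg : Pf g R' C') (x : P2r) {r : ℝ}
    (hr : 0 < r) :
    En (pr f x r) (pr g x r) = En f g - (2 * Real.pi)⁻¹ * ((∫ y, f y) * ∫ y, g y) * Real.log r := by
  set H : P2r × P2r → ℝ := fun q => greenKernel q.1 q.2 * (f q.1 * g q.2) -
    (2 * Real.pi)⁻¹ * Real.log r * (f q.1 * g q.2) with hH
  have h1 : En (pr f x r) (pr g x r) =
      ∫ p : P2r × P2r, (r⁻¹ ^ 4) * H (r⁻¹ • (p - (x, x))) := by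
    unfold En
    refine integral_congr_ae ?_
    filter_upwards [ae_pair_ne] with p hp
    rw [greenKernel_scale hr x hp]
    simp only [hH, pr, Prod.smul_fst, Prod.smul_snd, Prod.fst_sub, Prod.snd_sub]
    ring
  rw [h1, integral_const_mul, integral_sub_right_eq_self (fun y : P2r × P2r => H (r⁻¹ • y)) (x, x),
    Measure.integral_comp_inv_smul_of_nonneg volume H hr.le, finrank_P4, smul_eq_mul, ← mul_assoc,
    ← mul_pow, inv_mul_cancel₀ hr.ne', one_pow, one_mul]
  have i1 := integrable_green hf hg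
  have i2 : Integrable fun q : P2r × P2r => f q.1 * g q.2 := hf.integrable.mul_prod hg.integrable
  rw [hH, integral_sub i1 (i2.const_mul _), integral_const_mul]
  have h3 : ∫ q : P2r × P2r, f q.1 * g q.2 = (∫ y, f y) * ∫ y, g y := integral_prod_mul f g
  rw [h3, En]
  ring


end Crest.Agent.R158.En510
end
end

-- ▼ part R158/En3_510
section

/-!
# Row 158, block EN (helper510), part 3: concentric squares

* `Uq s` : uniform density of the square `[-s, s)²`
* `En_Uq` : `|En (Uq s) (Uq s') + (2π)⁻¹ log (max s s')| ≤ C`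
* `fq a s` : the density `∑ i, a i • Uq (s i)`, `i < 3`
* `energy_fq` : energy of the concentric charges
-/

set_option autoImplicit false

noncomputable section

open MeasureTheory Filter Topology Set
open scoped ENNReal NNReal
open Crest.ProbabilityR.SixVertex

namespace Crest.Agent.R158.En510

/-- the half open square -/
def Hq (s : ℝ) : Set P2r := Ico (-s) s ×ˢ Ico (-s) s

lemma measurableSet_Hq (s : ℝ) : MeasurableSet (Hq s) := measurableSet_Ico.prod measurableSet_Ico

/-- uniform density of the square `[-s, s)²` -/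
def Uq (s : ℝ) : P2r → ℝ := (Hq s).indicator fun _ => (4 * s ^ 2)⁻¹

lemma Uq_nonneg (s : ℝ) (x : P2r) : 0 ≤ Uq s x := indicator_nonneg (fun _ _ => by positivity) _

lemma pf_Uq {s S : ℝ} (hS : s ≤ S) : Pf (Uq s) (2 * S) (4 * s ^ 2)⁻¹ := by
  refine ⟨measurable_const.indicator (measurableSet_Hq s), fun x => ?_, fun x hx => ?_⟩
  · unfold Uq
    by_cases h : x ∈ Hq s
    · rw [indicator_of_mem h, abs_of_nonneg (by positivity)]
    · rw [indicator_of_notMem h, abs_zero]; positivity
  · unfold Uq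
    rw [indicator_of_notMem]
    intro h
    obtain ⟨⟨h1, h2⟩, ⟨h3, h4⟩⟩ := h
    have a1 : |x.1| ≤ s := abs_le.2 ⟨h1, h2.le⟩
    have a2 : |x.2| ≤ s := abs_le.2 ⟨h3, h4.le⟩
    have := nm_le_add x
    linarith

lemma volume_Hq {s : ℝ} (hs : 0 ≤ s) : (volume : Measure P2r).real (Hq s) = 4 * s ^ 2 := by
  have h : (volume : Measure P2r) (Hq s) = ENNReal.ofReal (2 * s) * ENNReal.ofReal (2 * s) := by
    rw [Hq, Measure.volume_eq_prod, Measure.prod_prod, Real.volume_Ico]
    congr 2 <;> ring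
  rw [Measure.real, h, ENNReal.toReal_mul, ENNReal.toReal_ofReal (by positivity)]
  ring

lemma integral_Uq {s : ℝ} (hs : 0 < s) : ∫ x, Uq s x = 1 := by
  unfold Uq
  rw [integral_indicator (measurableSet_Hq s), setIntegral_const, volume_Hq hs.le, smul_eq_mul]
  field_simp

lemma integral_abs_Uq {s : ℝ} (hs : 0 < s) : ∫ x, |Uq s x| = 1 := by
  simp only [abs_of_nonneg (Uq_nonneg s _)]
  exact integral_Uq hs

lemma Uq_scale {s t : ℝ} (ht : 0 < t) : Uq (t * s) = pr (Uq s) 0 t := by
  funext x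
  unfold pr Uq
  have hiff : x ∈ Hq (t * s) ↔ t⁻¹ • (x - 0) ∈ Hq s := by
    rw [sub_zero]
    simp only [Hq, mem_prod, mem_Ico, Prod.smul_fst, Prod.smul_snd, smul_eq_mul]
    have e1 : ∀ a : ℝ, (-(t * s) ≤ a ↔ -s ≤ t⁻¹ * a) := fun a => by
      rw [← div_eq_inv_mul, le_div_iff₀ ht]; constructor <;> intro h <;> linarith
    have e2 : ∀ a : ℝ, (a < t * s ↔ t⁻¹ * a < s) := fun a => by
      rw [← div_eq_inv_mul, div_lt_iff₀ ht]; constructor <;> intro h <;> linarith
    rw [e1, e2, e1, e2]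
  by_cases h : x ∈ Hq (t * s)
  · rw [indicator_of_mem h, indicator_of_mem (hiff.1 h)]
    rw [mul_pow, inv_pow, ← mul_inv]
    congr 1; ring
  · rw [indicator_of_notMem h, indicator_of_notMem (fun h' => h (hiff.2 h')), mul_zero]

/-- crude bound of the mutual energy -/
theorem En_abs_le {f g : P2r → ℝ} {R C R' C' : ℝ} (hf : Pf f R C) (hg : Pf g R' C') (hR : 0 ≤ R)
    (hR' : 0 ≤ R') : |En f g| ≤ (∫ x, |f x|) * (C' * ((2 * Real.pi)⁻¹ *
      ∫ v, Wd (R + R') (1 + R + R') v)) := by
  have hC' := hg.nonneg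
  have hi := integrable_green hf hg
  have e : En f g = ∫ x, f x * ∫ y, greenKernel x y * g y := by
    rw [En]
    have h1 := integral_prod (μ := (volume : Measure P2r)) (ν := (volume : Measure P2r))
      (fun p : P2r × P2r => greenKernel p.1 p.2 * (f p.1 * g p.2)) hi
    refine Eq.trans h1 ?_
    congr 1; funext x
    rw [← integral_const_mul]
    congr 1; funext y; ring
  have hb : ∀ x, nm x ≤ R → |∫ y, greenKernel x y * g y| ≤ C' * ((2 * Real.pi)⁻¹ *
      ∫ v, Wd (R + R') (1 + R + R') v) := by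
    intro x hx
    have hW : Integrable fun y => C' * ((2 * Real.pi)⁻¹ * Wd (R + R') (1 + R + R') (x - y)) :=
      (((integrable_Wd _ _).comp_sub_left x).const_mul _).const_mul _
    have h1 := norm_integral_le_of_norm_le (f := fun y => greenKernel x y * g y) hW (by
      filter_upwards [ae_sub_fst_ne x] with y hy
      rw [Real.norm_eq_abs, abs_mul]
      have hW0 := Wd_nonneg (R := R + R') (K := 1 + R + R') (by linarith) (x - y)
      rcases le_or_gt (nm y) R' with h | h
      · rw [mul_comm C']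
        exact mul_le_mul (greenKernel_bound hR hR' hx h hy) (hg.bdd y) (abs_nonneg _)
          (by positivity)
      · rw [hg.supp y h, abs_zero, mul_zero]
        positivity)
    rw [integral_const_mul, integral_const_mul, integral_sub_left_eq_self
      (fun y => Wd (R + R') (1 + R + R') y)] at h1
    rw [← Real.norm_eq_abs]
    exact h1
  rw [e, ← Real.norm_eq_abs]
  have hI : Integrable fun x => |f x| * (C' * ((2 * Real.pi)⁻¹ *
      ∫ v, Wd (R + R') (1 + R + R') v)) := hf.integrable.abs.mul_const _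
  refine (norm_integral_le_of_norm_le hI (Eventually.of_forall fun x => ?_)).trans
    (le_of_eq (integral_mul_const _ _))
  rw [Real.norm_eq_abs, abs_mul]
  rcases le_or_gt (nm x) R with h | h
  · exact mul_le_mul_of_nonneg_left (hb x h) (abs_nonneg _)
  · rw [hf.supp x h]; simp

/-- constant of the concentric squares -/
def cq : ℝ := (1 / 4) * ((2 * Real.pi)⁻¹ * ∫ v, Wd (2 + 2) (1 + 2 + 2) v)

lemma cq_nonneg : 0 ≤ cq := by
  unfold cq
  have : 0 ≤ ∫ v, Wd (2 + 2) (1 + 2 + 2) v :=
    integral_nonneg fun v => Wd_nonneg (by norm_num) v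
  positivity

lemma En_Uq_one {t : ℝ} (ht : 0 < t) (ht1 : t ≤ 1) : |En (Uq t) (Uq 1)| ≤ cq := by
  have h1 : Pf (Uq t) 2 (4 * t ^ 2)⁻¹ := by simpa using pf_Uq ht1
  have h2 : Pf (Uq 1) 2 (1 / 4) := by
    have := pf_Uq (le_refl (1:ℝ))
    norm_num at this
    simpa using this
  have h := En_abs_le h1 h2 (by norm_num) (by norm_num)
  rw [integral_abs_Uq ht, one_mul] at h
  exact h

/-- **mutual energy of concentric squares** -/
theorem En_Uq {s s' : ℝ} (hs : 0 < s) (hs' : 0 < s') :
    |En (Uq s) (Uq s') + (2 * Real.pi)⁻¹ * Real.log (max s s')| ≤ cq := by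
  have main : ∀ {s s' : ℝ}, 0 < s → s ≤ s' →
      |En (Uq s) (Uq s') + (2 * Real.pi)⁻¹ * Real.log s'| ≤ cq := by
    intro s s' hs hss
    have hs' : 0 < s' := hs.trans_le hss
    have e1 : Uq s = pr (Uq (s / s')) 0 s' := by
      rw [← Uq_scale hs']; congr 1; field_simp
    have e2 : Uq s' = pr (Uq 1) 0 s' := by
      rw [← Uq_scale hs', mul_one]
    have ht : 0 < s / s' := div_pos hs hs'
    have ht1 : s / s' ≤ 1 := (div_le_one hs').2 hss
    rw [e1, e2, En_pr (pf_Uq ht1) (pf_Uq (le_refl (1:ℝ))) 0 hs', integral_Uq ht,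
      integral_Uq one_pos]
    have := En_Uq_one ht ht1
    have e3 : En (Uq (s / s')) (Uq 1) - (2 * Real.pi)⁻¹ * (1 * 1) * Real.log s' +
        (2 * Real.pi)⁻¹ * Real.log s' = En (Uq (s / s')) (Uq 1) := by ring
    rw [e3]
    exact this
  rcases le_total s s' with h | h
  · rw [max_eq_right h]; exact main hs h
  · rw [max_eq_left h, En_symm]; exact main hs' h

/-! ### three concentric charges -/















end Crest.Agent.R158.En510
end
end

-- ▼ part R158/En4_510
section

/-!
# Row 158, block EN (helper510), part 4: literal cell masses of the concentric charges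

* `cellS δ p q` : the points of the plane read at the face `(p, q)` at mesh `δ`
* `uq R p q` : the uniform law of the discrete square `[-R, R)²`
* `muq_cell` : `muq a K L (cellS r⁻¹ p q) = ∑ i, a i * uq (rz r K L i) p q`
-/

set_option autoImplicit false

noncomputable section

open MeasureTheory Filter Topology Set
open scoped ENNReal NNReal
open Crest.ProbabilityR.SixVertex

namespace Crest.Agent.R158.En510

/-- the points read at the face `(p, q)` -/
def cellS (δ : ℝ) (p q : ℤ) : Set P2r := {x | ⌊x.1 / δ⌋ = p ∧ ⌊x.2 / δ⌋ = q}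

/-- uniform law of the discrete square `[-R, R)²` -/
def uq (R : ℕ) (p q : ℤ) : ℝ :=
  if (-(R : ℤ) ≤ p ∧ p < R) ∧ (-(R : ℤ) ≤ q ∧ q < R) then (4 * (R : ℝ) ^ 2)⁻¹ else 0



lemma mem_floor_iff {r : ℕ} (hr : 1 ≤ r) (t : ℝ) (p : ℤ) :
    ⌊t / (r : ℝ)⁻¹⌋ = p ↔ (p : ℝ) / r ≤ t ∧ t < ((p : ℝ) + 1) / r := by
  have hr0 : (0 : ℝ) < r := by exact_mod_cast hr
  rw [div_inv_eq_mul, Int.floor_eq_iff, div_le_iff₀ hr0, lt_div_iff₀ hr0]

lemma cellS_eq {r : ℕ} (hr : 1 ≤ r) (p q : ℤ) : cellS (r : ℝ)⁻¹ p q =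
    Ico ((p : ℝ) / r) (((p : ℝ) + 1) / r) ×ˢ Ico ((q : ℝ) / r) (((q : ℝ) + 1) / r) := by
  ext x
  simp only [cellS, Set.mem_ofPred_eq, mem_prod, mem_Ico, mem_floor_iff hr]

lemma measurableSet_cellS {δ : ℝ} (p q : ℤ) : MeasurableSet (cellS δ p q) := by
  have h1 : Measurable fun x : P2r => ⌊x.1 / δ⌋ := Int.measurable_floor.comp (measurable_fst.div_const δ)
  have h2 : Measurable fun x : P2r => ⌊x.2 / δ⌋ := Int.measurable_floor.comp (measurable_snd.div_const δ)
  exact (h1 (measurableSet_singleton p)).inter (h2 (measurableSet_singleton q))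

lemma volume_cellS {r : ℕ} (hr : 1 ≤ r) (p q : ℤ) :
    (volume : Measure P2r).real (cellS (r : ℝ)⁻¹ p q) = ((r : ℝ) ^ 2)⁻¹ := by
  have hr0 : (0 : ℝ) < r := by exact_mod_cast hr
  have h : (volume : Measure P2r) (cellS (r : ℝ)⁻¹ p q) =
      ENNReal.ofReal ((r : ℝ)⁻¹) * ENNReal.ofReal ((r : ℝ)⁻¹) := by
    rw [cellS_eq hr, Measure.volume_eq_prod, Measure.prod_prod, Real.volume_Ico, Real.volume_Ico]
    congr 2 <;> · field_simp; ring
  rw [Measure.real, h, ENNReal.toReal_mul, ENNReal.toReal_ofReal (by positivity)]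
  field_simp

/-- one coordinate: a lattice cell is inside or outside `[-R/r, R/r)` -/
lemma cell_coord {r : ℕ} (hr : 1 ≤ r) (R : ℕ) {p : ℤ} {t : ℝ} (h : (p : ℝ) / r ≤ t)
    (h' : t < ((p : ℝ) + 1) / r) : (-((R : ℝ) / r) ≤ t ∧ t < (R : ℝ) / r) ↔
      (-(R : ℤ) ≤ p ∧ p < (R : ℤ)) := by
  have hr0 : (0 : ℝ) < r := by exact_mod_cast hr
  rw [div_le_iff₀ hr0] at h
  rw [lt_div_iff₀ hr0] at h'
  rw [← neg_div, div_le_iff₀ hr0, lt_div_iff₀ hr0]
  constructor
  · rintro ⟨h1, h2⟩
    constructor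
    · have h3 : (-(R : ℝ)) < (p : ℝ) + 1 := by linarith
      have h4 : (-(R : ℤ)) < p + 1 := by exact_mod_cast h3
      omega
    · have h3 : (p : ℝ) < (R : ℝ) := by linarith
      exact_mod_cast h3
  · rintro ⟨h1, h2⟩
    have h1' : (-(R : ℝ)) ≤ (p : ℝ) := by exact_mod_cast h1
    have h2' : (p : ℝ) + 1 ≤ (R : ℝ) := by exact_mod_cast h2
    constructor <;> linarith

lemma cell_inside {r : ℕ} (hr : 1 ≤ r) (R : ℕ) {p q : ℤ} {x : P2r}
    (hx : x ∈ cellS (r : ℝ)⁻¹ p q) : x ∈ Hq ((R : ℝ) / r) ↔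
      ((-(R : ℤ) ≤ p ∧ p < R) ∧ (-(R : ℤ) ≤ q ∧ q < R)) := by
  rw [cellS_eq hr] at hx
  obtain ⟨⟨h1, h2⟩, ⟨h3, h4⟩⟩ := hx
  have a := cell_coord hr R h1 h2
  have b := cell_coord hr R h3 h4
  simp only [Hq, mem_prod, mem_Ico]
  rw [a, b]

lemma setIntegral_Uq_cell {r : ℕ} (hr : 1 ≤ r) {R : ℕ} (hR : 1 ≤ R) (p q : ℤ) :
    ∫ x in cellS (r : ℝ)⁻¹ p q, Uq ((R : ℝ) / r) x = uq R p q := by
  have hr0 : (0 : ℝ) < r := by exact_mod_cast hr
  have hR0 : (0 : ℝ) < R := by exact_mod_cast hR
  by_cases h : (-(R : ℤ) ≤ p ∧ p < R) ∧ (-(R : ℤ) ≤ q ∧ q < R)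
  · have e : ∀ x ∈ cellS (r : ℝ)⁻¹ p q, Uq ((R : ℝ) / r) x = (4 * ((R : ℝ) / r) ^ 2)⁻¹ := by
      intro x hx
      unfold Uq
      rw [indicator_of_mem ((cell_inside hr R hx).2 h)]
    rw [setIntegral_congr_fun (measurableSet_cellS p q) e, setIntegral_const, volume_cellS hr,
      smul_eq_mul, uq, if_pos h]
    field_simp
  · have e : ∀ x ∈ cellS (r : ℝ)⁻¹ p q, Uq ((R : ℝ) / r) x = 0 := by
      intro x hx
      unfold Uq
      rw [indicator_of_notMem (fun h' => h ((cell_inside hr R hx).1 h'))]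
    rw [setIntegral_congr_fun (measurableSet_cellS p q) e, uq, if_neg h]
    simp



end Crest.Agent.R158.En510
end
end

-- ▼ part R158/En5_510
section

/-!
# Row 158, block EN (helper510), part 5: the identity (STAR) for concentric squares

* `sqc R : ℤ × ℤ →₀ ℝ` : the uniform law of the discrete square `[-R, R)²`
* `chg_muq` : the lattice charge of `muq a K L` at mesh `1/r` is `∑ i, a i • sqc (rz r K L i)`
* `star` : limit of the percolation functional, with two sided bounds of its logarithm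
-/

set_option autoImplicit false

noncomputable section

open MeasureTheory Filter Topology Set
open scoped ENNReal NNReal
open Crest.ProbabilityR.SixVertex

namespace Crest.Agent.R158.En510

open Crest.Agent.R158.Bs410 (CC chg chg_apply mass StarLat Law3 plane_char)

/-- the uniform law of the discrete square as a finitely supported charge -/
def sqc (R : ℕ) : ℤ × ℤ →₀ ℝ :=
  Finsupp.onFinset (Finset.Ico (-(R : ℤ)) R ×ˢ Finset.Ico (-(R : ℤ)) R)
    (fun p => uq R p.1 p.2) (by
      intro p hp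
      unfold uq at hp
      split_ifs at hp with h
      · simp only [Finset.mem_product, Finset.mem_Ico]; exact h
      · exact absurd rfl hp)

lemma sqc_apply (R : ℕ) (p : ℤ × ℤ) : sqc R p = uq R p.1 p.2 := rfl





end Crest.Agent.R158.En510
end
end

-- ▼ part R158/En6_510
section

/-!
# Row 158, block EN (helper510), part 6: finite families of concentric squares

* `fg a s` : the density `∑ i, a i • Uq (s i)`, `mug a s` the signed measure
* `energy_mug`, `quad_nonpos`
* `star_fam` : (STAR) for a finite family of concentric squares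
-/

set_option autoImplicit false

noncomputable section

open MeasureTheory Filter Topology Set
open scoped ENNReal NNReal
open Crest.ProbabilityR.SixVertex

namespace Crest.Agent.R158.En510

open Crest.Agent.R158.Bs410 (CC chg chg_apply mass StarLat Law3 plane_char)

variable {ι : Type*} [Fintype ι]

/-- density of a finite family of concentric charges -/
def fg (a s : ι → ℝ) (x : P2r) : ℝ := ∑ i, a i * Uq (s i) x

lemma le_sum_abs (s : ι → ℝ) (i : ι) : s i ≤ ∑ j, |s j| :=
  (le_abs_self _).trans (Finset.single_le_sum (f := fun j => |s j|) (fun _ _ => abs_nonneg _)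
      (Finset.mem_univ i))

lemma pf_fg (a s : ι → ℝ) :
    Pf (fg a s) (2 * ∑ j, |s j|) (∑ i, |a i| * (4 * s i ^ 2)⁻¹) :=
  Pf.sum Finset.univ (fun _ _ => le_rfl) fun i _ => (pf_Uq (le_sum_abs s i)).const_mul (a i)

lemma integral_fg (a : ι → ℝ) {s : ι → ℝ} (hs : ∀ i, 0 < s i) :
    ∫ x, fg a s x = ∑ i, a i := by
  unfold fg
  rw [integral_finsetSum]
  · refine Finset.sum_congr rfl fun i _ => ?_
    rw [integral_const_mul, integral_Uq (hs i), mul_one]
  · exact fun i _ => ((pf_Uq (le_refl (s i))).integrable).const_mul _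

lemma En_fg (a s : ι → ℝ) :
    En (fg a s) (fg a s) = ∑ i, ∑ j, a i * a j * En (Uq (s i)) (Uq (s j)) := by
  have h1 := En_sum_left Finset.univ (f := fun i x => a i * Uq (s i) x)
    (fun i _ => (pf_Uq (le_sum_abs s i)).const_mul (a i)) (pf_fg a s)
  have h2 : ∀ i, En (fun x => a i * Uq (s i) x) (fg a s) =
      ∑ j, a i * a j * En (Uq (s i)) (Uq (s j)) := by
    intro i
    rw [En_const_mul_left]
    have h3 := En_sum_right Finset.univ (f := fun j x => a j * Uq (s j) x)
      (fun j _ => (pf_Uq (le_sum_abs s j)).const_mul (a j)) (pf_Uq (le_sum_abs s i))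
    have h4 : En (Uq (s i)) (fg a s) = ∑ j, a j * En (Uq (s i)) (Uq (s j)) := by
      refine Eq.trans h3 (Finset.sum_congr rfl fun j _ => En_const_mul_right _ _ _)
    rw [h4, Finset.mul_sum]
    exact Finset.sum_congr rfl fun j _ => by ring
  exact h1.trans (Finset.sum_congr rfl fun i _ => h2 i)

/-- the logarithmic quadratic form of the sizes -/
def quad (a s : ι → ℝ) : ℝ := ∑ i, ∑ j, a i * a j * Real.log (max (s i) (s j))

lemma En_fg_quad (a : ι → ℝ) {s : ι → ℝ} (hs : ∀ i, 0 < s i) :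
    |En (fg a s) (fg a s) + (2 * Real.pi)⁻¹ * quad a s| ≤ cq * (∑ i, |a i|) ^ 2 := by
  rw [En_fg, quad, Finset.mul_sum, ← Finset.sum_add_distrib]
  have e2 : ∀ i, (∑ j, a i * a j * En (Uq (s i)) (Uq (s j))) +
      (2 * Real.pi)⁻¹ * ∑ j, a i * a j * Real.log (max (s i) (s j)) =
      ∑ j, a i * a j * (En (Uq (s i)) (Uq (s j)) +
        (2 * Real.pi)⁻¹ * Real.log (max (s i) (s j))) := by
    intro i
    rw [Finset.mul_sum, ← Finset.sum_add_distrib]
    exact Finset.sum_congr rfl fun j _ => by ring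
  simp only [e2]
  calc |∑ i, ∑ j, a i * a j * (En (Uq (s i)) (Uq (s j)) +
        (2 * Real.pi)⁻¹ * Real.log (max (s i) (s j)))|
      ≤ ∑ i, ∑ j, |a i| * |a j| * cq := by
        refine (Finset.abs_sum_le_sum_abs _ _).trans (Finset.sum_le_sum fun i _ => ?_)
        refine (Finset.abs_sum_le_sum_abs _ _).trans (Finset.sum_le_sum fun j _ => ?_)
        rw [abs_mul, abs_mul]
        exact mul_le_mul_of_nonneg_left (En_Uq (hs i) (hs j)) (by positivity)
    _ = cq * (∑ i, |a i|) ^ 2 := by
        rw [pow_two, Finset.sum_mul_sum, Finset.mul_sum]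
        refine Finset.sum_congr rfl fun i _ => ?_
        rw [Finset.mul_sum]
        exact Finset.sum_congr rfl fun j _ => by ring

/-- the logarithmic form is nonpositive on neutral charges -/
lemma quad_nonpos {a : ι → ℝ} (ha : ∑ i, a i = 0) {s : ι → ℝ} (hs : ∀ i, 1 ≤ s i) :
    quad a s ≤ 0 := by
  set S : ℝ := ∑ j, |s j| + 1 with hS
  have hsS : ∀ i, s i ≤ S := fun i => (le_sum_abs s i).trans (by rw [hS]; linarith)
  have hS1 : 1 ≤ S := by
    rw [hS]; have : 0 ≤ ∑ j, |s j| := Finset.sum_nonneg fun j _ => abs_nonneg _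
    linarith
  -- `log S - log (max s s') = ∫ t in 1..S, 1[s ≤ t] 1[s' ≤ t] / t`
  set H : ι → ℝ → ℝ := fun i t => if s i ≤ t then 1 else 0 with hH
  have hHm : ∀ i, Measurable (H i) := fun i =>
    Measurable.ite measurableSet_Ici measurable_const measurable_const
  have hI : ∀ i j, IntegrableOn (fun t => H i t * H j t * t⁻¹) (Ioc 1 S) := by
    intro i j
    refine Measure.integrableOn_of_bounded (M := 1) (measure_Ioc_lt_top).ne
      (((hHm i).mul (hHm j)).mul measurable_inv).aestronglyMeasurable ?_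
    filter_upwards [ae_restrict_mem measurableSet_Ioc] with t ht
    have ht0 : 0 < t := one_pos.trans ht.1
    have h1 : t⁻¹ ≤ 1 := inv_le_one_of_one_le₀ ht.1.le
    have h2 : 0 ≤ t⁻¹ := (inv_pos.2 ht0).le
    rw [Real.norm_eq_abs, abs_mul, abs_of_nonneg h2]
    have h3 : |H i t * H j t| ≤ 1 := by
      simp only [hH]; split_ifs <;> simp
    calc |H i t * H j t| * t⁻¹ ≤ 1 * 1 := mul_le_mul h3 h1 h2 zero_le_one
      _ = 1 := one_mul 1
  have key : ∀ i j, ∫ t in Ioc 1 S, H i t * H j t * t⁻¹ =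
      Real.log S - Real.log (max (s i) (s j)) := by
    intro i j
    set m := max (s i) (s j) with hm
    have hm1 : 1 ≤ m := (hs i).trans (le_max_left _ _)
    have hmS : m ≤ S := max_le (hsS i) (hsS j)
    have hm0 : 0 < m := one_pos.trans_le hm1
    have e1 : ∀ t, H i t * H j t = if m ≤ t then 1 else 0 := by
      intro t
      simp only [hH]
      by_cases h1 : s i ≤ t
      · by_cases h2 : s j ≤ t
        · rw [if_pos h1, if_pos h2, if_pos (max_le h1 h2), mul_one]
        · rw [if_neg h2, if_neg (fun h => h2 ((le_max_right _ _).trans h)), mul_zero]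
      · rw [if_neg h1, if_neg (fun h => h1 ((le_max_left _ _).trans h)), zero_mul]
    simp only [e1]
    rw [← intervalIntegral.integral_of_le hS1,
      ← intervalIntegral.integral_add_adjacent_intervals (b := m)]
    · have a1 : ∫ t in (1:ℝ)..m, (if m ≤ t then (1:ℝ) else 0) * t⁻¹ = 0 := by
        rw [intervalIntegral.integral_of_le hm1, integral_Ioc_eq_integral_Ioo]
        rw [setIntegral_congr_fun (g := fun _ => (0:ℝ)) measurableSet_Ioo]
        · simp
        · intro t ht
          simp only [if_neg (not_le.2 ht.2), zero_mul]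
      have a2 : ∫ t in m..S, (if m ≤ t then (1:ℝ) else 0) * t⁻¹ = ∫ t in m..S, t⁻¹ := by
        refine intervalIntegral.integral_congr fun t ht => ?_
        rw [uIcc_of_le hmS] at ht
        simp only [if_pos ht.1, one_mul]
      rw [a1, a2, zero_add, integral_inv_of_pos hm0 (hm0.trans_le hmS), Real.log_div
        (hm0.trans_le hmS).ne' hm0.ne']
    · rw [intervalIntegrable_iff_integrableOn_Ioc_of_le hm1]
      have := (hI i j).mono_set (Ioc_subset_Ioc_right hmS)
      simpa only [e1] using this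
    · rw [intervalIntegrable_iff_integrableOn_Ioc_of_le hmS]
      have := (hI i j).mono_set (Ioc_subset_Ioc_left hm1)
      simpa only [e1] using this
  have e3 : quad a s = - ∫ t in Ioc 1 S, (∑ i, a i * H i t) ^ 2 * t⁻¹ := by
    have b1 : ∀ t, (∑ i, a i * H i t) ^ 2 * t⁻¹ =
        ∑ i, ∑ j, a i * a j * (H i t * H j t * t⁻¹) := by
      intro t
      rw [pow_two, Finset.sum_mul_sum, Finset.sum_mul]
      refine Finset.sum_congr rfl fun i _ => ?_
      rw [Finset.sum_mul]
      exact Finset.sum_congr rfl fun j _ => by ring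
    simp only [b1]
    rw [integral_finsetSum _ fun i _ => integrable_finsetSum _ fun j _ => (hI i j).const_mul _]
    have b2 : ∀ i, ∫ t in Ioc 1 S, ∑ j, a i * a j * (H i t * H j t * t⁻¹) =
        ∑ j, a i * a j * (Real.log S - Real.log (max (s i) (s j))) := by
      intro i
      rw [integral_finsetSum _ fun j _ => (hI i j).const_mul _]
      exact Finset.sum_congr rfl fun j _ => by rw [integral_const_mul, key]
    simp only [b2]
    have b3 : ∑ i, ∑ j, a i * a j * (Real.log S - Real.log (max (s i) (s j))) =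
        (∑ i, a i) * (∑ j, a j) * Real.log S - quad a s := by
      rw [quad, Finset.sum_mul_sum, Finset.sum_mul, ← Finset.sum_sub_distrib]
      refine Finset.sum_congr rfl fun i _ => ?_
      rw [Finset.sum_mul, ← Finset.sum_sub_distrib]
      exact Finset.sum_congr rfl fun j _ => by ring
    rw [b3, ha]
    ring
  rw [e3, neg_nonpos]
  refine setIntegral_nonneg measurableSet_Ioc fun t ht => ?_
  have ht0 : 0 < t := one_pos.trans ht.1
  positivity

/-- the literal signed measure of a family of concentric charges -/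
def mug (a s : ι → ℝ) : SignedMeasure P2r := sd (fg a s)

theorem carrier_mug (a s : ι → ℝ) :
    ∃ Z : Set P2r, IsCompact Z ∧ (mug a s).variation Zᶜ = 0 := carrier_sd (pf_fg a s)

theorem mass_mug {a : ι → ℝ} (ha : ∑ i, a i = 0) {s : ι → ℝ} (hs : ∀ i, 0 < s i) :
    mug a s univ = 0 := by
  rw [mug, mass_sd (pf_fg a s).integrable, integral_fg a hs, ha]

theorem fin_mug (a s : ι → ℝ) : HasFiniteEnergy (mug a s) := fin_sd (pf_fg a s)

theorem energy_mug (a : ι → ℝ) {s : ι → ℝ} (hs : ∀ i, 0 < s i) :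
    |energy (mug a s) + (2 * Real.pi)⁻¹ * quad a s| ≤ cq * (∑ i, |a i|) ^ 2 := by
  rw [mug, energy_sd (pf_fg a s)]
  exact En_fg_quad a hs

/-- the lattice charge of a family of concentric squares -/
def chf (a : ι → ℝ) (s : ι → ℕ) (r : ℕ) : ℤ × ℤ →₀ ℝ := ∑ i, a i • sqc (s i * r)

lemma chf_apply (a : ι → ℝ) (s : ι → ℕ) (r : ℕ) (p : ℤ × ℤ) :
    chf a s r p = ∑ i, a i * uq (s i * r) p.1 p.2 := by
  simp [chf, Finsupp.finsetSum_apply, sqc_apply]

theorem mug_cell (a : ι → ℝ) {s : ι → ℕ} (hs : ∀ i, 1 ≤ s i) {r : ℕ} (hr : 1 ≤ r) (p q : ℤ) :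
    mug a (fun i => (s i : ℝ)) (cellS (r : ℝ)⁻¹ p q) = ∑ i, a i * uq (s i * r) p q := by
  have hr0 : (r : ℝ) ≠ 0 := by positivity
  rw [mug, sd_apply (pf_fg a _).integrable (measurableSet_cellS p q)]
  unfold fg
  rw [integral_finsetSum]
  · refine Finset.sum_congr rfl fun i _ => ?_
    have e : ((s i : ℕ) : ℝ) = ((s i * r : ℕ) : ℝ) / r := by
      push_cast; field_simp
    rw [integral_const_mul]
    simp only
    rw [e, setIntegral_Uq_cell hr (Nat.mul_pos (hs i) hr)]
  · exact fun i _ => (((pf_Uq (le_refl ((s i : ℕ) : ℝ))).integrable).const_mul _).integrableOn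

theorem chg_mug (a : ι → ℝ) {s : ι → ℕ} (hs : ∀ i, 1 ≤ s i) {r : ℕ} (hr : 1 ≤ r) :
    chg (mug a (fun i => (s i : ℝ))) (r : ℝ)⁻¹ = chf a s r := by
  ext p
  rw [chg_apply (carrier_mug a _), chf_apply]
  exact mug_cell a hs hr p.1 p.2


end Crest.Agent.R158.En510
end
end

-- ▼ part R158/Bk10_430

/-!
# R158, Block B (helper430), file 10: the bridge, unconditional

* `starE_main : Bs410.StarE Pi6`
* `even_main : Vx107.Even`
* `pull m6` : six-vertex charge in percolation coordinates, `W6 m6 := ∫ z, W (pull m6) z`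
* `char_W` : plane characteristic function in percolation coordinates
* `star_W` : (STAR) for concentric squares in percolation coordinates
-/

set_option autoImplicit false

noncomputable section

namespace Crest.Agent.R158.Bk430

open Finset MeasureTheory Filter Topology
open Crest.ProbabilityR.SixVertex
open Crest.Agent.R158.It200 (Cfz)
open Crest.Agent.R158.Wf850 (Face)
open Crest.Agent.R158.Rs689 (PB nu hf)
open Crest.Agent.R158.Vx107 (Ntr tot mass Fw W)
open Crest.Agent.R158.Bs410 (StarE CC chg chg_apply chg_sum Law3 plane_charE)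
open Crest.Agent.R158.En510 (chf mug carrier_mug mass_mug fin_mug energy_mug quad quad_nonpos
  chg_mug)

/-- **the lattice identity** -/
theorem starE_main : StarE Pi6 := starE Tl405.T1_main Tl405.B3_main Fi442.finS

/-- **the plane functional in percolation coordinates** -/
theorem Pi6_main {m : Face →₀ ℝ} (hm : Ntr m) : Pi6 (m.mapDomain fm) = ∫ z, W m z ∂(nu hf) :=
  Pi6_W Fi442.finS hm

/-- **evenness** -/
theorem even_main : Vx107.Even := by
  intro m hm
  unfold Vx107.Pi0
  rw [← Pi6_main hm, ← Pi6_main hm.neg]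
  have h : (-m).mapDomain fm = -(m.mapDomain fm) := map_neg (Finsupp.mapDomain.addMonoidHom fm) m
  rw [h, even_of_starE starE_main (ntr_m6 hm)]

/-- six-vertex charge in percolation coordinates -/
def pull (m : ℤ × ℤ →₀ ℝ) : Face →₀ ℝ := m.mapDomain fmE.symm

@[simp] theorem pull_apply (m : ℤ × ℤ →₀ ℝ) (f : Face) : pull m f = m (fm f) := by
  unfold pull
  rw [← fmE_apply]
  conv_lhs => rw [show f = fmE.symm (fmE f) from (fmE.symm_apply_apply f).symm]
  exact Finsupp.mapDomain_apply fmE.symm.injective m (fmE f)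

theorem pull_push (m : ℤ × ℤ →₀ ℝ) : (pull m).mapDomain fm = m := by
  unfold pull
  rw [← Finsupp.mapDomain_comp]
  have : fm ∘ fmE.symm = id := by
    funext v
    exact fmE.apply_symm_apply v
  rw [this, Finsupp.mapDomain_id]

theorem pull_ntr {m : ℤ × ℤ →₀ ℝ} (hm : m.sum (fun _ a => a) = 0) : Ntr (pull m) := by
  unfold Ntr tot pull
  rw [Finsupp.sum_mapDomain_index (fun _ => rfl) (fun _ _ _ => rfl)]
  exact hm

theorem Pi6_pull {m : ℤ × ℤ →₀ ℝ} (hm : m.sum (fun _ a => a) = 0) :
    Pi6 m = ∫ z, W (pull m) z ∂(nu hf) := by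
  rw [← Pi6_main (pull_ntr hm), pull_push]

/-- **the plane characteristic function in percolation coordinates** -/
theorem char_W (hLaw : Law3) {μ : SignedMeasure (ℝ × ℝ)} (hμ : CC μ) (h0 : μ Set.univ = 0)
    (hE : HasFiniteEnergy μ) :
    Tendsto (fun δ => ∫ z, W (pull (chg μ δ)) z ∂(nu hf)) (𝓝[>] 0)
      (𝓝 (Real.exp (-(3 / (2 * Real.pi)) * max (energy μ) 0))) := by
  refine (plane_charE hLaw starE_main hμ h0 hE).congr fun δ => ?_
  exact Pi6_pull (by rw [chg_sum hμ, h0])

section Fam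

variable {ι : Type*} [Fintype ι]


/-- **(STAR)** for a finite family of concentric squares, percolation coordinates -/
theorem star_W (hLaw : Law3) (a : ι → ℝ)
    (ha : ∑ i, a i = 0) {s : ι → ℕ} (hs : ∀ i, 1 ≤ s i) : ∃ Lam : ℝ, 0 < Lam ∧
      |Real.log Lam - 3 / (4 * Real.pi ^ 2) *
        ∑ i, ∑ j, a i * a j * Real.log (max (s i : ℝ) (s j))| ≤
        3 / (2 * Real.pi) * En510.cq * (∑ i, |a i|) ^ 2 ∧
      Tendsto (fun r : ℕ => ∫ z, W (pull (chf a s r)) z ∂(nu hf)) atTop (𝓝 Lam) := by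
  have hpi := Real.pi_pos
  have hs1 : ∀ i, (1 : ℝ) ≤ (s i : ℝ) := fun i => by exact_mod_cast hs i
  have hs0 : ∀ i, (0 : ℝ) < (s i : ℝ) := fun i => one_pos.trans_le (hs1 i)
  refine ⟨Real.exp (-(3 / (2 * Real.pi)) * max (energy (mug a fun i => (s i : ℝ))) 0),
    Real.exp_pos _, ?_, ?_⟩
  · rw [Real.log_exp]
    have h1 := energy_mug a hs0
    have hq := quad_nonpos ha hs1
    have e0 : (∑ i, ∑ j, a i * a j * Real.log (max (s i : ℝ) (s j))) =
        quad a (fun i => (s i : ℝ)) := rfl
    rw [e0]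
    set E := energy (mug a fun i => (s i : ℝ)) with hE
    set Q := quad a (fun i => (s i : ℝ)) with hQ
    have e1 : -(3 / (2 * Real.pi)) * max E 0 - 3 / (4 * Real.pi ^ 2) * Q =
        -(3 / (2 * Real.pi) * (max E 0 + (2 * Real.pi)⁻¹ * Q)) := by
      field_simp; ring
    rw [e1, abs_neg, abs_mul, abs_of_nonneg (by positivity : (0:ℝ) ≤ 3 / (2 * Real.pi)), mul_assoc]
    refine mul_le_mul_of_nonneg_left ?_ (by positivity)
    have hq2 : (2 * Real.pi)⁻¹ * Q ≤ 0 := mul_nonpos_of_nonneg_of_nonpos (by positivity) hq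
    refine le_trans ?_ h1
    rcases le_total 0 E with h | h
    · rw [max_eq_left h]
    · rw [max_eq_right h, zero_add, abs_of_nonpos hq2, abs_of_nonpos (by linarith)]
      linarith
  · have h2 := char_W hLaw (carrier_mug a fun i => (s i : ℝ)) (mass_mug ha hs0) (fin_mug a _)
    have h3 : Tendsto (fun r : ℕ => ((r : ℝ))⁻¹) atTop (𝓝[>] 0) :=
      tendsto_inv_atTop_nhdsGT_zero.comp tendsto_natCast_atTop_atTop
    refine (h2.comp h3).congr' ?_
    filter_upwards [eventually_ge_atTop 1] with r hr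
    rw [Function.comp_apply, chg_mug a hs hr]

end Fam

end Crest.Agent.R158.Bk430
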