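import Crest.Agent.R158.Wf0_850
import Crest.Agent.R158.Rs5_689
import Crest.Agent.R158.Cn1_109

/-!
# Row 158, BLOCK W (helper850), part 1: diameters, supports of loop events, translations

* `dia A`, `sd_le_dia`, `card_le_dia`, `sub_of_dia`
* `bdE_sub` (inside a box), `bdE_off` (loops around a box do not see the inner edges)
* `NN x r R z` : number of loops around `BF x r` inside `BF x R`; `NN_dep`
* `lps_shift` : translation covariance; `prob_shift`
* `mA u A = ∑ f ∈ A, u f`; `Sm`, `Qm`, `VV`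
-/

set_option autoImplicit false

noncomputable section

namespace Crest.Agent.R158.Wf850

open MeasureTheory
open Crest.Agent.R161.Geo729 Crest.Agent.R161.Dual374 Crest.Agent.R161.Tas682
open Crest.Agent.R161.Ring421 (shiftZ)
open Crest.Agent.R158.Rs689 (Dep PB nu tInv hf)
open Crest.Agent.R158.It200 hiding hf
open Crest.Agent.R158.Fr158 (bx mem_bx mem_bx_sd eIn mem_eIn)
open Crest.Agent.R158.Cn109 (DepF)

/-- sup diameter of a finite set of faces (base points) -/
def dia (A : Finset Face) : ℕ := (A ×ˢ A).sup fun p => (sd p.1.1 p.2.1).toNat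

theorem sd_nonneg' (x y : P2) : 0 ≤ sd x y := le_max_of_le_left (abs_nonneg _)

theorem sd_symm' (x y : P2) : sd x y = sd y x := by
  unfold sd; rw [abs_sub_comm, abs_sub_comm y.2]

theorem sd_tri (x y w : P2) : sd x w ≤ sd x y + sd y w := by
  unfold sd
  have h1 : |w.1 - x.1| ≤ |y.1 - x.1| + |w.1 - y.1| := by
    have := abs_add_le (y.1 - x.1) (w.1 - y.1)
    rw [show y.1 - x.1 + (w.1 - y.1) = w.1 - x.1 by ring] at this
    exact this
  have h2 : |w.2 - x.2| ≤ |y.2 - x.2| + |w.2 - y.2| := by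
    have := abs_add_le (y.2 - x.2) (w.2 - y.2)
    rw [show y.2 - x.2 + (w.2 - y.2) = w.2 - x.2 by ring] at this
    exact this
  have a1 := le_max_left |y.1 - x.1| |y.2 - x.2|
  have a2 := le_max_right |y.1 - x.1| |y.2 - x.2|
  have b1 := le_max_left |w.1 - y.1| |w.2 - y.2|
  have b2 := le_max_right |w.1 - y.1| |w.2 - y.2|
  exact max_le (by linarith) (by linarith)

theorem sd_le_dia {A : Finset Face} {f g : Face} (hf : f ∈ A) (hg : g ∈ A) :
    sd f.1 g.1 ≤ dia A := by
  have h0 : (f, g) ∈ A ×ˢ A := Finset.mem_product.2 ⟨hf, hg⟩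
  have h1 : (sd f.1 g.1).toNat ≤ dia A := by
    generalize hn : dia A = n
    have h2 : dia A ≤ n := hn.le
    unfold dia at h2
    rw [Finset.sup_le_iff] at h2
    exact h2 (f, g) h0
  have h2 := Int.self_le_toNat (sd f.1 g.1)
  have h3 : ((sd f.1 g.1).toNat : ℤ) ≤ dia A := by exact_mod_cast h1
  linarith

theorem dia_le {A : Finset Face} {n : ℕ} (h : ∀ f ∈ A, ∀ g ∈ A, sd f.1 g.1 ≤ n) : dia A ≤ n := by
  refine Finset.sup_le ?_
  rintro ⟨f, g⟩ hfg
  rw [Finset.mem_product] at hfg
  have := h f hfg.1 g hfg.2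
  show (sd f.1 g.1).toNat ≤ n
  omega

theorem sub_of_dia {A : Finset Face} {x : P2} {f : Face} {n m : ℤ} (hf : f ∈ A)
    (hfx : sd x f.1 ≤ n) (h : n + dia A ≤ m) : A ⊆ BF x m := by
  intro g hg
  rw [mem_BF]
  have h1 := sd_le_dia hf hg
  have h2 := sd_tri x f.1 g.1
  linarith

theorem card_bx (x : P2) (n : ℕ) : (bx x n).card = (2 * n + 1) ^ 2 := by
  unfold bx
  rw [Finset.card_product, Int.card_Icc, Int.card_Icc]
  have h1 : x.1 + (n : ℤ) + 1 - (x.1 - n) = ((2 * n + 1 : ℕ) : ℤ) := by push_cast; ring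
  have h2 : x.2 + (n : ℤ) + 1 - (x.2 - n) = ((2 * n + 1 : ℕ) : ℤ) := by push_cast; ring
  rw [h1, h2, Int.toNat_natCast]
  ring

theorem card_BF (x : P2) (n : ℕ) : (BF x n).card = 2 * (2 * n + 1) ^ 2 := by
  unfold BF
  rw [Finset.card_product, card_bx]
  simp
  ring


theorem sd_self (x : P2) : sd x x = 0 := by unfold sd; simp

/-! ### supports -/

theorem ah_ends' (d : Corner) : (src (ah d) = d.1 ∧ sd d.1 (tgt (ah d)) ≤ 1) ∨
    (tgt (ah d) = d.1 ∧ sd d.1 (src (ah d)) ≤ 1) := by
  obtain ⟨⟨a, b⟩, q⟩ := d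
  fin_cases q <;> simp [ah, src, tgt, sd]

/-- the edges of a loop inside a box are inside a slightly larger box -/
theorem bdE_sub {A : Finset Face} {x : P2} {n : ℤ} (h : A ⊆ BF x n) :
    bdE A ⊆ eIn (bx x (n + 2)) := by
  intro e he
  obtain ⟨d, hd, rfl⟩ := mem_bdE.1 he
  have h1 : sd x d.1 ≤ n + 1 := by
    by_cases hv : cv d ∈ A
    · have := h hv
      rw [mem_BF] at this
      have : sd x d.1 ≤ n := this
      linarith
    · have hf : cf d ∈ A := by
        by_contra hf
        exact hd ⟨fun h' => absurd h' hv, fun h' => absurd h' hf⟩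
      have := h hf
      rw [mem_BF] at this
      have : sd x (fc d) ≤ n := this
      have := (sd_corner x d).1
      linarith
  rw [mem_eIn, mem_bx_sd, mem_bx_sd]
  rcases ah_ends' d with ⟨h2, h3⟩ | ⟨h2, h3⟩
  · rw [h2]
    have := sd_tri x d.1 (tgt (ah d))
    constructor <;> linarith
  · rw [h2]
    have := sd_tri x d.1 (src (ah d))
    constructor <;> linarith

/-- a loop around a box does not see the edges inside the box -/
theorem bdE_off {A : Finset Face} {x : P2} {n : ℤ} (h : BF x n ⊆ A) {e : Edge} (he : e ∈ bdE A) :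
    e ∉ eIn (bx x (n - 1)) := by
  obtain ⟨d, hd, rfl⟩ := mem_bdE.1 he
  have h1 : n ≤ sd x d.1 := by
    by_contra hcon
    push Not at hcon
    have h2 : cv d ∈ A := h (mem_BF.2 (by show sd x d.1 ≤ n; linarith))
    have h3 : cf d ∈ A := h (mem_BF.2 (by
      show sd x (fc d) ≤ n
      have := (sd_corner x d).2
      omega))
    exact hd ⟨fun _ => h3, fun _ => h2⟩
  rw [mem_eIn, mem_bx_sd, mem_bx_sd]
  rintro ⟨h2, h3⟩
  rcases ah_ends' d with ⟨h4, _⟩ | ⟨h4, _⟩
  · rw [h4] at h2; linarith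
  · rw [h4] at h3; linarith

open Classical in
/-- number of loops around `BF x r` contained in `BF x R` -/
def NN (x : P2) (r R : ℤ) (z : Cfz) : ℕ :=
  ((BF x R).powerset.filter fun A => BF x r ⊆ A ∧ A ∈ Lps z).card

/-- the edges seen by `NN x r R` -/
def annF (x : P2) (r R : ℤ) : Finset Edge := eIn (bx x (R + 2)) \ eIn (bx x (r - 1))

theorem NN_dep (x : P2) (r R : ℤ) : DepF (annF x r R) (NN x r R) := by
  classical
  intro z z' h
  unfold NN
  congr 1
  refine Finset.filter_congr fun A hA => ?_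
  rw [Finset.mem_powerset] at hA
  refine and_congr_right fun hr => ?_
  refine loc A z z' fun e he => h e ?_
  unfold annF
  rw [Finset.mem_sdiff]
  exact ⟨bdE_sub hA he, bdE_off hr he⟩

theorem annF_disj {x : P2} {r R r' R' : ℤ} (h : R + 3 ≤ r') : Disjoint (annF x r R) (annF x r' R') := by
  unfold annF
  rw [Finset.disjoint_left]
  intro e he he'
  rw [Finset.mem_sdiff] at he he'
  refine he'.2 ?_
  have h1 := he.1
  rw [mem_eIn, mem_bx_sd, mem_bx_sd] at h1 ⊢
  constructor
  · linarith [h1.1]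
  · linarith [h1.2]

theorem NN_zero_iff {x : P2} {r R : ℤ} {z : Cfz} :
    NN x r R z = 0 ↔ ∀ A ∈ Lps z, BF x r ⊆ A → ¬ A ⊆ BF x R := by
  classical
  unfold NN
  rw [Finset.card_eq_zero, Finset.filter_eq_empty_iff]
  constructor
  · intro h A hA hr hR
    exact h (Finset.mem_powerset.2 hR) ⟨hr, hA⟩
  · intro h A hA hcon
    exact h A hcon.2 hcon.1 (Finset.mem_powerset.1 hA)

/-- splitting an annulus -/
theorem NN_super {x : P2} {r R r' R' s S : ℤ} (h1 : s ≤ r) (h2 : R ≤ S) (h3 : s ≤ r') (h4 : R' ≤ S)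
    (h5 : R < r') (h0 : 0 ≤ R) (z : Cfz) : NN x r R z + NN x r' R' z ≤ NN x s S z := by
  classical
  unfold NN
  rw [← Finset.card_union_of_disjoint]
  · refine Finset.card_le_card ?_
    intro A hA
    rw [Finset.mem_union, Finset.mem_filter, Finset.mem_filter, Finset.mem_powerset,
      Finset.mem_powerset] at hA
    rw [Finset.mem_filter, Finset.mem_powerset]
    rcases hA with ⟨a, b, c⟩ | ⟨a, b, c⟩
    · exact ⟨a.trans (BF_mono h2), (BF_mono h1).trans b, c⟩
    · exact ⟨a.trans (BF_mono h4), (BF_mono h3).trans b, c⟩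
  · rw [Finset.disjoint_left]
    intro A hA hA'
    rw [Finset.mem_filter, Finset.mem_powerset] at hA hA'
    have h6 : ((x.1 + r', x.2), false) ∈ BF x r' := by
      rw [mem_BF]
      unfold sd
      simp only [add_sub_cancel_left, sub_self, abs_zero]
      refine max_le ?_ (by linarith)
      rw [abs_of_nonneg (by linarith)]
    have h7 := hA.1 (hA'.2.1 h6)
    rw [mem_BF] at h7
    unfold sd at h7
    simp only [add_sub_cancel_left, sub_self, abs_zero] at h7
    have := (le_max_left |r'| 0).trans h7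
    rw [abs_of_nonneg (by linarith)] at this
    linarith

/-! ### translations -/

/-- translation of corners -/
def shC (a : P2) (d : Corner) : Corner := (d.1 + a, d.2)

theorem nx_shift (a : P2) (z : Cfz) (d : Corner) :
    nx z (shC a d) = shC a (nx (shiftZ a z) d) := by
  obtain ⟨⟨x, y⟩, q⟩ := d
  obtain ⟨a1, a2⟩ := a
  have e1 : ah (shC (a1, a2) ((x, y), q)) = ((ah ((x, y), q)).1 + (a1, a2), (ah ((x, y), q)).2) := by
    fin_cases q <;> simp [shC, ah] <;> ring
  unfold nx
  rw [e1]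
  have e2 : shiftZ (a1, a2) z (ah ((x, y), q))
      = z ((ah ((x, y), q)).1 + (a1, a2), (ah ((x, y), q)).2) := rfl
  rw [e2]
  split_ifs
  · fin_cases q <;> simp [shC, nxo, wa, rl] <;> ring
  · fin_cases q <;> simp [shC, nxc, rr]

theorem shC_inj (a : P2) : Function.Injective (shC a) := by
  rintro ⟨v, q⟩ ⟨v', q'⟩ h
  unfold shC at h
  rw [Prod.mk.injEq] at h ⊢
  exact ⟨add_right_cancel h.1, h.2⟩

theorem shC_surj (a : P2) : Function.Surjective (shC a) := fun d =>
  ⟨(d.1 - a, d.2), by unfold shC; simp⟩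

theorem pv_shift (a : P2) (z : Cfz) (d : Corner) :
    pv z (shC a d) = shC a (pv (shiftZ a z) d) := by
  have h := nx_shift a z (pv (shiftZ a z) d)
  rw [nx_pv] at h
  rw [← h, pv_nx]

theorem lp_shift (a : P2) (z : Cfz) (c d : Corner) :
    shC a d ∈ Lp z (shC a c) ↔ d ∈ Lp (shiftZ a z) c := by
  constructor
  · intro h
    have key : ∀ e ∈ Lp z (shC a c), ∀ d, e = shC a d → d ∈ Lp (shiftZ a z) c := by
      refine Lp_induct ?_ ?_ ?_
      · intro d hd
        rw [← shC_inj a hd]
        exact mem_Lp_self _ _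
      · intro e _ ih d hd
        obtain ⟨e', rfl⟩ := shC_surj a e
        rw [nx_shift] at hd
        rw [← shC_inj a hd]
        exact nx_mem_Lp.2 (ih e' rfl)
      · intro e _ ih d hd
        obtain ⟨e', rfl⟩ := shC_surj a e
        rw [pv_shift] at hd
        rw [← shC_inj a hd]
        exact pv_mem_Lp.2 (ih e' rfl)
    exact key _ h d rfl
  · intro h
    refine Lp_induct (P := fun d => shC a d ∈ Lp z (shC a c)) (mem_Lp_self _ _) ?_ ?_ d h
    · intro e _ ih
      rw [← nx_shift]
      exact nx_mem_Lp.2 ih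
    · intro e _ ih
      rw [← pv_shift]
      exact pv_mem_Lp.2 ih

theorem dg_add (a v : P2) (k : ℕ) : dg (v + a) k = dg v k + a := by
  unfold dg
  ext
  · show v.1 + a.1 + (k : ℤ) = v.1 + k + a.1
    ring
  · show v.2 + a.2 + (k : ℤ) = v.2 + k + a.2
    ring

theorem JL_shift (a : P2) (z : Cfz) (c d : Corner) :
    JL z (shC a c) (shC a d) = JL (shiftZ a z) c d := by
  by_cases h : d ∈ Lp (shiftZ a z) c
  · rw [JL_mem h, JL_mem ((lp_shift a z c d).2 h)]
  · rw [JL_not_mem h, JL_not_mem (fun h' => h ((lp_shift a z c d).1 h'))]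

theorem ht_shift (a : P2) (z : Cfz) (c : Corner) (f : Face) :
    ht z (shC a c) (f.1 + a, f.2) = ht (shiftZ a z) c f := by
  have h1 : ∀ (v : P2) (k : ℕ) (q : Fin 4), JL z (shC a c) (dg (v + a) k, q)
      = JL (shiftZ a z) c (dg v k, q) := by
    intro v k q
    rw [← JL_shift a z c (dg v k, q), dg_add]
    rfl
  obtain ⟨v, b⟩ := f
  cases b
  · show Hv (JL z (shC a c)) (v + a) = Hv (JL (shiftZ a z) c) v
    unfold Hv
    refine finsum_congr fun k => ?_
    rw [h1, h1]
  · show Hf (JL z (shC a c)) (v + a) = Hf (JL (shiftZ a z) c) v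
    unfold Hf
    refine finsum_congr fun k => ?_
    rw [h1, h1]

theorem lp_fin_shift (a : P2) (z : Cfz) (c : Corner) :
    (Lp z (shC a c)).Finite ↔ (Lp (shiftZ a z) c).Finite := by
  have h : Lp z (shC a c) = shC a '' Lp (shiftZ a z) c := by
    ext e
    obtain ⟨d, rfl⟩ := shC_surj a e
    rw [lp_shift]
    constructor
    · intro hd; exact ⟨d, hd, rfl⟩
    · rintro ⟨d', hd', he⟩
      rw [← shC_inj a he]
      exact hd'
  rw [h]
  exact Set.finite_image_iff ((shC_inj a).injOn)

/-- translation of faces -/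
def shF (a : P2) : Face ↪ Face := ⟨fun f => (f.1 + a, f.2), by
  rintro ⟨v, b⟩ ⟨v', b'⟩ h
  simp only [Prod.mk.injEq, add_left_inj] at h
  rw [Prod.mk.injEq]
  exact h⟩

theorem shF_apply (a : P2) (f : Face) : shF a f = (f.1 + a, f.2) := rfl

theorem mem_shF {a : P2} {A : Finset Face} {f : Face} :
    f ∈ A.map (shF a) ↔ (f.1 - a, f.2) ∈ A := by
  rw [Finset.mem_map]
  constructor
  · rintro ⟨g, hg, rfl⟩
    simpa [shF_apply] using hg
  · intro h
    exact ⟨_, h, by simp [shF_apply]⟩

/-- **translation covariance of the loops** -/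
theorem lps_shift (a : P2) (z : Cfz) (A : Finset Face) :
    A.map (shF a) ∈ Lps z ↔ A ∈ Lps (shiftZ a z) := by
  constructor
  · rintro ⟨c, hc, hA⟩
    obtain ⟨c, rfl⟩ := shC_surj a c
    refine ⟨c, (lp_fin_shift a z c).1 hc, fun f => ?_⟩
    rw [← ht_shift a z c f, ← hA, mem_shF]
    simp
  · rintro ⟨c, hc, hA⟩
    refine ⟨shC a c, (lp_fin_shift a z c).2 hc, fun f => ?_⟩
    rw [mem_shF, hA, ← ht_shift a z c]
    simp

theorem dia_shift (a : P2) (A : Finset Face) : dia (A.map (shF a)) = dia A := by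
  have key : ∀ (a : P2) (A : Finset Face), dia (A.map (shF a)) ≤ dia A := by
    intro a A
    refine dia_le fun f hf g hg => ?_
    rw [mem_shF] at hf hg
    have := sd_le_dia hf hg
    refine le_trans (le_of_eq ?_) this
    unfold sd
    simp
  refine le_antisymm (key a A) ?_
  have h := key (-a) (A.map (shF a))
  have e : (A.map (shF a)).map (shF (-a)) = A := by
    ext f
    rw [mem_shF, mem_shF]
    simp
  rw [e] at h
  exact h


end Crest.Agent.R158.Wf850
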