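import Crest.Agent.R158.Lc2_522
import Crest.Agent.R158.Wf1_850

/-!
# Row 158, Block W (helper109), part 4: means of the local statistics

* `VV κ` = mean number of loops around the vertex `0` of scale `< κ`
* `mean_SS` : `|E SS - VV κ| ≤ 1`;  `VV_succ`, `VV_mono`, `VV_lip`
-/

set_option autoImplicit false

noncomputable section

namespace Crest.Agent.R158.Cn109

open MeasureTheory unitInterval
open Crest.Agent.R158.Rs689 (PB Dep nu hf tInv)
open Crest.Agent.R161.Geo729 Crest.Agent.R161.Tas682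
open Crest.Agent.R161.Ring421 (shiftZ TInv measurable_shiftZ)
open Crest.Agent.R158.It200 (Cfz fc_zero)
open Crest.Agent.R158.Wf850 (BF mem_BF Lps bdE sepC cv cf Splits mem_bdE shF shF_apply mem_shF
  lps_shift dia_shift)

theorem dia_eq (A : Finset Face) : dia A = Wf850.dia A := rfl

theorem shF_surj (a : P2) (A : Finset Face) : ∃ B : Finset Face, B.map (shF a) = A := by
  refine ⟨A.map (shF (-a)), ?_⟩
  rw [Finset.map_map]
  have h : (shF (-a)).trans (shF a) = Function.Embedding.refl _ := by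
    ext f <;> simp [shF_apply]
  rw [h, Finset.map_refl]

theorem cnt_shift (k : ℕ) (a : P2) (v : Face) (z : Cfz) :
    cnt lsW k (shF a v) z = cnt lsW k v (shiftZ a z) := by
  rw [cnt_eq, cnt_eq]
  have h : {A ∈ Lps z | shF a v ∈ A ∧ Nat.log 2 (dia A + 1) = k} =
      (fun A : Finset Face => A.map (shF a)) ''
        {A ∈ Lps (shiftZ a z) | v ∈ A ∧ Nat.log 2 (dia A + 1) = k} := by
    ext A
    constructor
    · rintro ⟨h1, h2, h3⟩
      obtain ⟨B, rfl⟩ := shF_surj a A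
      refine ⟨B, ⟨(lps_shift a z B).1 h1, ?_, ?_⟩, rfl⟩
      · rwa [Finset.mem_map' (shF a)] at h2
      · rw [dia_eq, dia_shift] at h3; exact h3
    · rintro ⟨B, ⟨h1, h2, h3⟩, rfl⟩
      refine ⟨(lps_shift a z B).2 h1, (Finset.mem_map' (shF a)).2 h2, ?_⟩
      rw [dia_eq, dia_shift]; exact h3
  rw [h, Set.ncard_image_of_injective _ (Finset.map_injective _)]

/-! ### means -/

theorem mean_cnt_shift (p : I) (k : ℕ) (x : P2) (b : Bool) :
    ∫ z, cnt lsW k (x, b) z ∂(nu p) = ∫ z, cnt lsW k ((0, 0), b) z ∂(nu p) := by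
  have h1 : ∀ z, cnt lsW k (x, b) z = cnt lsW k ((0, 0), b) (shiftZ x z) := by
    intro z
    rw [← cnt_shift]
    congr 1
    rw [shF_apply]
    simp
  simp only [h1]
  have h2 : Measure.map (shiftZ x) (nu p) = nu p := tInv p x
  rw [← integral_map (μ := nu p) (φ := shiftZ x) (f := fun z => cnt lsW k ((0, 0), b) z)
    (measurable_shiftZ x).aemeasurable
    (cnt_dep lsW k ((0, 0), b)).measurable.aestronglyMeasurable, h2]

/-- number of loops around `v` of scale less than `κ` -/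
def tot (κ : ℕ) (v : Face) (z : Cfz) : ℝ := ∑ k ∈ Finset.range κ, cnt lsW k v z

theorem tot_eq (κ : ℕ) (v : Face) (z : Cfz) :
    tot κ v z = ({A ∈ Lps z | v ∈ A ∧ dia A + 1 < 2 ^ κ}.ncard : ℝ) := by
  classical
  have h1 := SS_eq lsW (fun _ => (1 : ℝ)) {v} κ z
  unfold SS at h1
  rw [Finset.sum_singleton, one_mul] at h1
  unfold tot
  rw [h1]
  have h2 : ∀ A ∈ smalls lsW {v} κ z, mass (fun _ => (1 : ℝ)) {v} A = 1 := by
    intro A hA
    obtain ⟨_, ⟨w, hw, hwA⟩, _⟩ := (mem_smalls lsW).1 hA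
    rw [Finset.mem_singleton] at hw
    subst hw
    unfold mass
    rw [Finset.filter_singleton, if_pos hwA]
    simp
  rw [Finset.sum_congr rfl h2]
  have h3 : {A ∈ Lps z | v ∈ A ∧ dia A + 1 < 2 ^ κ} = (smalls lsW {v} κ z : Set (Finset Face)) := by
    ext A
    rw [Finset.mem_coe, mem_smalls]
    constructor
    · rintro ⟨h4, h5, h6⟩
      exact ⟨h4, ⟨v, Finset.mem_singleton_self v, h5⟩, h6⟩
    · rintro ⟨h4, ⟨w, hw, h5⟩, h6⟩
      rw [Finset.mem_singleton] at hw
      exact ⟨h4, hw ▸ h5, h6⟩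
  rw [h3, Set.ncard_coe_finset]
  simp

theorem tot_dep (κ : ℕ) (v : Face) :
    DepF ((Finset.range κ).biUnion fun k => Sup lsW k v) (tot κ v) :=
  DepF.sum fun k hk => (cnt_dep lsW k v).mono
    (Finset.subset_biUnion_of_mem (fun k => Sup lsW k v) hk)

theorem tot_fin (κ : ℕ) (v : Face) (z : Cfz) :
    {A ∈ Lps z | v ∈ A ∧ dia A + 1 < 2 ^ κ}.Finite := by
  refine (Finset.finite_toSet (smalls lsW {v} κ z)).subset fun A hA => ?_
  rw [Finset.mem_coe, mem_smalls]
  exact ⟨hA.1, ⟨v, Finset.mem_singleton_self v, hA.2.1⟩, hA.2.2⟩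

/-- a vertex and the dual face at its north east see the same loops up to one -/
theorem tot_adj_le (κ : ℕ) (x : P2) (z : Cfz) (b : Bool) :
    tot κ (x, b) z ≤ tot κ (x, !b) z + 1 := by
  classical
  rw [tot_eq, tot_eq]
  set S1 := {A ∈ Lps z | ((x, b) : Face) ∈ A ∧ dia A + 1 < 2 ^ κ} with hS1
  set S2 := {A ∈ Lps z | ((x, !b) : Face) ∈ A ∧ dia A + 1 < 2 ^ κ} with hS2
  have hf2 : S2.Finite := tot_fin κ (x, !b) z
  have hsub : (S1 \ S2).Subsingleton := by
    rintro A ⟨hA1, hA2⟩ B ⟨hB1, hB2⟩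
    have hA3 : ((x, !b) : Face) ∉ A := fun h => hA2 ⟨hA1.1, h, hA1.2.2⟩
    have hB3 : ((x, !b) : Face) ∉ B := fun h => hB2 ⟨hB1.1, h, hB1.2.2⟩
    have ecf : cf (x, 0) = (x, true) := by unfold cf; rw [fc_zero]
    have ecv : cv (x, 0) = (x, false) := rfl
    refine Wf850.sep_uniq hA1.1 hB1.1 (d := (x, 0)) ?_ ?_
    · unfold sepC
      rw [ecv, ecf]
      cases b
      · exact fun h => hA3 (h.1 hA1.2.1)
      · exact fun h => hA3 (h.2 hA1.2.1)
    · unfold sepC
      rw [ecv, ecf]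
      cases b
      · exact fun h => hB3 (h.1 hB1.2.1)
      · exact fun h => hB3 (h.2 hB1.2.1)
  have h1 : S1 ⊆ S2 ∪ (S1 \ S2) := fun A hA => by
    by_cases h : A ∈ S2
    · exact Or.inl h
    · exact Or.inr ⟨hA, h⟩
  have h2 : S1.ncard ≤ S2.ncard + 1 := by
    calc S1.ncard ≤ (S2 ∪ (S1 \ S2)).ncard := Set.ncard_le_ncard h1 (hf2.union hsub.finite)
      _ ≤ S2.ncard + (S1 \ S2).ncard := Set.ncard_union_le _ _
      _ ≤ S2.ncard + 1 := by
          have hfs : Finite ↑(S1 \ S2) := hsub.finite.to_subtype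
          have := Set.ncard_le_one_iff_subsingleton.2 hsub
          omega
  exact_mod_cast h2

/-- mean number of loops around the vertex `0` of scale less than `κ` -/
def VV (κ : ℕ) : ℝ := ∫ z, tot κ ((0, 0), false) z ∂(nu hf)

theorem mean_tot (κ : ℕ) (v : Face) : |∫ z, tot κ v z ∂(nu hf) - VV κ| ≤ 1 := by
  have hint : ∀ v : Face, Integrable (tot κ v) (nu hf) := fun v => (tot_dep κ v).integrable _
  have hsh : ∀ (x : P2) (b : Bool), ∫ z, tot κ (x, b) z ∂(nu hf) =
      ∫ z, tot κ ((0, 0), b) z ∂(nu hf) := by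
    intro x b
    have e : ∀ v : Face, ∫ z, tot κ v z ∂(nu hf) =
        ∑ k ∈ Finset.range κ, ∫ z, cnt lsW k v z ∂(nu hf) := fun v =>
      integral_finsetSum _ fun k _ => (cnt_dep lsW k v).integrable _
    rw [e, e]
    exact Finset.sum_congr rfl fun k _ => mean_cnt_shift hf k x b
  obtain ⟨x, b⟩ := v
  rw [hsh]
  cases b
  · unfold VV; simp
  · unfold VV
    have h1 : ∫ z, tot κ ((0, 0), true) z ∂(nu hf) ≤
        ∫ z, (tot κ ((0, 0), false) z + 1) ∂(nu hf) :=
      integral_mono (hint _) ((hint _).add (integrable_const 1)) fun z =>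
        tot_adj_le κ (0, 0) z true
    have h2 : ∫ z, tot κ ((0, 0), false) z ∂(nu hf) ≤
        ∫ z, (tot κ ((0, 0), true) z + 1) ∂(nu hf) :=
      integral_mono (hint _) ((hint _).add (integrable_const 1)) fun z =>
        tot_adj_le κ (0, 0) z false
    rw [integral_add (hint _) (integrable_const 1)] at h1 h2
    simp only [integral_const, probReal_univ, smul_eq_mul, mul_one] at h1 h2
    rw [abs_le]
    constructor <;> linarith

/-- **means of the linear statistics** -/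
theorem mean_SS (κ : ℕ) {V : Finset Face} {u : Face → ℝ} (u0 : ∀ v ∈ V, 0 ≤ u v)
    (u1 : ∑ v ∈ V, u v = 1) : |∫ z, SS lsW u V κ z ∂(nu hf) - VV κ| ≤ 1 := by
  have h1 : ∫ z, SS lsW u V κ z ∂(nu hf) = ∑ v ∈ V, u v * ∫ z, tot κ v z ∂(nu hf) := by
    have e : ∫ z, SS lsW u V κ z ∂(nu hf) = ∑ v ∈ V, ∫ z, u v * tot κ v z ∂(nu hf) :=
      integral_finsetSum _ fun v _ => ((tot_dep κ v).integrable _).const_mul _
    rw [e]
    exact Finset.sum_congr rfl fun v _ => integral_const_mul _ _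
  have h2 : VV κ = ∑ v ∈ V, u v * VV κ := by rw [← Finset.sum_mul, u1, one_mul]
  rw [h1, h2, ← Finset.sum_sub_distrib]
  calc |∑ v ∈ V, (u v * ∫ z, tot κ v z ∂(nu hf) - u v * VV κ)|
      ≤ ∑ v ∈ V, |u v * ∫ z, tot κ v z ∂(nu hf) - u v * VV κ| := Finset.abs_sum_le_sum_abs _ _
    _ ≤ ∑ v ∈ V, u v := by
        refine Finset.sum_le_sum fun v hv => ?_
        rw [← mul_sub, abs_mul, abs_of_nonneg (u0 v hv)]
        exact mul_le_of_le_one_right (u0 v hv) (mean_tot κ v)
    _ = 1 := u1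

theorem VV_succ (κ : ℕ) : VV (κ + 1) = VV κ + ∫ z, cnt lsW κ ((0, 0), false) z ∂(nu hf) := by
  have h1 := integral_add (μ := nu hf) ((tot_dep κ ((0, 0), false)).integrable _)
    ((cnt_dep lsW κ ((0, 0), false)).integrable _)
  unfold VV
  rw [← h1]
  refine integral_congr_ae (Filter.Eventually.of_forall fun z => ?_)
  exact Finset.sum_range_succ _ _


theorem VV_mono : Monotone VV := monotone_nat_of_le_succ fun κ => by
  rw [VV_succ]
  exact le_add_of_nonneg_right (integral_nonneg fun z => cnt_nonneg _ _ _ _)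

theorem VV_lip {M : ℝ → ℝ}
    (hM : ∀ s : ℝ, 0 ≤ s → ∀ k v, ∫ z, Real.exp (s * cnt lsW k v z) ∂(nu hf) ≤ M s) (κ : ℕ) :
    VV (κ + 1) ≤ VV κ + M 1 := by
  rw [VV_succ]
  refine add_le_add_right ?_ _
  refine le_trans (integral_mono ((cnt_dep lsW κ _).integrable _)
    (((cnt_dep lsW κ _).comp fun x => Real.exp (1 * x)).integrable _) fun z => ?_)
    (hM 1 (by norm_num) κ ((0, 0), false))
  have := Real.add_one_le_exp (1 * cnt lsW κ ((0, 0), false) z)
  show cnt lsW κ ((0, 0), false) z ≤ Real.exp (1 * cnt lsW κ ((0, 0), false) z)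
  linarith

/-- **W-B, unconditional**: exponential moments of the local statistics, centred at `VV κ` -/
theorem stat_moments {C : ℝ} (hC : 0 ≤ C) (t : ℝ) : ∃ G : ℝ, 1 ≤ G ∧
    ∀ (κ : ℕ) (V : Finset Face) (u : Face → ℝ), (∀ v ∈ V, 0 ≤ u v) → ∑ v ∈ V, u v = 1 →
      (∀ v ∈ V, u v ≤ C / 4 ^ κ) →
        ∫ z, Real.exp (|t| * |SS lsW u V κ z - VV κ|) ∂(nu hf) ≤ G ∧
        ∫ z, Real.exp (|t| * QQ lsW u V κ z) ∂(nu hf) ≤ G := by
  obtain ⟨M, hM⟩ := Lc522.moments
  refine ⟨max 1 (max (Real.exp |t| * (2 * (GG M 128 C t + 1))) (M (72 * C * |t|))),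
    le_max_left _ _, fun κ V u u0 u1 hu => ⟨?_, ?_⟩⟩
  · refine le_trans ?_ ((le_max_left _ _).trans (le_max_right _ _))
    have h1 := conc_abs_SS lsW hM hC u0 u1 hu t
    have h2 := mean_SS κ u0 u1
    set m := ∫ z, SS lsW u V κ z ∂(nu hf)
    have hd := SS_dep lsW u V κ
    calc ∫ z, Real.exp (|t| * |SS lsW u V κ z - VV κ|) ∂(nu hf)
        ≤ ∫ z, Real.exp |t| * Real.exp (|t| * |SS lsW u V κ z - m|) ∂(nu hf) := by
          refine integral_mono ((hd.comp fun x => Real.exp (|t| * |x - VV κ|)).integrable _)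
            (((hd.comp fun x => Real.exp (|t| * |x - m|)).integrable _).const_mul _) fun z => ?_
          show Real.exp (|t| * |SS lsW u V κ z - VV κ|) ≤
            Real.exp |t| * Real.exp (|t| * |SS lsW u V κ z - m|)
          rw [← Real.exp_add, Real.exp_le_exp]
          have h3 : |SS lsW u V κ z - VV κ| ≤ |SS lsW u V κ z - m| + |m - VV κ| :=
            abs_sub_le _ _ _
          nlinarith [abs_nonneg t]
      _ ≤ Real.exp |t| * (2 * (GG M 128 C t + 1)) := by
          rw [integral_const_mul]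
          exact mul_le_mul_of_nonneg_left h1 (Real.exp_pos _).le
  · exact (exp_QQ lsW hM hC u0 u1 hu (abs_nonneg t)).trans
      ((le_max_right _ _).trans (le_max_right _ _))

/-- the increments of `VV` are bounded -/
theorem VV_inc : ∃ C : ℝ, 0 ≤ C ∧ ∀ κ : ℕ, 0 ≤ VV (κ + 1) - VV κ ∧ VV (κ + 1) - VV κ ≤ C := by
  obtain ⟨M, hM⟩ := Lc522.moments
  have h1 := M_nonneg' lsW hM (s := 1) (by norm_num)
  refine ⟨M 1, by linarith, fun κ => ⟨?_, ?_⟩⟩
  · have := VV_mono (Nat.le_succ κ); linarith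
  · have := VV_lip hM κ; linarith

/-- `VV` grows at most linearly between two scales -/
theorem VV_diff : ∃ C : ℝ, 0 ≤ C ∧ ∀ κ j : ℕ, 0 ≤ VV (κ + j) - VV κ ∧ VV (κ + j) - VV κ ≤ C * j := by
  obtain ⟨C, hC, h⟩ := VV_inc
  refine ⟨C, hC, fun κ j => ?_⟩
  induction j with
  | zero => simp
  | succ j ih =>
    have h1 := h (κ + j)
    rw [← add_assoc]
    push_cast
    constructor
    · linarith [h1.1, ih.1]
    · linarith [h1.2, ih.2]

end Crest.Agent.R158.Cn109
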