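import Crest.Agent.R158.Bg2_612
import Crest.Agent.R158.Hd1_109
import Crest.Agent.R158.Cn1_109
import Crest.Agent.R158.Lc5_522
import Crest.Agent.R158.Vx5_107
import Crest.Agent.R158.Ax2_107
import Crest.Agent.R158.Bk10_430
import Crest.Agent.R158.Lc6_522
import Crest.Agent.R158.Vg1_109

-- ▼ part R158/Bg3_612
section

/-!
# Row 158, identity B (helper612), part 3: pointwise bounds of the two-point sums

* `left_bound`  : charges `(π/3, -π/6, -π/6)`: two arms, exponential factor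
* `right_nonneg`, `right_bad`, `right_good` : charges `(-π/3, π/6, π/6)`
-/

set_option autoImplicit false

noncomputable section

namespace Crest.Agent.R158.B612

open Real
open Crest.Agent.R161.Geo729 Crest.Agent.R161.Dual374
open Crest.Agent.R161.Tas682 (sd)
open Crest.Agent.R161.Ifc372 (CircZ)
open Crest.Agent.R158.It200 Crest.Agent.R158.Wf850
open Crest.Agent.R158.Fr158 (bx mem_bx mem_bx_sd eIn mem_eIn)
open Crest.Agent.R158.Vx107 (Fw mass tot Ntr)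
open Crest.Agent.R158.Cn109 (lsW smalls mem_smalls SS QQ)
open Crest.Agent.R158.Rs689 (dual circ_block circ_block' Rch dstep_dual)

/-! ### loops cut inside a ring -/

/-- loops cut inside the ring, not small -/
def RCs (S : ℕ) (z : Cfz) : Set (Finset Face) :=
  {A | A ∈ Lps z ∧ (∃ d, An (64 * S) (1024 * S) (cv d) ∧ An (64 * S) (1024 * S) (cf d) ∧ sepC A d) ∧
    16 * S ≤ Wf850.dia A + 1}

theorem splits_of_cut {A : Finset Face} {d : Corner} {x : P2} {n : ℤ} (h1 : sd x d.1 ≤ n)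
    (h2 : sd x (fc d) ≤ n) (h : sepC A d) : Splits A (BF x n) := by
  have k1 : cv d ∈ BF x n := by rw [mem_BF]; exact h1
  have k2 : cf d ∈ BF x n := by rw [mem_BF]; exact h2
  rcases sep_cases h with ⟨a, b⟩ | ⟨a, b⟩
  · exact ⟨⟨_, k1, a⟩, _, k2, b⟩
  · exact ⟨⟨_, k2, b⟩, _, k1, a⟩

theorem RCs_fin (S : ℕ) (z : Cfz) : (RCs S z).Finite := by
  refine (fin_split z (0, 0) (1024 * S)).subset ?_
  rintro A ⟨hA, ⟨d, h1, h2, h3⟩, -⟩
  exact ⟨hA, splits_of_cut h1.2 h2.2 h3⟩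

/-- a loop not around `v0`, meeting the ring and not small, is cut inside the ring -/
theorem mem_RCs {S : ℕ} (hS : 1 ≤ S) {z : Cfz} {A : Finset Face} (hA : A ∈ Lps z) (hv : v0 ∉ A)
    {f : Face} (hf : f ∈ VR S) (hfA : f ∈ A) (hd : 16 * S ≤ Wf850.dia A + 1) : A ∈ RCs S z := by
  refine ⟨hA, ?_, hd⟩
  by_cases h : ∀ g, An (64 * S) (1024 * S) g → g ∈ A
  · exfalso
    have h1 := fill hA (by positivity) (by omega) h
    exact hv (h1 (by rw [mem_BF]; show s0 v0 ≤ _; rw [s0_v0]; positivity))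
  · push Not at h
    obtain ⟨g, hg, hgA⟩ := h
    exact cut_ann (by positivity) (by omega) (mem_VR.1 hf) hg hfA hgA

/-- a small loop meeting the ring does not meet the inner box, nor leaves the outer one -/
theorem small_far {S : ℕ} {A : Finset Face} {f : Face} (hf : f ∈ VR S) (hfA : f ∈ A)
    (hd : Wf850.dia A + 1 < 16 * S) {g : Face} (hg : g ∈ A) :
    48 * S < s0 g ∧ s0 g < 1040 * S := by
  rw [mem_VR] at hf
  obtain ⟨h1, h2⟩ := hf
  have h3 := Wf850.sd_le_dia hfA hg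
  have h4 := Wf850.sd_le_dia hg hfA
  have h5 := sd_tri (0, 0) f.1 g.1
  have h6 := sd_tri (0, 0) g.1 f.1
  have e1 : s0 f = sd (0, 0) f.1 := rfl
  have e2 : s0 g = sd (0, 0) g.1 := rfl
  omega

section

variable {S : ℕ} {κ : ℕ}

/-- the small loops of the ring -/
abbrev Sm (S κ : ℕ) (z : Cfz) : Finset (Finset Face) := smalls lsW (VR S) κ z

theorem mem_Sm (hκ : 2 ^ κ = 16 * S) {z : Cfz} {A : Finset Face} :
    A ∈ Sm S κ z ↔ A ∈ Lps z ∧ (∃ f ∈ VR S, f ∈ A) ∧ Wf850.dia A + 1 < 16 * S := by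
  unfold Sm
  rw [mem_smalls, hκ]
  rfl

theorem Sm_sub (hκ : 2 ^ κ = 16 * S) {z : Cfz} {T : ℕ} (hST : S ≤ T) :
    Sm S κ z ⊆ Zo z (1024 * T) := by
  classical
  intro A hA
  rw [mem_Sm hκ] at hA
  obtain ⟨h1, ⟨f, hf, hfA⟩, h3⟩ := hA
  have hv : v0 ∉ A := fun h => by
    have := (small_far hf hfA h3 h).1
    rw [s0_v0] at this; omega
  have hf0 : f0 ∉ A := fun h => by
    have := (small_far hf hfA h3 h).1
    rw [s0_f0] at this; omega
  unfold Zo
  rw [Finset.mem_filter, mem_Zs, sepc0, not_not]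
  refine ⟨⟨h1, ⟨f, ?_, hfA⟩, v0, ?_, hv⟩, ⟨fun h => absurd h hv, fun h => absurd h hf0⟩, hv⟩
  · rw [mem_BF]
    have h4 := (mem_VR.1 hf).2
    have h5 : (1024 * S : ℤ) ≤ 1024 * T := by exact_mod_cast Nat.mul_le_mul_left 1024 hST
    exact h4.trans h5
  · rw [mem_BF]; show s0 v0 ≤ _; rw [s0_v0]; positivity

end

theorem mem_Zo {z : Cfz} {B : ℤ} {A : Finset Face} (h : A ∈ Zo z B) :
    A ∈ Lps z ∧ v0 ∉ A ∧ f0 ∉ A ∧ Splits A (BF (0, 0) B) := by
  classical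
  unfold Zo at h
  rw [Finset.mem_filter, sepc0, not_not, mem_Zs] at h
  exact ⟨h.1.1, h.2.2, fun h' => h.2.2 (h.2.1.2 h'), h.1.2⟩

theorem mem_Zi {z : Cfz} {B : ℤ} {A : Finset Face} :
    A ∈ Zi z B ↔ A ∈ Lps z ∧ v0 ∈ A ∧ f0 ∈ A ∧ Splits A (BF (0, 0) B) := by
  classical
  unfold Zi
  rw [Finset.mem_filter, sepc0, not_not, mem_Zs]
  constructor
  · rintro ⟨⟨h1, h2⟩, h3, h4⟩
    exact ⟨h1, h4, h3.1 h4, h2⟩
  · rintro ⟨h1, h2, h3, h4⟩
    exact ⟨⟨h1, h4⟩, ⟨fun _ => h3, fun _ => h2⟩, h2⟩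

/-! ### the product over the loops not around the corner -/

theorem Fw_ff : Fw = We297.ff := rfl

/-- the two scales -/
def sc2 (S1 S2 : ℕ) (i : Bool) : ℕ := if i then S2 else S1

/-- **linear statistic** -/
def Lin (S1 S2 κ1 κ2 : ℕ) (z : Cfz) : ℝ :=
  SS lsW (fun _ => uc S1) (VR S1) κ1 z + SS lsW (fun _ => uc S2) (VR S2) κ2 z

/-- **error count** -/
def Ect (S1 S2 κ1 κ2 : ℕ) (z : Cfz) : ℝ :=
  ((RCs S1 z).ncard : ℝ) + ((RCs S2 z).ncard : ℝ) + QQ lsW (fun _ => uc S1) (VR S1) κ1 z +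
    QQ lsW (fun _ => uc S2) (VR S2) κ2 z


section outer

variable {S1 S2 κ1 κ2 : ℕ} (hS1 : 1 ≤ S1) (h12 : S1 ≤ S2) (hκ1 : 2 ^ κ1 = 16 * S1)
  (hκ2 : 2 ^ κ2 = 16 * S2)

include hS1 h12 hκ1 hκ2

theorem outer_setup (z : Cfz) :
    (∀ i ∈ (Finset.univ : Finset Bool), Sm (sc2 S1 S2 i) (if i then κ2 else κ1) z ⊆
      Zo z (1024 * S2)) ∧
    ∃ T : Finset (Finset Face), (∀ i ∈ (Finset.univ : Finset Bool), ∀ A ∈ Zo z (1024 * S2),
      A ∉ Sm (sc2 S1 S2 i) (if i then κ2 else κ1) z → qm (sc2 S1 S2 i) A ≠ 0 → A ∈ T) ∧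
      (T.card : ℝ) ≤ ((RCs S1 z).ncard : ℝ) + ((RCs S2 z).ncard : ℝ) := by
  classical
  refine ⟨fun i _ => ?_, (RCs_fin S1 z).toFinset ∪ (RCs_fin S2 z).toFinset, fun i _ A hA hAS hq =>
    ?_, ?_⟩
  · cases i
    · exact Sm_sub hκ1 h12
    · exact Sm_sub hκ2 le_rfl
  · obtain ⟨f, hf, hfA⟩ := exists_of_qm hq
    obtain ⟨hA1, hA2, -, -⟩ := mem_Zo hA
    rw [Finset.mem_union, Set.Finite.mem_toFinset, Set.Finite.mem_toFinset]
    cases i
    · left
      refine mem_RCs hS1 hA1 hA2 hf hfA ?_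
      by_contra hlt
      exact hAS ((mem_Sm hκ1).2 ⟨hA1, ⟨f, hf, hfA⟩, not_le.1 hlt⟩)
    · right
      refine mem_RCs (hS1.trans h12) hA1 hA2 hf hfA ?_
      by_contra hlt
      exact hAS ((mem_Sm hκ2).2 ⟨hA1, ⟨f, hf, hfA⟩, not_le.1 hlt⟩)
  · have h1 := Finset.card_union_le (RCs_fin S1 z).toFinset (RCs_fin S2 z).toFinset
    rw [← Set.ncard_eq_toFinset_card _ (RCs_fin S1 z), ← Set.ncard_eq_toFinset_card _ (RCs_fin S2 z)]
      at h1
    exact_mod_cast h1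

omit hS1 h12 hκ1 hκ2 in
theorem arith1 {x : ℝ} (h0 : 0 ≤ x) (h1 : x ≤ 0.525) : 2 * (2 * x) + 12 * (2 * x) ^ 2 ≤ 64 := by
  nlinarith

omit hS1 h12 hκ1 hκ2 in
theorem arith2 {c T Q E : ℝ} (hc : c ≤ 64) (hc0 : 0 ≤ c) (hT : 0 ≤ T + Q) (hE : T + Q ≤ E) :
    c * (T + Q) ≤ 64 * E := by
  nlinarith

omit hS1 h12 hκ1 hκ2 in
theorem arith3 {C x T Q E : ℝ} (hC : 0 ≤ C) (hx0 : 0 ≤ x) (hx : x ≤ 1.05) (hT : 0 ≤ T + Q)
    (hE : T + Q ≤ E) : (2 * x + C * x ^ 2) * (T + Q) ≤ (4 + 2 * C) * E := by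
  have h1 : x ^ 2 ≤ 2 := by nlinarith
  have h2 : 2 * x + C * x ^ 2 ≤ 4 + 2 * C := by nlinarith
  exact mul_le_mul h2 hE hT (by positivity)

set_option maxHeartbeats 1000000 in
/-- upper bound of the outer product -/
theorem outer_le {b : ℝ} (hb : |b| ≤ π / 6) (z : Cfz) :
    |∏ A ∈ Zo z (1024 * S2), Fw (b * tq S1 S2 A)| ≤
      exp (-(√3 * (b * Lin S1 S2 κ1 κ2 z)) + 64 * Ect S1 S2 κ1 κ2 z) := by
  classical
  obtain ⟨hS, T, hT, hTc⟩ := outer_setup hS1 h12 hκ1 hκ2 z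
  have hp := prod_le (I := (Finset.univ : Finset Bool)) (R := Zo z (1024 * S2)) (T := T)
    (c := fun _ => b) (u := fun i A => qm (sc2 S1 S2 i) A)
    (Sm := fun i => Sm (sc2 S1 S2 i) (if i then κ2 else κ1) z)
    (fun i _ A => qm_nonneg _ A) (fun i _ A => by
      cases i
      · exact qm_le_one hS1 A
      · exact qm_le_one (hS1.trans h12) A) hS hT
  have e1 : ∀ A, ∑ i : Bool, b * qm (sc2 S1 S2 i) A = b * tq S1 S2 A := by
    intro A
    rw [Fintype.sum_bool]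
    simp only [sc2, tq, if_true, Bool.false_eq_true, if_false]
    ring
  have e2 : ∑ i : Bool, b * ∑ A ∈ Sm (sc2 S1 S2 i) (if i then κ2 else κ1) z,
      qm (sc2 S1 S2 i) A = b * Lin S1 S2 κ1 κ2 z := by
    rw [Fintype.sum_bool]
    simp only [sc2, if_true, Bool.false_eq_true, if_false]
    unfold Lin
    rw [Cn109.SS_eq, Cn109.SS_eq]
    show b * ∑ A ∈ Sm S2 κ2 z, qm S2 A + b * ∑ A ∈ Sm S1 κ1 z, qm S1 A =
      b * (∑ A ∈ Sm S1 κ1 z, qm S1 A + ∑ A ∈ Sm S2 κ2 z, qm S2 A)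
    ring
  have e3 : ∑ i : Bool, ∑ A ∈ Sm (sc2 S1 S2 i) (if i then κ2 else κ1) z,
      qm (sc2 S1 S2 i) A ^ 2 = QQ lsW (fun _ => uc S1) (VR S1) κ1 z +
        QQ lsW (fun _ => uc S2) (VR S2) κ2 z := by
    rw [Fintype.sum_bool]
    simp only [sc2, if_true, Bool.false_eq_true, if_false]
    unfold QQ
    rw [add_comm]
    rfl
  have e4 : ∑ _i : Bool, |b| = 2 * |b| := by rw [Fintype.sum_bool]; ring
  simp only [e1, e2, e3, e4] at hp
  rw [← Fw_ff] at hp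
  refine hp.trans (exp_le_exp.2 ?_)
  have hb0 := abs_nonneg b
  have hpi : π ≤ 3.15 := pi_lt_d2.le
  have hb1 : |b| ≤ 0.525 := by linarith
  have hq1 := Cn109.QQ_nonneg lsW (fun _ => uc S1) (VR S1) κ1 z
  have hq2 := Cn109.QQ_nonneg lsW (fun _ => uc S2) (VR S2) κ2 z
  have h3 := arith2 (c := 2 * (2 * |b|) + 12 * (2 * |b|) ^ 2) (T := (T.card : ℝ))
    (Q := QQ lsW (fun _ => uc S1) (VR S1) κ1 z + QQ lsW (fun _ => uc S2) (VR S2) κ2 z)
    (E := Ect S1 S2 κ1 κ2 z) (arith1 hb0 hb1) (by positivity) (by positivity)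
    (by unfold Ect; linarith)
  linarith

end outer

/-- constant of the lower bound -/
theorem exists_low : ∃ C : ℝ, 0 ≤ C ∧ ∀ x : ℝ, 0 ≤ x → x ≤ 99 / 100 →
    exp (-(√3 * (π / 6 * x)) - C * (π / 6 * x) ^ 2) ≤ Fw (π / 6 * x) := by
  have hpi := pi_pos
  obtain ⟨C, hC, h⟩ := ff_lower (lo := -(π / 6)) (hi := π / 6 * (99 / 100)) (by linarith)
    (by linarith)
  refine ⟨C, hC, fun x h0 h1 => ?_⟩
  rw [Fw_ff]
  refine h _ ?_ ?_
  · have : 0 ≤ π / 6 * x := by positivity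
    linarith
  · exact mul_le_mul_of_nonneg_left h1 (by positivity)

section outer2

variable {S1 S2 κ1 κ2 : ℕ} (hS1 : 1 ≤ S1) (h12 : S1 ≤ S2) (hκ1 : 2 ^ κ1 = 16 * S1)
  (hκ2 : 2 ^ κ2 = 16 * S2)

include hS1 h12 hκ1 hκ2

set_option maxHeartbeats 1000000 in
/-- lower bound of the outer product -/
theorem outer_ge {C : ℝ} (hC : 0 ≤ C) (hlow : ∀ x : ℝ, 0 ≤ x → x ≤ 99 / 100 →
      exp (-(√3 * (π / 6 * x)) - C * (π / 6 * x) ^ 2) ≤ Fw (π / 6 * x)) {z : Cfz}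
    (hz : ∀ A ∈ Zo z (1024 * S2), tq S1 S2 A ≤ 99 / 100) :
    exp (-(√3 * (π / 6 * Lin S1 S2 κ1 κ2 z)) - (4 + 2 * C) * Ect S1 S2 κ1 κ2 z) ≤
      ∏ A ∈ Zo z (1024 * S2), Fw (π / 6 * tq S1 S2 A) := by
  classical
  obtain ⟨hS, T, hT, hTc⟩ := outer_setup hS1 h12 hκ1 hκ2 z
  have hpi0 := pi_pos
  have e1 : ∀ A, ∑ i : Bool, π / 6 * qm (sc2 S1 S2 i) A = π / 6 * tq S1 S2 A := by
    intro A
    rw [Fintype.sum_bool]
    simp only [sc2, tq, if_true, Bool.false_eq_true, if_false]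
    ring
  have hp := prod_ge (I := (Finset.univ : Finset Bool)) (R := Zo z (1024 * S2)) (T := T)
    (c := fun _ => π / 6) (u := fun i A => qm (sc2 S1 S2 i) A)
    (Sm := fun i => Sm (sc2 S1 S2 i) (if i then κ2 else κ1) z)
    (fun i _ A => qm_nonneg _ A) (fun i _ A => by
      cases i
      · exact qm_le_one hS1 A
      · exact qm_le_one (hS1.trans h12) A) hS hT hC (fun A hA => by
        rw [e1, ← Fw_ff]
        exact hlow _ (add_nonneg (qm_nonneg _ _) (qm_nonneg _ _)) (hz A hA))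
  have e2 : ∑ i : Bool, π / 6 * ∑ A ∈ Sm (sc2 S1 S2 i) (if i then κ2 else κ1) z,
      qm (sc2 S1 S2 i) A = π / 6 * Lin S1 S2 κ1 κ2 z := by
    rw [Fintype.sum_bool]
    simp only [sc2, if_true, Bool.false_eq_true, if_false]
    unfold Lin
    rw [Cn109.SS_eq, Cn109.SS_eq]
    show π / 6 * ∑ A ∈ Sm S2 κ2 z, qm S2 A + π / 6 * ∑ A ∈ Sm S1 κ1 z, qm S1 A =
      π / 6 * (∑ A ∈ Sm S1 κ1 z, qm S1 A + ∑ A ∈ Sm S2 κ2 z, qm S2 A)
    ring
  have e3 : ∑ i : Bool, ∑ A ∈ Sm (sc2 S1 S2 i) (if i then κ2 else κ1) z,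
      qm (sc2 S1 S2 i) A ^ 2 = QQ lsW (fun _ => uc S1) (VR S1) κ1 z +
        QQ lsW (fun _ => uc S2) (VR S2) κ2 z := by
    rw [Fintype.sum_bool]
    simp only [sc2, if_true, Bool.false_eq_true, if_false]
    unfold QQ
    rw [add_comm]
    rfl
  have e4 : ∑ _i : Bool, |π / 6| = π / 3 := by
    rw [Fintype.sum_bool, abs_of_pos (by positivity)]; ring
  simp only [e1, e2, e3, e4] at hp
  rw [← Fw_ff] at hp
  refine le_trans (exp_le_exp.2 ?_) hp
  have hpi : π ≤ 3.15 := pi_lt_d2.le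
  have hq1 := Cn109.QQ_nonneg lsW (fun _ => uc S1) (VR S1) κ1 z
  have hq2 := Cn109.QQ_nonneg lsW (fun _ => uc S2) (VR S2) κ2 z
  have h3 := arith3 (C := C) (x := π / 3) (T := (T.card : ℝ))
    (Q := QQ lsW (fun _ => uc S1) (VR S1) κ1 z + QQ lsW (fun _ => uc S2) (VR S2) κ2 z)
    (E := Ect S1 S2 κ1 κ2 z) hC (by positivity) (by linarith) (by positivity)
    (by unfold Ect; linarith)
  linarith

end outer2

end Crest.Agent.R158.B612
end
end

-- ▼ part R158/Bg4_612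
section

/-!
# Row 158, identity B (helper612), part 4: pointwise bounds of the two-point sums

* `left_bound`  : charges `(π/3, -π/6, -π/6)`: two arms, exponential factor
* `right_nonneg`, `right_bad`, `right_good` : charges `(-π/3, π/6, π/6)`
-/

set_option autoImplicit false

noncomputable section

namespace Crest.Agent.R158.B612

open Real
open Crest.Agent.R161.Geo729 Crest.Agent.R161.Dual374
open Crest.Agent.R161.Tas682 (sd)
open Crest.Agent.R161.Ifc372 (CircZ)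
open Crest.Agent.R158.It200 Crest.Agent.R158.Wf850
open Crest.Agent.R158.Fr158 (bx mem_bx mem_bx_sd eIn mem_eIn)
open Crest.Agent.R158.Vx107 (Fw mass tot Ntr)
open Crest.Agent.R158.Cn109 (lsW smalls mem_smalls SS QQ)
open Crest.Agent.R158.Rs689 (dual circ_block circ_block' Rch dstep_dual)

/-! ### trigonometry -/

theorem sqrt3_sq : (√3 : ℝ) * √3 = 3 := mul_self_sqrt (by norm_num)
theorem sqrt3_ge : (1 : ℝ) ≤ √3 := by
  rw [show (1 : ℝ) = √1 by simp]; exact sqrt_le_sqrt (by norm_num)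

theorem Xf_pos (x : ℝ) : Xf (π / 3) x = -(2 * √3 * sin x) := by
  have h3 := sqrt3_sq
  unfold Xf
  rw [Vx107.Fw_eq, Vx107.Fw_eq, cos_add, sin_add, cos_pi_div_three, sin_pi_div_three]
  linear_combination (-(1 / 2) * cos x) * h3

theorem Xf_neg (x : ℝ) : Xf (-(π / 3)) x = 2 * √3 * cos (π / 6 + x) := by
  have h3 := sqrt3_sq
  unfold Xf
  rw [Vx107.Fw_eq, Vx107.Fw_eq, cos_add, sin_add, cos_neg, sin_neg, cos_pi_div_three,
    sin_pi_div_three, cos_add, cos_pi_div_six, sin_pi_div_six]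
  linear_combination (-(1 / 2) * cos x) * h3

theorem cos_half {y : ℝ} (h1 : π / 3 ≤ y) (h2 : y ≤ 2 * π / 3) : |cos y| ≤ 1 / 2 := by
  have hpi := pi_pos
  have e1 : cos y ≤ cos (π / 3) := cos_le_cos_of_nonneg_of_le_pi (by positivity) (by linarith) h1
  have e2 : cos (2 * π / 3) ≤ cos y := cos_le_cos_of_nonneg_of_le_pi (by linarith) (by linarith) h2
  rw [cos_pi_div_three] at e1
  have e3 : cos (2 * π / 3) = -(1 / 2) := by
    rw [show 2 * π / 3 = π - π / 3 by ring, cos_pi_sub, cos_pi_div_three]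
  rw [e3] at e2
  rw [abs_le]; constructor <;> linarith

theorem Fw_in_left {t : ℝ} (h0 : 0 ≤ t) (h2 : t ≤ 2) : |Fw (π / 3 + -(π / 6) * t)| ≤ 1 := by
  have hpi := pi_pos
  unfold Vx107.Fw
  rw [abs_mul, abs_two]
  have := cos_half (y := π / 3 + (π / 3 + -(π / 6) * t)) (by nlinarith) (by nlinarith)
  linarith

theorem Fw_in_right (t : ℝ) : Fw (-(π / 3) + π / 6 * t) = 2 * cos (π / 6 * t) := by
  unfold Vx107.Fw
  congr 2
  ring

theorem Fw_in_right_ge {t : ℝ} (h0 : 0 ≤ t) (h2 : t ≤ 2) : 1 ≤ Fw (-(π / 3) + π / 6 * t) := by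
  have hpi := pi_pos
  rw [Fw_in_right]
  have e1 : cos (π / 3) ≤ cos (π / 6 * t) :=
    cos_le_cos_of_nonneg_of_le_pi (by positivity) (by linarith) (by nlinarith)
  rw [cos_pi_div_three] at e1
  linarith

theorem Fw_out_nonneg {t : ℝ} (h0 : 0 ≤ t) (h1 : t ≤ 1) : 0 ≤ Fw (π / 6 * t) := by
  have hpi := pi_pos
  unfold Vx107.Fw
  have : 0 ≤ cos (π / 3 + π / 6 * t) := cos_nonneg_of_mem_Icc ⟨by nlinarith, by nlinarith⟩
  linarith

/-! ### the events -/

/-- two arms from the corner at the origin to distance `m` -/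
def Arms2 (m : ℤ) : Set Cfz :=
  {z | (∃ v ∈ OCl z (0, 0), m ≤ sd (0, 0) v) ∧ ∃ g ∈ DCl z (0, 0), m ≤ sd (0, 0) g}

/-- a loop not around `v0` meets both rings -/
def BadS (S1 S2 : ℕ) : Set Cfz :=
  {z | ∃ A ∈ Lps z, v0 ∉ A ∧ (∃ f ∈ VR S1, f ∈ A) ∧ ∃ f ∈ VR S2, f ∈ A}

/-- loops around the corner not inside `BF 0 S` and not around `BF 0 (1024 S)` -/
def Mids (S : ℕ) (z : Cfz) : Set (Finset Face) :=
  {A | A ∈ Lps z ∧ v0 ∈ A ∧ ¬ A ⊆ BF (0, 0) S ∧ ¬ BF (0, 0) (1024 * S) ⊆ A}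

theorem Mids_fin (S : ℕ) (z : Cfz) : (Mids S z).Finite := by
  refine (fin_split z (0, 0) (1024 * S)).subset ?_
  rintro A ⟨hA, hv, -, h⟩
  rw [Finset.not_subset] at h
  obtain ⟨g, hg, hgA⟩ := h
  exact ⟨hA, ⟨v0, by rw [mem_BF]; show s0 v0 ≤ _; rw [s0_v0]; positivity, hv⟩, g, hg, hgA⟩

theorem tq_nonneg (S1 S2 : ℕ) (A : Finset Face) : 0 ≤ tq S1 S2 A :=
  add_nonneg (qm_nonneg _ _) (qm_nonneg _ _)

theorem BF_zero : BF (0, 0) 0 = {v0, f0} := by
  ext f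
  rw [mem_BF, sd0_le, Finset.mem_insert, Finset.mem_singleton]
  obtain ⟨⟨a, b⟩, s⟩ := f
  cases s <;> simp [v0, f0] <;> omega

section

variable {S1 S2 κ1 κ2 : ℕ} (hS1 : 1 ≤ S1) (h12 : 64 * S1 ≤ S2) (hκ1 : 2 ^ κ1 = 16 * S1)
  (hκ2 : 2 ^ κ2 = 16 * S2)

include hS1 h12

theorem tq_le_two (A : Finset Face) : tq S1 S2 A ≤ 2 := by
  have h1 := qm_le_one hS1 A
  have h2 := qm_le_one (S := S2) (by omega) A
  unfold tq; linarith

include hκ1 hκ2

/-- **left side** -/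
theorem left_bound (z : Cfz) : |WS (π / 3) (-(π / 6)) S1 S2 z| ≤
    (Arms2 (64 * S1)).indicator (fun _ => 2 * √3) z *
      exp (√3 * (π / 6) * Lin S1 S2 κ1 κ2 z + 64 * Ect S1 S2 κ1 κ2 z) := by
  classical
  have hpi := pi_pos
  have h3 := sqrt3_ge
  obtain ⟨X, hX, hW⟩ := WS_eq (a := π / 3) (b := -(π / 6)) hS1 (by omega : S1 ≤ S2) (by ring) z
  have hin : |∏ A ∈ Zi z (1024 * S2), Fw (π / 3 + -(π / 6) * tq S1 S2 A)| ≤ 1 := by
    rw [Finset.abs_prod]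
    exact Finset.prod_le_one (fun _ _ => abs_nonneg _) fun A _ =>
      Fw_in_left (tq_nonneg _ _ _) (tq_le_two hS1 h12 A)
  have hout := outer_le (b := -(π / 6)) hS1 (by omega : S1 ≤ S2) hκ1 hκ2
    (by rw [abs_neg, abs_of_pos (by positivity)]) z
  have e1 : -(√3 * (-(π / 6) * Lin S1 S2 κ1 κ2 z)) + 64 * Ect S1 S2 κ1 κ2 z =
      √3 * (π / 6) * Lin S1 S2 κ1 κ2 z + 64 * Ect S1 S2 κ1 κ2 z := by ring
  rw [e1] at hout
  have hXle : |X| ≤ (Arms2 (64 * S1)).indicator (fun _ => 2 * √3) z := by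
    rcases hX with ⟨hX, hn⟩ | ⟨L, hL, hLs, hX⟩
    · have hz : z ∈ Arms2 (64 * S1) := by
        obtain ⟨⟨v, hv, hv'⟩, g, hg, hg'⟩ := arms_of_inf hn (64 * S1)
        exact ⟨⟨v, hv, hv'⟩, g, by simpa [c0, fc] using hg, hg'⟩
      rw [Set.indicator_of_mem hz, hX, abs_two]
      linarith
    · by_cases ht : tq S1 S2 L = 0
      · rw [hX, ht, mul_zero, Xf_pos, sin_zero, mul_zero, neg_zero, abs_zero]
        exact Set.indicator_nonneg (fun _ _ => by positivity) z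
      · have hz : z ∈ Arms2 (64 * S1) := by
          have hsub : ¬ L ⊆ BF (0, 0) (64 * S1) := by
            intro hsub
            apply ht
            unfold tq
            have k1 : qm S1 L = 0 := qm_zero fun f hf hfL => by
              have h1 := (mem_VR.1 hf).1
              have h2 := hsub hfL
              rw [mem_BF] at h2
              have e : s0 f = sd (0, 0) f.1 := rfl
              omega
            have k2 : qm S2 L = 0 := qm_zero fun f hf hfL => by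
              have h1 := (mem_VR.1 hf).1
              have h2 := hsub hfL
              rw [mem_BF] at h2
              have e : s0 f = sd (0, 0) f.1 := rfl
              omega
            rw [k1, k2, add_zero]
          obtain ⟨⟨v, hv, hv'⟩, g, hg, hg'⟩ := arms_of_sep hL hLs hsub
          exact ⟨⟨v, hv, by omega⟩, g, by simpa [c0, fc] using hg, hg'⟩
        rw [Set.indicator_of_mem hz, hX, Xf_pos, abs_neg, abs_mul, abs_of_pos (by positivity)]
        have := abs_sin_le_one (-(π / 6) * tq S1 S2 L)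
        nlinarith
  rw [hW, abs_mul, abs_mul]
  have hI0 : 0 ≤ (Arms2 (64 * S1)).indicator (fun _ => 2 * √3) z :=
    Set.indicator_nonneg (fun _ _ => by positivity) z
  calc |X| * |∏ A ∈ Zi z (1024 * S2), Fw (π / 3 + -(π / 6) * tq S1 S2 A)| *
        |∏ A ∈ Zo z (1024 * S2), Fw (-(π / 6) * tq S1 S2 A)|
      ≤ (Arms2 (64 * S1)).indicator (fun _ => 2 * √3) z * 1 *
        exp (√3 * (π / 6) * Lin S1 S2 κ1 κ2 z + 64 * Ect S1 S2 κ1 κ2 z) := by
        refine mul_le_mul (mul_le_mul hXle hin (abs_nonneg _) hI0) hout (abs_nonneg _)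
          (by positivity)
    _ = _ := by rw [mul_one]

omit hκ1 hκ2 in
/-- the factor of the loop through the corner is nonnegative -/
theorem right_X {z : Cfz} {X : ℝ} (hX : (X = 2 ∧ ∀ A ∈ Lps z, ¬ sepC A c0) ∨
    ∃ L ∈ Lps z, sepC L c0 ∧ X = Xf (-(π / 3)) (π / 6 * tq S1 S2 L)) : 0 ≤ X ∧ X ≤ 2 * √3 := by
  have hpi := pi_pos
  have h3 := sqrt3_ge
  rcases hX with ⟨hX, -⟩ | ⟨L, -, -, hX⟩
  · rw [hX]; constructor <;> linarith
  · rw [hX, Xf_neg]
    have h0 := tq_nonneg S1 S2 L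
    have h2 := tq_le_two hS1 h12 L
    have e1 : 0 ≤ cos (π / 6 + π / 6 * tq S1 S2 L) :=
      cos_nonneg_of_mem_Icc ⟨by nlinarith, by nlinarith⟩
    have e2 := cos_le_one (π / 6 + π / 6 * tq S1 S2 L)
    constructor
    · positivity
    · nlinarith

omit hκ1 hκ2 in
/-- **right side off the bad event** -/
theorem right_nonneg {z : Cfz} (hz : z ∉ BadS S1 S2) : 0 ≤ WS (-(π / 3)) (π / 6) S1 S2 z := by
  classical
  obtain ⟨X, hX, hW⟩ := WS_eq (a := -(π / 3)) (b := π / 6) hS1 (by omega : S1 ≤ S2) (by ring) z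
  rw [hW]
  refine mul_nonneg (mul_nonneg (right_X hS1 h12 hX).1 ?_) ?_
  · refine Finset.prod_nonneg fun A _ => ?_
    have := Fw_in_right_ge (tq_nonneg S1 S2 A) (tq_le_two hS1 h12 A)
    linarith
  · refine Finset.prod_nonneg fun A hA => ?_
    refine Fw_out_nonneg (tq_nonneg S1 S2 A) ?_
    obtain ⟨hA1, hA2, -, -⟩ := mem_Zo hA
    unfold tq
    by_cases h1 : qm S1 A = 0
    · rw [h1, zero_add]; exact qm_le_one (by omega) A
    · by_cases h2 : qm S2 A = 0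
      · rw [h2, add_zero]; exact qm_le_one hS1 A
      · exact absurd ⟨A, hA1, hA2, exists_of_qm h1, exists_of_qm h2⟩ hz

/-- **right side on the bad event** -/
theorem right_bad {z : Cfz} (hz : z ∈ BadS S1 S2) : |WS (-(π / 3)) (π / 6) S1 S2 z| ≤
    2 * √3 * 2 ^ (NN (0, 0) 0 S1 z + (Mids S1 z).ncard + (RCs S2 z).ncard) *
      exp (-(√3 * (π / 6) * Lin S1 S2 κ1 κ2 z) + 64 * Ect S1 S2 κ1 κ2 z) := by
  classical
  have hpi := pi_pos
  obtain ⟨X, hX, hW⟩ := WS_eq (a := -(π / 3)) (b := π / 6) hS1 (by omega : S1 ≤ S2) (by ring) z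
  obtain ⟨hX0, hX1⟩ := right_X hS1 h12 hX
  have hout := outer_le (b := π / 6) hS1 (by omega : S1 ≤ S2) hκ1 hκ2
    (by rw [abs_of_pos (by positivity)]) z
  have e1 : -(√3 * (π / 6 * Lin S1 S2 κ1 κ2 z)) + 64 * Ect S1 S2 κ1 κ2 z =
      -(√3 * (π / 6) * Lin S1 S2 κ1 κ2 z) + 64 * Ect S1 S2 κ1 κ2 z := by ring
  rw [e1] at hout
  obtain ⟨B, hB, hBv, ⟨f, hf, hfB⟩, g, hg, hgB⟩ := hz
  -- the inner product
  set D := (Zi z (1024 * S2)).filter fun A => tq S1 S2 A ≠ 2 with hD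
  have hcard : D.card ≤ NN (0, 0) 0 S1 z + (Mids S1 z).ncard + (RCs S2 z).ncard := by
    set E1 := (BF (0, 0) S1).powerset.filter fun A => BF (0, 0) 0 ⊆ A ∧ A ∈ Lps z with hE1
    have hsub : D ⊆ E1 ∪ (Mids_fin S1 z).toFinset ∪ (RCs_fin S2 z).toFinset := by
      intro A hA
      rw [hD, Finset.mem_filter, mem_Zi] at hA
      obtain ⟨⟨hA1, hA2, hA3, hA4⟩, ht⟩ := hA
      rw [Finset.mem_union, Finset.mem_union, Set.Finite.mem_toFinset, Set.Finite.mem_toFinset, hE1,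
        Finset.mem_filter, Finset.mem_powerset]
      by_cases h1 : A ⊆ BF (0, 0) S1
      · left; left
        refine ⟨h1, ?_, hA1⟩
        rw [BF_zero, Finset.insert_subset_iff, Finset.singleton_subset_iff]
        exact ⟨hA2, hA3⟩
      · by_cases h2 : BF (0, 0) (1024 * S1) ⊆ A
        · right
          have hq1 : qm S1 A = 1 := qm_one hS1 fun f hf => h2 (by
            rw [mem_BF]; exact (mem_VR.1 hf).2)
          -- `A` is not inside the ring 2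
          have hAB : g ∈ A := by
            rcases lam hA1 hB with h3 | h3 | h3
            · exact absurd (h3 hA2) hBv
            · exact h3 hgB
            · exfalso
              rw [Finset.disjoint_left] at h3
              refine h3 (h2 ?_) hfB
              rw [mem_BF]; exact (mem_VR.1 hf).2
          refine ⟨hA1, ?_, ?_⟩
          · by_cases h4 : ∀ k, An (64 * S2) (1024 * S2) k → k ∈ A
            · exfalso
              apply ht
              have hq2 : qm S2 A = 1 := qm_one (by omega) fun k hk => h4 k (mem_VR.1 hk)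
              unfold tq; rw [hq1, hq2]; norm_num
            · push Not at h4
              obtain ⟨k, hk, hkA⟩ := h4
              exact cut_ann (by positivity) (by omega) (mem_VR.1 hg) hk hAB hkA
          · have h5 := Wf850.sd_le_dia hA2 hAB
            have h6 := (mem_VR.1 hg).1
            have e : s0 g = sd v0.1 g.1 := rfl
            omega
        · left; right
          exact ⟨hA1, hA2, h1, h2⟩
    calc D.card ≤ (E1 ∪ (Mids_fin S1 z).toFinset ∪ (RCs_fin S2 z).toFinset).card :=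
          Finset.card_le_card hsub
      _ ≤ E1.card + (Mids_fin S1 z).toFinset.card + (RCs_fin S2 z).toFinset.card := by
          have k1 := Finset.card_union_le (E1 ∪ (Mids_fin S1 z).toFinset) (RCs_fin S2 z).toFinset
          have k2 := Finset.card_union_le E1 (Mids_fin S1 z).toFinset
          omega
      _ = NN (0, 0) 0 S1 z + (Mids S1 z).ncard + (RCs S2 z).ncard := by
          rw [← Set.ncard_eq_toFinset_card _ (Mids_fin S1 z),
            ← Set.ncard_eq_toFinset_card _ (RCs_fin S2 z)]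
          unfold NN
          rw [hE1]
  have hin0 : 0 ≤ ∏ A ∈ Zi z (1024 * S2), Fw (-(π / 3) + π / 6 * tq S1 S2 A) :=
    Finset.prod_nonneg fun A _ => by
      have := Fw_in_right_ge (tq_nonneg S1 S2 A) (tq_le_two hS1 h12 A)
      linarith
  have hin : ∏ A ∈ Zi z (1024 * S2), Fw (-(π / 3) + π / 6 * tq S1 S2 A) ≤
      2 ^ (NN (0, 0) 0 S1 z + (Mids S1 z).ncard + (RCs S2 z).ncard) := by
    rw [← Finset.prod_filter_mul_prod_filter_not (Zi z (1024 * S2)) (fun A => tq S1 S2 A ≠ 2)]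
    have k1 : ∏ A ∈ (Zi z (1024 * S2)).filter (fun A => ¬ tq S1 S2 A ≠ 2),
        Fw (-(π / 3) + π / 6 * tq S1 S2 A) = 1 := by
      refine Finset.prod_eq_one fun A hA => ?_
      rw [Finset.mem_filter, not_not] at hA
      rw [hA.2, Fw_in_right, show π / 6 * 2 = π / 3 by ring, cos_pi_div_three]
      norm_num
    rw [k1, mul_one]
    calc ∏ A ∈ D, Fw (-(π / 3) + π / 6 * tq S1 S2 A)
        ≤ ∏ _A ∈ D, (2 : ℝ) := by
          refine Finset.prod_le_prod (fun A _ => ?_) fun A _ => ?_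
          · have := Fw_in_right_ge (tq_nonneg S1 S2 A) (tq_le_two hS1 h12 A)
            linarith
          · exact (le_abs_self _).trans (Vx107.abs_Fw_le _)
      _ = 2 ^ D.card := by rw [Finset.prod_const]
      _ ≤ _ := pow_le_pow_right₀ (by norm_num) hcard
  rw [hW, abs_mul, abs_mul, abs_of_nonneg hX0, abs_of_nonneg hin0]
  exact mul_le_mul (mul_le_mul hX1 hin hin0 (by positivity)) hout (abs_nonneg _) (by positivity)

end

/-! ### the good event -/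

/-- a loop not around `v0` and meeting the box `BF 0 n` stays inside `BF 0 (m+1)` if there is an
open circuit in the annulus -/
theorem circ_sub {z : Cfz} {n m : ℕ} (h : z ∈ CircZ (0, 0) n m) {A : Finset Face} (hA : A ∈ Lps z)
    (hv : v0 ∉ A) {f : Face} (hf : s0 f < n) (hfA : f ∈ A) : A ⊆ BF (0, 0) (m + 1) := by
  by_contra hcon
  have hn0 := s0_nonneg f
  have h1 : Splits A (BF (0, 0) (n - 1)) :=
    ⟨⟨f, by rw [mem_BF]; have e : s0 f = sd (0, 0) f.1 := rfl; omega, hfA⟩, v0, by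
      rw [mem_BF]; show s0 v0 ≤ _; rw [s0_v0]; omega, hv⟩
  obtain ⟨-, k, g, hk, hg, hkg⟩ := cross2 hA h1 hcon
  have h2 : Rch (dual z) k g := by
    unfold DCl at hkg
    have h3 : Relation.ReflTransGen (DStep fun e => z e = false) k g := hkg
    clear hkg hg
    induction h3 with
    | refl => exact .refl
    | tail _ hs ih =>
      refine ih.tail (dstep_dual.1 ?_)
      obtain ⟨e, he, hh⟩ := hs
      exact ⟨e, by simp [he], hh⟩
  have h4 := circ_block' h (f := k) (by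
    rw [Crest.Agent.R161.Ann374.mem_ball]
    rw [sd0_le] at hk
    simp only; omega) h2
  rw [Crest.Agent.R161.Ann374.mem_ball] at h4
  have h5 : sd (0, 0) g ≤ m := by rw [sd0_le]; simp only at h4; omega
  omega

section

variable {S1 S2 κ1 κ2 : ℕ} (hS1 : 1 ≤ S1) (h12 : 65 * S1 ≤ S2) (hκ1 : 2 ^ κ1 = 16 * S1)
  (hκ2 : 2 ^ κ2 = 16 * S2)

/-- the good event -/
structure GoodS (S1 S2 : ℕ) (z : Cfz) : Prop where
  g1 : dual z ∈ CircZ (0, 0) (4 * S1) (8 * S1)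
  g2 : z ∈ CircZ (0, 0) (128 * S1) (256 * S1)
  g3 : z ∈ CircZ (0, 0) (2048 * S1) (4096 * S1)
  g4 : z ∈ CircZ (0, 0) (128 * S2) (256 * S2)

include hS1 h12

theorem good_tq {z : Cfz} (hz : GoodS S1 S2 z) {A : Finset Face} (hA : A ∈ Lps z) (hv : v0 ∉ A) :
    tq S1 S2 A ≤ 99 / 100 ∧ (qm S1 A = 0 ∨ qm S2 A = 0) := by
  have hq : ∀ S : ℕ, 1 ≤ S → z ∈ CircZ (0, 0) (128 * S) (256 * S) → qm S A ≤ 99 / 100 := by
    intro S hS hc
    by_cases h : ∀ f ∈ A, ¬ s0 f < 128 * S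
    · exact qm_le_of_miss hS h
    · push Not at h
      obtain ⟨f, hfA, hf⟩ := h
      have h1 := circ_sub hc hA hv (f := f) (by push_cast; exact hf) hfA
      refine qm_le_of_sub hS ?_
      push_cast at h1
      exact h1
  have h0 : qm S1 A = 0 ∨ qm S2 A = 0 := by
    by_contra hcon
    push Not at hcon
    obtain ⟨f, hf, hfA⟩ := exists_of_qm hcon.1
    obtain ⟨g, hg, hgA⟩ := exists_of_qm hcon.2
    have h1 := circ_sub hz.g3 hA hv (f := f) (by
      have := (mem_VR.1 hf).2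
      push_cast
      omega) hfA
    have h2 := h1 hgA
    rw [mem_BF] at h2
    have h3 := (mem_VR.1 hg).1
    have e : s0 g = sd (0, 0) g.1 := rfl
    push_cast at h2
    omega
  refine ⟨?_, h0⟩
  unfold tq
  rcases h0 with h0 | h0
  · rw [h0, zero_add]; exact hq S2 (by omega) hz.g4
  · rw [h0, add_zero]; exact hq S1 hS1 hz.g2


/-- the loop through the corner does not meet the rings -/
theorem good_X {z : Cfz} (hz : GoodS S1 S2 z) {X : ℝ}
    (hX : (X = 2 ∧ ∀ A ∈ Lps z, ¬ sepC A c0) ∨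
    ∃ L ∈ Lps z, sepC L c0 ∧ X = Xf (-(π / 3)) (π / 6 * tq S1 S2 L)) : 2 ≤ X := by
  have hpi := pi_pos
  have h3 := sqrt3_ge
  rcases hX with ⟨hX, -⟩ | ⟨L, hL, hLs, hX⟩
  · rw [hX]
  · have hsub : L ⊆ BF (0, 0) (64 * S1) := by
      by_contra hcon
      obtain ⟨⟨v, hv, hv'⟩, -⟩ := arms_of_sep hL hLs hcon
      have h4 : Rch z (0, 0) v := hv
      have h5 := circ_block hz.g1 (u := (0, 0)) (by
        rw [Crest.Agent.R161.Ann374.mem_ball]; simp only; omega) h4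
      rw [Crest.Agent.R161.Ann374.mem_ball] at h5
      have h6 : sd (0, 0) v ≤ 8 * S1 + 1 := by rw [sd0_le]; simp only at h5; omega
      omega
    have k1 : qm S1 L = 0 := qm_zero fun f hf hfL => by
      have h1 := (mem_VR.1 hf).1
      have h2 := hsub hfL
      rw [mem_BF] at h2
      have e : s0 f = sd (0, 0) f.1 := rfl
      omega
    have k2 : qm S2 L = 0 := qm_zero fun f hf hfL => by
      have h1 := (mem_VR.1 hf).1
      have h2 := hsub hfL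
      rw [mem_BF] at h2
      have e : s0 f = sd (0, 0) f.1 := rfl
      omega
    have ht : tq S1 S2 L = 0 := by unfold tq; rw [k1, k2, add_zero]
    rw [hX, ht, mul_zero, Xf_neg, add_zero, cos_pi_div_six]
    have h4 := sqrt3_sq
    nlinarith

include hκ1 hκ2

/-- **right side on the good event** -/
theorem right_good {C : ℝ} (hC : 0 ≤ C) (hlow : ∀ x : ℝ, 0 ≤ x → x ≤ 99 / 100 →
      exp (-(√3 * (π / 6 * x)) - C * (π / 6 * x) ^ 2) ≤ Fw (π / 6 * x)) {z : Cfz}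
    (hz : GoodS S1 S2 z) :
    2 ^ NN (0, 0) 0 S1 z *
      exp (-(√3 * (π / 6) * Lin S1 S2 κ1 κ2 z) - (4 + 2 * C) * Ect S1 S2 κ1 κ2 z) ≤
      WS (-(π / 3)) (π / 6) S1 S2 z := by
  classical
  have hpi := pi_pos
  obtain ⟨X, hX, hW⟩ := WS_eq (a := -(π / 3)) (b := π / 6) hS1 (by omega : S1 ≤ S2) (by ring) z
  have hX2 := good_X hS1 h12 hz hX
  have hout := outer_ge hS1 (by omega : S1 ≤ S2) hκ1 hκ2 hC hlow (z := z) fun A hA => by
    obtain ⟨hA1, hA2, -, -⟩ := mem_Zo hA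
    exact (good_tq hS1 h12 hz hA1 hA2).1
  have e1 : -(√3 * (π / 6 * Lin S1 S2 κ1 κ2 z)) - (4 + 2 * C) * Ect S1 S2 κ1 κ2 z =
      -(√3 * (π / 6) * Lin S1 S2 κ1 κ2 z) - (4 + 2 * C) * Ect S1 S2 κ1 κ2 z := by ring
  rw [e1] at hout
  have hge : ∀ A, 1 ≤ Fw (-(π / 3) + π / 6 * tq S1 S2 A) := fun A =>
    Fw_in_right_ge (tq_nonneg S1 S2 A) (tq_le_two hS1 (by omega) A)
  -- the inner product
  have hin : (2 : ℝ) ^ NN (0, 0) 0 S1 z ≤
      ∏ A ∈ Zi z (1024 * S2), Fw (-(π / 3) + π / 6 * tq S1 S2 A) := by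
    set E1 := (BF (0, 0) S1).powerset.filter fun A => BF (0, 0) 0 ⊆ A ∧ A ∈ Lps z with hE1
    have hsub : E1 ⊆ Zi z (1024 * S2) := by
      intro A hA
      rw [hE1, Finset.mem_filter, Finset.mem_powerset] at hA
      obtain ⟨h1, h2, h3⟩ := hA
      rw [BF_zero, Finset.insert_subset_iff, Finset.singleton_subset_iff] at h2
      rw [mem_Zi]
      refine ⟨h3, h2.1, h2.2, ⟨v0, ?_, h2.1⟩, (((S2 : ℤ), 0), false), ?_, fun h => ?_⟩
      · rw [mem_BF]; show s0 v0 ≤ _; rw [s0_v0]; positivity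
      · rw [mem_BF, sd0_le]; dsimp only; omega
      · have h4 := h1 h
        rw [mem_BF, sd0_le] at h4
        dsimp only at h4
        omega
    rw [← Finset.prod_sdiff hsub]
    have k1 : (1 : ℝ) ≤ ∏ A ∈ Zi z (1024 * S2) \ E1, Fw (-(π / 3) + π / 6 * tq S1 S2 A) := by
      have h5 : ∏ _A ∈ Zi z (1024 * S2) \ E1, (1 : ℝ) ≤
          ∏ A ∈ Zi z (1024 * S2) \ E1, Fw (-(π / 3) + π / 6 * tq S1 S2 A) :=
        Finset.prod_le_prod (fun _ _ => zero_le_one) fun A _ => hge A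
      rwa [Finset.prod_const_one] at h5
    have k2 : ∏ A ∈ E1, Fw (-(π / 3) + π / 6 * tq S1 S2 A) = 2 ^ NN (0, 0) 0 S1 z := by
      have h5 : ∀ A ∈ E1, Fw (-(π / 3) + π / 6 * tq S1 S2 A) = 2 := by
        intro A hA
        rw [hE1, Finset.mem_filter, Finset.mem_powerset] at hA
        have hz0 : ∀ S : ℕ, S1 ≤ 64 * S → qm S A = 0 := fun S hS => qm_zero fun f hf hfA => by
          have h6 := (mem_VR.1 hf).1
          have h7 := hA.1 hfA
          rw [mem_BF] at h7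
          have e : s0 f = sd (0, 0) f.1 := rfl
          omega
        have ht : tq S1 S2 A = 0 := by
          unfold tq; rw [hz0 S1 (by omega), hz0 S2 (by omega), add_zero]
        rw [Fw_in_right, ht, mul_zero, cos_zero, mul_one]
      rw [Finset.prod_congr rfl h5, Finset.prod_const]
      unfold NN
      rw [hE1]
    rw [k2]
    have h6 : (0 : ℝ) ≤ 2 ^ NN (0, 0) 0 S1 z := by positivity
    nlinarith
  rw [hW]
  have h7 : (0 : ℝ) ≤ 2 ^ NN (0, 0) 0 S1 z := by positivity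
  calc 2 ^ NN (0, 0) 0 S1 z *
      exp (-(√3 * (π / 6) * Lin S1 S2 κ1 κ2 z) - (4 + 2 * C) * Ect S1 S2 κ1 κ2 z)
      ≤ (X * ∏ A ∈ Zi z (1024 * S2), Fw (-(π / 3) + π / 6 * tq S1 S2 A)) *
        ∏ A ∈ Zo z (1024 * S2), Fw (π / 6 * tq S1 S2 A) := by
        refine mul_le_mul ?_ hout (exp_pos _).le ?_
        · nlinarith
        · have : 0 ≤ ∏ A ∈ Zi z (1024 * S2), Fw (-(π / 3) + π / 6 * tq S1 S2 A) := h7.trans hin
          exact mul_nonneg (by linarith) this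
    _ = _ := rfl

end

end Crest.Agent.R158.B612
end
end

-- ▼ part R158/Bg5_612
section

/-!
# Row 158, identity B (helper612), part 5: supports and local moments

* `Rg a b` : edges whose base point is at distance between `a` and `b` from the origin
* `dep_arms2`, `dep_NN`, `dep_circ`, `dep_circ'`, `dep_SS`
* `ring_pack`, `mids_pack` : local majorants with exponential moments
-/

set_option autoImplicit false

noncomputable section

namespace Crest.Agent.R158.B612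

open MeasureTheory hiding Lp
open Crest.Agent.R161.Geo729 Crest.Agent.R161.Dual374
open Crest.Agent.R161.Tas682 (sd)
open Crest.Agent.R161.Ifc372 (CircZ)
open Crest.Agent.R161.Ann374 (mem_ball)
open Crest.Agent.R158.It200 hiding hf
open Crest.Agent.R158.Wf850
open Crest.Agent.R158.Fr158 (bx mem_bx mem_bx_sd eIn mem_eIn)
open Crest.Agent.R158.Cn109 (lsW smalls mem_smalls SS QQ DepF VV Sup)
open Crest.Agent.R158.Rs689 (dual Dep nu hf dE annE mem_annE circ_dep fA_dE fB_dE PB)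
open Crest.Agent.R158.Em522 (starE)

/-- edges with base point at distance in `[a, b]` -/
def Rg (a b : ℤ) : Finset Edge :=
  ((bx (0, 0) b) ×ˢ (Finset.univ : Finset Bool)).filter fun e => a ≤ sd (0, 0) e.1

theorem mem_Rg {a b : ℤ} {e : Edge} : e ∈ Rg a b ↔ a ≤ sd (0, 0) e.1 ∧ sd (0, 0) e.1 ≤ b := by
  unfold Rg
  rw [Finset.mem_filter, Finset.mem_product, mem_bx_sd]
  simp only [Finset.mem_univ, and_true]
  tauto

theorem Rg_disj {a b a' b' : ℤ} (h : b < a') : Disjoint (Rg a b) (Rg a' b') := by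
  rw [Finset.disjoint_left]
  intro e he he'
  rw [mem_Rg] at he he'
  omega

theorem Rg_mono {a b a' b' : ℤ} (h1 : a' ≤ a) (h2 : b ≤ b') : Rg a b ⊆ Rg a' b' := by
  intro e he
  rw [mem_Rg] at he ⊢
  omega

/-! ### supports -/

theorem pstep_mem {z : Cfz} {u v : P2} {m : ℤ} (h : PStep (fun e => z e = true) u v)
    (hu : sd (0, 0) u ≤ m) (hv : sd (0, 0) v ≤ m) {z' : Cfz} (hz : ∀ e ∈ Rg 0 m, z e = z' e) :
    PStep (fun e => z' e = true) u v := by
  obtain ⟨e, he, hh⟩ := h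
  refine ⟨e, ?_, hh⟩
  show z' e = true
  rw [← hz e]
  · exact he
  · rw [mem_Rg]
    refine ⟨sd_nonneg' _ _, ?_⟩
    rcases hh with ⟨h1, h2⟩ | ⟨h1, h2⟩
    · have h3 : e.1 = u := h1.symm
      rw [h3]; exact hu
    · have h3 : e.1 = v := h2.symm
      rw [h3]; exact hv

theorem dstep_mem {z : Cfz} {u v : P2} {m : ℤ} (h : DStep (fun e => z e = false) u v)
    (hu : sd (0, 0) u ≤ m) (hv : sd (0, 0) v ≤ m) {z' : Cfz} (hz : ∀ e ∈ Rg 0 m, z e = z' e) :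
    DStep (fun e => z' e = false) u v := by
  obtain ⟨e, he, hh⟩ := h
  have hm : e ∈ Rg 0 m := by
    rw [mem_Rg]
    refine ⟨sd_nonneg' _ _, ?_⟩
    rcases hh with ⟨h1, h2⟩ | ⟨h1, h2⟩
    · have h3 : e.1 = u := h1.symm
      rw [h3]; exact hu
    · have h3 : e.1 = v := h2.symm
      rw [h3]; exact hv
  refine ⟨e, ?_, hh⟩
  show z' e = false
  rw [← hz e hm]
  exact he

/-- generic exit argument -/
theorem exit {α β : P2 → P2 → Prop} {m : ℤ} {u : P2} (hu : sd (0, 0) u ≤ m)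
    (hnear : ∀ u v, α u v → |u.1 - v.1| ≤ 1 ∧ |u.2 - v.2| ≤ 1)
    (hstep : ∀ v w, α v w → sd (0, 0) v ≤ m → sd (0, 0) w ≤ m → β v w) {v : P2}
    (h : Relation.ReflTransGen α u v) :
    (Relation.ReflTransGen β u v ∧ sd (0, 0) v ≤ m) ∨
      ∃ w, Relation.ReflTransGen β u w ∧ sd (0, 0) w = m := by
  induction h with
  | refl => exact Or.inl ⟨.refl, hu⟩
  | @tail b c _ h2 ih =>
    rcases ih with ⟨h3, h4⟩ | h3
    · by_cases h5 : sd (0, 0) b = m
      · exact Or.inr ⟨b, h3, h5⟩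
      · obtain ⟨k1, k2⟩ := hnear _ _ h2
        have h6 : sd (0, 0) c ≤ sd (0, 0) b + 1 :=
          sd_near (by rwa [abs_sub_comm]) (by rwa [abs_sub_comm])
        exact Or.inl ⟨h3.tail (hstep _ _ h2 h4 (by omega)), by omega⟩
    · exact Or.inr h3

theorem dep_arms2 {m : ℤ} (hm : 0 ≤ m) : Dep (Rg 0 m) (Arms2 m) := by
  have h00 : sd (0, 0) (0, 0) = 0 := by simp [sd]
  have key : ∀ z z' : Cfz, (∀ e ∈ Rg 0 m, z e = z' e) → z ∈ Arms2 m → z' ∈ Arms2 m := by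
    rintro z z' hz ⟨⟨v, hv, hvm⟩, g, hg, hgm⟩
    constructor
    · rcases exit (β := PStep (fun e => z' e = true)) (m := m) (u := (0, 0))
        (by rw [h00]; exact hm) (fun _ _ => pstep_near)
        (fun a b h1 h2 h3 => pstep_mem h1 h2 h3 hz) hv with ⟨h1, h2⟩ | ⟨w, h1, h2⟩
      · exact ⟨v, h1, hvm⟩
      · exact ⟨w, h1, h2.ge⟩
    · rcases exit (β := DStep (fun e => z' e = false)) (m := m) (u := (0, 0))
        (by rw [h00]; exact hm) (fun _ _ => dstep_near)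
        (fun a b h1 h2 h3 => dstep_mem h1 h2 h3 hz) hg with ⟨h1, h2⟩ | ⟨w, h1, h2⟩
      · exact ⟨g, h1, hgm⟩
      · exact ⟨w, h1, h2.ge⟩
  intro z z' h
  exact ⟨key z z' h, key z' z fun e he => (h e he).symm⟩

theorem arms2_anti {m n : ℤ} (h : m ≤ n) : Arms2 n ⊆ Arms2 m := by
  rintro z ⟨⟨v, hv, h1⟩, g, hg, h2⟩
  exact ⟨⟨v, hv, h.trans h1⟩, g, hg, h.trans h2⟩

theorem dep_NN (S : ℕ) : DepF (Rg 0 (S + 2)) (NN (0, 0) 0 S) := by
  refine (NN_dep (0, 0) 0 S).mono ?_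
  intro e he
  unfold annF at he
  rw [Finset.mem_sdiff, mem_eIn, mem_bx_sd] at he
  rw [mem_Rg]
  exact ⟨sd_nonneg' _ _, he.1.1⟩

theorem annE_sub (n m : ℕ) : annE (0, 0) n m ⊆ Rg (n - 1) (m + 1) := by
  intro e he
  rw [mem_annE, mem_ball, mem_ball, mem_ball, mem_ball] at he
  rw [mem_Rg, sd0_le]
  have h1 : ((n : ℤ) - 1 ≤ sd (0, 0) e.1) ↔ ¬ sd (0, 0) e.1 ≤ n - 2 := by omega
  rw [h1, sd0_le]
  obtain ⟨⟨a, b⟩, s⟩ := e
  obtain ⟨h2, h3⟩ := he
  cases s <;> simp only [fA, fB, if_true, Bool.false_eq_true, if_false] at h2 h3 ⊢ <;>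
    constructor <;> omega

theorem annE_sub' (n m : ℕ) : (annE (0, 0) n m).map dE.symm.toEmbedding ⊆ Rg (n - 2) (m + 2) := by
  intro e he
  rw [Finset.mem_map] at he
  obtain ⟨e', he', rfl⟩ := he
  have h0 : e' = dE (dE.symm e') := (dE.apply_symm_apply e').symm
  rw [h0, mem_annE, fA_dE, fB_dE, mem_ball, mem_ball, mem_ball, mem_ball] at he'
  show dE.symm e' ∈ _
  generalize dE.symm e' = e at he'
  rw [mem_Rg, sd0_le]
  have h1 : ((n : ℤ) - 2 ≤ sd (0, 0) e.1) ↔ ¬ sd (0, 0) e.1 ≤ n - 3 := by omega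
  rw [h1, sd0_le]
  obtain ⟨⟨a, b⟩, s⟩ := e
  obtain ⟨h2, h3⟩ := he'
  cases s <;> simp only [src, tgt, if_true, Bool.false_eq_true, if_false] at h2 h3 ⊢ <;>
    constructor <;> omega

theorem dep_circ (n m : ℕ) : Dep (Rg (n - 1) (m + 1)) (CircZ (0, 0) n m) :=
  (circ_dep (0, 0) n m).mono (annE_sub n m)

theorem dep_circ' (n m : ℕ) : Dep (Rg (n - 2) (m + 2)) (dual ⁻¹' CircZ (0, 0) n m) :=
  (circ_dep (0, 0) n m).dual.mono (annE_sub' n m)

theorem sup_sub {S κ : ℕ} (hκ : 2 ^ κ = 16 * S) :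
    ((VR S).biUnion fun v => (Finset.range κ).biUnion fun k => Sup lsW k v) ⊆
      Rg (48 * S) (1040 * S) := by
  classical
  intro e he
  rw [Finset.mem_biUnion] at he
  obtain ⟨v, hv, he⟩ := he
  rw [Finset.mem_biUnion] at he
  obtain ⟨k, hk, he⟩ := he
  have h1 := Cn109.sup_near lsW he
  have h2 : (2 : ℤ) ^ (k + 1) ≤ 16 * S := by
    have h3 : 2 ^ (k + 1) ≤ 2 ^ κ := Nat.pow_le_pow_right (by norm_num) (Finset.mem_range.1 hk)
    rw [hκ] at h3
    exact_mod_cast h3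
  rw [mem_VR] at hv
  obtain ⟨h4, h5⟩ := hv
  have h6 : sd e.1 v.1 ≤ 16 * S := by
    unfold sd
    rw [abs_sub_comm, abs_sub_comm v.1.2]
    exact max_le (h1.1.trans h2) (h1.2.trans h2)
  have h7 := sd_tri (0, 0) e.1 v.1
  have h8 := sd_tri (0, 0) v.1 e.1
  have h9 := sd_symm' v.1 e.1
  have e1 : s0 v = sd (0, 0) v.1 := rfl
  rw [mem_Rg]
  constructor <;> omega

theorem dep_SS {S κ : ℕ} (hκ : 2 ^ κ = 16 * S) :
    DepF (Rg (48 * S) (1040 * S)) (SS lsW (fun _ => uc S) (VR S) κ) :=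
  (Cn109.SS_dep lsW _ _ _).mono (sup_sub hκ)

theorem dep_QQ {S κ : ℕ} (hκ : 2 ^ κ = 16 * S) :
    DepF (Rg (48 * S) (1040 * S)) (QQ lsW (fun _ => uc S) (VR S) κ) :=
  (Cn109.QQ_dep lsW _ _ _).mono (sup_sub hκ)

theorem star_sub {x : P2} {r : ℕ} {a b : ℤ} (h1 : a ≤ sd (0, 0) x - r - 1)
    (h2 : sd (0, 0) x + r + 1 ≤ b) : starE x r ⊆ Rg a b := by
  intro e he
  unfold starE at he
  rw [Finset.mem_product, Finset.mem_product, Finset.mem_Icc, Finset.mem_Icc] at he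
  obtain ⟨⟨⟨h3, h4⟩, h5, h6⟩, -⟩ := he
  have h7 : sd x e.1 ≤ r + 1 := by
    unfold sd
    refine max_le ?_ ?_ <;> rw [abs_le] <;> constructor <;> linarith
  have h8 := sd_tri (0, 0) x e.1
  have h9 := sd_tri (0, 0) e.1 x
  have h10 := sd_symm' x e.1
  rw [mem_Rg]
  constructor <;> omega

/-! ### the grid -/

/-- indices of the grid -/
def Gi : Finset (ℤ × ℤ) :=
  (Finset.Icc (-130) 130 ×ˢ Finset.Icc (-130) 130).filter fun i => 7 ≤ max |i.1| |i.2|

theorem mem_Gi {i : ℤ × ℤ} : i ∈ Gi ↔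
    ((-130 ≤ i.1 ∧ i.1 ≤ 130) ∧ (-130 ≤ i.2 ∧ i.2 ≤ 130)) ∧ 7 ≤ max |i.1| |i.2| := by
  unfold Gi
  rw [Finset.mem_filter, Finset.mem_product, Finset.mem_Icc, Finset.mem_Icc]

attribute [irreducible] Gi

theorem Gi_ne : Gi.Nonempty := by
  refine ⟨((7 : ℤ), (0 : ℤ)), ?_⟩
  rw [mem_Gi]
  refine ⟨⟨⟨by norm_num, by norm_num⟩, by norm_num, by norm_num⟩, ?_⟩
  exact le_max_of_le_left (by norm_num)

/-- grid points -/
def gp (S : ℕ) (i : ℤ × ℤ) : P2 := (8 * S * i.1, 8 * S * i.2)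

theorem sd_gp (S : ℕ) (i : ℤ × ℤ) : sd (0, 0) (gp S i) = 8 * S * max |i.1| |i.2| := by
  rw [sd0_eq]
  unfold gp
  have h : (0 : ℤ) ≤ 8 * S := by positivity
  simp only
  rw [abs_mul (8 * (S : ℤ)) i.1, abs_mul (8 * (S : ℤ)) i.2, abs_of_nonneg h,
    mul_max_of_nonneg _ _ h]

theorem round_near {S : ℕ} (hS : 1 ≤ S) (a : ℤ) :
    ∃ i : ℤ, 8 * S * i - a ≤ 4 * S ∧ a - 8 * S * i ≤ 4 * S := by
  refine ⟨(a + 4 * S) / (8 * S), ?_, ?_⟩
  · have h := Int.mul_ediv_self_le (x := a + 4 * S) (k := 8 * S) (by positivity)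
    linarith
  · have h := Int.lt_mul_ediv_self_add (x := a + 4 * S) (k := 8 * S) (by positivity)
    linarith

theorem exists_gp {S : ℕ} (hS : 1 ≤ S) {v : P2} (h1 : 64 * S < sd (0, 0) v)
    (h2 : sd (0, 0) v ≤ 1024 * S) : ∃ i ∈ Gi, sd (gp S i) v ≤ 4 * S := by
  have hs : (1 : ℤ) ≤ S := by exact_mod_cast hS
  obtain ⟨i, hi1, hi2⟩ := round_near hS v.1
  obtain ⟨j, hj1, hj2⟩ := round_near hS v.2
  rw [sd0_le] at h2
  rw [lt_sd0] at h1
  have bi : -130 ≤ i ∧ i ≤ 130 := by constructor <;> nlinarith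
  have bj : -130 ≤ j ∧ j ≤ 130 := by constructor <;> nlinarith
  refine ⟨(i, j), ?_, ?_⟩
  · rw [mem_Gi]
    refine ⟨⟨bi, bj⟩, ?_⟩
    simp only
    rw [le_max_iff, le_abs, le_abs]
    rcases h1 with h1 | h1 | h1 | h1
    · left; right; nlinarith
    · left; left; nlinarith
    · right; right; nlinarith
    · right; left; nlinarith
  · unfold sd gp
    refine max_le ?_ ?_ <;> rw [abs_le] <;> simp only <;> constructor <;> linarith

/-- **local majorant at the ring** -/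
theorem ring_count (t : ℝ) (ht : 0 ≤ t) : ∃ G : ℝ, 1 ≤ G ∧ ∀ S : ℕ, 1 ≤ S → ∃ KT : Cfz → ℕ,
    DepF (Rg (38 * S) (1060 * S)) KT ∧ (∀ z, (RCs S z).ncard ≤ KT z) ∧
      ∫ z, Real.exp (t * KT z) ∂(nu hf) ≤ G := by
  classical
  obtain ⟨C, hC, h⟩ := Lc522.l7 (Real.exp (Gi.card * t)) (Real.one_le_exp (by positivity))
  refine ⟨C, hC, fun S hS => ?_⟩
  have h' : ∀ i : ℤ × ℤ, ∃ K : Cfz → ℕ, DepF (starE (gp S i) (2 * (8 * S))) K ∧
      ∫ z, (Real.exp (Gi.card * t)) ^ K z ∂(nu hf) ≤ C ∧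
      ∀ z : Cfz, {A | A ∈ Lps z ∧ Splits A (BF (gp S i) (8 * S : ℕ)) ∧
        8 * S ≤ 2 * (Cn109.dia A + 1)}.ncard ≤ K z := by
    intro i
    obtain ⟨K, h1, h2, h3⟩ := h (gp S i) (8 * S) (by omega)
    exact ⟨K, h1, h2, h3⟩
  choose K hK1 hK2 hK3 using h'
  refine ⟨fun z => ∑ i ∈ Gi, K i z, ?_, ?_, ?_⟩
  · intro z z' hz
    refine Finset.sum_congr rfl fun i hi => hK1 i z z' fun e he => hz e ?_
    rw [mem_Gi] at hi
    obtain ⟨⟨⟨b1, b2⟩, b3, b4⟩, b5⟩ := hi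
    have b6 : max |i.1| |i.2| ≤ 130 := max_le (abs_le.2 ⟨b1, b2⟩) (abs_le.2 ⟨b3, b4⟩)
    have hs : (1 : ℤ) ≤ S := by exact_mod_cast hS
    refine star_sub (a := 38 * S) (b := 1060 * S) ?_ ?_ he
    · rw [sd_gp]; push_cast; nlinarith
    · rw [sd_gp]; push_cast; nlinarith
  · intro z
    have hsub : RCs S z ⊆ ⋃ i ∈ Gi, {A | A ∈ Lps z ∧ Splits A (BF (gp S i) (8 * S : ℕ)) ∧
        8 * S ≤ 2 * (Cn109.dia A + 1)} := by
      rintro A ⟨hA, ⟨d, hd1, hd2, hd3⟩, hd⟩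
      obtain ⟨i, hi, hi'⟩ := exists_gp hS hd1.1 hd1.2
      rw [Set.mem_iUnion₂]
      have hs : (1 : ℤ) ≤ S := by exact_mod_cast hS
      have hi'' : sd (gp S i) d.1 ≤ 4 * S := hi'
      refine ⟨i, hi, hA, splits_of_cut (d := d) ?_ ?_ hd3, ?_⟩
      · push_cast; linarith
      · have := (sd_corner (gp S i) d).2
        push_cast; linarith
      · have : Wf850.dia A = Cn109.dia A := rfl
        omega
    have hfin : ∀ i : ℤ × ℤ, {A | A ∈ Lps z ∧ Splits A (BF (gp S i) (8 * S : ℕ)) ∧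
        8 * S ≤ 2 * (Cn109.dia A + 1)}.Finite := fun i =>
      (fin_split z (gp S i) (8 * S : ℕ)).subset fun A hA => ⟨hA.1, hA.2.1⟩
    calc (RCs S z).ncard ≤ (⋃ i ∈ Gi, {A | A ∈ Lps z ∧ Splits A (BF (gp S i) (8 * S : ℕ)) ∧
        8 * S ≤ 2 * (Cn109.dia A + 1)}).ncard :=
          Set.ncard_le_ncard hsub (Set.Finite.biUnion (Finset.finite_toSet _) fun i _ => hfin i)
      _ ≤ ∑ i ∈ Gi, {A | A ∈ Lps z ∧ Splits A (BF (gp S i) (8 * S : ℕ)) ∧
        8 * S ≤ 2 * (Cn109.dia A + 1)}.ncard := Finset.set_ncard_biUnion_le _ _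
      _ ≤ ∑ i ∈ Gi, K i z := Finset.sum_le_sum fun i _ => hK3 i z
  · have hne : Gi.Nonempty := Gi_ne
    have e1 : ∀ z, t * ((∑ i ∈ Gi, K i z : ℕ) : ℝ) = ∑ i ∈ Gi, t * (K i z : ℝ) := by
      intro z; push_cast; rw [Finset.mul_sum]
    simp only [e1]
    have e2 : ∀ i z, Real.exp (Gi.card * (t * (K i z : ℝ))) = (Real.exp (Gi.card * t)) ^ K i z := by
      intro i z
      rw [← Real.exp_nat_mul]
      congr 1; ring
    refine Hd109.exp_sum_le (μ := nu hf) hne (fun i _ => ?_) fun i _ => ?_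
    · exact ((hK1 i).comp fun n : ℕ => Real.exp (Gi.card * (t * (n : ℝ)))).integrable _
    · simp only [e2]
      exact hK2 i

/-- **local majorant of the middle loops around the corner** -/
theorem mids_count (t : ℝ) (ht : 0 ≤ t) : ∃ G : ℝ, 1 ≤ G ∧ ∀ S : ℕ, 1 ≤ S → ∃ KM : Cfz → ℕ,
    DepF (Rg 0 (2049 * S)) KM ∧ (∀ z, (Mids S z).ncard ≤ KM z) ∧
      ∫ z, Real.exp (t * KM z) ∂(nu hf) ≤ G := by
  classical
  obtain ⟨C, hC, h⟩ := Lc522.l7 (Real.exp ((Finset.range 11).card * t))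
    (Real.one_le_exp (by positivity))
  refine ⟨C, hC, fun S hS => ?_⟩
  have hpos : ∀ j : ℕ, 1 ≤ 2 ^ j * S := fun j => Nat.one_le_iff_ne_zero.2 (by positivity)
  have h' : ∀ j : ℕ, ∃ K : Cfz → ℕ, DepF (starE (0, 0) (2 * (2 ^ j * S))) K ∧
      ∫ z, (Real.exp ((Finset.range 11).card * t)) ^ K z ∂(nu hf) ≤ C ∧
      ∀ z : Cfz, {A | A ∈ Lps z ∧ Splits A (BF (0, 0) (2 ^ j * S : ℕ)) ∧
        2 ^ j * S ≤ 2 * (Cn109.dia A + 1)}.ncard ≤ K z := by
    intro j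
    obtain ⟨K, h1, h2, h3⟩ := h (0, 0) (2 ^ j * S) (hpos j)
    exact ⟨K, h1, h2, h3⟩
  choose K hK1 hK2 hK3 using h'
  refine ⟨fun z => ∑ i ∈ Finset.range 11, K i z, ?_, ?_, ?_⟩
  · intro z z' hz
    refine Finset.sum_congr rfl fun i hi => hK1 i z z' fun e he => hz e ?_
    rw [mem_Rg]
    refine ⟨sd_nonneg' _ _, ?_⟩
    have h1 := star_sub (x := (0, 0)) (r := 2 * (2 ^ i * S)) (a := -(2 * (2 ^ i * S) : ℕ) - 1)
      (b := (2 * (2 ^ i * S) : ℕ) + 1) (by simp [sd]) (by simp [sd]) he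
    rw [mem_Rg] at h1
    refine h1.2.trans ?_
    have h2 : 2 ^ i ≤ 2 ^ 10 := Nat.pow_le_pow_right (by norm_num)
      (by have := Finset.mem_range.1 hi; omega)
    have h3 : 2 ^ i * S ≤ 2 ^ 10 * S := Nat.mul_le_mul_right S h2
    have h4 : 2 * (2 ^ i * S) + 1 ≤ 2049 * S := by omega
    exact_mod_cast h4
  · intro z
    have hsub : Mids S z ⊆ ⋃ j ∈ Finset.range 11, {A | A ∈ Lps z ∧
        Splits A (BF (0, 0) (2 ^ j * S : ℕ)) ∧ 2 ^ j * S ≤ 2 * (Cn109.dia A + 1)} := by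
      rintro A ⟨hA, hv, h1, h2⟩
      have e10 : ((2 ^ 10 * S : ℕ) : ℤ) = 1024 * S := by push_cast; ring
      have hex : ∃ j : ℕ, ¬ BF (0, 0) ((2 ^ j * S : ℕ) : ℤ) ⊆ A := ⟨10, by
        rw [e10]
        exact h2⟩
      have hj1 := Nat.find_spec hex
      have hj2 : Nat.find hex ≤ 10 := Nat.find_min' hex (by
        rw [e10]
        exact h2)
      rw [Set.mem_iUnion₂]
      refine ⟨Nat.find hex, Finset.mem_range.2 (by omega), hA, ?_, ?_⟩
      · rw [Finset.not_subset] at hj1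
        obtain ⟨g, hg, hgA⟩ := hj1
        exact ⟨⟨v0, by rw [mem_BF]; show s0 v0 ≤ _; rw [s0_v0]; positivity, hv⟩, g, hg, hgA⟩
      · rcases Nat.eq_zero_or_pos (Nat.find hex) with h0 | h0
        · rw [h0, pow_zero, one_mul]
          rw [Finset.not_subset] at h1
          obtain ⟨g, hgA, hg⟩ := h1
          rw [mem_BF] at hg
          have h3 := Wf850.sd_le_dia hv hgA
          have e : sd v0.1 g.1 = sd (0, 0) g.1 := rfl
          have : Wf850.dia A = Cn109.dia A := rfl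
          omega
        · have h3 := Nat.find_min hex (m := Nat.find hex - 1) (by omega)
          rw [not_not] at h3
          set n := 2 ^ (Nat.find hex - 1) * S with hn
          have h4 : 2 ^ Nat.find hex * S = 2 * n := by
            rw [hn, ← mul_assoc, ← pow_succ', Nat.sub_add_cancel h0]
          rw [h4]
          have k1 : (((n : ℤ), (0 : ℤ)), false) ∈ A := h3 (by
            rw [mem_BF, sd0_le]; dsimp only; omega)
          have k2 : ((-(n : ℤ), (0 : ℤ)), false) ∈ A := h3 (by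
            rw [mem_BF, sd0_le]; dsimp only; omega)
          have h5 := Wf850.sd_le_dia k2 k1
          have h6 : (2 * n : ℤ) ≤ sd ((-(n : ℤ), (0 : ℤ)) : P2) ((n : ℤ), (0 : ℤ)) := by
            unfold sd
            refine le_max_of_le_left ?_
            simp only
            rw [sub_neg_eq_add]
            refine le_trans ?_ (le_abs_self _)
            linarith
          have : Wf850.dia A = Cn109.dia A := rfl
          dsimp only at h5
          omega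
    have hfin : ∀ j : ℕ, {A | A ∈ Lps z ∧ Splits A (BF (0, 0) (2 ^ j * S : ℕ)) ∧
        2 ^ j * S ≤ 2 * (Cn109.dia A + 1)}.Finite := fun j =>
      (fin_split z (0, 0) (2 ^ j * S : ℕ)).subset fun A hA => ⟨hA.1, hA.2.1⟩
    calc (Mids S z).ncard ≤ (⋃ j ∈ Finset.range 11, {A | A ∈ Lps z ∧
        Splits A (BF (0, 0) (2 ^ j * S : ℕ)) ∧ 2 ^ j * S ≤ 2 * (Cn109.dia A + 1)}).ncard :=
          Set.ncard_le_ncard hsub (Set.Finite.biUnion (Finset.finite_toSet _) fun i _ => hfin i)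
      _ ≤ ∑ j ∈ Finset.range 11, {A | A ∈ Lps z ∧ Splits A (BF (0, 0) (2 ^ j * S : ℕ)) ∧
        2 ^ j * S ≤ 2 * (Cn109.dia A + 1)}.ncard := Finset.set_ncard_biUnion_le _ _
      _ ≤ ∑ j ∈ Finset.range 11, K j z := Finset.sum_le_sum fun i _ => hK3 i z
  · have hne : (Finset.range 11).Nonempty := ⟨0, by simp⟩
    have e1 : ∀ z, t * ((∑ i ∈ Finset.range 11, K i z : ℕ) : ℝ) =
        ∑ i ∈ Finset.range 11, t * (K i z : ℝ) := by
      intro z; push_cast; rw [Finset.mul_sum]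
    simp only [e1]
    have e2 : ∀ i z, Real.exp ((Finset.range 11).card * (t * (K i z : ℝ))) =
        (Real.exp ((Finset.range 11).card * t)) ^ K i z := by
      intro i z
      rw [← Real.exp_nat_mul]
      congr 1; ring
    refine Hd109.exp_sum_le (μ := nu hf) hne (fun i _ => ?_) fun i _ => ?_
    · exact ((hK1 i).comp fun n : ℕ =>
        Real.exp ((Finset.range 11).card * (t * (n : ℝ)))).integrable _
    · simp only [e2]
      exact hK2 i

end Crest.Agent.R158.B612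
end
end

-- ▼ part R158/Tr1_612
section

/-!
# Row 158 (helper612): truncation

* `trunc` : `∫ X Y ≤ M ∫ X + M⁻ᑫ / 2 * (∫ X² + ∫ Y^(2q+2))` for `X, Y ≥ 0`, `M > 0`
* `tr_eps` : if `∫ X² ≤ n^C`, `n^(-C) ≤ ∫ X` and `∫ Y^(2q+2) ≤ G` then `∫ X Y ≤ n^ε ∫ X` for large `n`
* `low_cs` : `(∫ F)² ≤ (∫ F Z) (∫ F / Z)`
-/

set_option autoImplicit false

noncomputable section

namespace Crest.Agent.R158.Tr612

open MeasureTheory

section

variable {Ω : Type*} {m : MeasurableSpace Ω} {μ : Measure Ω}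

theorem trunc_pt {x y M : ℝ} (hx : 0 ≤ x) (hy : 0 ≤ y) (hM : 0 < M) (q : ℕ) :
    x * y ≤ M * x + (M ^ q)⁻¹ / 2 * (x ^ 2 + y ^ (2 * q + 2)) := by
  have hMq : 0 < (M ^ q)⁻¹ := by positivity
  have h2 : 0 ≤ y ^ (2 * q + 2) := pow_nonneg hy _
  rcases le_total y M with h | h
  · have h1 : x * y ≤ M * x := by nlinarith
    have h3 : 0 ≤ (M ^ q)⁻¹ / 2 * (x ^ 2 + y ^ (2 * q + 2)) := by positivity
    linarith
  · have h1 : y ≤ y ^ (q + 1) * (M ^ q)⁻¹ := by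
      rw [pow_succ, mul_comm (y ^ q), mul_assoc]
      refine le_mul_of_one_le_right hy ?_
      rw [← div_eq_mul_inv, one_le_div (by positivity)]
      exact pow_le_pow_left₀ hM.le h q
    have h3 : x * y ≤ x * (y ^ (q + 1) * (M ^ q)⁻¹) := mul_le_mul_of_nonneg_left h1 hx
    have h4 : x * y ^ (q + 1) ≤ (x ^ 2 + y ^ (2 * q + 2)) / 2 := by
      have h5 : y ^ (2 * q + 2) = (y ^ (q + 1)) ^ 2 := by rw [← pow_mul]; congr 1; ring
      rw [h5]
      nlinarith [sq_nonneg (x - y ^ (q + 1))]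
    have h6 : 0 ≤ M * x := by positivity
    calc x * y ≤ (M ^ q)⁻¹ * (x * y ^ (q + 1)) := by linarith
      _ ≤ (M ^ q)⁻¹ * ((x ^ 2 + y ^ (2 * q + 2)) / 2) := mul_le_mul_of_nonneg_left h4 hMq.le
      _ ≤ M * x + (M ^ q)⁻¹ / 2 * (x ^ 2 + y ^ (2 * q + 2)) := by
          have : (M ^ q)⁻¹ * ((x ^ 2 + y ^ (2 * q + 2)) / 2) =
            (M ^ q)⁻¹ / 2 * (x ^ 2 + y ^ (2 * q + 2)) := by ring
          linarith

/-- **truncation** -/
theorem trunc {X Y : Ω → ℝ} (hX : ∀ ω, 0 ≤ X ω) (hY : ∀ ω, 0 ≤ Y ω) {M : ℝ} (hM : 0 < M) (q : ℕ)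
    (hXY : Integrable (fun ω => X ω * Y ω) μ) (hXi : Integrable X μ)
    (hX2 : Integrable (fun ω => X ω ^ 2) μ) (hYq : Integrable (fun ω => Y ω ^ (2 * q + 2)) μ) :
    ∫ ω, X ω * Y ω ∂μ ≤
      M * ∫ ω, X ω ∂μ + (M ^ q)⁻¹ / 2 * (∫ ω, X ω ^ 2 ∂μ + ∫ ω, Y ω ^ (2 * q + 2) ∂μ) := by
  rw [← integral_add hX2 hYq, ← integral_const_mul, ← integral_const_mul, ← integral_add]
  · refine integral_mono hXY ?_ fun ω => trunc_pt (hX ω) (hY ω) hM q
    exact (hXi.const_mul _).add ((hX2.add hYq).const_mul _)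
  · exact hXi.const_mul _
  · exact (hX2.add hYq).const_mul _

/-- **truncation, at polynomial precision**: `q` depends on `C` and `ε` only -/
theorem tr_eps (C : ℝ) {ε : ℝ} (hε : 0 < ε) : ∃ q : ℕ, ∀ G : ℝ, ∃ N : ℝ, 1 ≤ N ∧ ∀ n : ℝ, N ≤ n →
    ∀ {Ω : Type} {m : MeasurableSpace Ω} (μ : Measure Ω) (X Y : Ω → ℝ), (∀ ω, 0 ≤ X ω) →
      (∀ ω, 0 ≤ Y ω) → Integrable (fun ω => X ω * Y ω) μ → Integrable X μ →
      Integrable (fun ω => X ω ^ 2) μ → Integrable (fun ω => Y ω ^ (2 * q + 2)) μ →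
      ∫ ω, X ω ^ 2 ∂μ ≤ n ^ C → n ^ (-C) ≤ ∫ ω, X ω ∂μ → ∫ ω, Y ω ^ (2 * q + 2) ∂μ ≤ G →
      ∫ ω, X ω * Y ω ∂μ ≤ n ^ ε * ∫ ω, X ω ∂μ := by
  obtain ⟨q, hq⟩ := exists_nat_ge ((2 * |C| + 1) / (ε / 2))
  refine ⟨q, fun G => ?_⟩
  have hq' : 2 * |C| + 1 ≤ ε / 2 * q := by
    rw [div_le_iff₀ (by positivity)] at hq
    linarith
  -- the threshold
  obtain ⟨N, hN1, hN⟩ : ∃ N : ℝ, 1 ≤ N ∧ ∀ n : ℝ, N ≤ n → n ^ (ε / 2) + (1 + |G|) ≤ n ^ ε := by
    have h1 : Filter.Tendsto (fun n : ℝ => n ^ (ε / 2)) Filter.atTop Filter.atTop :=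
      tendsto_rpow_atTop (by positivity)
    obtain ⟨N, hN⟩ := Filter.eventually_atTop.1 (h1.eventually_ge_atTop (2 + |G|))
    refine ⟨max 1 N, le_max_left _ _, fun n hn => ?_⟩
    have h2 := hN n ((le_max_right _ _).trans hn)
    have hn0 : 0 < n := lt_of_lt_of_le one_pos ((le_max_left _ _).trans hn)
    have h3 : n ^ ε = n ^ (ε / 2) * n ^ (ε / 2) := by
      rw [← Real.rpow_add hn0]; congr 1; ring
    rw [h3]
    nlinarith [abs_nonneg G]
  refine ⟨N, hN1, fun n hn Ω m μ X Y hX hY hXY hXi hX2 hYq b1 b2 b3 => ?_⟩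
  have hn1 : 1 ≤ n := hN1.trans hn
  have hn0 : 0 < n := lt_of_lt_of_le one_pos hn1
  have h1 := trunc (μ := μ) hX hY (M := n ^ (ε / 2)) (Real.rpow_pos_of_pos hn0 _) q hXY hXi hX2 hYq
  have hEX : 0 < ∫ ω, X ω ∂μ := lt_of_lt_of_le (Real.rpow_pos_of_pos hn0 _) b2
  have h2 : ((n ^ (ε / 2)) ^ q)⁻¹ ≤ n ^ (-(2 * |C| + 1)) := by
    rw [← Real.rpow_natCast, ← Real.rpow_mul hn0.le, ← Real.rpow_neg hn0.le]
    exact Real.rpow_le_rpow_of_exponent_le hn1 (by linarith)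
  have h3 : ∫ ω, X ω ^ 2 ∂μ + ∫ ω, Y ω ^ (2 * q + 2) ∂μ ≤ n ^ |C| * (1 + |G|) := by
    have h4 : n ^ C ≤ n ^ |C| := Real.rpow_le_rpow_of_exponent_le hn1 (le_abs_self C)
    have h5 : (1 : ℝ) ≤ n ^ |C| := Real.one_le_rpow hn1 (abs_nonneg C)
    have h6 : G ≤ |G| := le_abs_self G
    nlinarith [abs_nonneg G]
  have h7 : 0 ≤ ∫ ω, X ω ^ 2 ∂μ + ∫ ω, Y ω ^ (2 * q + 2) ∂μ := by
    refine add_nonneg (integral_nonneg fun ω => sq_nonneg _)
      (integral_nonneg fun ω => pow_nonneg (hY ω) _)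
  have h8 : ((n ^ (ε / 2)) ^ q)⁻¹ / 2 * (∫ ω, X ω ^ 2 ∂μ + ∫ ω, Y ω ^ (2 * q + 2) ∂μ) ≤
      (1 + |G|) * ∫ ω, X ω ∂μ := by
    have h9 : n ^ (-(2 * |C| + 1)) * (n ^ |C| * (1 + |G|)) ≤ (1 + |G|) * ∫ ω, X ω ∂μ := by
      have h10 : n ^ (-(2 * |C| + 1)) * n ^ |C| ≤ ∫ ω, X ω ∂μ := by
        rw [← Real.rpow_add hn0]
        refine le_trans ?_ b2
        refine Real.rpow_le_rpow_of_exponent_le hn1 ?_
        have := le_abs_self C
        linarith
      have h11 : 0 ≤ 1 + |G| := by positivity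
      nlinarith
    have h12 : 0 ≤ ((n ^ (ε / 2)) ^ q)⁻¹ := by positivity
    calc ((n ^ (ε / 2)) ^ q)⁻¹ / 2 * (∫ ω, X ω ^ 2 ∂μ + ∫ ω, Y ω ^ (2 * q + 2) ∂μ)
        ≤ ((n ^ (ε / 2)) ^ q)⁻¹ * (∫ ω, X ω ^ 2 ∂μ + ∫ ω, Y ω ^ (2 * q + 2) ∂μ) := by
          have := mul_nonneg h12 h7
          nlinarith
      _ ≤ n ^ (-(2 * |C| + 1)) * (n ^ |C| * (1 + |G|)) := by
          refine mul_le_mul h2 h3 h7 (Real.rpow_nonneg hn0.le _)
      _ ≤ _ := h9
  have h13 := hN n hn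
  nlinarith

/-- reverse Cauchy-Schwarz -/
theorem low_cs {F Z : Ω → ℝ} (hF : ∀ ω, 0 ≤ F ω) (hZ : ∀ ω, 0 < Z ω)
    (h1 : Integrable (fun ω => F ω * Z ω) μ) (h2 : Integrable (fun ω => F ω * (Z ω)⁻¹) μ)
    (hFi : Integrable F μ) :
    (∫ ω, F ω ∂μ) ^ 2 ≤ (∫ ω, F ω * Z ω ∂μ) * ∫ ω, F ω * (Z ω)⁻¹ ∂μ := by
  set a := ∫ ω, F ω * Z ω ∂μ with ha
  set b := ∫ ω, F ω * (Z ω)⁻¹ ∂μ with hb
  set c := ∫ ω, F ω ∂μ with hc
  have ha0 : 0 ≤ a := integral_nonneg fun ω => mul_nonneg (hF ω) (hZ ω).le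
  have hb0 : 0 ≤ b := integral_nonneg fun ω => mul_nonneg (hF ω) (inv_nonneg.2 (hZ ω).le)
  have hc0 : 0 ≤ c := integral_nonneg fun ω => hF ω
  -- for every `t`: 2 t c ≤ t² a + b
  have key : ∀ t : ℝ, 2 * t * c ≤ t ^ 2 * a + b := by
    intro t
    rw [ha, hb, hc, ← integral_const_mul, ← integral_const_mul, ← integral_add]
    · refine integral_mono (hFi.const_mul _) ((h1.const_mul _).add h2) fun ω => ?_
      have hz := hZ ω
      have h3 : 0 ≤ (t * Z ω - 1) ^ 2 * (Z ω)⁻¹ := by positivity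
      have h4 : (t * Z ω - 1) ^ 2 * (Z ω)⁻¹ = t ^ 2 * Z ω + (Z ω)⁻¹ - 2 * t := by
        field_simp
        ring
      rw [h4] at h3
      have h5 := mul_nonneg (hF ω) h3
      show 2 * t * F ω ≤ t ^ 2 * (F ω * Z ω) + F ω * (Z ω)⁻¹
      nlinarith
    · exact h1.const_mul _
    · exact h2
  rcases ha0.eq_or_lt with h0 | h0
  · -- then c = 0
    have h5 : c = 0 := by
      by_contra hne
      have hcp : 0 < c := lt_of_le_of_ne hc0 (Ne.symm hne)
      have := key ((b + 1) / (2 * c))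
      rw [← h0] at this
      have h6 : 2 * ((b + 1) / (2 * c)) * c = b + 1 := by field_simp
      rw [h6] at this
      linarith
    rw [h5]
    have := mul_nonneg ha0 hb0
    simpa using this
  · have := key (c / a)
    have h6 : 2 * (c / a) * c = 2 * c ^ 2 / a := by ring
    have h7 : (c / a) ^ 2 * a = c ^ 2 / a := by field_simp
    rw [h6, h7] at this
    have h8 : c ^ 2 / a ≤ b := by
      have : 2 * c ^ 2 / a = c ^ 2 / a + c ^ 2 / a := by ring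
      linarith
    rw [div_le_iff₀ h0] at h8
    linarith

end

end Crest.Agent.R158.Tr612
end
end

-- ▼ part R158/Bg6_612
section

/-!
# Row 158, identity B (helper612), part 6: the main estimate

* `main_est` : `(c₁ - C₂ S^ε (1-q)^J) E[2^N] e^{-αV} ≤ C₂ p2(S) e^{αV}`
-/

set_option autoImplicit false

noncomputable section

namespace Crest.Agent.R158.B612

open MeasureTheory hiding Lp
open Crest.Agent.R161.Geo729 Crest.Agent.R161.Dual374
open Crest.Agent.R161.Tas682 (sd)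
open Crest.Agent.R161.Ifc372 (CircZ)
open Crest.Agent.R161.Ann374 (mem_ball)
open Crest.Agent.R158.It200 hiding hf
open Crest.Agent.R158.Wf850
open Crest.Agent.R158.Fr158 (bx mem_bx mem_bx_sd eIn mem_eIn)
open Crest.Agent.R158.Cn109 (lsW smalls mem_smalls SS QQ DepF VV Sup integral_mul_indep)
open Crest.Agent.R158.Rs689 (dual Dep nu hf dE annE mem_annE circ_dep PB NoC noC_prob sc ArmX
  armX_sub_noC rsw_circ sigma_hf Rch)

local notation "μh" => Crest.Agent.R158.Rs689.nu Crest.Agent.R158.Rs689.hf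

/-- local error at a ring -/
def er (k : ℕ) (KT : Cfz → ℕ) (z : Cfz) : ℝ :=
  |SS lsW (fun _ => uc (2 ^ k)) (VR (2 ^ k)) (k + 4) z - VV (k + 4)| +
    QQ lsW (fun _ => uc (2 ^ k)) (VR (2 ^ k)) (k + 4) z + KT z

theorem hk4 (k : ℕ) : 2 ^ (k + 4) = 16 * 2 ^ k := by ring

theorem exp3 (a b c : ℝ) :
    Real.exp (a + b + c) ≤ Real.exp (3 * a) + Real.exp (3 * b) + Real.exp (3 * c) := by
  have h1 := Real.exp_pos (3 * a)
  have h2 := Real.exp_pos (3 * b)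
  have h3 := Real.exp_pos (3 * c)
  by_cases hab : b ≤ a
  · by_cases hac : c ≤ a
    · have : Real.exp (a + b + c) ≤ Real.exp (3 * a) := Real.exp_le_exp.2 (by linarith)
      linarith
    · have : Real.exp (a + b + c) ≤ Real.exp (3 * c) := Real.exp_le_exp.2 (by linarith)
      linarith
  · by_cases hbc : c ≤ b
    · have : Real.exp (a + b + c) ≤ Real.exp (3 * b) := Real.exp_le_exp.2 (by linarith)
      linarith
    · have : Real.exp (a + b + c) ≤ Real.exp (3 * c) := Real.exp_le_exp.2 (by linarith)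
      linarith

theorem uc_le (k : ℕ) : uc (2 ^ k) ≤ 1 / 4 ^ (k + 4) := by
  have hS : 1 ≤ 2 ^ k := Nat.one_le_two_pow
  have h1 := card_VR_pos hS
  have h2 : (4 : ℝ) ^ (k + 4) = 256 * ((2 ^ k : ℕ) : ℝ) ^ 2 := by
    push_cast
    rw [pow_add, ← pow_mul, mul_comm k 2, pow_mul]
    norm_num
    ring
  have h3 : (1 : ℝ) ≤ ((2 ^ k : ℕ) : ℝ) := by exact_mod_cast hS
  unfold uc
  rw [h2, ← one_div]
  refine one_div_le_one_div_of_le (by positivity) ?_
  nlinarith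

/-- **the package at a ring** -/
theorem ring_pack (t : ℝ) (ht : 0 ≤ t) : ∃ G : ℝ, 1 ≤ G ∧ ∀ k : ℕ, ∃ KT : Cfz → ℕ,
    (∀ z, (RCs (2 ^ k) z).ncard ≤ KT z) ∧ DepF (Rg (38 * 2 ^ k) (1060 * 2 ^ k)) (er k KT) ∧
      ∫ z, Real.exp (t * er k KT z) ∂μh ≤ G := by
  obtain ⟨G1, hG1, h1⟩ := Cn109.stat_moments (C := 1) zero_le_one (3 * t)
  obtain ⟨G2, hG2, h2⟩ := ring_count (3 * t) (by positivity)
  refine ⟨G1 + G1 + G2, by linarith, fun k => ?_⟩
  have hS : 1 ≤ 2 ^ k := Nat.one_le_two_pow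
  obtain ⟨KT, hK1, hK2, hK3⟩ := h2 (2 ^ k) hS
  obtain ⟨hs, hq⟩ := h1 (k + 4) (VR (2 ^ k)) (fun _ => uc (2 ^ k)) (fun _ _ => uc_nonneg _)
    (by rw [Finset.sum_const, nsmul_eq_mul]; exact card_uc hS) (fun _ _ => uc_le k)
  push_cast at hK1
  have d1 : DepF (Rg (38 * 2 ^ k) (1060 * 2 ^ k))
      (SS lsW (fun _ => uc (2 ^ k)) (VR (2 ^ k)) (k + 4)) :=
    (dep_SS (hk4 k)).mono (Rg_mono (by push_cast; linarith [show (0 : ℤ) ≤ 2 ^ k by positivity])
      (by push_cast; linarith [show (0 : ℤ) ≤ 2 ^ k by positivity]))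
  have d2 : DepF (Rg (38 * 2 ^ k) (1060 * 2 ^ k))
      (QQ lsW (fun _ => uc (2 ^ k)) (VR (2 ^ k)) (k + 4)) :=
    (dep_QQ (hk4 k)).mono (Rg_mono (by push_cast; linarith [show (0 : ℤ) ≤ 2 ^ k by positivity])
      (by push_cast; linarith [show (0 : ℤ) ≤ 2 ^ k by positivity]))
  refine ⟨KT, hK2, ?_, ?_⟩
  · exact ((d1.comp fun x => |x - VV (k + 4)|).add d2).add (hK1.comp fun n : ℕ => (n : ℝ))
  · rw [abs_of_nonneg (by positivity)] at hs hq
    have i1 := (d1.comp fun x => Real.exp (3 * t * |x - VV (k + 4)|)).integrable fun _ => hf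
    have i2 := (d2.comp fun x => Real.exp (3 * t * x)).integrable fun _ => hf
    have i3 := (hK1.comp fun n : ℕ => Real.exp (3 * t * (n : ℝ))).integrable fun _ => hf
    have i0 : Integrable (fun z => Real.exp (t * er k KT z)) μh :=
      ((((d1.comp fun x => |x - VV (k + 4)|).add d2).add (hK1.comp fun n : ℕ => (n : ℝ))).comp
        fun x => Real.exp (t * x)).integrable fun _ => hf
    calc ∫ z, Real.exp (t * er k KT z) ∂μh
        ≤ ∫ z, (Real.exp (3 * t * |SS lsW (fun _ => uc (2 ^ k)) (VR (2 ^ k)) (k + 4) z -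
            VV (k + 4)|) + Real.exp (3 * t * QQ lsW (fun _ => uc (2 ^ k)) (VR (2 ^ k)) (k + 4) z) +
            Real.exp (3 * t * (KT z : ℝ))) ∂μh := by
          refine integral_mono i0 ((i1.add i2).add i3) fun z => ?_
          unfold er
          have h3 := exp3 (t * |SS lsW (fun _ => uc (2 ^ k)) (VR (2 ^ k)) (k + 4) z - VV (k + 4)|)
            (t * QQ lsW (fun _ => uc (2 ^ k)) (VR (2 ^ k)) (k + 4) z) (t * (KT z : ℝ))
          simp only [← mul_assoc] at h3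
          refine le_trans (le_of_eq ?_) h3
          congr 1
          ring
      _ ≤ G1 + G1 + G2 := by
          have e1 := integral_add (i1.add i2) i3
          have e2 := integral_add i1 i2
          simp only [Pi.add_apply] at e1 e2
          refine le_trans (le_of_eq e1) ?_
          refine le_trans (add_le_add_left (le_of_eq e2) _) ?_
          exact add_le_add (add_le_add hs hq) hK3

/-- indicator -/
def ind (A : Set Cfz) (z : Cfz) : ℝ := A.indicator 1 z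

theorem ind_nonneg (A : Set Cfz) (z : Cfz) : 0 ≤ ind A z :=
  Set.indicator_nonneg (fun _ _ => zero_le_one) z

theorem ind_mem {A : Set Cfz} {z : Cfz} (h : z ∈ A) : ind A z = 1 := by
  unfold ind; rw [Set.indicator_of_mem h]; rfl

theorem ind_not {A : Set Cfz} {z : Cfz} (h : z ∉ A) : ind A z = 0 := by
  unfold ind; rw [Set.indicator_of_notMem h]

theorem dep_ind {S : Finset Edge} {A : Set Cfz} (h : Dep S A) : DepF S (ind A) := by
  intro z z' hz
  have h1 := h z z' hz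
  by_cases hA : z ∈ A
  · rw [ind_mem hA, ind_mem (h1.1 hA)]
  · rw [ind_not hA, ind_not fun h' => hA (h1.2 h')]

theorem int_ind {S : Finset Edge} {A : Set Cfz} (h : Dep S A) :
    ∫ z, ind A z ∂μh = (μh).real A := by
  unfold ind
  exact integral_indicator_one h.measurableSet

/-- lower bound for a tilted expectation on an event -/
theorem low_tilt {S : Finset Edge} {A : Set Cfz} (hA : Dep S A) {f : Cfz → ℝ} (hf' : DepF S f)
    {G : ℝ} (hG : ∫ z, Real.exp (f z) ∂μh ≤ G) :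
    (μh).real A ^ 2 ≤ (∫ z, ind A z * Real.exp (-f z) ∂μh) * G := by
  have h1 := Tr612.low_cs (μ := μh) (F := ind A) (Z := fun z => Real.exp (-f z)) (ind_nonneg A)
    (fun z => Real.exp_pos _)
    (((dep_ind hA).mul (hf'.comp fun x => Real.exp (-x))).integrable _)
    (((dep_ind hA).mul (hf'.comp fun x => (Real.exp (-x))⁻¹)).integrable _)
    ((dep_ind hA).integrable _)
  rw [int_ind hA] at h1
  refine h1.trans (mul_le_mul_of_nonneg_left ?_ (integral_nonneg fun z =>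
    mul_nonneg (ind_nonneg A z) (Real.exp_pos _).le))
  refine le_trans ?_ hG
  refine integral_mono (((dep_ind hA).mul (hf'.comp fun x => (Real.exp (-x))⁻¹)).integrable _)
    ((hf'.comp Real.exp).integrable _) fun z => ?_
  show ind A z * (Real.exp (-f z))⁻¹ ≤ Real.exp (f z)
  rw [Real.exp_neg, inv_inv]
  have h2 : ind A z ≤ 1 := by
    by_cases h : z ∈ A
    · rw [ind_mem h]
    · rw [ind_not h]; exact zero_le_one
  have := Real.exp_pos (f z)
  nlinarith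

/-- the bad event crosses -/
theorem bad_sub {k J : ℕ} : BadS (2 ^ k) (2 ^ (k + 6 + 2 * J)) ⊆
    NoC (0, 0) J (sc (1024 * 2 ^ k)) := by
  rintro z ⟨A, hA, hv, ⟨f, hf, hfA⟩, g, hg, hgA⟩
  have h64 : 64 * 2 ^ (k + 6 + 2 * J) = 4 * (1024 * 2 ^ k) * 4 ^ J := by
    rw [show (4 : ℕ) ^ J = 2 ^ (2 * J) by rw [pow_mul]; norm_num, pow_add, pow_add]
    norm_num
    ring
  refine armX_sub_noC (R := 64 * 2 ^ (k + 6 + 2 * J)) ?_ h64.ge ?_
  · have : 1 ≤ 2 ^ k := Nat.one_le_two_pow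
    omega
  · have h1 : Splits A (BF (0, 0) (1024 * 2 ^ k : ℕ)) := by
      refine ⟨⟨f, ?_, hfA⟩, v0, ?_, hv⟩
      · rw [mem_BF]; have := (mem_VR.1 hf).2; push_cast at this ⊢; exact this
      · rw [mem_BF]; show s0 v0 ≤ _; rw [s0_v0]; positivity
    have h2 : ¬ A ⊆ BF (0, 0) (64 * 2 ^ (k + 6 + 2 * J) : ℕ) := by
      intro h
      have h3 := h hgA
      rw [mem_BF] at h3
      have h4 := (mem_VR.1 hg).1
      have e : s0 g = sd (0, 0) g.1 := rfl
      push_cast at h3 h4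
      omega
    obtain ⟨⟨u, v, hu, hv', huv⟩, -⟩ := cross2 hA h1 h2
    refine ⟨u, v, ?_, ?_, ?_, huv⟩
    · rw [sd0_le] at hu
      rw [abs_le]; simp only [sub_zero]; omega
    · rw [sd0_le] at hu
      rw [abs_le]; simp only [sub_zero]; omega
    · have h5 : ((64 * 2 ^ (k + 6 + 2 * J) : ℕ) : ℤ) < sd (0, 0) v := by omega
      rw [sd0_eq, lt_max_iff] at h5
      simp only [sub_zero]
      rcases h5 with h5 | h5
      · exact Or.inl h5.le
      · exact Or.inr h5.le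

theorem sc_le {s i j : ℕ} (h : i ≤ j) : sc s i ≤ sc s j := by
  unfold sc
  exact Nat.mul_le_mul_left _ (Nat.pow_le_pow_right (by norm_num) h)

/-- support of the crossing event -/
theorem dep_noC {k J : ℕ} : Dep (Rg (4096 * 2 ^ k - 2) (32 * 2 ^ (k + 6 + 2 * J) + 2))
    (NoC (0, 0) J (sc (1024 * 2 ^ k))) := by
  unfold NoC
  refine Dep.iInter fun i => Dep.iInter fun hi => (Dep.mono ?_ (dep_circ' _ _)).compl
  rw [Finset.mem_range] at hi
  refine Rg_mono ?_ ?_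
  · have h1 := sc_le (s := 1024 * 2 ^ k) (Nat.zero_le i)
    have h2 : sc (1024 * 2 ^ k) 0 = 4096 * 2 ^ k := by unfold sc; ring
    rw [h2] at h1
    have h3 : ((4096 * 2 ^ k : ℕ) : ℤ) ≤ (sc (1024 * 2 ^ k) i : ℤ) := by exact_mod_cast h1
    push_cast at h3
    linarith
  · have h1 := sc_le (s := 1024 * 2 ^ k) (show i ≤ J - 1 by omega)
    have h2 : 2 * sc (1024 * 2 ^ k) (J - 1) = 32 * 2 ^ (k + 6 + 2 * J) := by
      obtain ⟨j, rfl⟩ : ∃ j, J = j + 1 := ⟨J - 1, by omega⟩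
      unfold sc
      rw [Nat.add_sub_cancel, show (4 : ℕ) ^ j = 2 ^ (2 * j) by rw [pow_mul]; norm_num,
        show k + 6 + 2 * (j + 1) = k + 8 + 2 * j by ring, pow_add, pow_add]
      norm_num
      ring
    have h3 : ((2 * sc (1024 * 2 ^ k) i : ℕ) : ℤ) ≤ ((32 * 2 ^ (k + 6 + 2 * J) : ℕ) : ℤ) := by
      exact_mod_cast (Nat.mul_le_mul_left 2 h1).trans h2.le
    push_cast at h3 ⊢
    linarith

theorem noC_le {q : ℝ} (hq : ∀ (x : P2) (n : ℕ), 1 ≤ n →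
    q ≤ (μh).real (CircZ x n (2 * n))) (k J : ℕ) :
    (μh).real (NoC (0, 0) J (sc (1024 * 2 ^ k))) ≤ (1 - q) ^ J := by
  have hs : 1 ≤ 1024 * 2 ^ k := by
    have : 1 ≤ 2 ^ k := Nat.one_le_two_pow
    omega
  rw [noC_prob hf (0, 0) J (sc (1024 * 2 ^ k)) fun i j hij => Rs689.sc_step hs hij]
  calc ∏ i ∈ Finset.range J, (1 - (nu (unitInterval.symm hf)).real
        (CircZ (0, 0) (sc (1024 * 2 ^ k) i) (2 * sc (1024 * 2 ^ k) i)))
      ≤ ∏ _i ∈ Finset.range J, (1 - q) := by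
        refine Finset.prod_le_prod (fun i _ => ?_) fun i hi => ?_
        · have : (nu (unitInterval.symm hf)).real
            (CircZ (0, 0) (sc (1024 * 2 ^ k) i) (2 * sc (1024 * 2 ^ k) i)) ≤ 1 :=
              measureReal_le_one
          linarith
        · have h1 : 1 ≤ sc (1024 * 2 ^ k) i := by
            unfold sc
            exact Nat.one_le_iff_ne_zero.2 (by positivity)
          have h3 := hq (0, 0) (sc (1024 * 2 ^ k) i) h1
          rw [sigma_hf]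
          linarith
    _ = (1 - q) ^ J := by rw [Finset.prod_const, Finset.card_range]

end Crest.Agent.R158.B612
end
end

-- ▼ part R158/Bg7_612
section

/-!
# Row 158, identity B (helper612), part 7: the main estimate

* `left_int`, `good_int`, `bad_int`, `main_est`
-/

set_option autoImplicit false

noncomputable section

namespace Crest.Agent.R158.B612

open MeasureTheory hiding Lp
open Crest.Agent.R161.Geo729 Crest.Agent.R161.Dual374
open Crest.Agent.R161.Tas682 (sd)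
open Crest.Agent.R161.Ifc372 (CircZ)
open Crest.Agent.R161.Ann374 (mem_ball)
open Crest.Agent.R158.It200 hiding hf
open Crest.Agent.R158.Wf850
open Crest.Agent.R158.Fr158 (bx mem_bx mem_bx_sd eIn mem_eIn)
open Crest.Agent.R158.Cn109 (lsW smalls mem_smalls SS QQ DepF VV Sup integral_mul_indep)
open Crest.Agent.R158.Rs689 (dual Dep nu hf dE annE mem_annE circ_dep PB NoC noC_prob sc ArmX
  armX_sub_noC rsw_circ sigma_hf Rch)

local notation "μh" => Crest.Agent.R158.Rs689.nu Crest.Agent.R158.Rs689.hf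
local notation "α" => (√3 * (Real.pi / 6))

theorem al_pos : 0 < α := by
  have := Real.pi_pos
  positivity

theorem al_le : α ≤ 1 := by
  have h1 := Real.pi_lt_d2
  have h2 : (√3 : ℝ) ≤ 1.8 := by
    rw [show (1.8 : ℝ) = √(1.8 ^ 2) by rw [Real.sqrt_sq (by norm_num)]]
    exact Real.sqrt_le_sqrt (by norm_num)
  have h3 := Real.pi_pos
  have h4 : Real.pi / 6 ≤ 0.525 := by linarith
  have h5 : (0 : ℝ) ≤ √3 := Real.sqrt_nonneg _
  nlinarith


theorem ind_indep {a b a' b' : ℤ} (h : b < a') {f g : Cfz → ℝ} (hf' : DepF (Rg a b) f)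
    (hg : DepF (Rg a' b') g) :
    ∫ z, f z * g z ∂μh = (∫ z, f z ∂μh) * ∫ z, g z ∂μh :=
  integral_mul_indep _ (Rg_disj h) hf' hg

theorem lin_arith {a c D s1 s2 v1 v2 t1 t2 r1 r2 n1 n2 : ℝ} (ha : 0 < a) (ha' : a ≤ 1)
    (hDc : D ≤ c) (hc : 1 ≤ c) (k1 : r1 ≤ n1) (k2 : r2 ≤ n2) (hr1 : 0 ≤ r1)
    (hr2 : 0 ≤ r2) (q1 : 0 ≤ t1) (q2 : 0 ≤ t2) :
    a * (s1 + s2) + D * (r1 + r2 + t1 + t2) ≤
      a * (v1 + v2) + (c * (|s1 - v1| + t1 + n1) + c * (|s2 - v2| + t2 + n2)) ∧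
    -(a * (s1 + s2)) + D * (r1 + r2 + t1 + t2) ≤
      -(a * (v1 + v2)) + (c * (|s1 - v1| + t1 + n1) + c * (|s2 - v2| + t2 + n2)) := by
  have m1 : D * (r1 + r2 + t1 + t2) ≤ c * (n1 + t1) + c * (n2 + t2) := by
    have e1 : D * (r1 + r2 + t1 + t2) ≤ c * (r1 + r2 + t1 + t2) :=
      mul_le_mul_of_nonneg_right hDc (by positivity)
    have e2 : c * (r1 + r2 + t1 + t2) ≤ c * (n1 + t1 + (n2 + t2)) :=
      mul_le_mul_of_nonneg_left (by linarith) (by linarith)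
    linarith
  have m2 : ∀ x y : ℝ, a * (x - y) ≤ c * |x - y| := fun x y => by
    have e1 : a * (x - y) ≤ a * |x - y| := mul_le_mul_of_nonneg_left (le_abs_self _) ha.le
    have e2 : a * |x - y| ≤ c * |x - y| :=
      mul_le_mul_of_nonneg_right (by linarith) (abs_nonneg _)
    linarith
  have m3 : ∀ x y : ℝ, -(a * (x - y)) ≤ c * |x - y| := fun x y => by
    have e1 := m2 y x
    rw [abs_sub_comm] at e1
    linarith
  constructor
  · have a1 := m2 s1 v1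
    have a2 := m2 s2 v2
    linarith
  · have a1 := m3 s1 v1
    have a2 := m3 s2 v2
    linarith

/-- exponents -/
theorem lin_ect {k k' : ℕ} {KT1 KT2 : Cfz → ℕ} {z : Cfz} (h1 : (RCs (2 ^ k) z).ncard ≤ KT1 z)
    (h2 : (RCs (2 ^ k') z).ncard ≤ KT2 z) {D c : ℝ} (hDc : D ≤ c) (hc : 1 ≤ c) :
    α * Lin (2 ^ k) (2 ^ k') (k + 4) (k' + 4) z + D * Ect (2 ^ k) (2 ^ k') (k + 4) (k' + 4) z ≤
      α * (VV (k + 4) + VV (k' + 4)) + (c * er k KT1 z + c * er k' KT2 z) ∧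
    -(α * Lin (2 ^ k) (2 ^ k') (k + 4) (k' + 4) z) +
        D * Ect (2 ^ k) (2 ^ k') (k + 4) (k' + 4) z ≤
      -(α * (VV (k + 4) + VV (k' + 4))) + (c * er k KT1 z + c * er k' KT2 z) :=
  lin_arith al_pos al_le hDc hc (Nat.cast_le.2 h1) (Nat.cast_le.2 h2) (Nat.cast_nonneg _)
    (Nat.cast_nonneg _)
    (Cn109.QQ_nonneg lsW (fun _ => uc (2 ^ k)) (VR (2 ^ k)) (k + 4) z)
    (Cn109.QQ_nonneg lsW (fun _ => uc (2 ^ k')) (VR (2 ^ k')) (k' + 4) z)

/-! ### regions -/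

theorem pw (k : ℕ) : (1 : ℤ) ≤ 2 ^ k := one_le_pow₀ (by norm_num)

theorem pw2 (k J : ℕ) (hJ : 1 ≤ J) : 256 * (2 : ℤ) ^ k ≤ 2 ^ (k + 6 + 2 * J) := by
  have h : (2 : ℤ) ^ (k + 6 + 2 * J) = 2 ^ k * 2 ^ (6 + 2 * J) := by rw [← pow_add]; congr 1; ring
  rw [h]
  have h2 : (2 : ℤ) ^ 8 ≤ 2 ^ (6 + 2 * J) := pow_le_pow_right₀ (by norm_num) (by omega)
  have h3 := pw k
  nlinarith

theorem pwN (k J : ℕ) (hJ : 1 ≤ J) : 256 * 2 ^ k ≤ 2 ^ (k + 6 + 2 * J) := by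
  have := pw2 k J hJ
  exact_mod_cast this

section

variable {k J : ℕ} {c G : ℝ} {KT1 KT2 : Cfz → ℕ}

/-- **left side, integrated** -/
theorem left_int (hJ : 1 ≤ J) (hc : 64 ≤ c) (hG : 1 ≤ G)
    (h1 : ∀ z, (RCs (2 ^ k) z).ncard ≤ KT1 z)
    (h2 : ∀ z, (RCs (2 ^ (k + 6 + 2 * J)) z).ncard ≤ KT2 z)
    (d1 : DepF (Rg (38 * 2 ^ k) (1060 * 2 ^ k)) (er k KT1))
    (d2 : DepF (Rg (38 * 2 ^ (k + 6 + 2 * J)) (1060 * 2 ^ (k + 6 + 2 * J)))
      (er (k + 6 + 2 * J) KT2))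
    (g1 : ∫ z, Real.exp (c * er k KT1 z) ∂μh ≤ G)
    (g2 : ∫ z, Real.exp (c * er (k + 6 + 2 * J) KT2 z) ∂μh ≤ G) :
    ∫ z, WS (Real.pi / 3) (-(Real.pi / 6)) (2 ^ k) (2 ^ (k + 6 + 2 * J)) z ∂μh ≤
      2 * √3 * G ^ 2 * Ax107.p2 (2 ^ k) *
        Real.exp (α * (VV (k + 4) + VV (k + 6 + 2 * J + 4))) := by
  have hS : 1 ≤ 2 ^ k := Nat.one_le_two_pow
  have hp := pw k
  have hp2 := pw2 k J hJ
  have hpN := pwN k J hJ
  set k' := k + 6 + 2 * J with hk'
  set V := VV (k + 4) + VV (k' + 4) with hV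
  have dA : DepF (Rg 0 (2 ^ k)) (ind (Arms2 ((2 ^ k : ℕ) : ℤ))) := by
    have := dep_ind (dep_arms2 (m := ((2 ^ k : ℕ) : ℤ)) (by positivity))
    refine this.mono (Rg_mono le_rfl (by push_cast; exact le_rfl))
  have e1 : DepF (Rg (38 * 2 ^ k) (1060 * 2 ^ k)) (fun z => Real.exp (c * er k KT1 z)) :=
    d1.comp fun x => Real.exp (c * x)
  have e2 : DepF (Rg (38 * 2 ^ k') (1060 * 2 ^ k')) (fun z => Real.exp (c * er k' KT2 z)) :=
    d2.comp fun x => Real.exp (c * x)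
  have e12 : DepF (Rg (38 * 2 ^ k) (1060 * 2 ^ k'))
      (fun z => Real.exp (c * er k KT1 z) * Real.exp (c * er k' KT2 z)) :=
    (e1.mono (Rg_mono le_rfl (by linarith))).mul (e2.mono (Rg_mono (by linarith) le_rfl))
  have e0 : DepF (Rg 0 (1060 * 2 ^ k')) (fun z => ind (Arms2 ((2 ^ k : ℕ) : ℤ)) z *
      (Real.exp (c * er k KT1 z) * Real.exp (c * er k' KT2 z))) :=
    (dA.mono (Rg_mono le_rfl (by linarith))).mul (e12.mono (Rg_mono (by linarith) le_rfl))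
  have hI : ∫ z, ind (Arms2 ((2 ^ k : ℕ) : ℤ)) z *
      (Real.exp (c * er k KT1 z) * Real.exp (c * er k' KT2 z)) ∂μh ≤
        Ax107.p2 (2 ^ k) * G ^ 2 := by
    rw [ind_indep (by linarith) dA e12, ind_indep (by linarith) e1 e2,
      int_ind (dep_arms2 (by positivity))]
    have hp2' : (μh).real (Arms2 ((2 ^ k : ℕ) : ℤ)) = Ax107.p2 (2 ^ k) := rfl
    rw [hp2']
    refine mul_le_mul_of_nonneg_left ?_ measureReal_nonneg
    rw [sq]
    exact mul_le_mul g1 g2 (integral_nonneg fun z => (Real.exp_pos _).le) (by linarith)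
  have hW : Integrable (fun z => WS (Real.pi / 3) (-(Real.pi / 6)) (2 ^ k) (2 ^ k') z) μh := by
    have i1 := Vx107.integrable_W (ntr_chg (g := v0) (a := Real.pi / 3) (b := -(Real.pi / 6)) hS
      (S2 := 2 ^ k') Nat.one_le_two_pow (by ring)) μh
    have i2 := Vx107.integrable_W (ntr_chg (g := f0) (a := Real.pi / 3) (b := -(Real.pi / 6)) hS
      (S2 := 2 ^ k') Nat.one_le_two_pow (by ring)) μh
    exact i1.add i2
  calc ∫ z, WS (Real.pi / 3) (-(Real.pi / 6)) (2 ^ k) (2 ^ k') z ∂μh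
      ≤ ∫ z, (2 * √3 * Real.exp (α * V)) * (ind (Arms2 ((2 ^ k : ℕ) : ℤ)) z *
          (Real.exp (c * er k KT1 z) * Real.exp (c * er k' KT2 z))) ∂μh := by
        refine integral_mono hW ((e0.integrable _).const_mul _) fun z => ?_
        have b := left_bound (S1 := 2 ^ k) (S2 := 2 ^ k') (κ1 := k + 4) (κ2 := k' + 4) hS (by omega)
          (hk4 k) (hk4 k') z
        have l := (lin_ect (D := 64) (h1 z) (h2 z) hc (by linarith)).1
        refine (le_abs_self _).trans (b.trans ?_)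
        have hle : (Arms2 (64 * ((2 ^ k : ℕ) : ℤ))).indicator (fun _ => 2 * √3) z ≤
            2 * √3 * ind (Arms2 ((2 ^ k : ℕ) : ℤ)) z := by
          by_cases hz : z ∈ Arms2 (64 * ((2 ^ k : ℕ) : ℤ))
          · have hz' : z ∈ Arms2 ((2 ^ k : ℕ) : ℤ) := arms2_anti (by
              have : (0 : ℤ) ≤ ((2 ^ k : ℕ) : ℤ) := by positivity
              linarith) hz
            rw [Set.indicator_of_mem hz, ind_mem hz', mul_one]
          · rw [Set.indicator_of_notMem hz]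
            exact mul_nonneg (by positivity) (ind_nonneg _ _)
        have hexp : Real.exp (α * Lin (2 ^ k) (2 ^ k') (k + 4) (k' + 4) z +
            64 * Ect (2 ^ k) (2 ^ k') (k + 4) (k' + 4) z) ≤
            Real.exp (α * V) * (Real.exp (c * er k KT1 z) * Real.exp (c * er k' KT2 z)) := by
          rw [← Real.exp_add, ← Real.exp_add]
          exact Real.exp_le_exp.2 l
        calc _ ≤ (2 * √3 * ind (Arms2 ((2 ^ k : ℕ) : ℤ)) z) * (Real.exp (α * V) *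
              (Real.exp (c * er k KT1 z) * Real.exp (c * er k' KT2 z))) :=
              mul_le_mul hle hexp (Real.exp_pos _).le
                (mul_nonneg (by positivity) (ind_nonneg _ _))
          _ = _ := by ring
    _ = (2 * √3 * Real.exp (α * V)) * ∫ z, (ind (Arms2 ((2 ^ k : ℕ) : ℤ)) z *
          (Real.exp (c * er k KT1 z) * Real.exp (c * er k' KT2 z))) ∂μh := integral_const_mul _ _
    _ ≤ (2 * √3 * Real.exp (α * V)) * (Ax107.p2 (2 ^ k) * G ^ 2) :=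
        mul_le_mul_of_nonneg_left hI (by positivity)
    _ = _ := by ring

/-- weight of the inner loops -/
def Xn (k : ℕ) (z : Cfz) : ℝ := Real.exp (Real.log 2 * (NN (0, 0) 0 (2 ^ k) z : ℝ))

theorem Xn_eq (k : ℕ) (z : Cfz) : Xn k z = 2 ^ NN (0, 0) 0 (2 ^ k) z := by
  unfold Xn
  rw [mul_comm, Real.exp_nat_mul, Real.exp_log (by norm_num)]

theorem Xn_pos (k : ℕ) (z : Cfz) : 0 < Xn k z := Real.exp_pos _

theorem dep_Xn (k : ℕ) : DepF (Rg 0 (2 ^ k + 2)) (Xn k) := by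
  have h := dep_NN (2 ^ k)
  have h2 := h.comp fun n : ℕ => Real.exp (Real.log 2 * (n : ℝ))
  exact h2.mono (Rg_mono le_rfl (by push_cast; exact le_rfl))

/-- the function of the good event -/
def Lf (k k' : ℕ) (c : ℝ) (KT1 KT2 : Cfz → ℕ) (z : Cfz) : ℝ :=
  Xn k z * (ind (dual ⁻¹' CircZ (0, 0) (4 * 2 ^ k) (8 * 2 ^ k)) z *
    ((ind (CircZ (0, 0) (128 * 2 ^ k) (256 * 2 ^ k)) z * Real.exp (-(c * er k KT1 z))) *
      (ind (CircZ (0, 0) (2048 * 2 ^ k) (4096 * 2 ^ k)) z *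
        (ind (CircZ (0, 0) (128 * 2 ^ k') (256 * 2 ^ k')) z *
          Real.exp (-(c * er k' KT2 z))))))

theorem circ_q {q : ℝ} (hq : ∀ (x : P2) (n : ℕ), 1 ≤ n → q ≤ (μh).real (CircZ x n (2 * n)))
    {a b : ℕ} (ha : 1 ≤ a) (hb : b = 2 * a) : q ≤ (μh).real (CircZ (0, 0) a b) := by
  rw [hb]; exact hq _ _ ha

theorem circ_q' {q : ℝ} (hq : ∀ (x : P2) (n : ℕ), 1 ≤ n → q ≤ (μh).real (CircZ x n (2 * n)))
    {a b : ℕ} (ha : 1 ≤ a) (hb : b = 2 * a) : q ≤ (μh).real (dual ⁻¹' CircZ (0, 0) a b) := by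
  rw [Rs689.nu_dual hf (circ_dep _ _ _).measurableSet, sigma_hf]
  exact circ_q hq ha hb

/-- **good event, integrated** -/
theorem good_int {q : ℝ} (hq0 : 0 < q)
    (hq : ∀ (x : P2) (n : ℕ), 1 ≤ n → q ≤ (μh).real (CircZ x n (2 * n)))
    (hk : 1 ≤ k) (hJ : 1 ≤ J) (hG : 1 ≤ G)
    (d1 : DepF (Rg (38 * 2 ^ k) (1060 * 2 ^ k)) (er k KT1))
    (d2 : DepF (Rg (38 * 2 ^ (k + 6 + 2 * J)) (1060 * 2 ^ (k + 6 + 2 * J)))
      (er (k + 6 + 2 * J) KT2))
    (g1 : ∫ z, Real.exp (c * er k KT1 z) ∂μh ≤ G)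
    (g2 : ∫ z, Real.exp (c * er (k + 6 + 2 * J) KT2 z) ∂μh ≤ G) :
    Integrable (Lf k (k + 6 + 2 * J) c KT1 KT2) μh ∧
    q ^ 6 / G ^ 2 * ∫ z, Xn k z ∂μh ≤ ∫ z, Lf k (k + 6 + 2 * J) c KT1 KT2 z ∂μh := by
  have hS : 1 ≤ 2 ^ k := Nat.one_le_two_pow
  have hp : (2 : ℤ) ≤ 2 ^ k := by
    calc (2 : ℤ) = 2 ^ 1 := by norm_num
      _ ≤ 2 ^ k := pow_le_pow_right₀ (by norm_num) hk
  have hp2 := pw2 k J hJ
  have hpN := pwN k J hJ
  set k' := k + 6 + 2 * J with hk'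
  have hS' : 1 ≤ 2 ^ k' := Nat.one_le_two_pow
  -- supports
  have D1 := (dep_Xn k)
  have D2 : Dep (Rg (4 * 2 ^ k - 2) (8 * 2 ^ k + 2))
      (dual ⁻¹' CircZ (0, 0) (4 * 2 ^ k) (8 * 2 ^ k)) :=
    (dep_circ' (4 * 2 ^ k) (8 * 2 ^ k)).mono (Rg_mono (by push_cast; exact le_rfl)
      (by push_cast; exact le_rfl))
  have D3 : Dep (Rg (38 * 2 ^ k) (1060 * 2 ^ k))
      (CircZ (0, 0) (128 * 2 ^ k) (256 * 2 ^ k)) :=
    (dep_circ (128 * 2 ^ k) (256 * 2 ^ k)).mono (Rg_mono (by push_cast; linarith)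
      (by push_cast; linarith))
  have D4 : Dep (Rg (2048 * 2 ^ k - 1) (4096 * 2 ^ k + 1))
      (CircZ (0, 0) (2048 * 2 ^ k) (4096 * 2 ^ k)) :=
    (dep_circ (2048 * 2 ^ k) (4096 * 2 ^ k)).mono (Rg_mono (by push_cast; exact le_rfl)
      (by push_cast; exact le_rfl))
  have D5 : Dep (Rg (38 * 2 ^ k') (1060 * 2 ^ k'))
      (CircZ (0, 0) (128 * 2 ^ k') (256 * 2 ^ k')) :=
    (dep_circ (128 * 2 ^ k') (256 * 2 ^ k')).mono (Rg_mono (by push_cast; linarith)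
      (by push_cast; linarith))
  have F3 : DepF (Rg (38 * 2 ^ k) (1060 * 2 ^ k)) (fun z =>
      ind (CircZ (0, 0) (128 * 2 ^ k) (256 * 2 ^ k)) z * Real.exp (-(c * er k KT1 z))) :=
    (dep_ind D3).mul (d1.comp fun x => Real.exp (-(c * x)))
  have F5 : DepF (Rg (38 * 2 ^ k') (1060 * 2 ^ k')) (fun z =>
      ind (CircZ (0, 0) (128 * 2 ^ k') (256 * 2 ^ k')) z * Real.exp (-(c * er k' KT2 z))) :=
    (dep_ind D5).mul (d2.comp fun x => Real.exp (-(c * x)))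
  have F45 : DepF (Rg (2048 * 2 ^ k - 1) (1060 * 2 ^ k')) (fun z =>
      ind (CircZ (0, 0) (2048 * 2 ^ k) (4096 * 2 ^ k)) z *
      (ind (CircZ (0, 0) (128 * 2 ^ k') (256 * 2 ^ k')) z * Real.exp (-(c * er k' KT2 z)))) :=
    ((dep_ind D4).mono (Rg_mono le_rfl (by linarith))).mul
      (F5.mono (Rg_mono (by linarith) le_rfl))
  have F345 : DepF (Rg (38 * 2 ^ k) (1060 * 2 ^ k')) (fun z =>
      (ind (CircZ (0, 0) (128 * 2 ^ k) (256 * 2 ^ k)) z * Real.exp (-(c * er k KT1 z))) *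
      (ind (CircZ (0, 0) (2048 * 2 ^ k) (4096 * 2 ^ k)) z *
      (ind (CircZ (0, 0) (128 * 2 ^ k') (256 * 2 ^ k')) z * Real.exp (-(c * er k' KT2 z))))) :=
    (F3.mono (Rg_mono le_rfl (by linarith))).mul (F45.mono (Rg_mono (by linarith) le_rfl))
  have F2 : DepF (Rg (4 * 2 ^ k - 2) (1060 * 2 ^ k')) (fun z =>
      ind (dual ⁻¹' CircZ (0, 0) (4 * 2 ^ k) (8 * 2 ^ k)) z *
      ((ind (CircZ (0, 0) (128 * 2 ^ k) (256 * 2 ^ k)) z * Real.exp (-(c * er k KT1 z))) *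
      (ind (CircZ (0, 0) (2048 * 2 ^ k) (4096 * 2 ^ k)) z *
      (ind (CircZ (0, 0) (128 * 2 ^ k') (256 * 2 ^ k')) z * Real.exp (-(c * er k' KT2 z)))))) :=
    ((dep_ind D2).mono (Rg_mono le_rfl (by linarith))).mul
      (F345.mono (Rg_mono (by linarith) le_rfl))
  have F1 : DepF (Rg 0 (1060 * 2 ^ k')) (Lf k k' c KT1 KT2) :=
    (D1.mono (Rg_mono le_rfl (by linarith))).mul (F2.mono (Rg_mono (by linarith) le_rfl))
  refine ⟨F1.integrable _, ?_⟩
  have t3 := low_tilt D3 (f := fun z => c * er k KT1 z) (d1.comp fun x => c * x) g1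
  have t5 := low_tilt D5 (f := fun z => c * er k' KT2 z) (d2.comp fun x => c * x) g2
  have p2 := circ_q' hq (a := 4 * 2 ^ k) (b := 8 * 2 ^ k) (by omega) (by omega)
  have p3 := circ_q hq (a := 128 * 2 ^ k) (b := 256 * 2 ^ k) (by omega) (by omega)
  have p4 := circ_q hq (a := 2048 * 2 ^ k) (b := 4096 * 2 ^ k) (by omega) (by omega)
  have p5 := circ_q hq (a := 128 * 2 ^ k') (b := 256 * 2 ^ k') (by omega) (by omega)
  have hG0 : 0 < G := by linarith
  have b3 : q ^ 2 / G ≤ ∫ z, ind (CircZ (0, 0) (128 * 2 ^ k) (256 * 2 ^ k)) z *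
      Real.exp (-(c * er k KT1 z)) ∂μh := by
    rw [div_le_iff₀ hG0]
    exact (pow_le_pow_left₀ hq0.le p3 2).trans t3
  have b5 : q ^ 2 / G ≤ ∫ z, ind (CircZ (0, 0) (128 * 2 ^ k') (256 * 2 ^ k')) z *
      Real.exp (-(c * er k' KT2 z)) ∂μh := by
    rw [div_le_iff₀ hG0]
    exact (pow_le_pow_left₀ hq0.le p5 2).trans t5
  have hX0 : 0 ≤ ∫ z, Xn k z ∂μh := integral_nonneg fun z => (Xn_pos k z).le
  have hqG : 0 ≤ q ^ 2 / G := by positivity
  show _ ≤ ∫ z, Xn k z * (ind (dual ⁻¹' CircZ (0, 0) (4 * 2 ^ k) (8 * 2 ^ k)) z *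
      ((ind (CircZ (0, 0) (128 * 2 ^ k) (256 * 2 ^ k)) z * Real.exp (-(c * er k KT1 z))) *
      (ind (CircZ (0, 0) (2048 * 2 ^ k) (4096 * 2 ^ k)) z *
      (ind (CircZ (0, 0) (128 * 2 ^ k') (256 * 2 ^ k')) z *
        Real.exp (-(c * er k' KT2 z)))))) ∂μh
  rw [ind_indep (by linarith) D1 F2, ind_indep (by linarith) (dep_ind D2) F345,
    ind_indep (by linarith) F3 F45, ind_indep (by linarith) (dep_ind D4) F5, int_ind D2,
    int_ind D4]
  have m4 : q * (q ^ 2 / G) ≤ (μh).real (CircZ (0, 0) (2048 * 2 ^ k) (4096 * 2 ^ k)) *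
      ∫ z, ind (CircZ (0, 0) (128 * 2 ^ k') (256 * 2 ^ k')) z *
      Real.exp (-(c * er k' KT2 z)) ∂μh :=
    mul_le_mul p4 b5 hqG measureReal_nonneg
  have m3 := mul_le_mul b3 m4 (by positivity) (hqG.trans b3)
  have m2 := mul_le_mul p2 m3 (by positivity) measureReal_nonneg
  have m1 := mul_le_mul_of_nonneg_left m2 hX0
  refine le_trans (le_of_eq ?_) m1
  field_simp

end

/-! ### the bad term -/

/-- **truncation of the local factors** -/
theorem tr_k (c : ℝ) (hc : 0 ≤ c) {ε : ℝ} (hε : 0 < ε) : ∃ k0 : ℕ, ∀ k : ℕ, k0 ≤ k →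
    ∃ KM KT : Cfz → ℕ, (∀ z, (Mids (2 ^ k) z).ncard ≤ KM z) ∧
      (∀ z, (RCs (2 ^ k) z).ncard ≤ KT z) ∧
      DepF (Rg 0 (2049 * 2 ^ k)) KM ∧ DepF (Rg (38 * 2 ^ k) (1060 * 2 ^ k)) (er k KT) ∧
      ∫ z, Xn k z * Real.exp ((KM z : ℝ) + c * er k KT z) ∂μh ≤
        ((2 : ℝ) ^ k) ^ ε * ∫ z, Xn k z ∂μh := by
  obtain ⟨C1, hC1, hap⟩ := Lc522.apriori0 (2 * Real.log 2) (by
    have := Real.log_pos (show (1 : ℝ) < 2 by norm_num)
    positivity)
  obtain ⟨m, hm⟩ := exists_nat_ge C1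
  have hm2 : C1 ≤ (2 : ℝ) ^ m := by
    refine hm.trans ?_
    have : m ≤ 2 ^ m := Nat.lt_two_pow_self.le
    exact_mod_cast this
  obtain ⟨q, hq⟩ := Tr612.tr_eps (C1 + m) hε
  set p : ℝ := ((2 * q + 2 : ℕ) : ℝ) with hp
  have hp0 : 0 ≤ p := Nat.cast_nonneg _
  obtain ⟨G1, hG1, h1⟩ := ring_pack (2 * (p * c)) (by positivity)
  obtain ⟨G2, hG2, h2⟩ := mids_count (2 * p) (by positivity)
  obtain ⟨N, hN1, hN⟩ := hq (G1 + G2)
  obtain ⟨k0, hk0⟩ := exists_nat_ge N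
  refine ⟨k0 + 1, fun k hk => ?_⟩
  have hk1 : 1 ≤ k := by omega
  obtain ⟨KT, t1, t2, t3⟩ := h1 k
  obtain ⟨KM, m1, m2, m3⟩ := h2 (2 ^ k) Nat.one_le_two_pow
  have m1' : DepF (Rg 0 (2049 * 2 ^ k)) KM := m1.mono (Rg_mono le_rfl (by push_cast; exact le_rfl))
  refine ⟨KM, KT, m2, t1, m1', t2, ?_⟩
  have hpw := pw k
  -- supports
  have D1 : DepF (Rg 0 (2049 * 2 ^ k)) (Xn k) :=
    (dep_Xn k).mono (Rg_mono le_rfl (by linarith))
  have D2 : DepF (Rg 0 (2049 * 2 ^ k)) (fun z => (KM z : ℝ)) := m1'.comp fun n : ℕ => (n : ℝ)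
  have D3 : DepF (Rg 0 (2049 * 2 ^ k)) (fun z => c * er k KT z) :=
    (t2.mono (Rg_mono (by linarith) (by linarith))).comp fun x => c * x
  have D4 : DepF (Rg 0 (2049 * 2 ^ k)) (fun z => Real.exp ((KM z : ℝ) + c * er k KT z)) :=
    (D2.add D3).comp Real.exp
  have hnk : N ≤ (2 : ℝ) ^ k := by
    refine hk0.trans ?_
    have h3 : k0 ≤ 2 ^ k := (by omega : k0 ≤ k).trans Nat.lt_two_pow_self.le
    exact_mod_cast h3
  have h2k : (2 : ℝ) ≤ 2 ^ k := by
    calc (2 : ℝ) = 2 ^ 1 := by norm_num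
      _ ≤ 2 ^ k := pow_le_pow_right₀ (by norm_num) hk1
  refine hN _ hnk μh (Xn k) (fun z => Real.exp ((KM z : ℝ) + c * er k KT z))
    (fun z => (Xn_pos k z).le) (fun z => (Real.exp_pos _).le) ((D1.mul D4).integrable _)
    (D1.integrable _) ((D1.comp fun x => x ^ 2).integrable _)
    ((D4.comp fun x => x ^ (2 * q + 2)).integrable _) ?_ ?_ ?_
  · have h4 := hap (0, 0) (2 ^ k) Nat.one_le_two_pow
    have e1 : ∀ z, Xn k z ^ 2 = Real.exp (2 * Real.log 2 * (NN (0, 0) 0 ((2 ^ k : ℕ) : ℤ) z : ℝ)) := by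
      intro z
      unfold Xn
      rw [← Real.exp_nat_mul]
      push_cast
      congr 1
      ring
    simp only [e1]
    refine h4.trans ?_
    push_cast
    rw [Real.rpow_add (by positivity)]
    rw [mul_comm]
    refine mul_le_mul_of_nonneg_left ?_ (by positivity)
    rw [Real.rpow_natCast]
    exact hm2.trans (pow_le_pow_left₀ (by norm_num) h2k m)
  · have h5 : (1 : ℝ) ≤ ∫ z, Xn k z ∂μh := by
      have h6 : ∫ _z : Cfz, (1 : ℝ) ∂μh ≤ ∫ z, Xn k z ∂μh := by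
        refine integral_mono (integrable_const _) (D1.integrable _) fun z => ?_
        show 1 ≤ Xn k z
        rw [Xn_eq]
        exact one_le_pow₀ (by norm_num)
      simpa using h6
    refine le_trans ?_ h5
    refine Real.rpow_le_one_of_one_le_of_nonpos (by linarith) ?_
    have : (0 : ℝ) ≤ m := Nat.cast_nonneg _
    linarith
  · have i2 := ((D2.comp fun x => Real.exp (2 * p * x)).integrable fun _ => hf)
    have i3 := ((t2.comp fun x => Real.exp (2 * (p * c) * x)).integrable fun _ => hf)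
    calc ∫ z, Real.exp ((KM z : ℝ) + c * er k KT z) ^ (2 * q + 2) ∂μh
        ≤ ∫ z, (Real.exp (2 * p * (KM z : ℝ)) + Real.exp (2 * (p * c) * er k KT z)) ∂μh := by
          refine integral_mono ((D4.comp fun x => x ^ (2 * q + 2)).integrable _) (i2.add i3)
            fun z => ?_
          show Real.exp ((KM z : ℝ) + c * er k KT z) ^ (2 * q + 2) ≤
            Real.exp (2 * p * (KM z : ℝ)) + Real.exp (2 * (p * c) * er k KT z)
          rw [← Real.exp_nat_mul, ← hp]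
          rcases le_total (KM z : ℝ) (c * er k KT z) with h | h
          · have h6 : Real.exp (p * ((KM z : ℝ) + c * er k KT z)) ≤
                Real.exp (2 * (p * c) * er k KT z) := Real.exp_le_exp.2 (by nlinarith)
            have := Real.exp_pos (2 * p * (KM z : ℝ))
            linarith
          · have h6 : Real.exp (p * ((KM z : ℝ) + c * er k KT z)) ≤
                Real.exp (2 * p * (KM z : ℝ)) := Real.exp_le_exp.2 (by nlinarith)
            have := Real.exp_pos (2 * (p * c) * er k KT z)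
            linarith
      _ ≤ G1 + G2 := by
          have e2 := integral_add i2 i3
          refine le_trans (le_of_eq e2) ?_
          rw [add_comm]
          exact add_le_add t3 m3

theorem two_le_exp (n : ℕ) : (2 : ℝ) ^ n ≤ Real.exp n := by
  have h : (2 : ℝ) ≤ Real.exp 1 := by
    have := Real.add_one_le_exp (1 : ℝ)
    linarith
  calc (2 : ℝ) ^ n ≤ Real.exp 1 ^ n := pow_le_pow_left₀ (by norm_num) h n
    _ = Real.exp n := by rw [← Real.exp_nat_mul, mul_one]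

/-- the majorant on the bad event -/
def Uf (k J : ℕ) (c : ℝ) (KM KT1 KT2 : Cfz → ℕ) (z : Cfz) : ℝ :=
  (Xn k z * Real.exp ((KM z : ℝ) + c * er k KT1 z)) *
    (ind (NoC (0, 0) J (sc (1024 * 2 ^ k))) z *
      Real.exp ((c + 1) * er (k + 6 + 2 * J) KT2 z))

theorem Uf_nonneg (k J : ℕ) (c : ℝ) (KM KT1 KT2 : Cfz → ℕ) (z : Cfz) :
    0 ≤ Uf k J c KM KT1 KT2 z :=
  mul_nonneg (mul_nonneg (Xn_pos k z).le (Real.exp_pos _).le)
    (mul_nonneg (ind_nonneg _ _) (Real.exp_pos _).le)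

/-- **bad event, integrated** -/
theorem bad_int {q : ℝ} (hq1 : q ≤ 1)
    (hq : ∀ (x : P2) (n : ℕ), 1 ≤ n → q ≤ (μh).real (CircZ x n (2 * n)))
    (c : ℝ) (hc : 0 ≤ c) {ε : ℝ} (hε : 0 < ε) : ∃ k0 : ℕ, ∃ G : ℝ, 1 ≤ G ∧ ∀ k : ℕ, k0 ≤ k →
      ∀ J : ℕ, 1 ≤ J → ∃ KM KT1 KT2 : Cfz → ℕ, (∀ z, (Mids (2 ^ k) z).ncard ≤ KM z) ∧
      (∀ z, (RCs (2 ^ k) z).ncard ≤ KT1 z) ∧ (∀ z, (RCs (2 ^ (k + 6 + 2 * J)) z).ncard ≤ KT2 z) ∧
      Integrable (Uf k J c KM KT1 KT2) μh ∧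
      ∫ z, Uf k J c KM KT1 KT2 z ∂μh ≤
        G * ((2 : ℝ) ^ k) ^ ε * (1 - q) ^ J * ∫ z, Xn k z ∂μh := by
  obtain ⟨k0, h1⟩ := tr_k c hc hε
  obtain ⟨G, hG, h2⟩ := ring_pack (c + 1) (by linarith)
  refine ⟨k0, G, hG, fun k hk J hJ => ?_⟩
  obtain ⟨KM, KT1, a1, a2, a3, a4, a5⟩ := h1 k hk
  set k' := k + 6 + 2 * J with hk'
  obtain ⟨KT2, b1, b2, b3⟩ := h2 k'
  have hpw := pw k
  have hp2 := pw2 k J hJ
  rw [← hk'] at hp2
  have D1 : DepF (Rg 0 (2049 * 2 ^ k)) (fun z =>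
      Xn k z * Real.exp ((KM z : ℝ) + c * er k KT1 z)) :=
    ((dep_Xn k).mono (Rg_mono le_rfl (by linarith))).mul
      (((a3.comp fun n : ℕ => (n : ℝ)).add
        ((a4.mono (Rg_mono (by linarith) (by linarith))).comp fun x => c * x)).comp Real.exp)
  have D2 := dep_noC (k := k) (J := J)
  have D3 : DepF (Rg (38 * 2 ^ k') (1060 * 2 ^ k')) (fun z =>
      Real.exp ((c + 1) * er k' KT2 z)) := b2.comp fun x => Real.exp ((c + 1) * x)
  have D23 : DepF (Rg (4096 * 2 ^ k - 2) (1060 * 2 ^ k')) (fun z =>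
      ind (NoC (0, 0) J (sc (1024 * 2 ^ k))) z * Real.exp ((c + 1) * er k' KT2 z)) :=
    ((dep_ind D2).mono (Rg_mono le_rfl (by linarith))).mul
      (D3.mono (Rg_mono (by linarith) le_rfl))
  have D : DepF (Rg 0 (1060 * 2 ^ k')) (Uf k J c KM KT1 KT2) :=
    (D1.mono (Rg_mono le_rfl (by linarith))).mul (D23.mono (Rg_mono (by linarith) le_rfl))
  refine ⟨KM, KT1, KT2, a1, a2, b1, D.integrable _, ?_⟩
  have hE : ∫ z, Uf k J c KM KT1 KT2 z ∂μh =
      (∫ z, Xn k z * Real.exp ((KM z : ℝ) + c * er k KT1 z) ∂μh) *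
        ((μh).real (NoC (0, 0) J (sc (1024 * 2 ^ k))) *
          ∫ z, Real.exp ((c + 1) * er k' KT2 z) ∂μh) := by
    show ∫ z, (Xn k z * Real.exp ((KM z : ℝ) + c * er k KT1 z)) *
      (ind (NoC (0, 0) J (sc (1024 * 2 ^ k))) z *
      Real.exp ((c + 1) * er k' KT2 z)) ∂μh = _
    rw [ind_indep (by linarith) D1 D23, ind_indep (by linarith) (dep_ind D2) D3, int_ind D2]
  rw [hE]
  have n1 := noC_le hq k J
  have n2 : 0 ≤ ∫ z, Real.exp ((c + 1) * er k' KT2 z) ∂μh :=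
    integral_nonneg fun z => (Real.exp_pos _).le
  have hX0 : 0 ≤ ∫ z, Xn k z ∂μh := integral_nonneg fun z => (Xn_pos k z).le
  have n3 : (μh).real (NoC (0, 0) J (sc (1024 * 2 ^ k))) *
      ∫ z, Real.exp ((c + 1) * er k' KT2 z) ∂μh ≤ (1 - q) ^ J * G :=
    mul_le_mul n1 b3 n2 (pow_nonneg (by linarith) _)
  calc _ ≤ (((2 : ℝ) ^ k) ^ ε * ∫ z, Xn k z ∂μh) * ((1 - q) ^ J * G) :=
        mul_le_mul a5 n3 (mul_nonneg measureReal_nonneg n2) (by positivity)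
    _ = _ := by ring

/-- integrability and evenness -/
theorem WS_int (a b : ℝ) (h : a + 2 * b = 0) (k k' : ℕ) :
    Integrable (fun z => WS a b (2 ^ k) (2 ^ k') z) μh := by
  have i1 := Vx107.integrable_W (ntr_chg (g := v0) (a := a) (b := b) (S1 := 2 ^ k) (S2 := 2 ^ k')
    Nat.one_le_two_pow Nat.one_le_two_pow h) μh
  have i2 := Vx107.integrable_W (ntr_chg (g := f0) (a := a) (b := b) (S1 := 2 ^ k) (S2 := 2 ^ k')
    Nat.one_le_two_pow Nat.one_le_two_pow h) μh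
  exact i1.add i2

theorem WS_even (a b : ℝ) (h : a + 2 * b = 0) (k k' : ℕ) :
    ∫ z, WS a b (2 ^ k) (2 ^ k') z ∂μh = ∫ z, WS (-a) (-b) (2 ^ k) (2 ^ k') z ∂μh := by
  have key : ∀ g : Face, ∫ z, Vx107.W (chg g a b (2 ^ k) (2 ^ k')) z ∂μh =
      ∫ z, Vx107.W (chg g (-a) (-b) (2 ^ k) (2 ^ k')) z ∂μh := fun g => by
    have h1 := Bk430.even_main (chg g a b (2 ^ k) (2 ^ k'))
      (ntr_chg Nat.one_le_two_pow Nat.one_le_two_pow h)
    rw [chg_neg] at h1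
    exact h1
  have hint : ∀ (a b : ℝ), a + 2 * b = 0 → ∀ g : Face,
      Integrable (Vx107.W (chg g a b (2 ^ k) (2 ^ k'))) μh := fun a b h g =>
    Vx107.integrable_W (ntr_chg Nat.one_le_two_pow Nat.one_le_two_pow h) μh
  unfold WS
  have h' : -a + 2 * -b = 0 := by linarith
  rw [integral_add (hint a b h v0) (hint a b h f0),
    integral_add (hint (-a) (-b) h' v0) (hint (-a) (-b) h' f0), key v0, key f0]

/-- **the main estimate** -/
theorem main_est : ∃ q c1 C2 : ℝ, 0 < q ∧ q ≤ 1 ∧ 0 < c1 ∧ 0 < C2 ∧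
    ∀ ε : ℝ, 0 < ε → ∃ k0 : ℕ, ∀ k ≥ k0, ∀ J : ℕ, 1 ≤ J →
      (c1 - C2 * ((2 : ℝ) ^ k) ^ ε * (1 - q) ^ J) *
        (∫ z, Real.exp (Real.log 2 * (NN (0, 0) 0 (2 ^ k) z : ℝ)) ∂μh) *
        Real.exp (-(√3 * (Real.pi / 6)) * (VV (k + 4) + VV (k + 10 + 2 * J))) ≤
      C2 * Ax107.p2 (2 ^ k) *
        Real.exp (√3 * (Real.pi / 6) * (VV (k + 4) + VV (k + 10 + 2 * J))) := by
  obtain ⟨q, hq0, hq1, hq⟩ := rsw_circ
  obtain ⟨C0, hC0, hlow⟩ := exists_low
  set c : ℝ := 68 + 2 * C0 with hc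
  have hc64 : 64 ≤ c := by linarith
  obtain ⟨G, hG, hR⟩ := ring_pack c (by linarith)
  have hG0 : 0 < G := by linarith
  have h3 := sqrt3_ge
  refine ⟨q, q ^ 6 / G ^ 2, 2 * √3 * G ^ 2, hq0, hq1, by positivity, by positivity, fun ε hε => ?_⟩
  obtain ⟨k0, G', hG', hB⟩ := bad_int hq1 hq c (by linarith) (half_pos hε)
  -- absorb the constant
  obtain ⟨k1, hk1⟩ : ∃ k1 : ℕ, ∀ k ≥ k1, G' ≤ ((2 : ℝ) ^ k) ^ (ε / 2) := by
    have t1 : Filter.Tendsto (fun n : ℝ => n ^ (ε / 2)) Filter.atTop Filter.atTop :=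
      tendsto_rpow_atTop (by positivity)
    have t2 : Filter.Tendsto (fun k : ℕ => (2 : ℝ) ^ k) Filter.atTop Filter.atTop :=
      tendsto_pow_atTop_atTop_of_one_lt (by norm_num)
    exact Filter.eventually_atTop.1 ((t1.comp t2).eventually_ge_atTop G')
  refine ⟨max (max k0 k1) 1, fun k hk J hJ => ?_⟩
  have hk0 : k0 ≤ k := (le_max_left _ _).trans ((le_max_left _ _).trans hk)
  have hk1' : k1 ≤ k := (le_max_right _ _).trans ((le_max_left _ _).trans hk)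
  have hkk : 1 ≤ k := (le_max_right _ _).trans hk
  have e10 : k + 10 + 2 * J = k + 6 + 2 * J + 4 := by omega
  rw [e10]
  obtain ⟨KM, KB1, KB2, b1, b2, b3, b4, b5⟩ := hB k hk0 J hJ
  set k' := k + 6 + 2 * J with hk'
  obtain ⟨KT1, r1, r2, r3⟩ := hR k
  obtain ⟨KT2, r4, r5, r6⟩ := hR k'
  have hpN := pwN k J hJ
  rw [← hk'] at hpN
  have hS : 1 ≤ 2 ^ k := Nat.one_le_two_pow
  set V := VV (k + 4) + VV (k' + 4) with hV
  have hL := left_int hJ hc64 hG r1 r4 r2 r5 r3 r6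
  obtain ⟨gi, hGd⟩ := good_int (c := c) hq0 hq hkk hJ hG r2 r5 r3 r6
  rw [← hk'] at hL gi hGd
  rw [← hV] at hL
  rw [WS_even _ _ (by ring), neg_neg] at hL
  have hX0 : 0 ≤ ∫ z, Xn k z ∂μh := integral_nonneg fun z => (Xn_pos k z).le
  -- pointwise
  have hpt : ∀ z, Real.exp (-(α * V)) * Lf k k' c KT1 KT2 z -
      2 * √3 * Real.exp (-(α * V)) * Uf k J c KM KB1 KB2 z ≤
      WS (-(Real.pi / 3)) (Real.pi / 6) (2 ^ k) (2 ^ k') z := by
    intro z
    have hU0 : 0 ≤ 2 * √3 * Real.exp (-(α * V)) * Uf k J c KM KB1 KB2 z :=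
      mul_nonneg (by positivity) (Uf_nonneg _ _ _ _ _ _ _)
    by_cases hg : GoodS (2 ^ k) (2 ^ k') z
    · have g := right_good (S1 := 2 ^ k) (S2 := 2 ^ k') (κ1 := k + 4) (κ2 := k' + 4) hS (by omega)
        (hk4 k) (hk4 k') hC0 hlow hg
      have l := (lin_ect (D := 4 + 2 * C0) (c := c) (r1 z) (r4 z) (by linarith) (by linarith)).1
      have hLf : Lf k k' c KT1 KT2 z = Xn k z *
          Real.exp (-(c * er k KT1 z + c * er k' KT2 z)) := by
        unfold Lf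
        rw [ind_mem (show z ∈ dual ⁻¹' CircZ (0, 0) (4 * 2 ^ k) (8 * 2 ^ k) from hg.g1),
          ind_mem hg.g2, ind_mem hg.g3, ind_mem hg.g4, neg_add, Real.exp_add]
        ring
      have h5 : Real.exp (-(α * V)) * Lf k k' c KT1 KT2 z ≤
          2 ^ NN (0, 0) 0 (2 ^ k : ℕ) z *
            Real.exp (-(α * Lin (2 ^ k) (2 ^ k') (k + 4) (k' + 4) z) -
              (4 + 2 * C0) * Ect (2 ^ k) (2 ^ k') (k + 4) (k' + 4) z) := by
        rw [hLf, Xn_eq, mul_left_comm, ← Real.exp_add]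
        have e1 : ((2 : ℤ) ^ k) = ((2 ^ k : ℕ) : ℤ) := by push_cast; rfl
        rw [e1]
        refine mul_le_mul_of_nonneg_left (Real.exp_le_exp.2 ?_) (by positivity)
        rw [← hV] at l
        linarith
      linarith
    · have hLf : Lf k k' c KT1 KT2 z ≤ 0 := by
        have hor : z ∉ dual ⁻¹' CircZ (0, 0) (4 * 2 ^ k) (8 * 2 ^ k) ∨
            z ∉ CircZ (0, 0) (128 * 2 ^ k) (256 * 2 ^ k) ∨
            z ∉ CircZ (0, 0) (2048 * 2 ^ k) (4096 * 2 ^ k) ∨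
            z ∉ CircZ (0, 0) (128 * 2 ^ k') (256 * 2 ^ k') := by
          by_contra hcon
          push Not at hcon
          exact hg ⟨hcon.1, hcon.2.1, hcon.2.2.1, hcon.2.2.2⟩
        unfold Lf
        rcases hor with h | h | h | h
        · rw [ind_not h]; simp
        · rw [ind_not h]; simp
        · rw [ind_not h]; simp
        · rw [ind_not h]; simp
      have hLf' : Real.exp (-(α * V)) * Lf k k' c KT1 KT2 z ≤ 0 :=
        mul_nonpos_of_nonneg_of_nonpos (Real.exp_pos _).le hLf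
      by_cases hb : z ∈ BadS (2 ^ k) (2 ^ k')
      · have g := right_bad (S1 := 2 ^ k) (S2 := 2 ^ k') (κ1 := k + 4) (κ2 := k' + 4) hS (by omega)
          (hk4 k) (hk4 k') hb
        have l := (lin_ect (D := 64) (b2 z) (b3 z) hc64 (by linarith)).2
        have hno : z ∈ NoC (0, 0) J (sc (1024 * 2 ^ k)) := bad_sub hb
        have hUf : 2 ^ (NN (0, 0) 0 (2 ^ k : ℕ) z + (Mids (2 ^ k) z).ncard +
              (RCs (2 ^ k') z).ncard) *
            Real.exp (-(α * Lin (2 ^ k) (2 ^ k') (k + 4) (k' + 4) z) +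
              64 * Ect (2 ^ k) (2 ^ k') (k + 4) (k' + 4) z) ≤
            Real.exp (-(α * V)) * Uf k J c KM KB1 KB2 z := by
          have f1 : (2 : ℝ) ^ (Mids (2 ^ k) z).ncard ≤ Real.exp (KM z) :=
            (two_le_exp _).trans (Real.exp_le_exp.2 (by exact_mod_cast b1 z))
          have f2 : (2 : ℝ) ^ (RCs (2 ^ k') z).ncard ≤ Real.exp (er k' KB2 z) := by
            refine (two_le_exp _).trans (Real.exp_le_exp.2 ?_)
            have := Cn109.QQ_nonneg lsW (fun _ => uc (2 ^ k')) (VR (2 ^ k')) (k' + 4) z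
            have h6 : ((RCs (2 ^ k') z).ncard : ℝ) ≤ KB2 z := by exact_mod_cast b3 z
            have h7 := abs_nonneg (SS lsW (fun _ => uc (2 ^ k')) (VR (2 ^ k')) (k' + 4) z -
              VV (k' + 4))
            unfold er
            linarith
          have f3 : Real.exp (-(α * Lin (2 ^ k) (2 ^ k') (k + 4) (k' + 4) z) +
              64 * Ect (2 ^ k) (2 ^ k') (k + 4) (k' + 4) z) ≤ Real.exp (-(α * V)) *
                (Real.exp (c * er k KB1 z) * Real.exp (c * er k' KB2 z)) := by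
            rw [← Real.exp_add, ← Real.exp_add]
            exact Real.exp_le_exp.2 l
          have e1 : ((2 : ℤ) ^ k) = ((2 ^ k : ℕ) : ℤ) := by push_cast; rfl
          rw [pow_add, pow_add]
          unfold Uf
          have e2 : Real.exp ((c + 1) * er k' KB2 z) =
              Real.exp (c * er k' KB2 z) * Real.exp (er k' KB2 z) := by
            rw [← Real.exp_add]; congr 1; ring
          rw [← hk', ind_mem hno, Xn_eq, e1, Real.exp_add (KM z : ℝ), one_mul, e2]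
          calc (2 : ℝ) ^ NN (0, 0) 0 (2 ^ k : ℕ) z * 2 ^ (Mids (2 ^ k) z).ncard *
                2 ^ (RCs (2 ^ k') z).ncard *
                Real.exp (-(α * Lin (2 ^ k) (2 ^ k') (k + 4) (k' + 4) z) +
                  64 * Ect (2 ^ k) (2 ^ k') (k + 4) (k' + 4) z)
              ≤ (2 : ℝ) ^ NN (0, 0) 0 (2 ^ k : ℕ) z * Real.exp (KM z) *
                Real.exp (er k' KB2 z) * (Real.exp (-(α * V)) *
                (Real.exp (c * er k KB1 z) * Real.exp (c * er k' KB2 z))) := by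
                refine mul_le_mul (mul_le_mul (mul_le_mul_of_nonneg_left f1 (by positivity)) f2
                  (by positivity) (by positivity)) f3 (Real.exp_pos _).le (by positivity)
            _ = _ := by ring
        have hw := neg_le_of_abs_le g
        have h8 : 2 * √3 * 2 ^ (NN (0, 0) 0 (2 ^ k : ℕ) z + (Mids (2 ^ k) z).ncard +
              (RCs (2 ^ k') z).ncard) *
            Real.exp (-(α * Lin (2 ^ k) (2 ^ k') (k + 4) (k' + 4) z) +
              64 * Ect (2 ^ k) (2 ^ k') (k + 4) (k' + 4) z) ≤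
            2 * √3 * Real.exp (-(α * V)) * Uf k J c KM KB1 KB2 z := by
          rw [mul_assoc, mul_assoc (2 * √3) (Real.exp _)]
          exact mul_le_mul_of_nonneg_left hUf (by positivity)
        linarith
      · have := right_nonneg hS (by omega : 64 * 2 ^ k ≤ 2 ^ k') hb
        linarith
  -- integrate
  have hint : Real.exp (-(α * V)) * ∫ z, Lf k k' c KT1 KT2 z ∂μh -
      2 * √3 * Real.exp (-(α * V)) * ∫ z, Uf k J c KM KB1 KB2 z ∂μh ≤
      ∫ z, WS (-(Real.pi / 3)) (Real.pi / 6) (2 ^ k) (2 ^ k') z ∂μh := by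
    rw [← integral_const_mul, ← integral_const_mul, ← integral_sub (gi.const_mul _)
      (b4.const_mul _)]
    exact integral_mono ((gi.const_mul _).sub (b4.const_mul _))
      (WS_int _ _ (by ring) k k') hpt
  have hEp : 0 < Real.exp (-(α * V)) := Real.exp_pos _
  have hpe : ((2 : ℝ) ^ k) ^ ε = ((2 : ℝ) ^ k) ^ (ε / 2) * ((2 : ℝ) ^ k) ^ (ε / 2) := by
    rw [← Real.rpow_add (by positivity)]
    congr 1
    ring
  have hpe0 : 0 < ((2 : ℝ) ^ k) ^ (ε / 2) := by positivity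
  have hq1' : 0 ≤ (1 - q) ^ J := pow_nonneg (by linarith) _
  have hbad : ∫ z, Uf k J c KM KB1 KB2 z ∂μh ≤
      ((2 : ℝ) ^ k) ^ ε * (1 - q) ^ J * ∫ z, Xn k z ∂μh := by
    refine b5.trans ?_
    rw [hpe]
    refine mul_le_mul_of_nonneg_right (mul_le_mul_of_nonneg_right
      (mul_le_mul_of_nonneg_right (hk1 k hk1') hpe0.le) hq1') hX0
  have hbad2 : 2 * √3 * ∫ z, Uf k J c KM KB1 KB2 z ∂μh ≤
      2 * √3 * G ^ 2 * (((2 : ℝ) ^ k) ^ ε * (1 - q) ^ J * ∫ z, Xn k z ∂μh) := by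
    have h9 : 2 * √3 ≤ 2 * √3 * G ^ 2 := by
      have : 1 ≤ G ^ 2 := one_le_pow₀ hG
      nlinarith
    have h10 : 0 ≤ ((2 : ℝ) ^ k) ^ ε * (1 - q) ^ J * ∫ z, Xn k z ∂μh := by positivity
    calc 2 * √3 * ∫ z, Uf k J c KM KB1 KB2 z ∂μh ≤ 2 * √3 * (((2 : ℝ) ^ k) ^ ε * (1 - q) ^ J *
          ∫ z, Xn k z ∂μh) := mul_le_mul_of_nonneg_left hbad (by positivity)
      _ ≤ _ := mul_le_mul_of_nonneg_right h9 h10
  have hX : (∫ z, Real.exp (Real.log 2 * (NN (0, 0) 0 (2 ^ k) z : ℝ)) ∂μh) =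
      ∫ z, Xn k z ∂μh := rfl
  rw [hX]
  set IX := ∫ z, Xn k z ∂μh with hIX
  set IU := ∫ z, Uf k J c KM KB1 KB2 z ∂μh with hIU
  set IL := ∫ z, Lf k k' c KT1 KT2 z ∂μh with hIL
  have e11 : Real.exp (-(√3 * (Real.pi / 6)) * V) = Real.exp (-(α * V)) := by
    congr 1; ring
  rw [e11]
  have h12 : (q ^ 6 / G ^ 2 - 2 * √3 * G ^ 2 * ((2 : ℝ) ^ k) ^ ε * (1 - q) ^ J) * IX ≤
      IL - 2 * √3 * IU := by
    have e13 : (q ^ 6 / G ^ 2 - 2 * √3 * G ^ 2 * ((2 : ℝ) ^ k) ^ ε * (1 - q) ^ J) * IX =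
        q ^ 6 / G ^ 2 * IX - 2 * √3 * G ^ 2 * (((2 : ℝ) ^ k) ^ ε * (1 - q) ^ J * IX) := by ring
    rw [e13]
    linarith
  calc (q ^ 6 / G ^ 2 - 2 * √3 * G ^ 2 * ((2 : ℝ) ^ k) ^ ε * (1 - q) ^ J) * IX *
        Real.exp (-(α * V)) ≤ (IL - 2 * √3 * IU) * Real.exp (-(α * V)) :=
        mul_le_mul_of_nonneg_right h12 hEp.le
    _ = Real.exp (-(α * V)) * IL - 2 * √3 * Real.exp (-(α * V)) * IU := by ring
    _ ≤ _ := hint.trans hL

end Crest.Agent.R158.B612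
end
end

-- ▼ part R158/Bf1_109

/-!
# Row 158, identity B (helper109): final step

* `MainB` : output of 612's integration of identity B
* `sb_of_main` : `MainB`, the growth of `VV` and the lower bound of `E 2 ^ N` give `SB p2`
* `sb_of_hyp` : the same from `We297.Hyp`
-/

set_option autoImplicit false

noncomputable section

namespace Crest.Agent.R158.Bf109

open Real MeasureTheory Filter Topology
open Crest.Agent.R158.Rs689 (nu hf)
open Crest.Agent.R158.Wf850 (NN)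
open Crest.Agent.R158.Cn109 (VV)
open Crest.Agent.R158.Vg109 (v0 den VV_growth HD_of_hyp)

/-- identity B after integration (helper612) -/
def MainB : Prop := ∃ q c1 C2 : ℝ, 0 < q ∧ q ≤ 1 ∧ 0 < c1 ∧ 0 < C2 ∧ ∀ ε : ℝ, ε > 0 → ∃ k0 : ℕ,
  ∀ k ≥ k0, ∀ J : ℕ, 1 ≤ J →
    (c1 - C2 * ((2 : ℝ) ^ k) ^ ε * (1 - q) ^ J) *
        (∫ z, Real.exp (Real.log 2 * (NN (0, 0) 0 (2 ^ k) z : ℝ)) ∂(nu hf)) *
        Real.exp (-(√3 * (π / 6)) * (VV (k + 4) + VV (k + 10 + 2 * J))) ≤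
      C2 * Ax107.p2 (2 ^ k) *
        Real.exp (√3 * (π / 6) * (VV (k + 4) + VV (k + 10 + 2 * J)))

theorem bv0 : √3 * (π / 6) * v0 = log 2 / 12 := by
  unfold v0 den
  have h3 : √3 ≠ 0 := by positivity
  have hp : π ≠ 0 := pi_ne_zero
  field_simp
  norm_num

/-- the bad term is small -/
theorem small_bad {q τ C2 c1 : ℝ} (hq : 0 < q) (hq1 : q ≤ 1) (hτ : 0 < τ) (hc : 0 < c1)
    (hC : 0 < C2) : ∀ᶠ k : ℕ in atTop, ∀ J : ℕ, τ * k ≤ J →
      C2 * ((2 : ℝ) ^ k) ^ (q * τ / (2 * log 2)) * (1 - q) ^ J ≤ c1 / 2 := by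
  have hl : 0 < log 2 := log_pos (by norm_num)
  have hlim : Tendsto (fun k : ℕ => C2 * exp (-(q * τ / 2) * (k : ℝ))) atTop (𝓝 (C2 * 0)) := by
    refine Tendsto.const_mul _ (tendsto_exp_atBot.comp ?_)
    exact Tendsto.const_mul_atTop_of_neg (by nlinarith [mul_pos hq hτ]) tendsto_natCast_atTop_atTop
  rw [mul_zero] at hlim
  filter_upwards [hlim.eventually_le_const (show (0 : ℝ) < c1 / 2 by positivity)] with k hk J hJ
  have e1 : ((2 : ℝ) ^ k) ^ (q * τ / (2 * log 2)) = exp (q * τ / 2 * k) := by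
    rw [← rpow_natCast, ← rpow_mul (by norm_num), rpow_def_of_pos (by norm_num)]
    congr 1
    field_simp
  have e2 : (1 - q) ^ J ≤ exp (-(q * τ) * k) := by
    have h1 : (1 - q) ^ J ≤ exp (-q) ^ J :=
      pow_le_pow_left₀ (by linarith) (by have := add_one_le_exp (-q); linarith) _
    refine h1.trans ?_
    rw [← exp_nat_mul]
    refine exp_le_exp.2 ?_
    nlinarith [mul_le_mul_of_nonneg_left hJ hq.le]
  calc C2 * ((2 : ℝ) ^ k) ^ (q * τ / (2 * log 2)) * (1 - q) ^ J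
      ≤ C2 * exp (q * τ / 2 * k) * exp (-(q * τ) * k) := by
        rw [e1]
        exact mul_le_mul_of_nonneg_left e2 (by positivity)
    _ = C2 * exp (-(q * τ / 2) * (k : ℝ)) := by
        rw [mul_assoc, ← exp_add]
        congr 2
        ring
    _ ≤ c1 / 2 := hk

set_option maxHeartbeats 1000000 in
theorem sb_dyadic (hM : MainB)
    (hV : ∀ e : ℝ, 0 < e → ∃ K : ℝ, 0 ≤ K ∧ ∀ k : ℕ, |VV k - k * v0| ≤ e * k + K)
    (hE : ∀ d : ℝ, 0 < d → ∀ᶠ n : ℕ in atTop, (n : ℝ) ^ (1 / 12 - d) ≤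
      ∫ z, Real.exp (Real.log 2 * (NN (0, 0) 0 n z : ℝ)) ∂(nu hf)) {ε : ℝ} (hε : 0 < ε) :
    ∀ᶠ k : ℕ in atTop, ((2 : ℝ) ^ k) ^ (-(1 / 4 : ℝ) - ε) ≤ Ax107.p2 (2 ^ k) := by
  obtain ⟨q, c1, C2, hq, hq1, hc1, hC2, hmain⟩ := hM
  have hl : 0 < log 2 := log_pos (by norm_num)
  set b : ℝ := √3 * (π / 6) with hb
  have hb0 : 0 < b := by positivity
  set τ : ℝ := min 1 (ε / 4) with hτ
  have hτ0 : 0 < τ := lt_min one_pos (by positivity)
  have hτ1 : τ ≤ 1 := min_le_left _ _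
  have hτε : τ ≤ ε / 4 := min_le_right _ _
  set e : ℝ := ε * log 2 / (64 * b) with he
  have he0 : 0 < e := by positivity
  have hbe : 64 * (b * e) = ε * log 2 := by rw [he]; field_simp
  obtain ⟨K, hK0, hK⟩ := hV e he0
  obtain ⟨k0, hk0⟩ := hmain (q * τ / (2 * log 2)) (by positivity)
  have hE' : ∀ᶠ k : ℕ in atTop, (((2 ^ k : ℕ) : ℝ)) ^ (1 / 12 - ε / 8) ≤
      ∫ z, Real.exp (Real.log 2 * (NN (0, 0) 0 ((2 ^ k : ℕ) : ℤ) z : ℝ)) ∂(nu hf) :=
    (tendsto_pow_atTop_atTop_of_one_lt (by norm_num : 1 < 2)).eventually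
      (hE (ε / 8) (by positivity))
  -- the constant
  set D : ℝ := 2 * b * ((v0 + e) * 16 + 2 * K) - log (c1 / (2 * C2)) with hD
  have hlast : ∀ᶠ k : ℕ in atTop, D ≤ (k : ℝ) * (log 2 * (ε / 8)) :=
    (tendsto_natCast_atTop_atTop.atTop_mul_const (show 0 < log 2 * (ε / 8) by positivity)
      |>.eventually_ge_atTop D)
  filter_upwards [small_bad (τ := τ) hq hq1 hτ0 hc1 hC2, eventually_ge_atTop k0,
    eventually_ge_atTop 1, hE', hlast] with k h1 h2 h3 h4 h5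
  have hk1 : (1 : ℝ) ≤ k := by exact_mod_cast h3
  set J : ℕ := ⌈τ * k⌉₊ with hJ
  have hJ1 : τ * k ≤ J := Nat.le_ceil _
  have hJ2 : (J : ℝ) ≤ τ * k + 1 := (Nat.ceil_lt_add_one (by positivity)).le
  have hJ3 : 1 ≤ J := by
    rw [hJ]
    exact Nat.one_le_iff_ne_zero.2 (Nat.ceil_pos.2 (by positivity)).ne'
  have h6 := hk0 k h2 J hJ3
  have h7 := h1 J hJ1
  set I0 : ℝ := ∫ z, Real.exp (Real.log 2 * (NN (0, 0) 0 (2 ^ k) z : ℝ)) ∂(nu hf) with hI0
  have h4' : ((2 : ℝ) ^ k) ^ (1 / 12 - ε / 8) ≤ I0 := by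
    rw [hI0]
    push_cast at h4
    exact h4
  set S : ℝ := VV (k + 4) + VV (k + 10 + 2 * J) with hS
  have hSle : S ≤ (v0 + e) * ((2 + 2 * τ) * k + 16) + 2 * K := by
    have q1 := (abs_le.1 (hK (k + 4))).2
    have q2 := (abs_le.1 (hK (k + 10 + 2 * J))).2
    push_cast at q1 q2
    have hv : 0 ≤ v0 + e := by
      have : 0 < v0 := by unfold v0; exact mul_pos hl Vg109.den_pos
      linarith
    have q3 : S ≤ (v0 + e) * (2 * k + 14 + 2 * J) + 2 * K := by rw [hS]; linarith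
    have q4 : (v0 + e) * (2 * k + 14 + 2 * J) ≤ (v0 + e) * ((2 + 2 * τ) * k + 16) :=
      mul_le_mul_of_nonneg_left (by linarith) hv
    linarith
  have hI0nn : 0 ≤ I0 := (by positivity : (0 : ℝ) ≤ ((2 : ℝ) ^ k) ^ (1 / 12 - ε / 8)).trans h4'
  -- lower bound of `p2`
  have h8 : c1 / 2 * I0 * exp (-b * S) ≤ C2 * Ax107.p2 (2 ^ k) * exp (b * S) := by
    refine le_trans ?_ h6
    refine mul_le_mul_of_nonneg_right ?_ (exp_pos _).le
    refine mul_le_mul_of_nonneg_right ?_ hI0nn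
    linarith
  have h9 : c1 / (2 * C2) * I0 * exp (-(2 * b * S)) ≤ Ax107.p2 (2 ^ k) := by
    have e1 : exp (-(2 * b * S)) = exp (-b * S) * exp (-(b * S)) := by
      rw [← exp_add]; congr 1; ring
    have e2 : exp (b * S) * exp (-(b * S)) = 1 := by rw [← exp_add, add_neg_cancel, exp_zero]
    have h10 := mul_le_mul_of_nonneg_right h8 (exp_pos (-(b * S))).le
    have e3 : C2 * Ax107.p2 (2 ^ k) * exp (b * S) * exp (-(b * S)) = C2 * Ax107.p2 (2 ^ k) := by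
      rw [mul_assoc, e2, mul_one]
    rw [e3] at h10
    rw [e1]
    calc c1 / (2 * C2) * I0 * (exp (-b * S) * exp (-(b * S)))
        = (c1 / 2 * I0 * exp (-b * S) * exp (-(b * S))) / C2 := by field_simp
      _ ≤ (C2 * Ax107.p2 (2 ^ k)) / C2 := div_le_div_of_nonneg_right h10 hC2.le
      _ = Ax107.p2 (2 ^ k) := by field_simp
  refine le_trans ?_ h9
  have e4 : ((2 : ℝ) ^ k) ^ (-(1 / 4 : ℝ) - ε) = exp (k * (log 2 * (-(1 / 4 : ℝ) - ε))) := by
    rw [← rpow_natCast, ← rpow_mul (by norm_num), rpow_def_of_pos (by norm_num)]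
    congr 1; ring
  have e5 : ((2 : ℝ) ^ k) ^ (1 / 12 - ε / 8) = exp (k * (log 2 * (1 / 12 - ε / 8))) := by
    rw [← rpow_natCast, ← rpow_mul (by norm_num), rpow_def_of_pos (by norm_num)]
    congr 1; ring
  have hcc : 0 < c1 / (2 * C2) := by positivity
  calc ((2 : ℝ) ^ k) ^ (-(1 / 4 : ℝ) - ε)
      ≤ exp (log (c1 / (2 * C2)) + k * (log 2 * (1 / 12 - ε / 8)) + -(2 * b * S)) := by
        rw [e4]
        refine exp_le_exp.2 ?_
        have q1 : 2 * b * S ≤ 2 * b * ((v0 + e) * ((2 + 2 * τ) * k + 16) + 2 * K) :=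
          mul_le_mul_of_nonneg_left hSle (by positivity)
        have q2 : 2 * b * ((v0 + e) * ((2 + 2 * τ) * k + 16) + 2 * K) =
            4 * (b * v0) * (1 + τ) * k + 4 * (b * e) * (1 + τ) * k +
              2 * b * ((v0 + e) * 16 + 2 * K) := by ring
        have q3 : b * v0 = log 2 / 12 := bv0
        have q4 : 4 * (b * v0) * (1 + τ) * k ≤ log 2 / 3 * k + log 2 * (ε / 12) * k := by
          rw [q3]
          have : log 2 * k * τ ≤ log 2 * k * (ε / 4) := mul_le_mul_of_nonneg_left hτε (by positivity)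
          linarith
        have q5 : 4 * (b * e) * (1 + τ) * k ≤ log 2 * (ε / 8) * k := by
          have h11 : b * e = ε * log 2 / 64 := by linarith
          rw [h11]
          have h12 : ε * log 2 / 64 * (1 + τ) * k ≤ ε * log 2 / 64 * 2 * k := by
            have : ε * log 2 / 64 * (1 + τ) ≤ ε * log 2 / 64 * 2 :=
              mul_le_mul_of_nonneg_left (by linarith) (by positivity)
            exact mul_le_mul_of_nonneg_right this (by positivity)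
          linarith
        have hkε : 0 ≤ (k : ℝ) * (log 2 * ε) := by positivity
        rw [hD] at h5
        rw [q2] at q1
        clear_value b τ e D I0 S J
        linarith
    _ = c1 / (2 * C2) * ((2 : ℝ) ^ k) ^ (1 / 12 - ε / 8) * exp (-(2 * b * S)) := by
        rw [exp_add, exp_add, exp_log hcc, e5]
    _ ≤ c1 / (2 * C2) * I0 * exp (-(2 * b * S)) := by
        refine mul_le_mul_of_nonneg_right ?_ (exp_pos _).le
        exact mul_le_mul_of_nonneg_left h4' hcc.le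

theorem tendsto_clog : Tendsto (fun n : ℕ => Nat.clog 2 n) atTop atTop := by
  refine tendsto_atTop.2 fun b => ?_
  filter_upwards [eventually_gt_atTop (2 ^ b)] with n hn
  by_contra hcon
  have h1 : n ≤ 2 ^ Nat.clog 2 n := Nat.le_pow_clog (by norm_num) n
  have h2 : 2 ^ Nat.clog 2 n ≤ 2 ^ b := Nat.pow_le_pow_right (by norm_num) (by omega)
  omega

/-- **final step of identity B** -/
theorem sb_of_main (hM : MainB)
    (hV : ∀ e : ℝ, 0 < e → ∃ K : ℝ, 0 ≤ K ∧ ∀ k : ℕ, |VV k - k * v0| ≤ e * k + K)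
    (hE : ∀ d : ℝ, 0 < d → ∀ᶠ n : ℕ in atTop, (n : ℝ) ^ (1 / 12 - d) ≤
      ∫ z, Real.exp (Real.log 2 * (NN (0, 0) 0 n z : ℝ)) ∂(nu hf)) : Ax107.SB Ax107.p2 := by
  intro ε hε
  have h1 := tendsto_clog.eventually
    (sb_dyadic hM hV hE (ε := ε / 2) (by positivity))
  filter_upwards [h1, eventually_ge_atTop 2, Ax107.ev_pow (ε / 2) (by positivity)
    ((2 : ℝ) ^ (1 / 4 + ε / 2))] with n hn hn2 hbig
  have hn0 : (0 : ℝ) < n := by
    have : (2 : ℝ) ≤ n := by exact_mod_cast hn2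
    linarith
  set k : ℕ := Nat.clog 2 n with hk
  have hk1 : n ≤ 2 ^ k := Nat.le_pow_clog (by norm_num) n
  have hk2 : 2 ^ k ≤ 2 * n := by
    have h2 : 2 ^ (k - 1) < n := Nat.pow_pred_clog_lt_self (by norm_num) (by omega)
    have h3 : 1 ≤ k := by
      by_contra hcon
      have : k = 0 := by omega
      rw [this] at hk1
      omega
    have h4 : 2 ^ k = 2 * 2 ^ (k - 1) := by
      rw [← pow_succ', Nat.sub_add_cancel h3]
    omega
  refine le_trans ?_ (Ax107.p2_anti hk1)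
  refine le_trans ?_ hn
  have hk2' : (2 : ℝ) ^ k ≤ 2 * n := by exact_mod_cast hk2
  have h3 : (2 * (n : ℝ)) ^ (-(1 / 4 : ℝ) - ε / 2) ≤ ((2 : ℝ) ^ k) ^ (-(1 / 4 : ℝ) - ε / 2) :=
    rpow_le_rpow_of_nonpos (by positivity) hk2' (by linarith)
  refine le_trans ?_ h3
  rw [mul_rpow (by norm_num) hn0.le]
  have h4 : (n : ℝ) ^ (-(1 / 4 : ℝ) - ε) = (n : ℝ) ^ (-(ε / 2)) * (n : ℝ) ^ (-(1 / 4 : ℝ) - ε / 2) := by
    rw [← rpow_add hn0]; congr 1; ring
  rw [h4]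
  refine mul_le_mul_of_nonneg_right ?_ (by positivity)
  rw [rpow_neg hn0.le, show (-(1 / 4 : ℝ) - ε / 2) = -(1 / 4 + ε / 2) by ring,
    rpow_neg (by norm_num : (0 : ℝ) ≤ 2)]
  exact inv_anti₀ (by positivity) hbig

/-- **final step of identity B, from `We297.Hyp`** -/
theorem sb_of_hyp (hM : MainB)
    (H : We297.Hyp (Filter.curry atTop atTop) (fun i : ℕ × ℕ => Real.log (i.1 : ℝ))
      (fun i => VV (Nat.log 2 (i.1 * i.2)) - VV (Nat.log 2 i.2)) Lc522.MM) :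
    Ax107.SB Ax107.p2 := by
  refine sb_of_main hM (fun e he => VV_growth (HD_of_hyp H) he) fun d hd => ?_
  obtain ⟨η, hη, h⟩ := Lc522.E2_of_hyp H d hd
  filter_upwards [h] with n hn
  exact (hn (Real.log 2) (by rw [sub_self, abs_zero]; exact hη.le)).1

end Crest.Agent.R158.Bf109
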