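import Crest.Agent.R158.Wf1_850
import Crest.Agent.R158.Vx2_107
import Crest.Agent.R158.Wf2_850
import Crest.Agent.R158.Cn4_109

-- ▼ part R158/Bg1_612
section

/-!
# Row 158, identity B (helper612), part 1: loops and concentric annuli

* `const_rect`, `const_ann` : a set of faces not cut inside a rectangle / an annulus is constant on it
* `cl_side` : a cluster which avoids an annulus stays on one side
* `fill` : a loop containing the annulus contains the box; `inner` : a loop missing the annulus and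
  meeting the box is inside the inner box
* `arms_of_sep`, `arms_of_inf`
-/

set_option autoImplicit false

noncomputable section

namespace Crest.Agent.R158.B612

open Crest.Agent.R161.Geo729 Crest.Agent.R161.Dual374 Crest.Agent.R161.Tas682
open Crest.Agent.R158.It200 Crest.Agent.R158.Wf850
open Crest.Agent.R158.Fr158 (bx mem_bx mem_bx_sd eIn mem_eIn)

/-- faces of a rectangle -/
def RF (a b c d : ℤ) : Finset Face := (Finset.Icc a b ×ˢ Finset.Icc c d) ×ˢ Finset.univ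

theorem mem_RF {a b c d : ℤ} {f : Face} :
    f ∈ RF a b c d ↔ a ≤ f.1.1 ∧ f.1.1 ≤ b ∧ c ≤ f.1.2 ∧ f.1.2 ≤ d := by
  unfold RF
  simp only [Finset.mem_product, Finset.mem_Icc, Finset.mem_univ, and_true]
  tauto

/-- a set that is not cut inside a rectangle is constant on it -/
theorem const_rect {A : Finset Face} {x0 x1 y0 y1 : ℤ}
    (h : ∀ d : Corner, cv d ∈ RF x0 x1 y0 y1 → cf d ∈ RF x0 x1 y0 y1 → ¬ sepC A d) {f g : Face}
    (hf : f ∈ RF x0 x1 y0 y1) (hg : g ∈ RF x0 x1 y0 y1) : f ∈ A ↔ g ∈ A := by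
  have hsep : ∀ d : Corner, cv d ∈ RF x0 x1 y0 y1 → cf d ∈ RF x0 x1 y0 y1 →
      (cv d ∈ A ↔ cf d ∈ A) := by
    intro d h1 h2
    have := h d h1 h2
    unfold sepC at this
    exact not_not.1 this
  have memB : ∀ (v : P2) (b : Bool), (v, b) ∈ RF x0 x1 y0 y1 ↔
      (x0 ≤ v.1 ∧ v.1 ≤ x1 ∧ y0 ≤ v.2 ∧ v.2 ≤ y1) := fun v b => mem_RF
  have h0 : ∀ v : P2, (v, false) ∈ RF x0 x1 y0 y1 → ((v, false) ∈ A ↔ (v, true) ∈ A) := by
    intro v hv
    have h1 := hsep (v, 0) hv (by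
      show (fc (v, 0), true) ∈ RF x0 x1 y0 y1
      rw [fc_zero]; rw [memB] at hv ⊢; exact hv)
    have e : cf (v, 0) = (v, true) := by unfold cf; rw [fc_zero]
    rw [e] at h1
    exact h1
  have hr : ∀ a b : ℤ, ((a, b), false) ∈ RF x0 x1 y0 y1 → ((a + 1, b), false) ∈ RF x0 x1 y0 y1 →
      (((a, b), false) ∈ A ↔ ((a + 1, b), false) ∈ A) := by
    intro a b h1 h2
    have e : cf ((a + 1, b), 3) = ((a, b), true) := by simp [cf, fc]
    have h3 := hsep ((a + 1, b), 3) h2 (by rw [e, memB]; rw [memB] at h1; exact h1)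
    rw [e] at h3
    rw [h0 _ h1]
    exact h3.symm
  have hu : ∀ a b : ℤ, ((a, b), false) ∈ RF x0 x1 y0 y1 → ((a, b + 1), false) ∈ RF x0 x1 y0 y1 →
      (((a, b), false) ∈ A ↔ ((a, b + 1), false) ∈ A) := by
    intro a b h1 h2
    have e : cf ((a, b + 1), 1) = ((a, b), true) := by simp [cf, fc]
    have h3 := hsep ((a, b + 1), 1) h2 (by rw [e, memB]; rw [memB] at h1; exact h1)
    rw [e] at h3
    rw [h0 _ h1]
    exact h3.symm
  have hrow : ∀ k : ℕ, ∀ b : ℤ, y0 ≤ b → b ≤ y1 → x0 + k ≤ x1 →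
      (((x0, b), false) ∈ A ↔ ((x0 + k, b), false) ∈ A) := by
    intro k
    induction k with
    | zero => intro b _ _ _; simp
    | succ k ih =>
        intro b h1 h2 h3
        push_cast at h3 ⊢
        rw [ih b h1 h2 (by linarith), hr _ _ (by rw [memB]; dsimp only; omega)
          (by rw [memB]; dsimp only; omega)]
        rw [show x0 + (k : ℤ) + 1 = x0 + (k + 1) by ring]
  have hcol : ∀ k : ℕ, x0 ≤ x1 → y0 + k ≤ y1 →
      (((x0, y0), false) ∈ A ↔ ((x0, y0 + k), false) ∈ A) := by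
    intro k
    induction k with
    | zero => intro _ _; simp
    | succ k ih =>
        intro h2 h3
        push_cast at h3 ⊢
        rw [ih h2 (by linarith), hu _ _ (by rw [memB]; dsimp only; omega)
          (by rw [memB]; dsimp only; omega)]
        rw [show y0 + (k : ℤ) + 1 = y0 + (k + 1) by ring]
  have key : ∀ f : Face, f ∈ RF x0 x1 y0 y1 → (((x0, y0), false) ∈ A ↔ f ∈ A) := by
    rintro ⟨⟨a, b⟩, s⟩ hfB
    rw [memB] at hfB
    dsimp only at hfB
    obtain ⟨h1, h2, h3, h4⟩ := hfB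
    have e1 : x0 + ((a - x0).toNat : ℤ) = a := by
      rw [Int.toNat_of_nonneg (by linarith)]; ring
    have e2 : y0 + ((b - y0).toNat : ℤ) = b := by
      rw [Int.toNat_of_nonneg (by linarith)]; ring
    have k1 := hcol (b - y0).toNat (by linarith) (by rw [e2]; exact h4)
    have k2 := hrow (a - x0).toNat b h3 h4 (by rw [e1]; exact h2)
    rw [e2] at k1
    rw [e1] at k2
    rw [k1, k2]
    cases s
    · exact Iff.rfl
    · exact h0 _ (by rw [memB]; exact ⟨h1, h2, h3, h4⟩)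
  rw [← key f hf, ← key g hg]

/-- distance of a face from the origin -/
abbrev s0 (f : Face) : ℤ := sd (0, 0) f.1

/-- the annulus -/
def An (r R : ℤ) (f : Face) : Prop := r < s0 f ∧ s0 f ≤ R

theorem sd0_eq (v : P2) : sd (0, 0) v = max |v.1| |v.2| := by unfold sd; simp

theorem sd0_le {v : P2} {n : ℤ} : sd (0, 0) v ≤ n ↔ -n ≤ v.1 ∧ v.1 ≤ n ∧ -n ≤ v.2 ∧ v.2 ≤ n := by
  rw [sd0_eq, max_le_iff, abs_le, abs_le]; tauto

theorem lt_sd0 {v : P2} {n : ℤ} : n < sd (0, 0) v ↔ v.1 < -n ∨ n < v.1 ∨ v.2 < -n ∨ n < v.2 := by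
  rw [← not_le, sd0_le]; omega

theorem an_iff {r R : ℤ} {f : Face} : An r R f ↔
    (f.1.1 < -r ∨ r < f.1.1 ∨ f.1.2 < -r ∨ r < f.1.2) ∧
      (-R ≤ f.1.1 ∧ f.1.1 ≤ R ∧ -R ≤ f.1.2 ∧ f.1.2 ≤ R) := by
  unfold An s0
  rw [lt_sd0, sd0_le]

/-- **constancy on an annulus** -/
theorem const_ann {A : Finset Face} {r R : ℤ} (h0 : 0 ≤ r) (hrR : r < R)
    (h : ∀ d : Corner, An r R (cv d) → An r R (cf d) → ¬ sepC A d) {f g : Face}
    (hf : An r R f) (hg : An r R g) : f ∈ A ↔ g ∈ A := by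
  -- the four rectangles
  have hU : ∀ f ∈ RF (-R) R (r + 1) R, An r R f := by
    intro f hf; rw [mem_RF] at hf; rw [an_iff]; omega
  have hD : ∀ f ∈ RF (-R) R (-R) (-(r + 1)), An r R f := by
    intro f hf; rw [mem_RF] at hf; rw [an_iff]; omega
  have hR' : ∀ f ∈ RF (r + 1) R (-R) R, An r R f := by
    intro f hf; rw [mem_RF] at hf; rw [an_iff]; omega
  have hL : ∀ f ∈ RF (-R) (-(r + 1)) (-R) R, An r R f := by
    intro f hf; rw [mem_RF] at hf; rw [an_iff]; omega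
  have cU : ∀ {f g : Face}, f ∈ RF (-R) R (r + 1) R → g ∈ RF (-R) R (r + 1) R →
      (f ∈ A ↔ g ∈ A) := fun h1 h2 => const_rect (fun d a b => h d (hU _ a) (hU _ b)) h1 h2
  have cD : ∀ {f g : Face}, f ∈ RF (-R) R (-R) (-(r + 1)) → g ∈ RF (-R) R (-R) (-(r + 1)) →
      (f ∈ A ↔ g ∈ A) := fun h1 h2 => const_rect (fun d a b => h d (hD _ a) (hD _ b)) h1 h2
  have cR : ∀ {f g : Face}, f ∈ RF (r + 1) R (-R) R → g ∈ RF (r + 1) R (-R) R →
      (f ∈ A ↔ g ∈ A) := fun h1 h2 => const_rect (fun d a b => h d (hR' _ a) (hR' _ b)) h1 h2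
  have cL : ∀ {f g : Face}, f ∈ RF (-R) (-(r + 1)) (-R) R → g ∈ RF (-R) (-(r + 1)) (-R) R →
      (f ∈ A ↔ g ∈ A) := fun h1 h2 => const_rect (fun d a b => h d (hL _ a) (hL _ b)) h1 h2
  -- everything is compared with the north east corner
  set NE : Face := ((R, R), false) with hNE
  set NW : Face := ((-R, R), false) with hNW
  set SE : Face := ((R, -R), false) with hSE
  have eNW : NW ∈ A ↔ NE ∈ A := cU (by rw [mem_RF]; simp [hNW]; omega) (by rw [mem_RF]; simp [hNE]; omega)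
  have eSE : SE ∈ A ↔ NE ∈ A := cR (by rw [mem_RF]; simp [hSE]; omega) (by rw [mem_RF]; simp [hNE]; omega)
  have key : ∀ f : Face, An r R f → (f ∈ A ↔ NE ∈ A) := by
    intro f hf
    rw [an_iff] at hf
    obtain ⟨h1 | h1 | h1 | h1, h2⟩ := hf
    · rw [← eNW]
      exact cL (by rw [mem_RF]; omega) (by rw [mem_RF]; simp [hNW]; omega)
    · exact cR (by rw [mem_RF]; omega) (by rw [mem_RF]; simp [hNE]; omega)
    · rw [← eSE]
      exact cD (by rw [mem_RF]; omega) (by rw [mem_RF]; simp [hSE]; omega)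
    · exact cU (by rw [mem_RF]; omega) (by rw [mem_RF]; simp [hNE]; omega)
  rw [key f hf, key g hg]

/-- a set which is not constant on the annulus is cut inside it -/
theorem cut_ann {A : Finset Face} {r R : ℤ} (h0 : 0 ≤ r) (hrR : r < R) {f g : Face}
    (hf : An r R f) (hg : An r R g) (hfA : f ∈ A) (hgA : g ∉ A) :
    ∃ d : Corner, An r R (cv d) ∧ An r R (cf d) ∧ sepC A d := by
  by_contra hcon
  push Not at hcon
  exact hgA ((const_ann h0 hrR hcon hf hg).1 hfA)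

/-! ### clusters and annuli -/

/-- one step of a cluster changes the distance by at most one -/
theorem pstep_near {Z : Edge → Prop} {u v : P2} (h : PStep Z u v) :
    |u.1 - v.1| ≤ 1 ∧ |u.2 - v.2| ≤ 1 := by
  obtain ⟨⟨⟨a, b⟩, s⟩, -, h | h⟩ := h <;> obtain ⟨h1, h2⟩ := h <;> subst h1 <;> subst h2 <;>
    cases s <;> simp [src, tgt]

theorem dstep_near {Z : Edge → Prop} {u v : P2} (h : DStep Z u v) :
    |u.1 - v.1| ≤ 1 ∧ |u.2 - v.2| ≤ 1 := by
  obtain ⟨⟨⟨a, b⟩, s⟩, -, h | h⟩ := h <;> obtain ⟨h1, h2⟩ := h <;> subst h1 <;> subst h2 <;>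
    cases s <;> simp [fA, fB]

/-- a path (of either type) starting at distance `≤ r` and avoiding `r + 1` stays at distance `≤ r` -/
theorem path_side {α : P2 → P2 → Prop} (hnear : ∀ u v, α u v → |u.1 - v.1| ≤ 1 ∧ |u.2 - v.2| ≤ 1)
    {r : ℤ} {u : P2} (hu : sd (0, 0) u ≤ r)
    (hav : ∀ v, Relation.ReflTransGen α u v → sd (0, 0) v ≠ r + 1) {v : P2}
    (h : Relation.ReflTransGen α u v) : sd (0, 0) v ≤ r := by
  induction h with
  | refl => exact hu
  | @tail b c h1 h2 ih =>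
    obtain ⟨k1, k2⟩ := hnear _ _ h2
    have h3 : sd (0, 0) c ≤ sd (0, 0) b + 1 :=
      sd_near (by rwa [abs_sub_comm]) (by rwa [abs_sub_comm])
    have h4 := hav c (h1.tail h2)
    omega

/-- a cluster starting at distance `≤ r` and avoiding distance `r + 1` stays at distance `≤ r` -/
theorem cl_side {z : Cfz} {r : ℤ} {f : Face} (hf : s0 f ≤ r)
    (hav : ∀ g, Cl z f g → s0 g ≠ r + 1) {g : Face} (h : Cl z f g) : s0 g ≤ r := by
  obtain ⟨u, b⟩ := f
  obtain ⟨v, b'⟩ := g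
  obtain ⟨h1, h2⟩ := h
  dsimp only at h1 h2
  subst h1
  rcases h2 with ⟨hb, h2⟩ | ⟨hb, h2⟩
  · subst hb
    refine path_side (fun _ _ => pstep_near) hf (fun w hw => hav (w, false) ⟨rfl, Or.inl ⟨rfl, hw⟩⟩) h2
  · subst hb
    refine path_side (fun _ _ => dstep_near) hf (fun w hw => hav (w, true) ⟨rfl, Or.inr ⟨rfl, hw⟩⟩) h2

/-! ### strands -/

/-- the strand of a loop -/
theorem strand {z : Cfz} {A : Finset Face} (hA : A ∈ Lps z) : ∃ c : Corner, (Lp z c).Finite ∧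
    (∀ f, f ∈ A ↔ ht z c f ≠ 0) ∧ (∀ d, sepC A d ↔ d ∈ Lp z c) := by
  obtain ⟨c, hc, h⟩ := hA
  exact ⟨c, hc, h, fun d => sep_iff hc h d⟩

theorem cl_strand {z : Cfz} {A : Finset Face} (hA : A ∈ Lps z) {d d' : Corner} (h : sepC A d)
    (h' : sepC A d') : Cl z (cv d) (cv d') ∧ Cl z (cf d) (cf d') := by
  obtain ⟨c, hc, -, hs⟩ := strand hA
  rw [hs] at h h'
  have e : d' ∈ Lp z d := by rw [Lp_eq h]; exact h'
  exact ⟨⟨rfl, Or.inl ⟨rfl, Lp_v d' e⟩⟩, ⟨rfl, Or.inr ⟨rfl, Lp_f d' e⟩⟩⟩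

/-- a loop whose corners are in the box is in the box -/
theorem sub_of_corners {z : Cfz} {A : Finset Face} (hA : A ∈ Lps z) {m : ℤ}
    (h : ∀ d, sepC A d → sd (0, 0) d.1 ≤ m) : A ⊆ BF (0, 0) m := by
  obtain ⟨c, hc, h1, hs⟩ := strand hA
  intro f hf
  rw [mem_BF]
  by_contra hlt
  exact (h1 f).1 hf (ht_out hc (fun d hd => h d ((hs d).2 hd)) (not_le.1 hlt))

/-- the face of a corner outside of `A`, and the inside one -/
theorem sep_cases {A : Finset Face} {d : Corner} (h : sepC A d) :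
    (cv d ∈ A ∧ cf d ∉ A) ∨ (cv d ∉ A ∧ cf d ∈ A) := by
  unfold sepC at h
  tauto

/-- **filling**: a loop containing an annulus contains the box -/
theorem fill {z : Cfz} {A : Finset Face} (hA : A ∈ Lps z) {r R : ℤ} (h0 : 0 ≤ r) (hrR : r + 2 ≤ R)
    (h : ∀ f, An r R f → f ∈ A) : BF (0, 0) R ⊆ A := by
  by_contra hcon
  rw [Finset.not_subset] at hcon
  obtain ⟨g, hg, hgA⟩ := hcon
  rw [mem_BF] at hg
  have hg' : s0 g ≤ r := by
    by_contra hlt
    exact hgA (h g ⟨not_le.1 hlt, hg⟩)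
  -- a face of the annulus
  have h1 : An r R ((r + 1, 0), false) := by rw [an_iff]; dsimp only; omega
  have h2 : Splits A (BF (0, 0) (R - 1)) := by
    refine ⟨⟨_, ?_, h _ h1⟩, g, ?_, hgA⟩
    · rw [mem_BF, sd0_le]; dsimp only; omega
    · rw [mem_BF]; have : sd (0, 0) g.1 ≤ r := hg'; omega
  obtain ⟨d, hd1, hd2, hd3⟩ := exists_sep h2
  -- the outer cluster stays inside
  have key : ∀ y : Face, y ∉ A → s0 y ≤ R - 1 → ∀ y', Cl z y y' → s0 y' ≤ r := by
    intro y hy hyR y' hyy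
    refine cl_side ?_ (fun g hg hgr => ?_) hyy
    · by_contra hlt
      exact hy (h y ⟨not_le.1 hlt, by omega⟩)
    · exact hy ((lps_cl hA hg).2 (h g ⟨by omega, by omega⟩))
  rw [mem_BF] at hd1 hd2
  have hcor : ∀ d', sepC A d' → sd (0, 0) d'.1 ≤ r + 1 := by
    intro d' hd'
    obtain ⟨c1, c2⟩ := cl_strand hA hd3 hd'
    rcases sep_cases hd3 with ⟨-, b⟩ | ⟨a, -⟩
    · have h3 : s0 (cf d') ≤ r := key _ b hd2 _ c2
      have h4 := (sd_corner (0, 0) d').1
      have h5 : s0 (cf d') = sd (0, 0) (fc d') := rfl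
      omega
    · have h3 : s0 (cv d') ≤ r := key _ a hd1 _ c1
      have h5 : s0 (cv d') = sd (0, 0) d'.1 := rfl
      omega
  have h3 := sub_of_corners hA hcor
  have h4 : An r R ((R, 0), false) := by rw [an_iff]; dsimp only; omega
  have h5 := h3 (h _ h4)
  rw [mem_BF, sd0_le] at h5
  dsimp only at h5
  omega

/-- a loop missing an annulus and meeting the box is inside the inner box -/
theorem inner {z : Cfz} {A : Finset Face} (hA : A ∈ Lps z) {r R : ℤ} (h0 : 0 ≤ r) (hrR : r + 2 ≤ R)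
    (h : ∀ f, An r R f → f ∉ A) {g : Face} (hgR : s0 g ≤ R) (hgA : g ∈ A) :
    A ⊆ BF (0, 0) r := by
  have hg' : s0 g ≤ r := by
    by_contra hlt
    exact h g ⟨not_le.1 hlt, hgR⟩ hgA
  have h1 : An r R ((r + 1, 0), false) := by rw [an_iff]; dsimp only; omega
  have h2 : Splits A (BF (0, 0) (R - 1)) := by
    refine ⟨⟨g, ?_, hgA⟩, _, ?_, h _ h1⟩
    · rw [mem_BF]; have : sd (0, 0) g.1 ≤ r := hg'; omega
    · rw [mem_BF, sd0_le]; dsimp only; omega
  obtain ⟨d, hd1, hd2, hd3⟩ := exists_sep h2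
  have key : ∀ y : Face, y ∈ A → s0 y ≤ R - 1 → ∀ y', Cl z y y' → s0 y' ≤ r := by
    intro y hy hyR y' hyy
    refine cl_side ?_ (fun g hg hgr => ?_) hyy
    · by_contra hlt
      exact h y ⟨not_le.1 hlt, by omega⟩ hy
    · exact h g ⟨by omega, by omega⟩ ((lps_cl hA hg).1 hy)
  rw [mem_BF] at hd1 hd2
  have hcor : ∀ d', sepC A d' → sd (0, 0) d'.1 ≤ r + 1 := by
    intro d' hd'
    obtain ⟨c1, c2⟩ := cl_strand hA hd3 hd'
    rcases sep_cases hd3 with ⟨a, -⟩ | ⟨-, b⟩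
    · have h3 : s0 (cv d') ≤ r := key _ a hd1 _ c1
      have h5 : s0 (cv d') = sd (0, 0) d'.1 := rfl
      omega
    · have h3 : s0 (cf d') ≤ r := key _ b hd2 _ c2
      have h4 := (sd_corner (0, 0) d').1
      have h5 : s0 (cf d') = sd (0, 0) (fc d') := rfl
      omega
  have h3 := sub_of_corners hA hcor
  intro f hf
  have h4 := h3 hf
  rw [mem_BF] at h4 ⊢
  by_contra hlt
  exact h f ⟨not_le.1 hlt, by show sd (0, 0) f.1 ≤ R; omega⟩ hf

/-! ### arms -/

/-- the loop through the corner `c0` leaves the box `BF 0 m`: two arms -/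
theorem arms_of_sep {z : Cfz} {A : Finset Face} (hA : A ∈ Lps z) {c0 : Corner} (hc : sepC A c0)
    {m : ℤ} (hm : ¬ A ⊆ BF (0, 0) m) :
    (∃ v ∈ OCl z c0.1, m + 1 ≤ sd (0, 0) v) ∧ ∃ g ∈ DCl z (fc c0), m ≤ sd (0, 0) g := by
  have h1 : ∃ d', sepC A d' ∧ m + 1 ≤ sd (0, 0) d'.1 := by
    by_contra hcon
    push Not at hcon
    exact hm (sub_of_corners hA fun d hd => by have := hcon d hd; omega)
  obtain ⟨d', hd', hd''⟩ := h1
  obtain ⟨c, hcf, -, hs⟩ := strand hA
  rw [hs] at hc hd'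
  have e : d' ∈ Lp z c0 := by rw [Lp_eq hc]; exact hd'
  refine ⟨⟨d'.1, Lp_v d' e, hd''⟩, ⟨fc d', Lp_f d' e, ?_⟩⟩
  have := (sd_corner (0, 0) d').1
  omega

/-- no finite loop through the corner `c0`: two infinite arms -/
theorem arms_of_inf {z : Cfz} {c0 : Corner} (h : ∀ A ∈ Lps z, ¬ sepC A c0) (m : ℤ) :
    (∃ v ∈ OCl z c0.1, m ≤ sd (0, 0) v) ∧ ∃ g ∈ DCl z (fc c0), m ≤ sd (0, 0) g := by
  have hinf : ¬ (Lp z c0).Finite := by
    intro hfin
    obtain ⟨A, hA, hAf⟩ := exists_int hfin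
    exact h A hA ((sep_iff hfin hAf c0).2 (mem_Lp_self z c0))
  constructor
  · by_contra hcon
    push Not at hcon
    apply hinf
    refine Lp_finite_of_v ((bx (0, 0) m).finite_toSet.subset fun v hv => ?_)
    rw [Finset.mem_coe, mem_bx_sd]
    exact (hcon v hv).le
  · by_contra hcon
    push Not at hcon
    apply hinf
    refine Lp_finite_of_f ((bx (0, 0) m).finite_toSet.subset fun v hv => ?_)
    rw [Finset.mem_coe, mem_bx_sd]
    exact (hcon v hv).le

end Crest.Agent.R158.B612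
end
end

-- ▼ part R158/Bg2_612

/-!
# Row 158, identity B (helper612), part 2: ring charges and the two-point sum

* `VR S` : ring of faces `64 S < |f| ≤ 1024 S`; `qm S A` : fraction of the ring inside `A`
* `chg g a b S1 S2` : charge `a` at `g`, `b` on each of two rings
* `W_chg`, `sum2` : the sum over the two faces of the corner `c0`
-/

set_option autoImplicit false

noncomputable section

namespace Crest.Agent.R158.B612

open Real
open Crest.Agent.R161.Geo729 Crest.Agent.R161.Dual374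
open Crest.Agent.R161.Tas682 (sd)
open Crest.Agent.R158.It200 Crest.Agent.R158.Wf850
open Crest.Agent.R158.Fr158 (bx mem_bx mem_bx_sd eIn mem_eIn)
open Crest.Agent.R158.Vx107 (Fw mass tot Ntr)
open Crest.Agent.R158.Cn109 (lsW smalls mem_smalls SS QQ)

/-- the corner at the origin -/
def c0 : Corner := ((0, 0), 0)
/-- its vertex -/
def v0 : Face := ((0, 0), false)
/-- its face -/
def f0 : Face := ((0, 0), true)

theorem cv_c0 : cv c0 = v0 := rfl
theorem cf_c0 : cf c0 = f0 := by unfold cf c0; rw [fc_zero]; rfl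
theorem s0_v0 : s0 v0 = 0 := by simp [s0, v0, sd]
theorem s0_f0 : s0 f0 = 0 := by simp [s0, f0, sd]
theorem s0_nonneg (f : Face) : 0 ≤ s0 f := sd_nonneg' _ _

/-- the ring of faces at scale `S` -/
def VR (S : ℕ) : Finset Face := BF (0, 0) (1024 * S) \ BF (0, 0) (64 * S)

theorem mem_VR {S : ℕ} {f : Face} : f ∈ VR S ↔ An (64 * S) (1024 * S) f := by
  unfold VR An
  rw [Finset.mem_sdiff, mem_BF, mem_BF, not_le]
  tauto

theorem card_VR (S : ℕ) : ((VR S).card : ℝ) = 2 * (2048 * S + 1) ^ 2 - 2 * (128 * S + 1) ^ 2 := by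
  have h1 : BF (0, 0) (64 * S) ⊆ BF (0, 0) (1024 * S) := BF_mono (by omega)
  have h2 := Finset.card_sdiff_add_card_eq_card h1
  have h3 := card_BF (0, 0) (64 * S)
  have h4 := card_BF (0, 0) (1024 * S)
  push_cast at h3 h4
  rw [h3, h4] at h2
  have h5 : ((VR S).card : ℝ) + 2 * (2 * (64 * S) + 1) ^ 2 = 2 * (2 * (1024 * S) + 1) ^ 2 := by
    unfold VR
    exact_mod_cast h2
  linarith

theorem card_VR_pos {S : ℕ} (hS : 1 ≤ S) : 8000000 * (S : ℝ) ^ 2 ≤ ((VR S).card : ℝ) := by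
  rw [card_VR]
  have : (1 : ℝ) ≤ S := by exact_mod_cast hS
  nlinarith

/-- density of the ring -/
def uc (S : ℕ) : ℝ := ((VR S).card : ℝ)⁻¹

theorem uc_nonneg (S : ℕ) : 0 ≤ uc S := by unfold uc; positivity

theorem card_uc {S : ℕ} (hS : 1 ≤ S) : ((VR S).card : ℝ) * uc S = 1 := by
  unfold uc
  refine mul_inv_cancel₀ ?_
  have h := card_VR_pos hS
  have : (1 : ℝ) ≤ S := by exact_mod_cast hS
  nlinarith

/-- fraction of the ring inside `A` -/
def qm (S : ℕ) (A : Finset Face) : ℝ := Cn109.mass (fun _ => uc S) (VR S) A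

theorem qm_nonneg (S : ℕ) (A : Finset Face) : 0 ≤ qm S A :=
  Cn109.mass_nonneg (fun _ _ => uc_nonneg S) A

open Classical in
theorem qm_eq (S : ℕ) (A : Finset Face) : qm S A = ((VR S).filter (· ∈ A)).card * uc S := by
  unfold qm Cn109.mass
  rw [Finset.sum_const, nsmul_eq_mul]

theorem qm_le_one {S : ℕ} (hS : 1 ≤ S) (A : Finset Face) : qm S A ≤ 1 := by
  classical
  rw [qm_eq, ← card_uc hS]
  refine mul_le_mul_of_nonneg_right ?_ (uc_nonneg S)
  exact_mod_cast Finset.card_filter_le _ _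

theorem qm_zero {S : ℕ} {A : Finset Face} (h : ∀ f ∈ VR S, f ∉ A) : qm S A = 0 := by
  classical
  rw [qm_eq, Finset.filter_false_of_mem h]
  simp

theorem qm_one {S : ℕ} (hS : 1 ≤ S) {A : Finset Face} (h : ∀ f ∈ VR S, f ∈ A) : qm S A = 1 := by
  classical
  rw [qm_eq, Finset.filter_true_of_mem h, card_uc hS]

theorem exists_of_qm {S : ℕ} {A : Finset Face} (h : qm S A ≠ 0) : ∃ f ∈ VR S, f ∈ A := by
  by_contra hcon
  push Not at hcon
  exact h (qm_zero hcon)

theorem qm_le_of_card {S : ℕ} {A : Finset Face} {n : ℕ} (hS : 1 ≤ S) {B : Finset Face}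
    (h : ∀ f ∈ VR S, f ∈ A → f ∈ B) (hB : B.card ≤ n)
    (hn : (n : ℝ) ≤ 99 / 100 * ((VR S).card : ℝ)) : qm S A ≤ 99 / 100 := by
  classical
  have h1 : ((VR S).filter (· ∈ A)).card ≤ n := by
    refine (Finset.card_le_card fun f hf => ?_).trans hB
    rw [Finset.mem_filter] at hf
    exact h f hf.1 hf.2
  have h2 : (((VR S).filter (· ∈ A)).card : ℝ) ≤ n := by exact_mod_cast h1
  rw [qm_eq]
  have h3 := uc_nonneg S
  have h4 := card_uc hS
  nlinarith

/-- a set missing the middle box carries less than the whole ring -/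
theorem qm_le_of_miss {S : ℕ} (hS : 1 ≤ S) {A : Finset Face}
    (h : ∀ f ∈ A, ¬ s0 f < 128 * S) : qm S A ≤ 99 / 100 := by
  have hs : (1 : ℝ) ≤ S := by exact_mod_cast hS
  obtain ⟨m, hm⟩ : ∃ m : ℕ, m + 1 = 128 * S := ⟨128 * S - 1, by omega⟩
  have hmr : (m : ℝ) = 128 * S - 1 := by
    have : ((m + 1 : ℕ) : ℝ) = ((128 * S : ℕ) : ℝ) := by rw [hm]
    push_cast at this
    linarith
  refine qm_le_of_card (n := (BF (0, 0) (1024 * S) \ BF (0, 0) m).card) hS
    (fun f hf hfA => ?_) le_rfl ?_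
  · rw [mem_VR] at hf
    rw [Finset.mem_sdiff, mem_BF, mem_BF]
    have h1 := h f hfA
    have e : s0 f = sd (0, 0) f.1 := rfl
    exact ⟨hf.2, by omega⟩
  · have h1 : BF (0, 0) m ⊆ BF (0, 0) (1024 * S) := BF_mono (by omega)
    have h2 := Finset.card_sdiff_add_card_eq_card h1
    have h3 := card_BF (0, 0) m
    have h4 := card_BF (0, 0) (1024 * S)
    push_cast at h3 h4
    rw [h3, h4] at h2
    have h5 : ((BF (0, 0) (1024 * S) \ BF (0, 0) m).card : ℝ) +
        2 * (2 * m + 1) ^ 2 = 2 * (2 * (1024 * S) + 1) ^ 2 := by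
      exact_mod_cast h2
    rw [hmr] at h5
    rw [card_VR]
    nlinarith

/-- a set inside the middle box carries less than the whole ring -/
theorem qm_le_of_sub {S : ℕ} (hS : 1 ≤ S) {A : Finset Face}
    (h : A ⊆ BF (0, 0) (256 * S + 1)) : qm S A ≤ 99 / 100 := by
  have hs : (1 : ℝ) ≤ S := by exact_mod_cast hS
  refine qm_le_of_card (n := (BF (0, 0) ((256 * S + 1 : ℕ) : ℤ)).card) hS
    (fun f hf hfA => by push_cast; exact h hfA) le_rfl ?_
  rw [card_BF, card_VR]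
  push_cast
  nlinarith

/-! ### charges -/

open Classical in
/-- the uniform charge on the ring -/
def uV (S : ℕ) : Face →₀ ℝ :=
  Finsupp.onFinset (VR S) (fun f => if f ∈ VR S then uc S else 0) fun f hf => by
    by_contra h
    exact hf (if_neg h)

theorem mass_uV (S : ℕ) (A : Finset Face) : mass (uV S) A = qm S A := by
  classical
  unfold mass qm Cn109.mass uV
  simp only [Finsupp.onFinset_apply]
  rw [← Finset.sum_filter]
  refine Finset.sum_congr ?_ fun _ _ => rfl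
  ext f
  simp only [Finset.mem_filter]
  tauto

theorem tot_uV {S : ℕ} (hS : 1 ≤ S) : tot (uV S) = 1 := by
  classical
  unfold tot
  rw [Finsupp.sum_of_support_subset (uV S) (s := VR S) Finsupp.support_onFinset_subset _
    (fun _ _ => rfl)]
  have h1 : ∀ f ∈ VR S, uV S f = uc S := fun f hf => by
    unfold uV; rw [Finsupp.onFinset_apply, if_pos hf]
  rw [Finset.sum_congr rfl h1, Finset.sum_const, nsmul_eq_mul, card_uc hS]

/-- charge `a` at `g`, `b` on each of the rings of scale `S1`, `S2` -/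
def chg (g : Face) (a b : ℝ) (S1 S2 : ℕ) : Face →₀ ℝ :=
  Finsupp.single g a + (b • uV S1 + b • uV S2)

theorem chg_neg (g : Face) (a b : ℝ) (S1 S2 : ℕ) : -chg g a b S1 S2 = chg g (-a) (-b) S1 S2 := by
  unfold chg
  rw [neg_add, neg_add, Finsupp.single_neg, neg_smul, neg_smul]

open Classical in
theorem mass_single (g : Face) (a : ℝ) (A : Finset Face) :
    mass (Finsupp.single g a) A = if g ∈ A then a else 0 := by
  unfold mass
  simp only [Finsupp.single_apply]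
  rw [Finset.sum_ite_eq]

open Classical in
theorem mass_chg (g : Face) (a b : ℝ) (S1 S2 : ℕ) (A : Finset Face) :
    mass (chg g a b S1 S2) A = (if g ∈ A then a else 0) + b * (qm S1 A + qm S2 A) := by
  unfold chg
  rw [Vx107.mass_add, Vx107.mass_add, Vx107.mass_smul, Vx107.mass_smul, mass_single, mass_uV,
    mass_uV]
  ring

theorem ntr_chg {g : Face} {a b : ℝ} {S1 S2 : ℕ} (h1 : 1 ≤ S1) (h2 : 1 ≤ S2) (h : a + 2 * b = 0) :
    Ntr (chg g a b S1 S2) := by
  unfold Ntr chg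
  rw [Vx107.tot_add, Vx107.tot_add, Vx107.tot_smul, Vx107.tot_smul, tot_uV h1, tot_uV h2]
  unfold tot
  rw [Finsupp.sum_single_index rfl]
  linarith

theorem supp_chg {g : Face} {a b : ℝ} {S1 S2 : ℕ} (h12 : S1 ≤ S2)
    (hg : s0 g ≤ 1024 * S2) : (chg g a b S1 S2).support ⊆ BF (0, 0) (1024 * S2) := by
  classical
  intro f hf
  rw [Finsupp.mem_support_iff] at hf
  rw [mem_BF]
  by_contra hlt
  apply hf
  have h1 : g ≠ f := fun h => hlt (h ▸ hg)
  have h2 : ∀ S : ℕ, S ≤ S2 → f ∉ VR S := by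
    intro S hS h
    rw [mem_VR] at h
    have h3 := h.2
    have : sd (0, 0) f.1 ≤ 1024 * S2 := h3.trans (by exact_mod_cast Nat.mul_le_mul_left 1024 hS)
    exact hlt this
  unfold chg uV
  simp [Finsupp.single_apply, h1, h2 S1 h12, h2 S2 le_rfl]

/-- the loops that can see a charge in `BF 0 B` -/
def Zs (z : Cfz) (B : ℤ) : Finset (Finset Face) := (fin_split z (0, 0) B).toFinset

theorem mem_Zs {z : Cfz} {B : ℤ} {A : Finset Face} :
    A ∈ Zs z B ↔ A ∈ Lps z ∧ Splits A (BF (0, 0) B) := by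
  unfold Zs
  rw [Set.Finite.mem_toFinset]
  rfl

theorem W_eq {m : Face →₀ ℝ} (hm : Ntr m) {B : ℤ} (hB : m.support ⊆ BF (0, 0) B) (z : Cfz) :
    Vx107.W m z = ∏ A ∈ Zs z B, Fw (mass m A) := by
  unfold Vx107.W
  refine finprod_mem_eq_prod_of_inter_mulSupport_eq _ ?_
  ext A
  simp only [Set.mem_inter_iff, Finset.mem_coe, mem_Zs]
  constructor
  · rintro ⟨h1, h2⟩
    refine ⟨⟨h1, ?_⟩, h2⟩
    refine Vx107.splits_of_mass hm hB fun h => h2 ?_
    show Fw (mass m A) = 1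
    rw [h, Vx107.Fw_zero]
  · rintro ⟨⟨h1, -⟩, h2⟩
    exact ⟨h1, h2⟩

open Classical in
/-- the two-point sum -/
def WS (a b : ℝ) (S1 S2 : ℕ) (z : Cfz) : ℝ :=
  Vx107.W (chg v0 a b S1 S2) z + Vx107.W (chg f0 a b S1 S2) z

/-- ring mass in units of `b` -/
def tq (S1 S2 : ℕ) (A : Finset Face) : ℝ := qm S1 A + qm S2 A

open Classical in
/-- loops around the corner `c0` -/
def Zi (z : Cfz) (B : ℤ) : Finset (Finset Face) :=
  (Zs z B).filter fun A => ¬ sepC A c0 ∧ v0 ∈ A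

open Classical in
/-- loops not around the corner `c0` -/
def Zo (z : Cfz) (B : ℤ) : Finset (Finset Face) :=
  (Zs z B).filter fun A => ¬ sepC A c0 ∧ v0 ∉ A

theorem sepc0 {A : Finset Face} : sepC A c0 ↔ ¬ (v0 ∈ A ↔ f0 ∈ A) := by
  unfold sepC; rw [cv_c0, cf_c0]

theorem zs_of_sep {z : Cfz} {B : ℤ} (hB : 0 ≤ B) {A : Finset Face} (hA : A ∈ Lps z)
    (h : sepC A c0) : A ∈ Zs z B := by
  rw [sepc0] at h
  have hv : v0 ∈ BF (0, 0) B := by rw [mem_BF]; show s0 v0 ≤ B; rw [s0_v0]; exact hB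
  have hf : f0 ∈ BF (0, 0) B := by rw [mem_BF]; show s0 f0 ≤ B; rw [s0_f0]; exact hB
  rw [mem_Zs]
  refine ⟨hA, ?_⟩
  by_cases h1 : v0 ∈ A
  · exact ⟨⟨v0, hv, h1⟩, f0, hf, fun h2 => h ⟨fun _ => h2, fun _ => h1⟩⟩
  · have h2 : f0 ∈ A := by
      by_contra h2
      exact h ⟨fun h3 => absurd h3 h1, fun h3 => absurd h3 h2⟩
    exact ⟨⟨f0, hf, h2⟩, v0, hv, h1⟩

/-- factor of the loop through `c0` -/
def Xf (a t : ℝ) : ℝ := Fw (a + t) + Fw t

open Classical in
/-- **the two-point sum**: factorisation -/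
theorem WS_eq {a b : ℝ} {S1 S2 : ℕ} (h1 : 1 ≤ S1) (h12 : S1 ≤ S2) (h : a + 2 * b = 0) (z : Cfz) :
    ∃ X : ℝ, ((X = 2 ∧ ∀ A ∈ Lps z, ¬ sepC A c0) ∨
        ∃ L ∈ Lps z, sepC L c0 ∧ X = Xf a (b * tq S1 S2 L)) ∧
      WS a b S1 S2 z = X * (∏ A ∈ Zi z (1024 * S2), Fw (a + b * tq S1 S2 A)) *
        ∏ A ∈ Zo z (1024 * S2), Fw (b * tq S1 S2 A) := by
  set B : ℤ := 1024 * S2 with hB
  have hB0 : 0 ≤ B := by rw [hB]; positivity
  have hsup : ∀ g : Face, s0 g = 0 → (chg g a b S1 S2).support ⊆ BF (0, 0) B := fun g hg =>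
    supp_chg h12 (by rw [hg]; exact hB0)
  have e1 := W_eq (ntr_chg (g := v0) h1 (h1.trans h12) h) (hsup v0 s0_v0) z
  have e2 := W_eq (ntr_chg (g := f0) h1 (h1.trans h12) h) (hsup f0 s0_f0) z
  simp only [mass_chg] at e1 e2
  -- split the product
  have hsplit : ∀ g : Finset Face → ℝ, ∏ A ∈ Zs z B, g A =
      (∏ A ∈ (Zs z B).filter (fun A => sepC A c0), g A) *
        ((∏ A ∈ Zi z B, g A) * ∏ A ∈ Zo z B, g A) := by
    intro g
    rw [← Finset.prod_filter_mul_prod_filter_not (Zs z B) (fun A => sepC A c0)]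
    congr 1
    rw [← Finset.prod_filter_mul_prod_filter_not ((Zs z B).filter fun A => ¬ sepC A c0)
      (fun A => v0 ∈ A), Finset.filter_filter, Finset.filter_filter]
    rfl
  have hi : ∀ A ∈ Zi z B, v0 ∈ A ∧ f0 ∈ A := by
    intro A hA
    unfold Zi at hA
    rw [Finset.mem_filter, sepc0, not_not] at hA
    exact ⟨hA.2.2, hA.2.1.1 hA.2.2⟩
  have ho : ∀ A ∈ Zo z B, v0 ∉ A ∧ f0 ∉ A := by
    intro A hA
    unfold Zo at hA
    rw [Finset.mem_filter, sepc0, not_not] at hA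
    exact ⟨hA.2.2, fun h => hA.2.2 (hA.2.1.2 h)⟩
  have iv : ∏ A ∈ Zi z B, Fw ((if v0 ∈ A then a else 0) + b * (qm S1 A + qm S2 A)) =
      ∏ A ∈ Zi z B, Fw (a + b * tq S1 S2 A) :=
    Finset.prod_congr rfl fun A hA => by rw [if_pos (hi A hA).1]; rfl
  have jf : ∏ A ∈ Zi z B, Fw ((if f0 ∈ A then a else 0) + b * (qm S1 A + qm S2 A)) =
      ∏ A ∈ Zi z B, Fw (a + b * tq S1 S2 A) :=
    Finset.prod_congr rfl fun A hA => by rw [if_pos (hi A hA).2]; rfl
  have ov : ∏ A ∈ Zo z B, Fw ((if v0 ∈ A then a else 0) + b * (qm S1 A + qm S2 A)) =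
      ∏ A ∈ Zo z B, Fw (b * tq S1 S2 A) :=
    Finset.prod_congr rfl fun A hA => by rw [if_neg (ho A hA).1, zero_add]; rfl
  have pf : ∏ A ∈ Zo z B, Fw ((if f0 ∈ A then a else 0) + b * (qm S1 A + qm S2 A)) =
      ∏ A ∈ Zo z B, Fw (b * tq S1 S2 A) :=
    Finset.prod_congr rfl fun A hA => by rw [if_neg (ho A hA).2, zero_add]; rfl
  rw [hsplit, iv, ov] at e1
  rw [hsplit, jf, pf] at e2
  unfold WS
  rw [e1, e2]
  by_cases hL : ∃ L ∈ Lps z, sepC L c0
  · obtain ⟨L, hL, hLs⟩ := hL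
    have hf : (Zs z B).filter (fun A => sepC A c0) = {L} := by
      ext A
      rw [Finset.mem_filter, Finset.mem_singleton]
      constructor
      · rintro ⟨h3, h4⟩
        exact sep_uniq (mem_Zs.1 h3).1 hL h4 hLs
      · rintro rfl
        exact ⟨zs_of_sep hB0 hL hLs, hLs⟩
    rw [hf, Finset.prod_singleton, Finset.prod_singleton]
    refine ⟨Xf a (b * tq S1 S2 L), Or.inr ⟨L, hL, hLs, rfl⟩, ?_⟩
    rw [sepc0] at hLs
    unfold Xf
    by_cases h3 : v0 ∈ L
    · have h4 : f0 ∉ L := fun h4 => hLs ⟨fun _ => h4, fun _ => h3⟩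
      rw [if_pos h3, if_neg h4, zero_add]
      unfold tq
      ring
    · have h4 : f0 ∈ L := by
        by_contra h4
        exact hLs ⟨fun h5 => absurd h5 h3, fun h5 => absurd h5 h4⟩
      rw [if_neg h3, if_pos h4, zero_add]
      unfold tq
      ring
  · push Not at hL
    have hf : (Zs z B).filter (fun A => sepC A c0) = ∅ := by
      rw [Finset.filter_eq_empty_iff]
      intro A hA
      exact hL A (mem_Zs.1 hA).1
    rw [hf, Finset.prod_empty, Finset.prod_empty]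
    exact ⟨2, Or.inl ⟨rfl, hL⟩, by ring⟩

end Crest.Agent.R158.B612
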