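import Crest.Agent.R158.Bh1_679

/-!
# R158, BL (helper679), file Bh3: the chains with an invariant `P`

`P S` = "the region of the state `S` has a word and the marks are in clockwise order".
* **`chainP`**, **`chainP_dn`** : each step `(P S ↔ P S') ∧ (P S → ‖H S' - H S‖ ≤ ε)`
-/

set_option autoImplicit false

namespace Crest.Agent.R158.Bh679

variable {RL LL : Finset (ℤ × ℤ)} {E : Type*} [SeminormedAddCommGroup E]

open Classical in
private theorem step_iff {P : Finset (ℤ × ℤ) → Prop} {S T : Finset (ℤ × ℤ)} (h : P S ↔ P T) :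
    ‖(if P T then (1 : ℝ) else 0) - (if P S then (1 : ℝ) else 0)‖ ≤ 0 := by
  by_cases hS : P S
  · rw [if_pos hS, if_pos (h.1 hS), sub_self, norm_zero]
  · rw [if_neg hS, if_neg fun hT => hS (h.2 hT), sub_self, norm_zero]

open Classical in
private theorem iff_of {P : Finset (ℤ × ℤ) → Prop} {S T : Finset (ℤ × ℤ)}
    (h : ‖(if P T then (1 : ℝ) else 0) - (if P S then (1 : ℝ) else 0)‖ ≤ 0) : P S ↔ P T := by
  by_cases hS : P S <;> by_cases hT : P T <;> simp [hS, hT] at h ⊢ <;> norm_num at h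

open Classical in
private theorem step_le {P : Finset (ℤ × ℤ) → Prop} {H : Finset (ℤ × ℤ) → E}
    {S T : Finset (ℤ × ℤ)} {ε : ℝ} (hε : 0 ≤ ε) (h : (P S ↔ P T) ∧ (P S → ‖H T - H S‖ ≤ ε)) :
    ‖(if P T then H T else 0) - (if P S then H S else 0)‖ ≤ ε := by
  by_cases hS : P S
  · rw [if_pos hS, if_pos (h.1.1 hS)]; exact h.2 hS
  · rw [if_neg hS, if_neg fun hT => hS (h.1.2 hT), sub_self, norm_zero]; exact hε

/-- **the chain with an invariant, bottom to top** -/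
theorem chainP (P : Finset (ℤ × ℤ) → Prop) (H : Finset (ℤ × ℤ) → E) {L2 δ k0 : ℤ} {K : ℕ}
    (hδ : 0 ≤ δ) (hL : 2 * δ ≤ L2)
    (lo : ∀ t ∈ RL, k0 * L2 - δ ≤ t.2) (hi : ∀ t ∈ RL, t.2 < (k0 + K) * L2 - δ) {ε1 ε2 : ℝ}
    (hε1 : 0 ≤ ε1) (hε2 : 0 ≤ ε2)
    (thin : ∀ k y X : ℤ, k * L2 + δ ≤ y → y < (k + 1) * L2 - δ → (X, y) ∈ RL →
      (P (St RL y (y + 1) X) ↔ P (insert (X, y) (St RL y (y + 1) X))) ∧
      (P (St RL y (y + 1) X) →
        ‖H (insert (X, y) (St RL y (y + 1) X)) - H (St RL y (y + 1) X)‖ ≤ ε1))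
    (thick : ∀ k X : ℤ, (∃ t ∈ RL, t.1 = X ∧ k * L2 - δ ≤ t.2 ∧ t.2 < k * L2 + δ) →
      (P (St RL (k * L2 - δ) (k * L2 + δ) X) ↔
        P (St RL (k * L2 - δ) (k * L2 + δ) X ∪ Gr RL (k * L2 - δ) (k * L2 + δ) X)) ∧
      (P (St RL (k * L2 - δ) (k * L2 + δ) X) →
        ‖H (St RL (k * L2 - δ) (k * L2 + δ) X ∪ Gr RL (k * L2 - δ) (k * L2 + δ) X) -
          H (St RL (k * L2 - δ) (k * L2 + δ) X)‖ ≤ ε2)) :
    (P ∅ ↔ P RL) ∧
      (P ∅ → ‖H RL - H ∅‖ ≤ RL.card * ε1 + K * (RL.image Prod.fst).card * ε2) := by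
  classical
  have h1 : P ∅ ↔ P RL := by
    refine iff_of ?_
    have := chain (RL := RL) (fun S => if P S then (1 : ℝ) else 0) (k0 := k0) (K := K) hδ hL lo hi
      le_rfl le_rfl (fun k y X a b c => step_iff (thin k y X a b c).1)
      (fun k X a => step_iff (thick k X a).1)
    simpa using this
  refine ⟨h1, fun h0 => ?_⟩
  have := chain (RL := RL) (fun S => if P S then H S else 0) (k0 := k0) (K := K) hδ hL lo hi
    hε1 hε2 (fun k y X a b c => step_le hε1 (thin k y X a b c))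
    (fun k X a => step_le hε2 (thick k X a))
  simp only [if_pos h0, if_pos (h1.1 h0)] at this
  exact this


end Crest.Agent.R158.Bh679
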