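import Mathlib
import Crest.Agent.R158.Bk10_430

/-!
# R158, Block B (helper430), file 11: squares and rings, (STAR) in sandwich form

* `us r : Face →₀ ℝ` uniform on the six-vertex square `[-r, r)²`
* `ws R := (4/3) us (2R) - (1/3) us R` uniform on the square ring
* `ring_star` : (STAR) for any finite family of squares and rings, `ring_sand` : sandwich
* `star2`, `star3` : two and three objects
-/

set_option autoImplicit false

noncomputable section

namespace Crest.Agent.R158.Bk430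

open Finset MeasureTheory Filter Topology
open Crest.Agent.R161.Geo729 Crest.Agent.R161.Dual374
open Crest.Agent.R161.Tas682 (sd)
open Crest.Agent.R158.Wf850 (Face BF mem_BF)
open Crest.Agent.R158.Rs689 (PB nu hf)
open Crest.Agent.R158.Vx107 (Ntr tot mass Fw W)
open Crest.Agent.R158.Bs410 (Law3)
open Crest.Agent.R158.En510 (chf sqc sqc_apply uq cq cq_nonneg)

/-! ### densities -/

/-- uniform law of the six-vertex square of radius `r` -/
def us (r : ℕ) : Face →₀ ℝ := pull (sqc r)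

/-- uniform law of the square ring `[-2R,2R)² \ [-R,R)²` -/
def ws (R : ℕ) : Face →₀ ℝ := (4 / 3 : ℝ) • us (2 * R) - (1 / 3 : ℝ) • us R

/-- the six-vertex square -/
def InS (r : ℕ) (f : Face) : Prop :=
  (-(r : ℤ) ≤ (fm f).1 ∧ (fm f).1 < r) ∧ (-(r : ℤ) ≤ (fm f).2 ∧ (fm f).2 < r)

instance (r : ℕ) (f : Face) : Decidable (InS r f) := by unfold InS; infer_instance

theorem InS.mono {r r' : ℕ} (h : r ≤ r') {f : Face} (hf : InS r f) : InS r' f := by
  unfold InS at *
  omega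

theorem us_apply (r : ℕ) (f : Face) :
    us r f = if InS r f then (4 * (r : ℝ) ^ 2)⁻¹ else 0 := by
  unfold us
  rw [pull_apply, sqc_apply]
  rfl

theorem ws_apply {R : ℕ} (hR : 1 ≤ R) (f : Face) :
    ws R f = if InS (2 * R) f ∧ ¬ InS R f then (12 * (R : ℝ) ^ 2)⁻¹ else 0 := by
  have hR0 : (R : ℝ) ≠ 0 := by positivity
  unfold ws
  rw [Finsupp.sub_apply, Finsupp.smul_apply, Finsupp.smul_apply, us_apply, us_apply, smul_eq_mul,
    smul_eq_mul]
  by_cases h1 : InS R f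
  · have h2 : InS (2 * R) f := h1.mono (by omega)
    rw [if_pos h1, if_pos h2, if_neg (fun h => h.2 h1)]
    push_cast
    field_simp
    norm_num
  · by_cases h2 : InS (2 * R) f
    · rw [if_neg h1, if_pos h2, if_pos ⟨h2, h1⟩]
      push_cast
      field_simp
      norm_num
    · rw [if_neg h1, if_neg h2, if_neg (fun h => h2 h.1)]
      norm_num

theorem us_nonneg (r : ℕ) (f : Face) : 0 ≤ us r f := by
  rw [us_apply]; split_ifs <;> positivity

theorem ws_nonneg {R : ℕ} (hR : 1 ≤ R) (f : Face) : 0 ≤ ws R f := by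
  rw [ws_apply hR]; split_ifs <;> positivity

theorem us_le (r : ℕ) (f : Face) : us r f ≤ (4 * (r : ℝ) ^ 2)⁻¹ := by
  rw [us_apply]; split_ifs
  · exact le_rfl
  · positivity

theorem ws_le {R : ℕ} (hR : 1 ≤ R) (f : Face) : ws R f ≤ (12 * (R : ℝ) ^ 2)⁻¹ := by
  rw [ws_apply hR]; split_ifs
  · exact le_rfl
  · positivity

theorem InS_sd {r : ℕ} {f : Face} (h : InS r f) : sd (0, 0) f.1 ≤ r := by
  obtain ⟨⟨x, y⟩, b⟩ := f
  unfold InS at h
  unfold sd
  cases b
  · rw [fm_cv] at h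
    simp only [sub_zero, max_le_iff, abs_le]
    simp only at h
    omega
  · rw [fm_cf] at h
    simp only [sub_zero, max_le_iff, abs_le]
    simp only at h
    omega

theorem InS_of_sd {r : ℕ} {f : Face} (h : 2 * sd (0, 0) f.1 + 2 ≤ r) : InS r f := by
  obtain ⟨⟨x, y⟩, b⟩ := f
  unfold sd at h
  simp only [sub_zero] at h
  have h1 := le_max_left |x| |y|
  have h2 := le_max_right |x| |y|
  have h3 := abs_le.1 h1
  have h4 := abs_le.1 h2
  unfold InS
  cases b
  · rw [fm_cv]; simp only; omega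
  · rw [fm_cf]; simp only; omega

theorem us_support {r : ℕ} {f : Face} (h : us r f ≠ 0) : f ∈ BF (0, 0) r := by
  rw [mem_BF]
  rw [us_apply] at h
  by_contra hcon
  exact h (if_neg fun h' => hcon (InS_sd h'))

theorem ws_support {R : ℕ} (hR : 1 ≤ R) {f : Face} (h : ws R f ≠ 0) :
    f ∈ BF (0, 0) (2 * R : ℕ) ∧ (R : ℤ) < 2 * sd (0, 0) f.1 + 2 := by
  rw [ws_apply hR] at h
  have h1 : InS (2 * R) f ∧ ¬ InS R f := by
    by_contra hcon
    exact h (if_neg hcon)
  refine ⟨?_, ?_⟩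
  · rw [mem_BF]; exact InS_sd h1.1
  · by_contra hcon
    exact h1.2 (InS_of_sd (by omega))

theorem tot_pull (m : ℤ × ℤ →₀ ℝ) : tot (pull m) = m.sum fun _ a => a := by
  unfold tot pull
  rw [Finsupp.sum_mapDomain_index (fun _ => rfl) (fun _ _ _ => rfl)]

theorem tot_us {r : ℕ} (hr : 1 ≤ r) : tot (us r) = 1 := by
  have hr0 : (r : ℝ) ≠ 0 := by positivity
  unfold us
  rw [tot_pull]
  have h1 : (sqc r).sum (fun _ a => a) =
      ∑ p ∈ Ico (-(r : ℤ)) r ×ˢ Ico (-(r : ℤ)) r, sqc r p := by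
    refine Finsupp.sum_of_support_subset _ ?_ _ (fun _ _ => rfl)
    intro p hp
    rw [Finsupp.mem_support_iff, sqc_apply] at hp
    unfold uq at hp
    rw [mem_product, mem_Ico, mem_Ico]
    by_contra hcon
    exact hp (if_neg hcon)
  rw [h1]
  have h2 : ∀ p ∈ Ico (-(r : ℤ)) r ×ˢ Ico (-(r : ℤ)) r, sqc r p = (4 * (r : ℝ) ^ 2)⁻¹ := by
    intro p hp
    rw [mem_product, mem_Ico, mem_Ico] at hp
    rw [sqc_apply]
    unfold uq
    rw [if_pos hp]
  rw [Finset.sum_congr rfl h2, Finset.sum_const, Finset.card_product, Int.card_Ico, nsmul_eq_mul]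
  have h3 : ((r : ℤ) - -(r : ℤ)).toNat = 2 * r := by omega
  rw [h3]
  push_cast
  field_simp
  ring

theorem tot_sub (m x : Face →₀ ℝ) : tot (m - x) = tot m - tot x := by
  rw [sub_eq_add_neg, Vx107.tot_add, Vx107.tot_neg, sub_eq_add_neg]

theorem tot_ws {R : ℕ} (hR : 1 ≤ R) : tot (ws R) = 1 := by
  unfold ws
  rw [tot_sub, Vx107.tot_smul, Vx107.tot_smul, tot_us (by omega), tot_us hR]
  norm_num

/-- square (`false`) or ring (`true`) -/
def ob (b : Bool) (R : ℕ) : Face →₀ ℝ := if b then ws R else us R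


/-! ### (STAR) for squares and rings -/


theorem pull_smul (a : ℝ) (m : ℤ × ℤ →₀ ℝ) : pull (a • m) = a • pull m := by
  unfold pull; exact Finsupp.mapDomain_smul a m

theorem pull_sum {ι : Type*} (t : Finset ι) (m : ι → ℤ × ℤ →₀ ℝ) :
    pull (∑ i ∈ t, m i) = ∑ i ∈ t, pull (m i) := by
  unfold pull; exact Finsupp.mapDomain_finsetSum

/-- universal constant -/
def c11 : ℝ := (3 / (2 * Real.pi) * cq + 3 / (4 * Real.pi ^ 2) * Real.log 2) * (25 / 9)


section Fam

variable {ι : Type*} [Fintype ι]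

/-- the quadratic form of the scales -/
def qf (c : ι → ℝ) (S : ι → ℕ) : ℝ := ∑ i, ∑ j, c i * c j * Real.log (max (S i : ℝ) (S j))

/-- coefficients -/
def ca (c : ι → ℝ) (b : ι → Bool) (i : ι × Bool) : ℝ :=
  if b i.1 then (if i.2 then 4 / 3 * c i.1 else -(1 / 3) * c i.1) else (if i.2 then 0 else c i.1)

/-- scales -/
def sa (S : ι → ℕ) (i : ι × Bool) : ℕ := if i.2 then 2 * S i.1 else S i.1

omit [Fintype ι] in
theorem ca_sum (c : ι → ℝ) (b : ι → Bool) (i : ι) : ∑ x : Bool, ca c b (i, x) = c i := by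
  rw [Fintype.sum_bool]
  unfold ca
  cases b i
  · simp
  · simp; ring

omit [Fintype ι] in
theorem ca_abs (c : ι → ℝ) (b : ι → Bool) (i : ι) :
    ∑ x : Bool, |ca c b (i, x)| ≤ 5 / 3 * |c i| := by
  rw [Fintype.sum_bool]
  unfold ca
  have := abs_nonneg (c i)
  cases b i
  · simp only [Bool.false_eq_true, if_false, if_true, abs_zero]; linarith
  · simp only [Bool.false_eq_true, if_false, if_true, abs_mul, abs_neg]
    rw [abs_of_pos (by norm_num : (0 : ℝ) < 4 / 3), abs_of_pos (by norm_num : (0 : ℝ) < 1 / 3)]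
    linarith

theorem ob_sum (c : ι → ℝ) (b : ι → Bool) (S : ι → ℕ) (r : ℕ) :
    ∑ i, c i • ob (b i) (S i * r) = pull (chf (ca c b) (sa S) r) := by
  unfold chf
  rw [pull_sum, Fintype.sum_prod_type]
  refine Finset.sum_congr rfl fun i _ => ?_
  rw [Fintype.sum_bool]
  simp only [pull_smul]
  unfold ca sa ob ws us
  cases b i
  · simp
  · simp only [Bool.false_eq_true, if_false, if_true]
    rw [smul_sub, smul_smul, smul_smul, show 2 * S i * r = 2 * (S i * r) by ring]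
    rw [sub_eq_add_neg, ← neg_smul]
    congr 2
    · ring
    · ring

omit [Fintype ι] in
theorem log_sa {S : ι → ℕ} (hS : ∀ i, 1 ≤ S i) (i j : ι × Bool) :
    |Real.log (max (sa S i : ℝ) (sa S j)) - Real.log (max (S i.1 : ℝ) (S j.1))| ≤ Real.log 2 := by
  have h1 : (1 : ℝ) ≤ S i.1 := by exact_mod_cast hS i.1
  have h2 : (1 : ℝ) ≤ S j.1 := by exact_mod_cast hS j.1
  have key : ∀ (S : ι → ℕ) (i : ι × Bool), (S i.1 : ℝ) ≤ sa S i ∧ (sa S i : ℝ) ≤ 2 * S i.1 := by
    intro S i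
    unfold sa
    have : (0 : ℝ) ≤ S i.1 := Nat.cast_nonneg _
    split_ifs
    · push_cast; constructor <;> linarith
    · constructor <;> linarith
  have k1 := key S i
  have k2 := key S j
  set M := max (S i.1 : ℝ) (S j.1) with hM
  set M' := max (sa S i : ℝ) (sa S j) with hM'
  have m0 : 1 ≤ M := h1.trans (le_max_left _ _)
  have m1 : M ≤ M' := max_le_max k1.1 k2.1
  have m2 : M' ≤ 2 * M := by
    refine max_le ?_ ?_
    · exact k1.2.trans (by have := le_max_left (S i.1 : ℝ) (S j.1); linarith)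
    · exact k2.2.trans (by have := le_max_right (S i.1 : ℝ) (S j.1); linarith)
  rw [abs_le]
  have l1 : Real.log M ≤ Real.log M' := Real.log_le_log (by linarith) m1
  have l2 : Real.log M' ≤ Real.log 2 + Real.log M := by
    rw [← Real.log_mul (by norm_num) (by linarith)]
    exact Real.log_le_log (by linarith) m2
  have l3 := Real.log_pos (by norm_num : (1 : ℝ) < 2)
  constructor <;> linarith

theorem qf_sa {S : ι → ℕ} (hS : ∀ i, 1 ≤ S i) (c : ι → ℝ) (b : ι → Bool) :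
    |∑ i, ∑ j, ca c b i * ca c b j * Real.log (max (sa S i : ℝ) (sa S j)) - qf c S| ≤
      Real.log 2 * (∑ i, |ca c b i|) ^ 2 := by
  have h1 : qf c S = ∑ i : ι × Bool, ∑ j : ι × Bool,
      ca c b i * ca c b j * Real.log (max (S i.1 : ℝ) (S j.1)) := by
    unfold qf
    rw [Fintype.sum_prod_type]
    refine Finset.sum_congr rfl fun i _ => ?_
    have h2 : ∀ x : Bool, ∑ j : ι × Bool, ca c b (i, x) * ca c b j *
        Real.log (max (S (i, x).1 : ℝ) (S j.1)) =
        ca c b (i, x) * ∑ j, c j * Real.log (max (S i : ℝ) (S j)) := by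
      intro x
      rw [Fintype.sum_prod_type, Finset.mul_sum]
      refine Finset.sum_congr rfl fun j _ => ?_
      rw [← ca_sum c b j, Finset.sum_mul, Finset.mul_sum]
      refine Finset.sum_congr rfl fun y _ => ?_
      simp only
      ring
    rw [Finset.sum_congr rfl fun x _ => h2 x, ← Finset.sum_mul, ca_sum, Finset.mul_sum]
    refine Finset.sum_congr rfl fun j _ => ?_
    ring
  rw [h1, ← Finset.sum_sub_distrib]
  refine (Finset.abs_sum_le_sum_abs _ _).trans ?_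
  rw [pow_two, Finset.sum_mul, Finset.mul_sum]
  refine Finset.sum_le_sum fun i _ => ?_
  rw [← Finset.sum_sub_distrib, Finset.mul_sum, Finset.mul_sum]
  refine (Finset.abs_sum_le_sum_abs _ _).trans (Finset.sum_le_sum fun j _ => ?_)
  rw [← mul_sub, abs_mul, abs_mul]
  have := mul_le_mul_of_nonneg_left (log_sa hS i j)
    (mul_nonneg (abs_nonneg (ca c b i)) (abs_nonneg (ca c b j)))
  linarith

theorem ca_total (c : ι → ℝ) (b : ι → Bool) : ∑ i, ca c b i = ∑ i, c i := by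
  rw [Fintype.sum_prod_type]
  exact Finset.sum_congr rfl fun i _ => ca_sum c b i

theorem ca_abs_total (c : ι → ℝ) (b : ι → Bool) : ∑ i, |ca c b i| ≤ 5 / 3 * ∑ i, |c i| := by
  rw [Fintype.sum_prod_type, Finset.mul_sum]
  exact Finset.sum_le_sum fun i _ => ca_abs c b i

/-- **(STAR)** for a finite family of squares and rings -/
theorem ring_star (hLaw : Law3) (c : ι → ℝ) (hc : ∑ i, c i = 0) (b : ι → Bool) {S : ι → ℕ}
    (hS : ∀ i, 1 ≤ S i) : ∃ Lam : ℝ, 0 < Lam ∧
      |Real.log Lam - 3 / (4 * Real.pi ^ 2) * qf c S| ≤ c11 * (∑ i, |c i|) ^ 2 ∧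
      Tendsto (fun r : ℕ => ∫ z, W (∑ i, c i • ob (b i) (S i * r)) z ∂(nu hf)) atTop (𝓝 Lam) := by
  have hpi := Real.pi_pos
  have hs : ∀ i, 1 ≤ sa S i := by
    intro i
    unfold sa
    have := hS i.1
    split_ifs <;> omega
  obtain ⟨Lam, h0, h1, h2⟩ := star_W hLaw (ca c b) (by rw [ca_total, hc]) hs
  refine ⟨Lam, h0, ?_, ?_⟩
  · have h3 := qf_sa hS c b
    have h4 := ca_abs_total c b
    set A := ∑ i, |c i| with hA
    set A' := ∑ i, |ca c b i| with hA'
    have hA0 : 0 ≤ A' := Finset.sum_nonneg fun _ _ => abs_nonneg _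
    have h5 : A' ^ 2 ≤ 25 / 9 * A ^ 2 := by
      have := pow_le_pow_left₀ hA0 h4 2
      nlinarith
    set Q' := ∑ i, ∑ j, ca c b i * ca c b j * Real.log (max (sa S i : ℝ) (sa S j)) with hQ'
    have h6 : Real.log Lam - 3 / (4 * Real.pi ^ 2) * qf c S =
        (Real.log Lam - 3 / (4 * Real.pi ^ 2) * Q') + 3 / (4 * Real.pi ^ 2) * (Q' - qf c S) := by
      ring
    rw [h6]
    refine (abs_add_le _ _).trans ?_
    have h7 : |3 / (4 * Real.pi ^ 2) * (Q' - qf c S)| ≤
        3 / (4 * Real.pi ^ 2) * (Real.log 2 * A' ^ 2) := by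
      rw [abs_mul, abs_of_pos (by positivity : 0 < 3 / (4 * Real.pi ^ 2))]
      exact mul_le_mul_of_nonneg_left h3 (by positivity)
    have h8 : 0 ≤ 3 / (2 * Real.pi) * cq + 3 / (4 * Real.pi ^ 2) * Real.log 2 := by
      have := cq_nonneg
      have := Real.log_pos (by norm_num : (1 : ℝ) < 2)
      positivity
    calc |Real.log Lam - 3 / (4 * Real.pi ^ 2) * Q'| + |3 / (4 * Real.pi ^ 2) * (Q' - qf c S)|
        ≤ 3 / (2 * Real.pi) * cq * A' ^ 2 + 3 / (4 * Real.pi ^ 2) * (Real.log 2 * A' ^ 2) :=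
          add_le_add h1 h7
      _ = (3 / (2 * Real.pi) * cq + 3 / (4 * Real.pi ^ 2) * Real.log 2) * A' ^ 2 := by ring
      _ ≤ (3 / (2 * Real.pi) * cq + 3 / (4 * Real.pi ^ 2) * Real.log 2) * (25 / 9 * A ^ 2) :=
          mul_le_mul_of_nonneg_left h5 h8
      _ = c11 * A ^ 2 := by unfold c11; ring
  · refine h2.congr fun r => ?_
    rw [ob_sum]

/-- **(STAR)**, sandwich form -/
theorem ring_sand (hLaw : Law3) (c : ι → ℝ) (hc : ∑ i, c i = 0) (b : ι → Bool) {S : ι → ℕ}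
    (hS : ∀ i, 1 ≤ S i) : ∀ᶠ r : ℕ in atTop,
      Real.exp (3 / (4 * Real.pi ^ 2) * qf c S - (c11 * (∑ i, |c i|) ^ 2 + Real.log 2)) ≤
        ∫ z, W (∑ i, c i • ob (b i) (S i * r)) z ∂(nu hf) ∧
      ∫ z, W (∑ i, c i • ob (b i) (S i * r)) z ∂(nu hf) ≤
        Real.exp (3 / (4 * Real.pi ^ 2) * qf c S + (c11 * (∑ i, |c i|) ^ 2 + Real.log 2)) := by
  obtain ⟨Lam, h0, h1, h2⟩ := ring_star hLaw c hc b hS
  have h3 := abs_le.1 h1
  have e1 : Real.exp (3 / (4 * Real.pi ^ 2) * qf c S - (c11 * (∑ i, |c i|) ^ 2 + Real.log 2)) <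
      Lam := by
    rw [← Real.lt_log_iff_exp_lt h0]
    have := Real.log_pos (by norm_num : (1 : ℝ) < 2)
    linarith [h3.1]
  have e2 : Lam < Real.exp (3 / (4 * Real.pi ^ 2) * qf c S +
      (c11 * (∑ i, |c i|) ^ 2 + Real.log 2)) := by
    rw [← Real.log_lt_iff_lt_exp h0]
    have := Real.log_pos (by norm_num : (1 : ℝ) < 2)
    linarith [h3.2]
  filter_upwards [h2.eventually (lt_mem_nhds e1), h2.eventually (gt_mem_nhds e2)] with r h4 h5
  exact ⟨h4.le, h5.le⟩

end Fam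

/-! ### two and three objects -/

theorem qf2 (a : ℝ) {K : ℕ} (hK : 1 ≤ K) : qf ![a, -a] ![1, K] = -(a ^ 2 * Real.log K) := by
  have hK' : (1 : ℝ) ≤ K := by exact_mod_cast hK
  unfold qf
  simp only [Fin.sum_univ_two, Matrix.cons_val_zero, Matrix.cons_val_one, Nat.cast_one, max_self,
    Real.log_one]
  rw [max_eq_right hK', max_eq_left hK']
  ring

theorem qf3 {c0 c1 c2 : ℝ} (hc : c0 + c1 + c2 = 0) {K L : ℕ} (hK : 1 ≤ K) (hL : 1 ≤ L) :
    qf ![c0, c1, c2] ![1, K, K * L] = -(c0 ^ 2 * Real.log K) - c2 ^ 2 * Real.log L := by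
  have hK' : (1 : ℝ) ≤ K := by exact_mod_cast hK
  have hL' : (1 : ℝ) ≤ L := by exact_mod_cast hL
  have hKL : (K : ℝ) ≤ K * L := by nlinarith
  have hlog : Real.log ((K : ℝ) * L) = Real.log K + Real.log L :=
    Real.log_mul (by positivity) (by positivity)
  unfold qf
  simp only [Fin.sum_univ_three, Matrix.cons_val_zero, Matrix.cons_val_one, Matrix.cons_val,
    Nat.cast_one, max_self, Real.log_one, Nat.cast_mul]
  rw [max_eq_right hK', max_eq_left hK', max_eq_right (hK'.trans hKL), max_eq_left (hK'.trans hKL),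
    max_eq_right hKL, max_eq_left hKL, hlog]
  obtain rfl : c1 = -c0 - c2 := by linarith
  ring

/-- square and ring with opposite charges -/
def m2 (a : ℝ) (K r : ℕ) : Face →₀ ℝ := a • (us r - ws (K * r))

/-- one square and two rings -/
def m3 (c0 c1 c2 : ℝ) (K L r : ℕ) : Face →₀ ℝ :=
  c0 • us r + c1 • ws (K * r) + c2 • ws (K * L * r)



/-- constant of `star2` -/
def C2 (a : ℝ) : ℝ := Real.exp (c11 * (2 * |a|) ^ 2 + Real.log 2)

/-- **(STAR), two objects** -/
theorem star2 (hLaw : Law3) (a : ℝ) {K : ℕ} (hK : 1 ≤ K) : ∀ᶠ r : ℕ in atTop,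
    Real.exp (-(3 * a ^ 2 / (4 * Real.pi ^ 2)) * Real.log K) / C2 a ≤
        ∫ z, W (m2 a K r) z ∂(nu hf) ∧
      ∫ z, W (m2 a K r) z ∂(nu hf) ≤
        C2 a * Real.exp (-(3 * a ^ 2 / (4 * Real.pi ^ 2)) * Real.log K) := by
  have h := ring_sand hLaw ![a, -a] (by simp) ![false, true] (S := ![1, K])
    (by intro i; fin_cases i <;> simp [hK])
  filter_upwards [h] with r hr
  have e1 : ∑ i, ![a, -a] i • ob (![false, true] i) (![1, K] i * r) = m2 a K r := by
    simp only [Fin.sum_univ_two, Matrix.cons_val_zero, Matrix.cons_val_one, ob,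
      Bool.false_eq_true, if_false, if_true, one_mul]
    unfold m2
    rw [smul_sub, neg_smul, sub_eq_add_neg]
  have e2 : ∑ i, |![a, -a] i| = 2 * |a| := by
    simp only [Fin.sum_univ_two, Matrix.cons_val_zero, Matrix.cons_val_one, abs_neg]
    ring
  rw [e1, e2, qf2 a hK] at hr
  unfold C2
  rw [← Real.exp_sub, ← Real.exp_add]
  refine ⟨le_trans (le_of_eq ?_) hr.1, hr.2.trans (le_of_eq ?_)⟩
  · congr 1; ring
  · congr 1; ring

/-- constant of `star3` -/
def C3 (c0 c1 c2 : ℝ) : ℝ := Real.exp (c11 * (|c0| + |c1| + |c2|) ^ 2 + Real.log 2)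

/-- **(STAR), three objects** -/
theorem star3 (hLaw : Law3) {c0 c1 c2 : ℝ} (hc : c0 + c1 + c2 = 0) {K L : ℕ} (hK : 1 ≤ K)
    (hL : 1 ≤ L) : ∀ᶠ r : ℕ in atTop,
    Real.exp (-(3 / (4 * Real.pi ^ 2)) * (c0 ^ 2 * Real.log K + c2 ^ 2 * Real.log L)) /
        C3 c0 c1 c2 ≤ ∫ z, W (m3 c0 c1 c2 K L r) z ∂(nu hf) ∧
      ∫ z, W (m3 c0 c1 c2 K L r) z ∂(nu hf) ≤ C3 c0 c1 c2 *
        Real.exp (-(3 / (4 * Real.pi ^ 2)) * (c0 ^ 2 * Real.log K + c2 ^ 2 * Real.log L)) := by
  have hKL : 1 ≤ K * L := Nat.mul_pos hK hL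
  have h := ring_sand hLaw ![c0, c1, c2] (by simp [Fin.sum_univ_three, hc])
    ![false, true, true] (S := ![1, K, K * L])
    (by intro i; fin_cases i <;> simp [hK, hKL])
  filter_upwards [h] with r hr
  have e1 : ∑ i, ![c0, c1, c2] i • ob (![false, true, true] i) (![1, K, K * L] i * r) =
      m3 c0 c1 c2 K L r := by
    simp only [Fin.sum_univ_three, Matrix.cons_val_zero, Matrix.cons_val_one, Matrix.cons_val, ob,
      Bool.false_eq_true, if_false, if_true, one_mul]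
    rfl
  have e2 : ∑ i, |![c0, c1, c2] i| = |c0| + |c1| + |c2| := by
    simp only [Fin.sum_univ_three, Matrix.cons_val_zero, Matrix.cons_val_one, Matrix.cons_val]
  rw [e1, e2, qf3 hc hK hL] at hr
  unfold C3
  rw [← Real.exp_sub, ← Real.exp_add]
  refine ⟨le_trans (le_of_eq ?_) hr.1, hr.2.trans (le_of_eq ?_)⟩
  · congr 1; ring
  · congr 1; ring

end Crest.Agent.R158.Bk430
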