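import Crest.Agent.R158.Mr1_679
import Crest.Agent.R158.Rs5_689

/-!
# Row 158, Block CB (helper771): colour-blind face paths in the tile plane

* a tile state says which diagonal of the four corner faces is joined:
  `g t = true` : SW and NE, `g t = false` : NW and SE
* `FS g Q F G` : one step, `FP g Q F G` : paths through tiles satisfying `Q`
* `xg` : dictionary with 679's fields (`X t = true` : the even diagonal is joined)
* `FArm x s R`, **`farm`** : `P(FArm x s R) ≤ C (s/R)^a` for all centres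
* **`transport`** : comparison of any finite iid tile set with the plane through a chart
-/

set_option autoImplicit false

noncomputable section

namespace Crest.Agent.R158.Cb771

open MeasureTheory ProbabilityTheory unitInterval
open Crest.Agent.R161.Geo729 Crest.Agent.R161.Topo374 Crest.Agent.R161.Dual374
open Crest.Agent.R158.Rs689 Crest.Agent.R158.Mr679

/-- `true` for a step along the SW-NE diagonal -/
def dgt (F G : P2) : Bool := decide (G.1 - F.1 = G.2 - F.2)

theorem dgt_comm (F G : P2) : dgt F G = dgt G F := by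
  unfold dgt
  exact decide_eq_decide.2 ⟨fun h => by omega, fun h => by omega⟩

/-- one step through a tile satisfying `Q` whose state joins the two faces -/
def FS (g : TF) (Q : P2 → Prop) (F G : P2) : Prop :=
  Dg F G ∧ Q (tb F G) ∧ g (tb F G) = dgt F G

theorem FS.symm {g : TF} {Q : P2 → Prop} {F G : P2} (h : FS g Q F G) : FS g Q G F :=
  ⟨h.1.symm, by rw [tb_comm]; exact h.2.1, by rw [tb_comm, dgt_comm]; exact h.2.2⟩

theorem FS.mono {g g' : TF} {Q Q' : P2 → Prop} (hQ : ∀ t, Q t → Q' t ∧ g' t = g t) {F G : P2}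
    (h : FS g Q F G) : FS g' Q' F G :=
  ⟨h.1, (hQ _ h.2.1).1, (hQ _ h.2.1).2.trans h.2.2⟩

/-- paths of joined faces -/
def FP (g : TF) (Q : P2 → Prop) (F G : P2) : Prop := Relation.ReflTransGen (FS g Q) F G

namespace FP

variable {g g' : TF} {Q Q' : P2 → Prop} {F G H : P2}

theorem refl : FP g Q F F := Relation.ReflTransGen.refl

theorem trans (h : FP g Q F G) (h' : FP g Q G H) : FP g Q F H := Relation.ReflTransGen.trans h h'

theorem mono (hQ : ∀ t, Q t → Q' t ∧ g' t = g t) (h : FP g Q F G) : FP g' Q' F G :=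
  Relation.ReflTransGen.mono (fun _ _ h => h.mono hQ) _ _ h

theorem symm (h : FP g Q F G) : FP g Q G F := by
  induction h with
  | refl => exact refl
  | tail _ h2 ih => exact Relation.ReflTransGen.head h2.symm ih

theorem single (h : FS g Q F G) : FP g Q F G := Relation.ReflTransGen.single h

end FP

/-- the tile field in 679's convention -/
def xg (g : TF) : TF := fun t => if (t.1 + t.2) % 2 = 0 then g t else !g t

theorem fs_even {g : TF} {Q : P2 → Prop} {F G : P2} (hF : (F.1 + F.2) % 2 = 0) :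
    FS g Q F G ↔ TS (fun t => Q t ∧ xg g t = true) F G := by
  unfold FS TS
  refine and_congr_right fun hd => and_congr_right fun _ => ?_
  unfold Dg at hd
  by_cases h : G.1 - F.1 = G.2 - F.2
  · have h1 : dgt F G = true := by simp [dgt, h]
    have h2 : ((tb F G).1 + (tb F G).2) % 2 = 0 := by
      unfold tb; simp only; omega
    rw [h1, xg, if_pos h2]
  · have h1 : dgt F G = false := by simp [dgt, h]
    have h2 : ¬ ((tb F G).1 + (tb F G).2) % 2 = 0 := by
      unfold tb; simp only; omega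
    rw [h1, xg, if_neg h2]
    simp

theorem fs_odd {g : TF} {Q : P2 → Prop} {F G : P2} (hF : (F.1 + F.2) % 2 = 1) :
    FS g Q F G ↔ TS (fun t => Q t ∧ xg g t = false) F G := by
  unfold FS TS
  refine and_congr_right fun hd => and_congr_right fun _ => ?_
  unfold Dg at hd
  by_cases h : G.1 - F.1 = G.2 - F.2
  · have h1 : dgt F G = true := by simp [dgt, h]
    have h2 : ¬ ((tb F G).1 + (tb F G).2) % 2 = 0 := by
      unfold tb; simp only; omega
    rw [h1, xg, if_neg h2]
    simp
  · have h1 : dgt F G = false := by simp [dgt, h]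
    have h2 : ((tb F G).1 + (tb F G).2) % 2 = 0 := by
      unfold tb; simp only; omega
    rw [h1, xg, if_pos h2]

theorem fp_even {g : TF} {Q : P2 → Prop} {F G : P2} (hF : (F.1 + F.2) % 2 = 0) :
    FP g Q F G ↔ TP (fun t => Q t ∧ xg g t = true) F G := by
  constructor
  · intro h
    have key : TP (fun t => Q t ∧ xg g t = true) F G ∧ (G.1 + G.2) % 2 = 0 := by
      induction h with
      | refl => exact ⟨.refl, hF⟩
      | tail _ h2 ih => exact ⟨ih.1.tail ((fs_even ih.2).1 h2), by rw [← h2.1.par]; exact ih.2⟩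
    exact key.1
  · intro h
    have key : FP g Q F G ∧ (G.1 + G.2) % 2 = 0 := by
      induction h with
      | refl => exact ⟨.refl, hF⟩
      | tail _ h2 ih => exact ⟨ih.1.tail ((fs_even ih.2).2 h2), by rw [← h2.1.par]; exact ih.2⟩
    exact key.1

theorem fp_odd {g : TF} {Q : P2 → Prop} {F G : P2} (hF : (F.1 + F.2) % 2 = 1) :
    FP g Q F G ↔ TP (fun t => Q t ∧ xg g t = false) F G := by
  constructor
  · intro h
    have key : TP (fun t => Q t ∧ xg g t = false) F G ∧ (G.1 + G.2) % 2 = 1 := by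
      induction h with
      | refl => exact ⟨.refl, hF⟩
      | tail _ h2 ih => exact ⟨ih.1.tail ((fs_odd ih.2).1 h2), by rw [← h2.1.par]; exact ih.2⟩
    exact key.1
  · intro h
    have key : FP g Q F G ∧ (G.1 + G.2) % 2 = 1 := by
      induction h with
      | refl => exact ⟨.refl, hF⟩
      | tail _ h2 ih => exact ⟨ih.1.tail ((fs_odd ih.2).2 h2), by rw [← h2.1.par]; exact ih.2⟩
    exact key.1

/-! ### laws -/

variable {ι : Type*}

/-- flipping a fixed set of fair bits does not change the law -/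
theorem PB_flip (c : ι → Prop) [DecidablePred c] :
    (PB (fun _ : ι => hf)).map (fun z e => if c e then z e else !z e) = PB fun _ => hf := by
  unfold PB
  rw [Measure.infinitePi_map_pi (μ := fun _ : ι => bern hf)
    (f := fun e (b : Bool) => if c e then b else !b) fun e => Measurable.of_discrete]
  congr 1
  funext e
  by_cases h : c e
  · simp only [h, if_true]
    exact Measure.map_id
  · simp only [h, if_false]
    rw [bern_map_not, sigma_hf]

theorem measurable_xg : Measurable xg := by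
  refine measurable_pi_lambda _ fun t => ?_
  have : Measurable fun (g : TF) => g t := measurable_pi_apply _
  by_cases h : (t.1 + t.2) % 2 = 0
  · simpa [xg, h] using this
  · simp only [xg, h, if_false]
    exact (Measurable.of_discrete (f := fun b : Bool => !b)).comp this

theorem tau_xg : (tau hf).map xg = tau hf := PB_flip (fun t : P2 => (t.1 + t.2) % 2 = 0)

theorem tau_real_xg {A : Set TF} (hA : MeasurableSet A) :
    (tau hf).real {g | xg g ∈ A} = (tau hf).real A := by
  conv_rhs => rw [← tau_xg]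
  rw [measureReal_def, measureReal_def, Measure.map_apply measurable_xg hA]
  rfl

/-- shift of a tile field -/
def shT (a : P2) (g : TF) : TF := fun t => g (t + a)

theorem fs_shT {a : P2} {g : TF} {Q : P2 → Prop} {F G : P2} :
    FS g Q (F + a) (G + a) ↔ FS (shT a g) (fun t => Q (t + a)) F G := by
  have h1 : tb (F + a) (G + a) = tb F G + a := by
    unfold tb
    ext <;> simp only [Prod.fst_add, Prod.snd_add] <;> omega
  have h2 : dgt (F + a) (G + a) = dgt F G := by
    unfold dgt
    simp only [Prod.fst_add, Prod.snd_add]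
    exact decide_eq_decide.2 ⟨fun h => by omega, fun h => by omega⟩
  have h3 : Dg (F + a) (G + a) ↔ Dg F G := by
    unfold Dg
    simp only [Prod.fst_add, Prod.snd_add]
    omega
  unfold FS
  rw [h1, h2, h3]
  rfl

theorem fp_shT {a : P2} {g : TF} {Q : P2 → Prop} {F G : P2} :
    FP g Q (F + a) (G + a) ↔ FP (shT a g) (fun t => Q (t + a)) F G := by
  constructor
  · intro h
    have key : ∀ G', FP g Q (F + a) G' → FP (shT a g) (fun t => Q (t + a)) F (G' - a) := by
      intro G' h'
      induction h' with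
      | refl => rw [add_sub_cancel_right]; exact .refl
      | @tail b c _ h2 ih =>
        refine ih.tail (fs_shT.1 ?_)
        rw [sub_add_cancel, sub_add_cancel]; exact h2
    have := key _ h
    rwa [add_sub_cancel_right] at this
  · intro h
    induction h with
    | refl => exact .refl
    | tail _ h2 ih => exact ih.tail (fs_shT.2 h2)


theorem tau_real_shT (p : I) (a : P2) {A : Set TF} (hA : MeasurableSet A) :
    (tau p).real {g | shT a g ∈ A} = (tau p).real A :=
  tau_real_perm p (Equiv.addRight a) hA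

/-! ### measurability of connection events -/

/-- connections in `n` steps -/
def rtgN {Ω α : Type*} (R : Ω → α → α → Prop) (a : α) : ℕ → α → Set Ω
  | 0, b => {_ω | a = b}
  | n + 1, b => ⋃ c, rtgN R a n c ∩ {ω | R ω c b}

theorem meas_rtg {Ω α : Type*} [MeasurableSpace Ω] [Countable α] {R : Ω → α → α → Prop}
    (h : ∀ a b, MeasurableSet {ω | R ω a b}) (a b : α) :
    MeasurableSet {ω | Relation.ReflTransGen (R ω) a b} := by
  have h1 : {ω | Relation.ReflTransGen (R ω) a b} = ⋃ n : ℕ, rtgN R a n b := by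
    ext ω
    simp only [Set.mem_ofPred_eq, Set.mem_iUnion]
    constructor
    · intro h
      induction h with
      | refl => exact ⟨0, rfl⟩
      | @tail c d _ h2 ih =>
        obtain ⟨n, hn⟩ := ih
        exact ⟨n + 1, Set.mem_iUnion.2 ⟨c, hn, h2⟩⟩
    · rintro ⟨n, hn⟩
      induction n generalizing b with
      | zero =>
        have : a = b := hn
        rw [this]
      | succ n ih =>
        obtain ⟨c, hc, hcb⟩ := Set.mem_iUnion.1 hn
        exact (ih c hc).tail hcb
  have h2 : ∀ n b, MeasurableSet (rtgN R a n b) := by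
    intro n
    induction n with
    | zero => intro b; exact MeasurableSet.const (a = b)
    | succ n ih => intro b; exact MeasurableSet.iUnion fun c => (ih c).inter (h c b)
  rw [h1]
  exact MeasurableSet.iUnion fun n => h2 n b

theorem meas_fs (Q : P2 → Prop) (F G : P2) : MeasurableSet {g : TF | FS g Q F G} := by
  have h : {g : TF | FS g Q F G} = {_g : TF | Dg F G ∧ Q (tb F G)} ∩
      (fun g : TF => g (tb F G)) ⁻¹' {dgt F G} := by
    ext g
    simp only [FS, Set.mem_inter_iff, Set.mem_ofPred_eq, Set.mem_preimage, Set.mem_singleton_iff]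
    tauto
  rw [h]
  exact (MeasurableSet.const _).inter (measurable_pi_apply _ (measurableSet_singleton _))

theorem meas_fp (Q : P2 → Prop) (F G : P2) : MeasurableSet {g : TF | FP g Q F G} :=
  meas_rtg (meas_fs Q) F G

/-! ### the arm event -/

/-- joined faces from `{|F - x| ≤ s}` to `{|G - x| ≥ R}` -/
def FArm (x : P2) (s R : ℕ) : Set TF :=
  {g | ∃ F G : P2, |F.1 - x.1| ≤ (s : ℤ) ∧ |F.2 - x.2| ≤ (s : ℤ) ∧
    ((R : ℤ) ≤ |G.1 - x.1| ∨ (R : ℤ) ≤ |G.2 - x.2|) ∧ FP g (fun _ => True) F G}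

/-- the same with even faces -/
def EArm (x : P2) (s R : ℕ) : Set TF :=
  {g | ∃ F G : P2, (F.1 + F.2) % 2 = 0 ∧ |F.1 - x.1| ≤ (s : ℤ) ∧ |F.2 - x.2| ≤ (s : ℤ) ∧
    ((R : ℤ) ≤ |G.1 - x.1| ∨ (R : ℤ) ≤ |G.2 - x.2|) ∧ FP g (fun _ => True) F G}

theorem measurableSet_armX (x : P2) (s R : ℕ) : MeasurableSet (ArmX x s R) := by
  rw [← armX_shift]
  exact Crest.Agent.R161.Ring421.measurable_shiftZ x
    (by rw [armX_zero]; exact Crest.Agent.R161.Blk868.measurableSet_arm s R)

/-- even arms are primal arms -/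
theorem eArm_sub {v : P2} {x : P2} {s R s' R' : ℕ}
    (hs : ∀ F : P2, |F.1 - x.1| ≤ (s : ℤ) → |F.2 - x.2| ≤ (s : ℤ) →
      |F.1 - (prim v).1| ≤ (s' : ℤ) ∧ |F.2 - (prim v).2| ≤ (s' : ℤ))
    (hR : ∀ G : P2, ((R : ℤ) ≤ |G.1 - x.1| ∨ (R : ℤ) ≤ |G.2 - x.2|) →
      ((2 * R' : ℤ) ≤ |G.1 - (prim v).1| ∨ (2 * R' : ℤ) ≤ |G.2 - (prim v).2|)) :
    EArm x s R ⊆ {g | (fun e => xg g (tE e)) ∈ ArmX v s' R'} := by
  rintro g ⟨F, G, hF, h1, h2, h3, h4⟩
  rw [fp_even hF] at h4
  obtain ⟨u, rfl⟩ := exists_prim hF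
  obtain ⟨w, rfl⟩ := exists_prim (F := G) (by rw [← h4.parity]; exact hF)
  rw [tp_prim_iff] at h4
  obtain ⟨h5, h6⟩ := hs _ h1 h2
  have h7 := hR _ h3
  refine ⟨u, w, ?_, ?_, ?_, ?_⟩
  · simp only [prim, abs_le] at h5 h6 ⊢; omega
  · simp only [prim, abs_le] at h5 h6 ⊢; omega
  · simp only [prim, le_abs] at h7 ⊢; omega
  · exact Relation.ReflTransGen.mono (fun a b h => by
      obtain ⟨e, he, h8⟩ := h
      exact ⟨e, he.2, h8⟩) _ _ h4

theorem tau_real_tE {A : Set Cfz} (hA : MeasurableSet A) :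
    (tau hf).real {g | (fun e => xg g (tE e)) ∈ A} = (nu hf).real A := by
  have hm : Measurable (fun (X : TF) (e : Edge) => X (tE e)) :=
    measurable_pi_lambda _ fun _ => measurable_pi_apply _
  have h1 : {g : TF | (fun e => xg g (tE e)) ∈ A} = {g | xg g ∈ (fun X e => X (tE e)) ⁻¹' A} := rfl
  rw [h1, tau_real_xg (hm hA)]
  conv_rhs => rw [← tau_map hf]
  rw [measureReal_def, measureReal_def, Measure.map_apply hm hA]

theorem exists_centre (x : P2) : ∃ v : P2, (|x.1 - (prim v).1| ≤ 1 ∧ x.2 = (prim v).2) := by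
  rcases Int.emod_two_eq_zero_or_one (x.1 + x.2) with h | h
  · obtain ⟨v, hv⟩ := exists_prim h
    exact ⟨v, by rw [hv]; simp, by rw [hv]⟩
  · obtain ⟨v, hv⟩ := exists_prim (F := (x.1 + 1, x.2)) (by simp only; omega)
    refine ⟨v, ?_, ?_⟩
    · rw [hv]; simp
    · rw [hv]

theorem eArm_le {C a : ℝ} (ha : 0 < a) (h : ∀ (x : P2) (s R : ℕ), 1 ≤ s → s ≤ R →
    (nu hf).real (ArmX x s R) ≤ C * ((s : ℝ) / R) ^ a) (hC : 0 < C) (x : P2) (s R : ℕ)
    (hs : 1 ≤ s) (hR : 6 * s < R) :
    (tau hf).real (EArm x s R) ≤ C * 6 ^ a * ((s : ℝ) / R) ^ a := by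
  obtain ⟨v, hv1, hv2⟩ := exists_centre x
  have h1 := eArm_sub (v := v) (x := x) (s := s) (R := R) (s' := s + 1) (R' := (R - 1) / 2)
    (fun F h1 h2 => by
      rw [abs_le] at hv1 h1 h2 ⊢
      rw [abs_le]
      push_cast
      omega)
    (fun G h1 => by
      rw [abs_le] at hv1
      simp only [le_abs] at h1 ⊢
      omega)
  have h2 : (tau hf).real (EArm x s R) ≤ (nu hf).real (ArmX v (s + 1) ((R - 1) / 2)) := by
    rw [← tau_real_tE (measurableSet_armX _ _ _)]
    exact measureReal_mono h1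
  have hR3 : (R : ℝ) / 3 ≤ (((R - 1) / 2 : ℕ) : ℝ) := by
    have : R ≤ 3 * ((R - 1) / 2) := by omega
    have h4 : (R : ℝ) ≤ 3 * (((R - 1) / 2 : ℕ) : ℝ) := by exact_mod_cast this
    linarith
  have hs0 : (0 : ℝ) < s := by exact_mod_cast hs
  have hR0 : (0 : ℝ) < R := by exact_mod_cast (by omega : 0 < R)
  have h3 := h v (s + 1) ((R - 1) / 2) (by omega) (by omega)
  have h4 : (((s + 1 : ℕ) : ℝ) / (((R - 1) / 2 : ℕ) : ℝ)) ≤ 6 * ((s : ℝ) / R) := by
    have e1 : (((s + 1 : ℕ)) : ℝ) ≤ 2 * s := by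
      push_cast
      have : (1 : ℝ) ≤ s := by exact_mod_cast hs
      linarith
    have e2 : 0 < (R : ℝ) / 3 := by positivity
    calc (((s + 1 : ℕ) : ℝ) / (((R - 1) / 2 : ℕ) : ℝ)) ≤ (2 * s) / ((R : ℝ) / 3) :=
          div_le_div₀ (by positivity) e1 e2 hR3
      _ = 6 * ((s : ℝ) / R) := by field_simp; ring
  calc (tau hf).real (EArm x s R) ≤ _ := h2
    _ ≤ _ := h3
    _ ≤ C * (6 * ((s : ℝ) / R)) ^ a :=
        mul_le_mul_of_nonneg_left (Real.rpow_le_rpow (by positivity) h4 ha.le) hC.le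
    _ = C * 6 ^ a * ((s : ℝ) / R) ^ a := by
        rw [Real.mul_rpow (by norm_num) (by positivity)]; ring

theorem fArm_sub (x : P2) (s R : ℕ) :
    FArm x s R ⊆ EArm x s R ∪ {g | shT (1, 0) g ∈ EArm (x - (1, 0)) s R} := by
  rintro g ⟨F, G, h1, h2, h3, h4⟩
  rcases Int.emod_two_eq_zero_or_one (F.1 + F.2) with h | h
  · exact Or.inl ⟨F, G, h, h1, h2, h3, h4⟩
  · right
    refine ⟨F - (1, 0), G - (1, 0), ?_, ?_, ?_, ?_, ?_⟩
    · simp only [Prod.fst_sub, Prod.snd_sub]; omega
    · simpa using h1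
    · simpa using h2
    · simpa using h3
    · have h5 := fp_shT (a := (1, 0)) (g := g) (Q := fun _ => True) (F := F - (1, 0))
        (G := G - (1, 0))
      rw [sub_add_cancel, sub_add_cancel] at h5
      exact h5.1 h4

/-- the even arm event is measurable -/
theorem measurableSet_eArm (x : P2) (s R : ℕ) : MeasurableSet (EArm x s R) := by
  have h : EArm x s R = ⋃ (F : P2) (G : P2), ({_g : TF | (F.1 + F.2) % 2 = 0 ∧
      |F.1 - x.1| ≤ (s : ℤ) ∧ |F.2 - x.2| ≤ (s : ℤ) ∧
      ((R : ℤ) ≤ |G.1 - x.1| ∨ (R : ℤ) ≤ |G.2 - x.2|)} ∩ {g | FP g (fun _ => True) F G}) := by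
    ext g
    simp only [EArm, Set.mem_iUnion, Set.mem_ofPred_eq, Set.mem_inter_iff, and_assoc]
  rw [h]
  exact MeasurableSet.iUnion fun F => MeasurableSet.iUnion fun G =>
    (MeasurableSet.const _).inter (meas_fp _ F G)


/-- **colour-blind one-arm bound in the tile plane**, all centres -/
theorem farm : ∃ C a : ℝ, 0 < C ∧ 0 < a ∧ ∀ (x : P2) (s R : ℕ), 1 ≤ s → s ≤ R →
    (tau hf).real (FArm x s R) ≤ C * ((s : ℝ) / R) ^ a := by
  obtain ⟨C, a, hC, ha, h⟩ := arm_half
  refine ⟨max (2 * C) 1 * 6 ^ a, a, by positivity, ha, fun x s R hs hsR => ?_⟩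
  have hs0 : (0 : ℝ) < s := by exact_mod_cast hs
  have hR0 : (0 : ℝ) < R := by exact_mod_cast (hs.trans hsR)
  by_cases hR : 6 * s < R
  · have h1 : (tau hf).real (FArm x s R) ≤ (tau hf).real (EArm x s R) +
        (tau hf).real {g | shT (1, 0) g ∈ EArm (x - (1, 0)) s R} :=
      (measureReal_mono (fArm_sub x s R)).trans (measureReal_union_le _ _)
    rw [tau_real_shT hf (1, 0) (measurableSet_eArm _ _ _)] at h1
    have h2 := eArm_le ha h hC x s R hs hR
    have h3 := eArm_le ha h hC (x - (1, 0)) s R hs hR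
    have h4 : 0 ≤ (6 : ℝ) ^ a * ((s : ℝ) / R) ^ a := by positivity
    calc (tau hf).real (FArm x s R) ≤ 2 * C * (6 ^ a * ((s : ℝ) / R) ^ a) := by linarith
      _ ≤ max (2 * C) 1 * (6 ^ a * ((s : ℝ) / R) ^ a) :=
          mul_le_mul_of_nonneg_right (le_max_left _ _) h4
      _ = max (2 * C) 1 * 6 ^ a * ((s : ℝ) / R) ^ a := by ring
  · have h2 : (tau hf).real (FArm x s R) ≤ 1 := measureReal_le_one
    refine h2.trans ?_
    rw [mul_assoc, ← Real.mul_rpow (by norm_num) (by positivity)]
    have h3 : (1 : ℝ) ≤ (6 * ((s : ℝ) / R)) ^ a := by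
      refine Real.one_le_rpow ?_ ha.le
      rw [← mul_div_assoc, le_div_iff₀ hR0]
      have h4 : (R : ℝ) ≤ 6 * s := by exact_mod_cast (by omega : R ≤ 6 * s)
      linarith
    calc (1 : ℝ) = 1 * 1 := by ring
      _ ≤ max (2 * C) 1 * (6 * ((s : ℝ) / R)) ^ a :=
          mul_le_mul (le_max_right _ _) h3 zero_le_one (by positivity)

/-! ### charts -/


end Crest.Agent.R158.Cb771
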