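import Crest.Agent.R158.Cb3_771
import Crest.Agent.R158.Gc3_748
import Crest.Agent.R158.Ob0_664
import Crest.Agent.R158.SpD_331

/-!
# Row 158, Block CB (helper771): the chart of `D^(z)` away from a ball

* `transportF`, `chart_probF` : finite charts of an arbitrary tile set
* `cc_of_word` : 748's `R` on a word gives corner chains for the glueing involution
* `Nx_face` : consecutive free ends meet at one face of the chart
* `exists_path` : two corners of a connected set of cells are joined by darts next to it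
* **`exists_c`** : the part of a region above / below a crosscut from a hole to the right wall
* **`chartD`** : `(x, y) ↦ (x - c, y)` is a chart of `beD` outside a box around `z`
-/

set_option autoImplicit false
set_option linter.unusedVariables false

noncomputable section

namespace Crest.Agent.R158.Cb771

open MeasureTheory ProbabilityTheory unitInterval
open Crest.Agent.R161.Geo729 Crest.Agent.R158.Rs689 Crest.Agent.R158.Mr679
open Crest.Agent.R158.Gc748
open Crest.Agent.R158.Sw300 (Port)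

/-! ### finite charts -/

/-- **Transport** for a finite chart -/
theorem transportF {T : Type*} {A : Set T} (hA : A.Finite) (pos : T → P2)
    (hinj : Set.InjOn pos A) {E : Set (T → Bool)} {E' : Set TF}
    (h : ∀ s ∈ E, ∀ g : TF, (∀ t ∈ A, g (pos t) = s t) → g ∈ E') :
    (PB (fun _ : T => hf)).real E ≤ (tau hf).real E' := by
  classical
  let r : (T → Bool) → (A → Bool) := fun s t => s t
  let r' : TF → (A → Bool) := fun g t => g (pos t)
  let E1 : Set (A → Bool) := r '' E
  have hfin : Finite A := hA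
  have hE1 : MeasurableSet E1 := (Set.toFinite E1).measurableSet
  have m1 : Measurable r := measurable_pi_lambda _ fun t => measurable_pi_apply _
  have m2 : Measurable r' := measurable_pi_lambda _ fun t => measurable_pi_apply _
  have e1 : (PB (fun _ : T => hf)).map r = PB fun _ : A => hf :=
    PB_map_inj (j := fun t : A => (t : T)) Subtype.val_injective (fun _ => hf)
  have e2 : (tau hf).map r' = PB fun _ : A => hf :=
    PB_map_inj (j := fun t : A => pos (t : T))
      (fun a b hab => Subtype.ext (hinj a.2 b.2 hab)) (fun _ : P2 => hf)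
  have h1 : (PB (fun _ : T => hf)).real E ≤ (PB fun _ : A => hf).real E1 := by
    rw [← e1, measureReal_def (μ := Measure.map r _), Measure.map_apply m1 hE1, ← measureReal_def]
    exact measureReal_mono (Set.subset_preimage_image r E)
  have h2 : (PB fun _ : A => hf).real E1 ≤ (tau hf).real E' := by
    rw [← e2, measureReal_def (μ := Measure.map r' _), Measure.map_apply m2 hE1, ← measureReal_def]
    refine measureReal_mono ?_
    rintro g ⟨s, hs, hsg⟩
    refine h s hs g fun t ht => ?_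
    exact (congrFun hsg ⟨t, ht⟩).symm
  exact h1.trans h2

/-- far end of a chain in a chart -/
def FarC {T : Type*} (G : Port T → Port T → Prop) (A : Set T) (pos : T → P2) (x : P2) (r R : ℕ) :
    Set (T → Bool) :=
  {s | ∃ c0 c1, (¬ InT A c0 ∨
      (|(cpos pos c0).1 - x.1| ≤ (r + 1 : ℕ) ∧ |(cpos pos c0).2 - x.2| ≤ (r + 1 : ℕ))) ∧
      CC s G c0 c1 ∧ InT A c1 ∧
      ((R : ℤ) ≤ |(cpos pos c1).1 - x.1| ∨ (R : ℤ) ≤ |(cpos pos c1).2 - x.2|)}

/-- **Probability of a long chain through a finite chart.** -/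
theorem chart_probF : ∃ C a : ℝ, 0 < C ∧ 0 < a ∧ ∀ {T : Type} (G : Port T → Port T → Prop)
    (A : Set T) (pos : T → P2) (x : P2) (r R : ℕ), A.Finite → Chart G A pos → Near G A pos x r →
    1 ≤ r → r ≤ R → (PB (fun _ : T => hf)).real (FarC G A pos x r R) ≤ C * ((r : ℝ) / R) ^ a := by
  obtain ⟨C, a, hC, ha, h⟩ := farm
  refine ⟨max C 1 * 2 ^ a, a, by positivity, ha, fun G A pos x r R hA hc hn hr hrR => ?_⟩
  have hr0 : (0 : ℝ) < r := by exact_mod_cast hr
  have hR0 : (0 : ℝ) < R := by exact_mod_cast (hr.trans hrR)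
  by_cases hR : 2 * r ≤ R
  · have h1 := h x (r + 1) R (by omega) (by omega)
    refine (transportF hA pos hc.inj (E' := FArm x (r + 1) R) ?_).trans (h1.trans ?_)
    · rintro s ⟨c0, c1, h0, hcc, hA, hfar⟩ g hg
      obtain ⟨F, hF, hp⟩ := chart_path hc hg (Q := fun _ => True) (fun _ _ => trivial)
        (N := {F | |F.1 - x.1| ≤ ((r + 1 : ℕ) : ℤ) ∧ |F.2 - x.2| ≤ ((r + 1 : ℕ) : ℤ)})
        (fun c c' hs e1 e2 => hn.face hc.symm hs e1 e2) hcc h0 hA
      exact ⟨F, _, hF.1, hF.2, hfar, hp⟩
    · have h2 : (((r + 1 : ℕ) : ℝ) / R) ≤ 2 * ((r : ℝ) / R) := by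
        rw [← mul_div_assoc]
        refine div_le_div_of_nonneg_right ?_ hR0.le
        push_cast
        have : (1 : ℝ) ≤ r := by exact_mod_cast hr
        linarith
      calc C * (((r + 1 : ℕ) : ℝ) / R) ^ a ≤ max C 1 * (2 * ((r : ℝ) / R)) ^ a :=
            mul_le_mul (le_max_left _ _) (Real.rpow_le_rpow (by positivity) h2 ha.le)
              (by positivity) (by positivity)
        _ = max C 1 * 2 ^ a * ((r : ℝ) / R) ^ a := by
            rw [Real.mul_rpow (by norm_num) (by positivity)]; ring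
  · refine measureReal_le_one.trans ?_
    rw [mul_assoc, ← Real.mul_rpow (by norm_num) (by positivity)]
    have h3 : (1 : ℝ) ≤ (2 * ((r : ℝ) / R)) ^ a := by
      refine Real.one_le_rpow ?_ ha.le
      rw [← mul_div_assoc, le_div_iff₀ hR0]
      have h4 : (R : ℝ) ≤ 2 * r := by exact_mod_cast (by omega : R ≤ 2 * r)
      linarith
    calc (1 : ℝ) = 1 * 1 := by ring
      _ ≤ max C 1 * (2 * ((r : ℝ) / R)) ^ a :=
          mul_le_mul (le_max_right _ _) h3 zero_le_one (by positivity)

/-! ### words -/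

section words

variable {T : Type*} [DecidableEq T]

/-- 748's corner connectivity of a leg word gives chains for the glueing involution -/
theorem cc_of_word {w : Sw300.Wd T} (hw : Sw300.Ok w) {b : Port T → Port T}
    (hb : ∀ x, Sw300.be w x = b x) {s : T → Bool} {c c' : Port T}
    (h : R s none (gl w) c c') : CC s (Ob664.Gl b) c c' := by
  refine (cc_of_R h).mono fun p q hpq => ?_
  have := ((be_state hw).gl p q).1 hpq
  rw [hb] at this
  exact this

omit [DecidableEq T] in
/-- consecutive free ends meet at one face of the chart -/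
theorem Nx_face {G : Port T → Port T → Prop} {A : Set T} {pos : T → P2} {x : P2} {r : ℕ}
    (hc : Chart G A pos) (hn : Near G A pos x r) {q q' : Port T} (h : Xr249.Nx G q q')
    (hq : InT A q)
    (hfar : (r : ℤ) + 1 < |(cpos pos (rc q)).1 - x.1| ∨ (r : ℤ) + 1 < |(cpos pos (rc q)).2 - x.2|) :
    InT A q' ∧ cpos pos (lc q') = cpos pos (rc q) := by
  induction h with
  | @stop p h =>
    cases p with
    | none => exact absurd hq id
    | some y => exact ⟨hq, rfl⟩
  | @go p q1 r1 h1 h2 ih =>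
    cases p with
    | none => exact absurd hq id
    | some y =>
      obtain ⟨t, d⟩ := y
      have h1' : G (some (t, d + 1)) q1 := h1
      by_cases hq1 : InT A q1
      · cases q1 with
        | none => exact absurd hq1 id
        | some y' =>
          obtain ⟨t1, d1⟩ := y'
          have h3 := hc.glue t (d + 1) t1 d1 hq hq1 h1'
          have e : cpos pos (rc (some (t1, d1))) = cpos pos (rc (some (t, d))) := by
            simp only [cpos, rc_some]
            rw [h3.1, h3.2, off_glue' (d + 1), add_assoc]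
          rw [← e] at hfar ⊢
          exact ih hq1 hfar
      · exfalso
        have h4 := hn t (d + 1) q1 hq h1' hq1
        have h5 := off_le (d + 1)
        simp only [cpos, rc_some, Prod.fst_add, Prod.snd_add, lt_abs] at hfar
        rw [abs_le, abs_le] at h4
        omega

end words

/-! ### paths of darts -/

section darts

open Crest.Agent.R158.SpD331 (V Con W Closed jump W_eq_of_step)

/-- a step along a dart next to a cell of `X` -/
def DStep (X : Set V) (a b : V) : Prop :=
  SpD331.Adj a b ∧ (SpD331.lc a b ∈ X ∨ SpD331.rc a b ∈ X)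

/-- corners of the cell `q` -/
def Cor (q a : V) : Prop := q.1 ≤ a.1 ∧ a.1 ≤ q.1 + 1 ∧ q.2 ≤ a.2 ∧ a.2 ≤ q.2 + 1

/-- the four sides of a cell -/
theorem side_step {X : Set V} {q : V} (hq : q ∈ X) :
    DStep X (q.1, q.2) (q.1 + 1, q.2) ∧ DStep X (q.1 + 1, q.2) (q.1, q.2) ∧
    DStep X (q.1, q.2) (q.1, q.2 + 1) ∧ DStep X (q.1, q.2 + 1) (q.1, q.2) ∧
    DStep X (q.1, q.2 + 1) (q.1 + 1, q.2 + 1) ∧ DStep X (q.1 + 1, q.2 + 1) (q.1, q.2 + 1) ∧
    DStep X (q.1 + 1, q.2) (q.1 + 1, q.2 + 1) ∧ DStep X (q.1 + 1, q.2 + 1) (q.1 + 1, q.2) := by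
  obtain ⟨x, y⟩ := q
  have key : ∀ a b : V, SpD331.Adj a b → (SpD331.lc a b = (x, y) ∨ SpD331.rc a b = (x, y)) →
      DStep X a b := by
    rintro a b h1 (h2 | h2)
    · exact ⟨h1, Or.inl (h2 ▸ hq)⟩
    · exact ⟨h1, Or.inr (h2 ▸ hq)⟩
  refine ⟨key _ _ (Or.inl ⟨rfl, Or.inl rfl⟩) ?_, key _ _ (Or.inl ⟨rfl, Or.inr rfl⟩) ?_,
    key _ _ (Or.inr ⟨rfl, Or.inl rfl⟩) ?_, key _ _ (Or.inr ⟨rfl, Or.inr rfl⟩) ?_,
    key _ _ (Or.inl ⟨rfl, Or.inl rfl⟩) ?_, key _ _ (Or.inl ⟨rfl, Or.inr rfl⟩) ?_,
    key _ _ (Or.inr ⟨rfl, Or.inl rfl⟩) ?_, key _ _ (Or.inr ⟨rfl, Or.inr rfl⟩) ?_⟩ <;>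
    simp only [SpD331.lc, SpD331.rc, Prod.mk.injEq] <;> omega

/-- two corners of one cell -/
theorem cor_path {X : Set V} {q a b : V} (hq : q ∈ X) (ha : Cor q a) (hb : Cor q b) :
    Relation.ReflTransGen (DStep X) a b := by
  obtain ⟨s1, s2, s3, s4, s5, s6, s7, s8⟩ := side_step hq
  have key : ∀ a : V, Cor q a → Relation.ReflTransGen (DStep X) (q.1, q.2) a ∧
      Relation.ReflTransGen (DStep X) a (q.1, q.2) := by
    rintro ⟨x, y⟩ ⟨h1, h2, h3, h4⟩
    simp only at h1 h2 h3 h4
    have hx : x = q.1 ∨ x = q.1 + 1 := by omega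
    have hy : y = q.2 ∨ y = q.2 + 1 := by omega
    rcases hx with rfl | rfl <;> rcases hy with rfl | rfl
    · exact ⟨.refl, .refl⟩
    · exact ⟨.single s3, .single s4⟩
    · exact ⟨.single s1, .single s2⟩
    · exact ⟨.tail (.single s1) s7, .tail (.single s8) s2⟩
  exact (key a ha).2.trans (key b hb).1

/-- adjacent cells share a corner -/
theorem shared {q q' : V} (h : SpD331.Adj q q') : ∃ a, Cor q a ∧ Cor q' a := by
  obtain ⟨x, y⟩ := q
  obtain ⟨x', y'⟩ := q'
  refine ⟨(max x x', max y y'), ?_, ?_⟩ <;>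
    simp only [SpD331.Adj, Cor] at h ⊢ <;> omega

/-- **corners of a connected set of cells are joined by darts next to it** -/
theorem exists_path {X : Set V} {q q' : V} (hq : q ∈ X) (h : Con X q q') {a b : V}
    (ha : Cor q a) (hb : Cor q' b) : q' ∈ X ∧ Relation.ReflTransGen (DStep X) a b := by
  induction h generalizing b with
  | refl => exact ⟨hq, cor_path hq ha hb⟩
  | @tail c d _ h2 ih =>
    obtain ⟨m, m1, m2⟩ := shared h2.1
    obtain ⟨h3, h4⟩ := ih m1
    exact ⟨h2.2, h4.trans (cor_path h2.2 m2 hb)⟩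

/-- a path of darts as a list -/
theorem exists_list {X : Set V} {a b : V} (h : Relation.ReflTransGen (DStep X) a b) :
    ∃ l : List (V × V), (∀ e ∈ l, DStep X e.1 e.2) ∧
      ∀ f : V → ℤ, (l.map fun e => f e.2 - f e.1).sum = f b - f a := by
  induction h with
  | refl => exact ⟨[], by simp, by simp⟩
  | @tail c d _ h2 ih =>
    obtain ⟨l, h3, h4⟩ := ih
    refine ⟨(c, d) :: l, ?_, ?_⟩
    · intro e he
      rcases List.mem_cons.1 he with rfl | he
      · exact h2
      · exact h3 e he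
    · intro f
      rw [List.map_cons, List.sum_cons, h4]
      ring

/-- the darts of the horizontal line at height `y` from the column `x` on -/
def hline (x y : ℤ) : ℕ → List (V × V)
  | 0 => []
  | n + 1 => hline x y n ++ [((x + n, y), (x + n + 1, y))]

theorem mem_hline {x y : ℤ} {n : ℕ} {e : V × V} :
    e ∈ hline x y n ↔ ∃ i < n, e = ((x + (i : ℕ), y), (x + (i : ℕ) + 1, y)) := by
  induction n with
  | zero => simp [hline]
  | succ n ih =>
    rw [hline, List.mem_append, ih, List.mem_singleton]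
    constructor
    · rintro (⟨i, hi, h⟩ | h)
      · exact ⟨i, by omega, h⟩
      · exact ⟨n, by omega, h⟩
    · rintro ⟨i, hi, h⟩
      rcases Nat.lt_or_ge i n with h1 | h1
      · exact Or.inl ⟨i, h1, h⟩
      · right
        have : i = n := by omega
        rw [this] at h
        exact h

theorem hline_nodup (x y : ℤ) (n : ℕ) : (hline x y n).Nodup := by
  induction n with
  | zero => simp [hline]
  | succ n ih =>
    rw [hline, List.nodup_append]
    refine ⟨ih, by simp, ?_⟩
    intro e he e' he'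
    rw [List.mem_singleton] at he'
    obtain ⟨i, hi, rfl⟩ := mem_hline.1 he
    subst he'
    simp only [ne_eq, Prod.mk.injEq, not_and]
    omega

theorem hline_sum (x y : ℤ) (n : ℕ) (f : V → ℤ) :
    ((hline x y n).map fun e => f e.2 - f e.1).sum = f (x + n, y) - f (x, y) := by
  induction n with
  | zero => simp [hline]
  | succ n ih =>
    rw [hline, List.map_append, List.sum_append, ih]
    simp only [List.map_cons, List.map_nil, List.sum_cons, List.sum_nil, add_zero]
    push_cast
    rw [← add_assoc]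
    ring

/-- **Crosscuts.** `A` : a set of cells with connected complement; the horizontal line below the
row `y0` in the columns `x1..xr` joins two cells of the complement through `A`.  The two sides of
the line are not connected in `A` without crossing it. -/
theorem exists_c {A : Set V} (hX : ∀ q ∉ A, ∀ q' ∉ A, Con Aᶜ q q') {y0 x1 xr : ℤ}
    (hmem : ∀ x, x1 ≤ x → x ≤ xr → (x, y0) ∈ A) (hL : (x1 - 1, y0) ∉ A)
    (hR : (xr + 1, y0) ∉ A) (hmem' : ∀ x, x1 ≤ x → x ≤ xr → (x, y0 - 1) ∈ A) :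
    ∃ c : V → ℤ, (∀ t, c t = 0 ∨ c t = 1) ∧
      (∀ x y, (x, y) ∈ A → (x + 1, y) ∈ A → c (x, y) = c (x + 1, y)) ∧
      (∀ x y, (x, y) ∈ A → (x, y + 1) ∈ A → ¬ (y + 1 = y0 ∧ x1 ≤ x ∧ x ≤ xr) →
        c (x, y) = c (x, y + 1)) ∧
      (∀ x, x1 ≤ x → x ≤ xr → c (x, y0) = 1 ∧ c (x, y0 - 1) = 0) := by
  classical
  by_cases hle : x1 ≤ xr
  swap
  · exact ⟨fun _ => 0, fun _ => Or.inl rfl, fun _ _ _ _ => rfl, fun _ _ _ _ _ => rfl,
      fun x h1 h2 => absurd (h1.trans h2) hle⟩
  obtain ⟨n, hn⟩ : ∃ n : ℕ, (n : ℤ) = xr + 1 - x1 := ⟨(xr + 1 - x1).toNat, by omega⟩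
  -- the closed list
  obtain ⟨-, hp⟩ := exists_path (X := Aᶜ) (q := (xr + 1, y0)) (q' := (x1 - 1, y0)) hR
    (hX _ hR _ hL) (a := (xr + 1, y0)) (b := (x1, y0))
    (by simp only [Cor]; omega) (by simp only [Cor]; omega)
  obtain ⟨l, hl1, hl2⟩ := exists_list hp
  set L := hline x1 y0 n ++ l with hLdef
  have hadj : ∀ e ∈ L, SpD331.Adj e.1 e.2 := by
    intro e he
    rcases List.mem_append.1 he with he | he
    · obtain ⟨i, hi, rfl⟩ := mem_hline.1 he
      exact Or.inl ⟨rfl, Or.inl rfl⟩
    · exact (hl1 e he).1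
  have hcl : Closed L := by
    intro f
    rw [hLdef, List.map_append, List.sum_append, hline_sum, hl2]
    have : x1 + (n : ℤ) = xr + 1 := by omega
    rw [this]
    ring
  -- no dart of `l` between two cells of `A`
  have hnl : ∀ e ∈ l, ¬ (SpD331.lc e.1 e.2 ∈ A ∧ SpD331.rc e.1 e.2 ∈ A) := by
    rintro e he ⟨h1, h2⟩
    rcases (hl1 e he).2 with h | h
    · exact h h1
    · exact h h2
  have hhl : ∀ e ∈ hline x1 y0 n, ∃ x, x1 ≤ x ∧ x ≤ xr ∧ SpD331.lc e.1 e.2 = (x, y0) ∧
      SpD331.rc e.1 e.2 = (x, y0 - 1) := by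
    intro e he
    obtain ⟨i, hi, rfl⟩ := mem_hline.1 he
    refine ⟨x1 + i, by omega, by omega, ?_, ?_⟩ <;>
      simp only [SpD331.lc, SpD331.rc, Prod.mk.injEq] <;> omega
  -- winding count across an edge
  have hW1 : ∀ x y, (x, y) ∈ A → (x + 1, y) ∈ A → W L (x, y) = W L (x + 1, y) := by
    intro x y h1 h2
    refine W_eq_of_step hadj hcl (Or.inl ⟨rfl, Or.inl rfl⟩) fun e he => ?_
    rcases List.mem_append.1 he with he | he
    · obtain ⟨x', -, -, e1, e2⟩ := hhl e he
      rw [e1, e2]
      simp only [Prod.mk.injEq]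
      omega
    · constructor
      · rintro ⟨e1, e2⟩
        exact hnl e he ⟨by rw [e1]; exact h1, by rw [e2]; exact h2⟩
      · rintro ⟨e1, e2⟩
        exact hnl e he ⟨by rw [e1]; exact h2, by rw [e2]; exact h1⟩
  have hW2 : ∀ x y, (x, y) ∈ A → (x, y + 1) ∈ A → ¬ (y + 1 = y0 ∧ x1 ≤ x ∧ x ≤ xr) →
      W L (x, y) = W L (x, y + 1) := by
    intro x y h1 h2 h3
    refine W_eq_of_step hadj hcl (Or.inr ⟨rfl, Or.inl rfl⟩) fun e he => ?_
    rcases List.mem_append.1 he with he | he
    · obtain ⟨x', e3, e4, e1, e2⟩ := hhl e he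
      rw [e1, e2]
      simp only [Prod.mk.injEq]
      omega
    · constructor
      · rintro ⟨e1, e2⟩
        exact hnl e he ⟨by rw [e1]; exact h1, by rw [e2]; exact h2⟩
      · rintro ⟨e1, e2⟩
        exact hnl e he ⟨by rw [e1]; exact h2, by rw [e2]; exact h1⟩
  have hW3 : ∀ x, x1 ≤ x → x ≤ xr → W L (x, y0) - W L (x, y0 - 1) = 1 := by
    intro x h1 h2
    have ha : SpD331.Adj (x, y0) (x + 1, y0) := Or.inl ⟨rfl, Or.inl rfl⟩
    have e1 : SpD331.lc (x, y0) (x + 1, y0) = (x, y0) := by
      simp only [SpD331.lc, Prod.mk.injEq]; omega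
    have e2 : SpD331.rc (x, y0) (x + 1, y0) = (x, y0 - 1) := by
      simp only [SpD331.rc, Prod.mk.injEq]; omega
    have hj := jump hadj hcl ha
    rw [e1, e2] at hj
    rw [hj, hLdef, List.count_append, List.count_append]
    have c1 : l.count ((x, y0), (x + 1, y0)) = 0 := List.count_eq_zero.2 fun he =>
      hnl _ he ⟨by rw [e1]; exact hmem x h1 h2, by rw [e2]; exact hmem' x h1 h2⟩
    have c2 : l.count ((x + 1, y0), (x, y0)) = 0 := List.count_eq_zero.2 fun he =>
      hnl _ he ⟨by rw [SpD331.lc_swap ha, e2]; exact hmem' x h1 h2,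
        by rw [SpD331.rc_swap ha, e1]; exact hmem x h1 h2⟩
    have c3 : (hline x1 y0 n).count ((x, y0), (x + 1, y0)) = 1 := by
      refine List.count_eq_one_of_mem (hline_nodup _ _ _) (mem_hline.2 ⟨(x - x1).toNat, by omega, ?_⟩)
      have : x1 + ((x - x1).toNat : ℤ) = x := by omega
      rw [this]
    have c4 : (hline x1 y0 n).count ((x + 1, y0), (x, y0)) = 0 := by
      refine List.count_eq_zero.2 fun he => ?_
      obtain ⟨i, hi, h⟩ := mem_hline.1 he
      simp only [Prod.mk.injEq] at h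
      omega
    rw [c1, c2, c3, c4]
    norm_num
  have hW4 : ∀ k : ℕ, x1 + k ≤ xr → W L (x1 + k, y0) = W L (x1, y0) := by
    intro k
    induction k with
    | zero => intro _; simp
    | succ k ih =>
      intro hk
      rw [← ih (by push_cast at hk; omega)]
      have := hW1 (x1 + k) y0 (hmem _ (by omega) (by push_cast at hk; omega))
        (hmem _ (by omega) (by push_cast at hk; omega))
      push_cast
      rw [this, add_assoc]
  have hW5 : ∀ x, x1 ≤ x → x ≤ xr → W L (x, y0) = W L (x1, y0) := by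
    intro x h1 h2
    have := hW4 (x - x1).toNat (by omega)
    rwa [show x1 + ((x - x1).toNat : ℤ) = x by omega] at this
  refine ⟨fun t => if W L t = W L (x1, y0) then 1 else 0, fun t => ?_, fun x y h1 h2 => ?_,
    fun x y h1 h2 h3 => ?_, fun x h1 h2 => ?_⟩
  · by_cases h : W L t = W L (x1, y0)
    · right; exact if_pos h
    · left; exact if_neg h
  · simp only [hW1 x y h1 h2]
  · simp only [hW2 x y h1 h2 h3]
  · refine ⟨if_pos (hW5 x h1 h2), if_neg fun h => ?_⟩
    have h4 := hW3 x h1 h2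
    rw [hW5 x h1 h2, h] at h4
    omega

end darts

/-! ### the chart of `D^(z)` -/

section chart

open Crest.Agent.R158.Env664

/-- positions of the chart -/
def posc (c : ℤ × ℤ → ℤ) (t : ℤ × ℤ) : P2 := (t.1 - c t, t.2)

/-- box around `b` -/
def Bx (b : ℤ × ℤ) (s : ℤ) : Set (ℤ × ℤ) := {t | |t.1 - b.1| ≤ s ∧ |t.2 - b.2| ≤ s}

/-- the data of the crosscut function -/
structure CutC (A : Set (ℤ × ℤ)) (y0 x1 xr : ℤ) (c : ℤ × ℤ → ℤ) : Prop where
  val : ∀ t, c t = 0 ∨ c t = 1
  hor : ∀ x y, (x, y) ∈ A → (x + 1, y) ∈ A → c (x, y) = c (x + 1, y)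
  ver : ∀ x y, (x, y) ∈ A → (x, y + 1) ∈ A → ¬ (y + 1 = y0 ∧ x1 ≤ x ∧ x ≤ xr) →
    c (x, y) = c (x, y + 1)
  cut : ∀ x, x1 ≤ x → x ≤ xr → c (x, y0) = 1 ∧ c (x, y0 - 1) = 0

theorem CutC.inj {A : Set (ℤ × ℤ)} {y0 x1 xr : ℤ} {c : ℤ × ℤ → ℤ} (h : CutC A y0 x1 xr c) :
    Set.InjOn (posc c) A := by
  rintro ⟨x, y⟩ ht ⟨x', y'⟩ ht' he
  simp only [posc, Prod.mk.injEq] at he
  obtain ⟨h1, rfl⟩ := he
  have e1 := h.val (x, y)
  have e2 := h.val (x', y)
  have h3 : x = x' ∨ x = x' + 1 ∨ x' = x + 1 := by omega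
  rcases h3 with rfl | rfl | rfl
  · rfl
  · have := h.hor x' y ht' ht
    omega
  · have := h.hor x y ht ht'
    omega

/-- **the chart of `D^(z)` outside a box** : `A = D \ box`, `c` a crosscut function -/
theorem chartD {D : Finset (ℤ × ℤ)} {A : Set (ℤ × ℤ)} {p y0 xr x1 : ℤ} {c : ℤ × ℤ → ℤ}
    (hAD : A ⊆ D) (hp : p ≤ xr) (hr : (xr + 1, y0) ∉ D) (hc : CutC A y0 x1 xr c)
    (hx1 : p < x1)
    (hbox : ∀ x y, (y = y0 ∨ y = y0 - 1) → p ≤ x → x < x1 → (x, y) ∉ A) :
    Chart (Ob664.Gl (beD D p y0 xr)) A (posc c) := by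
  refine ⟨?_, hc.inj, ?_⟩
  · rintro q q' ⟨h1, h2⟩
    exact ⟨by rw [← h1, beD_invol hp hr], h2.symm⟩
  · rintro ⟨x, y⟩ d ⟨x', y'⟩ d' ht ht' ⟨h1, h2⟩
    have h3 : nbD p y0 xr (some ((x, y), d)) = some ((x', y'), d') := by
      unfold beD res at h1
      split_ifs at h1 with h4
      · exact h1
      · exact absurd h1 h2
    rcases z4 d with rfl | rfl | rfl | rfl
    · rw [nbD_W] at h3
      simp only [Option.some.injEq, Prod.mk.injEq] at h3
      obtain ⟨⟨rfl, rfl⟩, rfl⟩ := h3
      refine ⟨by decide, ?_⟩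
      have := hc.hor (x - 1) y ht' (by rwa [sub_add_cancel])
      rw [sub_add_cancel] at this
      simp only [posc, dir, this]
      ext <;> simp
      ring
    · by_cases hcase : y = y0 - 1 ∧ p ≤ x ∧ x ≤ xr
      · rw [nbD_N1 hcase] at h3
        simp only [Option.some.injEq, Prod.mk.injEq] at h3
        obtain ⟨⟨rfl, rfl⟩, rfl⟩ := h3
        obtain ⟨rfl, h5, h6⟩ := hcase
        refine ⟨by decide, ?_⟩
        have h7 : x1 ≤ x := by
          by_contra hlt
          exact hbox x _ (Or.inr rfl) h5 (by omega) ht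
        have h8 : x + 1 ≤ xr := by
          by_contra hlt
          have : x = xr := by omega
          exact hr (this ▸ hAD ht')
        have e1 := (hc.cut (x + 1) (by omega) h8).1
        have e2 := (hc.cut x h7 h6).2
        simp only [posc, dir, e1, e2]
        ext <;> simp [n10]
      · rw [nbD_N hcase] at h3
        simp only [Option.some.injEq, Prod.mk.injEq] at h3
        obtain ⟨⟨rfl, rfl⟩, rfl⟩ := h3
        refine ⟨by decide, ?_⟩
        have := hc.ver x y ht ht' (by omega)
        simp only [posc, dir, this]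
        ext <;> simp [n10]
    · rw [nbD_E] at h3
      simp only [Option.some.injEq, Prod.mk.injEq] at h3
      obtain ⟨⟨rfl, rfl⟩, rfl⟩ := h3
      refine ⟨by decide, ?_⟩
      have := hc.hor x y ht ht'
      simp only [posc, dir, this]
      ext <;> simp [n20, n21]
      ring
    · by_cases h5 : y = y0 ∧ x = p
      · rw [nbD_Sleg h5] at h3
        exact absurd h3 (by simp)
      by_cases hcase : y = y0 ∧ p < x ∧ x ≤ xr
      · rw [nbD_S1 hcase] at h3
        simp only [Option.some.injEq, Prod.mk.injEq] at h3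
        obtain ⟨⟨rfl, rfl⟩, rfl⟩ := h3
        obtain ⟨rfl, h6, h7⟩ := hcase
        refine ⟨by decide, ?_⟩
        have h8 : x1 ≤ x - 1 := by
          by_contra hlt
          exact hbox (x - 1) _ (Or.inr rfl) (by omega) (by omega) ht'
        have e1 := (hc.cut x (by omega) h7).1
        have e2 := (hc.cut (x - 1) h8 (by omega)).2
        simp only [posc, dir, e1, e2]
        ext <;> simp [n30, n31, n32]
        ring
      · rw [nbD_S (by omega)] at h3
        simp only [Option.some.injEq, Prod.mk.injEq] at h3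
        obtain ⟨⟨rfl, rfl⟩, rfl⟩ := h3
        refine ⟨by decide, ?_⟩
        have h9 : (x, y - 1 + 1) ∈ A := by rwa [sub_add_cancel]
        have := hc.ver x (y - 1) ht' h9 (by
          rintro ⟨e1, e2, e3⟩
          by_cases hxp : x = p
          · omega
          · omega)
        rw [sub_add_cancel] at this
        simp only [posc, dir, this]
        ext <;> simp [n30, n31, n32]
        ring

end chart

end Crest.Agent.R158.Cb771
end
private theorem rz_9f91b7eaf4 : type_of% @_root_.Crest.Agent.R158.Cb771.hline.eq_def := @_root_.Crest.Agent.R158.Cb771.hline.eq_def -- L242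
private theorem rz_c898ae635d : type_of% @_root_.Crest.Agent.R158.Cb771.hline.eq_1 := @_root_.Crest.Agent.R158.Cb771.hline.eq_1 -- L242
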