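import Crest.Agent.R158.Gc1_748

/-!
# R158 block GC, part 2: positions

`Gd.conn_iff`: two gaps of the boundary of a planar tile complex lie in the same face cluster iff
no arc joins the two boundary intervals; non-crossing of the arcs; the arm lemma.
-/

set_option autoImplicit false

namespace Crest.Agent.R158.Gc748

open Crest.Agent.R158.Sw300 (Port Wd thru tl sd tls)

variable {T : Type*} [DecidableEq T] {B : Option T} {s : T → Bool} {G : List (Port T × Port T)}
  {Ts : Set T} {M : Port T → Port T} {L : List (Port T)}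

omit [DecidableEq T] in
theorem chain_val {h J : Port T → ZMod 2} : ∀ (l : List (Port T)) (a x : Port T)
    (l2 : List (Port T)),
    List.IsChain (fun p q => h (rc p) = h (lc q)) (a :: (l ++ x :: l2)) →
    (∀ r ∈ a :: l, h (rc r) = h (lc r) + J r) → h (lc x) = h (lc a) + ((a :: l).map J).sum
  | [], a, x, l2, hc, hJ => by
    simp only [List.nil_append, List.isChain_cons_cons] at hc
    rw [← hc.1, hJ a (by simp)]; simp
  | b :: l, a, x, l2, hc, hJ => by
    simp only [List.cons_append, List.isChain_cons_cons] at hc
    have := chain_val l b x l2 hc.2 (fun r hr => hJ r (List.mem_cons_of_mem _ hr))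
    rw [this, ← hc.1, hJ a (by simp)]
    simp only [List.map_cons, List.sum_cons]; ring

/-- the values of a potential along the boundary -/
theorem Gd.val {a x : Port T} {l l2 : List (Port T)} (h : Gd s B (a :: (l ++ x :: l2)) G Ts M)
    {k J : Port T → ZMod 2} (hk : Pot s B G k)
    (hJ : ∀ r ∈ a :: (l ++ x :: l2), k (rc r) = k (lc r) + J r) :
    k (lc x) = k (lc a) + ((a :: l).map J).sum := by
  have hc := h.cyc
  simp only [Cyc] at hc
  refine chain_val l a x (l2 ++ [a]) ?_ fun r hr => hJ r ?_
  · have : List.IsChain (fun p q => k (rc p) = k (lc q)) (a :: ((l ++ x :: l2) ++ [a])) :=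
      List.IsChain.imp (fun p q hpq => hk.const hpq) hc
    simpa using this
  · simp only [List.mem_cons] at hr
    rcases hr with rfl | hr
    · simp
    · simp [hr]

theorem jp_sum0 {p q : Port T} : ∀ {l : List (Port T)}, p ∉ l → q ∉ l →
    (l.map (jp p q)).sum = 0
  | [], _, _ => rfl
  | a :: l, h1, h2 => by
    simp only [List.mem_cons, not_or] at h1 h2
    rw [List.map_cons, List.sum_cons, jp_sum0 h1.2 h2.2, jp_ne (Ne.symm h1.1) (Ne.symm h2.1),
      add_zero]


theorem jp_self (p q : Port T) : jp p q p = 1 := by simp [jp]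

theorem jp_self' (p q : Port T) : jp p q q = 1 := by simp [jp]

/-- an interval containing exactly one end of the link has jump sum one -/
theorem jp_sum1 {p q : Port T} {l : List (Port T)} (hl : l.Nodup) (h1 : p ∈ l) (h2 : q ∉ l) :
    (l.map (jp p q)).sum = 1 := by
  obtain ⟨a, b, rfl⟩ := List.append_of_mem h1
  have hn := List.nodup_append.1 hl
  have ha : p ∉ a := fun hm => hn.2.2 p hm p (by simp) rfl
  have hb : p ∉ b := (List.nodup_cons.1 hn.2.1).1
  have qa : q ∉ a := fun hm => h2 (by simp [hm])
  have qb : q ∉ b := fun hm => h2 (by simp [hm])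
  rw [List.map_append, List.map_cons, List.sum_append, List.sum_cons, jp_sum0 ha qa,
    jp_sum0 hb qb, jp_self]
  rfl

/-- **separation**: an arc joining the two intervals separates the two gaps -/
theorem Gd.sep {a z : Port T} {m m' : List (Port T)} (h : Gd s B ((a :: m) ++ (z :: m')) G Ts M)
    {y : Port T} (hy : y ∈ a :: m) (hMy : M y ∉ a :: m) : ¬ R s B G (lc a) (lc z) := by
  intro hR
  have hyL : y ∈ (a :: m) ++ (z :: m') := List.mem_append_left _ hy
  have hne : M y ≠ y := fun e => hMy (by rw [e]; exact hy)
  obtain ⟨k, hk, kj⟩ := h.pot y hyL hne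
  have hn := List.nodup_append.1 h.nodup
  have := h.val hk kj
  rw [jp_sum1 hn.1 hy hMy, hk.const hR] at this
  have h1 : (0 : ZMod 2) = 1 := by linear_combination this
  exact absurd h1 (by decide)

/-- **non-crossing** -/
theorem Gd.nc {y : Port T} {n1 n2 : List (Port T)} (h : Gd s B (y :: (n1 ++ M y :: n2)) G Ts M)
    {x : Port T} (hx : x ∈ n1) : M x ∈ n1 := by
  have hn := h.nodup
  have hn' := List.nodup_cons.1 hn
  have hn'' := List.nodup_append.1 hn'.2
  have hyL : y ∈ y :: (n1 ++ M y :: n2) := by simp
  have hxL : x ∈ y :: (n1 ++ M y :: n2) := by simp [hx]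
  have hyM : M y ≠ y := fun e => hn'.1 (by rw [e]; simp)
  have hxy : x ≠ y := fun e => hn'.1 (by rw [← e]; simp [hx])
  have hxM : x ≠ M y := fun e => hn''.2.2 x hx (M y) (by simp) e
  have hm := h.mem x hxL
  simp only [List.mem_cons, List.mem_append] at hm
  rcases hm with h1 | h1 | h1 | h1
  · exact absurd (by rw [← h1, h.inv x hxL]) hxM
  · exact h1
  · exact absurd (by rw [← h.inv x hxL, h1, h.inv y hyL]) hxy
  · exfalso
    obtain ⟨k, hk, kj⟩ := h.pot y hyL hyM
    obtain ⟨p1, p2, hp⟩ := List.append_of_mem hx
    obtain ⟨q1, q2, hq⟩ := List.append_of_mem h1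
    subst hp
    -- value left of `x`
    have hy1 : y ∉ p1 := fun hm => hn'.1 (by simp [hm])
    have hM1 : M y ∉ p1 := fun hm => hn''.2.2 (M y) (by simp [hm]) (M y) (by simp) rfl
    have v1 : k (lc x) = k (lc y) + ((y :: p1).map (jp y (M y))).sum := by
      have h' : Gd s B (y :: (p1 ++ x :: (p2 ++ M y :: n2))) G Ts M := by
        have := h; simpa using this
      exact h'.val hk (fun r hr => kj r (by simpa using hr))
    rw [List.map_cons, List.sum_cons, jp_sum0 hy1 hM1, jp_self, add_zero] at v1
    have v1' : k (rc x) = k (lc x) := by rw [kj x hxL, jp_ne hxy hxM, add_zero]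
    -- value left of `M x`
    have v2 : k (lc (M x)) = k (lc y) +
        ((y :: ((p1 ++ x :: p2) ++ M y :: q1)).map (jp y (M y))).sum := by
      have h' : Gd s B (y :: (((p1 ++ x :: p2) ++ M y :: q1) ++ M x :: q2)) G Ts M := by
        have := h; rw [hq] at this; simpa using this
      refine h'.val hk (fun r hr => kj r ?_)
      rw [hq]; simpa using hr
    have hy2 : y ∉ p1 ++ x :: p2 := fun hm => hn'.1 (List.mem_append_left _ hm)
    have hM2 : M y ∉ p1 ++ x :: p2 := fun hm => hn''.2.2 (M y) hm (M y) (by simp) rfl
    have hy3 : y ∉ q1 := fun hm => hn'.1 (by rw [hq]; simp [hm])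
    have hM3 : M y ∉ q1 := fun hm =>
      (List.nodup_cons.1 hn''.2.1).1 (by rw [hq]; simp [hm])
    rw [List.map_cons, List.sum_cons, List.map_append, List.sum_append, jp_sum0 hy2 hM2,
      List.map_cons, List.sum_cons, jp_sum0 hy3 hM3, jp_self, jp_self'] at v2
    have e : k (rc x) = k (lc (M x)) := hk.const (h.side x hxL)
    rw [v1', v1, v2] at e
    have h2 : (1 : ZMod 2) + 1 = 0 := by decide
    have h1 : (1 : ZMod 2) = 0 := by linear_combination e + h2
    exact absurd h1 (by decide)

/-- `rc` of an end is connected to `lc` of the next one -/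
theorem Gd.adj {a x : Port T} {l : List (Port T)} (h : Gd s B (a :: x :: l) G Ts M) :
    R s B G (rc a) (lc x) := by
  have hc := h.cyc
  simp only [Cyc, List.cons_append, List.isChain_cons_cons] at hc
  exact hc.1

theorem Gd.adj' {a : Port T} (h : Gd s B [a] G Ts M) :
    R s B G (rc a) (lc a) := by
  have hc := h.cyc
  simp only [Cyc, List.nil_append, List.isChain_cons_cons, List.isChain_singleton, and_true] at hc
  exact hc

theorem rot_app {α : Type*} (a b : List α) : (a ++ b) ~r (b ++ a) :=
  ⟨a.length, List.rotate_append_length_eq a b⟩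

/-- **connection**: an interval closed under the partner map has connected boundary gaps -/
theorem Gd.conn (h : Gd s B L G Ts M) : ∀ (n : ℕ) (m : List (Port T)), m.length ≤ n →
    ∀ (z : Port T) (m' : List (Port T)), L ~r m ++ z :: m' → (∀ y ∈ m, M y ∈ m) →
    R s B G (lc ((m ++ z :: m').headD none)) (lc z)
  | 0, m, hm, z, m', _, _ => by
    have : m = [] := List.length_eq_zero_iff.1 (Nat.le_zero.1 hm)
    subst this; exact R.refl _
  | n + 1, [], _, z, m', _, _ => R.refl _
  | n + 1, y :: m1, hm, z, m', hr, hcl => by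
    have g := h.rotated hr
    have hn := g.nodup
    rw [List.nodup_append] at hn
    have hn1 := List.nodup_cons.1 hn.1
    have hyL : y ∈ (y :: m1) ++ z :: m' := by simp
    show R s B G (lc y) (lc z)
    have hm1 : m1.length ≤ n := by simpa using hm
    by_cases hf : M y = y
    · have s1 : R s B G (rc y) (lc y) := by have := g.side y hyL; rwa [hf] at this
      have s2 : R s B G (rc y) (lc ((m1 ++ z :: m').headD none)) := by
        have g2 : Gd s B (y :: (m1 ++ z :: m')) G Ts M := g
        cases m1 with
        | nil => exact Gd.adj g2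
        | cons b m1 => exact Gd.adj g2
      have hcl1 : ∀ x ∈ m1, M x ∈ m1 := by
        intro x hx
        have h1 := hcl x (List.mem_cons_of_mem _ hx)
        rcases List.mem_cons.1 h1 with h1 | h1
        · exfalso
          have : x = y := by rw [← g.inv x (by simp [hx]), h1, hf]
          exact hn1.1 (this ▸ hx)
        · exact h1
      have hr1 : L ~r m1 ++ z :: (m' ++ [y]) := by
        refine hr.trans ?_
        have := rot_app [y] (m1 ++ z :: m')
        simpa using this
      have ih := Gd.conn h n m1 hm1 z (m' ++ [y]) hr1 hcl1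
      have e : (m1 ++ z :: (m' ++ [y])).headD none = (m1 ++ z :: m').headD none := by
        cases m1 <;> rfl
      rw [e] at ih
      exact (s1.symm.trans s2).trans ih
    · have hMy : M y ∈ m1 := by
        have := hcl y (by simp)
        exact (List.mem_cons.1 this).resolve_left hf
      obtain ⟨n1, n2, hm12⟩ := List.append_of_mem hMy
      subst hm12
      have g2 : Gd s B (y :: (n1 ++ M y :: (n2 ++ z :: m'))) G Ts M := by simpa using g
      have hn2 := List.nodup_append.1 hn1.2
      have hcl2 : ∀ x ∈ n2, M x ∈ n2 := by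
        intro x hx
        have hxL : x ∈ (y :: (n1 ++ M y :: n2)) ++ z :: m' := by simp [hx]
        have h1 := hcl x (by simp [hx])
        simp only [List.mem_cons, List.mem_append] at h1
        rcases h1 with h1 | h1 | h1 | h1
        · exfalso
          have : x = M y := by rw [← g.inv x hxL, h1]
          exact (List.nodup_cons.1 hn2.2.1).1 (this ▸ hx)
        · exfalso
          have h3 := g2.nc h1
          rw [g.inv x hxL] at h3
          exact hn2.2.2 x h3 x (by simp [hx]) rfl
        · exfalso
          have : x = y := by rw [← g.inv x hxL, h1, g.inv y hyL]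
          exact hn1.1 (by rw [← this]; simp [hx])
        · exact h1
      have s1 : R s B G (rc (M y)) (lc y) := by
        have := g.side (M y) (g.mem y hyL)
        rwa [g.inv y hyL] at this
      have hrr : (y :: (n1 ++ M y :: n2)) ++ z :: m' ~r
          M y :: (n2 ++ z :: m' ++ (y :: n1)) := by
        have := rot_app (y :: n1) (M y :: (n2 ++ z :: m'))
        simpa using this
      have g3 := g.rotated hrr
      have s2 : R s B G (rc (M y)) (lc ((n2 ++ z :: m').headD none)) := by
        cases n2 with
        | nil => exact Gd.adj g3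
        | cons b n2 => exact Gd.adj g3
      have hr1 : L ~r n2 ++ z :: (m' ++ (y :: n1) ++ [M y]) := by
        refine (hr.trans hrr).trans ?_
        have := rot_app [M y] (n2 ++ z :: m' ++ (y :: n1))
        simpa using this
      have hl : n2.length ≤ n := by
        have : (n1 ++ M y :: n2).length ≤ n := hm1
        simp only [List.length_append, List.length_cons] at this
        omega
      have ih := Gd.conn h n n2 hl z _ hr1 hcl2
      have e : (n2 ++ z :: (m' ++ (y :: n1) ++ [M y])).headD none =
          (n2 ++ z :: m').headD none := by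
        cases n2 <;> rfl
      rw [e] at ih
      exact (s1.symm.trans s2).trans ih

/-- **two gaps are connected iff no arc joins the two boundary intervals** -/
theorem Gd.conn_iff {a z : Port T} {m m' : List (Port T)}
    (h : Gd s B ((a :: m) ++ (z :: m')) G Ts M) :
    R s B G (lc a) (lc z) ↔ ∀ y ∈ a :: m, M y ∈ a :: m := by
  constructor
  · intro hR y hy
    by_contra hM
    exact h.sep hy hM hR
  · intro hcl
    exact Gd.conn h _ (a :: m) le_rfl z m' (List.IsRotated.refl _) hcl

/-- the same for any rotation of the boundary list -/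
theorem Gd.conn_iff' (h : Gd s B L G Ts M) {a z : Port T} {m m' : List (Port T)}
    (hr : L ~r (a :: m) ++ (z :: m')) :
    R s B G (lc a) (lc z) ↔ ∀ y ∈ a :: m, M y ∈ a :: m :=
  (h.rotated hr).conn_iff

/-- **arm lemma**: no arc joins `m1` and `m2` ⇒ the gap between `m1` and `m2` is connected to a gap
next to an end of the outer part `o` -/
theorem Gd.arm {m1 m2 o : List (Port T)} (h : Gd s B (m1 ++ (m2 ++ o)) G Ts M) (ho : o ≠ [])
    (hno : ∀ y ∈ m1, M y ∉ m2) :
    ∃ w ∈ o, R s B G (lc ((m2 ++ o).headD none)) (lc w) ∨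
      R s B G (lc ((m2 ++ o).headD none)) (rc w) := by
  obtain ⟨z, m', hz⟩ : ∃ z m', m2 ++ o = z :: m' := by
    cases hm : m2 ++ o with
    | nil => exact absurd (List.append_eq_nil_iff.1 hm).2 ho
    | cons z m' => exact ⟨z, m', rfl⟩
  have hd : (m2 ++ o).headD none = z := by rw [hz]; rfl
  rw [hd]
  -- last end of `m1` matched outside
  by_cases hex : ∃ y ∈ m1, M y ∈ o
  · -- choose the last one
    have key : ∀ l : List (Port T), (∃ y ∈ l, M y ∈ o) → ∃ l1 y l2, l = l1 ++ y :: l2 ∧ M y ∈ o ∧
        ∀ x ∈ l2, M x ∉ o := by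
      intro l
      induction l with
      | nil => rintro ⟨y, hy, _⟩; simp at hy
      | cons a l ih =>
        rintro ⟨y, hy, hMy⟩
        by_cases h2 : ∃ y ∈ l, M y ∈ o
        · obtain ⟨l1, y, l2, e, h3, h4⟩ := ih h2
          exact ⟨a :: l1, y, l2, by rw [e]; rfl, h3, h4⟩
        · rcases List.mem_cons.1 hy with rfl | hy
          · exact ⟨[], y, l, rfl, hMy, fun x hx hMx => h2 ⟨x, hx, hMx⟩⟩
          · exact absurd ⟨y, hy, hMy⟩ h2
    obtain ⟨l1, y, l2, e, hMy, hl2⟩ := key m1 hex
    obtain ⟨o1, o2, ho12⟩ := List.append_of_mem hMy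
    have hyL : y ∈ m1 ++ (m2 ++ o) := by rw [e]; simp
    have hr1 : m1 ++ (m2 ++ o) ~r y :: ((l2 ++ (m2 ++ o1)) ++ M y :: (o2 ++ l1)) := by
      rw [e, ho12]
      have := rot_app l1 (y :: l2 ++ (m2 ++ (o1 ++ M y :: o2)))
      simpa using this
    have g1 := h.rotated hr1
    have hnd := h.nodup
    rw [List.nodup_append] at hnd
    have hnd2 := List.nodup_append.1 hnd.2.1
    have hcl : ∀ x ∈ l2, M x ∈ l2 := by
      intro x hx
      have hxm : x ∈ m1 := by rw [e]; simp [hx]
      have h1 := g1.nc (x := x) (by simp [hx])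
      simp only [List.mem_append] at h1
      rcases h1 with h1 | h1 | h1
      · exact h1
      · exact absurd h1 (hno x hxm)
      · exact absurd (by rw [ho12]; simp [h1]) (hl2 x hx)
    have hr2 : m1 ++ (m2 ++ o) ~r l2 ++ z :: (m' ++ (l1 ++ [y])) := by
      rw [e, hz]
      have := rot_app (l1 ++ [y]) (l2 ++ z :: m')
      simpa using this
    have c1 := Gd.conn h _ l2 le_rfl z _ hr2 hcl
    have hr3 : m1 ++ (m2 ++ o) ~r y :: (l2 ++ z :: (m' ++ l1)) := by
      rw [e, hz]
      have := rot_app l1 (y :: (l2 ++ z :: m'))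
      simpa using this
    have g3 := h.rotated hr3
    have c2 : R s B G (rc y) (lc ((l2 ++ z :: (m' ++ (l1 ++ [y]))).headD none)) := by
      cases l2 with
      | nil => exact Gd.adj g3
      | cons b l2 => exact Gd.adj g3
    exact ⟨M y, hMy, Or.inl (((h.side y hyL).symm.trans c2).trans c1).symm⟩
  · -- `m1` is closed
    have hcl : ∀ y ∈ m1, M y ∈ m1 := by
      intro y hy
      have := h.mem y (List.mem_append_left _ hy)
      simp only [List.mem_append] at this
      rcases this with h1 | h1 | h1
      · exact h1
      · exact absurd h1 (hno y hy)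
      · exact absurd ⟨y, hy, h1⟩ hex
    obtain ⟨o1, w, how⟩ : ∃ o1 w, o = o1 ++ [w] :=
      ⟨o.dropLast, o.getLast ho, (List.dropLast_append_getLast ho).symm⟩
    have hr2 : m1 ++ (m2 ++ o) ~r m1 ++ z :: m' := by rw [hz]
    have c1 := Gd.conn h _ m1 le_rfl z m' hr2 hcl
    have hr3 : m1 ++ (m2 ++ o) ~r w :: (m1 ++ (m2 ++ o1)) := by
      rw [how]
      have := rot_app (m1 ++ (m2 ++ o1)) [w]
      simpa using this
    have g3 := h.rotated hr3
    have c2 : R s B G (rc w) (lc ((m1 ++ z :: m').headD none)) := by
      rw [← hz]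
      cases m1 with
      | nil =>
        cases m2 with
        | nil =>
          cases o1 with
          | nil =>
            have : o = [w] := by rw [how]; rfl
            rw [this]
            exact Gd.adj' g3
          | cons b o1 =>
            rw [how]
            exact Gd.adj g3
        | cons b m2 => exact Gd.adj g3
      | cons b m1 => exact Gd.adj g3
    exact ⟨w, by rw [how]; simp, Or.inr (c2.trans c1).symm⟩

end Crest.Agent.R158.Gc748
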