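import Crest.Agent.R158.Vt4_300
import Crest.Agent.R158.Cb3_771
import Crest.Agent.R158.Gc2_748
import Crest.Agent.R158.Al2_194
import Crest.Agent.R158.Cb5_771
import Crest.Agent.R158.Ob1_664

-- ▼ part R158/Cb2_771
section

/-!
# Row 158, Block CB (helper771): the triangle observable near a flat boundary point

`π` is a non-crossing perfect matching of `0, ..., n-1` (seen from the leg end), gaps `0, ..., n`
(gap `g` is just before point `g`), marks `y1 ≤ y2 ≤ y3`.

* `uns π n g h` : no arc separates the gaps `g` and `h`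
* `XA c` : a gap `≤ y1` of parity `c` is unseparated from a gap of `[y2, y3]`
* `XB c` : a gap of `[y1, y2]` of parity `c` is unseparated from a gap `≥ y3`
* **`V_eq`** : `V = (1[XA 0] + 1[XA 1]) / 2`
* **`dual`** : exactly one of `XA c`, `XB (1 - c)` holds
-/

set_option autoImplicit false

namespace Crest.Agent.R158.Cb771

open Crest.Agent.R158.Vt300

/-- the arcs of a matching -/
def Arc (π : ℕ → ℕ) (n : ℕ) (e : ℕ × ℕ) : Prop := e.1 < e.2 ∧ e.2 < n ∧ π e.1 = e.2

/-- no arc separates the two gaps -/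
def uns (π : ℕ → ℕ) (n g h : ℕ) : Prop := ∀ e, Arc π n e → (ins g e ↔ ins h e)

/-- some arc contains `x` and `y` and not `z` -/
def sp (π : ℕ → ℕ) (n x y z : ℕ) : Prop := ∃ e, Arc π n e ∧ ins x e ∧ ins y e ∧ ¬ ins z e

/-- colour `c` crosses from `[0, y1]` to `[y2, y3]` -/
def XA (π : ℕ → ℕ) (n y1 y2 y3 c : ℕ) : Prop :=
  ∃ g h, g ≤ y1 ∧ y2 ≤ h ∧ h ≤ y3 ∧ g % 2 = c ∧ uns π n g h

/-- colour `c` crosses from `[y1, y2]` to `[y3, n]` -/
def XB (π : ℕ → ℕ) (n y1 y2 y3 c : ℕ) : Prop :=
  ∃ g h, y1 ≤ g ∧ g ≤ y2 ∧ y3 ≤ h ∧ h ≤ n ∧ g % 2 = c ∧ uns π n g h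

variable {π : ℕ → ℕ} {n : ℕ}

theorem Arc.inv (h : NCM π 0 n) {e : ℕ × ℕ} (he : Arc π n e) : π e.2 = e.1 := by
  have := h.inv e.1 (Nat.zero_le _) (by have := he.1; have := he.2.1; omega)
  rw [he.2.2] at this
  exact this

/-- two arcs are equal, nested or disjoint -/
theorem arc_cases (h : NCM π 0 n) {e f : ℕ × ℕ} (he : Arc π n e) (hf : Arc π n f) :
    e = f ∨ (e.1 < f.1 ∧ f.2 < e.2) ∨ (f.1 < e.1 ∧ e.2 < f.2) ∨ e.2 < f.1 ∨ f.2 < e.1 := by
  obtain ⟨a, b⟩ := e
  obtain ⟨c, d⟩ := f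
  have ie := he.inv h
  have jf := hf.inv h
  obtain ⟨h1, h2, h3⟩ := he
  obtain ⟨k1, k2, k3⟩ := hf
  simp only at h1 h2 h3 k1 k2 k3 ie jf ⊢
  by_cases hac : a = c
  · left; subst hac; rw [h3] at k3; rw [k3]
  have hbd : b ≠ d := by
    rintro rfl
    exact hac (ie.symm.trans jf)
  have had : a ≠ d := by
    rintro rfl
    rw [h3] at jf; omega
  have hbc : b ≠ c := by
    rintro rfl
    rw [k3] at ie; omega
  by_cases p1 : b < c
  · tauto
  by_cases p2 : d < a
  · tauto
  rcases lt_or_gt_of_ne hac with p | p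
  · -- a < c < b
    have := h.nc a c (Nat.zero_le _) p (by rw [h3]; omega) (by rw [h3]; omega)
    rw [h3, k3] at this
    tauto
  · have := h.nc c a (Nat.zero_le _) p (by rw [k3]; omega) (by rw [k3]; omega)
    rw [h3, k3] at this
    tauto

theorem uns.refl (g : ℕ) : uns π n g g := fun _ _ => Iff.rfl

theorem uns.symm {g h : ℕ} (H : uns π n g h) : uns π n h g := fun e he => (H e he).symm

theorem uns.trans {g h k : ℕ} (H : uns π n g h) (H' : uns π n h k) : uns π n g k :=
  fun e he => (H e he).trans (H' e he)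

/-- unseparated gaps have the same parity -/
theorem uns.par (hn : NCM π 0 n) {g h : ℕ} (hg : g ≤ h) (hh : h ≤ n) (H : uns π n g h) :
    g % 2 = h % 2 := by
  have key : ∀ i, g ≤ i → i < h → g ≤ π i ∧ π i < h := by
    intro i h1 h2
    have hm := hn.mem i (Nat.zero_le _) (by omega)
    have hne := hn.ne i (Nat.zero_le _) (by omega)
    have hi := hn.inv i (Nat.zero_le _) (by omega)
    rcases lt_or_gt_of_ne hne with hlt | hgt
    · -- π i < i
      have := H (π i, i) ⟨hlt, by simp only; omega, hi⟩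
      simp only [ins] at this
      omega
    · have := H (i, π i) ⟨hgt, by simp only; omega, rfl⟩
      simp only [ins] at this
      omega
  have hsum : ∑ _i ∈ Finset.Ico g h, (1 : ZMod 2) = 0 := by
    refine Finset.sum_involution (fun i _ => π i) ?_ ?_ ?_ ?_
    · intro a _; decide
    · intro a ha _
      rw [Finset.mem_Ico] at ha
      exact hn.ne a (Nat.zero_le _) (by omega)
    · intro a ha
      rw [Finset.mem_Ico] at ha ⊢
      exact key a ha.1 ha.2
    · intro a ha
      rw [Finset.mem_Ico] at ha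
      exact hn.inv a (Nat.zero_le _) (by omega)
  rw [Finset.sum_const, Nat.card_Ico, nsmul_eq_mul, mul_one] at hsum
  have h2 := (ZMod.natCast_eq_zero_iff (h - g) 2).1 hsum
  omega

theorem uns.par' (hn : NCM π 0 n) {g h : ℕ} (hg : g ≤ n) (hh : h ≤ n) (H : uns π n g h) :
    g % 2 = h % 2 := by
  rcases le_total g h with h1 | h1
  · exact H.par hn h1 hh
  · exact (H.symm.par hn h1 hg).symm

/-- gaps of different parity are separated -/
theorem exists_arc (hn : NCM π 0 n) {g h : ℕ} (hg : g ≤ n) (hh : h ≤ n) (H : g % 2 ≠ h % 2) :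
    ∃ e, Arc π n e ∧ ¬ (ins g e ↔ ins h e) := by
  by_contra hc
  refine H (uns.par' hn hg hh fun e he => ?_)
  by_contra h1
  exact hc ⟨e, he, h1⟩

/-- the two gaps just outside an arc -/
theorem uns_out (hn : NCM π 0 n) {e : ℕ × ℕ} (he : Arc π n e) : uns π n e.1 (e.2 + 1) := by
  intro f hf
  have h1 := he.1
  rcases arc_cases hn he hf with rfl | h | h | h | h <;> simp only [ins] <;> omega

/-- the two gaps just inside an arc -/
theorem uns_in (hn : NCM π 0 n) {e : ℕ × ℕ} (he : Arc π n e) : uns π n (e.1 + 1) e.2 := by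
  intro f hf
  have h1 := he.1
  have h2 := hf.1
  rcases arc_cases hn he hf with rfl | h | h | h | h <;> simp only [ins] <;> omega

theorem sp_XA (hn : NCM π 0 n) {y1 y2 y3 : ℕ} (H : sp π n y1 y2 y3) (h23 : y2 ≤ y3) (c : ℕ)
    (hc : c < 2) : XA π n y1 y2 y3 c := by
  obtain ⟨e, he, h1, h2, h3⟩ := H
  simp only [ins] at h1 h2 h3
  by_cases h : e.1 % 2 = c
  · exact ⟨e.1, e.2 + 1, by omega, by omega, by omega, h, uns_out hn he⟩
  · exact ⟨e.1 + 1, e.2, by omega, by omega, by omega, by omega, uns_in hn he⟩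

theorem XA_sp (hn : NCM π 0 n) {y1 y2 y3 : ℕ} (h12 : y1 ≤ y2) (h3 : y3 ≤ n)
    (H0 : XA π n y1 y2 y3 0) (H1 : XA π n y1 y2 y3 1) : sp π n y1 y2 y3 := by
  obtain ⟨g0, k0, a1, a2, a3, a4, a5⟩ := H0
  obtain ⟨g1, k1, b1, b2, b3, b4, b5⟩ := H1
  obtain ⟨e, he, hne⟩ := exists_arc hn (g := g0) (h := g1) (by omega) (by omega) (by omega)
  have p0 := a5 e he
  have p1 := b5 e he
  refine ⟨e, he, ?_⟩
  by_cases q : ins g0 e
  · have q1 : ¬ ins g1 e := fun h => hne ⟨fun _ => h, fun _ => q⟩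
    have q2 := p0.1 q
    have q3 : ¬ ins k1 e := fun h => q1 (p1.2 h)
    simp only [ins] at q q1 q2 q3 ⊢
    omega
  · have q1 : ins g1 e := by
      by_contra h
      exact hne ⟨fun h' => absurd h' q, fun h' => absurd h' h⟩
    have q2 : ¬ ins k0 e := fun h => q (p0.2 h)
    have q3 := p1.1 q1
    simp only [ins] at q q1 q2 q3 ⊢
    omega

theorem not_XA_of_sp {y1 y2 y3 : ℕ} (h12 : y1 ≤ y2) (H : sp π n y2 y3 y1) (c : ℕ) :
    ¬ XA π n y1 y2 y3 c := by
  rintro ⟨g, h, h1, h2, h3, _, h5⟩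
  obtain ⟨e, he, k1, k2, k3⟩ := H
  have := h5 e he
  simp only [ins] at this k1 k2 k3
  omega

/-- if no arc contains `y2, y3` and not `y1`, some colour crosses -/
theorem exists_XA (hn : NCM π 0 n) {y1 y2 y3 : ℕ} (h12 : y1 ≤ y2) (h23 : y2 ≤ y3) (h3 : y3 ≤ n)
    (H : ¬ sp π n y2 y3 y1) : XA π n y1 y2 y3 0 ∨ XA π n y1 y2 y3 1 := by
  have key : ∀ k : ℕ, ∀ g h, g ≤ y1 → y1 ≤ h → h ≤ y2 → y2 - h = k → uns π n g h →
      ∃ g h, g ≤ y1 ∧ y2 ≤ h ∧ h ≤ y3 ∧ uns π n g h := by
    intro k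
    induction k using Nat.strong_induction_on with
    | _ k ih =>
      intro g h h1 h2 h4 h5 h6
      rcases Nat.lt_or_ge h y2 with hlt | hge
      swap
      · exact ⟨g, h, h1, by omega, by omega, h6⟩
      have hm := hn.mem h (Nat.zero_le _) (by omega)
      have hne := hn.ne h (Nat.zero_le _) (by omega)
      have hi := hn.inv h (Nat.zero_le _) (by omega)
      rcases lt_or_gt_of_ne hne with hl | hr
      · -- the point after the gap `h` closes an arc
        have he : Arc π n (π h, h) := ⟨hl, by simp only; omega, hi⟩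
        have h7 := h6 _ he
        simp only [ins] at h7
        have h8 := uns_out hn he
        simp only at h8
        exact ih (y2 - (h + 1)) (by omega) (π h) (h + 1) (by omega) (by omega) (by omega) rfl h8
      · -- it opens an arc: skip it
        have he : Arc π n (h, π h) := ⟨hr, by simp only; omega, rfl⟩
        have h8 := h6.trans (uns_out hn he)
        simp only at h8
        rcases Nat.lt_or_ge (π h + 1) y2 with hlt' | hge'
        · exact ih (y2 - (π h + 1)) (by omega) g (π h + 1) h1 (by omega) (by omega) rfl h8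
        · rcases Nat.lt_or_ge y3 (π h + 1) with h9 | h9
          · exfalso
            refine H ⟨_, he, ?_, ?_, ?_⟩ <;> simp only [ins] <;> omega
          · exact ⟨g, π h + 1, h1, hge', h9, h8⟩
  obtain ⟨g, h, h1, h2, h4, h5⟩ := key _ y1 y1 le_rfl le_rfl h12 rfl (uns.refl _)
  rcases Nat.mod_two_eq_zero_or_one g with h6 | h6
  · exact Or.inl ⟨g, h, h1, h2, h4, h6, h5⟩
  · exact Or.inr ⟨g, h, h1, h2, h4, h6, h5⟩

/-- **the observable near the boundary arc `(x3, x1)`** : average of the crossing indicators of the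
two colours -/
theorem V_eq (hn : NCM π 0 n) {y1 y2 y3 : ℕ} (h12 : y1 ≤ y2) (h23 : y2 ≤ y3) (h3 : y3 ≤ n)
    [Decidable (sp π n y2 y3 y1)] [Decidable (sp π n y1 y2 y3)]
    [Decidable (XA π n y1 y2 y3 0)] [Decidable (XA π n y1 y2 y3 1)] :
    (if sp π n y2 y3 y1 then (0 : ℝ) else if sp π n y1 y2 y3 then 1 else 1 / 2) =
      ((if XA π n y1 y2 y3 0 then 1 else 0) + (if XA π n y1 y2 y3 1 then 1 else 0)) / 2 := by
  by_cases a : sp π n y2 y3 y1
  · rw [if_pos a, if_neg (not_XA_of_sp h12 a 0), if_neg (not_XA_of_sp h12 a 1)]; norm_num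
  · rw [if_neg a]
    by_cases b : sp π n y1 y2 y3
    · rw [if_pos b, if_pos (sp_XA hn b h23 0 (by norm_num)),
        if_pos (sp_XA hn b h23 1 (by norm_num))]; norm_num
    · rw [if_neg b]
      rcases exists_XA hn h12 h23 h3 a with h | h
      · rw [if_pos h, if_neg fun h' => b (XA_sp hn h12 h3 h h')]; norm_num
      · rw [if_pos h, if_neg fun h' => b (XA_sp hn h12 h3 h' h)]; norm_num

/-! ### duality -/

/-- different colours do not cross both ways -/
theorem not_both (hn : NCM π 0 n) {y1 y2 y3 c c' : ℕ} (hcc : c ≠ c')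
    (HA : XA π n y1 y2 y3 c) (HB : XB π n y1 y2 y3 c') : False := by
  obtain ⟨g0, k0, a1, a2, a3, a4, a5⟩ := HA
  obtain ⟨g1, k1, b1, b2, b3, b4, b5, b6⟩ := HB
  obtain ⟨e, he, hne⟩ := exists_arc hn (g := g0) (h := g1) (by omega) (by omega) (by omega)
  have p0 := a5 e he
  have p1 := b6 e he
  by_cases q : ins g0 e
  · have q1 : ¬ ins g1 e := fun h => hne ⟨fun _ => h, fun _ => q⟩
    have q2 := p0.1 q
    simp only [ins] at q q1 q2
    omega
  · have q1 : ins g1 e := by
      by_contra h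
      exact hne ⟨fun h' => absurd h' q, fun h' => absurd h' h⟩
    have q2 : ¬ ins k0 e := fun h => q (p0.2 h)
    have q3 := p1.1 q1
    simp only [ins] at q q1 q2 q3
    omega

/-- the reflected matching -/
def rfl' (π : ℕ → ℕ) (n : ℕ) (i : ℕ) : ℕ := n - 1 - π (n - 1 - i)

theorem rfl_NCM (hn : NCM π 0 n) : NCM (rfl' π n) 0 n := by
  have hmem : ∀ i, i < n → π i < n := fun i hi => by
    have := hn.mem i (Nat.zero_le _) (by omega)
    omega
  have hinv : ∀ i, i < n → π (π i) = i := fun i hi => hn.inv i (Nat.zero_le _) (by omega)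
  have hne : ∀ i, i < n → π i ≠ i := fun i hi => hn.ne i (Nat.zero_le _) (by omega)
  have hii : ∀ i, i < n → n - 1 - (n - 1 - i) = i := fun i hi => by omega
  constructor
  · intro i _ hi
    have := hmem (n - 1 - i) (by omega)
    simp only [rfl']; omega
  · intro i _ hi
    have h1 := hmem (n - 1 - i) (by omega)
    have h2 := hne (n - 1 - i) (by omega)
    simp only [rfl']; omega
  · intro i _ hi
    have h1 := hmem (n - 1 - i) (by omega)
    simp only [rfl']
    rw [hii _ h1, hinv _ (by omega)]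
    omega
  · intro i j _ hij hj hi
    simp only [rfl'] at hj hi ⊢
    have hi0 : i < n := by omega
    have h1 := hmem (n - 1 - i) (by omega)
    have h2 : π (n - 1 - i) < n - 1 - j := by omega
    have h3 := hn.nc (π (n - 1 - i)) (n - 1 - j) (Nat.zero_le _) h2
      (by rw [hinv _ (by omega)]; omega) (by rw [hinv _ (by omega)]; omega)
    rw [hinv _ (by omega)] at h3
    omega

theorem rfl_arc (hn : NCM π 0 n) {e : ℕ × ℕ} (he : Arc (rfl' π n) n e) :
    Arc π n (n - 1 - e.2, n - 1 - e.1) := by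
  obtain ⟨h1, h2, h3⟩ := he
  have h4 : π (n - 1 - e.1) < n := by
    have := hn.mem (n - 1 - e.1) (Nat.zero_le _) (by omega)
    omega
  simp only [rfl'] at h3
  have h5 : n - 1 - e.2 = π (n - 1 - e.1) := by omega
  refine ⟨by simp only; omega, by simp only; omega, ?_⟩
  simp only
  rw [h5]
  exact hn.inv _ (Nat.zero_le _) (by omega)

theorem arc_rfl (hn : NCM π 0 n) {e : ℕ × ℕ} (he : Arc π n e) :
    Arc (rfl' π n) n (n - 1 - e.2, n - 1 - e.1) := by
  have hi := he.inv hn
  obtain ⟨h1, h2, h3⟩ := he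
  refine ⟨by simp only; omega, by simp only; omega, ?_⟩
  simp only [rfl']
  have h4 : n - 1 - (n - 1 - e.2) = e.2 := by omega
  rw [h4, hi]

theorem rfl_uns (hn : NCM π 0 n) {g h : ℕ} (hg : g ≤ n) (hh : h ≤ n) :
    uns (rfl' π n) n g h ↔ uns π n (n - g) (n - h) := by
  constructor
  · intro H e he
    have h1 := H _ (arc_rfl hn he)
    have h2 := he.1
    have h3 := he.2.1
    simp only [ins] at h1 ⊢
    omega
  · intro H e he
    have h1 := H _ (rfl_arc hn he)
    have h2 := he.1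
    have h3 := he.2.1
    simp only [ins] at h1 ⊢
    omega

theorem even_n (hn : NCM π 0 n) : n % 2 = 0 := by
  have h : uns π n 0 n := by
    intro e he
    have h1 := he.1
    have h2 := he.2.1
    simp only [ins]; omega
  have := h.par hn (Nat.zero_le _) le_rfl
  omega

theorem rfl_XA (hn : NCM π 0 n) {y1 y2 y3 c : ℕ} (h12 : y1 ≤ y2) (h23 : y2 ≤ y3) (h3 : y3 ≤ n) :
    XA (rfl' π n) n (n - y3) (n - y2) (n - y1) c ↔ XB π n y1 y2 y3 c := by
  have he := even_n hn
  constructor
  · rintro ⟨g, h, h1, h2, h4, h5, h6⟩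
    rw [rfl_uns hn (by omega) (by omega)] at h6
    refine ⟨n - h, n - g, by omega, by omega, by omega, by omega, ?_, h6.symm⟩
    have := h6.par' hn (by omega) (by omega)
    omega
  · rintro ⟨g, h, h1, h2, h4, h5, h6, h7⟩
    refine ⟨n - h, n - g, by omega, by omega, by omega, ?_, ?_⟩
    · have := h7.par' hn (by omega) (by omega)
      omega
    · rw [rfl_uns hn (by omega) (by omega)]
      have e1 : n - (n - h) = h := by omega
      have e2 : n - (n - g) = g := by omega
      rw [e1, e2]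
      exact h7.symm

theorem rfl_sp (hn : NCM π 0 n) {x y z : ℕ} (hx : x ≤ n) (hy : y ≤ n) (hz : z ≤ n) :
    sp (rfl' π n) n (n - x) (n - y) (n - z) ↔ sp π n x y z := by
  constructor
  · rintro ⟨e, he, h1, h2, h3⟩
    have h4 := he.1
    have h5 := he.2.1
    refine ⟨_, rfl_arc hn he, ?_, ?_, ?_⟩ <;> simp only [ins] at h1 h2 h3 ⊢ <;> omega
  · rintro ⟨e, he, h1, h2, h3⟩
    have h4 := he.1
    have h5 := he.2.1
    refine ⟨_, arc_rfl hn he, ?_, ?_, ?_⟩ <;> simp only [ins] at h1 h2 h3 ⊢ <;> omega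

theorem sp_comm {x y z : ℕ} : sp π n x y z ↔ sp π n y x z := by
  constructor <;> rintro ⟨e, he, h1, h2, h3⟩ <;> exact ⟨e, he, h2, h1, h3⟩

/-- **duality**: one colour crosses one way or the other colour crosses the other way -/
theorem dual (hn : NCM π 0 n) {y1 y2 y3 : ℕ} (h12 : y1 ≤ y2) (h23 : y2 ≤ y3) (h3 : y3 ≤ n)
    {c c' : ℕ} (hc : c < 2) (hc' : c' < 2) (hne : c ≠ c') :
    XA π n y1 y2 y3 c ∨ XB π n y1 y2 y3 c' := by
  by_contra hcon
  push Not at hcon
  obtain ⟨hA, hB⟩ := hcon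
  have b : ¬ sp π n y1 y2 y3 := fun h => hA (sp_XA hn h h23 c hc)
  have a : ¬ sp π n y2 y3 y1 := by
    intro h
    apply hB
    rw [← rfl_XA hn h12 h23 h3]
    refine sp_XA (rfl_NCM hn) ?_ (by omega) c' hc'
    rw [rfl_sp hn (by omega) (by omega) (by omega)]
    exact sp_comm.1 h
  -- the other colours cross
  have hA' : XA π n y1 y2 y3 c' := by
    rcases exists_XA hn h12 h23 h3 a with h | h
    · interval_cases c <;> interval_cases c' <;> first | exact h | exact absurd h hA | omega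
    · interval_cases c <;> interval_cases c' <;> first | exact h | exact absurd h hA | omega
  have hB' : XB π n y1 y2 y3 c := by
    have h4 := exists_XA (rfl_NCM hn) (y1 := n - y3) (y2 := n - y2) (y3 := n - y1) (by omega)
      (by omega) (by omega) (by
        rw [rfl_sp hn (by omega) (by omega) (by omega)]
        exact fun h => b (sp_comm.1 h))
    rw [rfl_XA hn h12 h23 h3, rfl_XA hn h12 h23 h3] at h4
    rcases h4 with h | h
    · interval_cases c <;> interval_cases c' <;> first | exact h | exact absurd h hB | omega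
    · interval_cases c <;> interval_cases c' <;> first | exact h | exact absurd h hB | omega
  exact not_both hn hne.symm hA' hB'


end Crest.Agent.R158.Cb771
end

-- ▼ part R158/Cb4_771
section

/-!
# Row 158, Block CB (helper771): the observable on the clockwise list of ends

`l` : clockwise list of the free ends of a planar complex (748's `Gd`), `u` its unmatched end.
Gaps `0 ≤ g ≤ N` of the list (`g` = just before position `g`), `gc l g` = the corner at the gap.

* `piL l M` : partner map on positions; **`nck_of_gd`** : it is 194's `NCK`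
* `sep_sp` : `Sep` seen from the leg
* **`uns_R`** : unseparated gaps are joined corners
* `YA j`, `YB j` : crossings with a gap of parity `j` at the far mark arc
* **`Vc_le`**, **`le_Vc`** : bounds of `Vc` by the crossings (leg end on the arc `(x3, x1)`)
-/

set_option autoImplicit false
set_option linter.unusedVariables false

noncomputable section

namespace Crest.Agent.R158.Cb771

open Crest.Agent.R158.Gc748 Crest.Agent.R158.Al194 Crest.Agent.R158.Vt300
open Crest.Agent.R158.Sw300 (Port)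

/-! ### segments of a list -/

section seg

variable {α : Type*}

/-- the entries with positions in `[a, b)` -/
def seg (l : List α) (a b : ℕ) : List α := (l.drop a).take (b - a)

theorem mem_seg {l : List α} {a b : ℕ} {x : α} :
    x ∈ seg l a b ↔ ∃ j, a ≤ j ∧ j < b ∧ ∃ h : j < l.length, l[j] = x := by
  unfold seg
  rw [List.mem_take_iff_getElem]
  constructor
  · rintro ⟨i, hi, e⟩
    rw [List.getElem_drop] at e
    rw [List.length_drop] at hi
    exact ⟨a + i, by omega, by omega, by omega, e⟩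
  · rintro ⟨j, h1, h2, h3, e⟩
    refine ⟨j - a, by rw [List.length_drop]; omega, ?_⟩
    rw [List.getElem_drop]
    have : a + (j - a) = j := by omega
    simp only [this]
    exact e

theorem seg_append (l : List α) {a b c : ℕ} (h1 : a ≤ b) (h2 : b ≤ c) :
    seg l a b ++ seg l b c = seg l a c := by
  unfold seg
  have e1 : l.drop b = (l.drop a).drop (b - a) := by
    rw [List.drop_drop]; congr 1; omega
  have e2 : c - a = (b - a) + (c - b) := by omega
  rw [e1, e2, List.take_add]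

theorem seg_all (l : List α) : seg l 0 l.length = l := by
  unfold seg; simp

theorem seg_cons (l : List α) {a b : ℕ} (h1 : a < b) (h2 : a < l.length) :
    seg l a b = l[a] :: seg l (a + 1) b := by
  unfold seg
  rw [List.drop_eq_getElem_cons h2]
  have : b - a = (b - (a + 1)) + 1 := by omega
  rw [this, List.take_succ_cons]


end seg

/-! ### positions -/

section

variable {T : Type*} [DecidableEq T]

/-- partner map on positions -/
def piL (l : List (Port T)) (M : Port T → Port T) (i : ℕ) : ℕ := l.idxOf (M (l.getD i none))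

/-- the corner at the gap `g` -/
def gc (l : List (Port T)) (g : ℕ) : Port T := lc (l.getD (g % l.length) none)

variable {s : T → Bool} {G : List (Port T × Port T)} {Ts : Set T} {M : Port T → Port T}
  {l : List (Port T)} {u : Port T} {B : Option T}

omit [DecidableEq T] in
theorem getD_eq {i : ℕ} (hi : i < l.length) : l.getD i none = l[i] :=
  List.getD_eq_getElem _ _ hi

theorem getD_idx {x : Port T} (hx : x ∈ l) : l.getD (l.idxOf x) none = x := by
  rw [getD_eq (List.idxOf_lt_length_iff.2 hx)]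
  exact List.getElem_idxOf _

theorem idx_getD (hn : l.Nodup) {i : ℕ} (hi : i < l.length) : l.idxOf (l.getD i none) = i := by
  rw [getD_eq hi]
  exact hn.idxOf_getElem i hi

omit [DecidableEq T] in
theorem getD_mem {i : ℕ} (hi : i < l.length) : l.getD i none ∈ l := by
  rw [getD_eq hi]; exact List.getElem_mem hi

/-- **the partner map of a planar complex on positions is a non-crossing matching** -/
theorem nck_of_gd (h : Gd s B l G Ts M) (hu : u ∈ l) (hf : M u = u)
    (huniq : ∀ x ∈ l, M x = x → x = u) : NCK (piL l M) l.length (l.idxOf u) := by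
  have hmem : ∀ i, i < l.length → M (l.getD i none) ∈ l := fun i hi => h.mem _ (getD_mem hi)
  have hlt : ∀ i, i < l.length → piL l M i < l.length := fun i hi =>
    List.idxOf_lt_length_iff.2 (hmem i hi)
  have hgd : ∀ i, i < l.length → l.getD (piL l M i) none = M (l.getD i none) := fun i hi =>
    getD_idx (hmem i hi)
  refine ⟨List.idxOf_lt_length_iff.2 hu, ?_, hlt, ?_, ?_, ?_⟩
  · unfold piL; rw [getD_idx hu, hf]
  · intro i hi
    show l.idxOf (M (l.getD (piL l M i) none)) = i
    rw [hgd i hi, h.inv _ (getD_mem hi), idx_getD h.nodup hi]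
  · intro i hi hik he
    apply hik
    have h1 : M (l.getD i none) = l.getD i none := by
      rw [← hgd i hi, he]
    have h2 := huniq _ (getD_mem hi) h1
    rw [← h2, idx_getD h.nodup hi]
  · intro i j hij hj hN
    have hi : i < l.length := by omega
    have hjl : j < l.length := by omega
    right
    -- rotate the list to start at `i`
    have e1 : l = seg l 0 i ++ (l[i] :: (seg l (i + 1) (piL l M i) ++
        (l[piL l M i] :: seg l (piL l M i + 1) l.length))) := by
      conv_lhs => rw [← seg_all l, ← seg_append l (Nat.zero_le i) hi.le,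
        seg_cons l (a := i) hi hi, ← seg_append l (a := i + 1) (b := piL l M i) (by omega) hN.le,
        seg_cons l (a := piL l M i) hN hN]
    have e2 : l[piL l M i] = M l[i] := by
      have := hgd i hi
      rw [getD_eq hN, getD_eq hi] at this
      exact this
    have hr : l ~r l[i] :: (seg l (i + 1) (piL l M i) ++ M l[i] ::
        (seg l (piL l M i + 1) l.length ++ seg l 0 i)) := by
      conv_lhs => rw [e1, e2]
      have := rot_app (seg l 0 i) (l[i] :: (seg l (i + 1) (piL l M i) ++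
        (M l[i] :: seg l (piL l M i + 1) l.length)))
      refine this.trans ?_
      simp only [List.append_assoc, List.cons_append]
      exact List.IsRotated.refl _
    have hx : l[j] ∈ seg l (i + 1) (piL l M i) := mem_seg.2 ⟨j, by omega, hj, hjl, rfl⟩
    have h3 := (h.rotated hr).nc hx
    obtain ⟨j', h4, h5, h6, h7⟩ := mem_seg.1 h3
    have h8 : piL l M j = j' := by
      unfold piL
      rw [getD_eq hjl, ← h7]
      exact h.nodup.idxOf_getElem j' h6
    rw [h8]
    exact ⟨by omega, h5⟩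

/-! ### seen from the leg -/

/-- separation seen from the leg -/
theorem sep_sp {π : ℕ → ℕ} {N k : ℕ} (h : NCK π N k) {x y z : ℕ} (hx : x ≤ N) (hy : y ≤ N)
    (hz : z ≤ N) : Sep π N k x y z ↔
      sp (prt π N k) (N - 1) (rot N k x) (rot N k y) (rot N k z) := by
  have hk := h.lt
  constructor
  · rintro ⟨i, hi, hs, a, b, c⟩
    have hik : i ≠ k := by rintro rfl; exact not_st_fix h hs
    refine ⟨(rot N k i, rot N k (π i)), ⟨(h.st_iff hi hik).1 hs,
      rot_lt (h.mem i hi) hk (h.ne_k hi hik), ?_⟩, (h.ing_iff hi hs hx).1 a,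
      (h.ing_iff hi hs hy).1 b, fun c' => c ((h.ing_iff hi hs hz).2 c')⟩
    simp only [prt]; rw [unr_rot hi hk hik]
  · rintro ⟨e, ⟨he1, he2, he3⟩, a, b, c⟩
    have hj' : e.1 < N - 1 := by omega
    have hs : st π k (unr N k e.1) := by
      rw [h.st_iff (unr_lt hj' hk) (unr_ne hj' hk), rot_unr hj' hk]
      have : rot N k (π (unr N k e.1)) = e.2 := he3
      rw [this]; exact he1
    have hee : (rot N k (unr N k e.1), rot N k (π (unr N k e.1))) = e := by
      ext
      · exact rot_unr hj' hk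
      · exact he3
    refine ⟨unr N k e.1, unr_lt hj' hk, hs, ?_, ?_, ?_⟩
    · rw [h.ing_iff (unr_lt hj' hk) hs hx, hee]; exact a
    · rw [h.ing_iff (unr_lt hj' hk) hs hy, hee]; exact b
    · rw [h.ing_iff (unr_lt hj' hk) hs hz, hee]; exact c

omit [DecidableEq T] in
/-- position of an entry in a rotated list -/
theorem getD_rotate (l : List (Port T)) (n i : ℕ) (hi : i < l.length) :
    (l.rotate n).getD i none = l.getD ((i + n) % l.length) none := by
  have h1 : i < (l.rotate n).length := by rw [List.length_rotate]; exact hi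
  rw [getD_eq h1, List.getElem_rotate, getD_eq (Nat.mod_lt _ (by omega))]

/-- **unseparated gaps are joined** -/
theorem uns_R (h : Gd s B l G Ts M) (hu : u ∈ l) (hf : M u = u)
    (huniq : ∀ x ∈ l, M x = x → x = u) {g g' : ℕ} (hg : g ≤ l.length - 1) (hg' : g' ≤ l.length - 1)
    (H : uns (prt (piL l M) l.length (l.idxOf u)) (l.length - 1) g g') :
    R s B G (gc l (g + (l.idxOf u + 1))) (gc l (g' + (l.idxOf u + 1))) := by
  have hN := nck_of_gd h hu hf huniq
  -- symmetric: assume `g < g'`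
  have key : ∀ g g' : ℕ, g < g' → g' ≤ l.length - 1 →
      uns (prt (piL l M) l.length (l.idxOf u)) (l.length - 1) g g' →
      R s B G (gc l (g + (l.idxOf u + 1))) (gc l (g' + (l.idxOf u + 1))) := by
    intro g g' hlt hg' H
    have hk := hN.lt
    set k := l.idxOf u with hkdef
    set N := l.length with hNdef
    set L2 := l.rotate (k + 1) with hL2
    have hlen : L2.length = N := List.length_rotate _ _
    have hr : l ~r L2 := ⟨k + 1, rfl⟩
    have h2 := h.rotated hr
    have hgN : g < L2.length := by omega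
    have hgN' : g' < L2.length := by omega
    have e1 : L2 = seg L2 0 g ++ (L2[g] :: seg L2 (g + 1) g') ++
        (L2[g'] :: seg L2 (g' + 1) N) := by
      rw [← seg_cons L2 hlt hgN, ← seg_cons L2 (a := g') (by omega) hgN', seg_append _ (by omega)
        (by omega), seg_append _ (by omega) (by omega), ← hlen, seg_all]
    have hr2 : L2 ~r (L2[g] :: seg L2 (g + 1) g') ++ (L2[g'] :: (seg L2 (g' + 1) N ++
        seg L2 0 g)) := by
      conv_lhs => rw [e1]
      have := rot_app (seg L2 0 g) ((L2[g] :: seg L2 (g + 1) g') ++ (L2[g'] :: seg L2 (g' + 1) N))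
      simpa using this
    have e3 : ∀ j, (hj : j < N) → gc l (j + (k + 1)) = lc (L2[j]'(by omega)) := by
      intro j hj
      unfold gc
      rw [← hNdef, ← getD_rotate l (k + 1) j hj, getD_eq (by rw [← hL2]; omega)]
    rw [e3 g (by omega), e3 g' (by omega), h2.conn_iff' hr2]
    intro y hy
    rw [← seg_cons L2 hlt hgN] at hy ⊢
    obtain ⟨j, j1, j2, j3, rfl⟩ := mem_seg.1 hy
    -- position in `l`
    have hjN : j < N - 1 := by omega
    have hpos : (j + (k + 1)) % N = unr N k j := by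
      unfold unr
      split_ifs with h3
      · rw [Nat.mod_eq_of_lt (by omega)]; omega
      · have : j + (k + 1) = (j - (N - 1 - k)) + N := by omega
        rw [this, Nat.add_mod_right, Nat.mod_eq_of_lt (by omega)]
    have hLj : L2[j] = l.getD (unr N k j) none := by
      rw [← hpos, ← getD_rotate l (k + 1) j (by omega), getD_eq]
    have hult : unr N k j < N := unr_lt hjN hk
    have hune : unr N k j ≠ k := unr_ne hjN hk
    set i := unr N k j with hi
    have hpi := hN.mem i hult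
    have hpk := hN.ne_k hult hune
    have hMi : M (l.getD i none) = l.getD (piL l M i) none :=
      (getD_idx (h.mem _ (getD_mem hult))).symm
    set j' := rot N k (piL l M i) with hj'
    have hj'lt : j' < N - 1 := rot_lt hpi hk hpk
    have hprt : prt (piL l M) N k j = j' := rfl
    have hin : g ≤ j' ∧ j' < g' := by
      have hncm := hN.ncm
      have hne := hncm.ne j (Nat.zero_le _) (by omega)
      have hinv := hncm.inv j (Nat.zero_le _) (by omega)
      rw [hprt] at hne hinv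
      rcases lt_or_gt_of_ne hne with hlt' | hgt'
      · have := H (j', j) ⟨hlt', by simp only; omega, hinv⟩
        simp only [ins] at this
        omega
      · have := H (j, j') ⟨hgt', by simp only; omega, hprt⟩
        simp only [ins] at this
        omega
    refine mem_seg.2 ⟨j', hin.1, hin.2, by omega, ?_⟩
    rw [hLj, hMi]
    have hpos' : (j' + (k + 1)) % N = piL l M i := by
      have := unr_rot hpi hk hpk
      rw [← hj'] at this
      rw [← this]
      unfold unr
      split_ifs with h3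
      · rw [Nat.mod_eq_of_lt (by omega)]; omega
      · have : j' + (k + 1) = (j' - (N - 1 - k)) + N := by omega
        rw [this, Nat.add_mod_right, Nat.mod_eq_of_lt (by omega)]
    rw [← hpos', ← getD_rotate l (k + 1) j' (by omega), getD_eq]
  rcases lt_trichotomy g g' with h1 | h1 | h1
  · exact key g g' h1 hg' H
  · rw [h1]; exact R.refl _
  · exact (key g' g h1 hg H.symm).symm

/-! ### bounds of the observable -/

/-- a crossing from a gap of `(k, N]` to a gap of parity `j` of `[x2, x3]` -/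
def YA (s : T → Bool) (B : Option T) (G : List (Port T × Port T)) (l : List (Port T))
    (k x2 x3 j : ℕ) : Prop :=
  ∃ g h, k < g ∧ g ≤ l.length ∧ x2 ≤ h ∧ h ≤ x3 ∧ h % 2 = j ∧ R s B G (gc l g) (gc l h)

/-- a crossing from a gap of parity `j` of `[0, x2]` to a gap of `[x3, k]` -/
def YB (s : T → Bool) (B : Option T) (G : List (Port T × Port T)) (l : List (Port T))
    (k x2 x3 j : ℕ) : Prop :=
  ∃ g h, g ≤ x2 ∧ x3 ≤ h ∧ h ≤ k ∧ g % 2 = j ∧ R s B G (gc l g) (gc l h)

omit [DecidableEq T] in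
theorem gc_add (l : List (Port T)) (g : ℕ) : gc l (g + l.length) = gc l g := by
  unfold gc; rw [Nat.add_mod_right]

open Classical in
/-- indicator of a proposition -/
def bI (p : Prop) : ℝ := if p then 1 else 0

omit [DecidableEq T] in
theorem bI_mono {p q : Prop} (h : p → q) : bI p ≤ bI q := by
  unfold bI
  by_cases h1 : p
  · rw [if_pos h1, if_pos (h h1)]
  · rw [if_neg h1]; split_ifs <;> norm_num

omit [DecidableEq T] in
theorem bI_nonneg (p : Prop) : 0 ≤ bI p := by unfold bI; split_ifs <;> norm_num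


theorem XA_YA (h : Gd s B l G Ts M) (hu : u ∈ l) (hf : M u = u)
    (huniq : ∀ x ∈ l, M x = x → x = u) {x2 x3 c : ℕ} (h23 : x2 ≤ x3) (h3 : x3 ≤ l.idxOf u)
    (H : XA (prt (piL l M) l.length (l.idxOf u)) (l.length - 1) (l.length - 1 - l.idxOf u)
      (x2 + (l.length - 1 - l.idxOf u)) (x3 + (l.length - 1 - l.idxOf u)) c) :
    YA s B G l (l.idxOf u) x2 x3 ((c + (l.length - 1 - l.idxOf u)) % 2) := by
  have hN := nck_of_gd h hu hf huniq
  have hk := hN.lt
  obtain ⟨g, h', h1, h2, h4, h5, h6⟩ := H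
  have hp := h6.par' hN.ncm (by omega) (by omega)
  have hR := uns_R h hu hf huniq (g := g) (g' := h') (by omega) (by omega) h6
  refine ⟨g + (l.idxOf u + 1), h' - (l.length - 1 - l.idxOf u), by omega, by omega, by omega,
    by omega, by omega, ?_⟩
  have e : h' + (l.idxOf u + 1) = (h' - (l.length - 1 - l.idxOf u)) + l.length := by omega
  rwa [e, gc_add] at hR

theorem XB_YB (h : Gd s B l G Ts M) (hu : u ∈ l) (hf : M u = u)
    (huniq : ∀ x ∈ l, M x = x → x = u) {x2 x3 c : ℕ} (h23 : x2 ≤ x3) (h3 : x3 ≤ l.idxOf u)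
    (H : XB (prt (piL l M) l.length (l.idxOf u)) (l.length - 1) (l.length - 1 - l.idxOf u)
      (x2 + (l.length - 1 - l.idxOf u)) (x3 + (l.length - 1 - l.idxOf u)) c) :
    YB s B G l (l.idxOf u) x2 x3 ((c + (l.length - 1 - l.idxOf u)) % 2) := by
  have hN := nck_of_gd h hu hf huniq
  have hk := hN.lt
  obtain ⟨g, h', h1, h2, h4, h5, h6, h7⟩ := H
  have hR := uns_R h hu hf huniq (g := g) (g' := h') (by omega) (by omega) h7
  refine ⟨g - (l.length - 1 - l.idxOf u), h' - (l.length - 1 - l.idxOf u), by omega, by omega,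
    by omega, by omega, ?_⟩
  have e : h' + (l.idxOf u + 1) = (h' - (l.length - 1 - l.idxOf u)) + l.length := by omega
  have e' : g + (l.idxOf u + 1) = (g - (l.length - 1 - l.idxOf u)) + l.length := by omega
  rwa [e, e', gc_add, gc_add] at hR

open Classical in
/-- the observable with the leg end on the arc `(x3, x1)`, `x1 = 0` -/
theorem Vc_XA (h : Gd s B l G Ts M) (hu : u ∈ l) (hf : M u = u)
    (huniq : ∀ x ∈ l, M x = x → x = u) {x2 x3 : ℕ} (h23 : x2 ≤ x3) (h3 : x3 ≤ l.idxOf u) :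
    Vc (piL l M) l.length (l.idxOf u) 0 x2 x3 =
    (((bI (XA (prt (piL l M) l.length (l.idxOf u)) (l.length - 1) (l.length - 1 - l.idxOf u)
      (x2 + (l.length - 1 - l.idxOf u)) (x3 + (l.length - 1 - l.idxOf u)) 0) +
      bI (XA (prt (piL l M) l.length (l.idxOf u)) (l.length - 1) (l.length - 1 - l.idxOf u)
      (x2 + (l.length - 1 - l.idxOf u)) (x3 + (l.length - 1 - l.idxOf u)) 1)) / 2 : ℝ) : ℂ) := by
  have hN := nck_of_gd h hu hf huniq
  have hk := hN.lt
  unfold bI
  rw [← V_eq hN.ncm (by omega) (by omega) (by omega)]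
  unfold Vc
  rw [if_pos (Or.inr h3)]
  have r1 : rot l.length (l.idxOf u) 0 = l.length - 1 - l.idxOf u := by
    unfold rot; rw [if_neg (by omega)]; omega
  have r2 : rot l.length (l.idxOf u) x2 = x2 + (l.length - 1 - l.idxOf u) := by
    unfold rot; rw [if_neg (by omega)]
  have r3 : rot l.length (l.idxOf u) x3 = x3 + (l.length - 1 - l.idxOf u) := by
    unfold rot; rw [if_neg (by omega)]
  rw [if_congr (sep_sp hN (x := x2) (y := x3) (z := 0) (by omega) (by omega) (by omega)) rfl rfl,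
    if_congr (sep_sp hN (x := 0) (y := x2) (z := x3) (by omega) (by omega) (by omega)) rfl rfl,
    r1, r2, r3]
  split_ifs <;> simp

/-- **upper bound** of the observable by the crossings of the arcs `(leg end, x1)`, `(x2, x3)` -/
theorem Vc_le (h : Gd s B l G Ts M) (hu : u ∈ l) (hf : M u = u)
    (huniq : ∀ x ∈ l, M x = x → x = u) {x2 x3 : ℕ} (h23 : x2 ≤ x3) (h3 : x3 ≤ l.idxOf u) :
    (Vc (piL l M) l.length (l.idxOf u) 0 x2 x3).re ≤
      (bI (YA s B G l (l.idxOf u) x2 x3 0) + bI (YA s B G l (l.idxOf u) x2 x3 1)) / 2 := by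
  rw [Vc_XA h hu hf huniq h23 h3, Complex.ofReal_re]
  have h0 := bI_mono (XA_YA h hu hf huniq (c := 0) h23 h3)
  have h1 := bI_mono (XA_YA h hu hf huniq (c := 1) h23 h3)
  rcases Nat.mod_two_eq_zero_or_one (l.length - 1 - l.idxOf u) with e | e
  · have e0 : (0 + (l.length - 1 - l.idxOf u)) % 2 = 0 := by omega
    have e1 : (1 + (l.length - 1 - l.idxOf u)) % 2 = 1 := by omega
    rw [e0] at h0; rw [e1] at h1
    linarith
  · have e0 : (0 + (l.length - 1 - l.idxOf u)) % 2 = 1 := by omega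
    have e1 : (1 + (l.length - 1 - l.idxOf u)) % 2 = 0 := by omega
    rw [e0] at h0; rw [e1] at h1
    linarith

/-- **lower bound** of the observable by the dual crossings (arcs `(x1, x2)`, `(x3, leg end)`) -/
theorem le_Vc (h : Gd s B l G Ts M) (hu : u ∈ l) (hf : M u = u)
    (huniq : ∀ x ∈ l, M x = x → x = u) {x2 x3 : ℕ} (h23 : x2 ≤ x3) (h3 : x3 ≤ l.idxOf u) :
    1 - (Vc (piL l M) l.length (l.idxOf u) 0 x2 x3).re ≤
      (bI (YB s B G l (l.idxOf u) x2 x3 0) + bI (YB s B G l (l.idxOf u) x2 x3 1)) / 2 := by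
  have hN := nck_of_gd h hu hf huniq
  have hk := hN.lt
  rw [Vc_XA h hu hf huniq h23 h3, Complex.ofReal_re]
  have key : ∀ p q : Prop, p ∨ q → 1 - bI p ≤ bI q := by
    intro p q hpq
    rcases hpq with hp | hq
    · have : bI p = 1 := if_pos hp
      rw [this, sub_self]; exact bI_nonneg q
    · have : bI q = 1 := if_pos hq
      rw [this]; linarith [bI_nonneg p]
  have d0 := key _ _ (dual hN.ncm (y1 := l.length - 1 - l.idxOf u)
    (y2 := x2 + (l.length - 1 - l.idxOf u)) (y3 := x3 + (l.length - 1 - l.idxOf u)) (by omega)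
    (by omega) (by omega) (c := 0) (c' := 1) (by norm_num) (by norm_num) (by norm_num))
  have d1 := key _ _ (dual hN.ncm (y1 := l.length - 1 - l.idxOf u)
    (y2 := x2 + (l.length - 1 - l.idxOf u)) (y3 := x3 + (l.length - 1 - l.idxOf u)) (by omega)
    (by omega) (by omega) (c := 1) (c' := 0) (by norm_num) (by norm_num) (by norm_num))
  have h0 := bI_mono (XB_YB h hu hf huniq (c := 0) h23 h3)
  have h1 := bI_mono (XB_YB h hu hf huniq (c := 1) h23 h3)
  rcases Nat.mod_two_eq_zero_or_one (l.length - 1 - l.idxOf u) with e | e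
  · have e0 : (0 + (l.length - 1 - l.idxOf u)) % 2 = 0 := by omega
    have e1 : (1 + (l.length - 1 - l.idxOf u)) % 2 = 1 := by omega
    rw [e0] at h0; rw [e1] at h1
    linarith
  · have e0 : (0 + (l.length - 1 - l.idxOf u)) % 2 = 1 := by omega
    have e1 : (1 + (l.length - 1 - l.idxOf u)) % 2 = 0 := by omega
    rw [e0] at h0; rw [e1] at h1
    linarith

end

end Crest.Agent.R158.Cb771
end
end

-- ▼ part R158/Cb6_771

/-!
# Row 158, Block CB (helper771): leg end and crossings of `D^(z)` near a flat boundary point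

* `LegBox D p y0 xr s` : the box of radius `s` around `z = (p, y0)` meets the complement of `D`
* `LegBox.chart` : `D^(z)` minus the box has a chart (shift by `0` or `1` to the left)
* `leg_loc` : outside a rare event the leg ends near `z`
* `cross_loc` : outside the rare event a joined pair of corners, one of them far from `z`, gives a
  face path of the plane
* `par_gap` : parities of the faces at consecutive gaps
* `int_le3` : integral bound by (outer) probabilities
-/

set_option autoImplicit false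
set_option linter.unusedVariables false

noncomputable section

namespace Crest.Agent.R158.Cb771

open MeasureTheory ProbabilityTheory unitInterval
open Crest.Agent.R161.Geo729 Crest.Agent.R158.Rs689 Crest.Agent.R158.Mr679
open Crest.Agent.R158.Gc748 Crest.Agent.R158.Env664
open Crest.Agent.R158.Sw300 (Port Wd)
open Crest.Agent.R158.Ob664 (Gl GW)

theorem con_of_cpath {X : Set (ℤ × ℤ)} {a b : ℤ × ℤ} (h : Xr249.CPath X a b) :
    SpD331.Con X a b := by
  induction h with
  | refl => exact .refl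
  | tail _ h2 ih =>
    refine Relation.ReflTransGen.tail ih ⟨?_, h2.2.2⟩
    have := h2.1
    unfold Adj4 at this
    unfold SpD331.Adj
    omega

/-- the box of radius `s` around `z = (p, y0)` meets the complement of the simply connected `D` -/
structure LegBox (D : Finset (ℤ × ℤ)) (p y0 xr : ℤ) (s : ℕ) : Prop where
  hs : 1 ≤ s
  hp : p ≤ xr
  row0 : ∀ x, p ≤ x → x ≤ xr → (x, y0) ∈ D
  row1 : ∀ x, p ≤ x → x ≤ xr → (x, y0 - 1) ∈ D
  out : (xr + 1, y0) ∉ D
  cc : ∀ a ∉ D, ∀ b ∉ D, Xr249.CPath {t | t ∉ D} a b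
  bd : ∃ t ∉ D, t ∈ Bx (p, y0) s

/-- the tiles outside the box -/
def AB (D : Finset (ℤ × ℤ)) (p y0 : ℤ) (s : ℕ) : Set (ℤ × ℤ) := {t | t ∈ D ∧ t ∉ Bx (p, y0) s}

theorem AB_finite (D : Finset (ℤ × ℤ)) (p y0 : ℤ) (s : ℕ) : (AB D p y0 s).Finite :=
  D.finite_toSet.subset fun _ h => h.1

variable {D : Finset (ℤ × ℤ)} {p y0 xr : ℤ} {s : ℕ}

theorem mem_Bx {b t : ℤ × ℤ} {s : ℤ} : t ∈ Bx b s ↔ |t.1 - b.1| ≤ s ∧ |t.2 - b.2| ≤ s := Iff.rfl

theorem LegBox.conn (h : LegBox D p y0 xr s) :
    ∀ q ∉ AB D p y0 s, ∀ q' ∉ AB D p y0 s, SpD331.Con (AB D p y0 s)ᶜ q q' := by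
  obtain ⟨t0, ht0, ht0'⟩ := h.bd
  have hsub1 : {t : ℤ × ℤ | t ∉ D} ⊆ (AB D p y0 s)ᶜ := fun t ht h' => ht h'.1
  have hsub2 : Bx (p, y0) s ⊆ (AB D p y0 s)ᶜ := fun t ht h' => h'.2 ht
  have key : ∀ q ∉ AB D p y0 s, Xr249.CPath (AB D p y0 s)ᶜ q t0 := by
    intro q hq
    by_cases h1 : q ∈ D
    · have h2 : q ∈ Bx (p, y0) s := by
        by_contra h3; exact hq ⟨h1, h3⟩
      rw [mem_Bx, abs_le, abs_le] at h2 ht0'
      simp only at h2 ht0'
      refine Xr249.CPath.rect (x1 := p - s) (x2 := p + s) (y1 := y0 - s) (y2 := y0 + s)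
        (fun x y e1 e2 e3 e4 => hsub2 ?_) (by omega) (by omega)
      rw [mem_Bx, abs_le, abs_le]
      simp only
      omega
    · exact (h.cc q h1 t0 ht0).mono hsub1
  intro q hq q' hq'
  exact con_of_cpath ((key q hq).trans (key q' hq').symm)

theorem nbD_near {x y : ℤ} {d : ZMod 4} {x' y' : ℤ} {d' : ZMod 4}
    (h : nbD p y0 xr (some ((x, y), d)) = some ((x', y'), d')) :
    |x - x'| ≤ 1 ∧ |y - y'| ≤ 1 := by
  rcases z4 d with rfl | rfl | rfl | rfl
  · rw [nbD_W] at h
    simp only [Option.some.injEq, Prod.mk.injEq] at h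
    rw [abs_le, abs_le]; omega
  · by_cases hc : y = y0 - 1 ∧ p ≤ x ∧ x ≤ xr
    · rw [nbD_N1 hc] at h
      simp only [Option.some.injEq, Prod.mk.injEq] at h
      rw [abs_le, abs_le]; omega
    · rw [nbD_N hc] at h
      simp only [Option.some.injEq, Prod.mk.injEq] at h
      rw [abs_le, abs_le]; omega
  · rw [nbD_E] at h
    simp only [Option.some.injEq, Prod.mk.injEq] at h
    rw [abs_le, abs_le]; omega
  · by_cases h5 : y = y0 ∧ x = p
    · rw [nbD_Sleg h5] at h
      exact absurd h (by simp)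
    by_cases hcase : y = y0 ∧ p < x ∧ x ≤ xr
    · rw [nbD_S1 hcase] at h
      simp only [Option.some.injEq, Prod.mk.injEq] at h
      rw [abs_le, abs_le]; omega
    · rw [nbD_S (by omega)] at h
      simp only [Option.some.injEq, Prod.mk.injEq] at h
      rw [abs_le, abs_le]; omega

theorem nbD_leg' {x y : ℤ} {d : ZMod 4} (h : nbD p y0 xr (some ((x, y), d)) = none) :
    x = p ∧ y = y0 := by
  rcases z4 d with rfl | rfl | rfl | rfl
  · rw [nbD_W] at h; simp at h
  · by_cases hc : y = y0 - 1 ∧ p ≤ x ∧ x ≤ xr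
    · rw [nbD_N1 hc] at h; simp at h
    · rw [nbD_N hc] at h; simp at h
  · rw [nbD_E] at h; simp at h
  · by_cases h5 : y = y0 ∧ x = p
    · exact ⟨h5.2, h5.1⟩
    by_cases hcase : y = y0 ∧ p < x ∧ x ≤ xr
    · rw [nbD_S1 hcase] at h; simp at h
    · rw [nbD_S (by omega)] at h; simp at h

theorem gl_beD {q q' : Port (ℤ × ℤ)} (h : Gl (beD D p y0 xr) q q') :
    nbD p y0 xr q = q' ∧ PortOf D q ∧ PortOf D q' := by
  obtain ⟨h1, h2⟩ := h
  unfold beD res at h1
  split_ifs at h1 with h4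
  · rw [h1] at h4; exact ⟨h1, h4⟩
  · exact absurd h1 h2

/-- **the chart of `D^(z)` minus the box** -/
theorem LegBox.chart (h : LegBox D p y0 xr s) : ∃ c : ℤ × ℤ → ℤ, (∀ t, c t = 0 ∨ c t = 1) ∧
    Chart (Gl (beD D p y0 xr)) (AB D p y0 s) (posc c) ∧
    Near (Gl (beD D p y0 xr)) (AB D p y0 s) (posc c) (p, y0) (s + 2) := by
  have hs := h.hs
  have hin : ∀ x y : ℤ, |x - p| ≤ s → |y - y0| ≤ s → (x, y) ∉ AB D p y0 s :=
    fun x y h1 h2 h3 => h3.2 ⟨h1, h2⟩
  have hout : ∀ x y : ℤ, p + s < x → (x, y) ∉ Bx (p, y0) s := by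
    intro x y hx h1
    rw [mem_Bx, abs_le] at h1
    simp only at h1
    omega
  obtain ⟨c, c1, c2, c3, c4⟩ := exists_c (A := AB D p y0 s) h.conn (y0 := y0) (x1 := p + s + 1)
    (xr := xr) (fun x h1 h2 => ⟨h.row0 x (by omega) h2, hout x y0 (by omega)⟩)
    (hin _ _ (by rw [abs_le]; omega) (by rw [abs_le]; omega)) (fun h' => h.out h'.1)
    (fun x h1 h2 => ⟨h.row1 x (by omega) h2, hout x _ (by omega)⟩)
  refine ⟨c, c1, chartD (x1 := p + s + 1) (fun t ht => ht.1) h.hp h.out ⟨c1, c2, c3, c4⟩ (by omega)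
    (fun x y hy h1 h2 => hin x y (by rw [abs_le]; omega) (by rw [abs_le]; omega)), ?_⟩
  rintro ⟨x, y⟩ d q ht hg hq
  obtain ⟨h1, h2, h3⟩ := gl_beD hg
  cases q with
  | none =>
    obtain ⟨rfl, rfl⟩ := nbD_leg' h1
    exact absurd ht (hin _ _ (by simp) (by simp))
  | some y' =>
    obtain ⟨⟨x', y'⟩, d'⟩ := y'
    have h4 := nbD_near h1
    have h5 : (x', y') ∈ Bx (p, y0) s := by
      by_contra h6
      exact hq ⟨portOf_some.1 h3, h6⟩
    rw [mem_Bx, abs_le, abs_le] at h5
    rw [abs_le, abs_le] at h4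
    have h6 := c1 (x, y)
    simp only [posc, abs_le] at h5 ⊢
    push_cast
    omega

/-! ### words -/

variable {w : Wd (ℤ × ℤ)}

theorem GW.ok {b : Port (ℤ × ℤ) → Port (ℤ × ℤ)} (h : GW D b w) : Sw300.Ok w := h.word.1

theorem GW.gd {b : Port (ℤ × ℤ) → Port (ℤ × ℤ)} (h : GW D b w) (ξ : ℤ × ℤ → Bool) :
    Gd ξ none (Sw300.L w) (gl w) (ts w) (Sw300.M ξ w) := by
  have := gd_wd ξ (GW.ok h)
  rwa [← bas_eq, h.leg] at this

/-- the ports of the list are sides of tiles -/
theorem GW.port (hb : LegBox D p y0 xr s) (h : GW D (beD D p y0 xr) w) {x : Port (ℤ × ℤ)}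
    (hx : x ∈ Sw300.L w) : ∃ t d, x = some (t, d) ∧ t ∈ D := by
  have hf := (be_state (GW.ok h)).free x hx
  rw [h.word.2.2.2] at hf
  cases x with
  | none =>
    exfalso
    have h1 : PortOf D (nbD p y0 xr none) := by
      rw [nbD_leg]; exact portOf_some.2 (hb.row0 p le_rfl hb.hp)
    unfold beD at hf
    rw [res_of (portOf_none D) h1, nbD_leg] at hf
    exact absurd hf (by simp)
  | some y =>
    obtain ⟨t, d⟩ := y
    exact ⟨t, d, rfl, (h.word.2.2.1 t).1 (mem_L_tls (GW.ok h) hx)⟩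

theorem GW.cc (h : GW D (beD D p y0 xr) w) {ξ : ℤ × ℤ → Bool} {c c' : Port (ℤ × ℤ)}
    (hR : R ξ none (gl w) c c') : CC ξ (Gl (beD D p y0 xr)) c c' :=
  cc_of_word (GW.ok h) h.word.2.2.2 hR

/-- the unmatched end -/
theorem GW.unm {b : Port (ℤ × ℤ) → Port (ℤ × ℤ)} (h : GW D b w) (ξ : ℤ × ℤ → Bool) :
    Sw300.u ξ w ∈ Sw300.L w ∧ Sw300.M ξ w (Sw300.u ξ w) = Sw300.u ξ w ∧
      ∀ x ∈ Sw300.L w, Sw300.M ξ w x = x → x = Sw300.u ξ w := by
  have hI := Sw300.Ok.inv ξ w (GW.ok h)
  exact ⟨hI.um, hI.uf, hI.fix⟩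

/-- the rare event -/
def Rare (D : Finset (ℤ × ℤ)) (p y0 xr : ℤ) (s R : ℕ) (c : ℤ × ℤ → ℤ) : Set (ℤ × ℤ → Bool) :=
  FarC (Gl (beD D p y0 xr)) (AB D p y0 s) (posc c) (p, y0) (s + 2) R

theorem cpos_near {c : ℤ × ℤ → ℤ} (hc : ∀ t, c t = 0 ∨ c t = 1) (t : ℤ × ℤ) (d : ZMod 4) :
    (t.1 - 2 ≤ (cpos (posc c) (some (t, d))).1 ∧ (cpos (posc c) (some (t, d))).1 ≤ t.1) ∧
    (t.2 - 1 ≤ (cpos (posc c) (some (t, d))).2 ∧ (cpos (posc c) (some (t, d))).2 ≤ t.2) := by
  have h1 := hc t
  have h2 := off_le d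
  simp only [cpos, posc, Prod.fst_add, Prod.snd_add]
  omega

/-- **the leg ends near `z`** outside the rare event -/
theorem leg_loc (hb : LegBox D p y0 xr s) (h : GW D (beD D p y0 xr) w) {c : ℤ × ℤ → ℤ}
    (hc : ∀ t, c t = 0 ∨ c t = 1) {ξ : ℤ × ℤ → Bool} {Rd : ℕ} (hR : s ≤ Rd)
    (hξ : ξ ∉ Rare D p y0 xr s Rd c) :
    ∃ t d, Sw300.u ξ w = some (t, d) ∧ t ∈ D ∧ |t.1 - p| ≤ Rd + 2 ∧ |t.2 - y0| ≤ Rd + 2 := by
  obtain ⟨hu, huf, -⟩ := GW.unm h ξ
  obtain ⟨t, d, e, ht⟩ := GW.port hb h hu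
  refine ⟨t, d, e, ht, ?_⟩
  by_cases h1 : t ∈ Bx (p, y0) s
  · rw [mem_Bx] at h1
    exact ⟨h1.1.trans (by omega), h1.2.trans (by omega)⟩
  · by_contra hfar
    apply hξ
    have h2 := (GW.gd h ξ).legR _ hu huf
    have h3 := GW.cc h h2
    refine ⟨none, lc (Sw300.u ξ w), Or.inl id, h3, ?_, ?_⟩
    · rw [e]; exact ⟨ht, h1⟩
    · rw [e]
      have h4 := cpos_near hc t d
      rw [abs_le, abs_le] at hfar
      simp only [lc_some, le_abs] at h4 ⊢
      omega

/-- plane tiles used by the chart -/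
def QA (A : Set (ℤ × ℤ)) (pos : ℤ × ℤ → P2) (t : P2) : Prop := ∃ τ ∈ A, t = pos τ

/-- **a joined pair of corners, one of them far, gives a face path** outside the rare event -/
theorem cross_loc {G : Port (ℤ × ℤ) → Port (ℤ × ℤ) → Prop} {A : Set (ℤ × ℤ)} {pos : ℤ × ℤ → P2}
    {x : P2} {r Rd : ℕ} (hch : Chart G A pos) {ξ : ℤ × ℤ → Bool}
    (hξ : ξ ∉ FarC G A pos x r Rd) {c0 c1 : Port (ℤ × ℤ)}
    (h : CC ξ G c0 c1) (h1 : InT A c1)
    (hfar : (Rd : ℤ) ≤ |(cpos pos c1).1 - x.1| ∨ (Rd : ℤ) ≤ |(cpos pos c1).2 - x.2|) :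
    InT A c0 ∧ ∀ g : TF, (∀ t ∈ A, g (pos t) = ξ t) → FP g (QA A pos) (cpos pos c0) (cpos pos c1) := by
  have h0 : InT A c0 := by
    by_contra h0
    exact hξ ⟨c0, c1, Or.inl h0, h, h1, hfar⟩
  refine ⟨h0, fun g hg => ?_⟩
  -- either the chain stays in `A` or a corner outside `A` is joined to its end
  have key : ∀ {c1 : Port (ℤ × ℤ)}, CC ξ G c0 c1 → InT A c1 →
      FP g (QA A pos) (cpos pos c0) (cpos pos c1) ∨ ∃ c, ¬ InT A c ∧ CC ξ G c c1 := by
    intro c1 h
    induction h with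
    | refl => exact fun _ => Or.inl FP.refl
    | @tail b d _ h6 ih =>
      intro hd
      by_cases hbA : InT A b
      · rcases ih hbA with e | ⟨c, e1, e2⟩
        · exact Or.inl (e.trans (chart_step hch hg (fun t ht => ⟨t, ht, rfl⟩) h6 hbA hd))
        · exact Or.inr ⟨c, e1, e2.trans (Relation.ReflTransGen.single h6)⟩
      · exact Or.inr ⟨b, hbA, Relation.ReflTransGen.single h6⟩
  rcases key h h1 with e | ⟨c, e1, e2⟩
  · exact e
  · exact absurd ⟨c, c1, Or.inl e1, e2, h1, hfar⟩ hξ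

/-! ### parities of the gaps -/

theorem off_par (d : ZMod 4) : ((off (d + 1)).1 + (off (d + 1)).2 + 1) % 2 =
    ((off d).1 + (off d).2) % 2 := by
  revert d; decide

/-- consecutive gaps, far from the box, have faces of different parity -/
theorem par_step {G : Port (ℤ × ℤ) → Port (ℤ × ℤ) → Prop} {A : Set (ℤ × ℤ)} {pos : ℤ × ℤ → P2}
    {x : P2} {r : ℕ} (hch : Chart G A pos) (hn : Near G A pos x r) {q q' : Port (ℤ × ℤ)}
    (h : Xr249.Nx G q q') (hq : InT A q)
    (hfar : (r : ℤ) + 1 < |(cpos pos (rc q)).1 - x.1| ∨ (r : ℤ) + 1 < |(cpos pos (rc q)).2 - x.2|) :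
    InT A q' ∧ ((cpos pos (lc q')).1 + (cpos pos (lc q')).2) % 2 =
      ((cpos pos (lc q)).1 + (cpos pos (lc q)).2 + 1) % 2 := by
  obtain ⟨h1, h2⟩ := Nx_face hch hn h hq hfar
  refine ⟨h1, ?_⟩
  rw [h2]
  cases q with
  | none => exact absurd hq id
  | some y =>
    obtain ⟨t, d⟩ := y
    have h3 := off_par d
    simp only [cpos, rc_some, lc_some, Prod.fst_add, Prod.snd_add]
    omega

/-- parity along an interval of gaps far from the box -/
theorem par_gap {G : Port (ℤ × ℤ) → Port (ℤ × ℤ) → Prop} {A : Set (ℤ × ℤ)} {pos : ℤ × ℤ → P2}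
    {x : P2} {r : ℕ} (hch : Chart G A pos) (hn : Near G A pos x r) {l : List (Port (ℤ × ℤ))}
    {a b : ℕ} (hb : b < l.length)
    (hnx : ∀ i, a ≤ i → i < b → Xr249.Nx G (l.getD i none) (l.getD (i + 1) none))
    (hA : InT A (l.getD a none))
    (hfar : ∀ i, a ≤ i → i < b → (r : ℤ) + 1 < |(cpos pos (rc (l.getD i none))).1 - x.1| ∨
      (r : ℤ) + 1 < |(cpos pos (rc (l.getD i none))).2 - x.2|) :
    ∀ i, a ≤ i → i ≤ b → InT A (l.getD i none) ∧
      ((cpos pos (lc (l.getD i none))).1 + (cpos pos (lc (l.getD i none))).2) % 2 =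
      ((cpos pos (lc (l.getD a none))).1 + (cpos pos (lc (l.getD a none))).2 + (i - a)) % 2 := by
  intro i hai
  induction i, hai using Nat.le_induction with
  | base => intro _; exact ⟨hA, by simp⟩
  | succ i hi ih =>
    intro hib
    obtain ⟨h1, h2⟩ := ih (by omega)
    obtain ⟨h3, h4⟩ := par_step hch hn (hnx i hi (by omega)) h1 (hfar i hi (by omega))
    refine ⟨h3, ?_⟩
    rw [h4]
    push_cast
    omega

/-! ### integrals and probabilities -/

/-- integral bound by outer probabilities -/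
theorem int_le3 {Ω : Type*} [MeasurableSpace Ω] {μ : Measure Ω} [IsProbabilityMeasure μ]
    {f : Ω → ℝ} (hf : Integrable f μ) (E0 E1 E2 : Set Ω)
    (h : ∀ ω, f ω ≤ bI (ω ∈ E2) + (bI (ω ∈ E0) + bI (ω ∈ E1)) / 2) :
    ∫ ω, f ω ∂μ ≤ μ.real E2 + (μ.real E0 + μ.real E1) / 2 := by
  have key : ∀ E : Set Ω, Integrable (fun ω => bI (ω ∈ toMeasurable μ E)) μ ∧
      ∫ ω, bI (ω ∈ toMeasurable μ E) ∂μ = μ.real E := by
    intro E
    have hm : MeasurableSet (toMeasurable μ E) := measurableSet_toMeasurable μ E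
    have e : (fun ω => bI (ω ∈ toMeasurable μ E)) = (toMeasurable μ E).indicator fun _ => (1 : ℝ) := by
      funext ω
      unfold bI Set.indicator
      split_ifs <;> rfl
    rw [e]
    refine ⟨(integrable_const 1).indicator hm, ?_⟩
    have e3 := integral_indicator_one (μ := μ) hm
    rw [show (toMeasurable μ E).indicator (fun _ => (1 : ℝ)) = (toMeasurable μ E).indicator 1 from rfl,
      e3]
    simp only [measureReal_def, measure_toMeasurable]
  have h2 : ∀ ω, f ω ≤ bI (ω ∈ toMeasurable μ E2) + (bI (ω ∈ toMeasurable μ E0) +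
      bI (ω ∈ toMeasurable μ E1)) / 2 := by
    intro ω
    have := h ω
    have i0 := bI_mono (fun h : ω ∈ E0 => subset_toMeasurable μ E0 h)
    have i1 := bI_mono (fun h : ω ∈ E1 => subset_toMeasurable μ E1 h)
    have i2 := bI_mono (fun h : ω ∈ E2 => subset_toMeasurable μ E2 h)
    linarith
  have i0 := (key E0).1
  have i1 := (key E1).1
  have i2 := (key E2).1
  calc ∫ ω, f ω ∂μ ≤ ∫ ω, (bI (ω ∈ toMeasurable μ E2) + (bI (ω ∈ toMeasurable μ E0) +
      bI (ω ∈ toMeasurable μ E1)) / 2) ∂μ := integral_mono hf (i2.add ((i0.add i1).div_const 2)) h2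
    _ = _ := by
      have e1 : ∫ ω, (bI (ω ∈ toMeasurable μ E0) + bI (ω ∈ toMeasurable μ E1)) ∂μ =
          μ.real E0 + μ.real E1 := by
        rw [integral_add i0 i1, (key E0).2, (key E1).2]
      have i3 : Integrable (fun ω => (bI (ω ∈ toMeasurable μ E0) +
          bI (ω ∈ toMeasurable μ E1)) / 2) μ := (i0.add i1).div_const 2
      rw [integral_add i2 i3, integral_div, e1, (key E2).2]

/-- crossing events of the plane -/
def XQ (Q : P2 → Prop) (e : ℤ) (S0 S1 : Set P2) : Set TF :=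
  {g | ∃ f0 f1 : P2, (f0.1 + f0.2) % 2 = e ∧ FP g Q f0 f1 ∧ f0 ∈ S0 ∧ f1 ∈ S1}

theorem measurableSet_XQ (Q : P2 → Prop) (e : ℤ) (S0 S1 : Set P2) : MeasurableSet (XQ Q e S0 S1) := by
  have : XQ Q e S0 S1 = ⋃ (f0 : P2) (f1 : P2), {g : TF | FP g Q f0 f1} ∩
      {_g | (f0.1 + f0.2) % 2 = e ∧ f0 ∈ S0 ∧ f1 ∈ S1} := by
    ext g
    simp only [XQ, Set.mem_ofPred_eq, Set.mem_iUnion, Set.mem_inter_iff]
    constructor
    · rintro ⟨f0, f1, h1, h2, h3, h4⟩
      exact ⟨f0, f1, h2, h1, h3, h4⟩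
    · rintro ⟨f0, f1, h2, h1, h3, h4⟩
      exact ⟨f0, f1, h1, h2, h3, h4⟩
  rw [this]
  exact MeasurableSet.iUnion fun f0 => MeasurableSet.iUnion fun f1 =>
    (meas_fp Q f0 f1).inter (MeasurableSet.const _)

/-- odd and even crossings: shift by one lattice step -/
theorem shift_event {Q Q' : P2 → Prop} {S0 S1 S0' S1' : Set P2} (a : P2)
    (hQ : ∀ t, Q t → Q' (t - a)) (h0 : ∀ f ∈ S0, f - a ∈ S0') (h1 : ∀ f ∈ S1, f - a ∈ S1')
    {e e' : ℤ} (he : e' = (e - (a.1 + a.2)) % 2) :
    (tau hf).real (XQ Q e S0 S1) ≤ (tau hf).real (XQ Q' e' S0' S1') := by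
  rw [← tau_real_shT hf a (measurableSet_XQ Q' e' S0' S1')]
  refine measureReal_mono ?_
  rintro g ⟨f0, f1, h2, h3, h4, h5⟩
  refine ⟨f0 - a, f1 - a, ?_, ?_, h0 _ h4, h1 _ h5⟩
  · simp only [Prod.fst_sub, Prod.snd_sub]
    omega
  · have e1 : f0 = (f0 - a) + a := (sub_add_cancel _ _).symm
    have e2 : f1 = (f1 - a) + a := (sub_add_cancel _ _).symm
    rw [e1, e2, fp_shT] at h3
    refine h3.mono fun t ht => ⟨?_, rfl⟩
    have := hQ _ ht
    rwa [add_sub_cancel_right] at this

end Crest.Agent.R158.Cb771
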