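import Crest.Agent.R158.Xr10_249
import Crest.Agent.R158.Hb0_656

-- ▼ part R158/Hg1_896
section

/-!
# Row 158, BL (helper896), file Hg1: cut along a segment, hanging parts, no pinch

* `CA A`, `CC A` : edge connected, edge connected complement; `CC.sc`, `CA.conn`
* **`cut_sep`** : the line under row `y`, columns `u..v`, whose two end faces touch the complement,
  separates
* **`no_pinch`** : `CA A`, `CC A` exclude diagonal contacts
* `baseT A u v q y` : the cells joined to `(q, y)` without crossing the line, `hangT` : the others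
-/

set_option autoImplicit false
set_option linter.unusedVariables false

noncomputable section

namespace Crest.Agent.R158.Hg896

open Crest.Agent.R158.Env664 (Adj4 Mac D mem_D div_iff Run CutAdj)
open Crest.Agent.R158.Xr249

variable {A : Finset (ℤ × ℤ)}

/-- edge connected -/
def CA (A : Finset (ℤ × ℤ)) : Prop := ∀ a ∈ A, ∀ b ∈ A, CPath {t | t ∈ A} a b

/-- edge connected complement -/
def CC (A : Finset (ℤ × ℤ)) : Prop := ∀ a ∉ A, ∀ b ∉ A, CPath {t | t ∉ A} a b

theorem CA.conn (h : CA A) : (full A).Conn := full_Conn h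

theorem exists_above (A : Finset (ℤ × ℤ)) : ∃ d : ℤ × ℤ, d ∉ A ∧ ∀ t ∈ A, t.2 ≤ d.2 := by
  obtain ⟨m, hm⟩ := (A.image Prod.snd).bddAbove
  refine ⟨(0, m + 1), fun h => ?_, fun t ht => ?_⟩
  · have := hm (Finset.mem_coe.2 (Finset.mem_image_of_mem Prod.snd h))
    simp only at this
    omega
  · have := hm (Finset.mem_coe.2 (Finset.mem_image_of_mem Prod.snd ht))
    simp only
    omega

theorem CC.sc (h : CC A) : (full A).SC := by
  obtain ⟨d, hd, hd2⟩ := exists_above A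
  exact full_SC fun c hc => ⟨d, h c hc d hd, hd2⟩

theorem _root_.Crest.Agent.R158.Env664.Mac.CA (M : Mac) : CA M.F := by
  intro a ha b hb
  exact M.conn a ha b hb

theorem _root_.Crest.Agent.R158.Env664.Mac.CC (M : Mac) : CC M.F := by
  intro a ha b hb
  exact M.cconn a ha b hb

/-- a face next to a tile outside `A` is joined to infinity -/
theorem out_of (hsc : (full A).SC) {c f : ℤ × ℤ} (hc : c ∉ A) (hf : Arnd c f) : (full A).Out f := by
  have h1 := arnd_out (x := c.1) (y := c.2) hc hf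
  obtain ⟨g, hg1, hg2⟩ : (full A).Out c := by
    refine hsc c.1 c.2 (Or.inl ?_)
    rw [full_h]
    exact fun h => hc h.1
  exact ⟨g, h1.trans hg1, hg2⟩

/-! ### a segment that separates -/

/-- **a crosscut separates**: the line under the row `y`, columns `u..v`, when its two end faces are
joined to infinity -/
theorem cut_sep (hsc : (full A).SC) {u v y x : ℤ} (o1 : (full A).Out (u - 1, y - 1))
    (o2 : (full A).Out (v, y - 1)) (hux : u ≤ x) (hxv : x ≤ v) (h3 : (x, y - 1) ∈ A)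
    (h4 : (x, y) ∈ A) : ¬ Relation.ReflTransGen (CutAdj A u v y) (x, y - 1) (x, y) := by
  intro h
  obtain ⟨N, hN, hN'⟩ := cut_walk h h3
  have hst : (full A).Stp (x, y) (x, y - 1) (fun _ => 0) := by
    have := Reg.Stp.down (R := full A) (a := x) (b := y - 1) ⟨h3, by simpa using h4⟩
    rwa [sub_add_cancel] at this
  have hcl := hN'.cons hst (by exact_mod_cast h3)
  have hz : ∀ {f : ℤ × ℤ}, (full A).Out f → N f = 0 := by
    intro f hf
    have := hcl.closed_out hf
    simpa using this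
  have step : ∀ a, u ≤ a + 1 → a + 1 ≤ v →
      N (a, y - 1) + N (a + 1, y - 1) = Reg.Cc (a + 1) (y - 1) (x, y - 1) +
        Reg.Cc (a + 1) (y - 1) (x, y) := by
    intro a h5 h6
    refine hN.hor (Or.inl ?_)
    rintro ⟨-, -, h7⟩
    exact h7 ⟨rfl, h5, h6⟩
  have s1 : ∀ n : ℕ, u - 1 + n ≤ v → N (u - 1 + n, y - 1) = if x ≤ u - 1 + n then 1 else 0 := by
    intro n
    induction n with
    | zero =>
      intro _
      rw [if_neg (by push_cast; omega)]
      simpa using hz o1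
    | succ n ih =>
      intro hn
      push_cast at hn
      have e1 := step (u - 1 + n) (by omega) (by omega)
      rw [ih (by omega)] at e1
      simp only [Reg.Cc] at e1
      rw [show u - 1 + ((n + 1 : ℕ) : ℤ) = u - 1 + n + 1 by push_cast; ring]
      have k1 : ¬ (x = u - 1 + ↑n + 1 ∧ y - 1 + 1 ≤ y - 1) := by omega
      rw [if_neg k1, zero_add] at e1
      have ea : ∀ a : ZMod 2, 1 + a = 0 → a = 1 := by decide
      have eb : ∀ a : ZMod 2, 0 + a = 0 → a = 0 := by decide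
      have ec : ∀ a : ZMod 2, 0 + a = 1 → a = 1 := by decide
      by_cases k2 : x ≤ u - 1 + n
      · rw [if_pos k2, if_neg (by omega)] at e1
        rw [if_pos (by omega)]
        exact ea _ e1
      · by_cases k3 : x = u - 1 + n + 1
        · rw [if_neg k2, if_pos ⟨k3, by omega⟩] at e1
          rw [if_pos (by omega)]
          exact ec _ e1
        · rw [if_neg k2, if_neg (by omega)] at e1
          rw [if_neg (by omega)]
          exact eb _ e1
  have s2 := s1 (v - (u - 1)).toNat (by omega)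
  rw [Int.toNat_of_nonneg (by omega), add_sub_cancel, if_pos hxv, hz o2] at s2
  exact zero_ne_one s2

/-! ### no pinch -/


/-- the crossing function of a closed walk is constant along a path of tiles outside the region,
on the faces around its tiles -/
theorem const_path {X : Finset (ℤ × ℤ)} {p : ℤ × ℤ} {N : ℤ × ℤ → ZMod 2} {Q : Set (ℤ × ℤ)}
    (hw : (full X).WN Q p p N) {c d : ℤ × ℤ} (h : CPath {t | t ∉ X} c d) (hc : c ∉ X) {f g : ℤ × ℤ}
    (hf : Arnd c f) (hg : Arnd d g) : N f = N g := by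
  have hN : ∀ {f g : ℤ × ℤ}, Relation.ReflTransGen (full X).FAdj f g → N f = N g := by
    intro f g h
    induction h with
    | refl => rfl
    | tail _ h4 ih => rw [ih, hw.closed_fadj h4]
  have hd : d ∉ X ∧ N c = N d := by
    clear hg
    induction h with
    | refl => exact ⟨hc, rfl⟩
    | tail _ h2 ih =>
      refine ⟨h2.2.2, ?_⟩
      rw [ih.2]
      exact hN (adj_out h2.1 h2.2.1 h2.2.2)
  rw [hN (arnd_out (x := c.1) (y := c.2) hc hf), hd.2,
    ← hN (arnd_out (x := d.1) (y := d.2) hd.1 hg)]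

theorem _root_.Crest.Agent.R158.Xr249.CPath.mono' {X Y : Set (ℤ × ℤ)} (h : X ⊆ Y) {a b : ℤ × ℤ}
    (hab : CPath X a b) : CPath Y a b := by
  induction hab with
  | refl => exact .refl
  | tail _ h2 ih => exact ih.tail ⟨h2.1, h h2.2.1, h h2.2.2⟩

/-- the part of a path before its first visit of the end point -/
theorem first_hit {X : Set (ℤ × ℤ)} {a b : ℤ × ℤ} (h : CPath X a b) (hab : a ≠ b) :
    ∃ c, CPath {t | t ∈ X ∧ t ≠ b} a c ∧ Adj4 c b ∧ c ∈ X ∧ c ≠ b := by
  induction h using Relation.ReflTransGen.head_induction_on with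
  | refl => exact absurd rfl hab
  | @head a c h1 h2 ih =>
    by_cases hc : c = b
    · subst hc
      exact ⟨a, .refl, h1.1, h1.2.1, hab⟩
    · obtain ⟨d, hd1, hd2⟩ := ih hc
      exact ⟨d, .head ⟨h1.1, ⟨h1.2.1, hab⟩, ⟨h1.2.2, hc⟩⟩ hd1, hd2⟩

/-- **no pinch**, first diagonal -/
theorem no_pinch (h1 : CA A) (h2 : CC A) {x y : ℤ} (h3 : (x, y) ∈ A) (h4 : (x + 1, y + 1) ∈ A) :
    (x + 1, y) ∈ A ∨ (x, y + 1) ∈ A := by
  by_contra hcon
  push Not at hcon
  obtain ⟨h5, h6⟩ := hcon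
  set X : Finset (ℤ × ℤ) := insert (x + 1, y) A with hX
  have hXi : ∀ t, t ∈ X ↔ t = (x + 1, y) ∨ t ∈ A := fun t => Finset.mem_insert
  have hAX : ∀ t, t ∈ A → t ∈ X := fun t ht => (hXi t).2 (Or.inr ht)
  -- the walk inside `A`, as a walk of `full X` that stays in `A`
  have key : ∀ {b : ℤ × ℤ}, CPath {t | t ∈ A} (x, y) b →
      ∃ N, (full X).WN (A : Set (ℤ × ℤ)) (x, y) b N := by
    intro b h
    induction h with
    | refl => exact ⟨0, .nil (by exact_mod_cast h3)⟩
    | @tail c d _ h2 ih =>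
      obtain ⟨N, hN⟩ := ih
      obtain ⟨g3, g4, g5⟩ := h2
      obtain ⟨x1, y1⟩ := c
      obtain ⟨x2, y2⟩ := d
      have g4' : (x1, y1) ∈ X := hAX _ g4
      have g5' : (x2, y2) ∈ X := hAX _ g5
      have hs : ∃ M, (full X).Stp (x1, y1) (x2, y2) M := by
        rcases g3 with ⟨e1, e2 | e2⟩ | ⟨e1, e2 | e2⟩ <;> simp only at e1 e2 <;> subst e1 e2
        · exact ⟨_, .up ⟨g4', g5'⟩⟩
        · exact ⟨_, .down ⟨g5', g4'⟩⟩
        · exact ⟨_, .right ⟨g4', g5'⟩⟩
        · exact ⟨_, .left ⟨g5', g4'⟩⟩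
      obtain ⟨M, hM⟩ := hs
      exact ⟨_, hN.cons hM g5⟩
  obtain ⟨N, hN⟩ := key (h1 _ h3 _ h4)
  have hX5 : (x + 1, y) ∈ X := (hXi _).2 (Or.inl rfl)
  have nA : (x + 1, y) ∉ (A : Set (ℤ × ℤ)) := fun h => h5 (by exact_mod_cast h)
  -- the two faces
  have e1 : N (x, y - 1) = N (x, y) := by
    have := hN.ver (x := x) (y := y - 1) (Or.inr (Or.inr (by rw [sub_add_cancel]; exact nA)))
    rwa [sub_add_cancel] at this
  have e2 : N (x, y - 1) + N (x + 1, y - 1) = 1 := by
    have := hN.hor (x := x) (y := y - 1) (Or.inr (Or.inr (by rw [sub_add_cancel]; exact nA)))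
    rw [this]
    have k1 : Reg.Cc (x + 1) (y - 1) (x, y) = 0 := if_neg fun h => by
      have := h.1
      simp only at this
      omega
    have k2 : Reg.Cc (x + 1) (y - 1) (x + 1, y + 1) = 1 := if_pos ⟨rfl, by simp only; omega⟩
    rw [k1, k2, zero_add]
  have s1 : (full X).Stp (x + 1, y + 1) (x + 1, y) (fun _ => 0) := .down ⟨hX5, hAX _ h4⟩
  have s2 : (full X).Stp (x + 1, y) (x, y)
      (fun f => if f.1 = x ∧ f.2 + 1 ≤ y then 1 else 0) := .left ⟨hAX _ h3, hX5⟩
  have hQ : (A : Set (ℤ × ℤ)) ⊆ (X : Set (ℤ × ℤ)) := fun t ht => by exact_mod_cast hAX t ht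
  have w1 := ((hN.mono hQ).cons s1 (by exact_mod_cast hX5)).cons s2 (by exact_mod_cast hAX _ h3)
  -- the path in the complement
  obtain ⟨c, hc1, hc2, hc3, hc4⟩ := first_hit (h2 _ h6 _ h5) (by simp)
  have hcX : ∀ t, t ∈ {t : ℤ × ℤ | t ∈ {t | t ∉ A} ∧ t ≠ (x + 1, y)} → t ∈ {t | t ∉ X} := by
    rintro t ⟨ht1, ht2⟩ ht3
    rcases (hXi t).1 ht3 with ht | ht
    · exact ht2 ht
    · exact ht1 ht
  have n6 : (x, y + 1) ∉ X := by
    intro ht
    rcases (hXi _).1 ht with ht | ht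
    · simp at ht
    · exact h6 ht
  have hgc : Arnd c (x + 1, y - 1) := by
    obtain ⟨cx, cy⟩ := c
    have f1 : ¬ (cx = x ∧ cy = y) := by rintro ⟨rfl, rfl⟩; exact hc3 h3
    have f2 : ¬ (cx = x + 1 ∧ cy = y + 1) := by rintro ⟨rfl, rfl⟩; exact hc3 h4
    unfold Adj4 at hc2
    unfold Arnd
    simp only at hc2 ⊢
    omega
  have e3 := const_path w1 (hc1.mono' hcX) n6 (f := (x, y)) (g := (x + 1, y - 1))
    ⟨Or.inl rfl, Or.inr (by simp)⟩ hgc
  have e4 : N (x, y) = N (x + 1, y - 1) := by simpa using e3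
  rw [e1, ← e4] at e2
  rw [Reg.two_eq] at e2
  exact zero_ne_one e2

/-- reflection in a vertical line -/
def rv (t : ℤ × ℤ) : ℤ × ℤ := (-t.1, t.2)

theorem rv_rv (t : ℤ × ℤ) : rv (rv t) = t := by unfold rv; simp

theorem rv_inj : Function.Injective rv := fun s t h => by rw [← rv_rv s, h, rv_rv]

/-- reflected set -/
def rvA (A : Finset (ℤ × ℤ)) : Finset (ℤ × ℤ) := A.map ⟨rv, rv_inj⟩

theorem mem_rvA {t : ℤ × ℤ} : t ∈ rvA A ↔ rv t ∈ A := by
  unfold rvA
  rw [Finset.mem_map]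
  constructor
  · rintro ⟨s, hs, rfl⟩
    show rv (rv s) ∈ A
    rwa [rv_rv]
  · intro h
    exact ⟨rv t, h, rv_rv t⟩

theorem cpath_rv {X Y : Set (ℤ × ℤ)} (h : ∀ t, t ∈ X → rv t ∈ Y) {a b : ℤ × ℤ} (hab : CPath X a b) :
    CPath Y (rv a) (rv b) := by
  induction hab with
  | refl => exact .refl
  | tail _ h2 ih =>
    refine ih.tail ⟨?_, h _ h2.2.1, h _ h2.2.2⟩
    have := h2.1
    unfold Adj4 at this ⊢
    unfold rv
    simp only
    omega

theorem CA.rv (h : CA A) : CA (rvA A) := by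
  intro a ha b hb
  have := cpath_rv (Y := {t | t ∈ rvA A}) (fun t ht => by
    show Hg896.rv t ∈ rvA A
    rw [mem_rvA, rv_rv]; exact ht) (h _ (mem_rvA.1 ha) _ (mem_rvA.1 hb))
  rwa [rv_rv, rv_rv] at this

theorem CC.rv (h : CC A) : CC (rvA A) := by
  intro a ha b hb
  rw [mem_rvA] at ha hb
  have := cpath_rv (Y := {t | t ∉ rvA A}) (fun t ht => by
    show Hg896.rv t ∉ rvA A
    rw [mem_rvA, rv_rv]; exact ht) (h _ ha _ hb)
  rwa [rv_rv, rv_rv] at this

/-- **no pinch**, second diagonal -/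
theorem no_pinch' (h1 : CA A) (h2 : CC A) {x y : ℤ} (h3 : (x + 1, y) ∈ A) (h4 : (x, y + 1) ∈ A) :
    (x, y) ∈ A ∨ (x + 1, y + 1) ∈ A := by
  have e1 : (-(x + 1), y) ∈ rvA A := by
    rw [mem_rvA]
    unfold Hg896.rv
    rw [neg_neg]
    exact h3
  have e2 : (-(x + 1) + 1, y + 1) ∈ rvA A := by
    rw [mem_rvA]
    unfold Hg896.rv
    simpa using h4
  rcases no_pinch h1.rv h2.rv e1 e2 with h | h
  · left
    rw [mem_rvA] at h
    unfold Hg896.rv at h
    simpa using h
  · right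
    rw [mem_rvA] at h
    unfold Hg896.rv at h
    simpa using h

end Crest.Agent.R158.Hg896
end
end

-- ▼ part R158/Hg2_896

/-!
# Row 158, BL (helper896), file Hg2: leaf (B1) = macroscopic hanging parts

* `baseT A u v y q` : the cells of `A` joined to `q` without crossing the line under the row `y` in the
  columns `u..v`
* **`hang_up`**, **`hang_dn`** : `Hb656.Hang` with the two runs outside `H`
* `Hang.adj` : neighbours in `F` of a cell of `H`
* `Hang.joined` : every cell of `H` is joined inside `H` to the crosscut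
* `hang_CA`, `hang_CC` : the base part is connected with connected complement
-/

set_option autoImplicit false
set_option linter.unusedVariables false

noncomputable section

namespace Crest.Agent.R158.Hg896

open Crest.Agent.R158.Env664 (Adj4 Mac D mem_D div_iff Run CutAdj)
open Crest.Agent.R158.Xr249
open Crest.Agent.R158.Hb656 (Hang)

variable {A : Finset (ℤ × ℤ)}

open Classical in
/-- the cells joined to `q` without crossing the line under the row `y`, columns `u..v` -/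
def baseT (A : Finset (ℤ × ℤ)) (u v y : ℤ) (q : ℤ × ℤ) : Finset (ℤ × ℤ) :=
  A.filter fun t => Relation.ReflTransGen (CutAdj A u v y) q t

theorem mem_baseT {u v y : ℤ} {q t : ℤ × ℤ} :
    t ∈ baseT A u v y q ↔ t ∈ A ∧ Relation.ReflTransGen (CutAdj A u v y) q t := by
  classical
  unfold baseT
  rw [Finset.mem_filter]

theorem base_step {u v y : ℤ} {q s t : ℤ × ℤ} (hs : s ∈ baseT A u v y q) (h : CutAdj A u v y s t) :
    t ∈ baseT A u v y q := mem_baseT.2 ⟨h.2.2.1, (mem_baseT.1 hs).2.tail h⟩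

/-- horizontal steps are never cut -/
theorem base_hor {u v y : ℤ} {q : ℤ × ℤ} {a b : ℤ} (h1 : (a, b) ∈ A) (h2 : (a + 1, b) ∈ A) :
    (a, b) ∈ baseT A u v y q ↔ (a + 1, b) ∈ baseT A u v y q := by
  have hc : CutAdj A u v y (a, b) (a + 1, b) :=
    ⟨Or.inr ⟨rfl, Or.inl rfl⟩, h1, h2, by simp only; omega⟩
  exact ⟨fun h => base_step h hc, fun h => base_step h (CutAdj.symm hc)⟩

/-- vertical steps away from the cut -/
theorem base_ver {u v y : ℤ} {q : ℤ × ℤ} {a b : ℤ} (h1 : (a, b - 1) ∈ A) (h2 : (a, b) ∈ A)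
    (h : ¬ (b = y ∧ u ≤ a ∧ a ≤ v)) :
    (a, b - 1) ∈ baseT A u v y q ↔ (a, b) ∈ baseT A u v y q := by
  have hc : CutAdj A u v y (a, b - 1) (a, b) :=
    ⟨Or.inl ⟨rfl, Or.inl (by simp)⟩, h1, h2, by simp only; omega⟩
  exact ⟨fun h => base_step h hc, fun h => base_step h (CutAdj.symm hc)⟩

/-- a row segment lies in one part -/
theorem base_row {u v y : ℤ} {q : ℤ × ℤ} {a b j : ℤ} (hm : ∀ x, a ≤ x → x ≤ b → (x, j) ∈ A)
    {x x' : ℤ} (h1 : a ≤ x) (h2 : x ≤ b) (h3 : a ≤ x') (h4 : x' ≤ b)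
    (h : (x, j) ∈ baseT A u v y q) : (x', j) ∈ baseT A u v y q := by
  have up : ∀ n : ℕ, x + n ≤ b → (x + n, j) ∈ baseT A u v y q := by
    intro n
    induction n with
    | zero => intro _; simpa using h
    | succ n ih =>
      intro hn
      push_cast at hn
      have := (base_hor (hm (x + n) (by omega) (by omega))
        (hm (x + n + 1) (by omega) (by omega))).1 (ih (by omega))
      rwa [show x + ((n + 1 : ℕ) : ℤ) = x + n + 1 by push_cast; ring]
  have dn : ∀ n : ℕ, a ≤ x - n → (x - n, j) ∈ baseT A u v y q := by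
    intro n
    induction n with
    | zero => intro _; simpa using h
    | succ n ih =>
      intro hn
      push_cast at hn
      have := (base_hor (hm (x - (n + 1)) (by omega) (by omega))
        (hm (x - (n + 1) + 1) (by omega) (by omega))).2 (by
          rw [show x - ((n : ℤ) + 1) + 1 = x - n by ring]
          exact ih (by omega))
      rwa [show x - ((n + 1 : ℕ) : ℤ) = x - (n + 1) by push_cast; ring]
  rcases le_total x x' with hx | hx
  · have := up (x' - x).toNat (by omega)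
    rwa [Int.toNat_of_nonneg (by omega), add_sub_cancel] at this
  · have := dn (x - x').toNat (by omega)
    rwa [Int.toNat_of_nonneg (by omega), sub_sub_cancel] at this

/-- the part behind the cut, common construction -/
theorem hang_common {q : ℤ × ℤ} {u v k : ℤ} (up : Bool)
    (hcut : ∀ a : ℤ, u ≤ a → a ≤ v →
      if up then (a, k - 1) ∈ baseT A u v k q ∧ ((a, k) ∈ A → (a, k) ∉ baseT A u v k q)
      else (a, k) ∈ baseT A u v k q ∧ ((a, k - 1) ∈ A → (a, k - 1) ∉ baseT A u v k q)) :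
    Hang A (A \ baseT A u v k q) k u v up where
  sub := Finset.sdiff_subset
  hor := by
    rintro a b (⟨h1, h2⟩ | ⟨h1, h2⟩)
    · refine ⟨h1, ?_⟩
      rw [Finset.mem_sdiff] at h1 ⊢
      exact ⟨h2, fun h => h1.2 ((base_hor h1.1 h2).2 h)⟩
    · refine ⟨?_, h2⟩
      rw [Finset.mem_sdiff] at h2 ⊢
      exact ⟨h1, fun h => h2.2 ((base_hor h1 h2.1).1 h)⟩
  ver := by
    intro a b h1 h2
    by_cases h : b = k ∧ u ≤ a ∧ a ≤ v
    · exact Or.inr h
    · left
      rw [Finset.mem_sdiff, Finset.mem_sdiff, base_ver h1 h2 h]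
      simp only [h1, h2, true_and]
  cut := by
    intro a h1 h2
    have h := hcut a h1 h2
    cases up
    · simp only [Bool.false_eq_true, if_false] at h ⊢
      refine ⟨(mem_baseT.1 h.1).1, fun h3 => (Finset.mem_sdiff.1 h3).2 h.1, fun h3 => ?_⟩
      exact Finset.mem_sdiff.2 ⟨h3, h.2 h3⟩
    · simp only [if_true] at h ⊢
      refine ⟨(mem_baseT.1 h.1).1, fun h3 => (Finset.mem_sdiff.1 h3).2 h.1, fun h3 => ?_⟩
      exact Finset.mem_sdiff.2 ⟨h3, h.2 h3⟩


/-- **the part hanging above the lower run, right of the upper run** -/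
theorem hang_up (hsc : (full A).SC) {a b a' b' k q : ℤ} (hl : Run A a b (k - 1)) (hu : Run A a' b' k)
    (h1 : a ≤ q) (h2 : q ≤ b) (h3 : a' ≤ q) (h4 : q ≤ b') (hb : b' < b) :
    Hang A (A \ baseT A (b' + 1) b k (q, k)) k (b' + 1) b true ∧
      (∀ i, a ≤ i → i ≤ b → (i, k - 1) ∈ baseT A (b' + 1) b k (q, k)) ∧
      ∀ i, a' ≤ i → i ≤ b' → (i, k) ∈ baseT A (b' + 1) b k (q, k) := by
  have hq : (q, k) ∈ baseT A (b' + 1) b k (q, k) := mem_baseT.2 ⟨hu.mem q h3 h4, .refl⟩
  have hq' : (q, k - 1) ∈ baseT A (b' + 1) b k (q, k) :=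
    (base_ver (hl.mem q h1 h2) (hu.mem q h3 h4) (by omega)).2 hq
  have hlow : ∀ i, a ≤ i → i ≤ b → (i, k - 1) ∈ baseT A (b' + 1) b k (q, k) :=
    fun i h5 h6 => base_row (fun x hx1 hx2 => hl.mem x hx1 hx2) h1 h2 h5 h6 hq'
  have hupp : ∀ i, a' ≤ i → i ≤ b' → (i, k) ∈ baseT A (b' + 1) b k (q, k) :=
    fun i h5 h6 => base_row (fun x hx1 hx2 => hu.mem x hx1 hx2) h3 h4 h5 h6 hq
  have o1 : (full A).Out (b' + 1 - 1, k - 1) := by
    exact out_of hsc hu.right ⟨Or.inr rfl, Or.inr rfl⟩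
  have o2 : (full A).Out (b, k - 1) := by
    exact out_of hsc hl.right ⟨Or.inr (by simp), Or.inl rfl⟩
  refine ⟨hang_common true fun i h5 h6 => ?_, hlow, hupp⟩
  simp only [if_true]
  refine ⟨hlow i (by omega) h6, fun h7 h8 => ?_⟩
  refine cut_sep hsc o1 o2 h5 h6 (hl.mem i (by omega) h6) h7 ?_
  exact (cut_symm (mem_baseT.1 (hlow i (by omega) h6)).2).trans (mem_baseT.1 h8).2

/-- **the part hanging below the upper run, right of the lower run** -/
theorem hang_dn (hsc : (full A).SC) {a b a' b' k q : ℤ} (hl : Run A a b (k - 1)) (hu : Run A a' b' k)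
    (h1 : a ≤ q) (h2 : q ≤ b) (h3 : a' ≤ q) (h4 : q ≤ b') (hb : b < b') :
    Hang A (A \ baseT A (b + 1) b' k (q, k)) k (b + 1) b' false ∧
      (∀ i, a ≤ i → i ≤ b → (i, k - 1) ∈ baseT A (b + 1) b' k (q, k)) ∧
      ∀ i, a' ≤ i → i ≤ b' → (i, k) ∈ baseT A (b + 1) b' k (q, k) := by
  have hq : (q, k) ∈ baseT A (b + 1) b' k (q, k) := mem_baseT.2 ⟨hu.mem q h3 h4, .refl⟩
  have hq' : (q, k - 1) ∈ baseT A (b + 1) b' k (q, k) :=
    (base_ver (hl.mem q h1 h2) (hu.mem q h3 h4) (by omega)).2 hq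
  have hlow : ∀ i, a ≤ i → i ≤ b → (i, k - 1) ∈ baseT A (b + 1) b' k (q, k) :=
    fun i h5 h6 => base_row (fun x hx1 hx2 => hl.mem x hx1 hx2) h1 h2 h5 h6 hq'
  have hupp : ∀ i, a' ≤ i → i ≤ b' → (i, k) ∈ baseT A (b + 1) b' k (q, k) :=
    fun i h5 h6 => base_row (fun x hx1 hx2 => hu.mem x hx1 hx2) h3 h4 h5 h6 hq
  have o1 : (full A).Out (b + 1 - 1, k - 1) := by
    exact out_of hsc hl.right ⟨Or.inr rfl, Or.inl rfl⟩
  have o2 : (full A).Out (b', k - 1) := by
    exact out_of hsc hu.right ⟨Or.inr (by simp), Or.inr rfl⟩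
  refine ⟨hang_common false fun i h5 h6 => ?_, hlow, hupp⟩
  simp only [Bool.false_eq_true, if_false]
  refine ⟨hupp i (by omega) h6, fun h7 h8 => ?_⟩
  refine cut_sep hsc o1 o2 h5 h6 h7 (hu.mem i (by omega) h6) ?_
  exact (cut_symm (mem_baseT.1 h8).2).trans (mem_baseT.1 (hupp i (by omega) h6)).2

/-! ### consequences of `Hang` -/

section

variable {F H : Finset (ℤ × ℤ)} {k i0 i1 : ℤ} {up : Bool}

/-- a neighbour in `F` of a cell of `H` is in `H`, except through the crosscut -/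
theorem _root_.Crest.Agent.R158.Hb656.Hang.adj (h : Hang F H k i0 i1 up) {s t : ℤ × ℤ} (hs : s ∈ H)
    (ht : t ∈ F) (hst : Adj4 s t) : t ∈ H ∨ (i0 ≤ s.1 ∧ s.1 ≤ i1 ∧ t.1 = s.1 ∧
      if up then s.2 = k ∧ t.2 = k - 1 else s.2 = k - 1 ∧ t.2 = k) := by
  obtain ⟨x, y⟩ := s
  obtain ⟨x', y'⟩ := t
  rcases hst with ⟨e1, e2 | e2⟩ | ⟨e1, e2 | e2⟩ <;> simp only at e1 e2 <;> subst e1 e2
  · -- t above s
    have h1 := h.ver x (y + 1) (by rw [add_sub_cancel_right]; exact h.sub hs) ht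
    rw [add_sub_cancel_right] at h1
    rcases h1 with h1 | ⟨h1, h2, h3⟩
    · exact Or.inl (h1.1 hs)
    · by_cases ht' : (x, y + 1) ∈ H
      · exact Or.inl ht'
      · right
        have h4 := h.cut x h2 h3
        cases up
        · simp only [Bool.false_eq_true, if_false] at h4 ⊢
          exact ⟨h2, h3, trivial, by omega, by omega⟩
        · simp only [if_true] at h4
          exact absurd hs (by rw [show y = k - 1 by omega]; exact h4.2.1)
  · -- t below s
    have h1 := h.ver x (y' + 1) (by rw [add_sub_cancel_right]; exact ht) (h.sub hs)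
    rw [add_sub_cancel_right] at h1
    rcases h1 with h1 | ⟨h1, h2, h3⟩
    · exact Or.inl (h1.2 hs)
    · by_cases ht' : (x, y') ∈ H
      · exact Or.inl ht'
      · right
        have h4 := h.cut x h2 h3
        cases up
        · simp only [Bool.false_eq_true, if_false] at h4
          exact absurd hs (by rw [h1]; exact h4.2.1)
        · simp only [if_true] at h4 ⊢
          exact ⟨h2, h3, trivial, by omega, by omega⟩
  · exact Or.inl (h.hor x y (Or.inl ⟨hs, ht⟩)).2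
  · exact Or.inl (h.hor x' y (Or.inr ⟨ht, hs⟩)).1


end

/-! ### the literal leaf (B1) -/

/-- **(B1), above the lower run** -/
theorem mac_hang_up (M : Mac) {a b a' b' k q : ℤ} (hl : Run M.F a b (k - 1)) (hu : Run M.F a' b' k)
    (h1 : a ≤ q) (h2 : q ≤ b) (h3 : a' ≤ q) (h4 : q ≤ b') (hb : b' < b) :
    ∃ H, Hang M.F H k (b' + 1) b true ∧ (∀ i, a ≤ i → i ≤ b → (i, k - 1) ∉ H) ∧
      ∀ i, a' ≤ i → i ≤ b' → (i, k) ∉ H := by
  obtain ⟨g1, g2, g3⟩ := hang_up M.CC.sc hl hu h1 h2 h3 h4 hb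
  exact ⟨_, g1, fun i h5 h6 h7 => (Finset.mem_sdiff.1 h7).2 (g2 i h5 h6),
    fun i h5 h6 h7 => (Finset.mem_sdiff.1 h7).2 (g3 i h5 h6)⟩

/-- **(B1), below the upper run** -/
theorem mac_hang_dn (M : Mac) {a b a' b' k q : ℤ} (hl : Run M.F a b (k - 1)) (hu : Run M.F a' b' k)
    (h1 : a ≤ q) (h2 : q ≤ b) (h3 : a' ≤ q) (h4 : q ≤ b') (hb : b < b') :
    ∃ H, Hang M.F H k (b + 1) b' false ∧ (∀ i, a ≤ i → i ≤ b → (i, k - 1) ∉ H) ∧
      ∀ i, a' ≤ i → i ≤ b' → (i, k) ∉ H := by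
  obtain ⟨g1, g2, g3⟩ := hang_dn M.CC.sc hl hu h1 h2 h3 h4 hb
  exact ⟨_, g1, fun i h5 h6 h7 => (Finset.mem_sdiff.1 h7).2 (g2 i h5 h6),
    fun i h5 h6 h7 => (Finset.mem_sdiff.1 h7).2 (g3 i h5 h6)⟩

/-- no pinch, in 656's form -/
theorem mac_no_pinch (M : Mac) (a b : ℤ) :
    ¬ ((a, b) ∈ M.F ∧ (a + 1, b + 1) ∈ M.F ∧ (a + 1, b) ∉ M.F ∧ (a, b + 1) ∉ M.F) := by
  rintro ⟨h1, h2, h3, h4⟩
  rcases no_pinch M.CA M.CC h1 h2 with h | h
  · exact h3 h
  · exact h4 h

theorem mac_no_pinch' (M : Mac) (a b : ℤ) :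
    ¬ ((a + 1, b) ∈ M.F ∧ (a, b + 1) ∈ M.F ∧ (a, b) ∉ M.F ∧ (a + 1, b + 1) ∉ M.F) := by
  rintro ⟨h1, h2, h3, h4⟩
  rcases no_pinch' M.CA M.CC h1 h2 with h | h
  · exact h3 h
  · exact h4 h

/-! ### the tile level -/


end Crest.Agent.R158.Hg896
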