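import Mathlib
import Crest.Agent.R158.Ts9_405

-- ▼ part R158/Hp2_854
section

/-!
# R158, block HP1 (helper854), part 2: the six-vertex sum on a cut cylinder by reflection

* `sum_cls_cos` : sum over the functions constant on the classes of an equivalence relation
* `rv c`, `re c` : reflection `y ↦ c - y` of vertices and edges (`c` odd)
* `Ct M L H` : tiles of the cylinder (rows `1..H`, `L = 2 H`), `Xt x` symmetric extension to the torus
* `Zc c` : six-vertex sum over reflection invariant flips, `Zc_neg`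
* `Zc_eq` : `Zc c = ∑ x, ∏ classes, 2 cos (∑ e in class, (π/24 * turn e + c e))`
-/

set_option autoImplicit false
set_option linter.unusedSectionVars false
set_option linter.unusedSimpArgs false

namespace Crest.Agent.R158.Hp854

open Finset Complex
open Crest.Agent.R158.Bk430

section Cls

variable {E : Type*} [Fintype E] [DecidableEq E]

open Classical in
theorem sum_cls (r : Setoid E) (F : (E → Bool) → ℂ) :
    ∑ f : E → Bool, (if ∀ a b, r a b → f a = f b then F f else 0) =
      ∑ g : Quotient r → Bool, F (fun e => g (Quotient.mk r e)) := by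
  rw [← Finset.sum_filter]
  symm
  refine Finset.sum_nbij' (i := fun g => fun e => g (Quotient.mk r e))
    (j := fun f => fun q => f q.out) ?_ ?_ ?_ ?_ ?_
  · intro g _
    rw [mem_filter]
    refine ⟨mem_univ _, fun a b hab => ?_⟩
    have : (Quotient.mk r a) = Quotient.mk r b := Quotient.sound hab
    simp only [this]
  · intro f _; exact mem_univ _
  · intro g _
    funext q
    simp only [Quotient.out_eq]
  · intro f hf
    rw [mem_filter] at hf
    funext e
    exact hf.2 _ _ (Quotient.exact (Quotient.out_eq (Quotient.mk r e)))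
  · intro g _; rfl

open Classical in
theorem sum_cls_cos (r : Setoid E) (a : E → ℝ) :
    ∑ f : E → Bool, (if ∀ a b, r a b → f a = f b then
      Complex.exp (I * ((∑ e, a e * (sgb (f e) : ℤ) : ℝ) : ℂ)) else 0) =
      ((∏ c : Quotient r, 2 * Real.cos (∑ e with Quotient.mk r e = c, a e) : ℝ) : ℂ) := by
  rw [sum_cls r (fun f => Complex.exp (I * ((∑ e, a e * (sgb (f e) : ℤ) : ℝ) : ℂ)))]
  have h1 : ∀ g : Quotient r → Bool, Complex.exp (I * ((∑ e, a e * (sgb (g (Quotient.mk r e)) : ℤ) : ℝ) : ℂ))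
      = ∏ c : Quotient r, Complex.exp (I * ((∑ e with Quotient.mk r e = c, a e : ℝ) * (sgb (g c) : ℤ))) := by
    intro g
    rw [← Complex.exp_sum, ← Finset.mul_sum]
    congr 2
    rw [← Finset.sum_fiberwise (s := univ) (g := fun e => Quotient.mk r e)]
    push_cast
    refine Finset.sum_congr rfl fun c _ => ?_
    rw [Finset.sum_mul]
    refine Finset.sum_congr rfl fun e he => ?_
    rw [mem_filter] at he
    rw [he.2]
  simp_rw [h1]
  have h4 := Finset.prod_univ_sum (fun _ : Quotient r => (univ : Finset Bool))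
    (fun c b => Complex.exp (I * ((∑ e with Quotient.mk r e = c, a e : ℝ) * (sgb b : ℤ))))
  rw [Fintype.piFinset_univ] at h4
  rw [← h4, Complex.ofReal_prod]
  exact Finset.prod_congr rfl fun l _ => exp_sgb_sum _

end Cls

/-! ### reflection -/

section Refl

variable {A B : Type*} [CommRing A] [CommRing B] [HasPar A] [HasPar B]

/-- reflection of the vertices -/
def rv (c : B) (v : A × B) : A × B := (v.1, c - v.2)

/-- reflection of the edges -/
def re (c : B) (e : ME A B) : ME A B :=
  if e.2 then ((e.1.1, c - 1 - e.1.2), true) else ((e.1.1, c - e.1.2), false)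

/-- `c` is odd -/
def OddC (c : B) : Prop := ∀ y : B, par (c - y) = !par y

omit [HasPar A] [HasPar B] in
@[simp] theorem rv_rv (c : B) (v : A × B) : rv c (rv c v) = v := by
  simp [rv]

omit [HasPar A] [HasPar B] in
@[simp] theorem re_re (c : B) (e : ME A B) : re c (re c e) = e := by
  obtain ⟨⟨a, b⟩, d⟩ := e
  cases d <;> simp [re]

theorem vp_rv {c : B} (hc : OddC c) (v : A × B) : vp (rv c v) = !vp v := by
  simp [vp, rv, hc v.2]

theorem rv_ne {c : B} (hc : OddC c) (v : A × B) : rv c v ≠ v := by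
  intro h
  have h1 := vp_rv hc v
  rw [h] at h1
  cases hv : vp v <;> rw [hv] at h1 <;> simp at h1

theorem par_c1 {c : B} (hc : OddC c) (y : B) : par (c - 1 - y) = par y := by
  have h := hc (y + 1)
  rw [par_add_one, Bool.not_not] at h
  rw [← h]; congr 1; ring

theorem hd_re {c : B} (hc : OddC c) (e : ME A B) : hd (re c e) = rv c (tl e) := by
  obtain ⟨⟨a, b⟩, d⟩ := e
  cases d
  · have h := vp_rv hc (a, b)
    simp only [rv] at h
    cases hv : vp (a, b) <;> rw [hv] at h <;> simp [hd, tl, re, rv, hv, h]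
  · have h : vp (a, c - 1 - b) = vp (a, b) := by
      simp only [vp]; rw [par_c1 hc]
    cases hv : vp (a, b) <;> rw [hv] at h <;> simp [hd, tl, re, rv, hv, h] <;> ring

theorem tl_re {c : B} (hc : OddC c) (e : ME A B) : tl (re c e) = rv c (hd e) := by
  have h := hd_re hc (re c e)
  rw [re_re] at h
  rw [h, rv_rv]

theorem nx_re {c : B} (hc : OddC c) {s : A × B → Bool} (hs : ∀ v, s (rv c v) = !s v) (e : ME A B) :
    nx s (re c (nx s e)) = re c e := by
  obtain ⟨⟨a, b⟩, d⟩ := e
  have h0 := vp_rv hc (a, b)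
  have h1 := vp_rv hc (a + 1, b)
  have h2 := vp_rv hc (a, b + 1)
  have g0 := hs (a, b)
  have g1 := hs (a + 1, b)
  have g2 := hs (a, b + 1)
  simp only [rv, vp_add_fst, vp_add_snd] at h0 h1 h2 g0 g1 g2
  have i1 : ∀ x : A, vp (x, c - 1 - b) = vp (x, b) := fun x => by
    simp only [vp]; rw [par_c1 hc]
  have i2 : ∀ x : A, vp (x, c - (b + 1)) = vp (x, b) := fun x => by
    have := vp_rv hc (x, b + 1)
    simp only [rv, vp_add_snd, Bool.not_not] at this
    exact this
  have i3 : ∀ x : A, vp (x, c - b) = !vp (x, b) := fun x => by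
    have := vp_rv hc (x, b)
    simp only [rv] at this
    exact this
  have i4 : ∀ x : A, vp (x, c - 1 - (b + 1)) = !vp (x, b) := fun x => by
    rw [show c - 1 - (b + 1) = c - 1 - b - 1 by ring, vp_sub_snd, i1]
  have e1 : c - 1 - b + 1 = c - b := by ring
  have e2 : c - (b + 1) = c - 1 - b := by ring
  have e3 : c - 1 - (b - 1) = c - b := by ring
  have e4 : c - 1 - (b + 1) + 1 = c - 1 - b := by ring
  have e5 : c - b - 1 = c - 1 - b := by ring
  rw [e2] at g2
  cases d <;> cases hv : vp (a, b) <;> simp only [nx, hd, hv] <;>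
    simp only [Bool.false_eq_true, if_false, if_true, Bool.not_false, Bool.not_true]
  all_goals
    cases hs0 : s (a, b) <;> cases hs1 : s (a + 1, b) <;> cases hs2 : s (a, b + 1) <;>
      simp only [hs0, hs1, hs2, Bool.not_false, Bool.not_true] at g0 g1 g2 <;>
      simp_all [re, nx, hd]

theorem turn_re {c : B} (hc : OddC c) {s : A × B → Bool} (hs : ∀ v, s (rv c v) = !s v) (e : ME A B) :
    turn s (re c (nx s e)) = turn s e := by
  unfold turn kap
  rw [hd_re hc, tl_nx, hs, vp_rv hc]
  cases s (hd e) <;> cases vp (hd e) <;> rfl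

theorem iter_re {c : B} (hc : OddC c) {s : A × B → Bool} (hs : ∀ v, s (rv c v) = !s v) (e : ME A B)
    (k : ℕ) : (nx s)^[k] (re c ((nx s)^[k] e)) = re c e := by
  induction k generalizing e with
  | zero => rfl
  | succ k ih =>
    rw [Function.iterate_succ_apply' (n := k) (f := nx s) (x := e)]
    rw [Function.iterate_succ_apply, nx_re hc hs, ih]

end Refl

theorem oddC_int (a : ℤ) : OddC (2 * a + 1 : ℤ) := by
  intro y
  show decide _ = !decide _
  by_cases h : y % 2 = 1
  · have : ¬ ((2 * a + 1 - y) % 2 = 1) := by omega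
    simp [h, this]
  · have : ((2 * a + 1 - y) % 2 = 1) := by omega
    simp [h, this]

/-! ### the cylinder -/

section Cyl

variable (M L H : ℕ) [NeZero M] [NeZero L] [Fact (Even M)] [Fact (Even L)]

theorem oddC_zmod : OddC (1 : ZMod L) := by
  intro y
  have h1 : y = ((y.val : ℤ) : ZMod L) := by simp
  rw [h1]
  have h2 : (1 : ZMod L) - ((y.val : ℤ) : ZMod L) = ((1 - (y.val : ℤ) : ℤ) : ZMod L) := by push_cast; ring
  rw [h2, par_intCast, par_intCast]
  have := oddC_int 0 (y.val : ℤ)
  simpa using this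

/-- tiles of the cylinder -/
def InC (v : ZMod M × ZMod L) : Prop := 1 ≤ v.2.val ∧ v.2.val ≤ H

instance : DecidablePred (InC M L H) := fun v => by unfold InC; infer_instance

/-- the tiles of the cylinder as a type -/
abbrev Ct : Type := {v : ZMod M × ZMod L // InC M L H v}

variable {M L H}

omit [NeZero M] [Fact (Even M)] [Fact (Even L)] in
theorem inC_rv (hL : L = 2 * H) (v : ZMod M × ZMod L) : InC M L H (rv 1 v) ↔ ¬ InC M L H v := by
  obtain ⟨a, y⟩ := v
  unfold InC rv
  simp only
  have hpos : 0 < L := Nat.pos_of_ne_zero (NeZero.ne L)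
  have hy := y.val_lt
  have h1 : y = ((y.val : ℕ) : ZMod L) := by simp
  have h2 : ((1 : ZMod L) - y).val = (L + 1 - y.val) % L := by
    have h3 : (1 : ZMod L) - y = ((L + 1 - y.val : ℕ) : ZMod L) := by
      rw [Nat.cast_sub (by omega)]
      push_cast
      simp
    rw [h3, ZMod.val_natCast]
  rw [h2]
  rcases Nat.lt_or_ge (y.val) 2 with h | h
  · have : y.val = 0 ∨ y.val = 1 := by omega
    rcases this with h | h
    · rw [h]
      have : (L + 1 - 0) % L = 1 := by
        rw [show L + 1 - 0 = 1 + L by omega, Nat.add_mod_right, Nat.mod_eq_of_lt (by omega)]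
      rw [this]; omega
    · rw [h]
      have : (L + 1 - 1) % L = 0 := by simp
      rw [this]; omega
  · rw [Nat.mod_eq_of_lt (by omega)]
    omega

/-- symmetric extension of a field on the cylinder -/
def Xt (hL : L = 2 * H) (x : Ct M L H → Bool) (v : ZMod M × ZMod L) : Bool :=
  if h : InC M L H v then x ⟨v, h⟩ else x ⟨rv 1 v, (inC_rv hL v).2 h⟩

omit [NeZero M] [Fact (Even M)] [Fact (Even L)] in
theorem Xt_rv (hL : L = 2 * H) (x : Ct M L H → Bool) (v : ZMod M × ZMod L) :
    Xt hL x (rv 1 v) = Xt hL x v := by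
  unfold Xt
  by_cases h : InC M L H v
  · have h2 : ¬ InC M L H (rv 1 v) := fun h3 => (inC_rv hL v).1 h3 h
    rw [dif_pos h, dif_neg h2]
    congr 1
    exact Subtype.ext (rv_rv 1 v)
  · rw [dif_neg h, dif_pos ((inC_rv hL v).2 h)]

/-- splitting of a field: `true` = the even faces are joined -/
def spx {A B : Type*} [AddGroupWithOne A] [AddGroupWithOne B] [HasPar A] [HasPar B]
    (X : A × B → Bool) (v : A × B) : Bool := xor (!X v) (vp v)


theorem spx_rv {A B : Type*} [CommRing A] [CommRing B] [HasPar A] [HasPar B] {c : B} (hc : OddC c)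
    {X : A × B → Bool} (hX : ∀ v, X (rv c v) = X v) (v : A × B) : spx X (rv c v) = !spx X v := by
  unfold spx
  rw [hX, vp_rv hc]
  cases X v <;> cases vp v <;> rfl

omit [Fact (Even M)] [Fact (Even L)] in
theorem prod_cyl {R : Type*} [CommMonoid R] (hL : L = 2 * H) (g : ZMod M × ZMod L → R) :
    ∏ v, g v = ∏ v : Ct M L H, g v.1 * g (rv 1 v.1) := by
  rw [Finset.prod_mul_distrib, ← Fintype.prod_subtype_mul_prod_subtype (InC M L H) g]
  congr 1
  refine Fintype.prod_equiv
    (⟨fun v => ⟨rv 1 v.1, (inC_rv hL v.1).2 v.2⟩, fun v => ⟨rv 1 v.1, fun h => (inC_rv hL v.1).1 h v.2⟩,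
      fun v => Subtype.ext (rv_rv 1 v.1), fun v => Subtype.ext (rv_rv 1 v.1)⟩ :
      {v : ZMod M × ZMod L // ¬ InC M L H v} ≃ Ct M L H) _ _ fun v => ?_
  simp

end Cyl

end Crest.Agent.R158.Hp854
end

-- ▼ part R158/Hp3_854
section

/-!
# R158, block HP1 (helper854), part 3: the six-vertex sum on a cut cylinder = sum over fields of a
product over the classes of strands
-/

set_option autoImplicit false
set_option linter.unusedSectionVars false
set_option linter.unusedSimpArgs false

namespace Crest.Agent.R158.Hp854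

open Finset Complex
open Crest.Agent.R158.Bk430

section Dih

variable {E : Type*}

/-- `R` is an involution that reverses `P` -/
structure Dih (P : Equiv.Perm E) (R : E → E) : Prop where
  inv : ∀ e, R (R e) = e
  rev : ∀ e, P (R (P e)) = R e

theorem Dih.symm_apply {P : Equiv.Perm E} {R : E → E} (h : Dih P R) (e : E) :
    R (P e) = P.symm (R e) := by
  rw [← h.rev e, Equiv.symm_apply_apply]

theorem Dih.symm_apply' {P : Equiv.Perm E} {R : E → E} (h : Dih P R) (e : E) :
    R (P.symm e) = P (R e) := by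
  have := h.rev (P.symm e)
  rw [Equiv.apply_symm_apply] at this
  exact this.symm

theorem Dih.zpow {P : Equiv.Perm E} {R : E → E} (h : Dih P R) (k : ℤ) (e : E) :
    R ((P ^ k) e) = (P ^ (-k)) (R e) := by
  induction k using Int.induction_on generalizing e with
  | zero => simp
  | succ n ih =>
    rw [zpow_add_one, Equiv.Perm.mul_apply, ih, h.symm_apply, neg_add, zpow_add,
      Equiv.Perm.mul_apply]
    rfl
  | pred n ih =>
    rw [zpow_sub_one, Equiv.Perm.mul_apply, ih]
    have : R (P⁻¹ e) = P (R e) := h.symm_apply' e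
    rw [this, show -(-(n : ℤ) - 1) = -(-(n : ℤ)) + 1 by ring, zpow_add_one, Equiv.Perm.mul_apply]

theorem Dih.same {P : Equiv.Perm E} {R : E → E} (h : Dih P R) {a b : E} (hab : P.SameCycle a b) :
    P.SameCycle (R a) (R b) := by
  obtain ⟨k, hk⟩ := hab
  refine ⟨-k, ?_⟩
  rw [← hk, h.zpow]

/-- classes of the group generated by `P` and `R` -/
def dr {P : Equiv.Perm E} {R : E → E} (h : Dih P R) : Setoid E where
  r a b := P.SameCycle a b ∨ P.SameCycle a (R b)
  iseqv := by
    refine ⟨fun a => Or.inl (Equiv.Perm.SameCycle.refl P a), ?_, ?_⟩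
    · rintro a b (hab | hab)
      · exact Or.inl hab.symm
      · right
        have := h.same hab
        rw [h.inv] at this
        exact this.symm
    · rintro a b c (hab | hab) (hbc | hbc)
      · exact Or.inl (hab.trans hbc)
      · exact Or.inr (hab.trans hbc)
      · exact Or.inr (hab.trans (h.same hbc))
      · left
        have := h.same hbc
        rw [h.inv] at this
        exact hab.trans this

theorem dr_iff {P : Equiv.Perm E} {R : E → E} (h : Dih P R) (f : E → Bool) :
    ((∀ e, f (R e) = f e) ∧ ∀ e, f (P e) = f e) ↔ ∀ a b, dr h a b → f a = f b := by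
  constructor
  · rintro ⟨h1, h2⟩ a b (⟨k, hk⟩ | ⟨k, hk⟩)
    · rw [← hk, inv_zpow P f h2]
    · rw [← h1 b, ← hk, inv_zpow P f h2]
  · intro h1
    refine ⟨fun e => ?_, fun e => ?_⟩
    · exact h1 _ _ (Or.inr (Equiv.Perm.SameCycle.refl P _))
    · exact h1 _ _ (Or.inl ((Equiv.Perm.sameCycle_apply_left (f := P)).2
        (Equiv.Perm.SameCycle.refl P e)))

end Dih

theorem lw_half (lam : ℝ) (p b fW fE fN fS : Bool) :
    lw lam p b fW fE fN fS = lw (lam / 2) p b fW fE fN fS * lw (lam / 2) (!p) (!b) fW fE fS fN := by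
  have h1 : Bk430.cmp (!b) fW fE fS fN ↔ Bk430.cmp b fW fE fN fS := by
    cases b <;> simp [Bk430.cmp]
  have h2 : kb (!p) (!b) = kb p b := by cases p <;> cases b <;> rfl
  unfold lw
  rw [h2]
  by_cases h : Bk430.cmp b fW fE fN fS
  · rw [if_pos h, if_pos h, if_pos (h1.2 h), ← Complex.exp_add]
    congr 1
    push_cast
    ring
  · rw [if_neg h, if_neg h, zero_mul]

theorem w6_not (lam : ℝ) (a b c d : Bool) : w6 lam (!a) (!b) (!c) (!d) = w6 lam a b c d := by
  cases a <;> cases b <;> cases c <;> cases d <;> simp [w6, ice]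

theorem w6_sum (lam : ℝ) (p fW fE fN fS : Bool) :
    (w6 lam fW fE fN fS : ℂ) = ∑ b : Bool, lw lam p (xor (!b) p) fW fE fN fS := by
  rw [← lw_sum lam p, Fintype.sum_bool, Fintype.sum_bool]
  cases p
  · simp [add_comm]
  · simp

section Cyl

variable {M L H : ℕ} [NeZero M] [NeZero L] [Fact (Even M)] [Fact (Even L)]

/-- the cylinder splitting -/
def sx (hL : L = 2 * H) (x : Ct M L H → Bool) : ZMod M × ZMod L → Bool := spx (Xt hL x)

theorem sx_rv (hL : L = 2 * H) (x : Ct M L H → Bool) (v : ZMod M × ZMod L) :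
    sx hL x (rv 1 v) = !sx hL x v := spx_rv (oddC_zmod L) (Xt_rv hL x) v

theorem dih (hL : L = 2 * H) (x : Ct M L H → Bool) :
    Dih (nxE (sx hL x)) (re (1 : ZMod L) : ME (ZMod M) (ZMod L) → ME (ZMod M) (ZMod L)) where
  inv := re_re 1
  rev := nx_re (oddC_zmod L) (sx_rv hL x)

/-- the local weights on the cylinder = the weights with half the parameter on the torus -/
theorem prod_lw (hL : L = 2 * H) (lam : ℝ) (x : Ct M L H → Bool) (f : ME (ZMod M) (ZMod L) → Bool)
    (hf : ∀ e, f (re 1 e) = f e) :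
    ∏ v : Ct M L H, lw lam (vp v.1) (xor (!x v) (vp v.1)) (f (eW v.1)) (f (eE v.1)) (f (eN v.1))
      (f (eS v.1)) = W6 (lam / 2) f (sx hL x) := by
  unfold W6
  rw [prod_cyl hL]
  refine Finset.prod_congr rfl fun v _ => ?_
  rw [lw_half]
  have h0 : sx hL x v.1 = xor (!x v) (vp v.1) := by
    unfold sx spx Xt
    rw [dif_pos v.2]
  have h1 := sx_rv hL x v.1
  have h2 := vp_rv (oddC_zmod L) v.1
  have e1 : f (eW (rv 1 v.1)) = f (eW v.1) := by
    rw [← hf (eW v.1)]; congr 1
  have e2 : f (eE (rv 1 v.1)) = f (eE v.1) := by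
    rw [← hf (eE v.1)]; congr 1
  have e3 : f (eN (rv 1 v.1)) = f (eS v.1) := by
    rw [← hf (eS v.1)]; congr 1; simp [eS, eN, re, rv]
  have e4 : f (eS (rv 1 v.1)) = f (eN v.1) := by
    rw [← hf (eN v.1)]; congr 1; simp [eS, eN, re, rv]
  rw [h1, h2, h0, e1, e2, e3, e4]

/-- the six-vertex sum on the cylinder with phases `c` -/
noncomputable def Zc (M L H : ℕ) [NeZero M] [NeZero L] [Fact (Even M)] [Fact (Even L)]
    (c : ME (ZMod M) (ZMod L) → ℝ) : ℂ :=
  ∑ f : ME (ZMod M) (ZMod L) → Bool, if ∀ e, f (re 1 e) = f e then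
    (∏ v : Ct M L H, (w6 (Real.pi / 3) (f (eW v.1)) (f (eE v.1)) (f (eN v.1)) (f (eS v.1)) : ℂ)) *
      Complex.exp (I * ((∑ e, c e * (sgb (f e) : ℤ) : ℝ) : ℂ)) else 0

/-- **arrow reversal** -/
theorem Zc_neg (c : ME (ZMod M) (ZMod L) → ℝ) : Zc M L H (fun e => -c e) = Zc M L H c := by
  unfold Zc
  refine Finset.sum_nbij' (i := fun f e => !f e) (j := fun f e => !f e)
    (fun _ _ => mem_univ _) (fun _ _ => mem_univ _) (fun f _ => by funext e; simp)
    (fun f _ => by funext e; simp) (fun f _ => ?_)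
  have h : (∀ e, (!f (re 1 e)) = !f e) ↔ ∀ e, f (re 1 e) = f e := by
    refine forall_congr' fun e => ?_
    cases f (re 1 e) <;> cases f e <;> simp
  by_cases hf : ∀ e, f (re 1 e) = f e
  · rw [if_pos hf, if_pos (h.2 hf)]
    congr 1
    · refine Finset.prod_congr rfl fun v _ => ?_
      rw [w6_not]
    · congr 2
      norm_cast
      refine Finset.sum_congr rfl fun e _ => ?_
      rcases hfe : f e with _ | _ <;> simp [sgb, hfe]
  · rw [if_neg hf, if_neg (fun h' => hf (h.1 h'))]

open Classical in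
/-- **strand expansion** -/
theorem Zc_eq (hL : L = 2 * H) (c : ME (ZMod M) (ZMod L) → ℝ) :
    Zc M L H c = ((∑ x : Ct M L H → Bool, ∏ q : Quotient (dr (dih hL x)), 2 * Real.cos
      (∑ e with Quotient.mk (dr (dih hL x)) e = q,
        (Real.pi / 24 * turn (sx hL x) e + c e)) : ℝ) : ℂ) := by
  unfold Zc
  have h1 : ∀ f : ME (ZMod M) (ZMod L) → Bool, (if ∀ e, f (re 1 e) = f e then
      (∏ v : Ct M L H, (w6 (Real.pi / 3) (f (eW v.1)) (f (eE v.1)) (f (eN v.1)) (f (eS v.1)) : ℂ)) *
      Complex.exp (I * ((∑ e, c e * (sgb (f e) : ℤ) : ℝ) : ℂ)) else 0) =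
      ∑ x : Ct M L H → Bool, (if ∀ a b, dr (dih hL x) a b → f a = f b then
        Complex.exp (I * ((∑ e, (Real.pi / 24 * turn (sx hL x) e + c e) * (sgb (f e) : ℤ) : ℝ) : ℂ))
        else 0) := by
    intro f
    by_cases hf : ∀ e, f (re 1 e) = f e
    · rw [if_pos hf]
      have h2 : (∏ v : Ct M L H, (w6 (Real.pi / 3) (f (eW v.1)) (f (eE v.1)) (f (eN v.1))
          (f (eS v.1)) : ℂ)) = ∑ x : Ct M L H → Bool, W6 (Real.pi / 3 / 2) f (sx hL x) := by
        have h3 : ∀ v : Ct M L H, (w6 (Real.pi / 3) (f (eW v.1)) (f (eE v.1)) (f (eN v.1))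
            (f (eS v.1)) : ℂ) = ∑ b : Bool, lw (Real.pi / 3) (vp v.1) (xor (!b) (vp v.1)) (f (eW v.1))
              (f (eE v.1)) (f (eN v.1)) (f (eS v.1)) := fun v => w6_sum _ _ _ _ _ _
        simp_rw [h3]
        rw [Finset.prod_univ_sum, Fintype.piFinset_univ]
        exact Finset.sum_congr rfl fun x _ => prod_lw hL _ x f hf
      rw [h2, Finset.sum_mul]
      refine Finset.sum_congr rfl fun x _ => ?_
      rw [W6_eq]
      have h4 := dr_iff (dih hL x) f
      by_cases hp : ∀ e, f (nx (sx hL x) e) = f e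
      · rw [if_pos hp, if_pos (h4.1 ⟨hf, hp⟩), ← Complex.exp_add]
        congr 1
        push_cast
        rw [← mul_add, Finset.mul_sum, ← Finset.sum_add_distrib]
        congr 1
        refine Finset.sum_congr rfl fun e _ => ?_
        ring
      · rw [if_neg hp, if_neg (fun h' => hp (h4.2 h').2), zero_mul]
    · rw [if_neg hf]
      symm
      refine Finset.sum_eq_zero fun x _ => ?_
      rw [if_neg (fun h' => hf ((dr_iff (dih hL x) f).2 h').1)]
  simp_rw [h1]
  rw [Finset.sum_comm, Complex.ofReal_sum]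
  refine Finset.sum_congr rfl fun x _ => ?_
  have := sum_cls_cos (dr (dih hL x)) (fun e => Real.pi / 24 * turn (sx hL x) e + c e)
  convert this using 1

end Cyl

end Crest.Agent.R158.Hp854
end

-- ▼ part R158/Hp4_854
section

/-!
# R158, block HP1 (helper854), part 4: reflection invariant orbits, closed strands in the plane
-/

set_option autoImplicit false
set_option linter.unusedSectionVars false
set_option linter.unusedSimpArgs false

namespace Crest.Agent.R158.Hp854

open Finset
open Crest.Agent.R158.Bk430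
open Crest.Agent.R158.Ts405 (shE sL per lft proj_lft proj_eq_iff iter_proj nx_proj turn_proj Ctr
  per_pos per_iter per_min hd_proj tl_proj TT_torus T1_closed T1_periodic mp_pos sum_cycle)

section DihCyc

variable {E : Type*} [Fintype E] [DecidableEq E]

theorem same_iter {P : Equiv.Perm E} {a b : E} (h : P.SameCycle a b) :
    ∃ k < Function.minimalPeriod P a, P^[k] a = b := by
  obtain ⟨i, hi⟩ := h
  set n := Function.minimalPeriod P a with hn
  have hpos : 0 < n := mp_pos P a
  refine ⟨(i % (n : ℤ)).toNat, ?_, ?_⟩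
  · have h2 := Int.emod_lt_of_pos i (show (0 : ℤ) < n by exact_mod_cast hpos)
    have h3 := Int.emod_nonneg i (show (n : ℤ) ≠ 0 by exact_mod_cast hpos.ne')
    omega
  · have h3 := Int.emod_nonneg i (show (n : ℤ) ≠ 0 by exact_mod_cast hpos.ne')
    have h4 : (P ^ n) a = a := by
      rw [← Equiv.Perm.iterate_eq_pow]; exact Function.iterate_minimalPeriod
    have h5 : ∀ m : ℤ, ((P ^ (n : ℤ)) ^ m) a = a := by
      intro m
      have : (P ^ (n : ℤ)) a = a := by rw [zpow_natCast]; exact h4
      exact Equiv.Perm.zpow_apply_eq_self_of_apply_eq_self this m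
    have h6 : (P ^ i) a = (P ^ (i % (n : ℤ))) a := by
      conv_lhs => rw [← Int.emod_add_mul_ediv i n]
      rw [zpow_add, Equiv.Perm.mul_apply, zpow_mul, h5]
    rw [Equiv.Perm.iterate_eq_pow, ← zpow_natCast, Int.toNat_of_nonneg h3, ← h6, hi]

theorem iter_same (P : Equiv.Perm E) (a : E) (k : ℕ) : P.SameCycle a (P^[k] a) :=
  ⟨k, by rw [zpow_natCast, Equiv.Perm.iterate_eq_pow]⟩

variable {P : Equiv.Perm E} {R : E → E}

theorem Dih.iter (h : Dih P R) (a : E) (k : ℕ) : P^[k] (R (P^[k] a)) = R a := by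
  induction k generalizing a with
  | zero => rfl
  | succ k ih =>
    rw [Function.iterate_succ_apply' (n := k) (f := P) (x := a)]
    rw [Function.iterate_succ_apply, h.rev, ih]

/-- an orbit meeting its reflection has a fixed element -/
theorem Dih.fix (h : Dih P R) (hnf : ∀ x, R x ≠ P x) {e : E} (he : P.SameCycle e (R e)) :
    ∃ l, P.SameCycle e l ∧ R l = l := by
  obtain ⟨k, hk⟩ := he
  have key : R ((P ^ (k / 2)) e) = (P ^ (k - k / 2)) e := by
    rw [h.zpow, ← hk, ← Equiv.Perm.mul_apply, ← zpow_add]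
    congr 2; ring
  rcases Int.emod_two_eq_zero_or_one k with h0 | h0
  · refine ⟨(P ^ (k / 2)) e, ⟨k / 2, rfl⟩, ?_⟩
    rw [key]; congr 2; omega
  · exfalso
    apply hnf ((P ^ (k / 2)) e)
    rw [key, show k - k / 2 = 1 + k / 2 by omega, zpow_add, zpow_one]
    rfl

theorem Dih.refl_iter (h : Dih P R) {l : E} (hl : R l = l) {j : ℕ}
    (hj : j ≤ Function.minimalPeriod P l) :
    R (P^[j] l) = P^[Function.minimalPeriod P l - j] l := by
  have h1 := h.iter l j
  rw [hl] at h1
  have h2 : P^[j] (P^[Function.minimalPeriod P l - j] l) = l := by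
    rw [← Function.iterate_add_apply, Nat.add_sub_cancel' hj]
    exact Function.iterate_minimalPeriod
  exact (P.injective.iterate j) (h1.trans h2.symm)

theorem Dih.even (h : Dih P R) (hnf : ∀ x, R x ≠ P x) {l : E} (hl : R l = l) :
    Even (Function.minimalPeriod P l) := by
  by_contra hc
  rw [Nat.not_even_iff_odd] at hc
  obtain ⟨m, hm⟩ := hc
  have h1 := h.refl_iter hl (j := m) (by omega)
  apply hnf (P^[m] l)
  rw [h1, ← Function.iterate_succ_apply' (f := P)]
  congr 1
  omega

/-- the two fixed elements of an invariant orbit -/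
theorem Dih.two (h : Dih P R) (hnf : ∀ x, R x ≠ P x) {l : E} (hl : R l = l) :
    0 < Function.minimalPeriod P l / 2 ∧
    2 * (Function.minimalPeriod P l / 2) = Function.minimalPeriod P l ∧
    R (P^[Function.minimalPeriod P l / 2] l) = P^[Function.minimalPeriod P l / 2] l ∧
    P^[Function.minimalPeriod P l / 2] l ≠ l ∧
    (∀ j, 0 < j → j < Function.minimalPeriod P l / 2 → R (P^[j] l) ≠ P^[j] l) ∧
    ∀ x, P.SameCycle l x → (R x = x ↔ x = l ∨ x = P^[Function.minimalPeriod P l / 2] l) := by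
  have hpos := mp_pos P l
  obtain ⟨m, hm⟩ := h.even hnf hl
  set n := Function.minimalPeriod P l with hn
  have hh : n / 2 = m := by omega
  rw [hh]
  have hinj : ∀ i j, i < n → j < n → P^[i] l = P^[j] l → i = j := by
    intro i j hi hj hij
    exact (Function.iterate_eq_iterate_iff_of_lt_minimalPeriod hi hj).mp hij
  have h1 : R (P^[m] l) = P^[m] l := by
    rw [h.refl_iter hl (j := m) (by omega)]
    congr 1; omega
  have h2 : ∀ j, 0 < j → j < n → R (P^[j] l) = P^[j] l → j = m := by
    intro j hj0 hjn hj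
    rw [h.refl_iter hl (j := j) (by omega)] at hj
    have := hinj _ _ (by omega) (by omega) hj
    omega
  refine ⟨by omega, by omega, h1, ?_, ?_, ?_⟩
  · intro h3
    have := hinj m 0 (by omega) (by omega) h3
    omega
  · intro j hj0 hjm hj
    have := h2 j hj0 (by omega) hj
    omega
  · intro x hx
    obtain ⟨j, hj, rfl⟩ := same_iter hx
    constructor
    · intro h3
      rcases Nat.eq_zero_or_pos j with h0 | h0
      · left; rw [h0]; rfl
      · right; rw [h2 j h0 hj h3]
    · rintro (h3 | h3)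
      · rw [h3, hl]
      · rw [h3, h1]

end DihCyc

/-! ### the plane -/

theorem nx_shE {s : ℤ × ℤ → Bool} {Q : ℤ × ℤ} (hQ : (Q.1 + Q.2) % 2 = 0)
    (hs : ∀ u : ℤ × ℤ, s (u.1 + Q.1, u.2 + Q.2) = s u) (e : ME ℤ ℤ) :
    nx s (shE Q e) = shE Q (nx s e) := by
  obtain ⟨⟨a, b⟩, d⟩ := e
  have h1 : vp ((a + Q.1, b + Q.2) : ℤ × ℤ) = vp ((a, b) : ℤ × ℤ) := by
    rw [Ts405.vp_int, Ts405.vp_int]
    congr 1
    apply propext
    omega
  have g0 := hs (a, b)
  have g1 := hs (a + 1, b)
  have g2 := hs (a, b + 1)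
  simp only at g0 g1 g2
  have e1 : a + Q.1 + 1 = a + 1 + Q.1 := by ring
  have e2 : b + Q.2 + 1 = b + 1 + Q.2 := by ring
  have e3 : b + 1 + Q.2 - 1 = b + Q.2 := by ring
  have e4 : a + 1 + Q.1 - 1 = a + Q.1 := by ring
  have e5 : b + Q.2 - 1 = b - 1 + Q.2 := by ring
  have e6 : a + Q.1 - 1 = a - 1 + Q.1 := by ring
  cases d <;> cases hv : vp ((a, b) : ℤ × ℤ) <;> rw [hv] at h1 <;>
    simp only [nx, hd, shE, h1, hv, Bool.false_eq_true, if_false, if_true, e1, e2, g0, g1, g2]
  all_goals
    split_ifs <;> simp [e3, e4, e5, e6]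

theorem iter_shE {s : ℤ × ℤ → Bool} {Q : ℤ × ℤ} (hQ : (Q.1 + Q.2) % 2 = 0)
    (hs : ∀ u : ℤ × ℤ, s (u.1 + Q.1, u.2 + Q.2) = s u) (e : ME ℤ ℤ) (k : ℕ) :
    (nx s)^[k] (shE Q e) = shE Q ((nx s)^[k] e) := by
  induction k with
  | zero => rfl
  | succ k ih => rw [Function.iterate_succ_apply', ih, nx_shE hQ hs, Function.iterate_succ_apply']

section Plane

variable {M L : ℕ} [NeZero M] [NeZero L] [Fact (Even M)] [Fact (Even L)]

theorem sL_per (s : ZMod M × ZMod L → Bool) (a b : ℤ) (u : ℤ × ℤ) :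
    sL s (u.1 + M * a, u.2 + L * b) = sL s u := by
  simp [sL]

theorem iter_shE_torus (s : ZMod M × ZMod L → Bool) (a b : ℤ) (e : ME ℤ ℤ) (k : ℕ) :
    (nx (sL s))^[k] (shE (M * a, L * b) e) = shE (M * a, L * b) ((nx (sL s))^[k] e) :=
  iter_shE (Ts405.even_MP M L a b) (sL_per s a b) e k

theorem ctr_iff (s : ZMod M × ZMod L → Bool) (e : ME ℤ ℤ) :
    Ctr s (orb (nxE s) (proj M L e)) ↔ (nx (sL s))^[per s (proj M L e)] e = e := by
  constructor
  · rintro ⟨e', h1, h2⟩
    have h3 : (nxE s).SameCycle (proj M L e') (proj M L e) := Quotient.exact h1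
    obtain ⟨k, -, hk⟩ := same_iter h3
    have hk' : proj M L ((nx (sL s))^[k] e') = proj M L e := by
      rw [iter_proj]; exact hk
    obtain ⟨a, b, hab⟩ := proj_eq_iff hk'.symm
    have hper : per s (proj M L e) = per s (proj M L e') := by
      unfold per
      rw [← hk]
      exact Function.minimalPeriod_apply_iterate
        (Function.minimalPeriod_pos_iff_mem_periodicPts.1 (mp_pos _ _)) _
    rw [hper, hab, iter_shE_torus, ← Function.iterate_add_apply, Nat.add_comm,
      Function.iterate_add_apply, h2]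
  · intro h
    exact ⟨e, rfl, h⟩

end Plane

end Crest.Agent.R158.Hp854
end

-- ▼ part R158/Hp5_854
section

/-!
# R158, block HP1 (helper854), part 5: legs of the cylinder, half periods, confinement of strands
-/

set_option autoImplicit false
set_option linter.unusedSectionVars false
set_option linter.unusedSimpArgs false

namespace Crest.Agent.R158.Hp854

open Finset
open Crest.Agent.R158.Bk430
open Crest.Agent.R158.Ts405 (shE sL per lft proj_lft proj_eq_iff iter_proj nx_proj turn_proj Ctr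
  per_pos per_iter per_min hd_proj tl_proj TT_torus T1_closed T1_periodic mp_pos sum_cycle)

section Legs

variable {M L H : ℕ} [NeZero M] [NeZero L] [Fact (Even M)] [Fact (Even L)]

theorem re_ne_nx (hL : L = 2 * H) (x : Ct M L H → Bool) (e : ME (ZMod M) (ZMod L)) :
    re 1 e ≠ nxE (sx hL x) e := by
  intro h
  have h1 : tl (re 1 e) = tl (nx (sx hL x) e) := by rw [h]; rfl
  rw [tl_nx, tl_re (oddC_zmod L)] at h1
  exact rv_ne (oddC_zmod L) _ h1

/-- legs of the cylinder in the plane -/
def IsLeg (H : ℕ) (e : ME ℤ ℤ) : Prop := e.2 = true ∧ (H : ℤ) ∣ e.1.2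

theorem leg_iff (hL : L = 2 * H) (e : ME ℤ ℤ) :
    re 1 (proj M L e) = proj M L e ↔ IsLeg H e := by
  obtain ⟨⟨a, b⟩, d⟩ := e
  cases d
  · constructor
    · intro h
      exfalso
      have h1 : (1 : ZMod L) - (b : ZMod L) = (b : ZMod L) := by
        have := congrArg (fun e : ME (ZMod M) (ZMod L) => e.1.2) h
        simpa [proj, re] using this
      have h2 := oddC_zmod L (b : ZMod L)
      rw [h1] at h2
      cases h3 : par (b : ZMod L) <;> rw [h3] at h2 <;> simp at h2
    · rintro ⟨h, -⟩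
      simp at h
  · have h0 : re 1 (proj M L ((a, b), true)) = proj M L ((a, b), true) ↔
        -(b : ZMod L) = (b : ZMod L) := by
      simp [proj, re]
    rw [h0]
    have h1 : -(b : ZMod L) = (b : ZMod L) ↔ (L : ℤ) ∣ 2 * b := by
      rw [neg_eq_iff_add_eq_zero, ← ZMod.intCast_zmod_eq_zero_iff_dvd]
      push_cast
      rw [two_mul]
    rw [h1]
    unfold IsLeg
    simp only [true_and]
    rw [hL]
    push_cast
    exact mul_dvd_mul_iff_left (by norm_num)

theorem sL_rv (hL : L = 2 * H) (x : Ct M L H → Bool) {b : ℤ} (hb : (H : ℤ) ∣ b) (v : ℤ × ℤ) :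
    sL (sx hL x) (rv (2 * b + 1) v) = !sL (sx hL x) v := by
  have h := sx_rv hL x ((v.1 : ZMod M), (v.2 : ZMod L))
  unfold sL rv at *
  simp only at h ⊢
  rw [← h]
  congr 2
  have h2 : ((2 * b : ℤ) : ZMod L) = 0 := by
    rw [ZMod.intCast_zmod_eq_zero_iff_dvd, hL]
    push_cast
    exact mul_dvd_mul_left 2 hb
  push_cast at h2 ⊢
  rw [h2]
  ring

theorem re_leg {H : ℕ} {e : ME ℤ ℤ} (he : IsLeg H e) : re (2 * e.1.2 + 1) e = e := by
  obtain ⟨⟨a, b⟩, d⟩ := e
  obtain ⟨h1, -⟩ := he
  simp only at h1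
  subst h1
  simp [re]
  ring

/-- half period of a leg -/
noncomputable def hp (hL : L = 2 * H) (x : Ct M L H → Bool) (e : ME ℤ ℤ) : ℕ :=
  per (sx hL x) (proj M L e) / 2

theorem hp_facts (hL : L = 2 * H) (x : Ct M L H → Bool) {e : ME ℤ ℤ} (he : IsLeg H e) :
    0 < hp hL x e ∧ 2 * hp hL x e = per (sx hL x) (proj M L e) ∧
    IsLeg H ((nx (sL (sx hL x)))^[hp hL x e] e) ∧
    proj M L ((nx (sL (sx hL x)))^[hp hL x e] e) ≠ proj M L e ∧
    (∀ j, 0 < j → j < hp hL x e → ¬ IsLeg H ((nx (sL (sx hL x)))^[j] e)) ∧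
    ∀ y, (nxE (sx hL x)).SameCycle (proj M L e) y → (re 1 y = y ↔ y = proj M L e ∨
      y = proj M L ((nx (sL (sx hL x)))^[hp hL x e] e)) := by
  have h1 : re 1 (proj M L e) = proj M L e := (leg_iff hL e).2 he
  obtain ⟨h2, h3, h4, h5, h6, h7⟩ := (dih hL x).two (re_ne_nx hL x) h1
  have key : ∀ j, (nxE (sx hL x))^[j] (proj M L e) = proj M L ((nx (sL (sx hL x)))^[j] e) :=
    fun j => (iter_proj (sx hL x) e j).symm
  refine ⟨h2, h3, ?_, ?_, ?_, ?_⟩
  · rw [← leg_iff hL (M := M)]
    rw [← key]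
    exact h4
  · rw [← key]; exact h5
  · intro j hj0 hj
    rw [← leg_iff hL (M := M), ← key]
    exact h6 j hj0 hj
  · intro y hy
    rw [h7 y hy, key]
    rfl

/-- reflected half strand -/
theorem refl_half (hL : L = 2 * H) (x : Ct M L H → Bool) {e : ME ℤ ℤ} (he : IsLeg H e) (k : ℕ) :
    (nx (sL (sx hL x)))^[k] (re (2 * e.1.2 + 1) ((nx (sL (sx hL x)))^[k] e)) = e := by
  have := iter_re (oddC_int e.1.2) (sL_rv hL x he.2) e k
  rw [this, re_leg he]

/-- lower level of the strip in which the strand of a leg starts -/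
def lo (H : ℕ) (e : ME ℤ ℤ) : ℤ := if (e.1.1 + e.1.2) % 2 = 0 then e.1.2 else e.1.2 - H

theorem lo_dvd {H : ℕ} {e : ME ℤ ℤ} (he : IsLeg H e) : (H : ℤ) ∣ lo H e := by
  unfold lo
  split_ifs
  · exact he.2
  · exact dvd_sub_self_right.mpr he.2

theorem hd_vert (i j : ℤ) : (hd ((i, j), true) : ℤ × ℤ) = if (i + j) % 2 = 0 then (i, j + 1) else (i, j) := by
  unfold hd
  simp only [if_true]
  rw [Ts405.vp_int]
  by_cases h : (i + j) % 2 = 0
  · rw [if_pos h, if_neg (by simp; omega)]
  · rw [if_neg h, if_pos (by simp; omega)]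

theorem tl_vert (i j : ℤ) : (tl ((i, j), true) : ℤ × ℤ) = if (i + j) % 2 = 0 then (i, j) else (i, j + 1) := by
  unfold tl
  simp only [if_true]
  rw [Ts405.vp_int]
  by_cases h : (i + j) % 2 = 0
  · rw [if_pos h, if_neg (by simp; omega)]
  · rw [if_neg h, if_pos (by simp; omega)]

theorem hd_tl_horiz (i j : ℤ) : (hd ((i, j), false) : ℤ × ℤ).2 = j ∧ (tl ((i, j), false) : ℤ × ℤ).2 = j := by
  unfold hd tl
  simp only [Bool.false_eq_true, if_false]
  constructor <;> split_ifs <;> rfl

/-- **confinement** -/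
theorem confine {H : ℕ} (hH : 0 < H) {s : ℤ × ℤ → Bool} {e : ME ℤ ℤ} (he : IsLeg H e) {n : ℕ}
    (hn : ∀ j, 0 < j → j < n → ¬ IsLeg H ((nx s)^[j] e)) :
    ∀ t, t < n → lo H e + 1 ≤ (hd ((nx s)^[t] e)).2 ∧ (hd ((nx s)^[t] e)).2 ≤ lo H e + H := by
  have hlo := lo_dvd he
  intro t
  induction t with
  | zero =>
    intro _
    obtain ⟨⟨i, b⟩, d⟩ := e
    obtain ⟨h1, h2⟩ := he
    simp only at h1 h2
    subst h1
    simp only [Function.iterate_zero, id_eq]
    rw [hd_vert]
    unfold lo
    simp only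
    split_ifs <;> simp only <;> constructor <;> omega
  | succ t ih =>
    intro ht
    obtain ⟨i1, i2⟩ := ih (by omega)
    have hl := hn (t + 1) (by omega) ht
    rw [Function.iterate_succ_apply'] at hl ⊢
    have htl : tl (nx s ((nx s)^[t] e)) = hd ((nx s)^[t] e) := tl_nx _ _
    rw [← htl] at i1 i2
    clear htl
    generalize nx s ((nx s)^[t] e) = f at hl i1 i2 ⊢
    obtain ⟨⟨i, b⟩, d⟩ := f
    cases d
    · obtain ⟨g1, g2⟩ := hd_tl_horiz i b
      rw [g2] at i1 i2
      rw [g1]
      exact ⟨i1, i2⟩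
    · have hb : ¬ (H : ℤ) ∣ b := fun h => hl ⟨rfl, h⟩
      have hb1 : b ≠ lo H e := fun h => hb (h ▸ hlo)
      have hb2 : b ≠ lo H e + H := fun h => hb (h ▸ (dvd_add_self_right.mpr hlo))
      rw [tl_vert] at i1 i2
      rw [hd_vert]
      split_ifs at i1 i2 ⊢ <;> simp only at i1 i2 ⊢ <;> constructor <;> omega

/-- the end of a strand started at a leg -/
theorem confine_end {H : ℕ} (hH : 0 < H) {s : ℤ × ℤ → Bool} {e : ME ℤ ℤ} (he : IsLeg H e) {n : ℕ}
    (h0 : 0 < n) (hn : ∀ j, 0 < j → j < n → ¬ IsLeg H ((nx s)^[j] e)) (hl : IsLeg H ((nx s)^[n] e)) :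
    (((nx s)^[n] e).1.2 = lo H e ∧ (((nx s)^[n] e).1.1 + lo H e) % 2 = 1) ∨
    (((nx s)^[n] e).1.2 = lo H e + H ∧ (((nx s)^[n] e).1.1 + (lo H e + H)) % 2 = 0) := by
  have hlo := lo_dvd he
  obtain ⟨m, rfl⟩ : ∃ m, n = m + 1 := ⟨n - 1, by omega⟩
  obtain ⟨i1, i2⟩ := confine hH he hn m (by omega)
  rw [Function.iterate_succ_apply'] at hl ⊢
  have htl : tl (nx s ((nx s)^[m] e)) = hd ((nx s)^[m] e) := tl_nx _ _
  rw [← htl] at i1 i2
  clear htl
  generalize nx s ((nx s)^[m] e) = f at hl i1 i2 ⊢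
  obtain ⟨⟨i, b⟩, d⟩ := f
  obtain ⟨h1, h2⟩ := hl
  simp only at h1 h2 ⊢
  subst h1
  rw [tl_vert] at i1 i2
  obtain ⟨p, hp⟩ := hlo
  obtain ⟨q, hq⟩ := h2
  have hH' : (0 : ℤ) < H := by exact_mod_cast hH
  rw [hp] at i1 i2 ⊢
  rw [hq] at i1 i2 ⊢
  split_ifs at i1 i2 with hpar
  · simp only at i1 i2
    have h3 : (H : ℤ) * p < H * q := by omega
    have h4 : (H : ℤ) * q < H * (p + 2) := by nlinarith
    have h5 : p < q := lt_of_mul_lt_mul_left h3 hH'.le
    have h6 : q < p + 2 := lt_of_mul_lt_mul_left h4 hH'.le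
    have h7 : q = p + 1 := by omega
    right
    subst h7
    have h8 : (H : ℤ) * (p + 1) = H * p + H := by ring
    rw [h8] at hq ⊢
    refine ⟨rfl, ?_⟩
    rw [← h8]; exact hpar
  · simp only at i1 i2
    have h3 : (H : ℤ) * p < H * (q + 1) := by nlinarith
    have h4 : (H : ℤ) * q < H * (p + 1) := by nlinarith
    have h5 : p < q + 1 := lt_of_mul_lt_mul_left h3 hH'.le
    have h6 : q < p + 1 := lt_of_mul_lt_mul_left h4 hH'.le
    have h7 : q = p := by omega
    left
    subst h7
    refine ⟨rfl, ?_⟩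
    rw [← hq]; omega

end Legs

end Crest.Agent.R158.Hp854
end

-- ▼ part R158/Hp1_854
section

/-!
R158, block HP1 (helper854), part 1: bookkeeping of the arrow reversal identity on a flat cylinder.

Floor ends of a cut cylinder of circumference `M` are lifted to `ℤ`; a pattern is a periodic partial
involution `σ : ℤ → Option ℤ` (`none` = the strand ends on the ceiling).  Charges: `+1` to the left of
`-2k`, a strand with middle phase at `0` (charges `-1`, `-1`), `+1` to the right of `2k-1`.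
-/

set_option autoImplicit false
open Finset

namespace Crest.Agent.R158.Hp854

set_option linter.unusedVariables false
set_option linter.unnecessarySeqFocus false

/-- relative weight of an arc of charge `k` (units `π/3`) over a flat piece -/
noncomputable def wq (k : ℤ) : ℝ :=
  Real.cos (((k : ℝ) - 1 / 2) * (Real.pi / 3)) / Real.cos (Real.pi / 6)

/-- relative weight of a floor-ceiling strand with floor phase `k` -/
noncomputable def fq (k : ℤ) : ℝ :=
  Real.cos (((k : ℝ) + 1 / 2) * (Real.pi / 3)) / Real.cos (Real.pi / 6)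

theorem cos6_ne : Real.cos (Real.pi / 6) ≠ 0 := by
  rw [Real.cos_pi_div_six]; positivity

theorem wq_zero : wq 0 = 1 := by
  have h : (((0 : ℤ) : ℝ) - 1 / 2) * (Real.pi / 3) = -(Real.pi / 6) := by push_cast; ring
  rw [wq, h, Real.cos_neg, div_self cos6_ne]

theorem wq_one : wq 1 = 1 := by
  have h : (((1 : ℤ) : ℝ) - 1 / 2) * (Real.pi / 3) = Real.pi / 6 := by push_cast; ring
  rw [wq, h, div_self cos6_ne]

theorem wq_two : wq 2 = 0 := by
  have h : (((2 : ℤ) : ℝ) - 1 / 2) * (Real.pi / 3) = Real.pi / 2 := by push_cast; ring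
  rw [wq, h, Real.cos_pi_div_two, zero_div]

theorem wq_neg_one : wq (-1) = 0 := by
  have h : (((-1 : ℤ) : ℝ) - 1 / 2) * (Real.pi / 3) = -(Real.pi / 2) := by push_cast; ring
  rw [wq, h, Real.cos_neg, Real.cos_pi_div_two, zero_div]

theorem wq_neg_two : wq (-2) = -1 := by
  have h : (((-2 : ℤ) : ℝ) - 1 / 2) * (Real.pi / 3) = Real.pi / 6 - Real.pi := by push_cast; ring
  rw [wq, h, Real.cos_sub_pi, neg_div, div_self cos6_ne]

theorem fq_zero : fq 0 = 1 := by
  have h : (((0 : ℤ) : ℝ) + 1 / 2) * (Real.pi / 3) = Real.pi / 6 := by push_cast; ring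
  rw [fq, h, div_self cos6_ne]

theorem fq_one : fq 1 = 0 := by
  have h : (((1 : ℤ) : ℝ) + 1 / 2) * (Real.pi / 3) = Real.pi / 2 := by push_cast; ring
  rw [fq, h, Real.cos_pi_div_two, zero_div]

theorem fq_neg_one : fq (-1) = 1 := by
  have h : (((-1 : ℤ) : ℝ) + 1 / 2) * (Real.pi / 3) = -(Real.pi / 6) := by push_cast; ring
  rw [fq, h, Real.cos_neg, div_self cos6_ne]

theorem wq_le {k : ℤ} (h1 : -2 ≤ k) (h2 : k ≤ 2) :
    wq k = 1 ∨ wq k = 0 ∨ (k = -2 ∧ wq k = -1) := by
  have : k = -2 ∨ k = -1 ∨ k = 0 ∨ k = 1 ∨ k = 2 := by omega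
  rcases this with h | h | h | h | h
  · subst h; exact Or.inr (Or.inr ⟨rfl, wq_neg_two⟩)
  · subst h; exact Or.inr (Or.inl wq_neg_one)
  · subst h; exact Or.inl wq_zero
  · subst h; exact Or.inl wq_one
  · subst h; exact Or.inr (Or.inl wq_two)

theorem fq_le {k : ℤ} (h1 : -1 ≤ k) (h2 : k ≤ 1) : fq k = 1 ∨ fq k = 0 := by
  have : k = -1 ∨ k = 0 ∨ k = 1 := by omega
  rcases this with h | h | h
  · subst h; exact Or.inl fq_neg_one
  · subst h; exact Or.inl fq_zero
  · subst h; exact Or.inr fq_one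

/-- lifted floor pattern of a cylinder of circumference `M` -/
structure Pat (M : ℕ) (σ : ℤ → Option ℤ) : Prop where
  per : ∀ i j : ℤ, σ i = some j → σ (i + M) = some (j + M)
  per' : ∀ i : ℤ, σ i = none → σ (i + M) = none
  inv : ∀ i j : ℤ, σ i = some j → σ j = some i
  ne : ∀ i j : ℤ, σ i = some j → j ≠ i
  near : ∀ i j : ℤ, σ i = some j → |j - i| < M

/-- floor phases (units `π/3`) -/
def bb (M k : ℕ) (i : ℤ) : ℤ :=
  let r := (i + 2 * k) % (M : ℤ)
  if r < 2 * k then 1 else if r = 2 * k then 0 else if r < 4 * k then -1 else 0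

theorem bb_le (M k : ℕ) (i : ℤ) : -1 ≤ bb M k i ∧ bb M k i ≤ 1 := by
  unfold bb
  dsimp only
  split_ifs <;> omega

theorem bb_per (M k : ℕ) (i : ℤ) : bb M k (i + M) = bb M k i := by
  unfold bb
  have : (i + (M : ℤ) + 2 * k) % (M : ℤ) = (i + 2 * k) % (M : ℤ) := by
    rw [show i + (M : ℤ) + 2 * k = i + 2 * k + M by ring, Int.add_emod_right]
  rw [this]

/-- weight of a pattern; `ε = 1`: the charges, `ε = -1`: the reversed charges -/
noncomputable def fac (M k : ℕ) (σ : ℤ → Option ℤ) (ε : ℤ) (i : ℤ) : ℝ :=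
  match σ i with
  | none => fq (bb M k i)
  | some j => if i < j then wq (ε * (bb M k j - bb M k i)) else 1

/-- total weight -/
noncomputable def wt (M k : ℕ) (σ : ℤ → Option ℤ) (L : ℕ) (ε : ℤ) : ℝ :=
  2 ^ L * ∏ i ∈ Finset.range M, fac M k σ ε i

theorem fac_cases (M k : ℕ) (σ : ℤ → Option ℤ) {ε : ℤ} (hε : ε = 1 ∨ ε = -1) (i : ℤ) :
    fac M k σ ε i = 1 ∨ fac M k σ ε i = 0 ∨
      (fac M k σ ε i = -1 ∧ ∃ j, σ i = some j ∧ i < j ∧ ε * (bb M k j - bb M k i) = -2) := by
  unfold fac
  have hi := bb_le M k i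
  rcases h : σ i with _ | j
  · dsimp only
    rcases fq_le hi.1 hi.2 with h | h
    · exact Or.inl h
    · exact Or.inr (Or.inl h)
  · dsimp only
    have hj := bb_le M k j
    by_cases hij : i < j
    · rw [if_pos hij]
      have hb1 : -2 ≤ ε * (bb M k j - bb M k i) := by
        rcases hε with h | h <;> subst h <;> omega
      have hb2 : ε * (bb M k j - bb M k i) ≤ 2 := by
        rcases hε with h | h <;> subst h <;> omega
      rcases wq_le hb1 hb2 with h | h | ⟨h1, h2⟩
      · exact Or.inl h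
      · exact Or.inr (Or.inl h)
      · exact Or.inr (Or.inr ⟨h2, j, rfl, hij, h1⟩)
    · rw [if_neg hij]; exact Or.inl rfl

theorem abs_fac_le (M k : ℕ) (σ : ℤ → Option ℤ) {ε : ℤ} (hε : ε = 1 ∨ ε = -1) (i : ℤ) :
    |fac M k σ ε i| ≤ 1 := by
  rcases fac_cases M k σ hε i with h | h | ⟨h, -⟩ <;> rw [h] <;> norm_num

theorem abs_wt_le (M k : ℕ) (σ : ℤ → Option ℤ) (L : ℕ) {ε : ℤ} (hε : ε = 1 ∨ ε = -1) :
    |wt M k σ L ε| ≤ 2 ^ L := by
  unfold wt
  rw [abs_mul, Finset.abs_prod, abs_of_pos (by positivity : (0 : ℝ) < 2 ^ L)]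
  have : ∏ i ∈ Finset.range M, |fac M k σ ε i| ≤ ∏ i ∈ Finset.range M, (1 : ℝ) :=
    Finset.prod_le_prod (fun i _ => abs_nonneg _) (fun i _ => abs_fac_le M k σ hε i)
  rw [Finset.prod_const_one] at this
  nlinarith [show (0 : ℝ) < 2 ^ L by positivity]

/-- values of the phases near the origin -/
theorem bb_neg {M k : ℕ} (hM : 4 * k ≤ M) {i : ℤ} (h1 : -(2 * k : ℤ) ≤ i) (h2 : i < 0) :
    bb M k i = 1 := by
  unfold bb
  have : (i + 2 * k) % (M : ℤ) = i + 2 * k := Int.emod_eq_of_lt (by omega) (by omega)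
  rw [this]; dsimp only; rw [if_pos (by omega)]

theorem bb_zero {M k : ℕ} (hk : 0 < k) (hM : 4 * k ≤ M) : bb M k 0 = 0 := by
  unfold bb
  have : ((0 : ℤ) + 2 * k) % (M : ℤ) = 2 * k := by
    rw [zero_add]; exact Int.emod_eq_of_lt (by omega) (by omega)
  rw [this]; dsimp only; rw [if_neg (by omega), if_pos rfl]

theorem bb_pos {M k : ℕ} (hM : 4 * k ≤ M) {i : ℤ} (h1 : 0 < i) (h2 : i < 2 * k) :
    bb M k i = -1 := by
  unfold bb
  have : (i + 2 * k) % (M : ℤ) = i + 2 * k := Int.emod_eq_of_lt (by omega) (by omega)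
  rw [this]; dsimp only; rw [if_neg (by omega), if_neg (by omega), if_pos (by omega)]

theorem bb_far {M k : ℕ} (hk : 0 < k) {i : ℤ} (h1 : 2 * k ≤ i) (h2 : i < M - 2 * k) :
    bb M k i = 0 := by
  unfold bb
  have : (i + 2 * k) % (M : ℤ) = i + 2 * k := Int.emod_eq_of_lt (by omega) (by omega)
  rw [this]; dsimp only; rw [if_neg (by omega), if_neg (by omega), if_neg (by omega)]

theorem bb_far' {M k : ℕ} (hk : 0 < k) {i : ℤ} (h1 : 2 * k - M ≤ i) (h2 : i < -(2 * k : ℤ)) :
    bb M k i = 0 := by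
  rw [← bb_per]
  exact bb_far hk (by omega) (by omega)

/-- LEFT: the strand of the end `0` must leave `[-2k, 2k-1]`. -/
theorem wt_left {M k : ℕ} (hk : 0 < k) (hM : 4 * k ≤ M) {σ : ℤ → Option ℤ} (hσ : Pat M σ) (L : ℕ)
    {j : ℤ} (h0 : σ 0 = some j) (h1 : -(2 * k : ℤ) ≤ j) (h2 : j < 2 * k) : wt M k σ L 1 = 0 := by
  unfold wt
  have hM0 : 0 < M := by omega
  rcases lt_trichotomy j 0 with hj | hj | hj
  · have h3 : σ (j + M) = some ((0 : ℤ) + M) := hσ.per _ _ (hσ.inv _ _ h0)
    have hm : (j + M).toNat ∈ Finset.range M := by rw [Finset.mem_range]; omega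
    have hc : (((j + M).toNat : ℕ) : ℤ) = j + M := Int.toNat_of_nonneg (by omega)
    rw [Finset.prod_eq_zero hm, mul_zero]
    rw [hc]; unfold fac; rw [h3]; dsimp only
    rw [if_pos (by omega), bb_per, bb_per, bb_zero hk hM, bb_neg hM h1 hj]
    exact wq_neg_one
  · exact absurd hj (hσ.ne _ _ h0)
  · have hm : 0 ∈ Finset.range M := by rw [Finset.mem_range]; omega
    rw [Finset.prod_eq_zero hm, mul_zero]
    rw [Nat.cast_zero]; unfold fac; rw [h0]; dsimp only
    rw [if_pos hj, bb_zero hk hM, bb_pos hM hj h2]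
    exact wq_neg_one

/-- a single factor at an arbitrary lift -/
theorem fac_zero_of {M k : ℕ} {σ : ℤ → Option ℤ} (hσ : Pat M σ) (hM0 : 0 < M) {ε : ℤ} {i j : ℤ}
    (h : σ i = some j) (hij : i < j) (hw : wq (ε * (bb M k j - bb M k i)) = 0) (L : ℕ) :
    wt M k σ L ε = 0 := by
  have hperN : ∀ n : ℕ, ∀ i j : ℤ, σ i = some j → σ (i + n * M) = some (j + n * M) := by
    intro n
    induction n with
    | zero => intro i j h; simpa using h
    | succ n ih =>
      intro i j h
      have := hσ.per _ _ (ih _ _ h)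
      rw [show i + ((n + 1 : ℕ) : ℤ) * M = i + n * M + M by push_cast; ring,
        show j + ((n + 1 : ℕ) : ℤ) * M = j + n * M + M by push_cast; ring]
      exact this
  have hbN : ∀ n : ℕ, ∀ i : ℤ, bb M k (i + n * M) = bb M k i := by
    intro n
    induction n with
    | zero => intro i; simp
    | succ n ih =>
      intro i
      rw [show i + ((n + 1 : ℕ) : ℤ) * M = i + n * M + M by push_cast; ring, bb_per, ih]
  have hnegN : ∀ n : ℕ, ∀ i j : ℤ, σ i = some j → σ (i - n * M) = some (j - n * M) := by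
    intro n i j h
    -- use the periodicity backwards through the involution and the values
    rcases hv : σ (i - n * M) with _ | j'
    · exfalso
      have : ∀ m : ℕ, σ (i - n * M + m * M) = none := by
        intro m
        induction m with
        | zero => simpa using hv
        | succ m ih =>
          rw [show i - n * M + ((m + 1 : ℕ) : ℤ) * M = i - n * M + m * M + M by push_cast; ring]
          exact hσ.per' _ ih
      have h2 := this n
      rw [show i - n * M + n * M = i by ring, h] at h2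
      exact absurd h2 (by simp)
    · have h2 := hperN n _ _ hv
      rw [show i - n * M + n * M = i by ring, h] at h2
      have h3 : j = j' + n * M := Option.some.inj h2
      rw [h3]; congr 1; ring
  have hbnegN : ∀ n : ℕ, ∀ i : ℤ, bb M k (i - n * M) = bb M k i := by
    intro n i
    have := hbN n (i - n * M)
    rw [show i - n * M + n * M = i by ring] at this
    exact this.symm
  -- general shift
  have key : ∃ c : ℤ, 0 ≤ i - c * M ∧ i - c * M < M ∧ σ (i - c * M) = some (j - c * M) ∧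
      bb M k (i - c * M) = bb M k i ∧ bb M k (j - c * M) = bb M k j := by
    refine ⟨i / M, ?_, ?_, ?_, ?_, ?_⟩
    · have := Int.emod_nonneg i (show (M : ℤ) ≠ 0 by omega)
      have h2 := Int.emod_add_mul_ediv i M
      nlinarith [mul_comm (M : ℤ) (i / M)]
    · have := Int.emod_lt_of_pos i (show (0 : ℤ) < M by omega)
      have h2 := Int.emod_add_mul_ediv i M
      nlinarith [mul_comm (M : ℤ) (i / M)]
    all_goals
      rcases le_total 0 (i / (M : ℤ)) with hc | hc
      · obtain ⟨n, hn⟩ := Int.eq_ofNat_of_zero_le hc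
        rw [hn]
        first
          | exact hnegN n _ _ h
          | exact hbnegN n _
      · obtain ⟨n, hn⟩ := Int.eq_ofNat_of_zero_le (neg_nonneg.mpr hc)
        have hn' : i / (M : ℤ) = -(n : ℤ) := by omega
        rw [hn']
        first
          | (rw [show i - -(n : ℤ) * M = i + n * M by ring, show j - -(n : ℤ) * M = j + n * M by ring]
             exact hperN n _ _ h)
          | (rw [show i - -(n : ℤ) * M = i + n * M by ring]; exact hbN n _)
          | (rw [show j - -(n : ℤ) * M = j + n * M by ring]; exact hbN n _)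
  obtain ⟨c, hc0, hc1, hc2, hc3, hc4⟩ := key
  have hm : (i - c * M).toNat ∈ Finset.range M := by rw [Finset.mem_range]; omega
  have hcc : (((i - c * M).toNat : ℕ) : ℤ) = i - c * M := Int.toNat_of_nonneg hc0
  unfold wt
  rw [Finset.prod_eq_zero hm, mul_zero]
  rw [hcc]; unfold fac; rw [hc2]; dsimp only
  rw [if_pos (by omega), hc3, hc4]
  exact hw

/-- the three local exclusions implied by a nonzero reversed weight -/
def NoLoc (k : ℕ) (σ : ℤ → Option ℤ) : Prop :=
  (∀ i j : ℤ, σ i = some j → -(4 * k : ℤ) ≤ i → i < -(2 * k : ℤ) → -(2 * k : ℤ) ≤ j → j < 0 → False) ∧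
  (∀ i j : ℤ, σ i = some j → 0 < i → i < 2 * k → 2 * k ≤ j → j < 4 * k → False) ∧
  (∀ i j : ℤ, σ i = some j → -(2 * k : ℤ) ≤ i → i < 0 → 0 < j → j < 2 * k → False)

/-- an arc that goes around the cylinder, from the right piece to the left piece -/
def World (M k : ℕ) (σ : ℤ → Option ℤ) : Prop :=
  ∃ i j : ℤ, σ i = some j ∧ 0 < i ∧ i < 2 * k ∧ (M : ℤ) - 2 * k ≤ j ∧ j < M

theorem noLoc_of {M k : ℕ} (hk : 0 < k) (hM : 8 * k ≤ M) {σ : ℤ → Option ℤ} (hσ : Pat M σ) {L : ℕ}
    (h : wt M k σ L (-1) ≠ 0) : NoLoc k σ := by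
  have hM0 : 0 < M := by omega
  refine ⟨?_, ?_, ?_⟩
  · intro i j hij h1 h2 h3 h4
    apply h
    apply fac_zero_of hσ hM0 hij (by omega)
    rw [bb_neg (by omega) h3 h4, bb_far' hk (by omega) h2]
    exact wq_neg_one
  · intro i j hij h1 h2 h3 h4
    apply h
    apply fac_zero_of hσ hM0 hij (by omega)
    rw [bb_pos (by omega) h1 h2, bb_far hk h3 (by omega)]
    exact wq_neg_one
  · intro i j hij h1 h2 h3 h4
    apply h
    apply fac_zero_of hσ hM0 hij (by omega)
    rw [bb_neg (by omega) h1 h2, bb_pos (by omega) h3 h4]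
    exact wq_two

theorem bb_eq_one {M k : ℕ} (hM : 0 < M) {i : ℤ} (h : bb M k i = 1) (h0 : 0 ≤ i) (h1 : i < M)
    (hkM : 4 * k ≤ M) : (M : ℤ) - 2 * k ≤ i := by
  by_contra hc
  push Not at hc
  unfold bb at h
  have : (i + 2 * k) % (M : ℤ) = i + 2 * k := Int.emod_eq_of_lt (by omega) (by omega)
  rw [this] at h
  dsimp only at h
  split_ifs at h <;> omega

theorem bb_eq_neg_one {M k : ℕ} {i : ℤ} (h : bb M k i = -1) (h0 : 0 ≤ i) (h1 : i < M)
    (hkM : 4 * k ≤ M) : 0 < i ∧ i < 2 * k := by
  unfold bb at h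
  by_cases hc : i + 2 * k < M
  · have : (i + 2 * k) % (M : ℤ) = i + 2 * k := Int.emod_eq_of_lt (by omega) (by omega)
    rw [this] at h
    dsimp only at h
    split_ifs at h <;> omega
  · have : (i + 2 * k) % (M : ℤ) = i + 2 * k - M := by
      rw [← Int.sub_emod_right]; exact Int.emod_eq_of_lt (by omega) (by omega)
    rw [this] at h
    dsimp only at h
    split_ifs at h <;> omega

/-- RIGHT: negative weights only with an arc around the cylinder and no local arc. -/
theorem wt_right_neg {M k : ℕ} (hk : 0 < k) (hM : 8 * k ≤ M) {σ : ℤ → Option ℤ} (hσ : Pat M σ)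
    {L : ℕ} (h : wt M k σ L (-1) < 0) : NoLoc k σ ∧ World M k σ := by
  refine ⟨noLoc_of hk hM hσ h.ne, ?_⟩
  unfold wt at h
  have hp : ∏ i ∈ Finset.range M, fac M k σ (-1) i < 0 := by
    by_contra hc; push Not at hc
    exact absurd h (not_lt.mpr (mul_nonneg (by positivity) hc))
  have hex : ∃ i ∈ Finset.range M, fac M k σ (-1) (i : ℤ) < 0 := by
    by_contra hc
    push Not at hc
    exact absurd hp (not_lt.mpr (Finset.prod_nonneg (fun i hi => hc i hi)))
  obtain ⟨i, hi, hlt⟩ := hex
  rw [Finset.mem_range] at hi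
  rcases fac_cases M k σ (Or.inr rfl : (-1 : ℤ) = 1 ∨ (-1 : ℤ) = -1) i with h1 | h1 | ⟨-, j, hj, hij, hb⟩
  · rw [h1] at hlt; norm_num at hlt
  · rw [h1] at hlt; norm_num at hlt
  · have hbi := bb_le M k i
    have hbj := bb_le M k j
    have e1 : bb M k i = -1 := by omega
    have e2 : bb M k j = 1 := by omega
    obtain ⟨a1, a2⟩ := bb_eq_neg_one e1 (by omega) (by omega) (by omega)
    have hn := hσ.near _ _ hj
    rw [abs_of_pos (by omega)] at hn
    by_cases hjM : j < M
    · exact ⟨i, j, hj, a1, a2, bb_eq_one (by omega) e2 (by omega) hjM (by omega), hjM⟩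
    · exfalso
      -- `j - M` lies in `[0, i)`, where the phase is not `1`
      have e3 : bb M k (j - M) = 1 := by
        rw [← bb_per]; rw [show j - (M : ℤ) + M = j by ring]; exact e2
      have := bb_eq_one (by omega) e3 (by omega) (by omega) (by omega)
      omega

/-- the good local event: both pieces are matched inside themselves -/
def GoodLoc (k : ℕ) (σ : ℤ → Option ℤ) : Prop :=
  (∀ i : ℤ, -(2 * k : ℤ) ≤ i → i < 0 → ∃ j, σ i = some j ∧ -(2 * k : ℤ) ≤ j ∧ j < 0) ∧
  (∀ i : ℤ, 0 ≤ i → i < 2 * k → ∃ j, σ i = some j ∧ 0 ≤ j ∧ j < 2 * k)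

theorem wt_right_good {M k : ℕ} (hk : 0 < k) (hM : 8 * k ≤ M) {σ : ℤ → Option ℤ} (hσ : Pat M σ)
    (L : ℕ) (h : GoodLoc k σ) : wt M k σ L (-1) = 2 ^ L := by
  obtain ⟨hl, hr⟩ := h
  unfold wt
  have : ∏ i ∈ Finset.range M, fac M k σ (-1) (i : ℤ) = 1 := by
    apply Finset.prod_eq_one
    intro i hi
    rw [Finset.mem_range] at hi
    by_cases h1 : (i : ℤ) < 2 * k
    · obtain ⟨j, hj, hj0, hj1⟩ := hr i (by omega) h1
      unfold fac; rw [hj]; dsimp only
      by_cases hij : (i : ℤ) < j
      · rw [if_pos hij, bb_pos (by omega) (by omega) hj1]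
        rcases Nat.eq_zero_or_pos i with h0 | h0
        · subst h0; rw [Nat.cast_zero, bb_zero hk (by omega)]; exact wq_one
        · rw [bb_pos (by omega) (by omega) h1]; exact wq_zero
      · rw [if_neg hij]
    · by_cases h2 : (M : ℤ) - 2 * k ≤ i
      · obtain ⟨j, hj, hj0, hj1⟩ := hl (i - M) (by omega) (by omega)
        have hj' : σ (i : ℤ) = some (j + M) := by
          have := hσ.per _ _ hj
          rwa [show (i : ℤ) - M + M = i by ring] at this
        unfold fac; rw [hj']; dsimp only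
        by_cases hij : (i : ℤ) < j + M
        · rw [if_pos hij, bb_per, bb_neg (by omega) hj0 hj1]
          have : bb M k (i : ℤ) = 1 := by
            rw [show (i : ℤ) = i - M + M by ring, bb_per]
            exact bb_neg (by omega) (by omega) (by omega)
          rw [this]; exact wq_zero
        · rw [if_neg hij]
      · push Not at h1 h2
        have hbi : bb M k (i : ℤ) = 0 := bb_far hk h1 (by omega)
        unfold fac
        rcases hs : σ (i : ℤ) with _ | j
        · dsimp only; rw [hbi]; exact fq_zero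
        · dsimp only
          by_cases hij : (i : ℤ) < j
          · rw [if_pos hij]
            have hn := hσ.near _ _ hs
            rw [abs_of_pos (by omega)] at hn
            have hinv := hσ.inv _ _ hs
            have hbj : bb M k j = 0 := by
              by_cases c1 : j < (M : ℤ) - 2 * k
              · exact bb_far hk (by omega) c1
              · by_cases c2 : j < M
                · exfalso
                  obtain ⟨j', hj', b1, b2⟩ := hl (j - M) (by omega) (by omega)
                  have := hσ.per _ _ hj'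
                  rw [show j - (M : ℤ) + M = j by ring, hinv] at this
                  have := Option.some.inj this
                  omega
                · by_cases c3 : j < M + 2 * k
                  · exfalso
                    obtain ⟨j', hj', b1, b2⟩ := hr (j - M) (by omega) (by omega)
                    have := hσ.per _ _ hj'
                    rw [show j - (M : ℤ) + M = j by ring, hinv] at this
                    have := Option.some.inj this
                    omega
                  · rw [show j = j - M + M by ring, bb_per]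
                    exact bb_far hk (by omega) (by omega)
            rw [hbi, hbj]; exact wq_zero
          · rw [if_neg hij]
  rw [this, mul_one]

/-- the strand of the end `0` leaves `[-2k, 2k-1]` -/
def Leave (k : ℕ) (σ : ℤ → Option ℤ) : Prop :=
  ∀ j : ℤ, σ 0 = some j → -(2 * k : ℤ) ≤ j → j < 2 * k → False

open Classical in
/-- **arrow reversal inequality**: good local patterns are controlled by the boundary two-arm event
of the end `0` and by three one-arm events together with an arc around the cylinder. -/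
theorem ari_ineq {M k : ℕ} (hk : 0 < k) (hM : 8 * k ≤ M) {Ω : Type*} (S : Finset Ω) (P : Ω → ℝ)
    (hP : ∀ ω ∈ S, 0 ≤ P ω) (σ : Ω → ℤ → Option ℤ) (hσ : ∀ ω ∈ S, Pat M (σ ω)) (L : Ω → ℕ)
    (hARI : ∑ ω ∈ S, P ω * wt M k (σ ω) (L ω) 1 = ∑ ω ∈ S, P ω * wt M k (σ ω) (L ω) (-1)) :
    ∑ ω ∈ S with GoodLoc k (σ ω), P ω * 2 ^ (L ω) ≤
      ∑ ω ∈ S with Leave k (σ ω), P ω * 2 ^ (L ω) +
      ∑ ω ∈ S with (NoLoc k (σ ω) ∧ World M k (σ ω)), P ω * 2 ^ (L ω) := by
  have h1 : ∑ ω ∈ S, P ω * wt M k (σ ω) (L ω) 1 ≤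
      ∑ ω ∈ S with Leave k (σ ω), P ω * 2 ^ (L ω) := by
    rw [Finset.sum_filter]
    apply Finset.sum_le_sum
    intro ω hω
    by_cases hl : Leave k (σ ω)
    · rw [if_pos hl]
      exact mul_le_mul_of_nonneg_left ((le_abs_self _).trans (abs_wt_le M k _ _ (Or.inl rfl)))
        (hP ω hω)
    · rw [if_neg hl]
      unfold Leave at hl
      push Not at hl
      obtain ⟨j, a1, a2, a3⟩ := hl
      rw [wt_left hk (by omega) (hσ ω hω) _ a1 a2 a3.1, mul_zero]
  have h2 : ∑ ω ∈ S with GoodLoc k (σ ω), P ω * 2 ^ (L ω) ≤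
      ∑ ω ∈ S, P ω * wt M k (σ ω) (L ω) (-1) +
      ∑ ω ∈ S with (NoLoc k (σ ω) ∧ World M k (σ ω)), P ω * 2 ^ (L ω) := by
    rw [Finset.sum_filter, Finset.sum_filter, ← Finset.sum_add_distrib]
    apply Finset.sum_le_sum
    intro ω hω
    have hPω := hP ω hω
    have h2L : (0 : ℝ) < 2 ^ (L ω) := by positivity
    by_cases hg : GoodLoc k (σ ω)
    · rw [if_pos hg, wt_right_good hk hM (hσ ω hω) _ hg]
      have : 0 ≤ (if NoLoc k (σ ω) ∧ World M k (σ ω) then P ω * (2 : ℝ) ^ L ω else 0) := by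
        split_ifs
        · positivity
        · exact le_rfl
      linarith
    · rw [if_neg hg]
      by_cases hn : wt M k (σ ω) (L ω) (-1) < 0
      · rw [if_pos (wt_right_neg hk hM (hσ ω hω) hn)]
        have := abs_wt_le M k (σ ω) (L ω) (Or.inr rfl : (-1 : ℤ) = 1 ∨ (-1 : ℤ) = -1)
        have := (abs_le.mp this).1
        nlinarith
      · push Not at hn
        have : 0 ≤ (if NoLoc k (σ ω) ∧ World M k (σ ω) then P ω * (2 : ℝ) ^ L ω else 0) := by
          split_ifs
          · positivity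
          · exact le_rfl
        have := mul_nonneg hPω hn
        linarith
  linarith

end Crest.Agent.R158.Hp854
end

-- ▼ part R158/Hp6_854
section

/-!
# R158, block HP1 (helper854), part 6: the floor pattern of the cylinder and the classes with legs
-/

set_option autoImplicit false
set_option linter.unusedSectionVars false
set_option linter.unusedSimpArgs false

namespace Crest.Agent.R158.Hp854

open Finset
open Crest.Agent.R158.Bk430
open Crest.Agent.R158.Ts405 (shE sL per lft proj_lft proj_eq_iff iter_proj nx_proj turn_proj Ctr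
  per_pos per_iter per_min hd_proj tl_proj TT_torus T1_closed T1_periodic mp_pos sum_cycle)

section Sig

variable {M L H : ℕ} [NeZero M] [NeZero L] [Fact (Even M)] [Fact (Even L)]

theorem nx_iter_inj (s : ℤ × ℤ → Bool) (k : ℕ) {e f : ME ℤ ℤ} (h : (nx s)^[k] e = (nx s)^[k] f) :
    e = f := ((nxE s).injective.iterate k) h

theorem H_pos (hL : L = 2 * H) : 0 < H := by
  have := Nat.pos_of_ne_zero (NeZero.ne L)
  omega

theorem per_iter_eq (hL : L = 2 * H) (x : Ct M L H → Bool) (e : ME ℤ ℤ) (k : ℕ) :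
    per (sx hL x) (proj M L ((nx (sL (sx hL x)))^[k] e)) = per (sx hL x) (proj M L e) := by
  rw [iter_proj]
  exact Function.minimalPeriod_apply_iterate
    (Function.minimalPeriod_pos_iff_mem_periodicPts.1 (mp_pos (nxE (sx hL x)) _)) _

theorem hp_iter_eq (hL : L = 2 * H) (x : Ct M L H → Bool) (e : ME ℤ ℤ) (k : ℕ) :
    hp hL x ((nx (sL (sx hL x)))^[k] e) = hp hL x e := by
  unfold hp; rw [per_iter_eq]

/-- end of the strand of a leg -/
noncomputable def fin (hL : L = 2 * H) (x : Ct M L H → Bool) (e : ME ℤ ℤ) : ME ℤ ℤ :=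
  (nx (sL (sx hL x)))^[hp hL x e] e

theorem fin_leg (hL : L = 2 * H) (x : Ct M L H → Bool) {e : ME ℤ ℤ} (he : IsLeg H e) :
    IsLeg H (fin hL x e) := (hp_facts hL x he).2.2.1

/-- on the same level the strand comes back -/
theorem fin_fin (hL : L = 2 * H) (x : Ct M L H → Bool) {e : ME ℤ ℤ} (he : IsLeg H e)
    (h : (fin hL x e).1.2 = e.1.2) : fin hL x (fin hL x e) = e := by
  have h1 := refl_half hL x he (hp hL x e)
  have h2 : re (2 * e.1.2 + 1) ((nx (sL (sx hL x)))^[hp hL x e] e) = fin hL x e := by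
    have := re_leg (fin_leg hL x he)
    rw [h] at this
    exact this
  rw [h2] at h1
  have h3 : hp hL x (fin hL x e) = hp hL x e := hp_iter_eq hL x e _
  have h0 : fin hL x (fin hL x e) = (nx (sL (sx hL x)))^[hp hL x (fin hL x e)] (fin hL x e) := rfl
  rw [h0, h3]
  exact h1

theorem closed_of_same (hL : L = 2 * H) (x : Ct M L H → Bool) {e : ME ℤ ℤ} (he : IsLeg H e)
    (h : (fin hL x e).1.2 = e.1.2) :
    (nx (sL (sx hL x)))^[per (sx hL x) (proj M L e)] e = e := by
  have h1 := fin_fin hL x he h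
  have h3 : hp hL x (fin hL x e) = hp hL x e := hp_iter_eq hL x e _
  have h4 : fin hL x (fin hL x e) = (nx (sL (sx hL x)))^[hp hL x e + hp hL x e] e := by
    have h0 : fin hL x (fin hL x e) = (nx (sL (sx hL x)))^[hp hL x (fin hL x e)] (fin hL x e) := rfl
    rw [h0, h3, Function.iterate_add_apply]
    rfl
  rw [h4] at h1
  rw [← (hp_facts hL x he).2.1, two_mul]
  exact h1

theorem same_of_closed (hL : L = 2 * H) (x : Ct M L H → Bool) {e : ME ℤ ℤ} (he : IsLeg H e)
    (h : (nx (sL (sx hL x)))^[per (sx hL x) (proj M L e)] e = e) : (fin hL x e).1.2 = e.1.2 := by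
  rw [← (hp_facts hL x he).2.1, two_mul, Function.iterate_add_apply] at h
  have h1 := refl_half hL x he (hp hL x e)
  have h2 := nx_iter_inj _ _ (h.trans h1.symm)
  have h3 := fin_leg hL x he
  have h4 : (fin hL x e).1.2 = 2 * e.1.2 - (fin hL x e).1.2 := by
    have h5 : fin hL x e = re (2 * e.1.2 + 1) (fin hL x e) := h2
    have h6 : (re (2 * e.1.2 + 1) (fin hL x e)).1.2 = 2 * e.1.2 - (fin hL x e).1.2 := by
      unfold re
      rw [if_pos h3.1]
      simp only
      ring
    rw [← h6, ← h5]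
  omega

theorem Tl_lift (s : ZMod M × ZMod L → Bool) (e : ME ℤ ℤ) : Tl s (orb (nxE s) (proj M L e))
      = ∑ t ∈ range (per s (proj M L e)), turn (sL s) ((nx (sL s))^[t] e) := by
  classical
  unfold Tl
  rw [sum_cycle]
  refine Finset.sum_congr rfl fun t _ => ?_
  have : (nxE s)^[t] (proj M L e) = (nx s)^[t] (proj M L e) := rfl
  rw [this, ← iter_proj, turn_proj]

theorem Tl_same (hL : L = 2 * H) (x : Ct M L H → Bool) {e : ME ℤ ℤ} (he : IsLeg H e)
    (h : (fin hL x e).1.2 = e.1.2) :
    Tl (sx hL x) (orb (nxE (sx hL x)) (proj M L e)) = 4 ∨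
    Tl (sx hL x) (orb (nxE (sx hL x)) (proj M L e)) = -4 :=
  (TT_torus (sx hL x)).c_turn _ ((ctr_iff _ e).2 (closed_of_same hL x he h))

theorem Tl_diff (hL : L = 2 * H) (x : Ct M L H → Bool) {e : ME ℤ ℤ} (he : IsLeg H e)
    (h : (fin hL x e).1.2 ≠ e.1.2) :
    Tl (sx hL x) (orb (nxE (sx hL x)) (proj M L e)) = 0 :=
  (TT_torus (sx hL x)).n_turn _ fun hc => h (same_of_closed hL x he ((ctr_iff _ e).1 hc))

/-- total turn = twice the turn of the half strand -/
theorem Tl_half (hL : L = 2 * H) (x : Ct M L H → Bool) {e : ME ℤ ℤ} (he : IsLeg H e)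
    (h : (fin hL x e).1.2 = e.1.2) :
    Tl (sx hL x) (orb (nxE (sx hL x)) (proj M L e)) =
      2 * ∑ t ∈ range (hp hL x e), turn (sL (sx hL x)) ((nx (sL (sx hL x)))^[t] e) := by
  have hc := closed_of_same hL x he h
  rw [Tl_lift, ← (hp_facts hL x he).2.1, two_mul (hp hL x e), Finset.sum_range_add, two_mul]
  rw [← (hp_facts hL x he).2.1, two_mul] at hc
  congr 1
  rw [← Finset.sum_range_reflect]
  refine Finset.sum_congr rfl fun t ht => ?_
  rw [mem_range] at ht
  have h1 := refl_half hL x he (t + 1)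
  have h2 : (nx (sL (sx hL x)))^[t + 1] ((nx (sL (sx hL x)))^[hp hL x e + (hp hL x e - 1 - t)] e)
      = e := by
    rw [← Function.iterate_add_apply]
    have : t + 1 + (hp hL x e + (hp hL x e - 1 - t)) = hp hL x e + hp hL x e := by omega
    rw [this, hc]
  have h3 := nx_iter_inj _ _ (h2.trans h1.symm)
  rw [h3, Function.iterate_succ_apply', turn_re (oddC_int e.1.2) (sL_rv hL x he.2)]

/-! ### the floor pattern -/

/-- floor leg -/
def fl (i : ℤ) : ME ℤ ℤ := ((i, 0), true)

theorem fl_leg (H : ℕ) (i : ℤ) : IsLeg H (fl i) := ⟨rfl, dvd_zero _⟩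

theorem fl_eq {H : ℕ} {f : ME ℤ ℤ} (h : IsLeg H f) (h0 : f.1.2 = 0) : f = fl f.1.1 := by
  obtain ⟨⟨a, b⟩, d⟩ := f
  obtain ⟨h1, -⟩ := h
  simp only at h0 h1
  subst h0 h1
  rfl

/-- the lifted floor pattern -/
noncomputable def sgm (hL : L = 2 * H) (x : Ct M L H → Bool) (i : ℤ) : Option ℤ :=
  if (fin hL x (fl i)).1.2 = 0 then some (fin hL x (fl i)).1.1 else none

theorem sgm_some (hL : L = 2 * H) (x : Ct M L H → Bool) {i j : ℤ} :
    sgm hL x i = some j ↔ fin hL x (fl i) = fl j := by
  unfold sgm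
  constructor
  · intro h
    split_ifs at h with h1
    rw [fl_eq (fin_leg hL x (fl_leg H i)) h1]
    rw [Option.some.inj h]
  · intro h
    rw [h]
    simp [fl]

theorem sgm_none (hL : L = 2 * H) (x : Ct M L H → Bool) {i : ℤ} :
    sgm hL x i = none ↔ (fin hL x (fl i)).1.2 ≠ 0 := by
  unfold sgm
  split_ifs with h <;> simp [h]

theorem fl_shift (i : ℤ) : fl (i + M) = shE (M * 1, L * 0) (fl i) := by
  simp [fl, shE]

theorem hp_shift (hL : L = 2 * H) (x : Ct M L H → Bool) (i : ℤ) :
    hp hL x (fl (i + M)) = hp hL x (fl i) := by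
  unfold hp
  congr 2
  simp [fl, proj]

theorem fin_shift (hL : L = 2 * H) (x : Ct M L H → Bool) (i : ℤ) :
    fin hL x (fl (i + M)) = shE (M * 1, L * 0) (fin hL x (fl i)) := by
  unfold fin
  rw [hp_shift, fl_shift (L := L), iter_shE_torus]

theorem sgm_per (hL : L = 2 * H) (x : Ct M L H → Bool) (i j : ℤ) (h : sgm hL x i = some j) :
    sgm hL x (i + M) = some (j + M) := by
  rw [sgm_some] at h ⊢
  rw [fin_shift, h, ← fl_shift]

theorem sgm_per' (hL : L = 2 * H) (x : Ct M L H → Bool) (i : ℤ) (h : sgm hL x i = none) :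
    sgm hL x (i + M) = none := by
  rw [sgm_none] at h ⊢
  rw [fin_shift]
  simpa [shE] using h

theorem sgm_inv (hL : L = 2 * H) (x : Ct M L H → Bool) (i j : ℤ) (h : sgm hL x i = some j) :
    sgm hL x j = some i := by
  rw [sgm_some] at h ⊢
  rw [← h]
  refine fin_fin hL x (fl_leg H i) ?_
  rw [h]; rfl

theorem sgm_ne (hL : L = 2 * H) (x : Ct M L H → Bool) (i j : ℤ) (h : sgm hL x i = some j) :
    j ≠ i := by
  rw [sgm_some] at h
  intro hji
  have h1 := (hp_facts hL x (fl_leg H i)).2.2.2.1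
  apply h1
  have h2 : (nx (sL (sx hL x)))^[hp hL x (fl i)] (fl i) = fl j := h
  rw [h2, hji]

/-- the end of an even floor leg -/
theorem even_end (hL : L = 2 * H) (x : Ct M L H → Bool) {i : ℤ} (hi : i % 2 = 0) :
    (∃ j : ℤ, j % 2 = 1 ∧ fin hL x (fl i) = fl j) ∨
    (∃ j : ℤ, (j + H) % 2 = 0 ∧ fin hL x (fl i) = ((j, (H : ℤ)), true)) := by
  have hf := hp_facts hL x (fl_leg H i)
  have hlo : lo H (fl i) = 0 := by
    unfold lo fl; simp [hi]
  rcases confine_end (H_pos hL) (fl_leg H i) hf.1 hf.2.2.2.2.1 hf.2.2.1 with h | h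
  · left
    rw [hlo, add_zero] at h
    exact ⟨_, h.2, fl_eq (fin_leg hL x (fl_leg H i)) h.1⟩
  · right
    rw [hlo, zero_add] at h
    refine ⟨(fin hL x (fl i)).1.1, h.2, ?_⟩
    have h2 := (fin_leg hL x (fl_leg H i)).1
    have h1 : (fin hL x (fl i)).1.2 = H := h.1
    rw [← h1, ← h2]

/-- the end of an odd floor leg -/
theorem odd_end (hL : L = 2 * H) (x : Ct M L H → Bool) {i : ℤ} (hi : i % 2 = 1) :
    (∃ j : ℤ, j % 2 = 0 ∧ fin hL x (fl i) = fl j) ∨
    (∃ j : ℤ, (j + H) % 2 = 1 ∧ fin hL x (fl i) = ((j, -(H : ℤ)), true)) := by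
  have hf := hp_facts hL x (fl_leg H i)
  have hlo : lo H (fl i) = -(H : ℤ) := by
    unfold lo fl; simp [hi]
  rcases confine_end (H_pos hL) (fl_leg H i) hf.1 hf.2.2.2.2.1 hf.2.2.1 with h | h
  · right
    rw [hlo] at h
    refine ⟨(fin hL x (fl i)).1.1, ?_, ?_⟩
    · have := h.2
      have h3 : ((nx (sL (sx hL x)))^[hp hL x (fl i)] (fl i)).1.1 = (fin hL x (fl i)).1.1 := rfl
      rw [h3] at this
      omega
    · have h2 := (fin_leg hL x (fl_leg H i)).1
      have h1 : (fin hL x (fl i)).1.2 = -(H : ℤ) := h.1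
      rw [← h1, ← h2]
  · left
    rw [hlo] at h
    have h1 : (fin hL x (fl i)).1.2 = 0 := by
      have h4 : (fin hL x (fl i)).1.2 = -(H : ℤ) + H := h.1
      rw [h4]; ring
    refine ⟨(fin hL x (fl i)).1.1, ?_, fl_eq (fin_leg hL x (fl_leg H i)) h1⟩
    have := h.2
    have h3 : ((nx (sL (sx hL x)))^[hp hL x (fl i)] (fl i)).1.1 = (fin hL x (fl i)).1.1 := rfl
    rw [h3] at this
    omega

/-- the statement of the turn of an arc (helper405) -/
def ArcTurn : Prop := ∀ (s : ℤ × ℤ → Bool) (i j : ℤ) (n : ℕ), 0 < n → i % 2 = 0 →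
  (nx s)^[n] ((i, 0), true) = ((j, 0), true) → (∀ t < n, 1 ≤ (hd ((nx s)^[t] ((i, 0), true))).2) →
  (i < j → ∑ t ∈ range n, turn s ((nx s)^[t] ((i, 0), true)) = -2) ∧
  (j < i → ∑ t ∈ range n, turn s ((nx s)^[t] ((i, 0), true)) = 2)

theorem Tl_arc (hA : ArcTurn) (hL : L = 2 * H) (x : Ct M L H → Bool) {i j : ℤ} (hi : i % 2 = 0)
    (h : fin hL x (fl i) = fl j) :
    (i < j → Tl (sx hL x) (orb (nxE (sx hL x)) (proj M L (fl i))) = -4) ∧
    (j < i → Tl (sx hL x) (orb (nxE (sx hL x)) (proj M L (fl i))) = 4) := by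
  have hf := hp_facts hL x (fl_leg H i)
  have hlo : lo H (fl i) = 0 := by
    unfold lo fl; simp [hi]
  have h1 := hA (sL (sx hL x)) i j (hp hL x (fl i)) hf.1 hi h (by
    intro t ht
    have := (confine (H_pos hL) (fl_leg H i) hf.2.2.2.2.1 t ht).1
    rw [hlo] at this
    exact this)
  have h2 := Tl_half hL x (fl_leg H i) (by rw [h]; rfl)
  have h3 : ∑ t ∈ range (hp hL x (fl i)), turn (sL (sx hL x)) ((nx (sL (sx hL x)))^[t] (fl i)) =
    ∑ t ∈ range (hp hL x (fl i)), turn (sL (sx hL x)) ((nx (sL (sx hL x)))^[t] ((i, 0), true)) := rfl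
  rw [h3] at h2
  constructor
  · intro hij
    rw [h2, h1.1 hij]; rfl
  · intro hij
    rw [h2, h1.2 hij]; rfl

end Sig

end Crest.Agent.R158.Hp854
end

-- ▼ part R158/Hp7_854
section

/-!
# R158, block HP1 (helper854), part 7: values of the classes, the arrow reversal identity of patterns
-/

set_option autoImplicit false
set_option linter.unusedSectionVars false
set_option linter.unusedSimpArgs false
set_option linter.unusedVariables false

namespace Crest.Agent.R158.Hp854

open Finset
open Crest.Agent.R158.Bk430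
open Crest.Agent.R158.Ts405 (shE sL per lft proj_lft proj_eq_iff iter_proj nx_proj turn_proj Ctr
  per_pos per_iter per_min hd_proj tl_proj TT_torus T1_closed T1_periodic mp_pos sum_cycle)

/-! ### periodicity of the weights -/

theorem bb_mod (M k : ℕ) (i : ℤ) : bb M k (i % M) = bb M k i := by
  unfold bb
  rw [Int.emod_add_emod]

theorem fac_per {M k : ℕ} {σ : ℤ → Option ℤ} (h1 : ∀ i j : ℤ, σ i = some j → σ (i + M) = some (j + M))
    (h2 : ∀ i : ℤ, σ i = none → σ (i + M) = none) (ε : ℤ) (i : ℤ) :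
    fac M k σ ε (i + M) = fac M k σ ε i := by
  unfold fac
  rcases h : σ i with _ | j
  · rw [h2 i h]; simp only [bb_per]
  · rw [h1 i j h]; simp only [bb_per, add_lt_add_iff_right]

theorem fac_mul {M k : ℕ} {σ : ℤ → Option ℤ} (h1 : ∀ i j : ℤ, σ i = some j → σ (i + M) = some (j + M))
    (h2 : ∀ i : ℤ, σ i = none → σ (i + M) = none) (ε : ℤ) (i : ℤ) (n : ℕ) :
    fac M k σ ε (i + M * n) = fac M k σ ε i := by
  induction n with
  | zero => simp
  | succ n ih =>
    rw [show i + M * ((n + 1 : ℕ) : ℤ) = i + M * n + M by push_cast; ring, fac_per h1 h2, ih]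

theorem fac_mod {M k : ℕ} {σ : ℤ → Option ℤ} (h1 : ∀ i j : ℤ, σ i = some j → σ (i + M) = some (j + M))
    (h2 : ∀ i : ℤ, σ i = none → σ (i + M) = none) (ε : ℤ) (i : ℤ) :
    fac M k σ ε (i % M) = fac M k σ ε i := by
  have h := Int.emod_add_mul_ediv i M
  rcases le_total 0 (i / (M : ℤ)) with hc | hc
  · obtain ⟨n, hn⟩ := Int.eq_ofNat_of_zero_le hc
    have := fac_mul h1 h2 ε (k := k) (i % M) n
    rw [hn] at h
    rw [← this]
    congr 1
  · obtain ⟨n, hn⟩ := Int.eq_ofNat_of_zero_le (neg_nonneg.mpr hc)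
    have := fac_mul h1 h2 ε (k := k) i n
    rw [← this]
    congr 1
    have hn' : i / (M : ℤ) = -(n : ℤ) := by omega
    rw [hn'] at h
    linarith

/-! ### values -/

theorem two_cos_six : 2 * Real.cos (Real.pi / 6) = Real.sqrt 3 := by
  rw [Real.cos_pi_div_six]; ring

theorem wq_val (k : ℤ) : Real.sqrt 3 * wq k = 2 * Real.cos (((k : ℝ) - 1 / 2) * (Real.pi / 3)) := by
  rw [← two_cos_six, wq]
  field_simp [cos6_ne]

theorem fq_val (k : ℤ) : Real.sqrt 3 * fq k = 2 * Real.cos (((k : ℝ) + 1 / 2) * (Real.pi / 3)) := by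
  rw [← two_cos_six, fq]
  field_simp [cos6_ne]

/-- weight per leg -/
noncomputable def kz : ℝ := Real.sqrt (Real.sqrt 3)

theorem kz_sq : kz * kz = Real.sqrt 3 := Real.mul_self_sqrt (Real.sqrt_nonneg 3)

section Val

variable {M L H : ℕ} [NeZero M] [NeZero L] [Fact (Even M)] [Fact (Even L)]

/-- charges of the legs -/
noncomputable def cc (M L H k : ℕ) [NeZero M] [NeZero L] [Fact (Even M)] [Fact (Even L)]
    (e : ME (ZMod M) (ZMod L)) : ℝ :=
  if e.2 = true then
    (if e.1.2 = 0 then -(Real.pi / 3) * so e * bb M k (e.1.1.val : ℤ)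
     else if e.1.2 = (H : ZMod L) then -(Real.pi / 6) * so e else 0) else 0

theorem so_vert (i j : ℤ) : so (((i, j), true) : ME ℤ ℤ) = if (i + j) % 2 = 0 then 1 else -1 := by
  unfold so ori
  rw [Ts405.vp_int]
  by_cases h : (i + j) % 2 = 0
  · have : ¬ ((i + j) % 2 = 1) := by omega
    simp [h]
  · have h2 : (i + j) % 2 = 1 := by omega
    simp [h2]

theorem val_int (i : ℤ) : (((i : ZMod M)).val : ℤ) = i % M := by
  rw [ZMod.val_intCast]

theorem H_ne (hL : L = 2 * H) : (H : ZMod L) ≠ 0 := by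
  have hH := H_pos hL
  intro h
  rw [ZMod.natCast_eq_zero_iff] at h
  have := Nat.le_of_dvd hH h
  omega

theorem negH (hL : L = 2 * H) : ((-(H : ℤ) : ℤ) : ZMod L) = (H : ZMod L) := by
  have h1 : ((2 * H : ℕ) : ZMod L) = 0 := by rw [← hL]; simp
  push_cast at h1 ⊢
  have : (H : ZMod L) + H = 0 := by rw [← h1]; ring
  exact neg_eq_of_add_eq_zero_left this

theorem cc_fl (hL : L = 2 * H) (k : ℕ) (i : ℤ) : cc M L H k (proj M L (fl i)) =
    -(Real.pi / 3) * (if i % 2 = 0 then 1 else -1) * bb M k i := by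
  have h1 : (proj M L (fl i)).2 = true := rfl
  have h2 : (proj M L (fl i)).1.2 = 0 := by simp [proj, fl]
  have h3 : (proj M L (fl i)).1.1 = (i : ZMod M) := rfl
  have h4 : so (proj M L (fl i)) = if i % 2 = 0 then 1 else -1 := by
    rw [Ts405.so_proj]
    have := so_vert i 0
    rw [add_zero] at this
    exact this
  unfold cc
  rw [if_pos h1, if_pos h2, h3, h4, val_int, bb_mod]
  split_ifs <;> simp

theorem cc_top (hL : L = 2 * H) (k : ℕ) (j : ℤ) : cc M L H k (proj M L ((j, (H : ℤ)), true)) =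
    -(Real.pi / 6) * (if (j + H) % 2 = 0 then 1 else -1) := by
  have h2 : (proj M L ((j, (H : ℤ)), true)).1.2 = (H : ZMod L) := by simp [proj]
  have h4 : so (proj M L ((j, (H : ℤ)), true)) = if (j + H) % 2 = 0 then 1 else -1 := by
    rw [Ts405.so_proj]
    exact so_vert j H
  have h1 : (proj M L ((j, (H : ℤ)), true)).2 = true := rfl
  unfold cc
  rw [if_pos h1, h2, if_neg (H_ne hL), if_pos rfl, h4]
  split_ifs <;> simp

theorem cc_bot (hL : L = 2 * H) (k : ℕ) (j : ℤ) : cc M L H k (proj M L ((j, -(H : ℤ)), true)) =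
    -(Real.pi / 6) * (if (j + H) % 2 = 0 then 1 else -1) := by
  have h2 : (proj M L ((j, -(H : ℤ)), true)).1.2 = (H : ZMod L) := negH hL
  have h4 : so (proj M L ((j, -(H : ℤ)), true)) = if (j + H) % 2 = 0 then 1 else -1 := by
    rw [Ts405.so_proj]
    rw [so_vert j (-(H : ℤ))]
    have : (j + -(H : ℤ)) % 2 = (j + H) % 2 := by omega
    rw [this]
  have h1 : (proj M L ((j, -(H : ℤ)), true)).2 = true := rfl
  unfold cc
  rw [if_pos h1, h2, if_neg (H_ne hL), if_pos rfl, h4]
  split_ifs <;> simp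

theorem cc_zero (hL : L = 2 * H) (k : ℕ) {y : ME (ZMod M) (ZMod L)} (h : re 1 y ≠ y) :
    cc M L H k y = 0 := by
  obtain ⟨⟨a, b⟩, d⟩ := y
  unfold cc
  by_cases h1 : d = true
  · subst h1
    simp only [if_true]
    have h2 : b ≠ 0 := by
      rintro rfl
      apply h
      simp [re]
    have h3 : b ≠ (H : ZMod L) := by
      rintro rfl
      apply h
      have := negH (L := L) hL
      push_cast at this
      simp [re, this]
    rw [if_neg h2, if_neg h3]
  · rw [if_neg h1]

/-- leg weight -/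
noncomputable def wl (hL : L = 2 * H) (k : ℕ) (x : Ct M L H → Bool) (ε : ℤ)
    (y : ME (ZMod M) (ZMod L)) : ℝ :=
  kz * (if y.1.2 = 0 then fac M k (sgm hL x) ε (y.1.1.val : ℤ) else 1)

theorem wl_fl (hL : L = 2 * H) (k : ℕ) (x : Ct M L H → Bool) (ε : ℤ) (i : ℤ) :
    wl hL k x ε (proj M L (fl i)) = kz * fac M k (sgm hL x) ε i := by
  have h2 : (proj M L (fl i)).1.2 = 0 := by simp [proj, fl]
  have h3 : (proj M L (fl i)).1.1 = (i : ZMod M) := rfl
  unfold wl
  rw [if_pos h2, h3, val_int, fac_mod (sgm_per hL x) (sgm_per' hL x)]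

theorem wl_top (hL : L = 2 * H) (k : ℕ) (x : Ct M L H → Bool) (ε : ℤ) {y : ME (ZMod M) (ZMod L)}
    (h : y.1.2 = (H : ZMod L)) : wl hL k x ε y = kz := by
  unfold wl
  rw [if_neg (by rw [h]; exact H_ne hL), mul_one]

open Classical in
/-- the class of a leg is its orbit, with two legs -/
theorem cls_leg_sum (hL : L = 2 * H) (k : ℕ) (x : Ct M L H → Bool) (ε : ℤ) {e : ME ℤ ℤ}
    (he : IsLeg H e) :
    (∑ y with Quotient.mk (dr (dih hL x)) y = Quotient.mk (dr (dih hL x)) (proj M L e),
      (Real.pi / 24 * turn (sx hL x) y + ε * cc M L H k y)) =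
    Real.pi / 24 * Tl (sx hL x) (orb (nxE (sx hL x)) (proj M L e)) +
      ε * (cc M L H k (proj M L e) + cc M L H k (proj M L (fin hL x e))) ∧
    (∏ y with re 1 y = y ∧ Quotient.mk (dr (dih hL x)) y = Quotient.mk (dr (dih hL x)) (proj M L e),
      wl hL k x ε y) = wl hL k x ε (proj M L e) * wl hL k x ε (proj M L (fin hL x e)) := by
  obtain ⟨-, -, h3, h4, -, h6⟩ := hp_facts hL x he
  have hfix : re 1 (proj M L e) = proj M L e := (leg_iff hL e).2 he
  have hcls : ∀ y, Quotient.mk (dr (dih hL x)) y = Quotient.mk (dr (dih hL x)) (proj M L e) ↔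
      orb (nxE (sx hL x)) y = orb (nxE (sx hL x)) (proj M L e) := by
    intro y
    constructor
    · intro h
      have h1 : dr (dih hL x) y (proj M L e) := Quotient.exact h
      refine Quotient.sound ?_
      rcases h1 with h1 | h1
      · exact h1
      · rw [hfix] at h1; exact h1
    · intro h
      have h1 : (nxE (sx hL x)).SameCycle y (proj M L e) := Quotient.exact h
      exact Quotient.sound (Or.inl h1)
  have hne : proj M L e ≠ proj M L (fin hL x e) := fun h => h4 h.symm
  have hlegs : ∀ y, (re 1 y = y ∧ Quotient.mk (dr (dih hL x)) y =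
      Quotient.mk (dr (dih hL x)) (proj M L e)) ↔ y = proj M L e ∨ y = proj M L (fin hL x e) := by
    intro y
    rw [hcls]
    constructor
    · rintro ⟨g1, g2⟩
      have h1 : (nxE (sx hL x)).SameCycle (proj M L e) y := Quotient.exact g2.symm
      exact (h6 y h1).1 g1
    · intro g
      have h1 : (nxE (sx hL x)).SameCycle (proj M L e) y := by
        rcases g with rfl | rfl
        · exact Equiv.Perm.SameCycle.refl _ _
        · have := iter_same (nxE (sx hL x)) (proj M L e) (hp hL x e)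
          have h7 : (nxE (sx hL x))^[hp hL x e] (proj M L e) = proj M L (fin hL x e) :=
            (iter_proj (sx hL x) e _).symm
          rwa [h7] at this
      exact ⟨(h6 y h1).2 g, Quotient.sound h1.symm⟩
  constructor
  · rw [Finset.sum_add_distrib]
    congr 1
    · rw [← Finset.mul_sum]
      congr 1
      unfold Tl
      push_cast
      refine Finset.sum_congr ?_ fun _ _ => rfl
      ext y
      simp only [mem_filter, mem_univ, true_and]
      exact hcls y
    · rw [← Finset.mul_sum]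
      congr 1
      rw [← Finset.sum_pair hne]
      symm
      refine Finset.sum_subset_zero_on_sdiff ?_ ?_ fun _ _ => rfl
      · intro y hy
        rw [mem_insert, mem_singleton] at hy
        rw [mem_filter]
        exact ⟨mem_univ _, ((hlegs y).2 hy).2⟩
      · intro y hy
        rw [mem_sdiff, mem_filter, mem_insert, mem_singleton] at hy
        apply cc_zero hL
        intro g
        exact hy.2 ((hlegs y).1 ⟨g, hy.1.2⟩)
  · rw [← Finset.prod_pair hne]
    refine Finset.prod_congr ?_ fun _ _ => rfl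
    ext y
    simp only [mem_filter, mem_univ, true_and, mem_insert, mem_singleton]
    exact hlegs y

theorem so_par (i j : ℤ) (h : (j - i) % 2 = 1) :
    (if i % 2 = 0 then (1 : ℝ) else -1) + (if j % 2 = 0 then (1 : ℝ) else -1) = 0 := by
  by_cases h1 : i % 2 = 0
  · have h2 : ¬ j % 2 = 0 := by omega
    rw [if_pos h1, if_neg h2]; norm_num
  · have h2 : j % 2 = 0 := by omega
    rw [if_neg h1, if_pos h2]; norm_num

/-- case A: even floor leg, arc -/
theorem val_A (hA : ArcTurn) (hL : L = 2 * H) (k : ℕ) (x : Ct M L H → Bool) {ε : ℤ} {i j : ℤ}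
    (hi : i % 2 = 0) (hj : j % 2 = 1) (h : fin hL x (fl i) = fl j) :
    2 * Real.cos (Real.pi / 24 * Tl (sx hL x) (orb (nxE (sx hL x)) (proj M L (fl i))) +
      ε * (cc M L H k (proj M L (fl i)) + cc M L H k (proj M L (fin hL x (fl i))))) =
    wl hL k x ε (proj M L (fl i)) * wl hL k x ε (proj M L (fin hL x (fl i))) := by
  have h1 : sgm hL x i = some j := (sgm_some hL x).2 h
  have h2 : sgm hL x j = some i := sgm_inv hL x _ _ h1
  obtain ⟨t1, t2⟩ := Tl_arc hA hL x hi h
  rw [h, wl_fl, wl_fl, cc_fl hL, cc_fl hL, if_pos hi, if_neg (by omega)]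
  have e0 : kz * fac M k (sgm hL x) ε i * (kz * fac M k (sgm hL x) ε j) =
      Real.sqrt 3 * (fac M k (sgm hL x) ε i * fac M k (sgm hL x) ε j) := by
    rw [← kz_sq]; ring
  rw [e0]
  rcases lt_trichotomy i j with hij | hij | hij
  · have f1 : fac M k (sgm hL x) ε i = wq (ε * (bb M k j - bb M k i)) := by
      unfold fac; rw [h1]; simp only; rw [if_pos hij]
    have f2 : fac M k (sgm hL x) ε j = 1 := by
      unfold fac; rw [h2]; simp only; rw [if_neg (by omega)]
    rw [f1, f2, mul_one (wq _), wq_val, t1 hij]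
    congr 2
    push_cast
    ring
  · omega
  · have f1 : fac M k (sgm hL x) ε i = 1 := by
      unfold fac; rw [h1]; simp only; rw [if_neg (by omega)]
    have f2 : fac M k (sgm hL x) ε j = wq (ε * (bb M k i - bb M k j)) := by
      unfold fac; rw [h2]; simp only; rw [if_pos hij]
    rw [f1, f2, one_mul (wq _), wq_val, t2 hij]
    congr 1
    rw [← Real.cos_neg]
    congr 1
    push_cast
    ring

theorem cos_eps {ε : ℤ} (hε : ε = 1 ∨ ε = -1) (a : ℝ) : Real.cos (ε * a) = Real.cos a := by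
  rcases hε with h | h <;> subst h <;> simp

/-- case B: a strand from the floor to the ceiling -/
theorem val_B (hL : L = 2 * H) (k : ℕ) (x : Ct M L H → Bool) {ε : ℤ} (hε : ε = 1 ∨ ε = -1) {i : ℤ}
    (hn : (fin hL x (fl i)).1.2 ≠ 0)
    (h : cc M L H k (proj M L (fin hL x (fl i))) = -(Real.pi / 6) * (if i % 2 = 0 then 1 else -1))
    (hw : (proj M L (fin hL x (fl i))).1.2 = (H : ZMod L)) :
    2 * Real.cos (Real.pi / 24 * Tl (sx hL x) (orb (nxE (sx hL x)) (proj M L (fl i))) +
      ε * (cc M L H k (proj M L (fl i)) + cc M L H k (proj M L (fin hL x (fl i))))) =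
    wl hL k x ε (proj M L (fl i)) * wl hL k x ε (proj M L (fin hL x (fl i))) := by
  have h1 : sgm hL x i = none := (sgm_none hL x).2 hn
  rw [Tl_diff hL x (fl_leg H i) hn, wl_fl, wl_top hL k x ε hw, h, cc_fl hL]
  have f1 : fac M k (sgm hL x) ε i = fq (bb M k i) := by
    unfold fac; rw [h1]
  have e0 : kz * fac M k (sgm hL x) ε i * kz = Real.sqrt 3 * fac M k (sgm hL x) ε i := by
    rw [← kz_sq]; ring
  rw [e0, f1, fq_val, Int.cast_zero, mul_zero, zero_add, cos_eps hε]
  congr 1
  split_ifs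
  · rw [← Real.cos_neg]
    congr 1
    ring
  · congr 1
    ring

/-- case C: an arc of the ceiling -/
theorem val_C (hL : L = 2 * H) (k : ℕ) (x : Ct M L H → Bool) {ε : ℤ} {e : ME ℤ ℤ}
    (he : IsLeg H e) (h : (fin hL x e).1.2 = e.1.2)
    (hc : cc M L H k (proj M L e) + cc M L H k (proj M L (fin hL x e)) = 0)
    (hw : (proj M L e).1.2 = (H : ZMod L))
    (hw' : (proj M L (fin hL x e)).1.2 = (H : ZMod L)) :
    2 * Real.cos (Real.pi / 24 * Tl (sx hL x) (orb (nxE (sx hL x)) (proj M L e)) +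
      ε * (cc M L H k (proj M L e) + cc M L H k (proj M L (fin hL x e)))) =
    wl hL k x ε (proj M L e) * wl hL k x ε (proj M L (fin hL x e)) := by
  rw [hc, mul_zero, add_zero, wl_top hL k x ε hw, wl_top hL k x ε hw', kz_sq, ← two_cos_six]
  congr 1
  rcases Tl_same hL x he h with h1 | h1
  · rw [h1]; congr 1; push_cast; ring
  · rw [h1, ← Real.cos_neg]; congr 1; push_cast; ring

open Classical in
/-- classes with a leg -/
theorem cls_leg_val (hA : ArcTurn) (hL : L = 2 * H) (k : ℕ) (x : Ct M L H → Bool) {ε : ℤ}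
    (hε : ε = 1 ∨ ε = -1) (q : Quotient (dr (dih hL x)))
    (hq : ∃ y, re 1 y = y ∧ Quotient.mk (dr (dih hL x)) y = q) :
    2 * Real.cos (∑ y with Quotient.mk (dr (dih hL x)) y = q,
      (Real.pi / 24 * turn (sx hL x) y + ε * cc M L H k y)) =
    ∏ y with re 1 y = y ∧ Quotient.mk (dr (dih hL x)) y = q, wl hL k x ε y := by
  have hfin : ∀ e : ME ℤ ℤ, Quotient.mk (dr (dih hL x)) (proj M L (fin hL x e)) =
      Quotient.mk (dr (dih hL x)) (proj M L e) := by
    intro e
    have h7 : (nxE (sx hL x))^[hp hL x e] (proj M L e) = proj M L (fin hL x e) :=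
      (iter_proj (sx hL x) e _).symm
    rw [← h7]
    exact Quotient.sound (Or.inl (iter_same _ _ _).symm)
  have red : ∀ e : ME ℤ ℤ, IsLeg H e → Quotient.mk (dr (dih hL x)) (proj M L e) = q →
      2 * Real.cos (Real.pi / 24 * Tl (sx hL x) (orb (nxE (sx hL x)) (proj M L e)) +
      ε * (cc M L H k (proj M L e) + cc M L H k (proj M L (fin hL x e)))) =
      wl hL k x ε (proj M L e) * wl hL k x ε (proj M L (fin hL x e)) →
      2 * Real.cos (∑ y with Quotient.mk (dr (dih hL x)) y = q,
        (Real.pi / 24 * turn (sx hL x) y + ε * cc M L H k y)) =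
      ∏ y with re 1 y = y ∧ Quotient.mk (dr (dih hL x)) y = q, wl hL k x ε y := by
    rintro e he rfl h
    obtain ⟨h1, h2⟩ := cls_leg_sum hL k x ε he
    rw [h1, h2, h]
  by_cases c1 : ∃ i : ℤ, i % 2 = 0 ∧ Quotient.mk (dr (dih hL x)) (proj M L (fl i)) = q
  · obtain ⟨i, hi, hiq⟩ := c1
    refine red (fl i) (fl_leg H i) hiq ?_
    rcases even_end hL x hi with ⟨j, hj, hf⟩ | ⟨j, hj, hf⟩
    · exact val_A hA hL k x hi hj hf
    · refine val_B hL k x hε ?_ ?_ ?_
      · rw [hf]
        have := H_pos hL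
        simp only
        omega
      · rw [hf, cc_top hL, if_pos hj, if_pos hi]
      · rw [hf]; simp [proj]
  · by_cases c2 : ∃ i : ℤ, Quotient.mk (dr (dih hL x)) (proj M L (fl i)) = q
    · obtain ⟨i, hiq⟩ := c2
      have hi : i % 2 = 1 := by
        by_contra hc
        exact c1 ⟨i, by omega, hiq⟩
      refine red (fl i) (fl_leg H i) hiq ?_
      rcases odd_end hL x hi with ⟨j, hj, hf⟩ | ⟨j, hj, hf⟩
      · exfalso
        refine c1 ⟨j, hj, ?_⟩
        rw [← hf, hfin, hiq]
      · refine val_B hL k x hε ?_ ?_ ?_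
        · rw [hf]
          have := H_pos hL
          simp only
          omega
        · rw [hf, cc_bot hL, if_neg (by omega), if_neg (by omega)]
        · rw [hf]; exact negH hL
    · obtain ⟨y, hy, hyq⟩ := hq
      have hpl : proj M L (lft y) = y := proj_lft y
      have hleg : IsLeg H (lft y) := by
        rw [← leg_iff hL (M := M) (L := L), hpl]; exact hy
      have hpos := H_pos hL
      have hb : (lft y).1.2 = H := by
        have h1 : (lft y).1.2 = (y.1.2.val : ℤ) := rfl
        obtain ⟨c, hc⟩ := hleg.2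
        rw [h1] at hc ⊢
        have h2 := y.1.2.val_lt
        have h3 : (H : ℤ) * c < H * 2 := by rw [← hc]; omega
        have h4 : (H : ℤ) * 0 ≤ H * c := by rw [← hc]; omega
        have h5 : c < 2 := lt_of_mul_lt_mul_left h3 (by omega)
        have h6 : 0 ≤ c := le_of_mul_le_mul_left h4 (by omega)
        have h7 : c ≠ 0 := by
          rintro rfl
          apply c2
          refine ⟨(lft y).1.1, ?_⟩
          have h8 : lft y = fl (lft y).1.1 := fl_eq hleg (by rw [h1, hc]; ring)
          rw [← h8, hpl, hyq]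
        have h8 : c = 1 := by omega
        rw [hc, h8]; ring
      have hcl : Quotient.mk (dr (dih hL x)) (proj M L (lft y)) = q := by rw [hpl]; exact hyq
      refine red (lft y) hleg hcl ?_
      have hnofl : ∀ c : ℤ, (fin hL x (lft y)).1.2 ≠ L * c := by
        intro c hc
        apply c2
        refine ⟨(fin hL x (lft y)).1.1, ?_⟩
        have h8 : proj M L (fl (fin hL x (lft y)).1.1) = proj M L (fin hL x (lft y)) := by
          have h9 := (fin_leg hL x hleg).1
          unfold fl proj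
          simp only [hc, h9]
          simp
        rw [h8, hfin, hcl]
      have hf := hp_facts hL x hleg
      have hend := confine_end hpos hleg hf.1 hf.2.2.2.2.1 hf.2.2.1
      have hfd : (nx (sL (sx hL x)))^[hp hL x (lft y)] (lft y) = fin hL x (lft y) := rfl
      rw [hfd] at hend
      have hLH : (L : ℤ) = 2 * H := by rw [hL]; push_cast; ring
      have hkey : (fin hL x (lft y)).1.2 = H ∧
          ((fin hL x (lft y)).1.1 + H - ((lft y).1.1 + H)) % 2 = 1 := by
        have n0 := hnofl 0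
        have n1 := hnofl 1
        rw [hLH] at n1
        unfold lo at hend
        rw [hb] at hend
        split_ifs at hend with hpar
        · rcases hend with ⟨g1, g2⟩ | ⟨g1, g2⟩
          · exact ⟨g1, by omega⟩
          · exfalso; apply n1; rw [g1]; ring
        · rcases hend with ⟨g1, g2⟩ | ⟨g1, g2⟩
          · exfalso; apply n0; rw [g1]; ring
          · exact ⟨by rw [g1]; ring, by omega⟩
      have e1 : lft y = (((lft y).1.1, (H : ℤ)), true) := by
        rw [← hb, ← hleg.1]
      have e2 : fin hL x (lft y) = (((fin hL x (lft y)).1.1, (H : ℤ)), true) := by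
        rw [← hkey.1, ← (fin_leg hL x hleg).1]
      refine val_C hL k x hleg (by rw [hkey.1, hb]) ?_ ?_ ?_
      · have g1 : cc M L H k (proj M L (lft y)) =
            -(Real.pi / 6) * (if ((lft y).1.1 + H) % 2 = 0 then 1 else -1) := by
          conv_lhs => rw [e1]
          exact cc_top hL k _
        have g2 : cc M L H k (proj M L (fin hL x (lft y))) =
            -(Real.pi / 6) * (if ((fin hL x (lft y)).1.1 + H) % 2 = 0 then 1 else -1) := by
          conv_lhs => rw [e2]
          exact cc_top hL k _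
        rw [g1, g2, ← mul_add, so_par _ _ hkey.2, mul_zero]
      · rw [e1]; simp [proj]
      · rw [e2]; simp [proj]

end Val

end Crest.Agent.R158.Hp854
end

-- ▼ part R158/Hp8_854

/-!
# R158, block HP1 (helper854), part 8: the arrow reversal identity for the patterns of the cylinder
-/

set_option autoImplicit false
set_option linter.unusedSectionVars false
set_option linter.unusedSimpArgs false
set_option linter.unusedVariables false

namespace Crest.Agent.R158.Hp854

open Finset
open Crest.Agent.R158.Bk430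
open Crest.Agent.R158.Ts405 (shE sL per lft proj_lft proj_eq_iff iter_proj nx_proj turn_proj Ctr
  per_pos per_iter per_min hd_proj tl_proj TT_torus T1_closed T1_periodic mp_pos sum_cycle)

section Val

variable {M L H : ℕ} [NeZero M] [NeZero L] [Fact (Even M)] [Fact (Even L)]

/-- classes of ring loops -/
def Ringq (hL : L = 2 * H) (x : Ct M L H → Bool) (q : Quotient (dr (dih hL x))) : Prop :=
  (¬ ∃ y, re 1 y = y ∧ Quotient.mk (dr (dih hL x)) y = q) ∧
  ∃ y, Quotient.mk (dr (dih hL x)) y = q ∧ ¬ Ctr (sx hL x) (orb (nxE (sx hL x)) y)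

open Classical in
/-- number of ring loops -/
noncomputable def nring (hL : L = 2 * H) (x : Ct M L H → Bool) : ℕ :=
  (univ.filter fun q : Quotient (dr (dih hL x)) => Ringq hL x q).card

theorem Tl_re (hL : L = 2 * H) (x : Ct M L H → Bool) (y0 : ME (ZMod M) (ZMod L)) :
    Tl (sx hL x) (orb (nxE (sx hL x)) (re 1 y0)) = Tl (sx hL x) (orb (nxE (sx hL x)) y0) := by
  classical
  unfold Tl
  symm
  have hd := dih hL x
  refine Finset.sum_bij' (i := fun z _ => re 1 (nx (sx hL x) z))
    (j := fun z _ => (nxE (sx hL x)).symm (re 1 z)) ?_ ?_ ?_ ?_ ?_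
  · intro z hz
    rw [mem_filter] at hz ⊢
    refine ⟨mem_univ _, ?_⟩
    have h1 : (nxE (sx hL x)).SameCycle z y0 := Quotient.exact hz.2
    have h2 : (nxE (sx hL x)).SameCycle (nx (sx hL x) z) y0 :=
      (Equiv.Perm.sameCycle_apply_left (f := nxE (sx hL x))).2 h1
    exact Quotient.sound (hd.same h2)
  · intro z hz
    rw [mem_filter] at hz ⊢
    refine ⟨mem_univ _, ?_⟩
    have h1 : (nxE (sx hL x)).SameCycle z (re 1 y0) := Quotient.exact hz.2
    have h2 := hd.same h1
    rw [hd.inv] at h2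
    have h3 : (nxE (sx hL x)).SameCycle ((nxE (sx hL x)).symm (re 1 z)) y0 := by
      have := (Equiv.Perm.sameCycle_apply_left (f := nxE (sx hL x))
        (x := (nxE (sx hL x)).symm (re 1 z)) (y := y0)).1
      rw [Equiv.apply_symm_apply] at this
      exact this h2
    exact Quotient.sound h3
  · intro z hz
    rw [re_re]
    exact (nxE (sx hL x)).symm_apply_apply z
  · intro z hz
    have : nx (sx hL x) ((nxE (sx hL x)).symm (re 1 z)) = re 1 z :=
      (nxE (sx hL x)).apply_symm_apply _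
    rw [this, re_re]
  · intro z hz
    exact (turn_re (oddC_zmod L) (sx_rv hL x) z).symm

theorem ctr_re (hL : L = 2 * H) (x : Ct M L H → Bool) (y0 : ME (ZMod M) (ZMod L)) :
    Ctr (sx hL x) (orb (nxE (sx hL x)) (re 1 y0)) ↔ Ctr (sx hL x) (orb (nxE (sx hL x)) y0) := by
  have hT := TT_torus (sx hL x)
  have h0 := Tl_re hL x y0
  constructor
  · intro h
    by_contra hc
    have h1 := hT.n_turn _ hc
    rcases hT.c_turn _ h with h2 | h2 <;> omega
  · intro h
    by_contra hc
    have h1 := hT.n_turn _ hc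
    rcases hT.c_turn _ h with h2 | h2 <;> omega

open Classical in
/-- value of a class -/
theorem cls_val (hA : ArcTurn) (hL : L = 2 * H) (k : ℕ) (x : Ct M L H → Bool) {ε : ℤ}
    (hε : ε = 1 ∨ ε = -1) (q : Quotient (dr (dih hL x))) :
    2 * Real.cos (∑ y with Quotient.mk (dr (dih hL x)) y = q,
      (Real.pi / 24 * turn (sx hL x) y + ε * cc M L H k y)) =
    (if Ringq hL x q then 2 else 1) *
      ∏ y with re 1 y = y ∧ Quotient.mk (dr (dih hL x)) y = q, wl hL k x ε y := by
  by_cases hq : ∃ y, re 1 y = y ∧ Quotient.mk (dr (dih hL x)) y = q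
  · have h1 : ¬ Ringq hL x q := fun h => h.1 hq
    rw [if_neg h1, one_mul]
    exact cls_leg_val hA hL k x hε q hq
  · have hprod : ∏ y with re 1 y = y ∧ Quotient.mk (dr (dih hL x)) y = q, wl hL k x ε y = 1 := by
      apply Finset.prod_eq_one
      intro y hy
      rw [mem_filter] at hy
      exact absurd ⟨y, hy.2⟩ hq
    rw [hprod, mul_one]
    obtain ⟨y0, rfl⟩ := Quotient.exists_rep q
    have hns : ¬ (nxE (sx hL x)).SameCycle y0 (re 1 y0) := by
      intro h
      obtain ⟨l, h1, h2⟩ := (dih hL x).fix (re_ne_nx hL x) h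
      exact hq ⟨l, h2, Quotient.sound (Or.inl h1.symm)⟩
    have hsum : (∑ y with Quotient.mk (dr (dih hL x)) y = Quotient.mk (dr (dih hL x)) y0,
        (Real.pi / 24 * turn (sx hL x) y + ε * cc M L H k y)) =
        Real.pi / 12 * Tl (sx hL x) (orb (nxE (sx hL x)) y0) := by
      have h1 : ∀ y ∈ univ.filter (fun y => Quotient.mk (dr (dih hL x)) y =
          Quotient.mk (dr (dih hL x)) y0), (Real.pi / 24 * turn (sx hL x) y + ε * cc M L H k y) =
          Real.pi / 24 * turn (sx hL x) y := by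
        intro y hy
        rw [mem_filter] at hy
        rw [cc_zero hL k (fun h => hq ⟨y, h, hy.2⟩), mul_zero, add_zero]
      rw [Finset.sum_congr rfl h1, ← Finset.mul_sum]
      have h2 : univ.filter (fun y => Quotient.mk (dr (dih hL x)) y =
          Quotient.mk (dr (dih hL x)) y0) =
          univ.filter (fun y => orb (nxE (sx hL x)) y = orb (nxE (sx hL x)) y0) ∪
          univ.filter (fun y => orb (nxE (sx hL x)) y = orb (nxE (sx hL x)) (re 1 y0)) := by
        ext y
        simp only [mem_filter, mem_univ, true_and, mem_union]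
        constructor
        · intro h
          have h3 : dr (dih hL x) y y0 := Quotient.exact h
          rcases h3 with h3 | h3
          · exact Or.inl (Quotient.sound h3)
          · exact Or.inr (Quotient.sound h3)
        · rintro (h | h)
          · have h3 : (nxE (sx hL x)).SameCycle y y0 := Quotient.exact h
            exact Quotient.sound (Or.inl h3)
          · have h3 : (nxE (sx hL x)).SameCycle y (re 1 y0) := Quotient.exact h
            exact Quotient.sound (Or.inr h3)
      have hdis : Disjoint (univ.filter (fun y => orb (nxE (sx hL x)) y = orb (nxE (sx hL x)) y0))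
          (univ.filter (fun y => orb (nxE (sx hL x)) y = orb (nxE (sx hL x)) (re 1 y0))) := by
        rw [Finset.disjoint_left]
        intro y hy hy'
        rw [mem_filter] at hy hy'
        have h3 : (nxE (sx hL x)).SameCycle y y0 := Quotient.exact hy.2
        have h4 : (nxE (sx hL x)).SameCycle y (re 1 y0) := Quotient.exact hy'.2
        exact hns (h3.symm.trans h4)
      rw [h2, Finset.sum_union hdis]
      have h3 := Tl_re hL x y0
      unfold Tl at h3 ⊢
      have h4 : (∑ y with orb (nxE (sx hL x)) y = orb (nxE (sx hL x)) (re 1 y0),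
          (turn (sx hL x) y : ℝ)) = ∑ y with orb (nxE (sx hL x)) y = orb (nxE (sx hL x)) y0,
          (turn (sx hL x) y : ℝ) := by
        exact_mod_cast h3
      rw [h4]
      push_cast
      ring
    rw [hsum]
    have hT := TT_torus (sx hL x)
    by_cases hC : Ctr (sx hL x) (orb (nxE (sx hL x)) y0)
    · have hR : ¬ Ringq hL x (Quotient.mk (dr (dih hL x)) y0) := by
        rintro ⟨-, y, h1, h2⟩
        apply h2
        have h3 : dr (dih hL x) y y0 := Quotient.exact h1
        rcases h3 with h3 | h3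
        · have : orb (nxE (sx hL x)) y = orb (nxE (sx hL x)) y0 := Quotient.sound h3
          rw [this]; exact hC
        · have : orb (nxE (sx hL x)) y = orb (nxE (sx hL x)) (re 1 y0) := Quotient.sound h3
          rw [this, ctr_re]; exact hC
      rw [if_neg hR]
      rcases hT.c_turn _ hC with h1 | h1
      · rw [h1]
        rw [show Real.pi / 12 * ((4 : ℤ) : ℝ) = Real.pi / 3 by push_cast; ring,
          Real.cos_pi_div_three]
        norm_num
      · rw [h1]
        rw [show Real.pi / 12 * ((-4 : ℤ) : ℝ) = -(Real.pi / 3) by push_cast; ring,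
          Real.cos_neg, Real.cos_pi_div_three]
        norm_num
    · have hR : Ringq hL x (Quotient.mk (dr (dih hL x)) y0) := ⟨hq, y0, rfl, hC⟩
      rw [if_pos hR, hT.n_turn _ hC, Int.cast_zero, mul_zero, Real.cos_zero, mul_one]

theorem prod_range_zmod (f : ℤ → ℝ) : ∏ a : ZMod M, f (a.val : ℤ) = ∏ i ∈ range M, f i := by
  symm
  refine Finset.prod_bij' (i := fun i _ => (i : ZMod M)) (j := fun a _ => a.val) ?_ ?_ ?_ ?_ ?_
  · intro i _; exact mem_univ _
  · intro a _; rw [mem_range]; exact a.val_lt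
  · intro i hi
    rw [mem_range] at hi
    exact ZMod.val_cast_of_lt hi
  · intro a _; simp
  · intro i hi
    rw [mem_range] at hi
    rw [ZMod.val_cast_of_lt hi]

open Classical in
/-- product over the legs -/
theorem prod_legs (hL : L = 2 * H) (k : ℕ) (x : Ct M L H → Bool) (ε : ℤ) :
    ∏ y : ME (ZMod M) (ZMod L) with re 1 y = y, wl hL k x ε y =
      kz ^ (univ.filter fun y : ME (ZMod M) (ZMod L) => re 1 y = y).card *
      ∏ i ∈ range M, fac M k (sgm hL x) ε i := by
  unfold wl
  rw [Finset.prod_mul_distrib, Finset.prod_const]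
  congr 1
  rw [← prod_range_zmod (M := M) (fun i => fac M k (sgm hL x) ε i)]
  rw [← Finset.prod_filter, Finset.filter_filter]
  symm
  refine Finset.prod_bij' (i := fun a _ => (((a, 0), true) : ME (ZMod M) (ZMod L)))
    (j := fun y _ => y.1.1) ?_ ?_ ?_ ?_ ?_
  · intro a _
    rw [mem_filter]
    refine ⟨mem_univ _, ?_, rfl⟩
    simp [re]
  · intro y _; exact mem_univ _
  · intro a _; rfl
  · intro y hy
    rw [mem_filter] at hy
    obtain ⟨-, h1, h2⟩ := hy
    obtain ⟨⟨a, b⟩, d⟩ := y
    simp only at h2 ⊢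
    subst h2
    cases d
    · exfalso
      have h3 : (1 : ZMod L) - 0 = 0 := by
        have := congrArg (fun e : ME (ZMod M) (ZMod L) => e.1.2) h1
        simpa [re] using this
      have h4 := oddC_zmod L (0 : ZMod L)
      rw [h3] at h4
      cases h5 : par (0 : ZMod L) <;> rw [h5] at h4 <;> simp at h4
    · rfl
  · intro a _; rfl

/-- the constant factor -/
noncomputable def K0 (M L : ℕ) [NeZero M] [NeZero L] [Fact (Even M)] [Fact (Even L)] : ℝ := by
  classical exact kz ^ (univ.filter fun y : ME (ZMod M) (ZMod L) => re 1 y = y).card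

theorem K0_pos (M L : ℕ) [NeZero M] [NeZero L] [Fact (Even M)] [Fact (Even L)] : 0 < K0 M L := by
  unfold K0
  have : 0 < kz := Real.sqrt_pos.2 (Real.sqrt_pos.2 (by norm_num))
  positivity

open Classical in
theorem prod_cls (hA : ArcTurn) (hL : L = 2 * H) (k : ℕ) (x : Ct M L H → Bool) {ε : ℤ}
    (hε : ε = 1 ∨ ε = -1) :
    ∏ q : Quotient (dr (dih hL x)), 2 * Real.cos
      (∑ y with Quotient.mk (dr (dih hL x)) y = q,
        (Real.pi / 24 * turn (sx hL x) y + ε * cc M L H k y)) =
    K0 M L * wt M k (sgm hL x) (nring hL x) ε := by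
  simp_rw [cls_val hA hL k x hε]
  rw [Finset.prod_mul_distrib]
  have h1 : ∏ q : Quotient (dr (dih hL x)), (if Ringq hL x q then (2 : ℝ) else 1) =
      2 ^ nring hL x := by
    rw [Finset.prod_ite, Finset.prod_const_one, mul_one, Finset.prod_const]
    unfold nring
    rfl
  have h2 : ∏ q : Quotient (dr (dih hL x)),
      ∏ y with re 1 y = y ∧ Quotient.mk (dr (dih hL x)) y = q, wl hL k x ε y =
      ∏ y : ME (ZMod M) (ZMod L) with re 1 y = y, wl hL k x ε y := by
    rw [← Finset.prod_fiberwise (s := univ.filter fun y : ME (ZMod M) (ZMod L) => re 1 y = y)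
      (g := fun y => Quotient.mk (dr (dih hL x)) y)]
    refine Finset.prod_congr rfl fun q _ => ?_
    rw [Finset.filter_filter]
  rw [h1, h2, prod_legs]
  unfold wt K0
  ring

/-- **the arrow reversal identity on the cylinder** -/
theorem ari (hA : ArcTurn) (hL : L = 2 * H) (k : ℕ) :
    ∑ x : Ct M L H → Bool, wt M k (sgm hL x) (nring hL x) 1 =
    ∑ x : Ct M L H → Bool, wt M k (sgm hL x) (nring hL x) (-1) := by
  classical
  have h1 := Zc_neg (M := M) (L := L) (H := H) (cc M L H k)
  rw [Zc_eq hL, Zc_eq hL] at h1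
  have h2 := Complex.ofReal_injective h1
  have e1 : ∀ x : Ct M L H → Bool, (∏ q : Quotient (dr (dih hL x)), 2 * Real.cos
      (∑ e with Quotient.mk (dr (dih hL x)) e = q,
        (Real.pi / 24 * turn (sx hL x) e + cc M L H k e))) =
      K0 M L * wt M k (sgm hL x) (nring hL x) 1 := by
    intro x
    rw [← prod_cls hA hL k x (Or.inl rfl)]
    simp
  have e2 : ∀ x : Ct M L H → Bool, (∏ q : Quotient (dr (dih hL x)), 2 * Real.cos
      (∑ e with Quotient.mk (dr (dih hL x)) e = q,
        (Real.pi / 24 * turn (sx hL x) e + -cc M L H k e))) =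
      K0 M L * wt M k (sgm hL x) (nring hL x) (-1) := by
    intro x
    rw [← prod_cls hA hL k x (Or.inr rfl)]
    simp
  simp_rw [e1, e2] at h2
  rw [← Finset.mul_sum, ← Finset.mul_sum] at h2
  exact (mul_left_cancel₀ (K0_pos M L).ne' h2).symm

end Val

end Crest.Agent.R158.Hp854
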