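import Mathlib
import Crest.Agent.R158.Mr1_679
import Crest.Agent.R158.Hp8_854

-- ▼ part R158/Hp9_854
section

/-!
# R158, block HP1 (helper854), part 9: floor crossing lemma

Two diagonal paths of different parities above the floor whose end gaps interlace cannot use
disjoint sets of tiles.
-/

set_option autoImplicit false
set_option linter.unusedSectionVars false
set_option linter.unusedSimpArgs false
set_option linter.unusedVariables false

namespace Crest.Agent.R158.Hp854

open Crest.Agent.R158.Mr679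
open Crest.Agent.R161.Geo729

theorem dg_of {x y x' y' : ℤ} (h1 : x' = x + 1 ∨ x = x' + 1) (h2 : y' = y + 1 ∨ y = y' + 1) :
    Dg (x, y) (x', y') := ⟨h1, h2⟩

theorem ts_of {Q : P2 → Prop} {x y x' y' u v : ℤ} (h1 : x' = x + 1 ∨ x = x' + 1)
    (h2 : y' = y + 1 ∨ y = y' + 1) (hu : max x x' = u) (hv : max y y' = v) (hQ : Q (u, v)) :
    TS Q (x, y) (x', y') := by
  refine ⟨dg_of h1 h2, ?_⟩
  unfold tb
  simp only [hu, hv]
  exact hQ

/-- zigzag to the right in the tile row `r` -/
theorem zigR (Q : P2 → Prop) (r x : ℤ) (n : ℕ) (hQ : ∀ m, x < m → m ≤ x + n → Q (m, r)) :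
    TP Q (x, r) (x + n, if n % 2 = 0 then r else r - 1) := by
  induction n with
  | zero => simpa using TP.refl
  | succ n ih =>
    have ih' := ih fun m h1 h2 => hQ m h1 (by push_cast; omega)
    refine ih'.trans (TP.single ?_)
    have hq := hQ (x + n + 1) (by omega) (by push_cast; omega)
    by_cases hn : n % 2 = 0
    · have hn' : ¬ (n + 1) % 2 = 0 := by omega
      rw [if_pos hn, if_neg hn']
      exact ts_of (u := x + n + 1) (v := r) (by push_cast; omega) (by omega) (by push_cast; omega)
        (by omega) hq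
    · have hn' : (n + 1) % 2 = 0 := by omega
      rw [if_neg hn, if_pos hn']
      exact ts_of (u := x + n + 1) (v := r) (by push_cast; omega) (by omega) (by push_cast; omega)
        (by omega) hq

/-- zigzag to the left in the tile row `r` -/
theorem zigL (Q : P2 → Prop) (r x : ℤ) (n : ℕ) (hQ : ∀ m, x - n < m → m ≤ x → Q (m, r)) :
    TP Q (x, r) (x - n, if n % 2 = 0 then r else r - 1) := by
  induction n with
  | zero => simpa using TP.refl
  | succ n ih =>
    have ih' := ih fun m h1 h2 => hQ m (by push_cast; omega) h2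
    refine ih'.trans (TP.single ?_)
    have hq := hQ (x - n) (by push_cast; omega) (by omega)
    by_cases hn : n % 2 = 0
    · have hn' : ¬ (n + 1) % 2 = 0 := by omega
      rw [if_pos hn, if_neg hn']
      exact ts_of (u := x - n) (v := r) (by push_cast; omega) (by omega) (by push_cast; omega)
        (by omega) hq
    · have hn' : (n + 1) % 2 = 0 := by omega
      rw [if_neg hn, if_pos hn']
      exact ts_of (u := x - n) (v := r) (by push_cast; omega) (by omega) (by push_cast; omega)
        (by omega) hq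

/-- zigzag upwards in the tile column `x + 1` -/
theorem zigU (Q : P2 → Prop) (x y : ℤ) (n : ℕ) (hQ : ∀ m, y < m → m ≤ y + n → Q (x + 1, m)) :
    TP Q (x, y) (if n % 2 = 0 then x else x + 1, y + n) := by
  induction n with
  | zero => simpa using TP.refl
  | succ n ih =>
    have ih' := ih fun m h1 h2 => hQ m h1 (by push_cast; omega)
    refine ih'.trans (TP.single ?_)
    have hq := hQ (y + n + 1) (by omega) (by push_cast; omega)
    by_cases hn : n % 2 = 0
    · have hn' : ¬ (n + 1) % 2 = 0 := by omega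
      rw [if_pos hn, if_neg hn']
      exact ts_of (u := x + 1) (v := y + n + 1) (by omega) (by push_cast; omega) (by omega)
        (by push_cast; omega) hq
    · have hn' : (n + 1) % 2 = 0 := by omega
      rw [if_neg hn, if_pos hn']
      exact ts_of (u := x + 1) (v := y + n + 1) (by omega) (by push_cast; omega) (by omega)
        (by push_cast; omega) hq

theorem tp_bdd {Q : P2 → Prop} {F G : P2} (h : TP Q F G) :
    ∃ W : ℤ, ∀ W', W ≤ W' → TP (fun t => Q t ∧ |t.1| ≤ W') F G := by
  induction h with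
  | refl => exact ⟨0, fun _ _ => TP.refl⟩
  | @tail u v _ h2 ih =>
    obtain ⟨W, hW⟩ := ih
    refine ⟨max W |(tb u v).1|, fun W' hW' => ?_⟩
    exact (hW W' (le_trans (le_max_left _ _) hW')).tail
      ⟨h2.1, h2.2, le_trans (le_max_right _ _) hW'⟩

/-- **floor crossing lemma**, bounded form -/
theorem fcl_bdd {Q1 Q2 : P2 → Prop} {a b c d W Y : ℤ} (hab : a < b) (hbc : b < c) (hcd : c < d)
    (h1 : TP Q1 (a, 0) (c, 0)) (h2 : TP Q2 (b, 0) (d, 0)) (hdis : ∀ t, Q1 t → Q2 t → False)
    (hQ1 : ∀ t, Q1 t → -W < t.1 ∧ t.1 ≤ W ∧ 1 ≤ t.2 ∧ t.2 ≤ Y)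
    (hQ2 : ∀ t, Q2 t → -W < t.1 ∧ t.1 ≤ W ∧ 1 ≤ t.2 ∧ t.2 ≤ Y)
    (ha : -W ≤ a) (hd : d ≤ W) (hY : 0 ≤ Y) (hpar : (a - b) % 2 = 1) : False := by
  -- extended sets
  let D : ℤ := 2 * (W + 1) - d
  let R1 : P2 → Prop := fun t => Q1 t ∨ (t.2 = 0 ∧ t.1 ≤ a) ∨ (t = (c, 0)) ∨ (t.2 = -1 ∧ c ≤ t.1)
  let R2 : P2 → Prop := fun t => Q2 t ∨ (t = (b, 0)) ∨ (t = (b, -1)) ∨
    (t.2 = 0 ∧ d < t.1 ∧ t.1 ≤ D) ∨ (t.1 = D + 1 ∧ 1 ≤ t.2 ∧ t.2 ≤ 2 * Y)
  -- left-right path
  obtain ⟨n1, hn1⟩ : ∃ n : ℕ, (n : ℤ) = a + W := ⟨(a + W).toNat, by omega⟩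
  obtain ⟨n2, hn2⟩ : ∃ n : ℕ, (n : ℤ) = D + 3 - c := ⟨(D + 3 - c).toNat, by omega⟩
  have pL := zigL R1 0 a n1 (fun m _ h => Or.inr (Or.inl ⟨rfl, h⟩))
  have pM : TP R1 (a, 0) (c, 0) := h1.mono fun t ht => Or.inl ht
  have pS : TP R1 (c, 0) (c - 1, -1) := TP.single (ts_of (u := c) (v := 0) (by omega) (by omega)
    (by omega) (by omega) (Or.inr (Or.inr (Or.inl rfl))))
  have pR := zigR R1 (-1) (c - 1) n2 (fun m h _ => Or.inr (Or.inr (Or.inr ⟨rfl, by
    simp only; omega⟩)))
  have P1 := pL.symm.trans (pM.trans (pS.trans pR))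
  -- bottom-top path
  obtain ⟨m1, hm1⟩ : ∃ n : ℕ, (n : ℤ) = W + 1 - d := ⟨(W + 1 - d).toNat, by omega⟩
  obtain ⟨m2, hm2⟩ : ∃ n : ℕ, (n : ℤ) = Y := ⟨Y.toNat, by omega⟩
  have q1 : TP R2 (b, -2) (b - 1, -1) := TP.single (ts_of (u := b) (v := -1) (by omega) (by omega)
    (by omega) (by omega) (Or.inr (Or.inr (Or.inl rfl))))
  have q2 : TP R2 (b - 1, -1) (b, 0) := TP.single (ts_of (u := b) (v := 0) (by omega) (by omega)
    (by omega) (by omega) (Or.inr (Or.inl rfl)))
  have q3 : TP R2 (b, 0) (d, 0) := h2.mono fun t ht => Or.inl ht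
  have q4 := zigR R2 0 d (2 * m1) (fun m h h' => Or.inr (Or.inr (Or.inr (Or.inl
    ⟨rfl, h, by simp only; push_cast at h'; omega⟩))))
  have e4 : (d + ((2 * m1 : ℕ) : ℤ), if (2 * m1) % 2 = 0 then (0 : ℤ) else 0 - 1) = (D, (0 : ℤ)) := by
    rw [if_pos (by omega)]
    refine Prod.ext ?_ rfl
    simp only
    push_cast
    omega
  rw [e4] at q4
  have q5 := zigU R2 D 0 (2 * m2) (fun m h h' => Or.inr (Or.inr (Or.inr (Or.inr
    ⟨rfl, by simp only; omega, by simp only; push_cast at h'; omega⟩))))
  have P2' := q1.trans (q2.trans (q3.trans (q4.trans q5)))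
  have hD : W + 1 ≤ D := by omega
  refine mcross_ne P1 P2' ?_ ?_ ?_ ?_ ?_ ?_
  · intro t ht
    simp only
    push_cast
    rcases ht with ht | ht | ht | ht
    · have := hQ1 t ht; omega
    · omega
    · subst ht; simp only; omega
    · omega
  · intro t ht
    simp only
    rcases ht with ht | ht | ht | ht | ht
    · have := hQ2 t ht; omega
    · subst ht; simp only; omega
    · subst ht; simp only; omega
    · omega
    · omega
  · simp only
    push_cast
    split_ifs <;> constructor <;> omega
  · simp only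
    constructor <;> omega
  · have := pL.parity
    simp only at this ⊢
    rw [← this]
    omega
  · intro t ht1 ht2
    rcases ht1 with ht1 | ht1 | ht1 | ht1 <;> rcases ht2 with ht2 | ht2 | ht2 | ht2 | ht2
    · exact hdis t ht1 ht2
    · have := hQ1 t ht1; subst ht2; simp only at this; omega
    · have := hQ1 t ht1; subst ht2; simp only at this; omega
    · have := hQ1 t ht1; omega
    · have := hQ1 t ht1; omega
    · have := hQ2 t ht2; omega
    · subst ht2; simp only at ht1; omega
    · subst ht2; simp only at ht1; omega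
    · omega
    · omega
    · have := hQ2 t ht2; subst ht1; simp only at this; omega
    · subst ht1; simp only [Prod.mk.injEq] at ht2; omega
    · subst ht1; simp only [Prod.mk.injEq] at ht2; omega
    · subst ht1; simp only at ht2; omega
    · subst ht1; simp only at ht2; omega
    · have := hQ2 t ht2; omega
    · subst ht2; simp only at ht1; omega
    · subst ht2; simp only at ht1; omega
    · omega
    · omega

/-- **floor crossing lemma** -/
theorem fcl {Q1 Q2 : P2 → Prop} {a b c d Y : ℤ} (hab : a < b) (hbc : b < c) (hcd : c < d)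
    (h1 : TP Q1 (a, 0) (c, 0)) (h2 : TP Q2 (b, 0) (d, 0)) (hdis : ∀ t, Q1 t → Q2 t → False)
    (hQ1 : ∀ t, Q1 t → 1 ≤ t.2 ∧ t.2 ≤ Y) (hQ2 : ∀ t, Q2 t → 1 ≤ t.2 ∧ t.2 ≤ Y)
    (hpar : (a - b) % 2 = 1) : False := by
  obtain ⟨W1, hW1⟩ := tp_bdd h1
  obtain ⟨W2, hW2⟩ := tp_bdd h2
  let W := max (max W1 W2) (max |a| |d|)
  have p1 := hW1 W (le_trans (le_max_left _ _) (le_max_left _ _))
  have p2 := hW2 W (le_trans (le_max_right _ _) (le_max_left _ _))
  have ha : |a| ≤ W := le_trans (le_max_left _ _) (le_max_right _ _)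
  have hd : |d| ≤ W := le_trans (le_max_right _ _) (le_max_right _ _)
  have ha' := abs_le.1 ha
  have hd' := abs_le.1 hd
  refine fcl_bdd (W := W + 1) (Y := max Y 0) hab hbc hcd p1 p2 (fun t h h' => hdis t h.1 h'.1)
    ?_ ?_ (by omega) (by omega) (le_max_right _ _) hpar
  · intro t ht
    have h3 := abs_le.1 ht.2
    have h4 := hQ1 t ht.1
    have h5 := le_max_left Y 0
    omega
  · intro t ht
    have h3 := abs_le.1 ht.2
    have h4 := hQ2 t ht.1
    have h5 := le_max_left Y 0
    omega

/-- **floor crossing lemma**, version with a path to the ceiling -/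
theorem fcl_top {Q1 Q2 : P2 → Prop} {a b c g Y : ℤ} (hab : a < b) (hbc : b < c) (hY : 0 ≤ Y)
    (h1 : TP Q1 (a, 0) (c, 0)) (h2 : TP Q2 (b, 0) (g, Y)) (hdis : ∀ t, Q1 t → Q2 t → False)
    (hQ1 : ∀ t, Q1 t → 1 ≤ t.2 ∧ t.2 ≤ Y) (hQ2 : ∀ t, Q2 t → 1 ≤ t.2 ∧ t.2 ≤ Y)
    (hpar : (a - b) % 2 = 1) : False := by
  obtain ⟨W2, hW2⟩ := tp_bdd h2
  let W := max W2 (max |a| |c|)
  have p2 := hW2 W (le_max_left _ _)
  have ha' := abs_le.1 (le_trans (le_max_left |a| |c|) (le_max_right W2 _))
  have hc' := abs_le.1 (le_trans (le_max_right |a| |c|) (le_max_right W2 _))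
  let R1 : P2 → Prop := fun t => Q1 t ∨ (t.2 = 0 ∧ t.1 ≤ a) ∨ (t.2 = 0 ∧ c < t.1)
  let R2 : P2 → Prop := fun t => (Q2 t ∧ |t.1| ≤ W) ∨ (t = (b, 0))
  obtain ⟨n1, hn1⟩ : ∃ n : ℕ, (n : ℤ) = a + (W + 1) := ⟨(a + (W + 1)).toNat, by omega⟩
  obtain ⟨n2, hn2⟩ : ∃ n : ℕ, (n : ℤ) = W + 1 - c := ⟨(W + 1 - c).toNat, by omega⟩
  have pL := zigL R1 0 a n1 (fun m _ h => Or.inr (Or.inl ⟨rfl, h⟩))
  have pM : TP R1 (a, 0) (c, 0) := h1.mono fun t ht => Or.inl ht
  have pR := zigR R1 0 c n2 (fun m h _ => Or.inr (Or.inr ⟨rfl, h⟩))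
  have P1 := pL.symm.trans (pM.trans pR)
  have q2 : TP R2 (b - 1, -1) (b, 0) := TP.single (ts_of (u := b) (v := 0) (by omega) (by omega)
    (by omega) (by omega) (Or.inr rfl))
  have q3 : TP R2 (b, 0) (g, Y) := p2.mono fun t ht => Or.inl ht
  have P2' := q2.trans q3
  refine mcross_ne P1 P2' ?_ ?_ ?_ ?_ ?_ ?_
  · intro t ht
    simp only
    rcases ht with ht | ht | ht
    · have := hQ1 t ht; omega
    · omega
    · omega
  · intro t ht
    simp only
    rcases ht with ht | ht
    · have := abs_le.1 ht.2; omega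
    · subst ht; simp only; omega
  · simp only
    split_ifs <;> constructor <;> omega
  · simp only
    constructor <;> omega
  · have := pL.parity
    simp only at this ⊢
    rw [← this]
    omega
  · intro t ht1 ht2
    rcases ht1 with ht1 | ht1 | ht1 <;> rcases ht2 with ht2 | ht2
    · exact hdis t ht1 ht2.1
    · have := hQ1 t ht1; subst ht2; simp only at this; omega
    · have := hQ2 t ht2.1; omega
    · subst ht2; simp only at ht1; omega
    · have := hQ2 t ht2.1; omega
    · subst ht2; simp only at ht1; omega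

end Crest.Agent.R158.Hp854
end

-- ▼ part R158/Hp10_854
section

/-!
# R158, block HP1 (helper854), part 10: faces along strands, joined gaps, arms

* `fcc c e` : the face of colour `c` next to the edge `e` (`true` = even = right side)
* `step_same`, `step_move` : one step of a strand
* `path_face` : connection along a strand
-/

set_option autoImplicit false
set_option linter.unusedSectionVars false
set_option linter.unusedSimpArgs false
set_option linter.unusedVariables false

namespace Crest.Agent.R158.Hp854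

open Finset
open Crest.Agent.R158.Bk430
open Crest.Agent.R158.Mr679
open Crest.Agent.R161.Geo729
open Crest.Agent.R158.Ts405 (shE sL per proj_eq_iff iter_proj)

/-- face of colour `c` next to an edge -/
def fcc (c : Bool) (e : ME ℤ ℤ) : ℤ × ℤ :=
  if decide ((e.1.1 + e.1.2) % 2 = 0) = c then e.1
  else if e.2 then (e.1.1 - 1, e.1.2) else (e.1.1, e.1.2 - 1)

theorem spx_int (X : ℤ × ℤ → Bool) (a b : ℤ) :
    spx X (a, b) = xor (!X (a, b)) (decide ((a + b) % 2 = 1)) := by
  unfold spx
  rw [Ts405.vp_int]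

theorem step_face (X : ℤ × ℤ → Bool) (c : Bool) (e : ME ℤ ℤ) :
    (X (hd e) = c → Dg (fcc c e) (fcc c (nx (spx X) e)) ∧
      tb (fcc c e) (fcc c (nx (spx X) e)) = hd e) ∧
    (X (hd e) ≠ c → fcc c (nx (spx X) e) = fcc c e) := by
  obtain ⟨⟨a, b⟩, d⟩ := e
  by_cases hp : (a + b) % 2 = 0
  · have hv : vp ((a, b) : ℤ × ℤ) = false := by rw [Ts405.vp_int]; simp; omega
    have h1 : (a + 1 + b) % 2 = 1 := by omega
    have h2 : (a + (b + 1)) % 2 = 1 := by omega
    have h3 : ¬ (a + b) % 2 = 1 := by omega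
    have h4 : ¬ (a + (b + 1)) % 2 = 0 := by omega
    have h5 : ¬ (a - 1 + b) % 2 = 0 := by omega
    have h6 : ¬ (a + (b - 1)) % 2 = 0 := by omega
    have h7 : (a - 1 + (b + 1)) % 2 = 0 := by omega
    have h8 : (a + (b + 1 - 1)) % 2 = 0 := by omega
    cases d
    · simp only [nx, hd, hv, Bool.false_eq_true, if_false, spx_int, Bool.not_false]
      cases hX : X (a, b) <;> cases c <;>
        simp [fcc, hp, h1, h2, h3, h4, h5, h6, h7, h8, Dg, tb]
    · simp only [nx, hd, hv, Bool.false_eq_true, if_false, if_true, spx_int, Bool.not_false]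
      cases hX : X (a, b + 1) <;> cases c <;>
        simp [fcc, hp, h1, h2, h3, h4, h5, h6, h7, h8, Dg, tb]
  · have hv : vp ((a, b) : ℤ × ℤ) = true := by rw [Ts405.vp_int]; simp; omega
    have h1 : (a + 1 + b) % 2 = 0 := by omega
    have h2 : (a + (b + 1)) % 2 = 0 := by omega
    have h3 : (a + b) % 2 = 1 := by omega
    have h4 : ¬ (a + 1 + b) % 2 = 1 := by omega
    have h5 : (a - 1 + b) % 2 = 0 := by omega
    have h6 : (a + (b - 1)) % 2 = 0 := by omega
    have h7 : (a + 1 + (b - 1)) % 2 = 1 := by omega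
    have h8 : ¬ (a + 1 + (b - 1)) % 2 = 0 := by omega
    cases d
    · simp only [nx, hd, hv, Bool.false_eq_true, if_false, if_true, spx_int, Bool.not_true]
      cases hX : X (a + 1, b) <;> cases c <;>
        simp [fcc, hp, h1, h2, h3, h4, h5, h6, h7, h8, Dg, tb]
    · simp only [nx, hd, hv, Bool.false_eq_true, if_false, if_true, spx_int, Bool.not_true]
      cases hX : X (a, b) <;> cases c <;>
        simp [fcc, hp, h1, h2, h3, h4, h5, h6, h7, h8, Dg, tb]

/-- connection of the faces of colour `c` along a strand -/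
theorem path_face (X : ℤ × ℤ → Bool) (c : Bool) (e : ME ℤ ℤ) (n : ℕ) (B : ℤ × ℤ → Prop)
    (hB : ∀ t < n, B (hd ((nx (spx X))^[t] e))) :
    TP (fun t => X t = c ∧ B t) (fcc c e) (fcc c ((nx (spx X))^[n] e)) := by
  induction n with
  | zero => exact TP.refl
  | succ n ih =>
    refine (ih fun t ht => hB t (by omega)).trans ?_
    rw [Function.iterate_succ_apply']
    obtain ⟨h1, h2⟩ := step_face X c ((nx (spx X))^[n] e)
    by_cases hX : X (hd ((nx (spx X))^[n] e)) = c
    · obtain ⟨h3, h4⟩ := h1 hX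
      refine TP.single ⟨h3, ?_⟩
      rw [h4]
      exact ⟨hX, hB n (by omega)⟩
    · rw [h2 hX]
      exact TP.refl


theorem fcc_up (c : Bool) {i b : ℤ} (hb : (i + b) % 2 = 0) :
    fcc c ((i, b), true) = if c then (i, b) else (i - 1, b) := by
  unfold fcc
  simp only [hb]
  cases c <;> simp

theorem fcc_down (c : Bool) {i b : ℤ} (hb : (i + b) % 2 = 1) :
    fcc c ((i, b), true) = if c then (i - 1, b) else (i, b) := by
  unfold fcc
  have : ¬ (i + b) % 2 = 0 := by omega
  simp only [this]
  cases c <;> simp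

section Box

variable {M L H : ℕ} [NeZero M] [NeZero L] [Fact (Even M)] [Fact (Even L)]

/-- the field of the cylinder on the plane -/
def XP (hL : L = 2 * H) (x : Ct M L H → Bool) (u : ℤ × ℤ) : Bool :=
  Xt hL x ((u.1 : ZMod M), (u.2 : ZMod L))

theorem sL_eq (hL : L = 2 * H) (x : Ct M L H → Bool) : sL (sx hL x) = spx (XP hL x) := by
  funext u
  unfold sL sx spx XP
  rw [Ts405.vp_proj]

theorem fl_hd {i : ℤ} (hi : i % 2 = 0) : hd (fl i) = (i, 1) := by
  unfold fl
  rw [hd_vert, if_pos (by omega)]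
  rfl

theorem lo_even (H : ℕ) {i : ℤ} (hi : i % 2 = 0) : lo H (fl i) = 0 := by
  unfold lo fl; simp [hi]

/-- rows of the strand of an even floor leg -/
theorem rows_even (hL : L = 2 * H) (x : Ct M L H → Bool) {i : ℤ} (hi : i % 2 = 0) :
    ∀ t < hp hL x (fl i), 1 ≤ (hd ((nx (spx (XP hL x)))^[t] (fl i))).2 ∧
      (hd ((nx (spx (XP hL x)))^[t] (fl i))).2 ≤ H := by
  intro t ht
  have hf := hp_facts hL x (fl_leg H i)
  have := confine (H_pos hL) (fl_leg H i) hf.2.2.2.2.1 t ht
  rw [lo_even H hi, sL_eq] at this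
  omega

theorem fin_eq (hL : L = 2 * H) (x : Ct M L H → Bool) (e : ME ℤ ℤ) :
    (nx (spx (XP hL x)))^[hp hL x e] e = fin hL x e := by
  unfold fin; rw [sL_eq]

/-- faces along the whole strand of an even floor leg -/
theorem whole_face (hL : L = 2 * H) (x : Ct M L H → Bool) (c : Bool) {i : ℤ} (hi : i % 2 = 0) :
    TP (fun t => XP hL x t = c ∧ (1 ≤ t.2 ∧ t.2 ≤ H)) (if c then (i, 0) else (i - 1, 0))
      (fcc c (fin hL x (fl i))) := by
  have h1 := path_face (XP hL x) c (fl i) (hp hL x (fl i)) (fun t => 1 ≤ t.2 ∧ t.2 ≤ (H : ℤ))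
    (rows_even hL x hi)
  have h2 : fcc c (fl i) = if c then (i, 0) else (i - 1, 0) := fcc_up c (by omega)
  rw [fin_eq, h2] at h1
  exact h1

/-- **(C)** two joined gaps: the even legs between them are matched between them -/
theorem joined_even (hL : L = 2 * H) (x : Ct M L H → Bool) {c : Bool} {x1 x2 b : ℤ}
    (hc1 : x1 % 2 = if c then 0 else 1) (hc2 : x2 % 2 = if c then 0 else 1)
    (hTP : TP (fun t => XP hL x t = c ∧ (1 ≤ t.2 ∧ t.2 ≤ H)) (x1, 0) (x2, 0))
    (hb : b % 2 = 0) (h1 : x1 < b) (h2 : b ≤ x2) :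
    ∃ j, j % 2 = 1 ∧ fin hL x (fl b) = fl j ∧ x1 < j ∧ j ≤ x2 := by
  have hw := whole_face hL x (!c) hb
  rcases even_end hL x hb with ⟨j, hj, hf⟩ | ⟨j, hj, hf⟩
  · refine ⟨j, hj, hf, ?_⟩
    rw [hf] at hw
    have h3 : fcc (!c) (fl j) = if (!c) = true then (j - 1, 0) else (j, 0) := fcc_down _ (by omega)
    rw [h3] at hw
    by_contra hcon
    cases c
    · simp only [Bool.not_false, if_true] at hw hc1 hc2
      simp only [Bool.false_eq_true, if_false] at hc1 hc2
      rcases lt_or_ge x1 j with h4 | h4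
      · have h5 : x2 < j := by
          by_contra h6; exact hcon ⟨h4, by omega⟩
        exact fcl (a := x1) (b := b) (c := x2) (d := j - 1) (Y := H) (by omega) (by omega)
          (by omega) hTP hw (fun t g g' => by
            have e1 := g.1; have e2 := g'.1; rw [e1] at e2; exact absurd e2 (by simp))
          (fun t g => g.2) (fun t g => g.2) (by omega)
      · exact fcl (a := j - 1) (b := x1) (c := b) (d := x2) (Y := H) (by omega) (by omega)
          (by omega) hw.symm hTP (fun t g g' => by
            have e1 := g.1; have e2 := g'.1; rw [e1] at e2; exact absurd e2 (by simp))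
          (fun t g => g.2) (fun t g => g.2) (by omega)
    · simp only [Bool.not_true, Bool.false_eq_true, if_false] at hw
      simp only [if_true] at hc1 hc2
      rcases lt_or_ge x1 j with h4 | h4
      · have h5 : x2 < j := by
          by_contra h6; exact hcon ⟨h4, by omega⟩
        exact fcl (a := x1) (b := b - 1) (c := x2) (d := j) (Y := H) (by omega) (by omega)
          (by omega) hTP hw (fun t g g' => by
            have e1 := g.1; have e2 := g'.1; rw [e1] at e2; exact absurd e2 (by simp))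
          (fun t g => g.2) (fun t g => g.2) (by omega)
      · exact fcl (a := j) (b := x1) (c := b - 1) (d := x2) (Y := H) (by omega) (by omega)
          (by omega) hw.symm hTP (fun t g g' => by
            have e1 := g.1; have e2 := g'.1; rw [e1] at e2; exact absurd e2 (by simp))
          (fun t g => g.2) (fun t g => g.2) (by omega)
  · exfalso
    rw [hf] at hw
    rw [fcc_up (!c) hj] at hw
    cases c
    · simp only [Bool.not_false, if_true] at hw
      simp only [Bool.false_eq_true, if_false] at hc1 hc2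
      exact fcl_top (a := x1) (b := b) (c := x2) (g := j) (Y := H) (by omega) (by omega)
        (by omega) hTP hw (fun t g g' => by
            have e1 := g.1; have e2 := g'.1; rw [e1] at e2; exact absurd e2 (by simp))
        (fun t g => g.2) (fun t g => g.2) (by omega)
    · simp only [Bool.not_true, Bool.false_eq_true, if_false] at hw
      simp only [if_true] at hc1 hc2
      exact fcl_top (a := x1) (b := b - 1) (c := x2) (g := j - 1) (Y := H) (by omega) (by omega)
        (by omega) hTP hw (fun t g g' => by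
            have e1 := g.1; have e2 := g'.1; rw [e1] at e2; exact absurd e2 (by simp))
        (fun t g => g.2) (fun t g => g.2) (by omega)

/-- **(C')** all legs between two joined gaps are matched between them -/
theorem joined (hL : L = 2 * H) (x : Ct M L H → Bool) {c : Bool} {x1 x2 : ℤ}
    (hc1 : x1 % 2 = if c then 0 else 1) (hc2 : x2 % 2 = if c then 0 else 1)
    (hTP : TP (fun t => XP hL x t = c ∧ (1 ≤ t.2 ∧ t.2 ≤ H)) (x1, 0) (x2, 0))
    {b : ℤ} (h1 : x1 < b) (h2 : b ≤ x2) :
    ∃ j, sgm hL x b = some j ∧ x1 < j ∧ j ≤ x2 := by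
  have key : ∀ b : ℤ, b % 2 = 0 → x1 < b → b ≤ x2 → ∃ j, j % 2 = 1 ∧ sgm hL x b = some j ∧ x1 < j ∧
      j ≤ x2 := by
    intro b g0 g1 g2
    obtain ⟨j, hj, hf, hj1, hj2⟩ := joined_even hL x hc1 hc2 hTP g0 g1 g2
    exact ⟨j, hj, (sgm_some hL x).2 hf, hj1, hj2⟩
  rcases Int.emod_two_eq_zero_or_one b with hb | hb
  · obtain ⟨j, -, h⟩ := key b hb h1 h2
    exact ⟨j, h⟩
  · -- counting
    let δ : ℤ := if c then -1 else 1
    let S : Finset ℤ := (Finset.Ioc x1 x2).filter fun i => i % 2 = 0
    have hS : ∀ i, i ∈ S ↔ (x1 < i ∧ i ≤ x2) ∧ i % 2 = 0 := fun i => by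
      simp [S, Finset.mem_filter, Finset.mem_Ioc]
    have hkey : ∀ i ∈ S, ∃ j, j % 2 = 1 ∧ sgm hL x i = some j ∧ x1 < j ∧ j ≤ x2 := fun i hi =>
      key i ((hS i).1 hi).2 ((hS i).1 hi).1.1 ((hS i).1 hi).1.2
    choose! f hf0 hf1 hf2 hf3 using hkey
    have hmap : ∀ i ∈ S, f i - δ ∈ S := by
      intro i hi
      rw [hS]
      have g0 := hf0 i hi
      have g2 := hf2 i hi
      have g3 := hf3 i hi
      cases c
      · simp only [Bool.false_eq_true, if_false, δ] at hc1 hc2 ⊢
        omega
      · simp only [if_true, δ] at hc1 hc2 ⊢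
        omega
    have hinj : Set.InjOn (fun i => f i - δ) S := by
      intro i hi i' hi' h
      simp only at h
      have h3 : f i = f i' := by omega
      have e1 := sgm_inv hL x _ _ (hf1 i hi)
      have e2 := sgm_inv hL x _ _ (hf1 i' hi')
      rw [h3, e2] at e1
      exact (Option.some.inj e1).symm
    have hsurj := Finset.surjOn_of_injOn_of_card_le (fun i => f i - δ) hmap hinj le_rfl
    have hbS : b - δ ∈ (S : Set ℤ) := by
      rw [Finset.mem_coe, hS]
      cases c
      · simp only [Bool.false_eq_true, if_false, δ] at hc1 hc2 ⊢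
        omega
      · simp only [if_true, δ] at hc1 hc2 ⊢
        omega
    obtain ⟨i, hi, hib⟩ := hsurj hbS
    simp only at hib
    have h3 : f i = b := by omega
    have h4 := hf1 i hi
    rw [h3] at h4
    have h5 := (hS i).1 hi
    exact ⟨i, sgm_inv hL x _ _ h4, h5.1.1, h5.1.2⟩

end Box

end Crest.Agent.R158.Hp854
end

-- ▼ part R158/Hp11_854

/-!
# R158, block HP1 (helper854), part 11: arms from strands, the pattern axioms

* `arm_odd`, `arm_even` : if no arc of the pattern passes over a gap inside a box, the gap has an arm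
* `two_arms` : if the strand of an even leg leaves a box, both gaps have arms
* `arc_faces`, `pat` : noncrossing, `Pat M (sgm x)`
-/

set_option autoImplicit false
set_option linter.unusedSectionVars false
set_option linter.unusedSimpArgs false
set_option linter.unusedVariables false

namespace Crest.Agent.R158.Hp854

open Finset
open Crest.Agent.R158.Bk430
open Crest.Agent.R158.Mr679
open Crest.Agent.R161.Geo729
open Crest.Agent.R158.Ts405 (shE sL per proj_eq_iff iter_proj)

/-- faces on the outer sides of a floor box (or beyond) -/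
def Farb (x0 x1 r : ℤ) (G : ℤ × ℤ) : Prop := G.1 ≤ x0 ∨ x1 ≤ G.1 ∨ r ≤ G.2

theorem hd_tl_h (p q : ℤ) : ((hd ((p, q), false) : ℤ × ℤ) = (p, q) ∧ (tl ((p, q), false) : ℤ × ℤ) = (p + 1, q)) ∨
    ((hd ((p, q), false) : ℤ × ℤ) = (p + 1, q) ∧ (tl ((p, q), false) : ℤ × ℤ) = (p, q)) := by
  unfold hd tl
  simp only [Bool.false_eq_true, if_false]
  cases vp ((p, q) : ℤ × ℤ) <;> simp

theorem hd_tl_v (p q : ℤ) : ((hd ((p, q), true) : ℤ × ℤ) = (p, q + 1) ∧ (tl ((p, q), true) : ℤ × ℤ) = (p, q)) ∨
    ((hd ((p, q), true) : ℤ × ℤ) = (p, q) ∧ (tl ((p, q), true) : ℤ × ℤ) = (p, q + 1)) := by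
  unfold hd tl
  simp only [if_true]
  cases vp ((p, q) : ℤ × ℤ) <;> simp

theorem fcc_cases (c : Bool) (p q : ℤ) (d : Bool) : fcc c ((p, q), d) = (p, q) ∨
    fcc c ((p, q), d) = if d then (p - 1, q) else (p, q - 1) := by
  unfold fcc
  simp only
  split_ifs <;> simp

section Box

variable {M L H : ℕ} [NeZero M] [NeZero L] [Fact (Even M)] [Fact (Even L)]

theorem strand_box (hL : L = 2 * H) (x : Ct M L H → Bool) {i x0 x1 r : ℤ} (hi : i % 2 = 0)
    (hr : 1 ≤ r) (hrH : r ≤ H) (h0 : x0 < i) (h1 : i ≤ x1) :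
    (∃ n, (∀ t < n, InB x0 x1 0 r (hd ((nx (spx (XP hL x)))^[t] (fl i)))) ∧
      ∀ c, Farb x0 x1 r (fcc c ((nx (spx (XP hL x)))^[n] (fl i)))) ∨
    (∃ j, j % 2 = 1 ∧ fin hL x (fl i) = fl j ∧ x0 < j ∧ j ≤ x1 ∧
      ∀ t < hp hL x (fl i), InB x0 x1 0 r (hd ((nx (spx (XP hL x)))^[t] (fl i)))) := by
  classical
  by_cases hall : ∀ t < hp hL x (fl i), InB x0 x1 0 r (hd ((nx (spx (XP hL x)))^[t] (fl i)))
  · rcases even_end hL x hi with ⟨j, hj, hf⟩ | ⟨j, hj, hf⟩
    · right
      refine ⟨j, hj, hf, ?_⟩
      have hpos := (hp_facts hL x (fl_leg H i)).1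
      have h2 := hall (hp hL x (fl i) - 1) (by omega)
      have h3 : hd ((nx (spx (XP hL x)))^[hp hL x (fl i) - 1] (fl i)) = (j, 1) := by
        rw [← tl_nx (spx (XP hL x)), ← Function.iterate_succ_apply' (f := nx (spx (XP hL x)))]
        rw [show (hp hL x (fl i) - 1).succ = hp hL x (fl i) by omega, fin_eq, hf]
        unfold fl
        rw [tl_vert, if_neg (by omega)]
        rfl
      rw [h3] at h2
      unfold InB at h2
      simp only at h2
      exact ⟨h2.1, h2.2.1, hall⟩
    · left
      refine ⟨hp hL x (fl i), hall, fun c => ?_⟩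
      rw [fin_eq, hf]
      right; right
      rcases fcc_cases c j H true with h | h <;> rw [h] <;> simpa using hrH
  · left
    push Not at hall
    obtain ⟨h2, h3⟩ := Nat.find_spec hall
    set n := Nat.find hall with hn
    have hmin : ∀ t < n, InB x0 x1 0 r (hd ((nx (spx (XP hL x)))^[t] (fl i))) := by
      intro t ht
      by_contra hc
      exact Nat.find_min hall ht ⟨by omega, hc⟩
    have hn0 : 0 < n := by
      rcases Nat.eq_zero_or_pos n with h4 | h4
      · exfalso
        rw [h4] at h3
        apply h3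
        simp only [Function.iterate_zero, id_eq]
        rw [fl_hd hi]
        exact ⟨h0, h1, by norm_num, hr⟩
      · exact h4
    refine ⟨n, hmin, fun c => ?_⟩
    have h4 := hmin (n - 1) (by omega)
    have h5 : hd ((nx (spx (XP hL x)))^[n - 1] (fl i)) = tl ((nx (spx (XP hL x)))^[n] (fl i)) := by
      rw [← tl_nx (spx (XP hL x)), ← Function.iterate_succ_apply' (f := nx (spx (XP hL x)))]
      rw [show (n - 1).succ = n by omega]
    rw [h5] at h4
    have h6 := (rows_even hL x hi n h2).1
    generalize (nx (spx (XP hL x)))^[n] (fl i) = f at h3 h4 h6 ⊢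
    obtain ⟨⟨p, q⟩, d⟩ := f
    unfold InB at h3 h4
    unfold Farb
    cases d
    · rcases hd_tl_h p q with ⟨g1, g2⟩ | ⟨g1, g2⟩ <;> rw [g1] at h3 h6 <;> rw [g2] at h4 <;>
        simp only at h3 h4 h6 <;> rcases fcc_cases c p q false with h | h <;> rw [h] <;>
        simp only [Bool.false_eq_true, if_false] <;> omega
    · rcases hd_tl_v p q with ⟨g1, g2⟩ | ⟨g1, g2⟩ <;> rw [g1] at h3 h6 <;> rw [g2] at h4 <;>
        simp only at h3 h4 h6 <;> rcases fcc_cases c p q true with h | h <;> rw [h] <;>
        simp only [if_true] <;> omega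

/-- paths inside a floor box are paths of the cylinder -/
theorem tp_box (hL : L = 2 * H) (x : Ct M L H → Bool) {c : Bool} {x0 x1 r : ℤ} (hrH : r ≤ H)
    {F G : ℤ × ℤ} (h : TP (fun t => XP hL x t = c ∧ InB x0 x1 0 r t) F G) :
    TP (fun t => XP hL x t = c ∧ (1 ≤ t.2 ∧ t.2 ≤ H)) F G := by
  refine h.mono fun t ht => ⟨ht.1, ?_⟩
  obtain ⟨-, h2⟩ := ht
  unfold InB at h2
  omega

/-- **(B')** odd gap without local arcs over it -/
theorem arm_odd (hL : L = 2 * H) (x : Ct M L H → Bool) {g r : ℤ} (hg : g % 2 = 1) (hr : 1 ≤ r)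
    (hrH : r ≤ H) (hno : ∀ i j, sgm hL x i = some j → g - r < i → i ≤ g → g < j → j ≤ g + r → False) :
    ∃ G, TP (fun t => XP hL x t = false ∧ InB (g - r) (g + r) 0 r t) (g, 0) G ∧
      Farb (g - r) (g + r) r G := by
  have key : ∀ n : ℕ, ∀ y : ℤ, y % 2 = 1 → g ≤ y → y ≤ g + r → g + r - y ≤ n →
      TP (fun t => XP hL x t = false ∧ InB (g - r) (g + r) 0 r t) (g, 0) (y, 0) →
      ∃ G, TP (fun t => XP hL x t = false ∧ InB (g - r) (g + r) 0 r t) (g, 0) G ∧
      Farb (g - r) (g + r) r G := by
    intro n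
    induction n with
    | zero =>
      intro y hy h1 h2 h3 h4
      refine ⟨_, h4, ?_⟩
      right; left
      simp only
      omega
    | succ n ih =>
      intro y hy h1 h2 h3 h4
      rcases eq_or_lt_of_le h2 with h5 | h5
      · refine ⟨_, h4, ?_⟩
        right; left
        simp only
        omega
      · rcases strand_box hL x (i := y + 1) (x0 := g - r) (x1 := g + r) (by omega) hr hrH (by omega)
          (by omega) with ⟨m, hm1, hm2⟩ | ⟨j, hj, hf, hj0, hj1, hin⟩
        · have h6 := path_face (XP hL x) false (fl (y + 1)) m _ hm1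
          have h7 : fcc false (fl (y + 1)) = (y, 0) := by
            unfold fl
            rw [fcc_up false (by omega)]
            simp
          rw [h7] at h6
          exact ⟨_, h4.trans h6, hm2 false⟩
        · have h6 := path_face (XP hL x) false (fl (y + 1)) (hp hL x (fl (y + 1))) _ hin
          have h7 : fcc false (fl (y + 1)) = (y, 0) := by
            unfold fl
            rw [fcc_up false (by omega)]
            simp
          have h8 : fcc false (fl j) = (j, 0) := by
            unfold fl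
            rw [fcc_down false (by omega)]
            simp
          rw [fin_eq, hf, h7, h8] at h6
          have hs : sgm hL x (y + 1) = some j := (sgm_some hL x).2 hf
          have hs' := sgm_inv hL x _ _ hs
          rcases lt_or_ge y j with h9 | h9
          · exact ih j hj (by omega) (by omega) (by omega) (h4.trans h6)
          · rcases lt_or_ge g j with h10 | h10
            · exfalso
              have hgy : g < y := by omega
              obtain ⟨j', hj', -, hj2⟩ := joined hL x (c := false) (x1 := g) (x2 := y)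
                (by simpa using hg) (by simpa using hy) (tp_box hL x hrH h4) h10 h9
              rw [hs'] at hj'
              have := Option.some.inj hj'
              omega
            · exact (hno j (y + 1) hs' hj0 h10 (by omega) (by omega)).elim
  exact key (r.toNat) g hg le_rfl (by omega) (by omega) TP.refl

/-- **(B')** even gap without local arcs over it -/
theorem arm_even (hL : L = 2 * H) (x : Ct M L H → Bool) {g r : ℤ} (hg : g % 2 = 0) (hr : 1 ≤ r)
    (hrH : r ≤ H) (hno : ∀ i j, sgm hL x i = some j → g - r < i → i ≤ g → g < j → j ≤ g + r → False) :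
    ∃ G, TP (fun t => XP hL x t = true ∧ InB (g - r) (g + r) 0 r t) (g, 0) G ∧
      Farb (g - r) (g + r) r G := by
  have key : ∀ n : ℕ, ∀ y : ℤ, y % 2 = 0 → y ≤ g → g - r ≤ y → y - (g - r) ≤ n →
      TP (fun t => XP hL x t = true ∧ InB (g - r) (g + r) 0 r t) (g, 0) (y, 0) →
      ∃ G, TP (fun t => XP hL x t = true ∧ InB (g - r) (g + r) 0 r t) (g, 0) G ∧
      Farb (g - r) (g + r) r G := by
    intro n
    induction n with
    | zero =>
      intro y hy h1 h2 h3 h4
      refine ⟨_, h4, ?_⟩
      left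
      simp only
      omega
    | succ n ih =>
      intro y hy h1 h2 h3 h4
      rcases eq_or_lt_of_le h2 with h5 | h5
      · refine ⟨_, h4, ?_⟩
        left
        simp only
        omega
      · rcases strand_box hL x (i := y) (x0 := g - r) (x1 := g + r) (by omega) hr hrH (by omega)
          (by omega) with ⟨m, hm1, hm2⟩ | ⟨j, hj, hf, hj0, hj1, hin⟩
        · have h6 := path_face (XP hL x) true (fl y) m _ hm1
          have h7 : fcc true (fl y) = (y, 0) := by
            unfold fl
            rw [fcc_up true (by omega)]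
            simp
          rw [h7] at h6
          exact ⟨_, h4.trans h6, hm2 true⟩
        · have h6 := path_face (XP hL x) true (fl y) (hp hL x (fl y)) _ hin
          have h7 : fcc true (fl y) = (y, 0) := by
            unfold fl
            rw [fcc_up true (by omega)]
            simp
          have h8 : fcc true (fl j) = (j - 1, 0) := by
            unfold fl
            rw [fcc_down true (by omega)]
            simp
          rw [fin_eq, hf, h7, h8] at h6
          have hs : sgm hL x y = some j := (sgm_some hL x).2 hf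
          have hs' := sgm_inv hL x _ _ hs
          rcases lt_or_ge j y with h9 | h9
          · exact ih (j - 1) (by omega) (by omega) (by omega) (by omega) (h4.trans h6)
          · rcases lt_or_ge g j with h10 | h10
            · exact (hno y j hs h5 h1 h10 hj1).elim
            · exfalso
              have hyj : y < j := by
                have := sgm_ne hL x _ _ hs
                omega
              obtain ⟨j', hj', hj2, -⟩ := joined hL x (c := true) (x1 := y) (x2 := g)
                (by simpa using hy) (by simpa using hg) (tp_box hL x hrH h4.symm) hyj h10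
              rw [hs'] at hj'
              have := Option.some.inj hj'
              omega
  exact key (r.toNat) g hg le_rfl (by omega) (by omega) TP.refl

/-- **(A)** the strand of an even leg that does not end in the box gives two arms -/
theorem two_arms (hL : L = 2 * H) (x : Ct M L H → Bool) {i x0 x1 r : ℤ} (hi : i % 2 = 0)
    (hr : 1 ≤ r) (hrH : r ≤ H) (h0 : x0 < i) (h1 : i ≤ x1)
    (hno : ∀ j, sgm hL x i = some j → x0 < j → j ≤ x1 → False) :
    (∃ G, TP (fun t => XP hL x t = false ∧ InB x0 x1 0 r t) (i - 1, 0) G ∧ Farb x0 x1 r G) ∧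
    (∃ G, TP (fun t => XP hL x t = true ∧ InB x0 x1 0 r t) (i, 0) G ∧ Farb x0 x1 r G) := by
  rcases strand_box hL x hi hr hrH h0 h1 with ⟨m, hm1, hm2⟩ | ⟨j, hj, hf, hj0, hj1, hin⟩
  · have e1 := path_face (XP hL x) false (fl i) m _ hm1
    have e2 := path_face (XP hL x) true (fl i) m _ hm1
    have h7 : fcc false (fl i) = (i - 1, 0) := by
      unfold fl
      rw [fcc_up false (by omega)]
      simp
    have h8 : fcc true (fl i) = (i, 0) := by
      unfold fl
      rw [fcc_up true (by omega)]
      simp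
    rw [h7] at e1
    rw [h8] at e2
    exact ⟨⟨_, e1, hm2 false⟩, ⟨_, e2, hm2 true⟩⟩
  · exact (hno j ((sgm_some hL x).2 hf) hj0 hj1).elim

/-- the two faces paths along an arc: inner gaps and outer gaps -/
theorem arc_faces (hL : L = 2 * H) (x : Ct M L H → Bool) {i j : ℤ} (h : sgm hL x i = some j)
    (hij : i < j) :
    (j - i) % 2 = 1 ∧
    TP (fun t => XP hL x t = decide (i % 2 = 0) ∧ (1 ≤ t.2 ∧ t.2 ≤ H)) (i, 0) (j - 1, 0) ∧
    TP (fun t => XP hL x t = !decide (i % 2 = 0) ∧ (1 ≤ t.2 ∧ t.2 ≤ H)) (i - 1, 0) (j, 0) := by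
  rcases Int.emod_two_eq_zero_or_one i with hi | hi
  · have hf := (sgm_some hL x).1 h
    have hj : j % 2 = 1 := by
      rcases even_end hL x hi with ⟨j', hj', hf'⟩ | ⟨j', hj', hf'⟩
      · rw [hf] at hf'
        have : j = j' := congrArg (fun e : ME ℤ ℤ => e.1.1) hf'
        omega
      · rw [hf] at hf'
        have h1 : (0 : ℤ) = H := congrArg (fun e : ME ℤ ℤ => e.1.2) hf'
        have := H_pos hL
        omega
    have w1 := whole_face hL x true hi
    have w2 := whole_face hL x false hi
    rw [hf] at w1 w2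
    unfold fl at w1 w2
    rw [fcc_down _ (by omega)] at w1 w2
    have hd : decide (i % 2 = 0) = true := by simp [hi]
    rw [hd]
    simp only [if_true, Bool.false_eq_true, if_false, Bool.not_true] at w1 w2 ⊢
    exact ⟨by omega, w1, w2⟩
  · have h' := sgm_inv hL x _ _ h
    have hf := (sgm_some hL x).1 h'
    have hj : j % 2 = 0 := by
      by_contra hc
      have hj1 : j % 2 = 1 := by omega
      rcases odd_end hL x hi with ⟨j', hj', hf'⟩ | ⟨j', hj', hf'⟩
      · rw [(sgm_some hL x).1 h] at hf'
        have : j = j' := congrArg (fun e : ME ℤ ℤ => e.1.1) hf'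
        omega
      · rw [(sgm_some hL x).1 h] at hf'
        have h1 : (0 : ℤ) = -(H : ℤ) := congrArg (fun e : ME ℤ ℤ => e.1.2) hf'
        have := H_pos hL
        omega
    have w1 := whole_face hL x true hj
    have w2 := whole_face hL x false hj
    rw [hf] at w1 w2
    unfold fl at w1 w2
    rw [fcc_down _ (by omega)] at w1 w2
    have hd : decide (i % 2 = 0) = false := by simp [hi]
    rw [hd]
    simp only [if_true, Bool.false_eq_true, if_false, Bool.not_false] at w1 w2 ⊢
    exact ⟨by omega, w2.symm, w1.symm⟩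

theorem near_aux (hL : L = 2 * H) (x : Ct M L H → Bool) {i j : ℤ} (h : sgm hL x i = some j)
    (hij : i < j) : j - i < M := by
  by_contra hc
  push Not at hc
  obtain ⟨h1, h2, h3⟩ := arc_faces hL x h hij
  have hM : (M : ℤ) % 2 = 0 := by
    obtain ⟨m, hm⟩ := (inferInstance : Fact (Even M)).out
    omega
  have hM0 : 0 < M := Nat.pos_of_ne_zero (NeZero.ne M)
  have hs := sgm_per hL x i j h
  obtain ⟨g1, g2, g3⟩ := arc_faces hL x hs (by omega)
  have hdec : decide ((i + (M : ℤ)) % 2 = 0) = decide (i % 2 = 0) := by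
    congr 1
    apply propext
    omega
  rw [hdec] at g3
  refine fcl (a := i) (b := i + M - 1) (c := j - 1) (d := j + M) (Y := H) (by omega) (by omega)
    (by omega) h2 g3 (fun t a b => ?_) (fun t a => a.2) (fun t a => a.2) (by omega)
  have e1 := a.1
  have e2 := b.1
  rw [e1] at e2
  cases hd : decide (i % 2 = 0) <;> rw [hd] at e2 <;> simp at e2

/-- **the pattern axioms** -/
theorem pat (hL : L = 2 * H) (x : Ct M L H → Bool) : Pat M (sgm hL x) where
  per := sgm_per hL x
  per' := sgm_per' hL x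
  inv := sgm_inv hL x
  ne := sgm_ne hL x
  near := by
    intro i j h
    rcases lt_trichotomy i j with h1 | h1 | h1
    · rw [abs_of_pos (by omega)]
      exact near_aux hL x h h1
    · exact absurd h1.symm (sgm_ne hL x _ _ h)
    · rw [abs_of_neg (by omega)]
      have := near_aux hL x (sgm_inv hL x _ _ h) h1
      omega

end Box

end Crest.Agent.R158.Hp854
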