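import Mathlib
import Crest.Agent.R158.Hp11_854
import Crest.Agent.R158.Hr2_440
import Crest.Agent.R158.Fl5_440
import Crest.Agent.R158.Nz3_399
import Crest.Agent.R158.Nz5_399
import Crest.Agent.R158.Dn2_211
import Crest.Agent.R158.Zm2_180
import Crest.Agent.R158.Nz4_399

-- ▼ part R158/Tw1_440
section

/-!
# Row 158, block Q1d (helper440): two arms in strand form at a flat wall

* `Wk2 n` : the walk of `nx6 s` from `((0,0),N)` above the floor `0 ≤ y` reaches sup-distance `n`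
* `E2 n` : the two arm event, `wk2_sub : Wk2 n ⊆ E2 n`, `E2_dep` (tiles `Tk .mk n`), `E2_le`, `E2_ge`
* `Wk2p g a n`, `E2p g a n` : the same at the vertex `a` after `g` quarter turns; `wk2p_sub`,
  `E2p_chart_dep`, `E2p_chart_prob` : in a chart `rd emb F`
-/

set_option autoImplicit false
set_option linter.unusedSimpArgs false
set_option linter.unusedVariables false

noncomputable section

namespace Crest.Agent.R158.Tw440

open MeasureTheory ProbabilityTheory unitInterval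
open Crest.Agent.R161.Geo729
open Crest.Agent.R158.Bk430 (ME HasPar vp hd tl nx tl_nx)
open Crest.Agent.R158.Rs689 Crest.Agent.R158.Mr679 Crest.Agent.R158.Fl440
open Crest.Agent.R158.Hp854
open Crest.Agent.R158.Nm211 (Dir dx dy trn St mv nx6 Hit KK Far rd integral_transport)
open Crest.Agent.R158.Nz399 (Kind Tk mem_Tk rt rs od pl ps nx_ps rs_iter_fst pl_inj ps_inj)

universe u

/-! ### from raw splittings to tile fields -/

/-- the tile field of a raw splitting whose floor is below the row `0` -/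
def Xs (s : ℤ × ℤ → Bool) : TF := fun t => !(xor (s (t.1, t.2 - 1)) (vp (t : ℤ × ℤ)))

theorem spx_Xs (s : ℤ × ℤ → Bool) : spx (Xs s) = fun t : ℤ × ℤ => s (t.1, t.2 - 1) := by
  funext t
  unfold spx Xs
  cases s (t.1, t.2 - 1) <;> cases vp (t : ℤ × ℤ) <;> rfl

/-- translation upwards by one row -/
def up (c : St ℤ) : St ℤ := ((c.1.1, c.1.2 + 1), c.2)

theorem up_nx (s : ℤ × ℤ → Bool) (c : St ℤ) :
    nx6 (fun t : ℤ × ℤ => s (t.1, t.2 - 1)) (up c) = up (nx6 s c) := by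
  obtain ⟨⟨a, b⟩, d⟩ := c
  simp only [up, nx6, mv, add_sub_cancel_right, Prod.mk.injEq, and_true, true_and]
  ring

theorem up_iter (s : ℤ × ℤ → Bool) (c : St ℤ) (k : ℕ) :
    (nx6 (fun t : ℤ × ℤ => s (t.1, t.2 - 1)))^[k] (up c) = up ((nx6 s)^[k] c) := by
  induction k with
  | zero => rfl
  | succ k ih => rw [Function.iterate_succ_apply', Function.iterate_succ_apply', ih, up_nx]

/-- start of the strand -/
def st0 : St ℤ := ((0, 0), 0)

theorem cs_fl0 : cs (fl 0) = up st0 := by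
  unfold cs fl up st0
  rw [hd_vert]
  have : vp ((0, 0) : ℤ × ℤ) = false := by rw [Ts405.vp_int]; rfl
  simp [this]

theorem hd_iter (s : ℤ × ℤ → Bool) (k : ℕ) :
    hd ((nx (spx (Xs s)))^[k] (fl 0)) =
      (((nx6 s)^[k] st0).1.1, ((nx6 s)^[k] st0).1.2 + 1) := by
  have h1 := cs_iter (spx (Xs s)) (fl 0) k
  rw [cs_fl0, spx_Xs, up_iter] at h1
  rw [spx_Xs]
  exact congrArg Prod.fst h1

/-! ### leaving a box -/

theorem leave_box (X : TF) {x0 x1 r : ℤ} (h0 : x0 < 0) (h1 : 0 ≤ x1) (hr : 1 ≤ r) {k : ℕ}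
    (hrow : ∀ j ≤ k, 1 ≤ (hd ((nx (spx X))^[j] (fl 0))).2)
    (hk : ¬ InB x0 x1 0 r (hd ((nx (spx X))^[k] (fl 0)))) :
    ∃ n, (∀ t < n, InB x0 x1 0 r (hd ((nx (spx X))^[t] (fl 0)))) ∧
      ∀ c, Farb x0 x1 r (fcc c ((nx (spx X))^[n] (fl 0))) := by
  classical
  have hex : ∃ n, n ≤ k ∧ ¬ InB x0 x1 0 r (hd ((nx (spx X))^[n] (fl 0))) := ⟨k, le_rfl, hk⟩
  obtain ⟨h2, h3⟩ := Nat.find_spec hex
  set n := Nat.find hex with hn
  have hmin : ∀ t < n, InB x0 x1 0 r (hd ((nx (spx X))^[t] (fl 0))) := by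
    intro t ht
    by_contra hc
    exact Nat.find_min hex ht ⟨by omega, hc⟩
  have hn0 : 0 < n := by
    rcases Nat.eq_zero_or_pos n with h4 | h4
    · exfalso
      rw [h4] at h3
      apply h3
      simp only [Function.iterate_zero, id_eq]
      rw [fl_hd (by norm_num)]
      exact ⟨h0, h1, by norm_num, hr⟩
    · exact h4
  refine ⟨n, hmin, fun c => ?_⟩
  have h4 := hmin (n - 1) (by omega)
  have h5 : hd ((nx (spx X))^[n - 1] (fl 0)) = tl ((nx (spx X))^[n] (fl 0)) := by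
    rw [← tl_nx (spx X), ← Function.iterate_succ_apply' (f := nx (spx X))]
    rw [show (n - 1).succ = n by omega]
  rw [h5] at h4
  have h6 := hrow n h2
  generalize (nx (spx X))^[n] (fl 0) = f at h3 h4 h6 ⊢
  obtain ⟨⟨p, q⟩, d⟩ := f
  unfold InB at h3 h4
  unfold Farb
  cases d
  · rcases hd_tl_h p q with ⟨g1, g2⟩ | ⟨g1, g2⟩ <;> rw [g1] at h3 h6 <;> rw [g2] at h4 <;>
      simp only at h3 h4 h6 <;> rcases fcc_cases c p q false with h | h <;> rw [h] <;>
      simp only [Bool.false_eq_true, if_false] <;> omega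
  · rcases hd_tl_v p q with ⟨g1, g2⟩ | ⟨g1, g2⟩ <;> rw [g1] at h3 h6 <;> rw [g2] at h4 <;>
      simp only at h3 h4 h6 <;> rcases fcc_cases c p q true with h | h <;> rw [h] <;>
      simp only [if_true] <;> omega

/-! ### the events -/

/-- the walk from `((0,0),N)` above the floor reaches sup-distance `n` -/
def Wk2 (n : ℕ) : Set (ℤ × ℤ → Bool) :=
  {s | ∃ k, (∀ j < k, 0 ≤ ((nx6 s)^[j] st0).1.2) ∧ Far n st0 ((nx6 s)^[k] st0)}

/-- the two arm event of radius `n` at the leg of the tile `(0,0)` -/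
def E2 (n : ℕ) : Set (ℤ × ℤ → Bool) := {s | Xs s ∈ AT (-1) (n - 1) ∩ AT (-1 + 1) (n - 1)}

theorem dy_abs (d : Dir) : -1 ≤ dy d ∧ dy d ≤ 1 := by fin_cases d <;> simp [dy]

theorem nx6_fst (s : ℤ × ℤ → Bool) (c : St ℤ) :
    (nx6 s c).1 = (c.1.1 + dx (trn (s c.1) c.2), c.1.2 + dy (trn (s c.1) c.2)) := by
  simp [nx6, mv]

theorem wk2_exit {n : ℕ} (hn : 2 ≤ n) {s : ℤ × ℤ → Bool} (h : s ∈ Wk2 n) :
    ∃ k, (∀ j ≤ k, 0 ≤ ((nx6 s)^[j] st0).1.2) ∧
      ((((nx6 s)^[k] st0).1.1 ≤ -(n : ℤ) ∨ (n : ℤ) ≤ ((nx6 s)^[k] st0).1.1) ∨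
        (n : ℤ) ≤ ((nx6 s)^[k] st0).1.2) := by
  obtain ⟨k, h1, h2⟩ := h
  have h2' : (n : ℤ) ≤ |((nx6 s)^[k] st0).1.1| ∨ (n : ℤ) ≤ |((nx6 s)^[k] st0).1.2| := by
    have h3 : Far n st0 ((nx6 s)^[k] st0) := h2
    unfold Nm211.Far st0 at h3
    simpa [st0] using h3
  have hk0 : 0 < k := by
    rcases Nat.eq_zero_or_pos k with h | h
    · subst h
      simp [st0] at h2'
      omega
    · exact h
  obtain ⟨m, rfl⟩ : ∃ m, k = m + 1 := ⟨k - 1, by omega⟩
  have h3 := h1 m (by omega)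
  have h4 := nx6_fst s ((nx6 s)^[m] st0)
  rw [← Function.iterate_succ_apply' (f := nx6 s)] at h4
  by_cases hy : 0 ≤ ((nx6 s)^[m + 1] st0).1.2
  · refine ⟨m + 1, fun j hj => ?_, ?_⟩
    · rcases Nat.lt_or_ge j (m + 1) with h5 | h5
      · exact h1 j h5
      · rw [show j = m + 1 by omega]; exact hy
    · rcases h2' with h5 | h5
      · left
        rcases le_abs.1 h5 with h6 | h6
        · right; exact h6
        · left; omega
      · right
        rw [abs_of_nonneg hy] at h5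
        exact h5
  · -- the last step goes down through the floor
    push Not at hy
    refine ⟨m, fun j hj => h1 j (by omega), ?_⟩
    have h5 : ((nx6 s)^[m + 1] st0).1.2 = ((nx6 s)^[m] st0).1.2 +
        dy (trn (s ((nx6 s)^[m] st0).1) ((nx6 s)^[m] st0).2) := congrArg Prod.snd h4
    have h6 : ((nx6 s)^[m + 1] st0).1.1 = ((nx6 s)^[m] st0).1.1 +
        dx (trn (s ((nx6 s)^[m] st0).1) ((nx6 s)^[m] st0).2) := congrArg Prod.fst h4
    have h7 := dy_abs (trn (s ((nx6 s)^[m] st0).1) ((nx6 s)^[m] st0).2)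
    have h8 : dy (trn (s ((nx6 s)^[m] st0).1) ((nx6 s)^[m] st0).2) = -1 := by omega
    have h9 : dx (trn (s ((nx6 s)^[m] st0).1) ((nx6 s)^[m] st0).2) = 0 := by
      generalize trn (s ((nx6 s)^[m] st0).1) ((nx6 s)^[m] st0).2 = d at h8
      revert h8
      fin_cases d <;> simp [dx, dy]
    rw [h9, add_zero] at h6
    rcases h2' with h10 | h10
    · left
      rw [h6] at h10
      rcases le_abs.1 h10 with h11 | h11
      · right; exact h11
      · left; omega
    · exfalso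
      have h11 : ((nx6 s)^[m + 1] st0).1.2 = -1 := by omega
      rw [h11] at h10
      simp at h10
      omega

theorem AT_zero (g : ℤ) (X : TF) : X ∈ AT g 0 := by
  refine ⟨(g, 0), ?_, TP.refl⟩
  left
  simp

/-- **a strand that goes far gives two arms** -/
theorem wk2_sub {n : ℕ} (hn : 1 ≤ n) : Wk2 n ⊆ E2 n := by
  intro s hs
  rcases Nat.lt_or_ge n 2 with h1 | h1
  · have : n = 1 := by omega
    subst this
    exact ⟨AT_zero _ _, AT_zero _ _⟩
  obtain ⟨k, h2, h3⟩ := wk2_exit h1 hs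
  have hrow : ∀ j ≤ k, 1 ≤ (hd ((nx (spx (Xs s)))^[j] (fl 0))).2 := by
    intro j hj
    rw [hd_iter]
    have := h2 j hj
    simp only
    omega
  have hc : (((n - 1 : ℕ) : ℤ)) = n - 1 := by omega
  constructor
  · have hk : ¬ InB (-1 - ((n - 1 : ℕ) : ℤ)) (-1 + ((n - 1 : ℕ) : ℤ)) 0 ((n - 1 : ℕ) : ℤ)
        (hd ((nx (spx (Xs s)))^[k] (fl 0))) := by
      rw [hd_iter, hc]
      unfold InB
      simp only
      omega
    obtain ⟨m, hm1, hm2⟩ := leave_box (Xs s) (by omega) (by omega) (by omega) hrow hk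
    have e1 := path_face (Xs s) false (fl 0) m _ hm1
    have h7 : fcc false (fl 0) = (-1, 0) := by
      unfold fl
      rw [fcc_up false (by norm_num)]
      simp
    rw [h7] at e1
    refine ⟨_, hm2 false, e1.mono fun t ht => ⟨?_, ht.2⟩⟩
    rw [ht.1]
    rfl
  · have hk : ¬ InB (-1 + 1 - ((n - 1 : ℕ) : ℤ)) (-1 + 1 + ((n - 1 : ℕ) : ℤ)) 0 ((n - 1 : ℕ) : ℤ)
        (hd ((nx (spx (Xs s)))^[k] (fl 0))) := by
      rw [hd_iter, hc]
      unfold InB
      simp only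
      omega
    obtain ⟨m, hm1, hm2⟩ := leave_box (Xs s) (by omega) (by omega) (by omega) hrow hk
    have e1 := path_face (Xs s) true (fl 0) m _ hm1
    have h7 : fcc true (fl 0) = (-1 + 1, 0) := by
      unfold fl
      rw [fcc_up true (by norm_num)]
      simp
    rw [h7] at e1
    refine ⟨_, hm2 true, e1.mono fun t ht => ⟨?_, ht.2⟩⟩
    rw [ht.1]
    rfl

/-! ### locality and law -/

theorem E2_dep {n : ℕ} (hn : 1 ≤ n) : Dep (Tk .mk n) (E2 n) := by
  intro s s' h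
  have hX : ∀ t ∈ bxF (-(n : ℤ)) (n - 1) 0 (n - 1), Xs s t = Xs s' t := by
    intro t ht
    rw [mem_bxF] at ht
    unfold InB at ht
    unfold Xs
    rw [h (t.1, t.2 - 1)]
    rw [mem_Tk]
    unfold Nz399.qd
    simp only
    omega
  have hc : (((n - 1 : ℕ) : ℤ)) = n - 1 := by omega
  have g1 := (AT_dep (-1) (n - 1)).mono (T := bxF (-(n : ℤ)) (n - 1) 0 (n - 1)) (by
    intro t ht
    rw [mem_bxF] at ht ⊢
    unfold InB at ht ⊢
    omega)
  have g2 := (AT_dep (-1 + 1) (n - 1)).mono (T := bxF (-(n : ℤ)) (n - 1) 0 (n - 1)) (by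
    intro t ht
    rw [mem_bxF] at ht ⊢
    unfold InB at ht ⊢
    omega)
  exact and_congr (g1 _ _ hX) (g2 _ _ hX)

/-- law of a local event in a chart -/
theorem law_chart {τ : Type u} {T : Finset (ℤ × ℤ)} {A : Set (ℤ × ℤ → Bool)} (hA : Dep T A)
    {g : ℤ × ℤ → τ} (hg : Set.InjOn g T) (F : ℤ × ℤ → Bool) :
    (PB fun _ : τ => hf).real {s | (fun v => xor (F v) (s (g v))) ∈ A} =
      (PB fun _ : ℤ × ℤ => hf).real A := by
  classical
  have hm : Measurable fun (s : τ → Bool) (v : ℤ × ℤ) => xor (F v) (s (g v)) :=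
    Nm211.measurable_flip F g
  have hd : Nm211.DepF T (A.indicator fun _ => (1 : ℝ)) := by
    intro z z' hz
    by_cases hzA : z ∈ A
    · rw [Set.indicator_of_mem hzA, Set.indicator_of_mem ((hA z z' hz).1 hzA)]
    · rw [Set.indicator_of_notMem hzA, Set.indicator_of_notMem fun h => hzA ((hA z z' hz).2 h)]
  have h1 := integral_transport hg F hd
  rw [integral_indicator hA.measurableSet] at h1
  simp only [integral_const, MeasurableSet.univ, measureReal_restrict_apply, Set.univ_inter,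
    smul_eq_mul, mul_one] at h1
  rw [← h1]
  have h2 : (fun s : τ → Bool => A.indicator (fun _ => (1 : ℝ)) fun e => xor (F e) (s (g e))) =
      ({s : τ → Bool | (fun v => xor (F v) (s (g v))) ∈ A}).indicator fun _ => (1 : ℝ) := by
    funext s
    rfl
  have hm2 : MeasurableSet {s : τ → Bool | (fun v => xor (F v) (s (g v))) ∈ A} :=
    hm hA.measurableSet
  rw [h2, integral_indicator hm2]
  simp only [integral_const, MeasurableSet.univ, measureReal_restrict_apply, Set.univ_inter,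
    smul_eq_mul, mul_one]

theorem E2_prob (n : ℕ) : (PB fun _ : ℤ × ℤ => hf).real (E2 n) =
    (tau hf).real (AT (-1) (n - 1) ∩ AT (-1 + 1) (n - 1)) := by
  have hd : Dep (bxF (-1 - ((n - 1 : ℕ) : ℤ)) (-1 + 1 + ((n - 1 : ℕ) : ℤ)) 0 ((n - 1 : ℕ) : ℤ))
      (AT (-1) (n - 1) ∩ AT (-1 + 1) (n - 1)) := by
    refine Dep.inter ((AT_dep (-1) (n - 1)).mono ?_) ((AT_dep (-1 + 1) (n - 1)).mono ?_)
    · intro t ht
      rw [mem_bxF] at ht ⊢
      unfold InB at ht ⊢
      omega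
    · intro t ht
      rw [mem_bxF] at ht ⊢
      unfold InB at ht ⊢
      omega
  have hg : Set.InjOn (fun t : ℤ × ℤ => (t.1, t.2 - 1))
      (bxF (-1 - ((n - 1 : ℕ) : ℤ)) (-1 + 1 + ((n - 1 : ℕ) : ℤ)) 0 ((n - 1 : ℕ) : ℤ)) := by
    rintro ⟨a, b⟩ _ ⟨c, d⟩ _ h
    simp only [Prod.mk.injEq] at h
    exact Prod.ext h.1 (by simp only; omega)
  have h1 := law_chart hd hg (fun v => !vp (v : ℤ × ℤ))
  have h2 : {s : ℤ × ℤ → Bool | (fun v : ℤ × ℤ => xor (!vp (v : ℤ × ℤ)) (s (v.1, v.2 - 1))) ∈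
      AT (-1) (n - 1) ∩ AT (-1 + 1) (n - 1)} = E2 n := by
    ext s
    have : (fun v : ℤ × ℤ => xor (!vp (v : ℤ × ℤ)) (s (v.1, v.2 - 1))) = Xs s := by
      funext v
      unfold Xs
      cases s (v.1, v.2 - 1) <;> cases vp (v : ℤ × ℤ) <;> rfl
    simp only [Set.mem_ofPred_eq, this]
    rfl
  rw [← h2]
  exact h1

/-- **upper bound** -/
theorem E2_le : ∃ C : ℝ, 0 < C ∧ ∀ n : ℕ, 1 ≤ n →
    (PB fun _ : ℤ × ℤ => hf).real (E2 n) ≤ C / n := by
  obtain ⟨C, hC, h⟩ := two_tile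
  refine ⟨max (2 * C) 1, lt_max_of_lt_right one_pos, fun n hn => ?_⟩
  have hn0 : (0 : ℝ) < n := by exact_mod_cast hn
  rcases Nat.lt_or_ge n 2 with h1 | h1
  · have : n = 1 := by omega
    subst this
    refine (measureReal_le_one).trans ?_
    simp
  · rw [E2_prob]
    refine (h (-1) (n - 1) (by omega)).trans ?_
    have h2 : (n : ℝ) ≤ 2 * ((n - 1 : ℕ) : ℝ) := by
      have : n ≤ 2 * (n - 1) := by omega
      exact_mod_cast this
    have h3 : (0 : ℝ) < ((n - 1 : ℕ) : ℝ) := by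
      have : 0 < n - 1 := by omega
      exact_mod_cast this
    rw [div_le_div_iff₀ h3 hn0]
    have h4 : 2 * C ≤ max (2 * C) 1 := le_max_left _ _
    nlinarith

/-- **lower bound** -/
theorem E2_ge : ∃ c : ℝ, 0 < c ∧ ∀ n : ℕ, 1 ≤ n →
    c / n ≤ (PB fun _ : ℤ × ℤ => hf).real (E2 n) := by
  obtain ⟨c, hc, h⟩ := two_tile_lower
  refine ⟨min c 1, lt_min hc one_pos, fun n hn => ?_⟩
  have hn0 : (0 : ℝ) < n := by exact_mod_cast hn
  rcases Nat.lt_or_ge n 2 with h1 | h1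
  · have : n = 1 := by omega
    subst this
    have hu : E2 1 = Set.univ := by
      ext s
      exact ⟨fun _ => trivial, fun _ => ⟨AT_zero _ _, AT_zero _ _⟩⟩
    rw [hu, probReal_univ]
    simp
  · rw [E2_prob]
    refine le_trans ?_ (h (-1) (n - 1) (by omega))
    have h3 : (0 : ℝ) < ((n - 1 : ℕ) : ℝ) := by
      have : 0 < n - 1 := by omega
      exact_mod_cast this
    have h2 : ((n - 1 : ℕ) : ℝ) ≤ n := by
      have : n - 1 ≤ n := by omega
      exact_mod_cast this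
    have h4 : min c 1 ≤ c := min_le_left _ _
    calc min c 1 / (n : ℝ) ≤ c / n := by gcongr
      _ ≤ c / ((n - 1 : ℕ) : ℝ) := by gcongr

/-! ### general position and charts -/



theorem ps_iter (g : ℕ) (a : ℤ × ℤ) (s : ℤ × ℤ → Bool) (c : St ℤ) (k : ℕ) :
    (nx6 s)^[k] (ps g a c) = ps g a ((nx6 fun v => xor (od g) (s (pl g a v)))^[k] c) := by
  induction k with
  | zero => rfl
  | succ k ih => rw [Function.iterate_succ_apply', Function.iterate_succ_apply', ih, nx_ps]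






end Crest.Agent.R158.Tw440
end
end

-- ▼ part R158/Nz6_399
section

/-!
# R158, block Q1d (helper399), part 6: the local factors

* `kn_moment` : polynomial moments of the standard counts; `tame_kn`, `tame_mk`, `tame_e2`
* `Fk`, `fv f n s` : local factors (convex corner, reflex corner, mark, end with two charged gaps)
* `mean f n`, `tame_fv`, `fp`, `fp_dep`, `fp_int`, `fp_tame`
-/

set_option autoImplicit false

noncomputable section

namespace Crest.Agent.R158.Nz399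

open MeasureTheory ProbabilityTheory unitInterval
open Crest.Agent.R158.Rs689
open Crest.Agent.R158.Nm211
open Crest.Agent.R158.Dn211 (rho corner_moment tame_pow)

universe u

/-! ### moments of the standard counts -/

/-- centre used for the moments -/
def vk (k : Kind) : ℤ × ℤ :=
  match k with
  | .cv => (0, 0)
  | .rf => (0, -1)
  | .mk => (0, 0)

/-- reachable part of `Yk` -/
def Yk' (k : Kind) : Set (St ℤ) := {c | c ∈ Yk k ∧ (k = .rf → c.1.2 = -1)}


theorem nx_fst' (s : ℤ × ℤ → Bool) (c : St ℤ) :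
    (nx6 s c).1.1 = c.1.1 + dx (nx6 s c).2 ∧ (nx6 s c).1.2 = c.1.2 + dy (nx6 s c).2 := by
  have h : (nx6 s c).1 = mv c.1 (nx6 s c).2 := rfl
  rw [h]
  simp [mv]

theorem kn_Y' (k : Kind) (n : ℕ) (s : ℤ × ℤ → Bool) :
    Kn k n s = KK (nx6 s) (Dk k n) (Yk' k) (Xk k n) := by
  classical
  unfold Kn KK
  congr 1
  refine Finset.filter_congr fun c hc => ?_
  constructor
  · rintro ⟨m, h1, h2⟩
    refine ⟨m, h1, h2, fun hk => ?_⟩
    subst hk
    change (((nx6 s)^[m] c).1.1 < 0 ∧ ((nx6 s)^[m] c).1.2 < 0 ∧ ((nx6 s)^[m] c).2 = 2) at h2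
    rcases Nat.eq_zero_or_pos m with hm | hm
    · subst hm
      rw [Function.iterate_zero, id] at h2
      change c ∈ (Finset.Ico (-(n : ℤ)) 0).image (fun y => (((0 : ℤ), y), (1 : Dir))) at hc
      obtain ⟨y, -, rfl⟩ := Finset.mem_image.1 hc
      simp at h2
    · obtain ⟨j, rfl⟩ : ∃ j, m = j + 1 := ⟨m - 1, by omega⟩
      have h3 := h1 j (by omega)
      change ((nx6 s)^[j] c).1 ∈ Tk .rf n at h3
      rw [mem_Tk] at h3
      obtain ⟨-, h4⟩ := h3
      change 0 ≤ ((nx6 s)^[j] c).1.1 ∨ 0 ≤ ((nx6 s)^[j] c).1.2 at h4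
      rw [Function.iterate_succ_apply'] at h2 ⊢
      obtain ⟨e1, e2⟩ := nx_fst' s ((nx6 s)^[j] c)
      rw [h2.2.2] at e1 e2
      have hx : dx (2 : Dir) = 0 := rfl
      have hy : dy (2 : Dir) = -1 := rfl
      rw [hx] at e1
      rw [hy] at e2
      omega
  · rintro ⟨m, h1, h2⟩
    exact ⟨m, h1, h2.1⟩

theorem kn_moment (a : ℝ) (ha : 1 ≤ a) : ∃ C : ℝ, 1 ≤ C ∧ ∃ q : ℕ, ∀ (k : Kind) (n : ℕ), 1 ≤ n →
    ∫ s, a ^ (Kn k n s) ∂(PB fun _ : ℤ × ℤ => hf) ≤ C * (n : ℝ) ^ q := by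
  obtain ⟨C, hC1, q, h⟩ := corner_moment a ha
  refine ⟨C, hC1, q, fun k n hn => ?_⟩
  have hn' : (1 : ℤ) ≤ n := by exact_mod_cast hn
  simp only [kn_Y']
  refine h n hn (vk k) (Dk k n) (Yk' k) (Xk k n) (Tk k n) (fun c hc => hc) ?_ ?_ ?_
  · -- no entrance from inside
    intro c hc s hx
    change c.1 ∈ Tk k n at hc
    rw [mem_Tk] at hc
    obtain ⟨e1, e2⟩ := nx_fst' s c
    generalize nx6 s c = c' at hx e1 e2
    cases k
    · change c' ∈ (Finset.Ico (0 : ℤ) n).image (fun x => ((x, (0 : ℤ)), (0 : Dir))) at hx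
      obtain ⟨x, -, rfl⟩ := Finset.mem_image.1 hx
      have h2 : dy (0 : Dir) = 1 := rfl
      simp only [h2] at e2
      have := hc.2.2
      omega
    · change c' ∈ (Finset.Ico (-(n : ℤ)) 0).image (fun y => (((0 : ℤ), y), (1 : Dir))) at hx
      obtain ⟨y, hy, rfl⟩ := Finset.mem_image.1 hx
      rw [Finset.mem_Ico] at hy
      have h2 : dy (1 : Dir) = 0 := rfl
      have h3 : dx (1 : Dir) = 1 := rfl
      simp only [h2] at e2
      simp only [h3] at e1
      rcases hc.2 with h4 | h4 <;> omega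
    · change c' ∈ (Finset.Ico (0 : ℤ) n).image (fun x => ((x, (0 : ℤ)), (0 : Dir))) at hx
      obtain ⟨x, -, rfl⟩ := Finset.mem_image.1 hx
      have h2 : dy (0 : Dir) = 1 := rfl
      simp only [h2] at e2
      have : 0 ≤ c.1.2 := hc.2
      omega
  · intro c hx
    cases k
    · change c ∈ (Finset.Ico (0 : ℤ) n).image (fun x => ((x, (0 : ℤ)), (0 : Dir))) at hx
      obtain ⟨x, hx1, rfl⟩ := Finset.mem_image.1 hx
      rw [Finset.mem_Ico] at hx1
      simp only [rho, vk]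
      omega
    · change c ∈ (Finset.Ico (-(n : ℤ)) 0).image (fun y => (((0 : ℤ), y), (1 : Dir))) at hx
      obtain ⟨x, hx1, rfl⟩ := Finset.mem_image.1 hx
      rw [Finset.mem_Ico] at hx1
      simp only [rho, vk]
      omega
    · change c ∈ (Finset.Ico (0 : ℤ) n).image (fun x => ((x, (0 : ℤ)), (0 : Dir))) at hx
      obtain ⟨x, hx1, rfl⟩ := Finset.mem_image.1 hx
      rw [Finset.mem_Ico] at hx1
      simp only [rho, vk]
      omega
  · rintro c hx c' ⟨hy, hy'⟩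
    unfold Far
    rw [le_abs, le_abs]
    cases k
    · change c ∈ (Finset.Ico (0 : ℤ) n).image (fun x => ((x, (0 : ℤ)), (0 : Dir))) at hx
      obtain ⟨x, hx1, rfl⟩ := Finset.mem_image.1 hx
      rw [Finset.mem_Ico] at hx1
      change c'.1.1 < 0 at hy
      simp only [rho, vk]
      omega
    · change c ∈ (Finset.Ico (-(n : ℤ)) 0).image (fun y => (((0 : ℤ), y), (1 : Dir))) at hx
      obtain ⟨x, hx1, rfl⟩ := Finset.mem_image.1 hx
      rw [Finset.mem_Ico] at hx1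
      have h1 : c'.1.1 < 0 := hy.1
      have h2 := hy' rfl
      simp only [rho, vk]
      omega
    · change c ∈ (Finset.Ico (0 : ℤ) n).image (fun x => ((x, (0 : ℤ)), (0 : Dir))) at hx
      obtain ⟨x, hx1, rfl⟩ := Finset.mem_image.1 hx
      rw [Finset.mem_Ico] at hx1
      have h1 : c'.1.1 < 0 := hy.1
      simp only [rho, vk]
      omega

/-- absorbing a constant into the exponent -/
theorem absorb {C : ℝ} (hC : 1 ≤ C) (q : ℕ) : ∃ D : ℝ, 0 ≤ D ∧ ∀ n : ℕ, 2 ≤ n →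
    C * (n : ℝ) ^ q ≤ (n : ℝ) ^ D := by
  refine ⟨Real.logb 2 C + q, add_nonneg (Real.logb_nonneg (by norm_num) hC) (by positivity),
    fun n hn => ?_⟩
  have hn0 : (0 : ℝ) < n := by exact_mod_cast (by omega : 0 < n)
  have hn2 : (2 : ℝ) ≤ n := by exact_mod_cast hn
  rw [Real.rpow_add hn0, Real.rpow_natCast]
  refine mul_le_mul_of_nonneg_right ?_ (by positivity)
  calc C = (2 : ℝ) ^ Real.logb 2 C := (Real.rpow_logb (by norm_num) (by norm_num)
        (by linarith)).symm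
    _ ≤ _ := Real.rpow_le_rpow (by norm_num) hn2 (Real.logb_nonneg (by norm_num) hC)

theorem tame_kn {b : ℝ} (hb : 0 < b) : ∃ C : ℝ, 0 ≤ C ∧ ∀ (k : Kind) (n : ℕ), 2 ≤ n →
    Tame (PB fun _ : ℤ × ℤ => hf) n C fun s => b ^ Kn k n s := by
  obtain ⟨C1, hC1, q1, h1⟩ := kn_moment (max 1 (b ^ 2)) (le_max_left _ _)
  obtain ⟨C2, hC2, q2, h2⟩ := kn_moment (max 1 b⁻¹) (le_max_left _ _)
  obtain ⟨D1, hD1, h3⟩ := absorb hC1 q1
  obtain ⟨D2, hD2, h4⟩ := absorb hC2 q2
  refine ⟨6 * max D1 D2, by positivity, fun k n hn => ?_⟩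
  have hn1 : (1 : ℝ) ≤ n := by exact_mod_cast (by omega : 1 ≤ n)
  refine tame_pow (T := Tk k n) (fun s s' hs => Kn_dep hs) hb hn1 (by positivity) ?_ ?_
  · refine (h1 k n (by omega)).trans ((h3 n hn).trans ?_)
    exact Real.rpow_le_rpow_of_exponent_le hn1 (le_max_left _ _)
  · refine (h2 k n (by omega)).trans ((h4 n hn).trans ?_)
    exact Real.rpow_le_rpow_of_exponent_le hn1 (le_max_right _ _)

/-- absorbing a constant, lower bounds -/
theorem absorb' {c q : ℝ} (hc : 0 < c) (hq : 0 ≤ q) : ∃ D : ℝ, 0 ≤ D ∧ ∀ n : ℕ, 2 ≤ n →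
    (n : ℝ) ^ (-D) ≤ c * (n : ℝ) ^ (-q) := by
  obtain ⟨D, hD, h⟩ := absorb (C := max 1 c⁻¹) (le_max_left _ _) 0
  refine ⟨D + q, by positivity, fun n hn => ?_⟩
  have hn0 : (0 : ℝ) < n := by exact_mod_cast (by omega : 0 < n)
  have h1 := h n hn
  rw [pow_zero, mul_one] at h1
  have h2 : c⁻¹ ≤ (n : ℝ) ^ D := (le_max_right _ _).trans h1
  rw [neg_add, Real.rpow_add hn0]
  refine mul_le_mul_of_nonneg_right ?_ (by positivity)
  rw [Real.rpow_neg hn0.le, inv_le_comm₀ (by positivity) hc]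
  exact h2

/-! ### local factors -/

/-- kinds of local factors: convex corner, reflex corner, mark, end with two charged gaps (`e2` :
its strand must leave the box; `e1` : no strand around it) -/
inductive Fk where
  | cv | rf | mk | e2 | e1
  deriving DecidableEq

/-- one of the two gaps at the end `((0,0), S)` is free -/
def G1 (n : ℕ) : Set (ℤ × ℤ → Bool) := {s | Kn .mk n s = 0 ∨ Kp .mk 0 (1, 0) n s = 0}

/-- value of a local factor on the standard picture -/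
def fv (f : Fk) (n : ℕ) (s : ℤ × ℤ → Bool) : ℝ :=
  match f with
  | .cv => (2 / √3) ^ Kn .cv n s
  | .rf => (1 / √3) ^ Kn .rf n s
  | .mk => Set.indicator {s | Kn .mk n s = 0} (fun _ => 1) s
  | .e2 => Set.indicator (Tw440.E2 n) (fun _ => 1) s
  | .e1 => Set.indicator (G1 n) (fun _ => 1) s

/-- support of a local factor -/
def Tf (f : Fk) (n : ℕ) : Finset (ℤ × ℤ) :=
  match f with
  | .cv => Tk .cv n
  | .rf => Tk .rf n
  | .mk => Tk .mk n
  | .e2 => Tk .mk n
  | .e1 => Tk .mk (n + 1)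

/-- mean of a local factor -/
def mean (f : Fk) (n : ℕ) : ℝ := ∫ s, fv f n s ∂(PB fun _ : ℤ × ℤ => hf)

theorem depF_ind {ι : Type*} {S : Finset ι} {A : Set (ι → Bool)} (h : Dep S A) :
    DepF S (A.indicator fun _ => (1 : ℝ)) := by
  classical
  intro z z' hz
  have := h z z' hz
  by_cases hA : z ∈ A
  · rw [Set.indicator_of_mem hA, Set.indicator_of_mem (this.1 hA)]
  · rw [Set.indicator_of_notMem hA, Set.indicator_of_notMem fun h' => hA (this.2 h')]

theorem dep_mk (n : ℕ) : Dep (Tk .mk n) {s | Kn .mk n s = 0} := by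
  intro s s' h
  show Kn .mk n s = 0 ↔ Kn .mk n s' = 0
  rw [Kn_dep h]

theorem dep_G1 (n : ℕ) : Dep (Tk .mk (n + 1)) (G1 n) := by
  intro s s' h
  show (Kn .mk n s = 0 ∨ Kp .mk 0 (1, 0) n s = 0) ↔ (Kn .mk n s' = 0 ∨ Kp .mk 0 (1, 0) n s' = 0)
  have h1 : Kn .mk n s = Kn .mk n s' := Kn_dep fun v hv => h v (by
    rw [mem_Tk] at hv ⊢
    exact ⟨by push_cast; omega, hv.2⟩)
  have h2 : Kp .mk 0 (1, 0) n s = Kp .mk 0 (1, 0) n s' := by
    rw [Kp_eq, Kp_eq]
    refine Kn_dep fun v hv => ?_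
    have h3 : pl 0 (1, 0) v ∈ Tk .mk (n + 1) := by
      rw [mem_Tk] at hv ⊢
      obtain ⟨h4, h5⟩ := hv
      change 0 ≤ v.2 at h5
      refine ⟨?_, ?_⟩
      · simp only [pl, Function.iterate_zero, id, Prod.fst_add, Prod.snd_add]
        push_cast
        omega
      · show 0 ≤ (pl 0 (1, 0) v).2
        simp only [pl, Function.iterate_zero, id, Prod.snd_add]
        omega
    rw [h _ h3]
  rw [h1, h2]

theorem fv_dep (f : Fk) {n : ℕ} (hn : 1 ≤ n) : DepF (Tf f n) (fv f n) := by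
  cases f
  · exact Kn_depF .cv n fun k => (2 / √3) ^ k
  · exact Kn_depF .rf n fun k => (1 / √3) ^ k
  · exact depF_ind (dep_mk n)
  · exact depF_ind (Tw440.E2_dep hn)
  · exact depF_ind (dep_G1 n)

theorem fv_nonneg (f : Fk) (n : ℕ) (s : ℤ × ℤ → Bool) : 0 ≤ fv f n s := by
  cases f
  · exact pow_nonneg (by positivity) _
  · exact pow_nonneg (by positivity) _
  · exact Set.indicator_nonneg (fun _ _ => zero_le_one) _
  · exact Set.indicator_nonneg (fun _ _ => zero_le_one) _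
  · exact Set.indicator_nonneg (fun _ _ => zero_le_one) _

theorem mean_nonneg (f : Fk) (n : ℕ) : 0 ≤ mean f n := integral_nonneg fun s => fv_nonneg f n s

theorem int_ind {ι : Type*} {S : Finset ι} {A : Set (ι → Bool)} (h : Dep S A)
    (w : ι → I) : ∫ s, A.indicator (fun _ => (1 : ℝ)) s ∂(PB w) = (PB w).real A := by
  rw [integral_indicator h.measurableSet]
  simp [Measure.real]

theorem mean_mk (n : ℕ) : mean .mk n = Pm n := int_ind (dep_mk n) _

theorem mean_e2 {n : ℕ} (hn : 1 ≤ n) :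
    mean .e2 n = (PB fun _ : ℤ × ℤ => hf).real (Tw440.E2 n) := int_ind (Tw440.E2_dep hn) _

theorem mean_e1' (n : ℕ) : mean .e1 n = (PB fun _ : ℤ × ℤ => hf).real (G1 n) :=
  int_ind (dep_G1 n) _

/-- translated gap -/
theorem gap_shift (n : ℕ) : (PB fun _ : ℤ × ℤ => hf).real {s | Kp .mk 0 (1, 0) n s = 0} =
    Pm n := by
  have h1 := Kp_int (τ := ℤ × ℤ) .mk 0 (1, 0) n id (fun _ => false)
    (fun k => if k = 0 then (1 : ℝ) else 0) (fun v _ w _ h => pl_inj 0 (1, 0) h)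
  have hrd : ∀ s : ℤ × ℤ → Bool, rd id (fun _ => false) s = s := by
    intro s; funext v; simp [rd]
  simp only [hrd] at h1
  have e1 : (fun s : ℤ × ℤ → Bool => if Kp .mk 0 (1, 0) n s = 0 then (1 : ℝ) else 0) =
      Set.indicator {s | Kp .mk 0 (1, 0) n s = 0} fun _ => 1 := by
    funext s
    by_cases h : Kp .mk 0 (1, 0) n s = 0
    · rw [if_pos h, Set.indicator_of_mem (by exact h)]
    · rw [if_neg h, Set.indicator_of_notMem (by exact h)]
  have e2 : (fun s : ℤ × ℤ → Bool => if Kn .mk n s = 0 then (1 : ℝ) else 0) =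
      Set.indicator {s | Kn .mk n s = 0} fun _ => 1 := by
    funext s
    by_cases h : Kn .mk n s = 0
    · rw [if_pos h, Set.indicator_of_mem (by exact h)]
    · rw [if_neg h, Set.indicator_of_notMem (by exact h)]
  have hd : Dep ((Tk .mk n).image fun v => pl 0 (1, 0) v)
      {s | Kp .mk 0 (1, 0) n s = 0} := by
    intro s s' h
    show Kp .mk 0 (1, 0) n s = 0 ↔ Kp .mk 0 (1, 0) n s' = 0
    rw [Kp_eq, Kp_eq, Kn_dep (s' := fun v => xor (od 0) (s' (pl 0 (1, 0) v)))]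
    intro v hv
    rw [h _ (Finset.mem_image_of_mem _ hv)]
  rw [e1, e2, int_ind hd, int_ind (dep_mk n)] at h1
  exact h1

theorem mean_e1 (n : ℕ) : mean .e1 n ≤ 2 * Pm n := by
  rw [mean_e1']
  have h : G1 n = {s | Kn .mk n s = 0} ∪ {s | Kp .mk 0 (1, 0) n s = 0} := rfl
  rw [h]
  refine (measureReal_union_le _ _).trans ?_
  rw [gap_shift]
  exact (le_of_eq (by unfold Pm; ring))

theorem mean_e1_ge (n : ℕ) : Pm n ≤ mean .e1 n := by
  rw [mean_e1']
  exact measureReal_mono fun s hs => Or.inl hs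

theorem mean_rf_le (n : ℕ) : mean .rf n ≤ 1 := by
  have h : ∀ s : ℤ × ℤ → Bool, fv .rf n s ≤ 1 := fun s => by
    refine pow_le_one₀ (by positivity) ?_
    rw [div_le_one (by positivity)]
    have : (1 : ℝ) = √1 := by simp
    rw [this]
    exact Real.sqrt_le_sqrt (by norm_num)
  have h2 : mean .rf n ≤ ∫ _s : ℤ × ℤ → Bool, (1 : ℝ) ∂(PB fun _ : ℤ × ℤ => hf) :=
    integral_mono ((Kn_depF .rf n fun k => (1 / √3) ^ k).integrable _) (integrable_const _) h
  simpa using h2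


/-- **all the local factors are tame** -/
theorem fv_tame : ∃ C : ℝ, 0 ≤ C ∧ ∀ (f : Fk) (n : ℕ), 2 ≤ n →
    Tame (PB fun _ : ℤ × ℤ => hf) n C (fv f n) := by
  obtain ⟨C1, hC1, h1⟩ := tame_kn (b := 2 / √3) (by positivity)
  obtain ⟨C2, hC2, h2⟩ := tame_kn (b := 1 / √3) (by positivity)
  obtain ⟨c3, hc3, h3⟩ := Zm180.pm_lower
  obtain ⟨D3, hD3, h3'⟩ := absorb' hc3 (q := 1 / 2) (by norm_num)
  obtain ⟨c4, hc4, h4⟩ := Tw440.E2_ge
  obtain ⟨D4, hD4, h4'⟩ := absorb' hc4 (q := 1) (by norm_num)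
  refine ⟨max (max C1 C2) (max (2 * D3) (2 * D4)), by positivity, fun f n hn => ?_⟩
  have hn1 : (1 : ℝ) ≤ n := by exact_mod_cast (by omega : 1 ≤ n)
  have hn' : 1 ≤ n := by omega
  cases f
  · exact (h1 .cv n hn).mono hn1 ((le_max_left _ _).trans (le_max_left _ _))
  · exact (h2 .rf n hn).mono hn1 ((le_max_right _ _).trans (le_max_left _ _))
  · refine Tame.mono hn1 ((le_max_left _ _).trans (le_max_right _ _)) (tame_ind hn1 hD3
      (dep_mk n).measurableSet ?_)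
    exact (h3' n hn).trans (h3 n hn')
  · refine Tame.mono hn1 ((le_max_right _ _).trans (le_max_right _ _)) (tame_ind hn1 hD4
      (Tw440.E2_dep hn').measurableSet ?_)
    refine (h4' n hn).trans (le_trans (le_of_eq ?_) (h4 n hn'))
    rw [Real.rpow_neg (by linarith), Real.rpow_one]
    rfl
  · refine Tame.mono hn1 ((le_max_left _ _).trans (le_max_right _ _)) (tame_ind hn1 hD3
      (dep_G1 n).measurableSet ?_)
    refine (h3' n hn).trans ((h3 n hn').trans ?_)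
    rw [← mean_e1']
    exact mean_e1_ge n

/-! ### local factors in charts -/

section chart

variable {τ : Type u}

/-- local factor at the vertex `p` of a chart, rotated `g` times -/
def fp (f : Fk) (g : ℕ) (p : ℤ × ℤ) (n : ℕ) (emb : ℤ × ℤ → τ) (F : ℤ × ℤ → Bool)
    (s : τ → Bool) : ℝ :=
  fv f n fun v => xor (od g) (rd emb F s (pl g p v))

theorem fp_eq (f : Fk) (g : ℕ) (p : ℤ × ℤ) (n : ℕ) (emb : ℤ × ℤ → τ) (F : ℤ × ℤ → Bool) :
    fp f g p n emb F = fun s => fv f n (rd (fun v => emb (pl g p v))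
      (fun v => xor (od g) (F (pl g p v))) s) := by
  funext s
  unfold fp
  congr 1
  funext v
  simp only [rd]
  rw [Bool.xor_assoc]

/-- tiles of a local factor -/
def fS [DecidableEq τ] (f : Fk) (g : ℕ) (p : ℤ × ℤ) (n : ℕ) (emb : ℤ × ℤ → τ) : Finset τ :=
  (Tf f n).image fun v => emb (pl g p v)


theorem fp_dep [DecidableEq τ] (f : Fk) (g : ℕ) (p : ℤ × ℤ) {n : ℕ} (hn : 1 ≤ n)
    (emb : ℤ × ℤ → τ) (F : ℤ × ℤ → Bool) : DepF (fS f g p n emb) (fp f g p n emb F) := by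
  rw [fp_eq]
  exact depF_rd _ _ (fv_dep f hn)

theorem fp_int (f : Fk) (g : ℕ) (p : ℤ × ℤ) {n : ℕ} (hn : 1 ≤ n) (emb : ℤ × ℤ → τ)
    (F : ℤ × ℤ → Bool)
    (hinj : Set.InjOn (fun v => emb (pl g p v)) (Tf f n : Set (ℤ × ℤ))) :
    ∫ s, fp f g p n emb F s ∂(PB fun _ : τ => hf) = mean f n := by
  rw [fp_eq]
  exact integral_transport hinj (fun v => xor (od g) (F (pl g p v))) (fv_dep f hn)

theorem fp_tame (f : Fk) (g : ℕ) (p : ℤ × ℤ) {n : ℕ} (hn : 1 ≤ n) (emb : ℤ × ℤ → τ)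
    (F : ℤ × ℤ → Bool)
    (hinj : Set.InjOn (fun v => emb (pl g p v)) (Tf f n : Set (ℤ × ℤ))) {C : ℝ}
    (ht : Tame (PB fun _ : ℤ × ℤ => hf) n C (fv f n)) :
    Tame (PB fun _ : τ => hf) n C (fp f g p n emb F) := by
  rw [fp_eq]
  exact tame_transport hinj _ (fv_dep f hn) ht

end chart

end Crest.Agent.R158.Nz399
end
private theorem rz_6aa0f93cb0 : type_of% @_root_.Crest.Agent.R158.Nz399.Tf.eq_1 := @_root_.Crest.Agent.R158.Nz399.Tf.eq_1 -- L220
private theorem rz_cfc3b0313c : type_of% @_root_.Crest.Agent.R158.Nz399.vk.eq_1 := @_root_.Crest.Agent.R158.Nz399.vk.eq_1 -- L30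
end

-- ▼ part R158/Nz7_399

/-!
# R158, block Q1d (helper399), part 7: expectation over the special points of a double

* `Sp` : special points (chart, factor, rotation, vertex), `Sp.val`, `Sp.sup`, `Sp.In`
* `asm2` : `∫ (∏ x ∈ X, val x) b ^ BN ≤ C n ^ ε ∏ mean`
* `CP` : the corner product (DENT); `prod_mean` : corners cancel
* `asm3` : pointwise bound ⟹ bound of the integral
-/

set_option autoImplicit false

noncomputable section

namespace Crest.Agent.R158.Nz399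

open MeasureTheory ProbabilityTheory unitInterval
open Crest.Agent.R158.Rs689
open Crest.Agent.R158.Nm211
open Crest.Agent.R158.Ka470
open Crest.Agent.R158.Env664 (TG)

/-- special point of the double of a half environment -/
structure Sp where
  /-- chart -/
  i : Fin 4
  /-- factor -/
  f : Fk
  /-- number of quarter turns -/
  g : ℕ
  /-- vertex -/
  p : ℤ × ℤ
  deriving DecidableEq

section

variable {A : Half} {ρ : ℕ}

/-- value of the factor -/
def Sp.val (h : A.Sz ρ) (n : ℕ) (x : Sp) (s : TG × Bool → Bool) : ℝ :=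
  fp x.f x.g x.p n (Half.chf h x.i).emb (Half.chf h x.i).Fn s

open Classical in
/-- tiles of the factor -/
def Sp.sup (h : A.Sz ρ) (n : ℕ) (x : Sp) : Finset (TG × Bool) :=
  fS x.f x.g x.p n (Half.chf h x.i).emb

/-- the box of the factor lies in the region of its chart -/
def Sp.In (h : A.Sz ρ) (n : ℕ) (x : Sp) : Prop :=
  ∀ v ∈ Tf x.f n, pl x.g x.p v ∈ (Half.chf h x.i).R

theorem Sp.In.inj {h : A.Sz ρ} {n : ℕ} {x : Sp} (hx : x.In h n) :
    Set.InjOn (fun v => (Half.chf h x.i).emb (pl x.g x.p v)) (Tf x.f n : Set (ℤ × ℤ)) :=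
  fun _ hv _ hw hvw => pl_inj _ _ ((Half.chf h x.i).inj (hx _ hv) (hx _ hw) hvw)


theorem Sp.val_dep (h : A.Sz ρ) {n : ℕ} (hn : 1 ≤ n) (x : Sp) :
    DepF (x.sup h n) (x.val h n) := by
  classical
  have h1 := fp_dep x.f x.g x.p hn (Half.chf h x.i).emb (Half.chf h x.i).Fn
  have h2 : x.sup h n = fS x.f x.g x.p n (Half.chf h x.i).emb := by
    unfold Sp.sup
    congr
  rw [h2]
  exact h1

theorem Sp.val_int (h : A.Sz ρ) {n : ℕ} (hn : 1 ≤ n) {x : Sp} (hx : x.In h n) :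
    ∫ s, x.val h n s ∂(PB fun _ : TG × Bool => hf) = mean x.f n :=
  fp_int x.f x.g x.p hn _ _ hx.inj

end

/-- **expectation over the special points** -/
theorem asm2 (κ M : ℕ) {b : ℝ} (hb : 1 ≤ b) {ε : ℝ} (hε : 0 < ε) : ∃ C : ℝ, 1 ≤ C ∧
    ∀ (A : Half) (ρ : ℕ) (h : A.Sz ρ), A.Bd ρ κ → ∀ n : ℕ, 2 ≤ n → ∀ X : Finset Sp,
      X.card ≤ M → (∀ x ∈ X, ∀ y ∈ X, x ≠ y → Disjoint (x.sup h n) (y.sup h n)) →
      (∀ x ∈ X, x.In h n) →
      ∫ s, (∏ x ∈ X, x.val h n s) * b ^ BN h s ∂(PB fun _ : TG × Bool => hf) ≤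
        C * (n : ℝ) ^ ε * ∏ x ∈ X, mean x.f n := by
  obtain ⟨C0, hC0, ht⟩ := fv_tame
  obtain ⟨C, hC1, hC⟩ := asm κ M b hb C0 hC0 ε hε
  refine ⟨C, hC1, fun A ρ h hBd n hn X hX hdis hin => ?_⟩
  have hn1 : 1 ≤ n := by omega
  refine (hC A ρ h hBd n hn1 X hX (fun x => x.sup h n) hdis (fun x => x.val h n)
    (fun x _ => x.val_dep h hn1) fun x hx => ?_).trans (le_of_eq ?_)
  · exact fp_tame x.f x.g x.p hn1 _ _ (hin x hx).inj (ht x.f n hn)
  · congr 1
    exact Finset.prod_congr rfl fun x hx => x.val_int h hn1 (hin x hx)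

/-- the corner product (DENT) -/
def CP : Prop := ∀ ε : ℝ, 0 < ε → ∃ C : ℝ, ∀ n : ℕ, 1 ≤ n →
  EK (2 / √3) .cv n * EK (1 / √3) .rf n ≤ C * (n : ℝ) ^ ε

/-- special points of a given kind -/
def cnt (X : Finset Sp) (f : Fk) : ℕ := (X.filter fun x => x.f = f).card

theorem prod_split (X : Finset Sp) (n : ℕ) : ∏ x ∈ X, mean x.f n =
    mean .cv n ^ cnt X .cv * mean .rf n ^ cnt X .rf * mean .mk n ^ cnt X .mk *
      mean .e2 n ^ cnt X .e2 * mean .e1 n ^ cnt X .e1 := by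
  classical
  induction X using Finset.induction_on with
  | empty => simp [cnt]
  | insert x X hx ih =>
    rw [Finset.prod_insert hx, ih]
    have key : ∀ f, cnt (insert x X) f = cnt X f + if x.f = f then 1 else 0 := by
      intro f
      unfold cnt
      rw [Finset.filter_insert]
      split_ifs with h
      · rw [Finset.card_insert_of_notMem fun h' => hx (Finset.mem_filter.1 h').1]
      · rfl
    simp only [key]
    cases hxf : x.f <;> simp [pow_succ] <;> ring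

/-- **the corners cancel** -/
theorem prod_mean (hcp : CP) (M : ℕ) {ε : ℝ} (hε : 0 < ε) : ∃ C : ℝ, 1 ≤ C ∧
    ∀ n : ℕ, 1 ≤ n → ∀ X : Finset Sp, X.card ≤ M → cnt X .cv ≤ cnt X .rf →
      ∏ x ∈ X, mean x.f n ≤ C * (n : ℝ) ^ ε *
        (mean .mk n ^ cnt X .mk * mean .e2 n ^ cnt X .e2 * mean .e1 n ^ cnt X .e1) := by
  obtain ⟨C, hC⟩ := hcp (ε / (M + 1)) (by positivity)
  refine ⟨(max 1 C) ^ M, one_le_pow₀ (le_max_left _ _), fun n hn X hX hcr => ?_⟩
  have hn1 : (1 : ℝ) ≤ n := by exact_mod_cast hn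
  rw [prod_split]
  have hM : cnt X .cv ≤ M := (Finset.card_filter_le _ _).trans hX
  have h0 : ∀ f, 0 ≤ mean f n := fun f => mean_nonneg f n
  have h1 : mean .cv n ^ cnt X .cv * mean .rf n ^ cnt X .rf ≤ (max 1 C) ^ M * (n : ℝ) ^ ε := by
    have e1 : mean .cv n ^ cnt X .cv * mean .rf n ^ cnt X .rf =
        (mean .cv n * mean .rf n) ^ cnt X .cv * mean .rf n ^ (cnt X .rf - cnt X .cv) := by
      rw [mul_pow, mul_assoc, ← pow_add, Nat.add_sub_cancel' hcr]
    rw [e1]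
    have e2 : mean .cv n * mean .rf n ≤ max 1 C * (n : ℝ) ^ (ε / (M + 1)) :=
      (hC n hn).trans (mul_le_mul_of_nonneg_right (le_max_right _ _) (by positivity))
    have e3 : (1 : ℝ) ≤ max 1 C * (n : ℝ) ^ (ε / (M + 1)) := by
      have h3 : (1 : ℝ) ≤ (n : ℝ) ^ (ε / (M + 1)) := Real.one_le_rpow hn1 (by positivity)
      nlinarith [le_max_left (1 : ℝ) C]
    calc (mean .cv n * mean .rf n) ^ cnt X .cv * mean .rf n ^ (cnt X .rf - cnt X .cv)
        ≤ (max 1 C * (n : ℝ) ^ (ε / (M + 1))) ^ cnt X .cv * 1 := by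
          refine mul_le_mul (pow_le_pow_left₀ (mul_nonneg (h0 _) (h0 _)) e2 _)
            (pow_le_one₀ (h0 _) (mean_rf_le n)) (pow_nonneg (h0 _) _) (by positivity)
      _ ≤ (max 1 C * (n : ℝ) ^ (ε / (M + 1))) ^ M := by
          rw [mul_one]
          exact pow_le_pow_right₀ e3 hM
      _ = (max 1 C) ^ M * (n : ℝ) ^ (ε / (M + 1) * M) := by
          rw [mul_pow, Real.rpow_mul (by positivity), Real.rpow_natCast]
      _ ≤ (max 1 C) ^ M * (n : ℝ) ^ ε := by
          refine mul_le_mul_of_nonneg_left (Real.rpow_le_rpow_of_exponent_le hn1 ?_)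
            (by positivity)
          rw [div_mul_eq_mul_div, div_le_iff₀ (by positivity)]
          nlinarith
  calc mean .cv n ^ cnt X .cv * mean .rf n ^ cnt X .rf * mean .mk n ^ cnt X .mk *
        mean .e2 n ^ cnt X .e2 * mean .e1 n ^ cnt X .e1
      = mean .cv n ^ cnt X .cv * mean .rf n ^ cnt X .rf *
        (mean .mk n ^ cnt X .mk * mean .e2 n ^ cnt X .e2 * mean .e1 n ^ cnt X .e1) := by ring
    _ ≤ _ := mul_le_mul_of_nonneg_right h1 (by
        have := h0 .mk; have := h0 .e2; have := h0 .e1; positivity)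

/-- **bound of an integral over a double from a pointwise bound** -/
theorem asm3 (hcp : CP) (κ M : ℕ) {b : ℝ} (hb : 1 ≤ b) {ε : ℝ} (hε : 0 < ε) : ∃ C : ℝ, 1 ≤ C ∧
    ∀ (A : Half) (ρ : ℕ) (h : A.Sz ρ), A.Bd ρ κ → ∀ n : ℕ, 2 ≤ n → ∀ X : Finset Sp,
      X.card ≤ M → (∀ x ∈ X, ∀ y ∈ X, x ≠ y → Disjoint (x.sup h n) (y.sup h n)) →
      (∀ x ∈ X, x.In h n) → cnt X .cv ≤ cnt X .rf →
      ∀ (Q : ℝ), 0 ≤ Q → ∀ (T : Finset (TG × Bool)) (Z : (TG × Bool → Bool) → ℝ), DepF T Z →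
      (∀ s, Z s ≤ Q * ((∏ x ∈ X, x.val h n s) * b ^ BN h s)) →
      ∫ s, Z s ∂(PB fun _ : TG × Bool => hf) ≤ Q * (C * (n : ℝ) ^ ε *
        (Pm n ^ cnt X .mk * mean .e2 n ^ cnt X .e2 * mean .e1 n ^ cnt X .e1)) := by
  classical
  obtain ⟨C1, hC1, h1⟩ := asm2 κ M hb (half_pos hε)
  obtain ⟨C2, hC2, h2⟩ := prod_mean hcp M (half_pos hε)
  refine ⟨C1 * C2, by nlinarith, fun A ρ h hBd n hn X hX hdis hin hcr Q hQ T Z hZ hb' => ?_⟩
  have hn1 : (1 : ℝ) ≤ n := by exact_mod_cast (by omega : 1 ≤ n)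
  have hdep : DepF (T ∪ (X.biUnion fun x => x.sup h n) ∪ TN h)
      fun s => Q * ((∏ x ∈ X, x.val h n s) * b ^ BN h s) := by
    intro s s' hs
    have e1 : ∏ x ∈ X, x.val h n s = ∏ x ∈ X, x.val h n s' :=
      Finset.prod_congr rfl fun x hx => x.val_dep h (by omega) s s' fun t ht => hs t
        (Finset.mem_union_left _ (Finset.mem_union_right _ (Finset.mem_biUnion.2 ⟨x, hx, ht⟩)))
    have e2 : BN h s = BN h s' := BN_dep h fun t ht => hs t (Finset.mem_union_right _ ht)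
    show Q * ((∏ x ∈ X, x.val h n s) * b ^ BN h s) = Q * ((∏ x ∈ X, x.val h n s') * b ^ BN h s')
    rw [e1, e2]
  refine (integral_mono (hZ.integrable _) (hdep.integrable _) hb').trans ?_
  rw [integral_const_mul]
  refine mul_le_mul_of_nonneg_left ?_ hQ
  refine (h1 A ρ h hBd n hn X hX hdis hin).trans ?_
  refine (mul_le_mul_of_nonneg_left (h2 n (by omega) X hX hcr) (by positivity)).trans
    (le_of_eq ?_)
  have e : (n : ℝ) ^ ε = (n : ℝ) ^ (ε / 2) * (n : ℝ) ^ (ε / 2) := by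
    rw [← Real.rpow_add (by linarith)]
    congr 1; ring
  rw [e, ← mean_mk]
  ring

end Crest.Agent.R158.Nz399
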