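import Crest.Agent.R158.Ka7_470
import Crest.Agent.R158.Nz7_399

/-!
# R158, block Q1d (helper399), part 8: admissible lists of special points

* `kd f` : kind of a factor, `patK k g` : quadrant pattern of the kind `k` rotated `g` times
* `fe g p x`, `we g p y` : ends of the rotated floor and wall
* `SpOk` : a special point is admissible for the charges `C` (one integer per port of each chart)
* `XOk` : admissible list of special points
-/

set_option autoImplicit false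

noncomputable section

namespace Crest.Agent.R158.Nz399

open Crest.Agent.R158.Nm211
open Crest.Agent.R158.Ka470
open Crest.Agent.R158.Env664 (TG)

/-- kind of a factor -/
def kd (f : Fk) : Kind :=
  match f with
  | .cv => .cv
  | .rf => .rf
  | _ => .mk

/-- representative tile of a quadrant -/
def rq (bx bz : Bool) : ℤ × ℤ := (if bx then 0 else -1, if bz then 0 else -1)

/-- **pattern of the kind `k` rotated `g` times** -/
def patK (k : Kind) (g : ℕ) (bx bz : Bool) : Bool :=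
  decide (∃ b1 b2 : Bool, rt^[g] (rq b1 b2) = rq bx bz ∧ qd k (rq b1 b2))

/-- quadrant of a tile -/
theorem rt_rq (v : ℤ × ℤ) (b1 b2 : Bool) (h1 : b1 = decide (0 ≤ v.1)) (h2 : b2 = decide (0 ≤ v.2)) :
    rt (rq b1 b2) = rq (decide (0 ≤ (rt v).1)) (decide (0 ≤ (rt v).2)) := by
  subst h1 h2
  obtain ⟨x, y⟩ := v
  simp only [rt, rq]
  by_cases hx : 0 ≤ x <;> by_cases hy : 0 ≤ y
  · simp [hx, hy]; omega
  · simp [hx, hy]; omega
  · simp [hx, hy]; omega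
  · simp [hx, hy]; omega

theorem rt_rq_iter (g : ℕ) (v : ℤ × ℤ) :
    rt^[g] (rq (decide (0 ≤ v.1)) (decide (0 ≤ v.2))) =
      rq (decide (0 ≤ (rt^[g] v).1)) (decide (0 ≤ (rt^[g] v).2)) := by
  induction g with
  | zero => rfl
  | succ g ih => rw [Function.iterate_succ_apply', Function.iterate_succ_apply', ih,
      rt_rq (rt^[g] v) _ _ rfl rfl]

theorem rq_inj {b1 b2 c1 c2 : Bool} (h : rq b1 b2 = rq c1 c2) : b1 = c1 ∧ b2 = c2 := by
  revert h
  cases b1 <;> cases b2 <;> cases c1 <;> cases c2 <;> simp [rq]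

theorem qd_rq (k : Kind) (v : ℤ × ℤ) :
    qd k (rq (decide (0 ≤ v.1)) (decide (0 ≤ v.2))) ↔ qd k v := by
  obtain ⟨x, y⟩ := v
  by_cases hx : 0 ≤ x <;> by_cases hy : 0 ≤ y <;> cases k <;> simp [qd, rq, hx, hy]

/-- **the pattern describes the rotated region** -/
theorem patK_pl (k : Kind) (g : ℕ) (p v : ℤ × ℤ) :
    patK k g (decide (p.1 ≤ (pl g p v).1)) (decide (p.2 ≤ (pl g p v).2)) = true ↔ qd k v := by
  have e1 : decide (p.1 ≤ (pl g p v).1) = decide (0 ≤ (rt^[g] v).1) := by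
    simp [pl]
  have e2 : decide (p.2 ≤ (pl g p v).2) = decide (0 ≤ (rt^[g] v).2) := by
    simp [pl]
  rw [e1, e2]
  unfold patK
  rw [decide_eq_true_eq]
  constructor
  · rintro ⟨b1, b2, h1, h2⟩
    rw [← rt_rq_iter] at h1
    have h3 := rt_inj.iterate g h1
    rwa [h3, qd_rq] at h2
  · intro h
    exact ⟨_, _, rt_rq_iter g v, (qd_rq k v).2 h⟩

/-- box radius under rotation -/
theorem pl_Bv (g : ℕ) (p : ℤ × ℤ) {n : ℕ} {v : ℤ × ℤ}
    (hv : (-(n : ℤ) ≤ v.1 ∧ v.1 < n) ∧ -(n : ℤ) ≤ v.2 ∧ v.2 < n) : pl g p v ∈ Bv n p := by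
  have key : ∀ g : ℕ, (-(n : ℤ) ≤ (rt^[g] v).1 ∧ (rt^[g] v).1 < n) ∧
      -(n : ℤ) ≤ (rt^[g] v).2 ∧ (rt^[g] v).2 < n := by
    intro g
    induction g with
    | zero => exact hv
    | succ g ih =>
      rw [Function.iterate_succ_apply']
      simp only [rt]
      omega
  have h1 := key g
  show (p.1 - n ≤ (pl g p v).1 ∧ (pl g p v).1 < p.1 + n) ∧
    p.2 - n ≤ (pl g p v).2 ∧ (pl g p v).2 < p.2 + n
  simp only [pl, Prod.fst_add, Prod.snd_add]
  omega

/-- end of the rotated floor -/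
def fe (g : ℕ) (p : ℤ × ℤ) (x : ℤ) : (ℤ × ℤ) × ZMod 4 := (pl g p (x, 0), 3 - (g : ZMod 4))

/-- end of the rotated wall -/
def we (g : ℕ) (p : ℤ × ℤ) (y : ℤ) : (ℤ × ℤ) × ZMod 4 := (pl g p (0, y), -(g : ZMod 4))

section

variable {A : Half} {ρ : ℕ}

/-- charges across a special point of size `n` -/
def Chg (C : (ℤ × ℤ) × ZMod 4 → ℤ) (n : ℕ) (g : ℕ) (p : ℤ × ℤ) (f : Fk) (k : Bool) : Prop :=
  match f with
  | .cv => k = true ∧ ∀ a b : ℤ, 0 ≤ a → a < n → 0 ≤ b → b < n → C (fe g p a) = C (we g p b)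
  | .rf => k = true ∧ ∀ a b : ℤ, -(n : ℤ) ≤ a → a < 0 → -(n : ℤ) ≤ b → b < 0 →
      C (we g p a) = C (fe g p b)
  | .mk => ∀ a b : ℤ, 0 ≤ a → a < n → -(n : ℤ) ≤ b → b < 0 →
      (C (fe g p a) - C (fe g p b) - (if k then 2 else 1)) % 3 = 0
  | .e2 => k = false ∧ (∀ a : ℤ, 0 < a → a < n → (C (fe g p a) - C (fe g p 0) - 1) % 3 = 0) ∧
      ∀ b : ℤ, -(n : ℤ) ≤ b → b < 0 → (C (fe g p 0) - C (fe g p b) - 1) % 3 = 0
  | .e1 => k = true ∧ ∀ a b : ℤ, 0 < a → a ≤ n → -(n : ℤ) ≤ b → b < 0 →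
      (C (fe g p a) - C (fe g p b) - 2) % 3 = 0

/-- **admissible special point** (`n = 3 ρ`, `C i` : charges of the ports of the chart `i`) -/
structure SpOk (h : A.Sz ρ) (C : Fin 4 → (ℤ × ℤ) × ZMod 4 → ℤ) (x : Sp) : Prop where
  good : A.Good ρ x.i (Bv (5 * ρ) x.p)
  patt : Patt (Half.chf h x.i).R (Bv (5 * ρ) x.p) x.p (patK (kd x.f) x.g)
  chg : ∃ k : Bool, (∀ u ∈ Bv (5 * ρ) x.p, u ∈ (Half.chf h x.i).R →
    ((Half.chf h x.i).emb u).2 = k) ∧ Chg (C x.i) (3 * ρ) x.g x.p x.f k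

theorem SpOk.in {h : A.Sz ρ} {C : Fin 4 → (ℤ × ℤ) × ZMod 4 → ℤ} {x : Sp} (hx : SpOk h C x) :
    x.In h (3 * ρ) := by
  intro v hv
  have hρ := h.pos
  have h1 : (-((5 * ρ : ℕ) : ℤ) ≤ v.1 ∧ v.1 < (5 * ρ : ℕ)) ∧
      -((5 * ρ : ℕ) : ℤ) ≤ v.2 ∧ v.2 < (5 * ρ : ℕ) := by
    have : v ∈ Tk (kd x.f) (3 * ρ + 1) := by
      cases hxf : x.f <;> rw [hxf] at hv <;> simp only [Tf] at hv <;> simp only [kd] <;>
        rw [mem_Tk] at hv ⊢ <;> refine ⟨?_, hv.2⟩ <;> push_cast at hv ⊢ <;> omega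
    rw [mem_Tk] at this
    push_cast at this ⊢
    omega
  have h2 : qd (kd x.f) v := by
    cases hxf : x.f <;> rw [hxf] at hv <;> simp only [Tf] at hv <;> simp only [kd] <;>
      exact (mem_Tk.1 hv).2
  rw [hx.patt _ (pl_Bv x.g x.p h1), patK_pl]
  exact h2

/-- **admissible list** -/
structure XOk (h : A.Sz ρ) (L : ℤ) (C : Fin 4 → (ℤ × ℤ) × ZMod 4 → ℤ) (X : Finset Sp) : Prop where
  ok : ∀ x ∈ X, SpOk h C x
  dis : ∀ x ∈ X, ∀ y ∈ X, x ≠ y → Disjoint (x.sup h (3 * ρ)) (y.sup h (3 * ρ))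
  /-- all the convex corners of the second copy are in the list -/
  comp : ∀ p ∈ A.Ver L 1, ∀ g < 4, Patt (Half.chf h 1).R (Bv (5 * ρ) p) p (patK .cv g) →
    (⟨1, .cv, g, p⟩ : Sp) ∈ X
  /-- no diagonal patterns -/
  nodg : ∀ p ∈ A.Ver L 1, ∀ pat, Patt (Half.chf h 1).R (Bv (5 * ρ) p) p pat →
    ¬ (pat true true = true ∧ pat false false = true ∧ pat true false = false ∧
      pat false true = false) ∧
    ¬ (pat true true = false ∧ pat false false = false ∧ pat true false = true ∧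
      pat false true = true)

/-! ### the corners of the mouths -/

theorem patK_rf3 (bx bz : Bool) : patK .rf 3 bx bz = (bx || !bz) := by
  revert bx bz; decide

theorem patK_rf2 (bx bz : Bool) : patK .rf 2 bx bz = (!bx || !bz) := by
  revert bx bz; decide

/-- **the left mouth corner of the second copy is reflex, missing quadrant upper left** -/
theorem mouth_l {L a b c : ℤ} (m : A.Mc L a b c) (h : A.Sz ρ) (h' : A.Sz' ρ L) :
    A.Good ρ 2 (Bv (5 * ρ) (A.xl, 2 * A.y0 - A.y1)) ∧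
    Patt (Half.chf h 2).R (Bv (5 * ρ) (A.xl, 2 * A.y0 - A.y1)) (A.xl, 2 * A.y0 - A.y1)
      (patK .rf 3) := by
  have hg := (Half.vert m h h' (i := 2) (p := (A.xl, 2 * A.y0 - A.y1))
    ⟨Or.inl rfl, Or.inr rfl⟩).1
  refine ⟨hg, fun u hu => ?_⟩
  rw [Half.memM h (hg u hu), patK_rf3, Half.y1_ry]
  obtain ⟨⟨u1, u2⟩, u3, u4⟩ := hu
  push_cast at u1 u2 u3 u4
  have h3 := h'.L
  have h4 := h'.h
  have hab := m.ab
  simp only [Bool.or_eq_true, decide_eq_true_eq, Bool.not_eq_true', decide_eq_false_iff_not]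
  omega

/-- **the right mouth corner of the second copy is reflex, missing quadrant upper right** -/
theorem mouth_r {L a b c : ℤ} (m : A.Mc L a b c) (h : A.Sz ρ) (h' : A.Sz' ρ L) :
    A.Good ρ 2 (Bv (5 * ρ) (A.xr + 1, 2 * A.y0 - A.y1)) ∧
    Patt (Half.chf h 2).R (Bv (5 * ρ) (A.xr + 1, 2 * A.y0 - A.y1)) (A.xr + 1, 2 * A.y0 - A.y1)
      (patK .rf 2) := by
  have hg := (Half.vert m h h' (i := 2) (p := (A.xr + 1, 2 * A.y0 - A.y1))
    ⟨Or.inr rfl, Or.inr rfl⟩).1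
  refine ⟨hg, fun u hu => ?_⟩
  rw [Half.memM h (hg u hu), patK_rf2, Half.y1_ry]
  obtain ⟨⟨u1, u2⟩, u3, u4⟩ := hu
  push_cast at u1 u2 u3 u4
  have h3 := h'.L
  have h4 := h'.h
  have hab := m.ab
  simp only [Bool.or_eq_true, Bool.not_eq_true', decide_eq_false_iff_not]
  omega

end

end Crest.Agent.R158.Nz399
end
private theorem rz_6675f0e55b : type_of% @_root_.Crest.Agent.R158.Nz399.kd.eq_1 := @_root_.Crest.Agent.R158.Nz399.kd.eq_1 -- L24
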