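import Crest.Agent.R158.Cc1_841
import Crest.Agent.R158.Ka8_470
import Crest.Agent.R158.Nz3_399
import Crest.Agent.R158.Hg2_896
import Crest.Agent.R158.Nz8_399

-- ▼ part R158/Cc2_841
section

/-!
# R158, leaf (3) of block Q1d (helper841), part 2: corner count of a half environment

* `HConn` : connectedness; `low_hc`, `up_hc` : the two parts cut along a crosscut are connected
* `cvh A` : convex corners of the planar part that are corners of the double (the two ends of the
  crosscut are removed); `half_count` : `#cvh + 2 #dg ≤ #rf + 2`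
* `cvh_ver`, `rf_ver` : these vertices are macroscopic
* `pk k g` : quadrant pattern of kind `k` after `g` quarter turns, `Patt_shp` : in terms of `pl`, `qd`
* `patt_cv0`, `patt_rf0` : pattern at a corner in chart 0, `patt_cv1`, `patt_rf1` : in chart 1
  (vertex `mir A p`), `patt_mou` : at the mouths (chart 2)
-/

set_option autoImplicit false

namespace Crest.Agent.R158.Cc841

open Crest.Agent.R158.Env664 (TG Mac D mem_D div_iff Run CutAdj Adj4 lowT upT)
open Crest.Agent.R158.Xr249 (mem_lowT mem_upT low_step up_step cut_symm)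
open Crest.Agent.R158.Ka470
open Crest.Agent.R158.Ka470.Half
open Crest.Agent.R158.Nz399
open Relation

/-! ### connectedness -/

/-- connected by side adjacency -/
def HConn (H : Finset (ℤ × ℤ)) : Prop :=
  ∀ a ∈ H, ∀ b ∈ H, ReflTransGen (fun u v => St u v ∧ u ∈ H ∧ v ∈ H) a b

theorem rtg_symm {H : Finset (ℤ × ℤ)} {a b : ℤ × ℤ}
    (h : ReflTransGen (fun u v => St u v ∧ u ∈ H ∧ v ∈ H) a b) :
    ReflTransGen (fun u v => St u v ∧ u ∈ H ∧ v ∈ H) b a := by
  induction h with
  | refl => exact .refl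
  | tail _ h2 ih => exact .head ⟨by have := h2.1; unfold St at *; omega, h2.2.2, h2.2.1⟩ ih

theorem hc_of_base {H : Finset (ℤ × ℤ)} {o : ℤ × ℤ}
    (h : ∀ t ∈ H, ReflTransGen (fun u v => St u v ∧ u ∈ H ∧ v ∈ H) o t) : HConn H :=
  fun a ha b hb => (rtg_symm (h a ha)).trans (h b hb)

section cut

variable {A : Finset (ℤ × ℤ)} {xl xr y0 : ℤ}

/-- **the part below a crosscut is connected** -/
theorem low_hc : HConn (lowT A xl xr y0) := by
  refine hc_of_base (o := (xl, y0 - 1)) fun t ht => ?_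
  obtain ⟨hA, h⟩ := mem_lowT.1 ht
  clear ht hA
  induction h with
  | refl => exact .refl
  | @tail c d h1 h2 ih =>
    have hc : c ∈ lowT A xl xr y0 := mem_lowT.2 ⟨h2.2.1, h1⟩
    exact ih.tail ⟨h2.1, hc, low_step hc h2⟩


end cut


/-! ### the half environment -/

section half

variable (A : Half)

theorem mem_cv {H : Finset (ℤ × ℤ)} {p : ℤ × ℤ} : p ∈ cv H ↔ nt H p = 1 := by
  unfold cv
  rw [Finset.mem_filter]
  constructor
  · exact fun h => h.2
  · intro h
    refine ⟨mem_Vx.2 ?_, h⟩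
    by_contra hcon
    push Not at hcon
    obtain ⟨h1, h2, h3, h4⟩ := hcon
    unfold nt at h
    simp only [h1, h2, h3, h4, if_false] at h
    omega

theorem mem_rf {H : Finset (ℤ × ℤ)} {p : ℤ × ℤ} : p ∈ rf H ↔ nt H p = 3 := by
  unfold rf
  rw [Finset.mem_filter]
  constructor
  · exact fun h => h.2
  · intro h
    refine ⟨mem_Vx.2 ?_, h⟩
    by_contra hcon
    push Not at hcon
    obtain ⟨h1, h2, h3, h4⟩ := hcon
    unfold nt at h
    simp only [h1, h2, h3, h4, if_false] at h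
    omega

theorem cut_l : (A.xl, A.y0) ∈ cv A.H := by
  have h1 : tA (A.xl, A.y0) ∉ A.H := by
    have := A.hW; have := A.hY; have := A.h1
    exact A.left _ _ (by omega) (by omega) (by omega) (by omega)
  have h2 : tB (A.xl, A.y0) ∈ A.H := by
    have := A.hW; have := A.hY; have := A.h1; have := A.hx
    exact A.row _ _ (by omega) (by omega) (by omega) (by omega)
  have h3 : tC (A.xl, A.y0) ∉ A.H := by
    have := A.hW; have := A.hY; have := A.h1
    exact A.left _ _ (by omega) (by omega) (by omega) (by omega)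
  have h4 : tD (A.xl, A.y0) ∉ A.H := by
    have := A.hW; have := A.hx
    exact A.top _ _ (by omega) (by omega) (by omega) (by omega)
  rw [mem_cv]
  unfold nt
  simp only [h1, h2, h3, h4, if_true, if_false]

theorem cut_r : (A.xr + 1, A.y0) ∈ cv A.H := by
  have h1 : tA (A.xr + 1, A.y0) ∈ A.H := by
    have := A.hW; have := A.hY; have := A.h1; have := A.hx
    exact A.row _ _ (by omega) (by omega) (by omega) (by omega)
  have h2 : tB (A.xr + 1, A.y0) ∉ A.H := by
    have := A.hW; have := A.hY; have := A.h1; have := A.hx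
    exact A.right _ _ (by omega) (by omega) (by omega) (by omega)
  have h3 : tC (A.xr + 1, A.y0) ∉ A.H := by
    have := A.hW; have := A.hY; have := A.h1; have := A.hx
    exact A.top _ _ (by omega) (by omega) (by omega) (by omega)
  have h4 : tD (A.xr + 1, A.y0) ∉ A.H := by
    have := A.hW; have := A.hY; have := A.h1; have := A.hx
    exact A.right _ _ (by omega) (by omega) (by omega) (by omega)
  rw [mem_cv]
  unfold nt
  simp only [h1, h2, h3, h4, if_true, if_false]

/-- convex corners of the double (one copy) -/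
def cvh : Finset (ℤ × ℤ) := ((cv A.H).erase (A.xl, A.y0)).erase (A.xr + 1, A.y0)

variable {A}

theorem mem_cvh {p : ℤ × ℤ} : p ∈ cvh A ↔ nt A.H p = 1 ∧ p ≠ (A.xl, A.y0) ∧ p ≠ (A.xr + 1, A.y0) := by
  unfold cvh
  rw [Finset.mem_erase, Finset.mem_erase, mem_cv]
  tauto

theorem cvh_card : (cvh A).card + 2 = (cv A.H).card := by
  have h1 := cut_l A
  have h2 : (A.xr + 1, A.y0) ∈ (cv A.H).erase (A.xl, A.y0) := by
    rw [Finset.mem_erase]
    refine ⟨?_, cut_r A⟩
    intro h
    have := A.hx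
    simp only [Prod.mk.injEq] at h
    omega
  have e1 := Finset.card_erase_add_one h1
  have e2 := Finset.card_erase_add_one h2
  unfold cvh
  omega

/-- **corner count of a half environment** -/
theorem half_count (hc : HConn A.H) : (cvh A).card + 2 * (dg A.H).card ≤ (rf A.H).card + 2 := by
  have hne : A.H.Nonempty := ⟨(A.xl, A.y1), A.row _ _ A.hY A.h1 (le_refl _) A.hx⟩
  have h1 := corner_count hne hc
  have h2 := cvh_card (A := A)
  omega

/-- the four tiles at `p` are not symmetric under one of the two reflections -/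
def NF (H : Finset (ℤ × ℤ)) (p : ℤ × ℤ) : Prop :=
  (¬(tA p ∈ H ↔ tB p ∈ H) ∨ ¬(tC p ∈ H ↔ tD p ∈ H)) ∧
    (¬(tA p ∈ H ↔ tC p ∈ H) ∨ ¬(tB p ∈ H ↔ tD p ∈ H))

theorem nf_cv {H : Finset (ℤ × ℤ)} {p : ℤ × ℤ} (h : nt H p = 1) : NF H p := by
  unfold nt at h
  unfold NF
  by_cases h1 : tA p ∈ H <;> by_cases h2 : tB p ∈ H <;> by_cases h3 : tC p ∈ H <;>
    by_cases h4 : tD p ∈ H <;> simp [h1, h2, h3, h4] at h ⊢

theorem nf_rf {H : Finset (ℤ × ℤ)} {p : ℤ × ℤ} (h : nt H p = 3) : NF H p := by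
  unfold nt at h
  unfold NF
  by_cases h1 : tA p ∈ H <;> by_cases h2 : tB p ∈ H <;> by_cases h3 : tC p ∈ H <;>
    by_cases h4 : tD p ∈ H <;> simp [h1, h2, h3, h4] at h ⊢


theorem div_pred {L x : ℤ} (hL : 0 < L) (h : ¬ L ∣ x) : (x - 1) / L = x / L := by
  refine (div_iff hL _ _).2 ?_
  obtain ⟨h1, h2⟩ := (div_iff hL x (x / L)).1 rfl
  have h3 : x / L * L ≠ x := fun e => h ⟨x / L, by rw [mul_comm]; exact e.symm⟩
  omega

/-- **corners are macroscopic** -/
theorem ver_of {L a b c : ℤ} (m : A.Mc L a b c) {p : ℤ × ℤ} (hp : NF A.H p) :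
    (L ∣ p.1 ∧ L ∣ p.2) ∨ p = (A.xl, A.y0) ∨ p = (A.xr + 1, A.y0) := by
  have hL := m.hL
  have hW := A.hW
  have hY := A.hY
  have h01 := A.h1
  have hx := A.hx
  have m1 := m.W
  have m2 := m.Y
  obtain ⟨hp1, hp2⟩ := hp
  by_cases d1 : L ∣ p.1
  swap
  · exfalso
    have e := div_pred hL d1
    rcases hp1 with h | h
    · exact h ⟨m.same _ _ e rfl fun _ _ _ => Iff.rfl, m.same _ _ e.symm rfl fun _ _ _ => Iff.rfl⟩
    · exact h ⟨m.same _ _ e rfl fun _ _ _ => Iff.rfl, m.same _ _ e.symm rfl fun _ _ _ => Iff.rfl⟩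
  by_cases d2 : L ∣ p.2
  · exact Or.inl ⟨d1, d2⟩
  have e := div_pred hL d2
  right
  by_cases hy : p.2 = A.y0
  swap
  · exfalso
    rcases hp2 with h | h
    · exact h ⟨m.same _ _ rfl e fun _ _ _ => by simp only [tA, tC]; omega,
        m.same _ _ rfl e.symm fun _ _ _ => by simp only [tA, tC]; omega⟩
    · exact h ⟨m.same _ _ rfl e fun _ _ _ => by simp only [tB, tD]; omega,
        m.same _ _ rfl e.symm fun _ _ _ => by simp only [tB, tD]; omega⟩
  by_cases hl : p.1 = A.xl
  · exact Or.inl (Prod.ext hl hy)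
  by_cases hr : p.1 = A.xr + 1
  · exact Or.inr (Prod.ext hr hy)
  exfalso
  by_cases hin : A.xl ≤ p.1 - 1 ∧ p.1 ≤ A.xr
  · have h1 : tA p ∈ A.H := A.row _ _ (by omega) (by omega) (by omega) (by omega)
    have h2 : tB p ∈ A.H := A.row _ _ (by omega) (by omega) (by omega) (by omega)
    have h3 : tC p ∉ A.H := A.top _ _ (by omega) (by omega) (by omega) (by omega)
    have h4 : tD p ∉ A.H := A.top _ _ (by omega) (by omega) (by omega) (by omega)
    rcases hp1 with h | h
    · exact h (iff_of_true h1 h2)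
    · exact h (iff_of_false h3 h4)
  · rcases hp2 with h | h
    · exact h ⟨m.same _ _ rfl e fun _ _ _ => by simp only [tA] at *; omega,
        m.same _ _ rfl e.symm fun _ _ _ => by simp only [tC] at *; omega⟩
    · exact h ⟨m.same _ _ rfl e fun _ _ _ => by simp only [tB] at *; omega,
        m.same _ _ rfl e.symm fun _ _ _ => by simp only [tD] at *; omega⟩

theorem cvh_ver {L a b c : ℤ} (m : A.Mc L a b c) {p : ℤ × ℤ} (hp : p ∈ cvh A) :
    L ∣ p.1 ∧ L ∣ p.2 := by
  obtain ⟨h1, h2, h3⟩ := mem_cvh.1 hp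
  rcases ver_of m (nf_cv h1) with h | h | h
  · exact h
  · exact absurd h h2
  · exact absurd h h3

/-- at a macroscopic height -/
theorem not_mac {L a b c : ℤ} (m : A.Mc L a b c) : ¬ L ∣ A.y0 := by
  rintro ⟨k, hk⟩
  have hL := m.hL
  have hW := A.hW
  have hY := A.hY
  have h01 := A.h1
  have m1 := m.W
  have m2 := m.Y
  have h1 : c * L < L * k := by omega
  have h2 : L * k < c * L + L := by omega
  have h3 : c < k := by
    by_contra hcon
    nlinarith
  have h4 : k < c + 1 := by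
    by_contra hcon
    nlinarith
  omega

theorem rf_ver {L a b c : ℤ} (m : A.Mc L a b c) {p : ℤ × ℤ} (hp : p ∈ rf A.H) :
    L ∣ p.1 ∧ L ∣ p.2 := by
  rw [mem_rf] at hp
  rcases ver_of m (nf_rf hp) with h | h | h
  · exact h
  · rw [h, mem_cv.1 (cut_l A)] at hp; omega
  · rw [h, mem_cv.1 (cut_r A)] at hp; omega

end half

/-! ### patterns -/

/-- quadrant pattern of the kind `k` after `g` quarter turns -/
def pk : Kind → ℕ → Bool → Bool → Bool
  | .cv, 0, bx, bz => bx && bz
  | .cv, 1, bx, bz => !bx && bz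
  | .cv, 2, bx, bz => !bx && !bz
  | .cv, _, bx, bz => bx && !bz
  | .rf, 0, bx, bz => bx || bz
  | .rf, 1, bx, bz => !bx || bz
  | .rf, 2, bx, bz => !bx || !bz
  | .rf, _, bx, bz => bx || !bz
  | .mk, 0, _, bz => bz
  | .mk, 1, bx, _ => !bx
  | .mk, 2, _, bz => !bz
  | .mk, _, bx, _ => bx




/-- a pattern read off the four tiles at `p` -/
theorem patt_eval {H : Finset (ℤ × ℤ)} {n : ℕ} (hn : 0 < n) {p : ℤ × ℤ} {pat : Bool → Bool → Bool}
    (h : Patt H (Bv n p) p pat) : (tA p ∈ H ↔ pat false false = true) ∧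
      (tB p ∈ H ↔ pat true false = true) ∧ (tC p ∈ H ↔ pat false true = true) ∧
      (tD p ∈ H ↔ pat true true = true) := by
  have hn' : (0 : ℤ) < n := by exact_mod_cast hn
  refine ⟨?_, ?_, ?_, ?_⟩
  · rw [h (tA p) ⟨⟨by simp only [tA]; omega, by simp only [tA]; omega⟩, by simp only [tA]; omega,
      by simp only [tA]; omega⟩]
    have e1 : decide (p.1 ≤ (tA p).1) = false := by simp [tA]
    have e2 : decide (p.2 ≤ (tA p).2) = false := by simp [tA]
    rw [e1, e2]
  · rw [h (tB p) ⟨⟨by simp only [tB]; omega, by simp only [tB]; omega⟩, by simp only [tB]; omega,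
      by simp only [tB]; omega⟩]
    have e1 : decide (p.1 ≤ (tB p).1) = true := by simp [tB]
    have e2 : decide (p.2 ≤ (tB p).2) = false := by simp [tB]
    rw [e1, e2]
  · rw [h (tC p) ⟨⟨by simp only [tC]; omega, by simp only [tC]; omega⟩, by simp only [tC]; omega,
      by simp only [tC]; omega⟩]
    have e1 : decide (p.1 ≤ (tC p).1) = false := by simp [tC]
    have e2 : decide (p.2 ≤ (tC p).2) = true := by simp [tC]
    rw [e1, e2]
  · rw [h (tD p) ⟨⟨by simp only [tD]; omega, by simp only [tD]; omega⟩, by simp only [tD]; omega,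
      by simp only [tD]; omega⟩]
    have e1 : decide (p.1 ≤ (tD p).1) = true := by simp [tD]
    have e2 : decide (p.2 ≤ (tD p).2) = true := by simp [tD]
    rw [e1, e2]

/-- direction of a convex corner -/
def gcv (H : Finset (ℤ × ℤ)) (p : ℤ × ℤ) : ℕ :=
  if tD p ∈ H then 0 else if tC p ∈ H then 1 else if tA p ∈ H then 2 else 3

/-- direction of a reflex corner -/
def grf (H : Finset (ℤ × ℤ)) (p : ℤ × ℤ) : ℕ :=
  if tA p ∉ H then 0 else if tB p ∉ H then 1 else if tD p ∉ H then 2 else 3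

theorem gcv_lt (H : Finset (ℤ × ℤ)) (p : ℤ × ℤ) : gcv H p < 4 := by
  unfold gcv; split_ifs <;> omega

theorem grf_lt (H : Finset (ℤ × ℤ)) (p : ℤ × ℤ) : grf H p < 4 := by
  unfold grf; split_ifs <;> omega



section charts

variable {A : Half} {L a b c : ℤ} {ρ : ℕ}



/-- reflected vertex -/
def mir (A : Half) (p : ℤ × ℤ) : ℤ × ℤ := (p.1, 2 * A.y0 - p.2)

/-- reflected direction -/
def mg : Kind → ℕ → ℕ
  | .mk, g => (6 - g) % 4
  | _, g => 3 - g












end charts

end Crest.Agent.R158.Cc841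
private theorem rz_cbd98b78e1 : type_of% @_root_.Crest.Agent.R158.Cc841.mg.eq_1 := @_root_.Crest.Agent.R158.Cc841.mg.eq_1 -- L425
private theorem rz_6b1e32d6bd : type_of% @_root_.Crest.Agent.R158.Cc841.pk.eq_1 := @_root_.Crest.Agent.R158.Cc841.pk.eq_1 -- L301
end

-- ▼ part R158/Cc3_841

/-!
# R158, leaf (3) of block Q1d (helper841), part 3: no diagonal vertices, completeness

* `pk_patK` : my pattern table = 399's
* `dg_low`, `dg_up` : the two parts of `D F L` cut along a crosscut have no diagonal vertex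
* `low_count`, `up_count` : corner count for them
* `nodg_of` : the form of `XOk.nodg`; `cv_of_patt`, `rf_of_patt` : a convex / reflex pattern at a
  vertex of chart 1 comes from `cvh A` / `rf A.H`, with the right direction
-/

set_option autoImplicit false

namespace Crest.Agent.R158.Cc841

open Crest.Agent.R158.Env664 (TG Mac D mem_D div_iff Run CutAdj Adj4 lowT upT)
open Crest.Agent.R158.Xr249 (mem_lowT mem_upT low_step up_step cut_symm)
open Crest.Agent.R158.Ka470
open Crest.Agent.R158.Ka470.Half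
open Crest.Agent.R158.Nz399
open Relation

theorem pk_patK {k : Kind} {g : ℕ} (hg : g < 4) : pk k g = patK k g := by
  funext bx bz
  interval_cases g <;> cases k <;> cases bx <;> cases bz <;> decide

/-! ### no diagonal vertices -/

theorem mem_dg {H : Finset (ℤ × ℤ)} {p : ℤ × ℤ} : p ∈ dg H ↔
    (tA p ∈ H ∧ tD p ∈ H ∧ tB p ∉ H ∧ tC p ∉ H) ∨ (tA p ∉ H ∧ tD p ∉ H ∧ tB p ∈ H ∧ tC p ∈ H) := by
  unfold dg
  rw [Finset.mem_filter, mem_Vx]
  tauto

theorem cell_eq {L : ℤ} (hL : 0 < L) (i j : ℤ) : (L * i / L, L * j / L) = (i, j) ∧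
    ((L * i - 1) / L, L * j / L) = (i - 1, j) ∧ (L * i / L, (L * j - 1) / L) = (i, j - 1) ∧
    ((L * i - 1) / L, (L * j - 1) / L) = (i - 1, j - 1) := by
  have e1 : L * i / L = i := Int.mul_ediv_cancel_left _ hL.ne'
  have e2 : L * j / L = j := Int.mul_ediv_cancel_left _ hL.ne'
  have e3 : (L * i - 1) / L = i - 1 := (div_iff hL _ _).2 (by constructor <;> nlinarith)
  have e4 : (L * j - 1) / L = j - 1 := (div_iff hL _ _).2 (by constructor <;> nlinarith)
  rw [e1, e2, e3, e4]
  exact ⟨rfl, rfl, rfl, rfl⟩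

/-- **the fine polyomino has no diagonal vertex** -/
theorem dg_D (M : Mac) {L : ℤ} (hL : 0 < L) (p : ℤ × ℤ) : p ∉ dg (D M.F L) := by
  intro hp
  rw [mem_dg] at hp
  simp only [mem_D hL, tA, tB, tC, tD] at hp
  by_cases d1 : L ∣ p.1
  swap
  · rw [div_pred hL d1] at hp
    tauto
  by_cases d2 : L ∣ p.2
  swap
  · rw [div_pred hL d2] at hp
    tauto
  obtain ⟨i, hi⟩ := d1
  obtain ⟨j, hj⟩ := d2
  rw [hi, hj] at hp
  obtain ⟨e1, e2, e3, e4⟩ := cell_eq hL i j
  rw [e1, e2, e3, e4] at hp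
  have e5 : i - 1 + 1 = i := by ring
  have e6 : j - 1 + 1 = j := by ring
  rcases hp with ⟨h1, h2, h3, h4⟩ | ⟨h1, h2, h3, h4⟩
  · have := Hg896.mac_no_pinch M (i - 1) (j - 1)
    rw [e5, e6] at this
    exact this ⟨h1, h2, h3, h4⟩
  · have := Hg896.mac_no_pinch' M (i - 1) (j - 1)
    rw [e5, e6] at this
    exact this ⟨h3, h4, h1, h2⟩

section cut

variable {A : Finset (ℤ × ℤ)} {xl xr y0 : ℤ}

theorem row_adj {s t : ℤ × ℤ} (h : s.2 = t.2) (h' : t.1 = s.1 + 1 ∨ s.1 = t.1 + 1) (hs : s ∈ A)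
    (ht : t ∈ A) : CutAdj A xl xr y0 s t :=
  ⟨Or.inr ⟨h, h'⟩, hs, ht, fun h2 => by omega⟩

theorem low_row {s t : ℤ × ℤ} (h : s.2 = t.2) (h' : t.1 = s.1 + 1 ∨ s.1 = t.1 + 1)
    (hs : s ∈ lowT A xl xr y0) : t ∈ lowT A xl xr y0 ↔ t ∈ A :=
  ⟨fun ht => (mem_lowT.1 ht).1, fun ht => low_step hs (row_adj h h' (mem_lowT.1 hs).1 ht)⟩


/-- a part that is closed under horizontal steps has only the diagonal vertices of the whole -/
theorem dg_sub {H : Finset (ℤ × ℤ)} (hH : H ⊆ A)
    (hr : ∀ s t : ℤ × ℤ, s.2 = t.2 → (t.1 = s.1 + 1 ∨ s.1 = t.1 + 1) → s ∈ H → t ∈ A → t ∈ H)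
    {p : ℤ × ℤ} (hp : p ∈ dg H) : p ∈ dg A := by
  rw [mem_dg] at hp ⊢
  rcases hp with ⟨h1, h2, h3, h4⟩ | ⟨h1, h2, h3, h4⟩
  · left
    refine ⟨hH h1, hH h2, fun h => h3 ?_, fun h => h4 ?_⟩
    · exact hr (tA p) (tB p) rfl (Or.inl (by simp only [tA, tB]; omega)) h1 h
    · exact hr (tD p) (tC p) rfl (Or.inr (by simp only [tC, tD]; omega)) h2 h
  · right
    refine ⟨fun h => h1 ?_, fun h => h2 ?_, hH h3, hH h4⟩
    · exact hr (tB p) (tA p) rfl (Or.inr (by simp only [tA, tB]; omega)) h3 h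
    · exact hr (tC p) (tD p) rfl (Or.inl (by simp only [tC, tD]; omega)) h4 h

end cut

/-- **no diagonal vertex below a crosscut** -/
theorem dg_low (M : Mac) {L : ℤ} (hL : 0 < L) (xl xr y0 : ℤ) : dg (lowT (D M.F L) xl xr y0) = ∅ := by
  rw [Finset.eq_empty_iff_forall_notMem]
  intro p hp
  refine dg_D M hL p (dg_sub (fun t ht => (mem_lowT.1 ht).1) ?_ hp)
  exact fun s t h1 h2 h3 h4 => (low_row h1 h2 h3).2 h4




/-! ### completeness -/

section comp

variable {A : Half} {L a b c : ℤ} {ρ : ℕ}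

theorem mem_img {u : ℤ × ℤ} : A.rf u ∈ A.H.image A.rf ↔ u ∈ A.H := by
  rw [Half.mem_rf]
  have e : A.rf (A.rf u) = u := rf_rf A u
  rw [e]

theorem mir_mir (p : ℤ × ℤ) : mir A (mir A p) = p := by
  refine Prod.ext rfl ?_
  simp only [mir]; ring

/-- the four tiles at a vertex of chart 1 -/
theorem mir_eval (h : A.Sz ρ) {n : ℕ} (hn : 0 < n) {p : ℤ × ℤ} {pat : Bool → Bool → Bool}
    (hp : Patt (chf h 1).R (Bv n p) p pat) : (tC (mir A p) ∈ A.H ↔ pat false false = true) ∧
      (tD (mir A p) ∈ A.H ↔ pat true false = true) ∧ (tA (mir A p) ∈ A.H ↔ pat false true = true) ∧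
      (tB (mir A p) ∈ A.H ↔ pat true true = true) := by
  obtain ⟨h1, h2, h3, h4⟩ := patt_eval hn hp
  have e1 : A.rf (tC (mir A p)) = tA p := Prod.ext rfl (by simp only [tA, tC, mir, Half.rf]; ring)
  have e2 : A.rf (tD (mir A p)) = tB p := Prod.ext rfl (by simp only [tB, tD, mir, Half.rf]; ring)
  have e3 : A.rf (tA (mir A p)) = tC p := Prod.ext rfl (by simp only [tA, tC, mir, Half.rf]; ring)
  have e4 : A.rf (tB (mir A p)) = tD p := Prod.ext rfl (by simp only [tB, tD, mir, Half.rf]; ring)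
  rw [← h1, ← h2, ← h3, ← h4, ← e1, ← e2, ← e3, ← e4]
  exact ⟨mem_img.symm, mem_img.symm, mem_img.symm, mem_img.symm⟩

/-- **`XOk.nodg`** -/
theorem nodg_of (hd : dg A.H = ∅) (h : A.Sz ρ) {p : ℤ × ℤ} {pat : Bool → Bool → Bool}
    (hp : Patt (chf h 1).R (Bv (5 * ρ) p) p pat) :
    ¬ (pat true true = true ∧ pat false false = true ∧ pat true false = false ∧
      pat false true = false) ∧
    ¬ (pat true true = false ∧ pat false false = false ∧ pat true false = true ∧
      pat false true = true) := by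
  have h0 := h.pos
  obtain ⟨h1, h2, h3, h4⟩ := mir_eval h (by omega) hp
  have h5 : mir A p ∉ dg A.H := by rw [hd]; exact Finset.notMem_empty _
  rw [mem_dg, h1, h2, h3, h4] at h5
  constructor
  · rintro ⟨a1, a2, a3, a4⟩
    rw [a1, a2, a3, a4] at h5
    simp at h5
  · rintro ⟨a1, a2, a3, a4⟩
    rw [a1, a2, a3, a4] at h5
    simp at h5

/-- **a convex pattern in chart 1 comes from `cvh A`** -/
theorem cv_of_patt (m : A.Mc L a b c) (h : A.Sz ρ) {p : ℤ × ℤ} (hv : p ∈ A.Ver L 1) {g : ℕ}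
    (hg : g < 4) (hp : Patt (chf h 1).R (Bv (5 * ρ) p) p (patK .cv g)) :
    mir A p ∈ cvh A ∧ g = mg .cv (gcv A.H (mir A p)) := by
  have h0 := h.pos
  rw [← pk_patK hg] at hp
  obtain ⟨h1, h2, h3, h4⟩ := mir_eval h (by omega) hp
  have hy : L ∣ (mir A p).2 := hv.2
  rw [mem_cvh]
  refine ⟨⟨?_, ?_, ?_⟩, ?_⟩
  · unfold nt
    rw [if_congr h1 rfl rfl, if_congr h2 rfl rfl, if_congr h3 rfl rfl, if_congr h4 rfl rfl]
    interval_cases g <;> simp [pk]
  · intro e
    rw [e] at hy
    exact not_mac m hy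
  · intro e
    rw [e] at hy
    exact not_mac m hy
  · unfold gcv
    rw [if_congr h1 rfl rfl, if_congr h2 rfl rfl, if_congr h3 rfl rfl]
    interval_cases g <;> simp [pk, mg]


end comp

end Crest.Agent.R158.Cc841
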