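import Mathlib
import Crest.Prelude.Def_PlanarPerc

-- ▼ part R158/Cd1_83
section

/-!
R158, block C (Cardy front), part 1: uniqueness of triangle maps.
`cube_const`: `g` holomorphic in a bounded connected open set, continuous up to the boundary,
`c g³` real on the boundary ⟹ `g³` constant.
-/

set_option autoImplicit false

namespace Crest.Agent.R158.Cd83

open Complex Set Filter Topology MeasureTheory


theorem const_of_real {U : Set ℂ} (hU : IsOpen U) (hc : IsPreconnected U) {u : ℂ → ℂ}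
    (hu : DiffContOnCl ℂ u U) (hr : ∀ z ∈ U, (u z).im = 0) {a b : ℂ}
    (ha : a ∈ closure U) (hb : b ∈ closure U) : u a = u b := by
  have hder : ∀ z ∈ U, deriv u z = 0 := by
    intro z hz
    have hd : HasDerivAt u (deriv u z) z := (hu.1.differentiableAt (hU.mem_nhds hz)).hasDerivAt
    -- two directions
    have h1 : HasDerivAt (fun t : ℝ => (u (z + t)).im) (deriv u z).im 0 := by
      have h2 : HasDerivAt (fun t : ℝ => u (z + t)) (deriv u z) 0 := by
        have h3 : HasDerivAt (fun t : ℂ => u (z + t)) (deriv u z) ((0 : ℝ) : ℂ) := by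
          have h4 : HasDerivAt u (deriv u z) (z + ((0 : ℝ) : ℂ)) := by simpa using hd
          exact h4.comp_const_add z _
        exact h3.comp_ofReal
      exact (Complex.imCLM.hasFDerivAt.comp_hasDerivAt (0 : ℝ) h2)
    have h2 : HasDerivAt (fun t : ℝ => (u (z + t * I)).im) (deriv u z).re 0 := by
      have h2 : HasDerivAt (fun t : ℝ => u (z + t * I)) (deriv u z * I) 0 := by
        have h3 : HasDerivAt (fun t : ℂ => u (z + t * I)) (deriv u z * I) ((0 : ℝ) : ℂ) := by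
          have h4 : HasDerivAt u (deriv u z) (z + ((0 : ℝ) : ℂ) * I) := by simpa using hd
          have h5 : HasDerivAt (fun t : ℂ => z + t * I) I ((0 : ℝ) : ℂ) := by
            simpa using ((hasDerivAt_id ((0 : ℝ) : ℂ)).mul_const I).const_add z
          have h6 := HasDerivAt.comp (h₂ := u) (h := fun t : ℂ => z + t * I) ((0 : ℝ) : ℂ) h4 h5
          exact h6
        exact h3.comp_ofReal
      have h3 := (Complex.imCLM.hasFDerivAt.comp_hasDerivAt (0 : ℝ) h2)
      have h4 : (Complex.imCLM (deriv u z * I)) = (deriv u z).re := by simp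
      rw [h4] at h3
      exact h3
    have hev1 : (fun t : ℝ => (u (z + t)).im) =ᶠ[𝓝 0] fun _ => 0 := by
      have : Tendsto (fun t : ℝ => z + (t : ℂ)) (𝓝 0) (𝓝 z) := by
        have : Continuous fun t : ℝ => z + (t : ℂ) := by fun_prop
        simpa using this.tendsto 0
      filter_upwards [this (hU.mem_nhds hz)] with t ht
      exact hr _ ht
    have hev2 : (fun t : ℝ => (u (z + t * I)).im) =ᶠ[𝓝 0] fun _ => 0 := by
      have : Tendsto (fun t : ℝ => z + (t : ℂ) * I) (𝓝 0) (𝓝 z) := by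
        have : Continuous fun t : ℝ => z + (t : ℂ) * I := by fun_prop
        simpa using this.tendsto 0
      filter_upwards [this (hU.mem_nhds hz)] with t ht
      exact hr _ ht
    have e1 : (deriv u z).im = 0 :=
      (h1.congr_of_eventuallyEq hev1.symm).unique (hasDerivAt_const (0 : ℝ) (0 : ℝ))
    have e2 : (deriv u z).re = 0 :=
      (h2.congr_of_eventuallyEq hev2.symm).unique (hasDerivAt_const (0 : ℝ) (0 : ℝ))
    exact Complex.ext e2 e1
  have hne : U.Nonempty := closure_nonempty_iff.mp ⟨a, ha⟩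
  obtain ⟨z0, hz0⟩ := hne
  have hconst : EqOn u (fun _ => u z0) U := by
    intro z hz
    exact hU.is_const_of_deriv_eq_zero hc hu.1 hder hz hz0
  have hcl : EqOn u (fun _ => u z0) (closure U) :=
    hconst.of_subset_closure hu.continuousOn continuousOn_const subset_closure subset_rfl
  rw [hcl ha, hcl hb]



end Crest.Agent.R158.Cd83
end

-- ▼ part R158/Cd2_83
section

/-!
R158, block C (Cardy front), part 2: the Schwarz-Christoffel map of the disc onto an
equilateral triangle, marks at `exp (α I), exp (β I), exp (γ I)`.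
-/

set_option autoImplicit false

namespace Crest.Agent.R158.Cd83

open Complex Set Filter Topology MeasureTheory

/-- `(1 - z e^{-iα})^(-2/3)`. -/
noncomputable def wf (α : ℝ) (z : ℂ) : ℂ := (1 - z * exp (-(α : ℂ) * I)) ^ (((-2/3 : ℝ)) : ℂ)

noncomputable def Wf (α β γ : ℝ) (z : ℂ) : ℂ := wf α z * wf β z * wf γ z

noncomputable def SCF (α β γ : ℝ) (z : ℂ) : ℂ := ∫ t in (0:ℝ)..1, z * Wf α β γ ((t:ℂ) * z)

theorem base_re {α : ℝ} {z : ℂ} (hz : ‖z‖ ≤ 1) (hne : z ≠ exp ((α : ℂ) * I)) :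
    0 < (1 - z * exp (-(α : ℂ) * I)).re := by
  set u := z * exp (-(α : ℂ) * I) with hu
  have hnexp : ‖exp (-(α : ℂ) * I)‖ = 1 := by
    have : -(α : ℂ) * I = ((-α : ℝ) : ℂ) * I := by push_cast; ring
    rw [this, Complex.norm_exp_ofReal_mul_I]
  have hn : ‖u‖ ≤ 1 := by rw [hu, norm_mul, hnexp, mul_one]; exact hz
  have hre : u.re ≤ 1 := (Complex.re_le_norm u).trans hn
  rw [Complex.sub_re, Complex.one_re, sub_pos]
  refine lt_of_le_of_ne hre ?_
  intro h
  apply hne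
  have h2 : u.re ^ 2 + u.im ^ 2 ≤ 1 := by
    have := Complex.sq_norm u
    rw [Complex.normSq_apply] at this
    nlinarith [norm_nonneg u]
  have him : u.im = 0 := by
    rw [h] at h2
    have : u.im ^ 2 ≤ 0 := by linarith
    exact pow_eq_zero_iff (two_ne_zero) |>.mp (le_antisymm this (sq_nonneg _))
  have hu1 : u = 1 := Complex.ext h (by simpa using him)
  calc z = u * exp ((α : ℂ) * I) := by
        rw [hu, mul_assoc, ← Complex.exp_add]; simp
    _ = exp ((α : ℂ) * I) := by rw [hu1, one_mul]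

theorem wf_diffAt {α : ℝ} {z : ℂ} (h : 1 - z * exp (-(α : ℂ) * I) ∈ slitPlane) :
    DifferentiableAt ℂ (wf α) z := by
  unfold wf
  have hf : DifferentiableAt ℂ (fun z : ℂ => 1 - z * exp (-(α : ℂ) * I)) z := by fun_prop
  exact DifferentiableAt.cpow hf (differentiableAt_const _) h

theorem Wf_diffAt {α β γ : ℝ} {z : ℂ} (h : 1 - z * exp (-(α : ℂ) * I) ∈ slitPlane)
    (h' : 1 - z * exp (-(β : ℂ) * I) ∈ slitPlane)
    (h'' : 1 - z * exp (-(γ : ℂ) * I) ∈ slitPlane) :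
    DifferentiableAt ℂ (Wf α β γ) z :=
  ((wf_diffAt h).mul (wf_diffAt h')).mul (wf_diffAt h'')

theorem ball_ne {α : ℝ} {z : ℂ} (hz : ‖z‖ < 1) : z ≠ exp ((α : ℂ) * I) := by
  rintro rfl
  rw [Complex.norm_exp_ofReal_mul_I] at hz
  exact lt_irrefl _ hz

theorem ball_slit {α : ℝ} {z : ℂ} (hz : ‖z‖ < 1) :
    1 - z * exp (-(α : ℂ) * I) ∈ slitPlane :=
  Or.inl (base_re hz.le (ball_ne hz))

theorem Wf_diffAt_ball {α β γ : ℝ} {z : ℂ} (hz : ‖z‖ < 1) :
    DifferentiableAt ℂ (Wf α β γ) z :=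
  Wf_diffAt (ball_slit hz) (ball_slit hz) (ball_slit hz)

theorem wf_meas (α : ℝ) : Measurable (wf α) := by
  unfold wf
  exact Measurable.pow (by fun_prop) measurable_const

theorem Wf_meas (α β γ : ℝ) : Measurable (Wf α β γ) :=
  ((wf_meas α).mul (wf_meas β)).mul (wf_meas γ)

theorem norm_base (α : ℝ) (z : ℂ) :
    ‖1 - z * exp (-(α : ℂ) * I)‖ = ‖exp ((α : ℂ) * I) - z‖ := by
  have h : 1 - z * exp (-(α : ℂ) * I) = (exp ((α : ℂ) * I) - z) * exp (-(α : ℂ) * I) := by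
    rw [sub_mul, ← Complex.exp_add]; simp
  have hnexp : ‖exp (-(α : ℂ) * I)‖ = 1 := by
    have : -(α : ℂ) * I = ((-α : ℝ) : ℂ) * I := by push_cast; ring
    rw [this, Complex.norm_exp_ofReal_mul_I]
  rw [h, norm_mul, hnexp, mul_one]

theorem norm_Wf (α β γ : ℝ) (z : ℂ) :
    ‖Wf α β γ z‖ = (‖exp ((α : ℂ) * I) - z‖ * ‖exp ((β : ℂ) * I) - z‖ *
      ‖exp ((γ : ℂ) * I) - z‖) ^ (-2/3 : ℝ) := by
  unfold Wf wf
  rw [norm_mul, norm_mul, Complex.norm_cpow_real, Complex.norm_cpow_real, Complex.norm_cpow_real,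
    norm_base, norm_base, norm_base, ← Real.mul_rpow (norm_nonneg _) (norm_nonneg _),
    ← Real.mul_rpow (by positivity) (norm_nonneg _)]

theorem Wf_bound {α β γ : ℝ} (h1 : exp ((α : ℂ) * I) ≠ exp ((β : ℂ) * I))
    (h2 : exp ((α : ℂ) * I) ≠ exp ((γ : ℂ) * I)) (h3 : exp ((β : ℂ) * I) ≠ exp ((γ : ℂ) * I)) :
    ∃ C : ℝ, 0 ≤ C ∧ ∀ z : ℂ, ‖z‖ ≤ 1 → ∀ t : ℝ, 0 ≤ t → t < 1 →
      ‖Wf α β γ ((t:ℂ) * z)‖ ≤ C * (1 - t) ^ (-2/3 : ℝ) := by
  set a := exp ((α : ℂ) * I) with ha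
  set b := exp ((β : ℂ) * I) with hb
  set c := exp ((γ : ℂ) * I) with hc
  have hna : ‖a‖ = 1 := Complex.norm_exp_ofReal_mul_I α
  have hnb : ‖b‖ = 1 := Complex.norm_exp_ofReal_mul_I β
  have hnc : ‖c‖ = 1 := Complex.norm_exp_ofReal_mul_I γ
  obtain ⟨δ, hδ, d1, d2, d3⟩ : ∃ δ : ℝ, 0 < δ ∧ 2 * δ ≤ ‖a - b‖ ∧ 2 * δ ≤ ‖a - c‖ ∧
      2 * δ ≤ ‖b - c‖ := by
    refine ⟨min (‖a - b‖) (min ‖a - c‖ ‖b - c‖) / 2, ?_, ?_, ?_, ?_⟩
    · have e1 : 0 < ‖a - b‖ := norm_pos_iff.mpr (sub_ne_zero.mpr h1)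
      have e2 : 0 < ‖a - c‖ := norm_pos_iff.mpr (sub_ne_zero.mpr h2)
      have e3 : 0 < ‖b - c‖ := norm_pos_iff.mpr (sub_ne_zero.mpr h3)
      have : 0 < min (‖a - b‖) (min ‖a - c‖ ‖b - c‖) := lt_min e1 (lt_min e2 e3)
      linarith
    · linarith [min_le_left (‖a - b‖) (min ‖a - c‖ ‖b - c‖)]
    · linarith [(min_le_right (‖a - b‖) (min ‖a - c‖ ‖b - c‖)).trans (min_le_left _ _)]
    · linarith [(min_le_right (‖a - b‖) (min ‖a - c‖ ‖b - c‖)).trans (min_le_right _ _)]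
  refine ⟨(δ * δ) ^ (-2/3 : ℝ), by positivity, ?_⟩
  intro z hz t ht0 ht1
  rw [norm_Wf, ← Real.mul_rpow (by positivity) (by linarith)]
  have hu : ‖(t:ℂ) * z‖ ≤ t := by
    rw [norm_mul, Complex.norm_real, Real.norm_of_nonneg ht0]
    exact mul_le_of_le_one_right ht0 hz
  set u := (t:ℂ) * z with hudef
  have lower : ∀ x : ℂ, ‖x‖ = 1 → 1 - t ≤ ‖x - u‖ := by
    intro x hx
    have := norm_sub_norm_le x u
    linarith
  have A := lower a hna
  have B := lower b hnb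
  have C := lower c hnc
  have t1 : ‖a - b‖ ≤ ‖a - u‖ + ‖b - u‖ := by
    have : a - b = (a - u) - (b - u) := by ring
    rw [this]; exact norm_sub_le _ _
  have t2 : ‖a - c‖ ≤ ‖a - u‖ + ‖c - u‖ := by
    have : a - c = (a - u) - (c - u) := by ring
    rw [this]; exact norm_sub_le _ _
  have t3 : ‖b - c‖ ≤ ‖b - u‖ + ‖c - u‖ := by
    have : b - c = (b - u) - (c - u) := by ring
    rw [this]; exact norm_sub_le _ _
  have h1t : 0 < 1 - t := by linarith
  have key : δ * δ * (1 - t) ≤ ‖a - u‖ * ‖b - u‖ * ‖c - u‖ := by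
    rcases lt_or_ge ‖a - u‖ δ with hA | hA
    · have hB : δ ≤ ‖b - u‖ := by linarith
      have hC : δ ≤ ‖c - u‖ := by linarith
      calc δ * δ * (1 - t) = (1 - t) * δ * δ := by ring
        _ ≤ ‖a - u‖ * ‖b - u‖ * ‖c - u‖ := by
          apply mul_le_mul (mul_le_mul A hB hδ.le (norm_nonneg _)) hC hδ.le (by positivity)
    · rcases lt_or_ge ‖b - u‖ δ with hB | hB
      · have hC : δ ≤ ‖c - u‖ := by linarith
        calc δ * δ * (1 - t) = δ * (1 - t) * δ := by ring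
          _ ≤ ‖a - u‖ * ‖b - u‖ * ‖c - u‖ := by
            apply mul_le_mul (mul_le_mul hA B h1t.le (norm_nonneg _)) hC hδ.le (by positivity)
      · apply mul_le_mul (mul_le_mul hA hB hδ.le (norm_nonneg _)) C h1t.le (by positivity)
  exact Real.rpow_le_rpow_of_nonpos (by positivity) key (by norm_num)

theorem bound_int (C : ℝ) :
    IntervalIntegrable (fun t : ℝ => C * (1 - t) ^ (-2/3 : ℝ)) volume 0 1 := by
  have h := intervalIntegral.intervalIntegrable_rpow' (a := (0:ℝ)) (b := 1) (r := (-2/3 : ℝ))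
    (by norm_num)
  have h2 := (h.comp_sub_left 1).symm
  simp only [sub_zero, sub_self] at h2
  exact h2.const_mul C

theorem SCF_cont {α β γ : ℝ} (h1 : exp ((α : ℂ) * I) ≠ exp ((β : ℂ) * I))
    (h2 : exp ((α : ℂ) * I) ≠ exp ((γ : ℂ) * I)) (h3 : exp ((β : ℂ) * I) ≠ exp ((γ : ℂ) * I)) :
    ContinuousOn (SCF α β γ) (Metric.closedBall 0 1) := by
  obtain ⟨C, hC0, hC⟩ := Wf_bound h1 h2 h3
  intro x hx
  unfold SCF
  refine intervalIntegral.continuousWithinAt_of_dominated_interval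
    (bound := fun t : ℝ => C * (1 - t) ^ (-2/3 : ℝ)) ?_ ?_ (bound_int C) ?_
  · filter_upwards with z
    apply Measurable.aestronglyMeasurable
    exact measurable_const.mul ((Wf_meas α β γ).comp (by fun_prop))
  · filter_upwards [self_mem_nhdsWithin] with z hz
    have hz' : ‖z‖ ≤ 1 := by simpa using hz
    have hne : ∀ᵐ t : ℝ ∂volume, t ≠ 1 := by
      simp [ae_iff, measure_singleton]
    filter_upwards [hne] with t ht1 ht
    rw [uIoc_of_le zero_le_one] at ht
    have hlt : t < 1 := lt_of_le_of_ne ht.2 ht1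
    rw [norm_mul]
    calc ‖z‖ * ‖Wf α β γ ((t:ℂ) * z)‖ ≤ 1 * ‖Wf α β γ ((t:ℂ) * z)‖ := by
          gcongr
      _ ≤ C * (1 - t) ^ (-2/3 : ℝ) := by rw [one_mul]; exact hC z hz' t ht.1.le hlt
  · have hne : ∀ᵐ t : ℝ ∂volume, t ≠ 1 := by
      simp [ae_iff, measure_singleton]
    filter_upwards [hne] with t ht1 ht
    rw [uIoc_of_le zero_le_one] at ht
    have hlt : t < 1 := lt_of_le_of_ne ht.2 ht1
    have hx' : ‖x‖ ≤ 1 := by simpa using hx
    have hu : ‖(t:ℂ) * x‖ < 1 := by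
      rw [norm_mul, Complex.norm_real, Real.norm_of_nonneg ht.1.le]
      calc t * ‖x‖ ≤ t * 1 := by gcongr; exact ht.1.le
        _ < 1 := by linarith
    have hd := (Wf_diffAt_ball (α := α) (β := β) (γ := γ) hu).continuousAt
    have hcomp : ContinuousAt (fun z : ℂ => Wf α β γ ((t:ℂ) * z)) x :=
      ContinuousAt.comp (f := fun z : ℂ => (t:ℂ) * z) (g := Wf α β γ) hd (by fun_prop)
    exact (continuousAt_id.mul hcomp).continuousWithinAt

theorem SCF_hasDeriv {α β γ : ℝ} {z : ℂ} (hz : ‖z‖ < 1) :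
    HasDerivAt (SCF α β γ) (Wf α β γ z) z := by
  have hd : DifferentiableOn ℂ (Wf α β γ) (Metric.ball 0 1) := fun x hx =>
    (Wf_diffAt_ball (by simpa using hx)).differentiableWithinAt
  obtain ⟨G, hG⟩ := hd.isExactOn_ball
  have hG' : ∀ x : ℂ, ‖x‖ < 1 → HasDerivAt G (Wf α β γ x) x := fun x hx => hG x (by simpa using hx)
  have heq : ∀ x : ℂ, ‖x‖ < 1 → SCF α β γ x = G x - G 0 := by
    intro x hx
    unfold SCF
    have hin : ∀ t : ℝ, t ∈ Set.uIcc (0:ℝ) 1 → ‖(t:ℂ) * x‖ < 1 := by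
      intro t ht
      rw [uIcc_of_le zero_le_one] at ht
      rw [norm_mul, Complex.norm_real, Real.norm_of_nonneg ht.1]
      calc t * ‖x‖ ≤ 1 * ‖x‖ := by gcongr; exact ht.2
        _ < 1 := by linarith
    have hder : ∀ t ∈ Set.uIcc (0:ℝ) 1,
        HasDerivAt (fun t : ℝ => G ((t:ℂ) * x)) (x * Wf α β γ ((t:ℂ) * x)) t := by
      intro t ht
      have h4 := hG' _ (hin t ht)
      have h5 : HasDerivAt (fun w : ℂ => w * x) x (t:ℂ) := by
        simpa using (hasDerivAt_id (t:ℂ)).mul_const x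
      have h6 := HasDerivAt.comp (h₂ := G) (h := fun w : ℂ => w * x) (t:ℂ) h4 h5
      have h7 := h6.comp_ofReal
      rw [mul_comm] at h7
      exact h7
    have hint : IntervalIntegrable (fun t : ℝ => x * Wf α β γ ((t:ℂ) * x)) volume 0 1 := by
      apply ContinuousOn.intervalIntegrable
      intro t ht
      have hc := (Wf_diffAt_ball (α := α) (β := β) (γ := γ) (hin t ht)).continuousAt
      have hcomp : ContinuousAt (fun t : ℝ => Wf α β γ ((t:ℂ) * x)) t :=
        ContinuousAt.comp (f := fun t : ℝ => (t:ℂ) * x) (g := Wf α β γ) hc (by fun_prop)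
      exact (continuousAt_const.mul hcomp).continuousWithinAt
    rw [intervalIntegral.integral_eq_sub_of_hasDerivAt hder hint]
    simp
  have hmem : Metric.ball (0:ℂ) 1 ∈ 𝓝 z := Metric.isOpen_ball.mem_nhds (by simpa using hz)
  have hev : SCF α β γ =ᶠ[𝓝 z] fun x => G x - G 0 := by
    filter_upwards [hmem] with x hx
    exact heq x (by simpa using hx)
  exact ((hG' z hz).sub_const (G 0)).congr_of_eventuallyEq hev

end Crest.Agent.R158.Cd83
end

-- ▼ part R158/Cd3_83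
section

/-!
R158, block C (Cardy front), part 3: boundary behaviour of the Schwarz-Christoffel integral.
-/

set_option autoImplicit false

namespace Crest.Agent.R158.Cd83

open Complex Set Filter Topology MeasureTheory

theorem circle_slit {α s : ℝ} (h : exp ((s : ℂ) * I) ≠ exp ((α : ℂ) * I)) :
    1 - exp ((s : ℂ) * I) * exp (-(α : ℂ) * I) ∈ slitPlane :=
  Or.inl (base_re (Complex.norm_exp_ofReal_mul_I s).le h)

/-- derivative of the SC map along the circle -/
theorem SCF_circle_deriv {α β γ s : ℝ} (h1 : exp ((α : ℂ) * I) ≠ exp ((β : ℂ) * I))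
    (h2 : exp ((α : ℂ) * I) ≠ exp ((γ : ℂ) * I)) (h3 : exp ((β : ℂ) * I) ≠ exp ((γ : ℂ) * I))
    (hα : exp ((s : ℂ) * I) ≠ exp ((α : ℂ) * I)) (hβ : exp ((s : ℂ) * I) ≠ exp ((β : ℂ) * I))
    (hγ : exp ((s : ℂ) * I) ≠ exp ((γ : ℂ) * I)) :
    HasDerivAt (fun x : ℝ => SCF α β γ (exp ((x : ℂ) * I)))
      (Wf α β γ (exp ((s : ℂ) * I)) * (exp ((s : ℂ) * I) * I)) s := by
  set e := exp ((s : ℂ) * I) with he
  have hen : ‖e‖ = 1 := Complex.norm_exp_ofReal_mul_I s
  -- the slit domain is open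
  have hop : ∀ δ : ℝ, IsOpen {z : ℂ | 1 - z * exp (-(δ : ℂ) * I) ∈ slitPlane} := fun δ =>
    Complex.isOpen_slitPlane.preimage (by fun_prop)
  have hmem : {z : ℂ | 1 - z * exp (-(α : ℂ) * I) ∈ slitPlane} ∩
      ({z : ℂ | 1 - z * exp (-(β : ℂ) * I) ∈ slitPlane} ∩
        {z : ℂ | 1 - z * exp (-(γ : ℂ) * I) ∈ slitPlane}) ∈ 𝓝 e :=
    ((hop α).inter ((hop β).inter (hop γ))).mem_nhds
      ⟨circle_slit hα, circle_slit hβ, circle_slit hγ⟩
  obtain ⟨ε, hε, hball⟩ := Metric.mem_nhds_iff.mp hmem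
  have hd : DifferentiableOn ℂ (Wf α β γ) (Metric.ball e ε) := fun x hx => by
    obtain ⟨a, b, c⟩ := hball hx
    exact (Wf_diffAt a b c).differentiableWithinAt
  obtain ⟨G, hG⟩ := hd.isExactOn_ball
  -- on the intersection with the unit ball, SCF - G is constant
  set V := Metric.ball e ε ∩ Metric.ball (0:ℂ) 1 with hV
  have hVo : IsOpen V := Metric.isOpen_ball.inter Metric.isOpen_ball
  have hVc : Convex ℝ V := (convex_ball _ _).inter (convex_ball _ _)
  have hder : ∀ x ∈ V, HasDerivAt (fun z => SCF α β γ z - G z) 0 x := by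
    intro x hx
    have e1 := SCF_hasDeriv (α := α) (β := β) (γ := γ) (z := x) (by simpa using hx.2)
    have e2 := hG x hx.1
    have e3 := e1.sub e2
    rw [sub_self] at e3
    exact e3
  have hconst : ∀ x ∈ V, ∀ y ∈ V, SCF α β γ x - G x = SCF α β γ y - G y := by
    intro x hx y hy
    exact hVo.is_const_of_deriv_eq_zero hVc.isPreconnected
      (fun z hz => (hder z hz).differentiableAt.differentiableWithinAt)
      (fun z hz => (hder z hz).deriv) hx hy
  -- pick base point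
  obtain ⟨r0, hr0, hr0V⟩ : ∃ r0 : ℝ, r0 < 1 ∧ ∀ r : ℝ, r0 < r → r < 1 → 0 < r := by
    exact ⟨0, by norm_num, fun r h _ => h⟩
  have hz0 : ∃ z0, z0 ∈ V := by
    have : e ∈ closure (Metric.ball (0:ℂ) 1) := by
      rw [closure_ball _ one_ne_zero]; simp [hen]
    rw [_root_.mem_closure_iff] at this
    obtain ⟨z, hz⟩ := this (Metric.ball e ε) Metric.isOpen_ball (Metric.mem_ball_self hε)
    exact ⟨z, hz⟩
  obtain ⟨z0, hz0⟩ := hz0
  set K := SCF α β γ z0 - G z0 with hK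
  -- closure statement
  have hcl : ∀ w : ℂ, ‖w‖ = 1 → w ∈ Metric.ball e ε → SCF α β γ w = G w + K := by
    intro w hw hwb
    have hcw : w ∈ closure V := by
      rw [_root_.mem_closure_iff]
      intro O hO hwO
      have : w ∈ closure (Metric.ball (0:ℂ) 1) := by
        rw [closure_ball _ one_ne_zero]; simp [hw]
      rw [_root_.mem_closure_iff] at this
      obtain ⟨z, hz1, hz2⟩ := this (O ∩ Metric.ball e ε) (hO.inter Metric.isOpen_ball) ⟨hwO, hwb⟩
      exact ⟨z, hz1.1, hz1.2, hz2⟩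
    have hcont : ContinuousWithinAt (fun z => SCF α β γ z - G z) V w := by
      have c1 : ContinuousWithinAt (SCF α β γ) V w :=
        ((SCF_cont h1 h2 h3) w (by simp [hw])).mono
          (inter_subset_right.trans Metric.ball_subset_closedBall)
      exact c1.sub (hG w hwb).continuousAt.continuousWithinAt
    have hne : (𝓝[V] w).NeBot := mem_closure_iff_nhdsWithin_neBot.mp hcw
    have hlim : Tendsto (fun z => SCF α β γ z - G z) (𝓝[V] w) (𝓝 K) := by
      apply tendsto_const_nhds.congr'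
      filter_upwards [self_mem_nhdsWithin] with z hz
      exact (hconst z hz z0 hz0).symm
    have := tendsto_nhds_unique hcont.tendsto hlim
    rw [← this]; ring
  -- derivative
  have hGe := hG e (Metric.mem_ball_self hε)
  have hexp : HasDerivAt (fun x : ℝ => exp ((x : ℂ) * I)) (e * I) s := by
    have h4 : HasDerivAt (fun x : ℂ => exp (x * I)) (e * I) (s : ℂ) := by
      have := ((hasDerivAt_id (s:ℂ)).mul_const I).cexp
      simpa [he] using this
    exact h4.comp_ofReal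
  have hcomp : HasDerivAt (fun x : ℝ => G (exp ((x : ℂ) * I)) + K)
      (Wf α β γ e * (e * I)) s := by
    have := (HasDerivAt.comp (h₂ := G) (h := fun x : ℝ => exp ((x : ℂ) * I)) s
      (by simpa [he] using hGe) hexp)
    exact this.add_const K
  have hev : (fun x : ℝ => SCF α β γ (exp ((x : ℂ) * I))) =ᶠ[𝓝 s]
      fun x : ℝ => G (exp ((x : ℂ) * I)) + K := by
    have hct : ContinuousAt (fun x : ℝ => exp ((x : ℂ) * I)) s := hexp.continuousAt
    have := hct.preimage_mem_nhds (Metric.isOpen_ball.mem_nhds (Metric.mem_ball_self hε))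
    filter_upwards [this] with x hx
    exact hcl _ (Complex.norm_exp_ofReal_mul_I x) hx
  exact hcomp.congr_of_eventuallyEq hev

/-- value of `wf` on the circle -/
theorem wf_circle {α s : ℝ} (h0 : 0 < s - α) (h1 : s - α < 2 * Real.pi) :
    wf α (exp ((s : ℂ) * I)) =
      (((2 * Real.sin ((s - α) / 2)) ^ (-2/3 : ℝ) : ℝ) : ℂ) *
        exp ((-((s - α - Real.pi) / 3) : ℝ) * I) := by
  set ψ := s - α with hψ
  have hs : 0 < Real.sin (ψ / 2) := Real.sin_pos_of_pos_of_lt_pi (by linarith) (by linarith)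
  have hbase : 1 - exp ((s : ℂ) * I) * exp (-(α : ℂ) * I) =
      ((2 * Real.sin (ψ / 2) : ℝ) : ℂ) * exp ((((ψ - Real.pi) / 2 : ℝ) : ℂ) * I) := by
    rw [← Complex.exp_add]
    have e1 : (s : ℂ) * I + -(α : ℂ) * I = ((ψ / 2 : ℝ) : ℂ) * I + ((ψ / 2 : ℝ) : ℂ) * I := by
      rw [hψ]; push_cast; ring
    have e2 : (((ψ - Real.pi) / 2 : ℝ) : ℂ) * I = ((ψ / 2 : ℝ) : ℂ) * I + (-(Real.pi / 2 : ℂ) * I) := by
      push_cast; ring
    rw [e1, e2, Complex.exp_add, Complex.exp_add]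
    have e3 : exp (-(Real.pi / 2 : ℂ) * I) = -I := by
      have : -(Real.pi / 2 : ℂ) * I = -(Real.pi / 2 * I) := by ring
      rw [this, Complex.exp_neg, Complex.exp_pi_div_two_mul_I]; simp
    rw [e3]
    have e4 : ((2 * Real.sin (ψ / 2) : ℝ) : ℂ) = 2 * Complex.sin ((ψ / 2 : ℝ) : ℂ) := by
      push_cast; ring
    rw [e4, Complex.sin]
    have e5 : exp (-((ψ / 2 : ℝ) : ℂ) * I) * exp (((ψ / 2 : ℝ) : ℂ) * I) = 1 := by
      rw [← Complex.exp_add]; simp
    have hI : I * I = -1 := Complex.I_mul_I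
    linear_combination (-(1:ℂ)) * e5 + (exp (-((ψ / 2 : ℝ) : ℂ) * I) * exp (((ψ / 2 : ℝ) : ℂ) * I) - exp (((ψ / 2 : ℝ) : ℂ) * I) * exp (((ψ / 2 : ℝ) : ℂ) * I)) * hI
  unfold wf
  rw [hbase]
  have hpos : 0 < 2 * Real.sin (ψ / 2) := by linarith
  have hlog : Complex.log (((2 * Real.sin (ψ / 2) : ℝ) : ℂ) * exp ((((ψ - Real.pi) / 2 : ℝ) : ℂ) * I)) =
      ((Real.log (2 * Real.sin (ψ / 2)) : ℝ) : ℂ) + (((ψ - Real.pi) / 2 : ℝ) : ℂ) * I := by
    rw [Complex.log_ofReal_mul hpos (Complex.exp_ne_zero _), Complex.log_exp]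
    · simp; linarith [Real.pi_pos]
    · simp; linarith [Real.pi_pos]
  rw [Complex.cpow_def_of_ne_zero (mul_ne_zero (by exact_mod_cast hpos.ne') (Complex.exp_ne_zero _)),
    hlog, Real.rpow_def_of_pos hpos, Complex.ofReal_exp, ← Complex.exp_add]
  congr 1
  push_cast
  ring

end Crest.Agent.R158.Cd83
end

-- ▼ part R158/Cd4_83

/-!
R158, block C (Cardy front), part 4: the three sides of the triangle, and the side ratio is
`cardyRatio` of the cross ratio.
-/

set_option autoImplicit false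

namespace Crest.Agent.R158.Cd83

open Complex Set Filter Topology MeasureTheory
open Crest.ProbabilityR.Percolation

/-- the positive density on the circle -/
noncomputable def Rd (α β γ s : ℝ) : ℝ :=
  (8 * |Real.sin ((s - α) / 2) * Real.sin ((s - β) / 2) * Real.sin ((s - γ) / 2)|) ^ (-2/3 : ℝ)

/-- the first direction -/
noncomputable def Dd (α β γ : ℝ) : ℂ := I * exp ((((α + β + γ - Real.pi) / 3 : ℝ) : ℂ) * I)

noncomputable def om : ℂ := exp (((2 * Real.pi / 3 : ℝ) : ℂ) * I)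

theorem om_eq : om = ⟨-1/2, Real.sqrt 3 / 2⟩ := by
  unfold om
  have h : (2 * Real.pi / 3) = Real.pi - Real.pi / 3 := by ring
  apply Complex.ext
  · rw [Complex.exp_ofReal_mul_I_re, h, Real.cos_pi_sub, Real.cos_pi_div_three]; norm_num
  · rw [Complex.exp_ofReal_mul_I_im, h, Real.sin_pi_sub, Real.sin_pi_div_three]

theorem om_cube : om ^ 3 = 1 := by
  unfold om
  rw [← Complex.exp_nat_mul]
  have : ((3 : ℕ) : ℂ) * (((2 * Real.pi / 3 : ℝ) : ℂ) * I) = 2 * Real.pi * I := by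
    push_cast; ring
  rw [this, Complex.exp_two_pi_mul_I]

theorem wf_shift (α s : ℝ) : wf α (exp (((s + 2 * Real.pi : ℝ) : ℂ) * I)) = wf α (exp ((s : ℂ) * I)) := by
  have : (((s + 2 * Real.pi : ℝ) : ℂ) * I) = (s : ℂ) * I + 2 * Real.pi * I := by
    push_cast; ring
  rw [this, Complex.exp_add, Complex.exp_two_pi_mul_I, mul_one]

theorem wf_circle' {α s : ℝ} (h0 : s - α < 0) (h1 : -(2 * Real.pi) < s - α) :
    wf α (exp ((s : ℂ) * I)) =
      (((2 * |Real.sin ((s - α) / 2)|) ^ (-2/3 : ℝ) : ℝ) : ℂ) *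
        exp ((-((s - α + Real.pi) / 3) : ℝ) * I) := by
  rw [← wf_shift]
  rw [wf_circle (by linarith) (by linarith)]
  have e1 : (s + 2 * Real.pi - α) / 2 = (s - α) / 2 + Real.pi := by ring
  have e2 : s + 2 * Real.pi - α - Real.pi = s - α + Real.pi := by ring
  have hneg : Real.sin ((s - α) / 2) < 0 :=
    Real.sin_neg_of_neg_of_neg_pi_lt (by linarith) (by linarith)
  rw [e1, e2, Real.sin_add_pi, abs_of_neg hneg]

theorem wf_circle'' {α s : ℝ} (h0 : 0 < s - α) (h1 : s - α < 2 * Real.pi) :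
    wf α (exp ((s : ℂ) * I)) =
      (((2 * |Real.sin ((s - α) / 2)|) ^ (-2/3 : ℝ) : ℝ) : ℂ) *
        exp ((-((s - α - Real.pi) / 3) : ℝ) * I) := by
  rw [wf_circle h0 h1]
  have hs : 0 < Real.sin ((s - α) / 2) := Real.sin_pos_of_pos_of_lt_pi (by linarith) (by linarith)
  rw [abs_of_pos hs]

theorem Rd_prod (α β γ s : ℝ) :
    Rd α β γ s = (2 * |Real.sin ((s - α) / 2)|) ^ (-2/3 : ℝ) *
      (2 * |Real.sin ((s - β) / 2)|) ^ (-2/3 : ℝ) * (2 * |Real.sin ((s - γ) / 2)|) ^ (-2/3 : ℝ) := by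
  unfold Rd
  rw [← Real.mul_rpow (by positivity) (by positivity), ← Real.mul_rpow (by positivity) (by positivity)]
  congr 1
  rw [abs_mul, abs_mul]; ring

theorem Wf_arc {α β γ s u v w : ℝ}
    (h1 : wf α (exp ((s : ℂ) * I)) =
      (((2 * |Real.sin ((s - α) / 2)|) ^ (-2/3 : ℝ) : ℝ) : ℂ) * exp ((u : ℂ) * I))
    (h2 : wf β (exp ((s : ℂ) * I)) =
      (((2 * |Real.sin ((s - β) / 2)|) ^ (-2/3 : ℝ) : ℝ) : ℂ) * exp ((v : ℂ) * I))
    (h3 : wf γ (exp ((s : ℂ) * I)) =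
      (((2 * |Real.sin ((s - γ) / 2)|) ^ (-2/3 : ℝ) : ℝ) : ℂ) * exp ((w : ℂ) * I)) :
    Wf α β γ (exp ((s : ℂ) * I)) * (exp ((s : ℂ) * I) * I) =
      (Rd α β γ s : ℂ) * (I * exp (((u + v + w + s : ℝ) : ℂ) * I)) := by
  unfold Wf
  rw [h1, h2, h3, Rd_prod]
  have : exp (((u + v + w + s : ℝ) : ℂ) * I) =
      exp ((u : ℂ) * I) * exp ((v : ℂ) * I) * exp ((w : ℂ) * I) * exp ((s : ℂ) * I) := by
    rw [← Complex.exp_add, ← Complex.exp_add, ← Complex.exp_add]
    congr 1; push_cast; ring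
  rw [this]
  push_cast
  ring

theorem Wf_arc1 {α β γ s : ℝ} (hβγ : β < γ) (hγ : γ < α + 2 * Real.pi)
    (h1 : α < s) (h2 : s < β) :
    Wf α β γ (exp ((s : ℂ) * I)) * (exp ((s : ℂ) * I) * I) = (Rd α β γ s : ℂ) * Dd α β γ := by
  rw [Wf_arc (wf_circle'' (by linarith) (by linarith)) (wf_circle' (by linarith) (by linarith))
    (wf_circle' (by linarith) (by linarith))]
  unfold Dd
  congr 4
  ring_nf

theorem Wf_arc2 {α β γ s : ℝ} (hαβ : α < β) (hγ : γ < α + 2 * Real.pi)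
    (h1 : β < s) (h2 : s < γ) :
    Wf α β γ (exp ((s : ℂ) * I)) * (exp ((s : ℂ) * I) * I) =
      (Rd α β γ s : ℂ) * (om * Dd α β γ) := by
  rw [Wf_arc (wf_circle'' (by linarith) (by linarith)) (wf_circle'' (by linarith) (by linarith))
    (wf_circle' (by linarith) (by linarith))]
  unfold Dd om
  have : ∀ x y : ℂ, exp x * (I * exp y) = I * exp (x + y) := by
    intro x y; rw [Complex.exp_add]; ring
  rw [this]
  congr 3
  push_cast
  ring

theorem Wf_arc3 {α β γ s : ℝ} (hαβ : α < β) (hβγ : β < γ)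
    (h1 : γ < s) (h2 : s < α + 2 * Real.pi) :
    Wf α β γ (exp ((s : ℂ) * I)) * (exp ((s : ℂ) * I) * I) =
      (Rd α β γ s : ℂ) * (om ^ 2 * Dd α β γ) := by
  rw [Wf_arc (wf_circle'' (by linarith) (by linarith)) (wf_circle'' (by linarith) (by linarith))
    (wf_circle'' (by linarith) (by linarith))]
  unfold Dd om
  rw [← Complex.exp_nat_mul]
  have : ∀ x y : ℂ, exp x * (I * exp y) = I * exp (x + y) := by
    intro x y; rw [Complex.exp_add]; ring
  rw [this]
  congr 3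
  push_cast
  ring

/-- real primitive along an arc -/
theorem arc_real {f : ℝ → ℂ} {R : ℝ → ℝ} {a b : ℝ} (hab : a < b)
    (hc : ContinuousOn f (Icc a b)) (hd : ∀ s ∈ Ioo a b, HasDerivAt f ((R s : ℝ) : ℂ) s)
    (hR : ∀ s ∈ Ioo a b, 0 < R s) :
    (∀ s ∈ Icc a b, f s = f a + (((f s).re - (f a).re : ℝ) : ℂ)) ∧ (f a).re < (f b).re := by
  constructor
  · intro s hs
    have him : (f s).im = (f a).im := by
      rcases eq_or_lt_of_le hs.1 with h | h
      · rw [h]
      · have hcim : ContinuousOn (fun t => (f t).im) (Icc a s) :=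
          Complex.continuous_im.comp_continuousOn (hc.mono (Icc_subset_Icc_right hs.2))
        obtain ⟨c, hc1, hc2⟩ := exists_hasDerivAt_eq_slope (fun t => (f t).im) (fun _ => 0) h hcim
          (fun x hx => by
            have h1 := hd x ⟨hx.1, hx.2.trans_le hs.2⟩
            have h2 := Complex.imCLM.hasFDerivAt.comp_hasDerivAt x h1
            have h3 : Complex.imCLM ((R x : ℝ) : ℂ) = 0 := by simp
            rw [h3] at h2
            exact h2)
        have hne : s - a ≠ 0 := by linarith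
        rw [eq_div_iff hne] at hc2
        simp only [zero_mul] at hc2
        linarith
    apply Complex.ext
    · simp
    · simp [him]
  · have hcre : ContinuousOn (fun t => (f t).re) (Icc a b) :=
      Complex.continuous_re.comp_continuousOn hc
    obtain ⟨c, hc1, hc2⟩ := exists_hasDerivAt_eq_slope (fun t => (f t).re) R hab hcre
      (fun x hx => by
        have h1 := hd x hx
        have h2 := Complex.reCLM.hasFDerivAt.comp_hasDerivAt x h1
        have h3 : Complex.reCLM ((R x : ℝ) : ℂ) = R x := by simp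
        rw [h3] at h2
        exact h2)
    have hpos := hR c hc1
    rw [hc2] at hpos
    have : 0 < b - a := by linarith
    have := (div_pos_iff_of_pos_right this).mp hpos
    linarith

theorem exp_ne_of {x y : ℝ} (h1 : x < y) (h2 : y < x + 2 * Real.pi) :
    exp ((x : ℂ) * I) ≠ exp ((y : ℂ) * I) := by
  intro h
  rw [Complex.exp_eq_exp_iff_exists_int] at h
  obtain ⟨n, hn⟩ := h
  have hn' : (x : ℂ) * I = ((y + n * (2 * Real.pi) : ℝ) : ℂ) * I := by
    rw [hn]; push_cast; ring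
  have h3 : (x : ℂ) = ((y + n * (2 * Real.pi) : ℝ) : ℂ) := mul_right_cancel₀ Complex.I_ne_zero hn'
  have h4 : x = y + n * (2 * Real.pi) := by exact_mod_cast h3
  have hpi := Real.pi_pos
  have h5 : (n : ℝ) < 0 := by
    by_contra hcon
    push Not at hcon
    nlinarith
  have h6 : (-1 : ℝ) < n := by
    by_contra hcon
    push Not at hcon
    nlinarith
  have h7 : n < 0 := by exact_mod_cast h5
  have h8 : -1 < n := by exact_mod_cast h6
  omega

theorem Rd_pos {α β γ s : ℝ} (h1 : Real.sin ((s - α) / 2) ≠ 0) (h2 : Real.sin ((s - β) / 2) ≠ 0)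
    (h3 : Real.sin ((s - γ) / 2) ≠ 0) : 0 < Rd α β γ s := by
  unfold Rd
  have : 0 < |Real.sin ((s - α) / 2) * Real.sin ((s - β) / 2) * Real.sin ((s - γ) / 2)| :=
    abs_pos.mpr (mul_ne_zero (mul_ne_zero h1 h2) h3)
  positivity

theorem sin_half_ne {x y : ℝ} (h1 : x < y) (h2 : y < x + 2 * Real.pi) :
    Real.sin ((x - y) / 2) ≠ 0 ∧ Real.sin ((y - x) / 2) ≠ 0 := by
  constructor
  · exact (Real.sin_neg_of_neg_of_neg_pi_lt (by linarith) (by linarith)).ne
  · exact (Real.sin_pos_of_pos_of_lt_pi (by linarith) (by linarith)).ne'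

/-- configuration of three marks on the circle -/
structure Marks (α β γ : ℝ) : Prop where
  h12 : α < β
  h23 : β < γ
  h31 : γ < α + 2 * Real.pi

theorem Marks.ne12 {α β γ : ℝ} (h : Marks α β γ) : exp ((α : ℂ) * I) ≠ exp ((β : ℂ) * I) :=
  exp_ne_of h.h12 (by linarith [h.h23, h.h31])

theorem Marks.ne13 {α β γ : ℝ} (h : Marks α β γ) : exp ((α : ℂ) * I) ≠ exp ((γ : ℂ) * I) :=
  exp_ne_of (h.h12.trans h.h23) h.h31

theorem Marks.ne23 {α β γ : ℝ} (h : Marks α β γ) : exp ((β : ℂ) * I) ≠ exp ((γ : ℂ) * I) :=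
  exp_ne_of h.h23 (by linarith [h.h12, h.h31])

theorem SCF_circle_cont {α β γ : ℝ} (h : Marks α β γ) :
    Continuous (fun s : ℝ => SCF α β γ (exp ((s : ℂ) * I))) := by
  have h1 : Continuous (fun s : ℝ => exp ((s : ℂ) * I)) := by fun_prop
  exact (SCF_cont h.ne12 h.ne13 h.ne23).comp_continuous h1
    (fun s => by simp [Complex.norm_exp_ofReal_mul_I])

theorem Dd_ne (α β γ : ℝ) : Dd α β γ ≠ 0 :=
  mul_ne_zero Complex.I_ne_zero (Complex.exp_ne_zero _)

theorem om_ne : om ≠ 0 := Complex.exp_ne_zero _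

theorem shift_exp (s : ℝ) : exp (((s + 2 * Real.pi : ℝ) : ℂ) * I) = exp ((s : ℂ) * I) := by
  have : (((s + 2 * Real.pi : ℝ) : ℂ) * I) = (s : ℂ) * I + 2 * Real.pi * I := by
    push_cast; ring
  rw [this, Complex.exp_add, Complex.exp_two_pi_mul_I, mul_one]

/-- along each arc `SCF` moves in a fixed direction. -/
theorem arc_side {α β γ a b : ℝ} (h : Marks α β γ) (hab : a < b) {D : ℂ} (hD : D ≠ 0)
    (hdir : ∀ s ∈ Ioo a b, Wf α β γ (exp ((s : ℂ) * I)) * (exp ((s : ℂ) * I) * I) =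
      (Rd α β γ s : ℂ) * D)
    (hne : ∀ s ∈ Ioo a b, exp ((s : ℂ) * I) ≠ exp ((α : ℂ) * I) ∧
      exp ((s : ℂ) * I) ≠ exp ((β : ℂ) * I) ∧ exp ((s : ℂ) * I) ≠ exp ((γ : ℂ) * I))
    (hpos : ∀ s ∈ Ioo a b, 0 < Rd α β γ s) :
    ∃ x : ℝ → ℝ, ContinuousOn x (Icc a b) ∧ x a = 0 ∧ 0 < x b ∧
      (∀ s ∈ Icc a b, SCF α β γ (exp ((s : ℂ) * I)) = SCF α β γ (exp ((a : ℂ) * I)) + (x s : ℂ) * D) ∧
      (∀ s ∈ Ioo a b, HasDerivAt x (Rd α β γ s) s) := by
  set f : ℝ → ℂ := fun s => SCF α β γ (exp ((s : ℂ) * I)) / D with hf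
  have hfc : ContinuousOn f (Icc a b) := ((SCF_circle_cont h).div_const D).continuousOn
  have hfd : ∀ s ∈ Ioo a b, HasDerivAt f ((Rd α β γ s : ℝ) : ℂ) s := by
    intro s hs
    obtain ⟨n1, n2, n3⟩ := hne s hs
    have h1 := SCF_circle_deriv h.ne12 h.ne13 h.ne23 n1 n2 n3
    rw [hdir s hs] at h1
    have h2 := h1.div_const D
    rwa [mul_div_cancel_right₀ _ hD] at h2
  obtain ⟨h1, h2⟩ := arc_real hab hfc hfd hpos
  refine ⟨fun s => (f s).re - (f a).re, ?_, by simp, by simpa using h2, ?_, ?_⟩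
  · exact (Complex.continuous_re.comp_continuousOn hfc).sub continuousOn_const
  · intro s hs
    have h3 := h1 s hs
    have h4 : f s * D = f a * D + (((f s).re - (f a).re : ℝ) : ℂ) * D := by
      rw [← add_mul, ← h3]
    simp only [hf] at h4 ⊢
    rw [div_mul_cancel₀ _ hD, div_mul_cancel₀ _ hD] at h4
    exact h4
  · intro s hs
    have h3 := Complex.reCLM.hasFDerivAt.comp_hasDerivAt s (hfd s hs)
    have h4 : Complex.reCLM ((Rd α β γ s : ℝ) : ℂ) = Rd α β γ s := by simp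
    rw [h4] at h3
    exact h3.sub_const _

theorem side1 {α β γ : ℝ} (h : Marks α β γ) :
    ∃ x : ℝ → ℝ, ContinuousOn x (Icc α β) ∧ x α = 0 ∧ 0 < x β ∧
      (∀ s ∈ Icc α β, SCF α β γ (exp ((s : ℂ) * I)) =
        SCF α β γ (exp ((α : ℂ) * I)) + (x s : ℂ) * Dd α β γ) ∧
      (∀ s ∈ Ioo α β, HasDerivAt x (Rd α β γ s) s) := by
  obtain ⟨g1, g2, g3⟩ := h
  have h : Marks α β γ := ⟨g1, g2, g3⟩
  refine arc_side h h.h12 (Dd_ne _ _ _) ?_ ?_ ?_
  · intro s hs
    exact Wf_arc1 g2 g3 hs.1 hs.2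
  · intro s hs
    obtain ⟨hs1, hs2⟩ := hs
    exact ⟨(exp_ne_of hs1 (by linarith)).symm, exp_ne_of hs2 (by linarith),
      exp_ne_of (by linarith) (by linarith)⟩
  · intro s hs
    obtain ⟨hs1, hs2⟩ := hs
    exact Rd_pos (sin_half_ne (x := α) (y := s) (by linarith) (by linarith)).2
      (sin_half_ne (x := s) (y := β) (by linarith) (by linarith)).1
      (sin_half_ne (x := s) (y := γ) (by linarith) (by linarith)).1

theorem side2 {α β γ : ℝ} (h : Marks α β γ) :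
    ∃ x : ℝ → ℝ, ContinuousOn x (Icc β γ) ∧ x β = 0 ∧ 0 < x γ ∧
      (∀ s ∈ Icc β γ, SCF α β γ (exp ((s : ℂ) * I)) =
        SCF α β γ (exp ((β : ℂ) * I)) + (x s : ℂ) * (om * Dd α β γ)) ∧
      (∀ s ∈ Ioo β γ, HasDerivAt x (Rd α β γ s) s) := by
  obtain ⟨g1, g2, g3⟩ := h
  have h : Marks α β γ := ⟨g1, g2, g3⟩
  refine arc_side h h.h23 (mul_ne_zero om_ne (Dd_ne _ _ _)) ?_ ?_ ?_
  · intro s hs
    exact Wf_arc2 g1 g3 hs.1 hs.2
  · intro s hs
    obtain ⟨hs1, hs2⟩ := hs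
    exact ⟨(exp_ne_of (by linarith) (by linarith)).symm, (exp_ne_of (by linarith) (by linarith)).symm,
      exp_ne_of (by linarith) (by linarith)⟩
  · intro s hs
    obtain ⟨hs1, hs2⟩ := hs
    exact Rd_pos (sin_half_ne (x := α) (y := s) (by linarith) (by linarith)).2
      (sin_half_ne (x := β) (y := s) (by linarith) (by linarith)).2
      (sin_half_ne (x := s) (y := γ) (by linarith) (by linarith)).1

theorem side3 {α β γ : ℝ} (h : Marks α β γ) :
    ∃ x : ℝ → ℝ, ContinuousOn x (Icc γ (α + 2 * Real.pi)) ∧ x γ = 0 ∧ 0 < x (α + 2 * Real.pi) ∧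
      (∀ s ∈ Icc γ (α + 2 * Real.pi), SCF α β γ (exp ((s : ℂ) * I)) =
        SCF α β γ (exp ((γ : ℂ) * I)) + (x s : ℂ) * (om ^ 2 * Dd α β γ)) ∧
      (∀ s ∈ Ioo γ (α + 2 * Real.pi), HasDerivAt x (Rd α β γ s) s) := by
  obtain ⟨g1, g2, g3⟩ := h
  have h : Marks α β γ := ⟨g1, g2, g3⟩
  refine arc_side h h.h31 (mul_ne_zero (pow_ne_zero 2 om_ne) (Dd_ne _ _ _)) ?_ ?_ ?_
  · intro s hs
    exact Wf_arc3 g1 g2 hs.1 hs.2
  · intro s hs
    obtain ⟨hs1, hs2⟩ := hs
    exact ⟨(exp_ne_of (by linarith) (by linarith)).symm, (exp_ne_of (by linarith) (by linarith)).symm,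
      (exp_ne_of (by linarith) (by linarith)).symm⟩
  · intro s hs
    obtain ⟨hs1, hs2⟩ := hs
    exact Rd_pos (sin_half_ne (x := α) (y := s) (by linarith) (by linarith)).2
      (sin_half_ne (x := β) (y := s) (by linarith) (by linarith)).2
      (sin_half_ne (x := γ) (y := s) (by linarith) (by linarith)).2

/-- the normalised triangle map on the closed disc: marks go to `1, om, om^2`. -/
noncomputable def tri (α β γ : ℝ) (z : ℂ) : ℂ :=
  1 + (om - 1) * ((SCF α β γ z - SCF α β γ (exp ((α : ℂ) * I))) /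
    (SCF α β γ (exp ((β : ℂ) * I)) - SCF α β γ (exp ((α : ℂ) * I))))

theorem om_sum : 1 + om + om ^ 2 = 0 := by
  have h3 : (Real.sqrt 3 : ℝ) ^ 2 = 3 := Real.sq_sqrt (by norm_num)
  rw [om_eq]
  apply Complex.ext
  · simp [pow_two]; nlinarith
  · simp [pow_two]; ring

theorem om_sub_ne : om - 1 ≠ 0 := by
  rw [om_eq]
  intro h
  have := congrArg Complex.re h
  simp at this
  norm_num at this

theorem real_comb {l1 l2 l3 : ℝ} (h : (l1 : ℂ) + l2 * om + l3 * om ^ 2 = 0) : l1 = l2 ∧ l2 = l3 := by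
  have h3 : (Real.sqrt 3 : ℝ) ^ 2 = 3 := Real.sq_sqrt (by norm_num)
  have h3' : 0 < Real.sqrt 3 := Real.sqrt_pos.mpr (by norm_num)
  rw [om_eq] at h
  have hre := congrArg Complex.re h
  have him := congrArg Complex.im h
  simp [pow_two] at hre him
  have e1 : l2 = l3 := by
    have : (l2 - l3) * Real.sqrt 3 = 0 := by nlinarith
    rcases mul_eq_zero.mp this with h | h
    · linarith
    · exact absurd h h3'.ne'
  subst e1
  have e2 : Real.sqrt 3 / 2 * (Real.sqrt 3 / 2) = 3 / 4 := by nlinarith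
  rw [e2] at hre
  constructor
  · linarith
  · rfl

/-- Everything about the triangle map on the boundary. -/
theorem tri_sides {α β γ : ℝ} (h : Marks α β γ) :
    ∃ (x y z : ℝ → ℝ) (l : ℝ), 0 < l ∧
      (SCF α β γ (exp ((β : ℂ) * I)) - SCF α β γ (exp ((α : ℂ) * I)) = (l : ℂ) * Dd α β γ) ∧
      ContinuousOn x (Icc α β) ∧ x α = 0 ∧ x β = l ∧
      (∀ s ∈ Ioo α β, HasDerivAt x (Rd α β γ s) s) ∧
      (∀ s ∈ Icc α β, tri α β γ (exp ((s : ℂ) * I)) = 1 + (om - 1) * ((x s / l : ℝ) : ℂ)) ∧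
      (∀ s ∈ Icc β γ, tri α β γ (exp ((s : ℂ) * I)) = om + (om ^ 2 - om) * ((y s : ℝ) : ℂ)) ∧
      (∀ s ∈ Icc γ (α + 2 * Real.pi),
        tri α β γ (exp ((s : ℂ) * I)) = om ^ 2 + (1 - om ^ 2) * ((z s : ℝ) : ℂ)) ∧
      tri α β γ (exp ((α : ℂ) * I)) = 1 := by
  obtain ⟨x, hxc, hx0, hx1, hx, hxd⟩ := side1 h
  obtain ⟨y, hyc, hy0, hy1, hy, hyd⟩ := side2 h
  obtain ⟨z, hzc, hz0, hz1, hz, hzd⟩ := side3 h
  set A := SCF α β γ (exp ((α : ℂ) * I)) with hA
  set B := SCF α β γ (exp ((β : ℂ) * I)) with hB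
  set C := SCF α β γ (exp ((γ : ℂ) * I)) with hC
  set D := Dd α β γ with hD
  have hDne : D ≠ 0 := Dd_ne _ _ _
  have eB : B = A + (x β : ℂ) * D := hx β ⟨h.h12.le, le_rfl⟩
  have eC : C = B + (y γ : ℂ) * (om * D) := hy γ ⟨h.h23.le, le_rfl⟩
  have eA : A = C + (z (α + 2 * Real.pi) : ℂ) * (om ^ 2 * D) := by
    have := hz (α + 2 * Real.pi) ⟨h.h31.le, le_rfl⟩
    rwa [shift_exp] at this
  have hsum : ((x β : ℂ)) + (y γ) * om + (z (α + 2 * Real.pi)) * om ^ 2 = 0 := by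
    have : (((x β : ℂ)) + (y γ) * om + (z (α + 2 * Real.pi)) * om ^ 2) * D = 0 := by
      linear_combination (-1 : ℂ) * eB - eC - eA
    exact (mul_eq_zero.mp this).resolve_right hDne
  obtain ⟨l1, l2⟩ := real_comb hsum
  have hl : (x β : ℂ) ≠ 0 := by exact_mod_cast hx1.ne'
  have hBA : B - A = (x β : ℂ) * D := by rw [eB]; ring
  have hom3 := om_cube
  refine ⟨x, fun s => y s / x β, fun s => z s / x β, x β, hx1, hBA, hxc, hx0, rfl, hxd, ?_, ?_, ?_, ?_⟩
  · intro s hs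
    unfold tri
    rw [← hA, ← hB, hBA, hx s hs]
    push_cast
    field_simp
    ring
  · intro s hs
    unfold tri
    rw [← hA, ← hB, hBA, hy s hs, eB]
    push_cast
    field_simp
    ring
  · intro s hs
    unfold tri
    rw [← hA, ← hB, hBA, hz s hs, eC, eB, ← l1]
    push_cast
    field_simp
    linear_combination (D * z s : ℂ) * hom3
  · unfold tri
    rw [← hA]; simp

end Crest.Agent.R158.Cd83
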