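import Crest.Agent.R158.Kd4_458

-- ▼ part R158/Ce1_679
section

/-!
# Row 158 (helper679), SEP / CORE2: rerouting a closed contour off a box

`recontour` : let `F` be a two-colouring of the faces whose contour (edges between the two colours) consists
of edges of `S` which are open or belong to the box `NB x s`.  If only one open cluster of `S` crosses the
annulus `An x s c`, then there is a colouring `k`, equal to `F` outside the hull of the box of radius `c`
around `x`, whose contour consists of open edges of `S` at distance `≥ s` from `x`.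
-/

set_option autoImplicit false

noncomputable section

namespace Crest.Agent.R158.Ce679

open Crest.Agent.R161.Geo729 Crest.Agent.R161.Topo374 Crest.Agent.R161.Dual374
open Crest.Agent.R161.Tas682
open Crest.Agent.R158.Rs689
open Crest.Agent.R158.Ru874 hiding An
open Crest.Agent.R158.Cpl963 (An mem_An)
open Crest.Agent.R158.Sq200 Crest.Agent.R158.Kd458

/-! ### chains -/

/-- the four edges at a vertex -/
theorem star_congr {N N' : Edge → ZMod 2} {v : P2}
    (h : ∀ e, (v = src e ∨ v = tgt e) → N e = N' e) : Kd458.star N v = Kd458.star N' v := by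
  unfold Kd458.star
  rw [h ((v.1, v.2), false) (Or.inl rfl), h ((v.1 - 1, v.2), false) (Or.inr (by simp [tgt_h])),
    h ((v.1, v.2), true) (Or.inl rfl), h ((v.1, v.2 - 1), true) (Or.inr (by simp [tgt_v]))]

theorem star_zero (v : P2) : Kd458.star (fun _ => 0) v = 0 := by
  simp [Kd458.star]

theorem star_jmp (F : P2 → ZMod 2) (v : P2) :
    Kd458.star (fun e => F (fA e) + F (fB e)) v = 0 := by
  unfold Kd458.star
  simp only [fA_mk, fB_h, fB_v]
  have z1 := zmod2_add_self (F (v.1, v.2))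
  have z2 := zmod2_add_self (F (v.1, v.2 - 1))
  have z3 := zmod2_add_self (F (v.1 - 1, v.2))
  have z4 := zmod2_add_self (F (v.1 - 1, v.2 - 1))
  linear_combination z1 + z2 + z3 + z4

theorem star_sum {ι : Type*} (T : Finset ι) (P : ι → Edge → ZMod 2) (v : P2) :
    Kd458.star (fun e => ∑ w ∈ T, P w e) v = ∑ w ∈ T, Kd458.star (P w) v := by
  unfold Kd458.star
  simp only [Finset.sum_add_distrib]

/-- a finite chain has an even number of end points -/
theorem finsum_star {N : Edge → ZMod 2} {S : Set P2} (hS : S.Finite)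
    (hN : ∀ e, N e ≠ 0 → InE S e) : ∑ᶠ v, Kd458.star N v = 0 := by
  have ha : (Function.support fun v : P2 => N (v, false)).Finite :=
    hS.subset fun v hv => (hN _ hv).1
  have hb : (Function.support fun v : P2 => N (v, true)).Finite :=
    hS.subset fun v hv => (hN _ hv).1
  have ha' : (Function.support fun v : P2 => N ((v.1 - 1, v.2), false)).Finite :=
    hS.subset fun v hv => by
      have h := (hN _ hv).2
      simpa [tgt_h] using h
  have hb' : (Function.support fun v : P2 => N ((v.1, v.2 - 1), true)).Finite :=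
    hS.subset fun v hv => by
      have h := (hN _ hv).2
      simpa [tgt_v] using h
  have e1 : ∑ᶠ v : P2, N ((v.1 - 1, v.2), false) = ∑ᶠ v : P2, N (v, false) := by
    have := finsum_comp_equiv (f := fun v : P2 => N (v, false)) (Equiv.subRight ((1, 0) : P2))
    rw [← this]
    apply finsum_congr
    intro v
    simp [Equiv.subRight_apply, Prod.sub_def]
  have e2 : ∑ᶠ v : P2, N ((v.1, v.2 - 1), true) = ∑ᶠ v : P2, N (v, true) := by
    have := finsum_comp_equiv (f := fun v : P2 => N (v, true)) (Equiv.subRight ((0, 1) : P2))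
    rw [← this]
    apply finsum_congr
    intro v
    simp [Equiv.subRight_apply, Prod.sub_def]
  have h1 : ∀ v, Kd458.star N v =
      (N (v, false) + N ((v.1 - 1, v.2), false)) + (N (v, true) + N ((v.1, v.2 - 1), true)) := by
    intro v
    unfold Kd458.star
    ring
  rw [finsum_congr h1, finsum_add_distrib ((ha.union ha').subset (Function.support_add _ _))
    ((hb.union hb').subset (Function.support_add _ _)), finsum_add_distrib ha ha',
    finsum_add_distrib hb hb', e1, e2, zmod2_add_self, zmod2_add_self, add_zero]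

theorem ne_zero_one {a : ZMod 2} (h : a ≠ 0) : a = 1 := (zmod2_cases a).resolve_left h

/-! ### boxes -/

theorem sd_edge (x : P2) (e : Edge) :
    sd x (tgt e) ≤ sd x (src e) + 1 ∧ sd x (src e) ≤ sd x (tgt e) + 1 :=
  ⟨sd_nbr x _ _ (Cpl963.nbr_src_tgt e), sd_nbr x _ _ (Cpl963.nbr_src_tgt e).symm⟩

theorem nb_of_lt {x v : P2} {s : ℤ} {e : Edge} (h : v = src e ∨ v = tgt e) (hv : sd x v < s) :
    NB x s e := by
  have := sd_edge x e
  rcases h with rfl | rfl <;> exact ⟨by omega, by omega⟩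

theorem not_nb_of_lt {x v : P2} {s : ℤ} {e : Edge} (h : v = src e ∨ v = tgt e) (hv : s < sd x v) :
    ¬ NB x s e := by
  rintro ⟨h1, h2⟩
  rcases h with rfl | rfl <;> omega

theorem not_nb {x : P2} {s : ℤ} {e : Edge} (h : ¬ NB x s e) : s ≤ sd x (src e) ∧ s ≤ sd x (tgt e) := by
  have := sd_edge x e
  unfold NB at h
  omega

/-- hull (faces) of the box of radius `c` around `x` -/
def Hl (x : P2) (c : ℤ) : Set P2 := Rect (x.1 - c) (x.1 + c - 1) (x.2 - c) (x.2 + c - 1)

theorem mem_Hl {x f : P2} {c : ℤ} : f ∈ Hl x c ↔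
    x.1 - c ≤ f.1 ∧ f.1 ≤ x.1 + c - 1 ∧ x.2 - c ≤ f.2 ∧ f.2 ≤ x.2 + c - 1 := Iff.rfl

theorem not_mem_Hl {x f : P2} {c : ℤ} (h : c < sd x f) : f ∉ Hl x c := by
  intro h1
  rw [mem_Hl] at h1
  have : sd x f ≤ c := sd_le.2 ⟨by omega, by omega, by omega, by omega⟩
  omega


/-- one face of an edge of the box is in the hull -/
theorem nb_face {x : P2} {s : ℤ} {e : Edge} (h : NB x s e) : fA e ∈ Hl x s ∨ fB e ∈ Hl x s := by
  obtain ⟨⟨i, j⟩, b⟩ := e
  unfold NB at h
  rw [sd_le, sd_le] at h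
  rw [mem_Hl, mem_Hl]
  cases b
  · simp only [src_mk, tgt_h, fA_mk, fB_h] at *
    omega
  · simp only [src_mk, tgt_v, fA_mk, fB_v] at *
    omega

/-- the edges of a face of the hull are in the box -/
theorem hl_nb {x : P2} {s : ℤ} {e : Edge} (h : fA e ∈ Hl x s ∨ fB e ∈ Hl x s) : NB x s e := by
  obtain ⟨⟨i, j⟩, b⟩ := e
  unfold NB
  rw [sd_le, sd_le]
  rw [mem_Hl, mem_Hl] at h
  cases b
  · simp only [src_mk, tgt_h, fA_mk, fB_h] at *
    omega
  · simp only [src_mk, tgt_v, fA_mk, fB_v] at *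
    omega

/-- a face function without jumps across the edges meeting the open box is constant on the hull -/
theorem hull_const {k : P2 → ZMod 2} {x : P2} {s : ℤ}
    (h : ∀ e, (sd x (src e) < s ∨ sd x (tgt e) < s) → k (fA e) + k (fB e) = 0) {f g : P2}
    (hf : f ∈ Hl x s) (hg : g ∈ Hl x s) : k f = k g := by
  have hrow : ∀ n : ℕ, ∀ i j, (i, j) ∈ Hl x s → (i + n, j) ∈ Hl x s → k (i, j) = k (i + n, j) := by
    intro n
    induction n with
    | zero => intro i j _ _; simp
    | succ n ih =>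
        intro i j h1 h2
        rw [mem_Hl] at h1 h2
        simp only at h1 h2
        push_cast at h2 ⊢
        rw [ih i j (mem_Hl.2 h1) (mem_Hl.2 ⟨by simp only; omega, by simp only; omega, h1.2.2.1, h1.2.2.2⟩)]
        have h3 := h ((i + n + 1, j), true) (by
          simp only [src_mk, tgt_v]
          by_cases hj : j < x.2
          · right
            have : sd x (i + n + 1, j + 1) ≤ s - 1 :=
              sd_le.2 ⟨by simp only; omega, by simp only; omega, by simp only; omega, by simp only; omega⟩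
            omega
          · left
            have : sd x (i + n + 1, j) ≤ s - 1 :=
              sd_le.2 ⟨by simp only; omega, by simp only; omega, by simp only; omega, by simp only; omega⟩
            omega)
        simp only [fA_mk, fB_v] at h3
        have h4 := zmod2_eq_of_add h3
        rw [show i + (n : ℤ) + 1 - 1 = i + n by ring] at h4
        rw [← h4, show i + ((n : ℤ) + 1) = i + n + 1 by ring]
  have hcol : ∀ n : ℕ, ∀ i j, (i, j) ∈ Hl x s → (i, j + n) ∈ Hl x s → k (i, j) = k (i, j + n) := by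
    intro n
    induction n with
    | zero => intro i j _ _; simp
    | succ n ih =>
        intro i j h1 h2
        rw [mem_Hl] at h1 h2
        simp only at h1 h2
        push_cast at h2 ⊢
        rw [ih i j (mem_Hl.2 h1) (mem_Hl.2 ⟨h1.1, h1.2.1, by simp only; omega, by simp only; omega⟩)]
        have h3 := h ((i, j + n + 1), false) (by
          simp only [src_mk, tgt_h]
          by_cases hj : i < x.1
          · right
            have : sd x (i + 1, j + n + 1) ≤ s - 1 :=
              sd_le.2 ⟨by simp only; omega, by simp only; omega, by simp only; omega, by simp only; omega⟩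
            omega
          · left
            have : sd x (i, j + n + 1) ≤ s - 1 :=
              sd_le.2 ⟨by simp only; omega, by simp only; omega, by simp only; omega, by simp only; omega⟩
            omega)
        simp only [fA_mk, fB_h] at h3
        have h4 := zmod2_eq_of_add h3
        rw [show j + (n : ℤ) + 1 - 1 = j + n by ring] at h4
        rw [← h4, show j + ((n : ℤ) + 1) = j + n + 1 by ring]
  have hrow' : ∀ i i' j, (i, j) ∈ Hl x s → (i', j) ∈ Hl x s → k (i, j) = k (i', j) := by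
    intro i i' j h1 h2
    rcases le_total i i' with h3 | h3
    · have := hrow (i' - i).toNat i j h1 (by rwa [show i + ((i' - i).toNat : ℤ) = i' by omega])
      rwa [show i + ((i' - i).toNat : ℤ) = i' by omega] at this
    · have := hrow (i - i').toNat i' j h2 (by rwa [show i' + ((i - i').toNat : ℤ) = i by omega])
      rw [show i' + ((i - i').toNat : ℤ) = i by omega] at this
      exact this.symm
  have hcol' : ∀ i j j', (i, j) ∈ Hl x s → (i, j') ∈ Hl x s → k (i, j) = k (i, j') := by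
    intro i j j' h1 h2
    rcases le_total j j' with h3 | h3
    · have := hcol (j' - j).toNat i j h1 (by rwa [show j + ((j' - j).toNat : ℤ) = j' by omega])
      rwa [show j + ((j' - j).toNat : ℤ) = j' by omega] at this
    · have := hcol (j - j').toNat i j' h2 (by rwa [show j' + ((j - j').toNat : ℤ) = j by omega])
      rw [show j' + ((j - j').toNat : ℤ) = j by omega] at this
      exact this.symm
  obtain ⟨i, j⟩ := f
  obtain ⟨i', j'⟩ := g
  have hm : (i', j) ∈ Hl x s := by
    rw [mem_Hl] at *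
    exact ⟨hg.1, hg.2.1, hf.2.2.1, hf.2.2.2⟩
  exact (hrow' i i' j hf hm).trans (hcol' i' j j' hm hg)

/-! ### the theorem -/

/-- **Rerouting a contour off a box.** -/
theorem recontour {z : Cf} {S : Set P2} (hS : S.Finite) {x : P2} {s c : ℤ} (hs : 0 ≤ s) (hsc : s ≤ c)
    (hG : Gd z S x s c) {F : P2 → ZMod 2}
    (hF : ∀ e, F (fA e) + F (fB e) ≠ 0 → InE S e ∧ (z e = true ∨ NB x s e)) :
    ∃ k : P2 → ZMod 2,
      (∀ e, k (fA e) + k (fB e) ≠ 0 →
        InE S e ∧ z e = true ∧ s ≤ sd x (src e) ∧ s ≤ sd x (tgt e)) ∧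
      ∀ f, f ∉ Hl x c → k f = F f := by
  classical
  -- the part of the contour off the box
  set N1 : Edge → ZMod 2 := fun e => if NB x s e then 0 else F (fA e) + F (fB e) with hN1
  have hN1s : ∀ e, N1 e ≠ 0 → z e = true ∧ InE S e ∧ ¬ NB x s e := by
    intro e he
    simp only [hN1] at he
    split_ifs at he with h
    · exact absurd rfl he
    · obtain ⟨h1, h2⟩ := hF e he
      exact ⟨h2.resolve_right h, h1, h⟩
  set Rr : P2 → P2 → Prop := PStep (fun e => z e = true ∧ InE S e ∧ ¬ NB x s e) with hRr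
  set Far : P2 → Prop := fun w => ∃ u, c ≤ sd x u ∧ Relation.ReflTransGen Rr w u with hFar
  have hFarst : ∀ {w w' : P2}, Rr w w' → Far w' → Far w := by
    rintro w w' h ⟨u, hu, h'⟩
    exact ⟨u, hu, h'.head h⟩
  have hFare : ∀ e, N1 e ≠ 0 → (Far (src e) ↔ Far (tgt e)) := fun e he =>
    ⟨hFarst ⟨e, hN1s e he, Or.inr ⟨rfl, rfl⟩⟩, hFarst ⟨e, hN1s e he, Or.inl ⟨rfl, rfl⟩⟩⟩
  set N2 : Edge → ZMod 2 := fun e => if Far (src e) then N1 e else 0 with hN2
  have hN2' : ∀ (v : P2) (e : Edge), (v = src e ∨ v = tgt e) → N2 e = if Far v then N1 e else 0 := by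
    rintro v e (rfl | rfl)
    · rfl
    · by_cases h0 : N1 e = 0
      · simp only [hN2, h0, ite_self]
      · simp only [hN2, hFare e h0]
  have hN2s : ∀ e, N2 e ≠ 0 → N1 e ≠ 0 := by
    intro e he h0
    apply he
    simp only [hN2, h0, ite_self]
  have hstar2 : ∀ v, Kd458.star N2 v = if Far v then Kd458.star N1 v else 0 := by
    intro v
    rw [star_congr (hN2' v)]
    split_ifs
    · rfl
    · exact star_zero v
  have hstar1 : ∀ v, sd x v ≠ s → Kd458.star N1 v = 0 := by
    intro v hv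
    rcases lt_or_gt_of_ne hv with h | h
    · rw [← star_zero v]
      exact star_congr fun e he => by simp only [hN1, if_pos (nb_of_lt he h)]
    · rw [← star_jmp F v]
      exact star_congr fun e he => by simp only [hN1, if_neg (not_nb_of_lt he h)]
  -- the end points of the far part
  have hTS : ∀ v, Kd458.star N2 v ≠ 0 → v ∈ S := by
    intro v hv
    by_contra hvS
    apply hv
    rw [← star_zero v]
    apply star_congr
    intro e he
    by_contra h0
    have := (hN1s e (hN2s e h0)).2.1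
    rcases he with rfl | rfl
    · exact hvS this.1
    · exact hvS this.2
  have hT : ∀ v, Kd458.star N2 v ≠ 0 → sd x v = s ∧ ∃ q, sd x q = c ∧ OC z (S ∩ An x s c) v q := by
    intro v hv
    have hvS := hTS v hv
    rw [hstar2] at hv
    split_ifs at hv with hfar
    · have hvs : sd x v = s := by
        by_contra h
        exact hv (hstar1 v h)
      refine ⟨hvs, ?_⟩
      obtain ⟨u, hu, h⟩ := hfar
      have h1 : OC z (S ∩ {w | s ≤ sd x w}) v u := by
        refine ⟨⟨hvS, hvs.ge⟩, rtg_congr ?_ h⟩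
        rintro a b ⟨e, ⟨h2, h3, h4⟩, h5⟩
        have h6 := not_nb h4
        rcases h5 with ⟨rfl, rfl⟩ | ⟨rfl, rfl⟩
        · exact ⟨⟨e, h2, Or.inl ⟨rfl, rfl⟩⟩, ⟨h3.1, h6.1⟩, h3.2, h6.2⟩
        · exact ⟨⟨e, h2, Or.inr ⟨rfl, rfl⟩⟩, ⟨h3.2, h6.2⟩, h3.1, h6.1⟩
      obtain ⟨q, hq, h2⟩ := first_hit (sd x) (sd_nbr x) c h1 (by omega) hu
      refine ⟨q, hq, h2.monoS ?_⟩
      rintro w ⟨⟨h3, h4⟩, h5⟩
      exact ⟨h3, h4, h5⟩
    · exact absurd rfl hv
  have hTT : ∀ v v', Kd458.star N2 v ≠ 0 → Kd458.star N2 v' ≠ 0 → OC z (S ∩ An x s c) v v' := by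
    intro v v' h h'
    obtain ⟨h1, q, hq, h2⟩ := hT v h
    obtain ⟨h1', q', hq', h2'⟩ := hT v' h'
    by_contra hn
    exact hG ⟨v, h1, q, hq, v', h1', q', hq', h2, h2', hn⟩
  have hfin : {v | Kd458.star N2 v ≠ 0}.Finite := hS.subset hTS
  set T := hfin.toFinset with hTdef
  have hmT : ∀ v, v ∈ T ↔ Kd458.star N2 v ≠ 0 := fun v => hfin.mem_toFinset
  have hcard : (T.card : ZMod 2) = 0 := by
    have h1 := finsum_star hS (N := N2) fun e he => (hN1s e (hN2s e he)).2.1
    rw [finsum_eq_sum_of_support_subset (s := T) _ (fun v hv => by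
      rw [Finset.mem_coe, hmT]; exact hv)] at h1
    rw [← h1, Finset.card_eq_sum_ones, Nat.cast_sum]
    apply Finset.sum_congr rfl
    intro v hv
    rw [ne_zero_one ((hmT v).1 hv), Nat.cast_one]
  -- the new part, in the annulus
  obtain ⟨ρ, hρ, hρs⟩ : ∃ ρ : Edge → ZMod 2,
      (∀ e, ρ e ≠ 0 → z e = true ∧ src e ∈ S ∩ An x s c ∧ tgt e ∈ S ∩ An x s c) ∧
        ∀ v, Kd458.star ρ v = Kd458.star N2 v := by
    rcases T.eq_empty_or_nonempty with h0 | ⟨w0, hw0⟩
    · refine ⟨fun _ => 0, fun e h => absurd rfl h, fun v => ?_⟩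
      rw [star_zero]
      by_contra h
      have := (hmT v).2 (Ne.symm h)
      rw [h0] at this
      exact absurd this (Finset.notMem_empty v)
    · have hch : ∀ w : P2, ∃ N : Edge → ZMod 2,
          (∀ e, N e ≠ 0 → z e = true ∧ src e ∈ S ∩ An x s c ∧ tgt e ∈ S ∩ An x s c) ∧
          (w ∈ T → ∀ v, Kd458.star N v = ind (v = w0) + ind (v = w)) := by
        intro w
        by_cases hw : w ∈ T
        · have h1 := hTT w0 w ((hmT w0).1 hw0) ((hmT w).1 hw)
          have h2 : Relation.ReflTransGen (PStep (fun e => z e = true ∧ src e ∈ S ∩ An x s c ∧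
              tgt e ∈ S ∩ An x s c)) w0 w := by
            refine rtg_congr ?_ h1.2
            rintro a b ⟨⟨e, h3, h4⟩, ha, hb⟩
            rcases h4 with ⟨rfl, rfl⟩ | ⟨rfl, rfl⟩
            · exact ⟨e, ⟨h3, ha, hb⟩, Or.inl ⟨rfl, rfl⟩⟩
            · exact ⟨e, ⟨h3, hb, ha⟩, Or.inr ⟨rfl, rfl⟩⟩
          obtain ⟨N, h3, h4⟩ := walk_parity h2
          exact ⟨N, h3, fun _ => h4⟩
        · exact ⟨fun _ => 0, fun e h => absurd rfl h, fun h => absurd h hw⟩
      choose P hP1 hP2 using hch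
      refine ⟨fun e => ∑ w ∈ T, P w e, ?_, ?_⟩
      · intro e he
        obtain ⟨w, _, hw⟩ := Finset.exists_ne_zero_of_sum_ne_zero he
        exact hP1 w e hw
      · intro v
        rw [star_sum, Finset.sum_congr rfl (fun w hw => hP2 w hw v), Finset.sum_add_distrib,
          Finset.sum_const, nsmul_eq_mul, hcard, zero_mul, zero_add]
        by_cases hv : v ∈ T
        · rw [Finset.sum_eq_single v (fun w _ hwv => ind_false (fun h => hwv h.symm))
            (fun h => absurd hv h), ind_true rfl, ne_zero_one ((hmT v).1 hv)]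
        · rw [Finset.sum_eq_zero (fun w hw => ind_false (fun h : v = w => hv (by rw [h]; exact hw)))]
          by_contra h
          exact hv ((hmT v).2 (Ne.symm h))
  -- the difference
  set D : Edge → ZMod 2 := fun e => (F (fA e) + F (fB e)) + (N2 e + ρ e) with hD
  have hDstar : ∀ v, Kd458.star D v = 0 := by
    intro v
    have h1 := Kd458.star_add (fun e => F (fA e) + F (fB e)) (fun e => N2 e + ρ e) v
    have h2 := Kd458.star_add N2 ρ v
    rw [star_jmp, h2, hρs, zero_add, zmod2_add_self] at h1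
    exact h1
  have hDs : ∀ e, D e ≠ 0 → NB x c e := by
    intro e he
    by_cases h1 : NB x s e
    · exact ⟨h1.1.trans hsc, h1.2.trans hsc⟩
    by_cases h2 : ρ e = 0
    · have h3 : F (fA e) + F (fB e) = N1 e := by simp only [hN1, if_neg h1]
      simp only [hD, h2, h3, add_zero] at he
      by_cases h4 : Far (src e)
      · exfalso
        apply he
        simp only [hN2, if_pos h4]
        exact zmod2_add_self _
      · have h5 : N1 e ≠ 0 := by
          simp only [hN2, if_neg h4, add_zero] at he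
          exact he
        have h6 : ¬ Far (tgt e) := fun h => h4 ((hFare e h5).2 h)
        constructor
        · by_contra h7
          push Not at h7
          exact h4 ⟨src e, h7.le, .refl⟩
        · by_contra h7
          push Not at h7
          exact h6 ⟨tgt e, h7.le, .refl⟩
    · obtain ⟨_, h3, h4⟩ := hρ e h2
      exact ⟨h3.2.2, h4.2.2⟩
  obtain ⟨kD, hkD⟩ := face_pot (x0 := x.1 - c) (x1 := x.1 + c) (y0 := x.2 - c) (y1 := x.2 + c) D
    (fun v _ _ _ _ => hDstar v)
  have hxx : x.1 - c ≤ x.1 + c := by omega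
  have hyy : x.2 - c ≤ x.2 + c := by omega
  have hring := ring_unique hxx hyy (F := kD) (G := fun _ => 0) (by
    intro e y he
    have hTB : TB (x.1 - c) (x.1 + c) (x.2 - c) (x.2 + c) e := by
      obtain ⟨a, b⟩ := y
      unfold Out at he
      simp only at he
      rcases he with ⟨h1, h2, ⟨rfl, h3⟩ | ⟨rfl, h3⟩⟩ | ⟨h1, h2, ⟨rfl, h3⟩ | ⟨rfl, h3⟩⟩ <;>
        simp only [TB, src_mk, tgt_h, tgt_v] <;> omega
    rw [hkD e hTB]
    have : D e = 0 := by
      by_contra h0
      have h4 := hDs e h0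
      obtain ⟨a, b⟩ := y
      unfold NB at h4
      rw [sd_le, sd_le] at h4
      unfold Out at he
      simp only at he
      rcases he with ⟨h1, h2, ⟨rfl, h3⟩ | ⟨rfl, h3⟩⟩ | ⟨h1, h2, ⟨rfl, h3⟩ | ⟨rfl, h3⟩⟩ <;>
        simp only [src_mk, tgt_h, tgt_v] at h4 <;> omega
    rw [this, add_zero])
  set κ := kD (x.1 - c - 1, x.2 - c - 1) with hκ
  have hring' : ∀ f, RingF (x.1 - c) (x.1 + c) (x.2 - c) (x.2 + c) f → kD f = κ := by
    intro f hf
    have := hring f hf
    simpa using this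
  set kD' : P2 → ZMod 2 := fun f => if f ∈ Hl x c then kD f + κ else 0 with hkD'
  have hjump : ∀ e, kD' (fA e) + kD' (fB e) = D e := by
    intro e
    by_cases h1 : NB x c e
    · have hTB : TB (x.1 - c) (x.1 + c) (x.2 - c) (x.2 + c) e := by
        have := h1.1
        rw [sd_le] at this
        exact Or.inl (by omega)
      have hval : ∀ f, (f = fA e ∨ f = fB e) → kD' f = kD f + κ := by
        intro f hf
        by_cases h2 : f ∈ Hl x c
        · simp only [hkD', if_pos h2]
        · simp only [hkD', if_neg h2]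
          have h3 : RingF (x.1 - c) (x.1 + c) (x.2 - c) (x.2 + c) f := by
            unfold NB at h1
            rw [sd_le, sd_le] at h1
            rw [mem_Hl] at h2
            obtain ⟨⟨i, j⟩, b⟩ := e
            unfold RingF
            cases b
            · simp only [src_mk, tgt_h, fA_mk, fB_h] at *
              rcases hf with rfl | rfl <;> simp only at * <;> omega
            · simp only [src_mk, tgt_v, fA_mk, fB_v] at *
              rcases hf with rfl | rfl <;> simp only at * <;> omega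
          rw [hring' f h3]
          exact (zmod2_add_self κ).symm
      rw [hval _ (Or.inl rfl), hval _ (Or.inr rfl), ← hkD e hTB]
      have := zmod2_add_self κ
      linear_combination this
    · have h2 : fA e ∉ Hl x c := fun h => h1 (hl_nb (Or.inl h))
      have h3 : fB e ∉ Hl x c := fun h => h1 (hl_nb (Or.inr h))
      simp only [hkD', if_neg h2, if_neg h3, add_zero]
      by_contra h0
      exact h1 (hDs e (Ne.symm h0))
  refine ⟨fun f => F f + kD' f, ?_, ?_⟩
  · intro e he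
    have h1 : F (fA e) + kD' (fA e) + (F (fB e) + kD' (fB e)) = N2 e + ρ e := by
      have h2 := hjump e
      simp only [hD] at h2
      have h3 := zmod2_add_self (F (fA e) + F (fB e))
      linear_combination h2 + h3
    simp only [h1] at he
    by_cases h2 : ρ e = 0
    · rw [h2, add_zero] at he
      obtain ⟨h3, h4, h5⟩ := hN1s e (hN2s e he)
      have h6 := not_nb h5
      exact ⟨h4, h3, h6.1, h6.2⟩
    · obtain ⟨h3, h4, h5⟩ := hρ e h2
      exact ⟨⟨h4.1, h5.1⟩, h3, h4.2.1, h5.2.1⟩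
  · intro f hf
    simp only [hkD', if_neg hf, add_zero]

end Crest.Agent.R158.Ce679
end
end

-- ▼ part R158/Ce2_679

/-!
# Row 158 (helper679), SEP / CORE2: deterministic core of the separation of two arms

* `off_disc` : a dual arm of `f` can be pushed off the box of radius `s` around a boundary vertex `x` (only one
  open cluster crosses the annulus around `x`).
* `core2` : two arms (open arm of `v` landing at `x`, dual arm of `f`) : separated landing points.
* `off_hole`, `core2_hole` : the same for arms in the complement of a box, landing at the box.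
-/

set_option autoImplicit false

noncomputable section

namespace Crest.Agent.R158.Ce679

open Crest.Agent.R161.Geo729 Crest.Agent.R161.Topo374 Crest.Agent.R161.Dual374
open Crest.Agent.R161.Tas682
open Crest.Agent.R158.Rs689
open Crest.Agent.R158.Ru874 hiding An
open Crest.Agent.R158.Cpl963 (An mem_An)
open Crest.Agent.R158.Sq200 Crest.Agent.R158.Kd458

/-- `a` and `b` are the two faces of `e` -/
def FF (e : Edge) (a b : P2) : Prop := (a = fA e ∧ b = fB e) ∨ (a = fB e ∧ b = fA e)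

theorem FF.symm {e : Edge} {a b : P2} (h : FF e a b) : FF e b a := by
  rcases h with ⟨h1, h2⟩ | ⟨h1, h2⟩
  · exact Or.inr ⟨h2, h1⟩
  · exact Or.inl ⟨h2, h1⟩

theorem FF.add {e : Edge} {a b : P2} (h : FF e a b) (k : P2 → ZMod 2) :
    k (fA e) + k (fB e) = k a + k b := by
  rcases h with ⟨rfl, rfl⟩ | ⟨rfl, rfl⟩
  · rfl
  · exact add_comm _ _

theorem dual_ostep {z : Cf} {S : Set P2} {e : Edge} {a b : P2} (he : z e = false) (h : FF e a b)
    (ha : a ∈ S) (hb : b ∈ S) : OStep (dual z) S a b :=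
  ⟨dstep_dual.1 ⟨e, by show ¬ z e = true; rw [he]; simp, h⟩, ha, hb⟩

theorem ostep_dual {z : Cf} {S : Set P2} {a b : P2} (h : OStep (dual z) S a b) :
    ∃ e, z e = false ∧ FF e a b := by
  obtain ⟨e, he, hh⟩ := dstep_dual.2 h.1
  exact ⟨e, by simpa using he, hh⟩

theorem oc_snoc {z : Cf} {S : Set P2} {u a b : P2} (h : OC z S u a) (h' : OStep z S a b) :
    OC z S u b := ⟨h.1, h.2.tail h'⟩

/-- a face function which jumps only across open edges is constant along dual paths -/
theorem oc_const {z : Cf} {S : Set P2} {k : P2 → ZMod 2}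
    (hk : ∀ e, k (fA e) + k (fB e) ≠ 0 → z e = true) {a b : P2} (h : OC (dual z) S a b) : k a = k b := by
  obtain ⟨_, h⟩ := h
  induction h with
  | refl => rfl
  | tail _ hs ih =>
      obtain ⟨e, he, hh⟩ := ostep_dual hs
      rw [ih]
      apply zmod2_eq_of_add
      rw [← hh.add k]
      by_contra h0
      rw [hk e h0] at he
      exact absurd he (by simp)

theorem seq_const {k : P2 → ZMod 2} (u : ℕ → P2) (h : ∀ m, k (u m) = k (u (m + 1))) (n : ℕ) :
    k (u 0) = k (u n) := by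
  induction n with
  | zero => rfl
  | succ n ih => rw [ih, h n]

/-- both faces of an edge meeting the open box are in the hull -/
theorem hl_of_lt {x : P2} {s : ℤ} {e : Edge} (h : sd x (src e) < s ∨ sd x (tgt e) < s) :
    fA e ∈ Hl x s ∧ fB e ∈ Hl x s := by
  obtain ⟨⟨i, j⟩, b⟩ := e
  have h' : sd x (src ((i, j), b)) ≤ s - 1 ∨ sd x (tgt ((i, j), b)) ≤ s - 1 := by omega
  rw [sd_le, sd_le] at h'
  rw [mem_Hl, mem_Hl]
  cases b
  · simp only [src_mk, tgt_h, fA_mk, fB_h] at *
    omega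
  · simp only [src_mk, tgt_v, fA_mk, fB_v] at *
    omega

theorem ind_ne {p q : Prop} (h : ind p + ind q ≠ 0) : (p ∧ ¬ q) ∨ (q ∧ ¬ p) := by
  by_cases hp : p <;> by_cases hq : q
  · exfalso; apply h; rw [ind_true hp, ind_true hq]; decide
  · exact Or.inl ⟨hp, hq⟩
  · exact Or.inr ⟨hq, hp⟩
  · exfalso; apply h; rw [ind_false hp, ind_false hq]; decide

theorem sd_of_not_Hl {x f : P2} {c : ℤ} (h : f ∉ Hl x c) : c ≤ sd x f := by
  by_contra h1
  apply h
  have h2 : sd x f ≤ c - 1 := by omega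
  rw [sd_le] at h2
  rw [mem_Hl]
  omega

section rect

variable {x0 x1 y0 y1 : ℤ}

theorem ri_inE {e : Edge} (h : fA e ∈ Rect x0 (x1 - 1) y0 (y1 - 1) ∨ fB e ∈ Rect x0 (x1 - 1) y0 (y1 - 1)) :
    InE (Rect x0 x1 y0 y1) e := by
  obtain ⟨⟨i, j⟩, b⟩ := e
  unfold InE
  simp only [mem_rect] at *
  cases b
  · simp only [src_mk, tgt_h, fA_mk, fB_h] at *
    omega
  · simp only [src_mk, tgt_v, fA_mk, fB_v] at *
    omega

theorem rect_fin : (Rect x0 x1 y0 y1).Finite := rect_finite _ _ _ _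

/-- a face function without jumps outside the rectangle, equal to `F` far away, vanishes at an outer face next
to a boundary vertex -/
theorem outer_zero {x : P2} {s c : ℤ} (hs : 1 ≤ s)
    (hxB : x ∈ Rect x0 x1 y0 y1) (hbx : BdV x0 x1 y0 y1 x) {k F : P2 → ZMod 2}
    (hk1 : ∀ e, k (fA e) + k (fB e) ≠ 0 → InE (Rect x0 x1 y0 y1) e)
    (hk2 : ∀ f, f ∉ Hl x c → k f = F f)
    (hF : ∀ f, f ∉ Rect x0 (x1 - 1) y0 (y1 - 1) → F f = 0) :
    ∃ o ∈ Hl x s, k o = 0 := by
  obtain ⟨a, b⟩ := x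
  have hk : ∀ e, ¬ InE (Rect x0 x1 y0 y1) e → k (fA e) = k (fB e) := by
    intro e he
    apply zmod2_eq_of_add
    by_contra h0
    exact he (hk1 e h0)
  rw [mem_rect] at hxB
  simp only at hxB
  rcases hbx with h | h | h | h <;> simp only at h
  · refine ⟨(x0 - 1, b), by rw [mem_Hl]; simp only; omega, ?_⟩
    have h1 := seq_const (k := k) (fun m : ℕ => (x0 - 1 - (m : ℤ), b)) (by
      intro m
      have := hk ((x0 - 1 - (m : ℤ), b), true) (by
        intro h2
        have := h2.1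
        rw [mem_rect, src_mk] at this
        simp only at this
        omega)
      simp only [fA_mk, fB_v] at this
      rw [this]
      push_cast
      congr 2
      ring) (c.toNat)
    simp only [Nat.cast_zero, sub_zero] at h1
    rw [h1, hk2 _ (by rw [mem_Hl]; simp only; omega), hF _ (by rw [mem_rect]; simp only; omega)]
  · refine ⟨(x1, b), by rw [mem_Hl]; simp only; omega, ?_⟩
    have h1 := seq_const (k := k) (fun m : ℕ => (x1 + (m : ℤ), b)) (by
      intro m
      have := hk ((x1 + (m : ℤ) + 1, b), true) (by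
        intro h2
        have := h2.1
        rw [mem_rect, src_mk] at this
        simp only at this
        omega)
      simp only [fA_mk, fB_v] at this
      rw [show x1 + (m : ℤ) + 1 - 1 = x1 + m by ring] at this
      rw [← this]
      push_cast
      congr 2
      ring) (c.toNat)
    simp only [Nat.cast_zero, add_zero] at h1
    rw [h1, hk2 _ (by rw [mem_Hl]; simp only; omega), hF _ (by rw [mem_rect]; simp only; omega)]
  · refine ⟨(a, y0 - 1), by rw [mem_Hl]; simp only; omega, ?_⟩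
    have h1 := seq_const (k := k) (fun m : ℕ => (a, y0 - 1 - (m : ℤ))) (by
      intro m
      have := hk ((a, y0 - 1 - (m : ℤ)), false) (by
        intro h2
        have := h2.1
        rw [mem_rect, src_mk] at this
        simp only at this
        omega)
      simp only [fA_mk, fB_h] at this
      rw [this]
      push_cast
      congr 2
      ring) (c.toNat)
    simp only [Nat.cast_zero, sub_zero] at h1
    rw [h1, hk2 _ (by rw [mem_Hl]; simp only; omega), hF _ (by rw [mem_rect]; simp only; omega)]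
  · refine ⟨(a, y1), by rw [mem_Hl]; simp only; omega, ?_⟩
    have h1 := seq_const (k := k) (fun m : ℕ => (a, y1 + (m : ℤ))) (by
      intro m
      have := hk ((a, y1 + (m : ℤ) + 1), false) (by
        intro h2
        have := h2.1
        rw [mem_rect, src_mk] at this
        simp only at this
        omega)
      simp only [fA_mk, fB_h] at this
      rw [show y1 + (m : ℤ) + 1 - 1 = y1 + m by ring] at this
      rw [← this]
      push_cast
      congr 2
      ring) (c.toNat)
    simp only [Nat.cast_zero, add_zero] at h1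
    rw [h1, hk2 _ (by rw [mem_Hl]; simp only; omega), hF _ (by rw [mem_rect]; simp only; omega)]

/-- opening the box of radius `s` around `x` -/
def opB (z : Cf) (x : P2) (s : ℤ) : Cf := by
  classical exact fun e => decide (z e = true ∨ NB x s e)

theorem opB_true {z : Cf} {x : P2} {s : ℤ} {e : Edge} : opB z x s e = true ↔ (z e = true ∨ NB x s e) := by
  simp [opB]

theorem opB_false {z : Cf} {x : P2} {s : ℤ} {e : Edge} (h : opB z x s e = false) :
    z e = false ∧ ¬ NB x s e := by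
  have h1 : ¬ (z e = true ∨ NB x s e) := by
    rw [← opB_true, h]; simp
  push Not at h1
  exact ⟨by simpa using h1.1, h1.2⟩

/-- a dual path of `opB` is a dual path of `z` off the box -/
theorem oc_opB {z : Cf} {x : P2} {s : ℤ} {S : Set P2} {f g : P2} (h : OC (dual (opB z x s)) S f g)
    (hf : s ≤ sd x f) : OC (dual z) (S ∩ {u | s ≤ sd x u}) f g := by
  refine ⟨⟨h.1, hf⟩, rtg_congr ?_ h.2⟩
  intro a b hab
  obtain ⟨e, he, hh⟩ := ostep_dual hab
  obtain ⟨h1, h2⟩ := opB_false he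
  have h3 := face_far h2
  refine dual_ostep h1 hh ⟨hab.2.1, ?_⟩ ⟨hab.2.2, ?_⟩
  · rcases hh with ⟨rfl, _⟩ | ⟨rfl, _⟩
    · exact h3.1
    · exact h3.2
  · rcases hh with ⟨_, rfl⟩ | ⟨_, rfl⟩
    · exact h3.2
    · exact h3.1

/-- **A dual arm can be pushed off the box around a boundary vertex.**  `G` : a set of boundary faces which
contains every face with a closed edge on the boundary (for instance all boundary faces). -/
theorem off_disc {z : Cf} {x f g : P2} {s c : ℤ} (hs : 1 ≤ s) (hsc : s ≤ c)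
    (hxB : x ∈ Rect x0 x1 y0 y1) (hbx : BdV x0 x1 y0 y1 x) (hfx : c < sd x f)
    (hG : Gd z (Rect x0 x1 y0 y1) x s c) {G : Set P2}
    (hGb : ∀ e a b, FF e a b → a ∈ Rect x0 (x1 - 1) y0 (y1 - 1) → b ∉ Rect x0 (x1 - 1) y0 (y1 - 1) →
      z e = false → a ∈ G)
    (hg : g ∈ G) (h : OC (dual z) (Rect x0 (x1 - 1) y0 (y1 - 1)) f g) :
    ∃ f' ∈ G, OC (dual z) (Rect x0 (x1 - 1) y0 (y1 - 1) ∩ {u | s ≤ sd x u}) f f' := by
  classical
  by_cases hK : ∃ f' ∈ G, OC (dual (opB z x s)) (Rect x0 (x1 - 1) y0 (y1 - 1)) f f'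
  · obtain ⟨f', hf', h'⟩ := hK
    exact ⟨f', hf', oc_opB h' (by omega)⟩
  exfalso
  push Not at hK
  set F : P2 → ZMod 2 := fun u => ind (OC (dual (opB z x s)) (Rect x0 (x1 - 1) y0 (y1 - 1)) f u) with hFd
  have key : ∀ e a b, FF e a b → OC (dual (opB z x s)) (Rect x0 (x1 - 1) y0 (y1 - 1)) f a →
      ¬ OC (dual (opB z x s)) (Rect x0 (x1 - 1) y0 (y1 - 1)) f b →
      InE (Rect x0 x1 y0 y1) e ∧ (z e = true ∨ NB x s e) := by
    intro e a b hab ha hb
    have haR := ha.right
    refine ⟨ri_inE (by rcases hab with ⟨rfl, _⟩ | ⟨rfl, _⟩ <;> simp [haR]), ?_⟩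
    by_cases hbR : b ∈ Rect x0 (x1 - 1) y0 (y1 - 1)
    · rw [← opB_true]
      by_contra h0
      exact hb (oc_snoc ha (dual_ostep (by simpa using h0) hab haR hbR))
    · left
      by_contra h0
      exact hK a (hGb e a b hab haR hbR (by simpa using h0)) ha
  have hF : ∀ e, F (fA e) + F (fB e) ≠ 0 → InE (Rect x0 x1 y0 y1) e ∧ (z e = true ∨ NB x s e) := by
    intro e he
    rcases ind_ne he with ⟨h1, h2⟩ | ⟨h1, h2⟩
    · exact key e _ _ (Or.inl ⟨rfl, rfl⟩) h1 h2
    · exact key e _ _ (Or.inr ⟨rfl, rfl⟩) h1 h2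
  obtain ⟨k, hk1, hk2⟩ := recontour rect_fin (by omega) hsc hG hF
  obtain ⟨o, ho, hko⟩ := outer_zero hs hxB hbx (fun e he => (hk1 e he).1) hk2
    (fun u hu => ind_false fun h' => hu h'.right)
  have hkH : ∀ u ∈ Hl x s, k u = 0 := by
    intro u hu
    rw [← hko]
    refine hull_const (s := s) ?_ hu ho
    intro e he
    by_contra h0
    have := hk1 e h0
    omega
  have hkf : k f = 1 := by
    rw [hk2 f (not_mem_Hl hfx)]
    exact ind_true (OC.refl h.1)
  obtain ⟨a, b, _, ha, hb, hab⟩ := first_exit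
    (D := fun u => OC (dual (opB z x s)) (Rect x0 (x1 - 1) y0 (y1 - 1)) f u) h.2 (OC.refl h.1) (hK g hg)
  obtain ⟨e, he, hh⟩ := ostep_dual hab
  have hka : k a = 1 := by
    rw [← hkf]
    refine (oc_const (z := opB z x s) ?_ ha).symm
    intro e' h0
    rw [opB_true]
    exact Or.inl (hk1 e' h0).2.1
  have hkb : k b = 1 := by
    rw [← hka]
    refine (oc_const (z := z) (S := Rect x0 (x1 - 1) y0 (y1 - 1)) (fun e' h0 => (hk1 e' h0).2.1) ?_).symm
    exact ⟨hab.2.1, .single hab⟩
  have hNB : NB x s e := by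
    by_contra h0
    apply hb
    refine oc_snoc ha (dual_ostep ?_ hh hab.2.1 hab.2.2)
    by_contra h1
    rcases opB_true.1 (by simpa using h1) with h2 | h2
    · rw [he] at h2; exact absurd h2 (by simp)
    · exact h0 h2
  rcases nb_face hNB with h1 | h1
  · rcases hh with ⟨rfl, _⟩ | ⟨_, rfl⟩
    · rw [hkH _ h1] at hka; exact absurd hka (by decide)
    · rw [hkH _ h1] at hkb; exact absurd hkb (by decide)
  · rcases hh with ⟨_, rfl⟩ | ⟨rfl, _⟩
    · rw [hkH _ h1] at hkb; exact absurd hkb (by decide)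
    · rw [hkH _ h1] at hka; exact absurd hka (by decide)

/-- **Deterministic core of the separation of two arms.** -/
theorem core2 {z : Cf} {v f x g : P2} (hxB : x ∈ Rect x0 x1 y0 y1) (hbx : BdV x0 x1 y0 y1 x)
    (h1 : OC z (Rect x0 x1 y0 y1) v x)
    (hg : BdV x0 (x1 - 1) y0 (y1 - 1) g) (h2 : OC (dual z) (Rect x0 (x1 - 1) y0 (y1 - 1)) f g)
    {t r s c : ℤ} (ht : 0 ≤ t) (htr : t ≤ r) (hrs : r + 1 ≤ s) (hsc : s ≤ c)
    (hfx : c < sd x f) (hG : Gd z (Rect x0 x1 y0 y1) x s c)
    (deep : ∀ w ∈ Rect x0 x1 y0 y1, BdV x0 x1 y0 y1 w → r ≤ sd w v)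
    (hG' : ∀ w ∈ Rect x0 x1 y0 y1, BdV x0 x1 y0 y1 w → Gd z (Rect x0 x1 y0 y1) w t r) :
    ∃ f' w', f' ∈ Rect x0 (x1 - 1) y0 (y1 - 1) ∧ BdV x0 (x1 - 1) y0 (y1 - 1) f' ∧
      w' ∈ Rect x0 x1 y0 y1 ∧ BdV x0 x1 y0 y1 w' ∧ sd f' w' ≤ 1 ∧ s ≤ sd x f' ∧
      OC (dual z) (Rect x0 (x1 - 1) y0 (y1 - 1) ∩ {u | s ≤ sd x u}) f f' ∧
      OC z (Rect x0 x1 y0 y1 ∩ {u | t ≤ sd w' u}) v x := by
  have hfR := h2.1
  have hxy : x0 < x1 ∧ y0 < y1 := by
    rw [mem_rect] at hfR; omega
  obtain ⟨f', hf', h3⟩ := off_disc (by omega) hsc hxB hbx hfx hG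
    (G := {u | BdV x0 (x1 - 1) y0 (y1 - 1) u})
    (fun e a b hab ha hb _ => bd_face (g := b) hab ha hb) hg h2
  have hf'R := h3.right.1
  obtain ⟨w', hw', hbw', hfw'⟩ := bd_near hxy.1 hxy.2 hf'R hf'
  have hxf' : s ≤ sd x f' := h3.right.2
  refine ⟨f', w', hf'R, hf', hw', hbw', hfw', hxf', h3, ?_⟩
  refine reroute htr (hG' w' hw' hbw') h1 (deep w' hw' hbw') ?_
  have h4 := Kd458.sd_tri x w' f'
  rw [Kd458.sd_symm x w', Kd458.sd_symm w' f'] at h4
  omega

/-! ### arms in the complement of a box -/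

/-- next to the hole: face outside the hull of the box of radius `ρ` around `c0`, sharing an edge with it -/
def Nxt (c0 : P2) (ρ : ℤ) (f : P2) : Prop := f ∉ Hl c0 ρ ∧ ∃ e b, FF e f b ∧ b ∈ Hl c0 ρ

/-- next to an adjacent face there is a vertex of the sphere -/
theorem Nxt.near {c0 f : P2} {ρ : ℤ} (h : Nxt c0 ρ f) : ∃ w, sd c0 w = ρ ∧ sd f w ≤ 1 := by
  obtain ⟨h1, e, b, h2, h3⟩ := h
  have h4 : NB c0 ρ e := by
    rcases h2 with ⟨_, rfl⟩ | ⟨_, rfl⟩
    · exact hl_nb (Or.inr h3)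
    · exact hl_nb (Or.inl h3)
  have h5 : ρ ≤ sd c0 (src e) := by
    by_contra h6
    have h7 := hl_of_lt (x := c0) (s := ρ) (e := e) (Or.inl (by omega))
    rcases h2 with ⟨rfl, _⟩ | ⟨rfl, _⟩
    · exact h1 h7.1
    · exact h1 h7.2
  refine ⟨src e, le_antisymm h4.1 h5, ?_⟩
  obtain ⟨⟨i, j⟩, c⟩ := e
  rw [sd_le]
  rcases h2 with ⟨rfl, _⟩ | ⟨rfl, _⟩ <;> cases c <;> simp only [src_mk, fA_mk, fB_h, fB_v] <;> omega

/-- **A dual arm in the complement of a box can be pushed off a small box around a vertex of the sphere.**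
`G` : outer end faces, `P` : inner end faces (each contains the faces with a closed edge to the other side). -/
theorem off_hole {z : Cf} {c0 x f g : P2} {ρ s c : ℤ} (hs : 1 ≤ s) (hsc : s ≤ c) (hcρ : c < ρ)
    (hx : sd c0 x = ρ) (hole : Hl c0 ρ ⊆ Rect x0 (x1 - 1) y0 (y1 - 1))
    (hG : Gd z (Rect x0 x1 y0 y1 ∩ {v | ρ ≤ sd c0 v}) x s c) {G P : Set P2}
    (hGx : ∀ u ∈ G, u ∈ Rect x0 (x1 - 1) y0 (y1 - 1) ∧ u ∉ Hl x c ∧ u ∉ Hl c0 ρ)
    (hGb : ∀ e a b, FF e a b → a ∈ Rect x0 (x1 - 1) y0 (y1 - 1) → b ∉ Rect x0 (x1 - 1) y0 (y1 - 1) →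
      z e = false → a ∈ G)
    (hPb : ∀ e a b, FF e a b → a ∉ Hl c0 ρ → b ∈ Hl c0 ρ → z e = false → a ∈ P)
    (hg : g ∈ G) (hf : f ∈ P) (h : OC (dual z) (Rect x0 (x1 - 1) y0 (y1 - 1) \ Hl c0 ρ) f g) :
    ∃ f' ∈ P, ∃ g' ∈ G,
      OC (dual z) ((Rect x0 (x1 - 1) y0 (y1 - 1) \ Hl c0 ρ) ∩ {u | s ≤ sd x u}) f' g' := by
  classical
  set FS := Rect x0 (x1 - 1) y0 (y1 - 1) \ Hl c0 ρ with hFS
  set S := Rect x0 x1 y0 y1 ∩ {v | ρ ≤ sd c0 v} with hS
  by_cases hK : ∃ f' ∈ P, ∃ g' ∈ G, OC (dual (opB z x s)) FS g' f'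
  · obtain ⟨f', hf', g', hg', h'⟩ := hK
    exact ⟨f', hf', g', hg', (oc_opB h' (hsc.trans (sd_of_not_Hl (hGx g' hg').2.1))).symm⟩
  exfalso
  push Not at hK
  set K : P2 → Prop := fun u => u ∉ Rect x0 (x1 - 1) y0 (y1 - 1) ∨ ∃ g' ∈ G, OC (dual (opB z x s)) FS g' u
    with hKd
  set F : P2 → ZMod 2 := fun u => ind (K u) with hFd
  have hlow : ∀ (e : Edge) (a b : P2), FF e a b → a ∉ Hl c0 ρ → ρ ≤ sd c0 (src e) ∧ ρ ≤ sd c0 (tgt e) := by
    intro e a b hab ha
    by_contra h0
    have h1 := hl_of_lt (x := c0) (s := ρ) (e := e) (by omega)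
    rcases hab with ⟨rfl, _⟩ | ⟨rfl, _⟩
    · exact ha h1.1
    · exact ha h1.2
  have key : ∀ e a b, FF e a b → K a → ¬ K b → InE S e ∧ (z e = true ∨ NB x s e) := by
    intro e a b hab ha hb
    have hbR : b ∈ Rect x0 (x1 - 1) y0 (y1 - 1) := by
      by_contra h0
      exact hb (Or.inl h0)
    have hE : InE (Rect x0 x1 y0 y1) e :=
      ri_inE (by rcases hab with ⟨_, rfl⟩ | ⟨_, rfl⟩ <;> simp [hbR])
    by_cases haR : a ∈ Rect x0 (x1 - 1) y0 (y1 - 1)
    · obtain ⟨g', hg', haK⟩ := ha.resolve_left (not_not.2 haR)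
      have haH : a ∉ Hl c0 ρ := haK.right.2
      have hlo := hlow e a b hab haH
      refine ⟨⟨⟨hE.1, hlo.1⟩, hE.2, hlo.2⟩, ?_⟩
      by_cases hbH : b ∈ Hl c0 ρ
      · left
        by_contra h0
        exact hK a (hPb e a b hab haH hbH (by simpa using h0)) g' hg' haK
      · rw [← opB_true]
        by_contra h0
        exact hb (Or.inr ⟨g', hg', oc_snoc haK (dual_ostep (by simpa using h0) hab ⟨haR, haH⟩ ⟨hbR, hbH⟩)⟩)
    · have h4 := hlow e a b hab (fun h => haR (hole h))
      refine ⟨⟨⟨hE.1, h4.1⟩, hE.2, h4.2⟩, ?_⟩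
      left
      by_contra h0
      have hbG := hGb e b a hab.symm hbR haR (by simpa using h0)
      exact hb (Or.inr ⟨b, hbG, OC.refl ⟨hbR, (hGx b hbG).2.2⟩⟩)
  have hF : ∀ e, F (fA e) + F (fB e) ≠ 0 → InE S e ∧ (z e = true ∨ NB x s e) := by
    intro e he
    rcases ind_ne he with ⟨h1, h2⟩ | ⟨h1, h2⟩
    · exact key e _ _ (Or.inl ⟨rfl, rfl⟩) h1 h2
    · exact key e _ _ (Or.inr ⟨rfl, rfl⟩) h1 h2
  obtain ⟨k, hk1, hk2⟩ := recontour (rect_fin.subset Set.inter_subset_left) (by omega) hsc hG hF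
  have hkH : ∀ u ∈ Hl x s, ∀ o ∈ Hl x s, k u = k o := by
    intro u hu o ho
    refine hull_const (s := s) ?_ hu ho
    intro e he
    by_contra h0
    have := hk1 e h0
    omega
  have hkC : ∀ u ∈ Hl c0 ρ, k u = 0 := by
    have hc0 : c0 ∈ Hl c0 ρ := by
      rw [mem_Hl]; omega
    intro u hu
    have h1 : k u = k c0 := by
      refine hull_const (s := ρ) ?_ hu hc0
      intro e he
      by_contra h0
      have h2 := (hk1 e h0).1
      have h3 := h2.1.2
      have h4 := h2.2.2
      simp only [Set.mem_ofPred_eq] at h3 h4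
      omega
    rw [h1, hk2 c0 (not_mem_Hl (by rw [Kd458.sd_symm, hx]; exact hcρ))]
    apply ind_false
    rintro (h2 | ⟨g', _, h2⟩)
    · exact h2 (hole hc0)
    · exact h2.right.2 hc0
  have hxo : ∃ o, o ∈ Hl x s ∧ o ∈ Hl c0 ρ := by
    have h1 : sd c0 x ≤ ρ := hx.le
    rw [sd_le] at h1
    refine ⟨(if x.1 = c0.1 + ρ then x.1 - 1 else x.1, if x.2 = c0.2 + ρ then x.2 - 1 else x.2), ?_, ?_⟩ <;>
      rw [mem_Hl] <;> simp only <;> split_ifs <;> omega
  obtain ⟨o, ho1, ho2⟩ := hxo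
  have hk0 : ∀ u ∈ Hl x s, k u = 0 := fun u hu => (hkH u hu o ho1).trans (hkC o ho2)
  have hkG : ∀ u, (∃ g' ∈ G, OC (dual (opB z x s)) FS g' u) → k u = 1 := by
    rintro u ⟨g', hg', h1⟩
    have h2 : k g' = k u := oc_const (z := opB z x s) (fun e' h0 => by
      rw [opB_true]; exact Or.inl (hk1 e' h0).2.1) h1
    rw [← h2, hk2 g' (hGx g' hg').2.1]
    exact ind_true (Or.inr ⟨g', hg', OC.refl h1.1⟩)
  have hgK : ∃ g' ∈ G, OC (dual (opB z x s)) FS g' g := ⟨g, hg, OC.refl h.right⟩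
  have hfK : ¬ ∃ g' ∈ G, OC (dual (opB z x s)) FS g' f := by
    rintro ⟨g', hg', h1⟩
    exact hK f hf g' hg' h1
  obtain ⟨a, b, _, ha, hb, hab⟩ := first_exit
    (D := fun u => ∃ g' ∈ G, OC (dual (opB z x s)) FS g' u) h.symm.2 hgK hfK
  obtain ⟨e, he, hh⟩ := ostep_dual hab
  have hka : k a = 1 := hkG a ha
  have hkb : k b = 1 := by
    rw [← hka]
    exact (oc_const (z := z) (S := FS) (fun e' h0 => (hk1 e' h0).2.1) ⟨hab.2.1, .single hab⟩).symm
  have hNB : NB x s e := by
    by_contra h0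
    apply hb
    obtain ⟨g', hg', ha'⟩ := ha
    refine ⟨g', hg', oc_snoc ha' (dual_ostep ?_ hh hab.2.1 hab.2.2)⟩
    by_contra h1
    rcases opB_true.1 (by simpa using h1) with h2 | h2
    · rw [he] at h2; exact absurd h2 (by simp)
    · exact h0 h2
  rcases nb_face hNB with h1 | h1
  · rcases hh with ⟨rfl, _⟩ | ⟨_, rfl⟩
    · rw [hk0 _ h1] at hka; exact absurd hka (by decide)
    · rw [hk0 _ h1] at hkb; exact absurd hkb (by decide)
  · rcases hh with ⟨_, rfl⟩ | ⟨rfl, _⟩
    · rw [hk0 _ h1] at hkb; exact absurd hkb (by decide)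
    · rw [hk0 _ h1] at hka; exact absurd hka (by decide)

/-- **Two arms in the complement of a box** (landing at the box): separated inner landing points. -/
theorem core2_hole {z : Cf} {c0 x p f g : P2} {ρ t r s c : ℤ} (ht : 0 ≤ t) (htr : t ≤ r) (hrs : r + 1 ≤ s)
    (hsc : s ≤ c) (hcρ : c < ρ)
    (b1 : x0 < c0.1 - ρ - c) (b2 : c0.1 + ρ + c < x1) (b3 : y0 < c0.2 - ρ - c) (b4 : c0.2 + ρ + c < y1)
    (hx : sd c0 x = ρ) (h1 : OC z (Rect x0 x1 y0 y1 ∩ {v | ρ ≤ sd c0 v}) x p) (hp : ρ + r ≤ sd c0 p)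
    (hf : Nxt c0 ρ f) (hg : BdV x0 (x1 - 1) y0 (y1 - 1) g)
    (h2 : OC (dual z) (Rect x0 (x1 - 1) y0 (y1 - 1) \ Hl c0 ρ) f g)
    (hG : Gd z (Rect x0 x1 y0 y1 ∩ {v | ρ ≤ sd c0 v}) x s c)
    (hG' : ∀ w, sd c0 w = ρ → Gd z (Rect x0 x1 y0 y1 ∩ {v | ρ ≤ sd c0 v}) w t r) :
    ∃ f' g' w', Nxt c0 ρ f' ∧ BdV x0 (x1 - 1) y0 (y1 - 1) g' ∧ sd c0 w' = ρ ∧ sd f' w' ≤ 1 ∧
      s ≤ sd x f' ∧
      OC (dual z) ((Rect x0 (x1 - 1) y0 (y1 - 1) \ Hl c0 ρ) ∩ {u | s ≤ sd x u}) f' g' ∧
      OC z ((Rect x0 x1 y0 y1 ∩ {v | ρ ≤ sd c0 v}) ∩ {u | t ≤ sd w' u}) x p := by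
  have hsx : sd c0 x ≤ ρ := hx.le
  rw [sd_le] at hsx
  have hnot : ∀ u, BdV x0 (x1 - 1) y0 (y1 - 1) u → u ∉ Hl x c ∧ u ∉ Hl c0 ρ := by
    intro u hu
    rw [mem_Hl, mem_Hl]
    unfold BdV at hu
    constructor
    · rintro ⟨h3, h4, h5, h6⟩
      rcases hu with h | h | h | h <;> omega
    · rintro ⟨h3, h4, h5, h6⟩
      rcases hu with h | h | h | h <;> omega
  obtain ⟨f', hf', g', hg', h3⟩ := off_hole (G := {u | u ∈ Rect x0 (x1 - 1) y0 (y1 - 1) ∧
      BdV x0 (x1 - 1) y0 (y1 - 1) u}) (P := {u | Nxt c0 ρ u}) (by omega) hsc hcρ hx (by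
      intro u hu
      rw [mem_Hl] at hu
      rw [mem_rect]
      omega) hG (fun u hu => ⟨hu.1, (hnot u hu.2).1, (hnot u hu.2).2⟩)
    (fun e a b hab ha hb _ => ⟨ha, bd_face (g := b) hab ha hb⟩)
    (fun e a b hab ha hb _ => ⟨ha, e, b, hab, hb⟩) ⟨h2.right.1, hg⟩ hf h2
  obtain ⟨w', hw', hfw'⟩ := hf'.near
  have hxf' : s ≤ sd x f' := h3.left.2
  refine ⟨f', g', w', hf', hg'.2, hw', hfw', hxf', h3, ?_⟩
  refine reroute htr (hG' w' hw') h1 ?_ ?_
  · have h4 := Kd458.sd_tri x w' f'
    rw [Kd458.sd_symm x w', Kd458.sd_symm w' f'] at h4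
    omega
  · have h4 := Kd458.sd_tri c0 w' p
    omega

end rect

end Crest.Agent.R158.Ce679
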