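import Crest.Agent.R158.Xr1_249
import Crest.Agent.R158.Xr2_249
import Crest.Agent.R158.Sw0_300

-- ▼ part R158/Xr3_249
section

/-!
# R158, block XR (helper249), file Xr3: adding a whole row of tiles

* `Row τ i j` : the tiles `τ x`, `i ≤ x ≤ j`
* `St.attach_row` : a row of tiles glued to the built part along one interval of one side
-/

set_option autoImplicit false
set_option linter.unusedVariables false

namespace Crest.Agent.R158.Xr249

variable {T : Type*} {b : Option T} {Gl : Port T → Port T → Prop}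

lemma Nx.mono {G G' : Port T → Port T → Prop} (hG : ∀ a b, G a b → G' a b) {p r : Port T}
    (h : Nx G p r) (hr : ∀ q, ¬ G' r q) : Nx G' p r := by
  induction h with
  | stop h => exact .stop hr
  | go h1 _ ih => exact .go (hG _ _ h1) (ih hr)

lemma Nx.ext {G G' : Port T → Port T → Prop} (hG : ∀ a b, G a b → G' a b) {p r q w : Port T}
    (h : Nx G p r) (hr : G' r q) (h2 : Nx G' q w) : Nx G' p w := by
  induction h with
  | stop h => exact .go hr h2
  | go h1 _ ih => exact .go (hG _ _ h1) (ih hr)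

lemma GA_mono {A A' : Set (Option T)} (h : A ⊆ A') (x y : Port T) (hxy : GA Gl A x y) :
    GA Gl A' x y := ⟨hxy.1, h hxy.2.1, h hxy.2.2⟩

/-- a row of tiles -/
def Row (τ : ℤ → T) (i j : ℤ) : Set (Option T) := {o | ∃ x, i ≤ x ∧ x ≤ j ∧ o = some (τ x)}

lemma Row_succ (τ : ℤ → T) {i j : ℤ} (h : i ≤ j + 1) :
    Row τ i (j + 1) = insert (some (τ (j + 1))) (Row τ i j) := by
  ext o
  simp only [Row, Set.mem_setOf_eq, Set.mem_insert_iff]
  constructor
  · rintro ⟨x, h1, h2, rfl⟩
    rcases eq_or_lt_of_le h2 with rfl | h3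
    · exact Or.inl rfl
    · exact Or.inr ⟨x, h1, by omega, rfl⟩
  · rintro (rfl | ⟨x, h1, h2, rfl⟩)
    · exact ⟨_, h, le_refl _, rfl⟩
    · exact ⟨x, h1, by omega, rfl⟩

lemma Row_pred (τ : ℤ → T) {i j : ℤ} (h : i - 1 ≤ j) :
    Row τ (i - 1) j = insert (some (τ (i - 1))) (Row τ i j) := by
  ext o
  simp only [Row, Set.mem_setOf_eq, Set.mem_insert_iff]
  constructor
  · rintro ⟨x, h1, h2, rfl⟩
    rcases eq_or_lt_of_le h1 with rfl | h3
    · exact Or.inl rfl
    · exact Or.inr ⟨x, by omega, h2, rfl⟩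
  · rintro (rfl | ⟨x, h1, h2, rfl⟩)
    · exact ⟨_, le_refl _, h, rfl⟩
    · exact ⟨x, by omega, h2, rfl⟩

lemma Row_self (τ : ℤ → T) (i : ℤ) : Row τ i i = {some (τ i)} := by
  ext o
  simp only [Row, Set.mem_setOf_eq, Set.mem_singleton_iff]
  constructor
  · rintro ⟨x, h1, h2, rfl⟩
    rw [le_antisymm h2 h1]
  · rintro rfl
    exact ⟨i, le_refl _, le_refl _, rfl⟩

/-- data of a row to be attached -/
structure RowData (Gl : Port T → Port T → Prop) (A0 : Set (Option T)) (τ : ℤ → T) (i j u v : ℤ)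
    (s : ZMod 4) (c : ℤ → Port T) : Prop where
  hs : s = 1 ∨ s = 3
  iu : i ≤ u
  uv : u ≤ v
  vj : v ≤ j
  inj : ∀ x y, i ≤ x → x ≤ j → i ≤ y → y ≤ j → τ x = τ y → x = y
  new : ∀ x, i ≤ x → x ≤ j → some (τ x) ∉ A0
  hor : ∀ x, i ≤ x → x < j → Gl (some (τ x, 2)) (some (τ (x + 1), 0))
  west : ∀ q, Gl (some (τ i, 0)) q → tl q ∉ A0 ∪ Row τ i j
  east : ∀ q, Gl (some (τ j, 2)) q → tl q ∉ A0 ∪ Row τ i j
  free : ∀ x, i ≤ x → x ≤ j → ∀ q, Gl (some (τ x, s + 2)) q → tl q ∉ A0 ∪ Row τ i j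
  con : ∀ x, u ≤ x → x ≤ v → Gl (some (τ x, s)) (c x) ∧ tl (c x) ∈ A0
  out : ∀ x, i ≤ x → x ≤ j → ¬ (u ≤ x ∧ x ≤ v) → ∀ q, Gl (some (τ x, s)) q → tl q ∉ A0 ∪ Row τ i j
  nx3 : s = 3 → ∀ x, u ≤ x → x < v → Nx (GA Gl A0) (c x) (c (x + 1))
  nx1 : s = 1 → ∀ x, u ≤ x → x < v → Nx (GA Gl A0) (c (x + 1)) (c x)

variable {A0 : Set (Option T)} {τ : ℤ → T} {i j u v : ℤ} {s : ZMod 4} {c : ℤ → Port T}

lemma RowData.new' (hd : RowData Gl A0 τ i j u v s c) {x k l : ℤ} (h1 : i ≤ x) (h2 : x ≤ j)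
    (hk : i ≤ k) (hl : l ≤ j) (h3 : x < k ∨ l < x) : some (τ x) ∉ A0 ∪ Row τ k l := by
  rintro (h | ⟨y, h4, h5, h6⟩)
  · exact hd.new x h1 h2 h
  · have := hd.inj x y h1 h2 (by omega) (by omega) (by simpa using h6)
    omega

lemma RowData.sub (hd : RowData Gl A0 τ i j u v s c) {k l : ℤ} (hk : i ≤ k) (hl : l ≤ j) :
    A0 ∪ Row τ k l ⊆ A0 ∪ Row τ i j := by
  rintro o (h | ⟨y, h4, h5, h6⟩)
  · exact Or.inl h
  · exact Or.inr ⟨y, by omega, by omega, h6⟩

/-- the east side of a tile of the row is not glued to the part `k..l` unless `x + 1` is there -/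
lemma RowData.east' (hG : Glue Gl) (hd : RowData Gl A0 τ i j u v s c) {x k l : ℤ} (h1 : i ≤ x)
    (h2 : x ≤ j) (hk : i ≤ k) (hl : l ≤ j) (h3 : x + 1 < k ∨ l < x + 1) :
    ∀ q, Gl (some (τ x, 2)) q → tl q ∉ A0 ∪ Row τ k l := by
  intro q hq
  rcases eq_or_lt_of_le h2 with rfl | h4
  · exact fun h => hd.east q hq (hd.sub hk hl h)
  · have h5 := hG.fn _ _ _ hq (hd.hor x h1 h4)
    subst h5
    exact hd.new' (by omega) (by omega) hk hl h3

lemma RowData.west' (hG : Glue Gl) (hd : RowData Gl A0 τ i j u v s c) {x k l : ℤ} (h1 : i ≤ x)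
    (h2 : x ≤ j) (hk : i ≤ k) (hl : l ≤ j) (h3 : x - 1 < k ∨ l < x - 1) :
    ∀ q, Gl (some (τ x, 0)) q → tl q ∉ A0 ∪ Row τ k l := by
  intro q hq
  rcases eq_or_lt_of_le h1 with rfl | h4
  · exact fun h => hd.west q hq (hd.sub hk hl h)
  · have h6 := hd.hor (x - 1) (by omega) (by omega)
    rw [sub_add_cancel] at h6
    have h5 := hG.fn _ _ _ hq (hG.sym _ _ h6)
    subst h5
    exact hd.new' (by omega) (by omega) hk hl h3

lemma z4s {s : ZMod 4} (hs : s = 1 ∨ s = 3) : ∀ e : ZMod 4, e = 0 ∨ e = 2 ∨ e = s ∨ e = s + 2 := by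
  rcases hs with rfl | rfl <;> decide

/-- **adding a row** -/
theorem St.attach_row (hG : Glue Gl) (h : St b Gl A0) (hd : RowData Gl A0 τ i j u v s c) :
    St b Gl (A0 ∪ Row τ i j) := by
  have hs02 : s ≠ 0 ∧ s ≠ 2 ∧ s + 2 ≠ 0 ∧ s + 2 ≠ 2 ∧ s + 2 ≠ s ∧ (s = 3 → s + 1 = 0) ∧
      (s = 1 → s = 0 + 1) := by
    rcases hd.hs with rfl | rfl <;> decide
  obtain ⟨t1, t2, t3, t4, t5, t6, t7⟩ := hs02
  have hi := hd.iu
  have hu := hd.uv
  have hv := hd.vj
  -- the first tile
  have S0 : St b Gl (A0 ∪ Row τ u u) := by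
    rw [Row_self, Set.union_singleton]
    refine h.add_one hG (hd.new u hi (by omega)) s (hd.con u (le_refl _) hu).1
      (hd.con u (le_refl _) hu).2 ?_
    intro e he q hq hqA
    rcases z4s hd.hs e with rfl | rfl | rfl | rfl
    · exact hd.west' hG (x := u) (k := u + 1) (l := u) hi (by omega) (by omega) (by omega) (by omega)
        q hq (Or.inl hqA)
    · exact hd.east' hG (x := u) (k := u + 2) (l := u) hi (by omega) (by omega) (by omega) (by omega)
        q hq (Or.inl hqA)
    · exact he rfl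
    · exact hd.free u hi (by omega) q hq (Or.inl hqA)
  -- to the right
  have S1 : ∀ n : ℕ, u + n ≤ j → St b Gl (A0 ∪ Row τ u (u + n)) := by
    intro n
    induction n with
    | zero => intro _; simpa using S0
    | succ n ih =>
      intro hn
      push_cast at hn
      have ih' := ih (by omega)
      set y : ℤ := u + n with hy
      have e1 : u + ((n + 1 : ℕ) : ℤ) = y + 1 := by push_cast; omega
      have hsub : A0 ∪ Row τ u y ⊆ A0 ∪ Row τ i j := hd.sub (by omega) (by omega)
      rw [e1, Row_succ τ (by omega), Set.union_insert]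
      have hnew : some (τ (y + 1)) ∉ A0 ∪ Row τ u y :=
        hd.new' (by omega) (by omega) (by omega) (by omega) (Or.inr (by omega))
      have hW : Gl (some (τ (y + 1), 0)) (some (τ y, 2)) := hG.sym _ _ (hd.hor y (by omega) (by omega))
      have hWA : tl (some (τ y, (2 : ZMod 4))) ∈ A0 ∪ Row τ u y := Or.inr ⟨y, by omega, le_refl _, rfl⟩
      have hE := hd.east' hG (x := y + 1) (k := u) (l := y) (by omega) (by omega) (by omega) (by omega)
        (Or.inr (by omega))
      have hF : ∀ q, Gl (some (τ (y + 1), s + 2)) q → tl q ∉ A0 ∪ Row τ u y := fun q hq h =>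
        hd.free (y + 1) (by omega) (by omega) q hq (hsub h)
      by_cases hX : y + 1 ≤ v
      · -- glued along two sides
        have hc := hd.con (y + 1) (by omega) hX
        have hc0 := hd.con y (by omega) (by omega)
        have hsubA : A0 ⊆ A0 ∪ Row τ u y := Set.subset_union_left
        rcases hd.hs with rfl | rfl
        · -- parent above: `s = 1`, `d = 0`
          refine ih'.add_two hG hnew 0 (p0 := some (τ y, 2)) (p1 := c (y + 1)) hW
            (by simpa using hc.1) hWA (hsubA hc.2) ?_ ?_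
          · have n1 := hd.nx1 rfl y (by omega) (by omega)
            refine n1.ext (GA_mono hsubA) (q := some (τ y, 1)) ⟨hG.sym _ _ hc0.1, hsubA hc0.2,
              Or.inr ⟨y, by omega, le_refl _, rfl⟩⟩ ?_
            have e : (some (τ y, 2) : Port T) = rot (some (τ y, 1)) := by
              rw [rot_some]; rfl
            rw [e]
            refine .stop fun q hq => ?_
            rw [rot_some] at hq
            have hq1 : Gl (some (τ y, 2)) q := by
              have := hq.1
              rwa [show (1 : ZMod 4) + 1 = 2 by decide] at this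
            have := hG.fn _ _ _ hq1 (hd.hor y (by omega) (by omega))
            subst this
            exact hnew hq.2.2
          · intro e he0 he1 q hq
            rcases z4s hd.hs e with rfl | rfl | rfl | rfl
            · exact absurd rfl he0
            · exact hE q hq
            · exact absurd rfl he1
            · exact hF q hq
        · -- parent below: `s = 3`, `d = 3`
          refine ih'.add_two hG hnew 3 (p0 := c (y + 1)) (p1 := some (τ y, 2)) hc.1
            (by rw [show (3 : ZMod 4) + 1 = 0 by decide]; exact hW) (hsubA hc.2) hWA ?_ ?_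
          · have n1 := hd.nx3 rfl y (by omega) (by omega)
            refine .go (q := c y) ⟨?_, Or.inr ⟨y, by omega, le_refl _, rfl⟩, hsubA hc0.2⟩ ?_
            · rw [rot_some, show (2 : ZMod 4) + 1 = 3 by decide]
              exact hc0.1
            · refine n1.mono (GA_mono hsubA) fun q hq => ?_
              have := hG.fn _ _ _ hq.1 (hG.sym _ _ hc.1)
              subst this
              exact hnew hq.2.2
          · intro e he0 he1 q hq
            rcases z4s hd.hs e with rfl | rfl | rfl | rfl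
            · exact absurd (by decide) he1
            · exact hE q hq
            · exact absurd rfl he0
            · exact hF q hq
      · -- glued along the west side only
        refine ih'.add_one hG hnew 0 hW hWA ?_
        intro e he q hq
        rcases z4s hd.hs e with rfl | rfl | rfl | rfl
        · exact absurd rfl he
        · exact hE q hq
        · exact fun h => hd.out (y + 1) (by omega) (by omega) (by omega) q hq (hsub h)
        · exact hF q hq
  have S2 : St b Gl (A0 ∪ Row τ u j) := by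
    have := S1 (j - u).toNat (by omega)
    rwa [Int.toNat_of_nonneg (by omega), add_sub_cancel] at this
  -- to the left
  have S3 : ∀ n : ℕ, i ≤ u - n → St b Gl (A0 ∪ Row τ (u - n) j) := by
    intro n
    induction n with
    | zero => intro _; simpa using S2
    | succ n ih =>
      intro hn
      push_cast at hn
      have ih' := ih (by omega)
      set y : ℤ := u - n with hy
      have e1 : u - ((n + 1 : ℕ) : ℤ) = y - 1 := by push_cast; omega
      have hsub : A0 ∪ Row τ y j ⊆ A0 ∪ Row τ i j := hd.sub (by omega) (by omega)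
      rw [e1, Row_pred τ (by omega), Set.union_insert]
      have hnew : some (τ (y - 1)) ∉ A0 ∪ Row τ y j :=
        hd.new' (by omega) (by omega) (by omega) (by omega) (Or.inl (by omega))
      have hEg : Gl (some (τ (y - 1), 2)) (some (τ y, 0)) := by
        have := hd.hor (y - 1) (by omega) (by omega)
        rwa [sub_add_cancel] at this
      refine ih'.add_one hG hnew 2 hEg (Or.inr ⟨y, le_refl _, by omega, rfl⟩) ?_
      intro e he q hq
      rcases z4s hd.hs e with rfl | rfl | rfl | rfl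
      · exact hd.west' hG (x := y - 1) (by omega) (by omega) (by omega) (le_refl _) (Or.inl (by omega))
          q hq
      · exact absurd rfl he
      · exact fun h => hd.out (y - 1) (by omega) (by omega) (by omega) q hq (hsub h)
      · exact fun h => hd.free (y - 1) (by omega) (by omega) q hq (hsub h)
  have := S3 (u - i).toNat (by omega)
  rwa [Int.toNat_of_nonneg (by omega), sub_sub_cancel] at this

end Crest.Agent.R158.Xr249
end

-- ▼ part R158/Xr4_249
section

/-!
# R158, block XR (helper249), file Xr4: growth of a hole-free region by horizontal runs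

* `Reg.Below`, `Reg.Above` : contact data of a new run
* `Reg.grow_step` : one step, `Reg.grow` : induction principle (root run, then one run at a time, each
  glued to the built part along one interval on one side)
* `Reg.gl` : the glueing relation on ports; **`Reg.st`** : `R.SC`, `R` connected ⟹ there is a word with
  exactly the tiles `R.P` and exactly the glued pairs of `R`
-/

set_option autoImplicit false
set_option linter.unusedVariables false

namespace Crest.Agent.R158.Xr249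

namespace Reg

variable {R : Reg}

/-- the new run touches `Q` below, along the columns `u..v` -/
structure Below (R : Reg) (Q : Set (ℤ × ℤ)) (a b t u v : ℤ) : Prop where
  au : a ≤ u
  uv : u ≤ v
  vb : v ≤ b
  con : ∀ x, u ≤ x → x ≤ v → R.v (x, t - 1) ∧ (x, t - 1) ∈ Q
  hor : ∀ x, u ≤ x → x < v → R.h (x, t - 1)
  out : ∀ x, a ≤ x → x ≤ b → ¬ (u ≤ x ∧ x ≤ v) → ¬ (R.v (x, t - 1) ∧ (x, t - 1) ∈ Q)
  free : ∀ x, a ≤ x → x ≤ b → ¬ (R.v (x, t) ∧ (x, t + 1) ∈ Q)

/-- the new run touches `Q` above, along the columns `u..v` -/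
structure Above (R : Reg) (Q : Set (ℤ × ℤ)) (a b t u v : ℤ) : Prop where
  au : a ≤ u
  uv : u ≤ v
  vb : v ≤ b
  con : ∀ x, u ≤ x → x ≤ v → R.v (x, t) ∧ (x, t + 1) ∈ Q
  hor : ∀ x, u ≤ x → x < v → R.h (x, t + 1)
  out : ∀ x, a ≤ x → x ≤ b → ¬ (u ≤ x ∧ x ≤ v) → ¬ (R.v (x, t) ∧ (x, t + 1) ∈ Q)
  free : ∀ x, a ≤ x → x ≤ b → ¬ (R.v (x, t - 1) ∧ (x, t - 1) ∈ Q)

/-- a good part: closed under horizontal glueing and connected -/
structure Good (R : Reg) (Q : Set (ℤ × ℤ)) : Prop where
  sub : Q ⊆ R.P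
  clo : ∀ x y, R.h (x, y) → ((x, y) ∈ Q ↔ (x + 1, y) ∈ Q)
  conn : ∀ p ∈ Q, ∀ q ∈ Q, ∃ N, R.WN Q p q N

/-- connected by glueing -/
def Conn (R : Reg) : Prop := ∀ p ∈ R.P, ∀ q ∈ R.P, ∃ N, R.WN (R.P : Set (ℤ × ℤ)) p q N

/-- the cells of a run -/
def cells (a b t : ℤ) : Set (ℤ × ℤ) := {p | a ≤ p.1 ∧ p.1 ≤ b ∧ p.2 = t}

lemma exists_run {x0 t : ℤ} (h : (x0, t) ∈ R.P) : ∃ a b, a ≤ x0 ∧ x0 ≤ b ∧ R.IsRun a b t := by
  -- the right end
  obtain ⟨m, hm⟩ : ∃ m : ℤ, ∀ p ∈ R.P, p.1 < m := by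
    obtain ⟨m, hm⟩ := (R.P.image Prod.fst).bddAbove
    exact ⟨m + 1, fun p hp => Int.lt_add_one_iff.2 (hm (by simpa using ⟨p.2, hp⟩))⟩
  obtain ⟨l, hl⟩ : ∃ l : ℤ, ∀ p ∈ R.P, l ≤ p.1 := by
    obtain ⟨m, hm⟩ := (R.P.image Prod.fst).bddBelow
    exact ⟨m, fun p hp => hm (by simpa using ⟨p.2, hp⟩)⟩
  obtain ⟨b, ⟨hb1, hb2⟩, hb3⟩ := Int.exists_least_of_bdd (P := fun z => x0 ≤ z ∧ ¬ R.h (z, t))
    ⟨x0, fun z hz => hz.1⟩ ⟨max x0 m, le_max_left _ _, fun hz => by
      have := hm _ (R.hP _ _ hz).1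
      have := le_max_right x0 m
      simp only at *
      omega⟩
  obtain ⟨a, ⟨ha1, ha2⟩, ha3⟩ := Int.exists_greatest_of_bdd (P := fun z => z ≤ x0 ∧ ¬ R.h (z - 1, t))
    ⟨x0, fun z hz => hz.1⟩ ⟨min x0 l, min_le_left _ _, fun hz => by
      have := hl _ (R.hP _ _ hz).1
      have := min_le_right x0 l
      simp only at *
      omega⟩
  have hg : ∀ x, a ≤ x → x < b → R.h (x, t) := by
    intro x h1 h2
    by_contra h3
    rcases le_or_gt x0 x with h4 | h4
    · have := hb3 x ⟨h4, h3⟩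
      omega
    · have := ha3 (x + 1) ⟨by omega, by rwa [add_sub_cancel_right]⟩
      omega
  refine ⟨a, b, ha1, hb1, ⟨by omega, ?_, hg, ha2, hb2⟩⟩
  rcases eq_or_lt_of_le ha1 with rfl | h1
  · exact h
  · exact (R.hP _ _ (hg a (le_refl _) (by omega))).1

lemma Good.run_disj {Q : Set (ℤ × ℤ)} (hQ : R.Good Q) {a b t x0 : ℤ} (hr : R.IsRun a b t)
    (h1 : a ≤ x0) (h2 : x0 ≤ b) (h : (x0, t) ∉ Q) : ∀ x, a ≤ x → x ≤ b → (x, t) ∉ Q := by
  have key : ∀ n : ℕ, ∀ x, a ≤ x → x + n ≤ b → ((x, t) ∈ Q ↔ (x + n, t) ∈ Q) := by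
    intro n
    induction n with
    | zero => intro x _ _; simp
    | succ n ih =>
      intro x h3 h4
      push_cast at h4 ⊢
      rw [ih x h3 (by omega), hQ.clo _ _ (hr.gl (x + n) (by omega) (by omega)), add_assoc]
  intro x h3 h4 h5
  rcases le_total x x0 with h6 | h6
  · have := (key (x0 - x).toNat x h3 (by omega)).1 h5
    rw [Int.toNat_of_nonneg (by omega), add_sub_cancel] at this
    exact h this
  · have := (key (x - x0).toNat x0 h1 (by omega)).2
    rw [Int.toNat_of_nonneg (by omega), add_sub_cancel] at this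
    exact h (this h5)

lemma exists_interval {X : ℤ → Prop} {a b x0 : ℤ} (h0 : X x0) (h1 : a ≤ x0) (h2 : x0 ≤ b)
    (hb : ∀ x1 x2, a ≤ x1 → x1 < x2 → x2 ≤ b → X x1 → X x2 → ∀ x, x1 ≤ x → x ≤ x2 → X x) :
    ∃ u v, a ≤ u ∧ u ≤ v ∧ v ≤ b ∧ (∀ x, u ≤ x → x ≤ v → X x) ∧
      (∀ x, a ≤ x → x ≤ b → ¬ (u ≤ x ∧ x ≤ v) → ¬ X x) := by
  obtain ⟨u, ⟨hu1, hu2, hu3⟩, hu4⟩ := Int.exists_least_of_bdd (P := fun z => a ≤ z ∧ z ≤ b ∧ X z)
    ⟨a, fun z hz => hz.1⟩ ⟨x0, h1, h2, h0⟩
  obtain ⟨v, ⟨hv1, hv2, hv3⟩, hv4⟩ := Int.exists_greatest_of_bdd (P := fun z => a ≤ z ∧ z ≤ b ∧ X z)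
    ⟨b, fun z hz => hz.2.1⟩ ⟨x0, h1, h2, h0⟩
  have huv : u ≤ v := hu4 v ⟨hv1, hv2, hv3⟩
  refine ⟨u, v, hu1, huv, hv2, fun x h3 h4 => ?_, fun x h3 h4 h5 h6 => ?_⟩
  · rcases eq_or_lt_of_le huv with rfl | h5
    · rw [le_antisymm h4 h3]; exact hu3
    · exact hb u v hu1 h5 hv2 hu3 hv3 x h3 h4
  · exact h5 ⟨hu4 x ⟨h3, h4, h6⟩, hv4 x ⟨h3, h4, h6⟩⟩

/-- **one step of the growth** -/
theorem grow_step (hsc : R.SC) (hc : R.Conn) {Q : Set (ℤ × ℤ)} (hQ : R.Good Q) (hne : Q.Nonempty)
    (hn : ¬ (R.P : Set (ℤ × ℤ)) ⊆ Q) :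
    ∃ a b t, R.IsRun a b t ∧ (∀ x, a ≤ x → x ≤ b → (x, t) ∉ Q) ∧
      ((∃ u v, R.Below Q a b t u v) ∨ (∃ u v, R.Above Q a b t u v)) := by
  classical
  -- a step out of `Q`
  obtain ⟨p0, hp0⟩ := hne
  obtain ⟨q0, hq0, hq0'⟩ := Set.not_subset.1 hn
  obtain ⟨p, q, M, hp, hq, hs⟩ : ∃ p q M, p ∈ Q ∧ q ∉ Q ∧ R.Stp p q M := by
    obtain ⟨N, hN⟩ := hc p0 (hQ.sub hp0) q0 hq0
    clear hq0 hn
    induction hN with
    | nil _ => exact absurd hp0 hq0'
    | @cons q r N M h1 h2 h3 ih =>
      by_cases h4 : q ∈ Q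
      · exact ⟨_, _, _, h4, hq0', h2⟩
      · exact ih h4
  -- the step is vertical
  have hcontact : ∀ {a b t x1 x2 : ℤ}, R.IsRun a b t → a ≤ x1 → x1 ≤ b → a ≤ x2 → x2 ≤ b →
      (∀ x, a ≤ x → x ≤ b → (x, t) ∉ Q) → (x1, t - 1) ∈ Q → (x2, t + 1) ∈ Q →
      R.v (x1, t - 1) → R.v (x2, t) → False := by
    intro a b t x1 x2 hr h1 h2 h3 h4 h5 h6 h7 h8 h9
    obtain ⟨N, hN⟩ := hQ.conn _ h6 _ h7
    exact below_above hsc hr hQ.sub h5 h1 h2 h3 h4 hN h8 h9
  cases hs with
  | @right x y h => exact absurd ((hQ.clo _ _ h).1 hp) hq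
  | @left x y h => exact absurd ((hQ.clo _ _ h).2 hp) hq
  | @up x y h =>
    -- parent below
    obtain ⟨a, b, h1, h2, hr⟩ := exists_run (R.vP _ _ h).2
    have hd := hQ.run_disj hr h1 h2 hq
    obtain ⟨u, v, k1, k2, k3, k4, k5⟩ := exists_interval
      (X := fun z => R.v (z, y) ∧ (z, y) ∈ Q) ⟨h, hp⟩ h1 h2 (by
        intro x1 x2 g1 g2 g3 g4 g5
        obtain ⟨N, hN⟩ := hQ.conn _ g4.2 _ g5.2
        have key := fun z g6 g7 => below_below hsc hr hQ.sub hd g1 g2 g3
          (by rw [add_sub_cancel_right]; exact hN) (by rw [add_sub_cancel_right]; exact g4.1)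
          (by rw [add_sub_cancel_right]; exact g5.1) (x := z) g6 g7
        simp only [add_sub_cancel_right] at key
        have mem : ∀ n : ℕ, x1 + n ≤ x2 → (x1 + n, y) ∈ Q := by
          intro n
          induction n with
          | zero => intro _; simpa using g4.2
          | succ n ih =>
            intro g6
            push_cast at g6 ⊢
            have := (hQ.clo _ _ (key (x1 + n) (by omega) (by omega)).1).1 (ih (by omega))
            rwa [add_assoc] at this
        intro z g6 g7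
        have hz : (z, y) ∈ Q := by
          have := mem (z - x1).toNat (by omega)
          rwa [Int.toNat_of_nonneg (by omega), add_sub_cancel] at this
        rcases eq_or_lt_of_le g7 with rfl | g8
        · exact g5
        · exact ⟨(key z g6 g8).2.1, hz⟩)
    refine ⟨a, b, y + 1, hr, hd, Or.inl ⟨u, v, k1, k2, k3, ?_, ?_, ?_, ?_⟩⟩
    · intro z g1 g2
      rw [add_sub_cancel_right]
      exact k4 z g1 g2
    · intro z g1 g2
      obtain ⟨N, hN⟩ := hQ.conn _ (k4 u (le_refl _) k2).2 _ (k4 v k2 (le_refl _)).2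
      have := below_below hsc hr hQ.sub hd k1 (by omega) k3
        (by rw [add_sub_cancel_right]; exact hN)
        (by rw [add_sub_cancel_right]; exact (k4 u (le_refl _) k2).1)
        (by rw [add_sub_cancel_right]; exact (k4 v k2 (le_refl _)).1) (x := z) g1 g2
      exact this.1
    · intro z g1 g2 g3
      rw [add_sub_cancel_right]
      exact k5 z g1 g2 g3
    · rintro z g1 g2 ⟨g3, g4⟩
      exact hcontact hr h1 h2 g1 g2 hd (by rw [add_sub_cancel_right]; exact hp) g4
        (by rw [add_sub_cancel_right]; exact h) g3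
  | @down x y h =>
    -- parent above
    obtain ⟨a, b, h1, h2, hr⟩ := exists_run (R.vP _ _ h).1
    have hd := hQ.run_disj hr h1 h2 hq
    obtain ⟨u, v, k1, k2, k3, k4, k5⟩ := exists_interval
      (X := fun z => R.v (z, y) ∧ (z, y + 1) ∈ Q) ⟨h, hp⟩ h1 h2 (by
        intro x1 x2 g1 g2 g3 g4 g5
        obtain ⟨N, hN⟩ := hQ.conn _ g4.2 _ g5.2
        have key := fun z g6 g7 => above_above hsc hr hQ.sub hd g1 g2 g3 hN g4.1 g5.1 (x := z) g6 g7
        have mem : ∀ n : ℕ, x1 + n ≤ x2 → (x1 + n, y + 1) ∈ Q := by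
          intro n
          induction n with
          | zero => intro _; simpa using g4.2
          | succ n ih =>
            intro g6
            push_cast at g6 ⊢
            have := (hQ.clo _ _ (key (x1 + n) (by omega) (by omega)).1).1 (ih (by omega))
            rwa [add_assoc] at this
        intro z g6 g7
        have hz : (z, y + 1) ∈ Q := by
          have := mem (z - x1).toNat (by omega)
          rwa [Int.toNat_of_nonneg (by omega), add_sub_cancel] at this
        rcases eq_or_lt_of_le g7 with rfl | g8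
        · exact g5
        · exact ⟨(key z g6 g8).2.1, hz⟩)
    refine ⟨a, b, y, hr, hd, Or.inr ⟨u, v, k1, k2, k3, k4, ?_, k5, ?_⟩⟩
    · intro z g1 g2
      obtain ⟨N, hN⟩ := hQ.conn _ (k4 u (le_refl _) k2).2 _ (k4 v k2 (le_refl _)).2
      exact (above_above hsc hr hQ.sub hd k1 (by omega) k3 hN (k4 u (le_refl _) k2).1
        (k4 v k2 (le_refl _)).1 (x := z) g1 g2).1
    · rintro z g1 g2 ⟨g3, g4⟩
      exact hcontact hr g1 g2 h1 h2 hd g4 hp g3 h

/-- a walk along a run inside a set -/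
lemma IsRun.walk_in {a b t : ℤ} (hr : R.IsRun a b t) {Q : Set (ℤ × ℤ)} (hQ : cells a b t ⊆ Q)
    {x1 x2 : ℤ} (h1 : a ≤ x1) (h12 : x1 ≤ b) (h2 : a ≤ x2) (h22 : x2 ≤ b) :
    ∃ N, R.WN Q (x1, t) (x2, t) N := by
  have key : ∀ n : ℕ, ∀ y, a ≤ y → y + n ≤ b → ∃ N, R.WN Q (y, t) (y + n, t) N := by
    intro n
    induction n with
    | zero => intro y h3 h4; exact ⟨0, by simpa using WN.nil (hQ ⟨h3, by simpa using h4, rfl⟩)⟩
    | succ n ih =>
      intro y h3 h4
      push_cast at h4 ⊢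
      obtain ⟨N, hN⟩ := ih y h3 (by omega)
      have hs : R.Stp (y + n, t) (y + (n + 1), t)
          (fun f => if f.1 = y + n ∧ f.2 + 1 ≤ t then 1 else 0) := by
        rw [← add_assoc]
        exact .right (hr.gl _ (by omega) (by omega))
      exact ⟨_, hN.cons hs (hQ ⟨by simp only; omega, by simp only; omega, rfl⟩)⟩
  rcases le_total x1 x2 with h3 | h3
  · obtain ⟨N, hN⟩ := key (x2 - x1).toNat x1 h1 (by omega)
    rw [Int.toNat_of_nonneg (by omega), add_sub_cancel] at hN
    exact ⟨N, hN⟩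
  · obtain ⟨N, hN⟩ := key (x1 - x2).toNat x2 h2 (by omega)
    rw [Int.toNat_of_nonneg (by omega), add_sub_cancel] at hN
    exact ⟨N, hN.symm⟩

lemma good_run {a b t : ℤ} (hr : R.IsRun a b t) : R.Good (cells a b t) := by
  refine ⟨?_, ?_, ?_⟩
  · rintro ⟨x, y⟩ ⟨h1, h2, h3⟩
    simp only at h1 h2 h3
    subst h3
    exact_mod_cast hr.mem h1 h2
  · intro x y h
    simp only [cells, Set.mem_setOf_eq]
    constructor
    · rintro ⟨h1, h2, rfl⟩
      refine ⟨by omega, ?_, rfl⟩
      by_contra h3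
      have : x = b := by omega
      subst this
      exact hr.lb h
    · rintro ⟨h1, h2, rfl⟩
      refine ⟨?_, by omega, rfl⟩
      by_contra h3
      have : x = a - 1 := by omega
      subst this
      exact hr.la h
  · rintro ⟨x, y⟩ ⟨h1, h2, h3⟩ ⟨x', y'⟩ ⟨h1', h2', h3'⟩
    simp only at h1 h2 h3 h1' h2' h3'
    subst h3 h3'
    exact hr.walk_in subset_rfl h1 h2 h1' h2'

lemma Good.add_run {Q : Set (ℤ × ℤ)} (hQ : R.Good Q) {a b t : ℤ} (hr : R.IsRun a b t)
    (hc : ∃ p ∈ Q, ∃ x, a ≤ x ∧ x ≤ b ∧ ∃ M, R.Stp p (x, t) M) : R.Good (Q ∪ cells a b t) := by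
  have hg := good_run hr
  obtain ⟨p, hp, x, hx1, hx2, M, hM⟩ := hc
  refine ⟨Set.union_subset hQ.sub hg.sub, ?_, ?_⟩
  · intro x y h
    rw [Set.mem_union, Set.mem_union, hQ.clo _ _ h, hg.clo _ _ h]
  · have key : ∀ q ∈ Q ∪ cells a b t, ∃ N, R.WN (Q ∪ cells a b t) p q N := by
      rintro q (hq | hq)
      · obtain ⟨N, hN⟩ := hQ.conn p hp q hq
        exact ⟨N, hN.mono Set.subset_union_left⟩
      · obtain ⟨N, hN⟩ := hg.conn (x, t) ⟨hx1, hx2, rfl⟩ q hq
        have h1 := (WN.nil (R := R) (Set.mem_union_left (cells a b t) hp)).cons hM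
          (Or.inr ⟨hx1, hx2, rfl⟩)
        exact ⟨_, h1.trans (hN.mono Set.subset_union_right)⟩
    intro q hq r hr'
    obtain ⟨N, hN⟩ := key q hq
    obtain ⟨N', hN'⟩ := key r hr'
    exact ⟨_, hN.symm.trans hN'⟩

/-- **growth induction**: root run, then one run at a time -/
theorem grow (hsc : R.SC) (hc : R.Conn) {a0 b0 t0 : ℤ} (hr0 : R.IsRun a0 b0 t0)
    (F : Set (ℤ × ℤ) → Prop) (h0 : F (cells a0 b0 t0))
    (hstep : ∀ (Q : Set (ℤ × ℤ)) (a b t : ℤ), F Q → R.Good Q → cells a0 b0 t0 ⊆ Q → R.IsRun a b t →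
      (∀ x, a ≤ x → x ≤ b → (x, t) ∉ Q) →
      ((∃ u v, R.Below Q a b t u v) ∨ (∃ u v, R.Above Q a b t u v)) → F (Q ∪ cells a b t)) :
    F (R.P : Set (ℤ × ℤ)) := by
  classical
  have key : ∀ n : ℕ, ∀ Q : Set (ℤ × ℤ), F Q → R.Good Q → cells a0 b0 t0 ⊆ Q →
      ((R.P : Set (ℤ × ℤ)) \ Q).ncard ≤ n → F (R.P : Set (ℤ × ℤ)) := by
    intro n
    induction n with
    | zero =>
      intro Q hF hQ h1 h2
      have h3 : ((R.P : Set (ℤ × ℤ)) \ Q).ncard = 0 := by omega
      rw [Set.ncard_eq_zero (R.P.finite_toSet.subset Set.diff_subset), Set.diff_eq_empty] at h3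
      rw [Set.Subset.antisymm h3 hQ.sub]
      exact hF
    | succ n ih =>
      intro Q hF hQ h1 h2
      by_cases h3 : (R.P : Set (ℤ × ℤ)) ⊆ Q
      · rw [Set.Subset.antisymm h3 hQ.sub]
        exact hF
      · obtain ⟨a, b, t, g1, g2, g3⟩ := grow_step hsc hc hQ
          ⟨(a0, t0), h1 ⟨le_refl _, hr0.hab, rfl⟩⟩ h3
        refine ih (Q ∪ cells a b t) (hstep Q a b t hF hQ h1 g1 g2 g3) (hQ.add_run g1 ?_)
          (h1.trans Set.subset_union_left) ?_
        · rcases g3 with ⟨u, v, g3⟩ | ⟨u, v, g3⟩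
          · have g4 := g3.con u (le_refl _) g3.uv
            have g5 : R.Stp (u, t - 1) (u, t) (fun _ => 0) := by
              have := Stp.up g4.1
              rwa [sub_add_cancel] at this
            exact ⟨_, g4.2, u, g3.au, g3.uv.trans g3.vb, _, g5⟩
          · have g4 := g3.con u (le_refl _) g3.uv
            exact ⟨_, g4.2, u, g3.au, g3.uv.trans g3.vb, _, .down g4.1⟩
        · have h4 : (a, t) ∈ (R.P : Set (ℤ × ℤ)) \ Q :=
            ⟨by exact_mod_cast g1.memP, g2 a (le_refl _) g1.hab⟩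
          have h5 : (R.P : Set (ℤ × ℤ)) \ (Q ∪ cells a b t) ⊂ (R.P : Set (ℤ × ℤ)) \ Q := by
            refine ⟨Set.diff_subset_diff_right Set.subset_union_left, fun h => ?_⟩
            exact (h h4).2 (Or.inr ⟨le_refl _, g1.hab, rfl⟩)
          have := Set.ncard_lt_ncard h5 (R.P.finite_toSet.subset Set.diff_subset)
          omega
  exact key _ _ h0 (good_run hr0) subset_rfl (le_refl _)

end Reg

end Crest.Agent.R158.Xr249
end

-- ▼ part R158/Xr5_249
section

/-!
# R158, block XR (helper249), file Xr5: a hole-free region is a word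

* `Reg.gl R` : the glueing relation of the region on the ports `Port (ℤ × ℤ)`
* `Reg.gl_glue` : symmetric, functional
* **`Reg.st`** : `R.SC`, `R.Conn`, root run `a0..b0` in row `t0` ⟹
  `St (some (a0, t0)) R.gl (some '' R.P)`: there is a word from the tile `(a0, t0)` with exactly the
  tiles `R.P` and exactly the glued pairs of `R`; the port `W` of the base tile is not glued
-/

set_option autoImplicit false
set_option linter.unusedVariables false

namespace Crest.Agent.R158.Xr249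

namespace Reg

variable {R : Reg}

/-- the glueing relation on ports, sides `W = 0, N = 1, E = 2, S = 3` -/
def gl (R : Reg) : Port (ℤ × ℤ) → Port (ℤ × ℤ) → Prop
  | none, _ => False
  | some (t, d), q =>
      (d = 0 ∧ R.h (t.1 - 1, t.2) ∧ q = some ((t.1 - 1, t.2), 2)) ∨
      (d = 1 ∧ R.v (t.1, t.2) ∧ q = some ((t.1, t.2 + 1), 3)) ∨
      (d = 2 ∧ R.h (t.1, t.2) ∧ q = some ((t.1 + 1, t.2), 0)) ∨
      (d = 3 ∧ R.v (t.1, t.2 - 1) ∧ q = some ((t.1, t.2 - 1), 1))

lemma gl_0 {x y : ℤ} {q : Port (ℤ × ℤ)} :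
    R.gl (some ((x, y), 0)) q ↔ R.h (x - 1, y) ∧ q = some ((x - 1, y), 2) := by
  simp only [gl]
  constructor
  · rintro (⟨-, h⟩ | ⟨h, -⟩ | ⟨h, -⟩ | ⟨h, -⟩)
    · exact h
    · exact absurd h (by decide)
    · exact absurd h (by decide)
    · exact absurd h (by decide)
  · intro h; exact Or.inl ⟨trivial, h⟩

lemma gl_1 {x y : ℤ} {q : Port (ℤ × ℤ)} :
    R.gl (some ((x, y), 1)) q ↔ R.v (x, y) ∧ q = some ((x, y + 1), 3) := by
  simp only [gl]
  constructor
  · rintro (⟨h, -⟩ | ⟨-, h⟩ | ⟨h, -⟩ | ⟨h, -⟩)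
    · exact absurd h (by decide)
    · exact h
    · exact absurd h (by decide)
    · exact absurd h (by decide)
  · intro h; exact Or.inr (Or.inl ⟨trivial, h⟩)

lemma gl_2 {x y : ℤ} {q : Port (ℤ × ℤ)} :
    R.gl (some ((x, y), 2)) q ↔ R.h (x, y) ∧ q = some ((x + 1, y), 0) := by
  simp only [gl]
  constructor
  · rintro (⟨h, -⟩ | ⟨h, -⟩ | ⟨-, h⟩ | ⟨h, -⟩)
    · exact absurd h (by decide)
    · exact absurd h (by decide)
    · exact h
    · exact absurd h (by decide)
  · intro h; exact Or.inr (Or.inr (Or.inl ⟨trivial, h⟩))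

lemma gl_3 {x y : ℤ} {q : Port (ℤ × ℤ)} :
    R.gl (some ((x, y), 3)) q ↔ R.v (x, y - 1) ∧ q = some ((x, y - 1), 1) := by
  simp only [gl]
  constructor
  · rintro (⟨h, -⟩ | ⟨h, -⟩ | ⟨h, -⟩ | ⟨-, h⟩)
    · exact absurd h (by decide)
    · exact absurd h (by decide)
    · exact absurd h (by decide)
    · exact h
  · intro h; exact Or.inr (Or.inr (Or.inr ⟨trivial, h⟩))

lemma d4 (d : ZMod 4) : d = 0 ∨ d = 1 ∨ d = 2 ∨ d = 3 := by
  revert d; decide

theorem gl_glue (R : Reg) : Glue R.gl := by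
  refine ⟨?_, ?_, ?_⟩
  · rintro (- | ⟨⟨x, y⟩, d⟩) q h
    · exact h.elim
    · rcases d4 d with rfl | rfl | rfl | rfl
      · obtain ⟨h1, rfl⟩ := gl_0.1 h
        exact gl_2.2 ⟨h1, by rw [sub_add_cancel]⟩
      · obtain ⟨h1, rfl⟩ := gl_1.1 h
        exact gl_3.2 ⟨by rwa [add_sub_cancel_right], by rw [add_sub_cancel_right]⟩
      · obtain ⟨h1, rfl⟩ := gl_2.1 h
        exact gl_0.2 ⟨by rwa [add_sub_cancel_right], by rw [add_sub_cancel_right]⟩
      · obtain ⟨h1, rfl⟩ := gl_3.1 h
        exact gl_1.2 ⟨h1, by rw [sub_add_cancel]⟩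
  · rintro (- | ⟨⟨x, y⟩, d⟩) q q' h h'
    · exact h.elim
    · rcases d4 d with rfl | rfl | rfl | rfl
      · rw [(gl_0.1 h).2, (gl_0.1 h').2]
      · rw [(gl_1.1 h).2, (gl_1.1 h').2]
      · rw [(gl_2.1 h).2, (gl_2.1 h').2]
      · rw [(gl_3.1 h).2, (gl_3.1 h').2]
  · rintro (- | ⟨⟨x, y⟩, d⟩) q h
    · exact h.elim
    · rcases d4 d with rfl | rfl | rfl | rfl
      · rw [(gl_0.1 h).2]; simp; omega
      · rw [(gl_1.1 h).2]; simp
      · rw [(gl_2.1 h).2]; simp
      · rw [(gl_3.1 h).2]; simp; omega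

/-- the tiles of a row -/
def rw_ (t : ℤ) : ℤ → ℤ × ℤ := fun x => (x, t)

lemma Row_eq (a b t : ℤ) : Row (rw_ t) a b = some '' cells a b t := by
  ext o
  constructor
  · rintro ⟨x, h1, h2, rfl⟩
    exact ⟨(x, t), ⟨h1, h2, rfl⟩, rfl⟩
  · rintro ⟨⟨x, y⟩, ⟨h1, h2, h3⟩, rfl⟩
    simp only at h1 h2 h3
    exact ⟨x, h1, h2, by rw [h3]; rfl⟩

lemma mem_some {Q : Set (ℤ × ℤ)} {p : ℤ × ℤ} : some p ∈ some '' Q ↔ p ∈ Q := by
  simp

lemma mem_cells {a b t x y : ℤ} : (x, y) ∈ cells a b t ↔ a ≤ x ∧ x ≤ b ∧ y = t := Iff.rfl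

/-- attaching a run that touches `Q` below -/
lemma rowBelow {Q : Set (ℤ × ℤ)} (hQ : R.Good Q) {a b t u v : ℤ} (hr : R.IsRun a b t)
    (hd : ∀ x, a ≤ x → x ≤ b → (x, t) ∉ Q) (hb : R.Below Q a b t u v) :
    RowData R.gl (some '' Q) (rw_ t) a b u v 3 (fun x => some ((x, t - 1), 1)) := by
  have hmem : ∀ q : ℤ × ℤ, some q ∈ some '' Q ∪ Row (rw_ t) a b ↔ q ∈ Q ∨ q ∈ cells a b t := by
    intro q
    rw [Row_eq, Set.mem_union, mem_some, mem_some]
  refine ⟨Or.inr rfl, hb.au, hb.uv, hb.vb, ?_, ?_, ?_, ?_, ?_, ?_, ?_, ?_, ?_, ?_⟩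
  · intro x y _ _ _ _ h
    exact (Prod.mk.injEq _ _ _ _ ▸ h : x = y ∧ t = t).1
  · intro x h1 h2 h3
    exact hd x h1 h2 (mem_some.1 h3)
  · intro x h1 h2
    exact gl_2.2 ⟨hr.gl x h1 h2, rfl⟩
  · intro q hq
    exact absurd (gl_0.1 hq).1 hr.la
  · intro q hq
    exact absurd (gl_2.1 hq).1 hr.lb
  · intro x h1 h2 q hq hm
    obtain ⟨h3, rfl⟩ := gl_1.1 (show R.gl (some ((x, t), 1)) q from hq)
    rcases (hmem _).1 hm with h4 | h4
    · exact hb.free x h1 h2 ⟨h3, h4⟩
    · have := h4.2.2; simp only at this; omega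
  · intro x h1 h2
    exact ⟨gl_3.2 ⟨(hb.con x h1 h2).1, rfl⟩, mem_some.2 (hb.con x h1 h2).2⟩
  · intro x h1 h2 h3 q hq hm
    obtain ⟨h4, rfl⟩ := gl_3.1 (show R.gl (some ((x, t), 3)) q from hq)
    rcases (hmem _).1 hm with h5 | h5
    · exact hb.out x h1 h2 h3 ⟨h4, h5⟩
    · have := h5.2.2; simp only at this; omega
  · intro _ x h1 h2
    have c1 := hb.con x h1 (by omega)
    have c2 := hb.con (x + 1) (by omega) (by omega)
    refine .go (q := some ((x + 1, t - 1), 0)) ⟨?_, mem_some.2 c1.2, mem_some.2 c2.2⟩ ?_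
    · rw [rot_some]
      exact gl_2.2 ⟨hb.hor x h1 h2, rfl⟩
    · refine .stop (p := some ((x + 1, t - 1), 0)) fun q hq => ?_
      rw [rot_some] at hq
      obtain ⟨h4, h5⟩ := gl_1.1 (show R.gl (some ((x + 1, t - 1), 1)) q from hq.1)
      rw [sub_add_cancel] at h5
      rw [h5] at hq
      have h6 := hb.au
      have h7 := hb.vb
      exact hd (x + 1) (by omega) (by omega) (mem_some.1 hq.2.2)
  · intro h; exact absurd h (by decide)

/-- attaching a run that touches `Q` above -/
lemma rowAbove {Q : Set (ℤ × ℤ)} (hQ : R.Good Q) {a b t u v : ℤ} (hr : R.IsRun a b t)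
    (hd : ∀ x, a ≤ x → x ≤ b → (x, t) ∉ Q) (hb : R.Above Q a b t u v) :
    RowData R.gl (some '' Q) (rw_ t) a b u v 1 (fun x => some ((x, t + 1), 3)) := by
  have hmem : ∀ q : ℤ × ℤ, some q ∈ some '' Q ∪ Row (rw_ t) a b ↔ q ∈ Q ∨ q ∈ cells a b t := by
    intro q
    rw [Row_eq, Set.mem_union, mem_some, mem_some]
  refine ⟨Or.inl rfl, hb.au, hb.uv, hb.vb, ?_, ?_, ?_, ?_, ?_, ?_, ?_, ?_, ?_, ?_⟩
  · intro x y _ _ _ _ h
    exact (Prod.mk.injEq _ _ _ _ ▸ h : x = y ∧ t = t).1
  · intro x h1 h2 h3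
    exact hd x h1 h2 (mem_some.1 h3)
  · intro x h1 h2
    exact gl_2.2 ⟨hr.gl x h1 h2, rfl⟩
  · intro q hq
    exact absurd (gl_0.1 hq).1 hr.la
  · intro q hq
    exact absurd (gl_2.1 hq).1 hr.lb
  · intro x h1 h2 q hq hm
    obtain ⟨h3, rfl⟩ := gl_3.1 (show R.gl (some ((x, t), 3)) q from hq)
    rcases (hmem _).1 hm with h4 | h4
    · exact hb.free x h1 h2 ⟨h3, h4⟩
    · have := h4.2.2; simp only at this; omega
  · intro x h1 h2
    exact ⟨gl_1.2 ⟨(hb.con x h1 h2).1, rfl⟩, mem_some.2 (hb.con x h1 h2).2⟩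
  · intro x h1 h2 h3 q hq hm
    obtain ⟨h4, rfl⟩ := gl_1.1 (show R.gl (some ((x, t), 1)) q from hq)
    rcases (hmem _).1 hm with h5 | h5
    · exact hb.out x h1 h2 h3 ⟨h4, h5⟩
    · have := h5.2.2; simp only at this; omega
  · intro h; exact absurd h (by decide)
  · intro _ x h1 h2
    have c1 := hb.con x h1 (by omega)
    have c2 := hb.con (x + 1) (by omega) (by omega)
    refine .go (q := some ((x, t + 1), 2)) ⟨?_, mem_some.2 c2.2, mem_some.2 c1.2⟩ ?_
    · rw [rot_some, show (3 : ZMod 4) + 1 = 0 by decide]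
      refine gl_0.2 ⟨?_, ?_⟩
      · rw [add_sub_cancel_right]; exact hb.hor x h1 h2
      · rw [add_sub_cancel_right]
    · refine .stop (p := some ((x, t + 1), 2)) fun q hq => ?_
      rw [rot_some] at hq
      obtain ⟨h4, h5⟩ := gl_3.1 (show R.gl (some ((x, t + 1), 3)) q from hq.1)
      rw [add_sub_cancel_right] at h5
      rw [h5] at hq
      have h6 := hb.au
      have h7 := hb.vb
      exact hd x (by omega) (by omega) (mem_some.1 hq.2.2)

/-- the root run is a word -/
lemma st_run {a b t : ℤ} (hr : R.IsRun a b t) : St (some (a, t)) R.gl (some '' cells a b t) := by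
  have key : ∀ n : ℕ, a + n ≤ b → St (some (a, t)) R.gl (some '' cells a (a + n) t) := by
    intro n
    induction n with
    | zero =>
      intro _
      have e : (some '' cells a (a + ((0 : ℕ) : ℤ)) t : Set (Option (ℤ × ℤ))) = {some (a, t)} := by
        rw [← Row_eq]
        have := Row_self (rw_ t) a
        simpa [rw_] using this
      rw [e]
      exact St.base (gl_glue R)
    | succ n ih =>
      intro hn
      push_cast at hn
      have ih' := ih (by omega)
      have e : (some '' cells a (a + ((n + 1 : ℕ) : ℤ)) t : Set (Option (ℤ × ℤ))) =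
          insert (some (a + n + 1, t)) (some '' cells a (a + n) t) := by
        rw [← Row_eq, ← Row_eq, show a + ((n + 1 : ℕ) : ℤ) = a + n + 1 by push_cast; ring,
          Row_succ (rw_ t) (by omega)]
        rfl
      rw [e]
      have hW : R.gl (some ((a + n + 1, t), 0)) (some ((a + n, t), 2)) :=
        gl_0.2 ⟨by rw [add_sub_cancel_right]; exact hr.gl _ (by omega) (by omega),
          by rw [add_sub_cancel_right]⟩
      refine ih'.add_one (gl_glue R) ?_ 0 hW (mem_some.2 ⟨by simp, le_refl _, rfl⟩) ?_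
      · rw [mem_some, mem_cells]; omega
      · intro e he q hq hm
        rcases d4 e with rfl | rfl | rfl | rfl
        · exact he rfl
        · obtain ⟨h1, rfl⟩ := gl_1.1 hq
          have := (mem_some.1 hm).2.2; simp only at this; omega
        · obtain ⟨h1, rfl⟩ := gl_2.1 hq
          have := (mem_some.1 hm).2.1; simp only at this; omega
        · obtain ⟨h1, rfl⟩ := gl_3.1 hq
          have := (mem_some.1 hm).2.2; simp only at this; omega
  have := key (b - a).toNat (by have := hr.hab; omega)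
  have h2 := hr.hab
  rwa [Int.toNat_of_nonneg (by omega), add_sub_cancel] at this

/-- **a hole-free connected region is a word** -/
theorem st (hsc : R.SC) (hc : R.Conn) {a0 b0 t0 : ℤ} (hr0 : R.IsRun a0 b0 t0) :
    St (some (a0, t0)) R.gl (some '' (R.P : Set (ℤ × ℤ))) := by
  refine grow hsc hc hr0 (fun Q => St (some (a0, t0)) R.gl (some '' Q)) (st_run hr0) ?_
  intro Q a b t hF hQ _ hr hd hcon
  rw [Set.image_union, ← Row_eq]
  rcases hcon with ⟨u, v, hb⟩ | ⟨u, v, hb⟩
  · exact hF.attach_row (gl_glue R) (rowBelow hQ hr hd hb)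
  · exact hF.attach_row (gl_glue R) (rowAbove hQ hr hd hb)

/-- the same with the word spelled out: boundary cycle, invariants, glueing -/
theorem word (hsc : R.SC) (hc : R.Conn) {a0 b0 t0 : ℤ} (hr0 : R.IsRun a0 b0 t0) :
    ∃ c : Cycle (Port (ℤ × ℤ)), Wd (some (a0, t0)) c (some '' (R.P : Set (ℤ × ℤ)))
        (GA R.gl (some '' (R.P : Set (ℤ × ℤ)))) ∧ c.Nodup ∧
      (∀ p, p ∈ c ↔ (∃ t d, p = some (t, d) ∧ t ∈ R.P) ∧ ∀ q, ¬ R.gl p q) ∧
      c.Chain (Nx (GA R.gl (some '' (R.P : Set (ℤ × ℤ))))) ∧ some ((a0, t0), 0) ∈ c := by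
  obtain ⟨c, hw⟩ := st hsc hc hr0
  have hi := hw.inv
  have hGl : ∀ p q, R.gl p q → GA R.gl (some '' (R.P : Set (ℤ × ℤ))) p q := by
    rintro (- | ⟨⟨x, y⟩, d⟩) q h
    · exact h.elim
    · refine ⟨h, ?_⟩
      rcases d4 d with rfl | rfl | rfl | rfl
      · obtain ⟨h1, rfl⟩ := gl_0.1 h
        have := R.hP _ _ h1
        rw [sub_add_cancel] at this
        exact ⟨mem_some.2 (by exact_mod_cast this.2), mem_some.2 (by exact_mod_cast this.1)⟩
      · obtain ⟨h1, rfl⟩ := gl_1.1 h
        have := R.vP _ _ h1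
        exact ⟨mem_some.2 (by exact_mod_cast this.1), mem_some.2 (by exact_mod_cast this.2)⟩
      · obtain ⟨h1, rfl⟩ := gl_2.1 h
        have := R.hP _ _ h1
        exact ⟨mem_some.2 (by exact_mod_cast this.1), mem_some.2 (by exact_mod_cast this.2)⟩
      · obtain ⟨h1, rfl⟩ := gl_3.1 h
        have := R.vP _ _ h1
        rw [sub_add_cancel] at this
        exact ⟨mem_some.2 (by exact_mod_cast this.2), mem_some.2 (by exact_mod_cast this.1)⟩
  have hmem : ∀ p, p ∈ c ↔ (∃ t d, p = some (t, d) ∧ t ∈ R.P) ∧ ∀ q, ¬ R.gl p q := by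
    intro p
    rw [hi.mem p]
    constructor
    · rintro ⟨h1, h2⟩
      refine ⟨?_, fun q hq => h2 q (hGl p q hq)⟩
      rcases p with - | ⟨t, d⟩
      · simp at h1
      · exact ⟨t, d, rfl, by simpa using h1⟩
    · rintro ⟨⟨t, d, rfl, h1⟩, h2⟩
      exact ⟨mem_some.2 (by exact_mod_cast h1), fun q hq => h2 q hq.1⟩
  refine ⟨c, hw, hi.nd, hmem, hi.chain, (hmem _).2 ⟨⟨_, _, rfl, hr0.memP⟩, fun q hq => ?_⟩⟩
  exact hr0.la (gl_0.1 hq).1

end Reg

end Crest.Agent.R158.Xr249
private theorem rz_01b7b60b15 : type_of% @_root_.Crest.Agent.R158.Xr249.Reg.gl.eq_1 := @_root_.Crest.Agent.R158.Xr249.Reg.gl.eq_1 -- L23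
end

-- ▼ part R158/Xr6_249

/-!
# R158, block XR (helper249), file Xr6: adapter to the official carrier `Sw300` (helper300)

* `Ad b w c A G` : the word `w` of `Sw300` has base `b`, boundary cycle `c`, tiles `A`, glueing `G`
* **`Wd.adapt`** : every `Wd b c A G` whose base side `W` is not glued is an `Ok` word of `Sw300`
* **`Reg.ok`** : hole-free connected region ⟹ `Ok` word with the same tiles and `be w` = glueing
-/

set_option autoImplicit false
set_option linter.unusedVariables false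

namespace Crest.Agent.R158.Xr249

variable {T : Type*} [DecidableEq T]

/-- base of a word of `Sw300` (`none` = leg) -/
def bas : Sw300.Wd T → Option T
  | .leg => none
  | .tile t => some t
  | .att w _ _ _ => bas w
  | .con w _ _ => bas w

/-- the marker (present iff the base is a tile) -/
def mk : Option T → List (Port T)
  | none => []
  | some _ => [none]

/-- `w` is a word of `Sw300` with base `b`, boundary cycle `c`, tiles `A`, glueing `G` -/
structure Ad (b : Option T) (w : Sw300.Wd T) (c : Cycle (Port T)) (A : Set (Option T))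
    (G : Port T → Port T → Prop) : Prop where
  ok : Sw300.Ok w
  bas : bas w = b
  tls : ∀ t, t ∈ Sw300.tls w ↔ some t ∈ A
  nod : (Sw300.tls w).Nodup
  be : ∀ p q, G p q ↔ (Sw300.be w p = q ∧ p ≠ q)
  L : ∃ l, Sw300.L w = mk b ++ l ∧ c = (l : Cycle (Port T)) ∧
    ∀ t, b = some t → ∃ l', l = some (t, 0) :: l'
  leg : none ∈ c → w = .leg
  fc : (∀ p q, G p q → Sw300.sd q = Sw300.sd p + 2) → Sw300.Fc w

omit [DecidableEq T] in
lemma Wd.none_mem {b : Option T} {c : Cycle (Port T)} {A : Set (Option T)}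
    {G : Port T → Port T → Prop} (h : Wd b c A G) : none ∈ A ↔ b = none := by
  induction h with
  | base => rw [Set.mem_singleton_iff]; exact eq_comm
  | att t d _ _ ih => rw [Set.mem_insert_iff, ih]; simp
  | con _ ih => exact ih

lemma flatMap_id {p : Port T} {m : List (Port T)} : ∀ {l : List (Port T)}, p ∉ l →
    (l.flatMap fun x => if x = p then m else [x]) = l := by
  intro l
  induction l with
  | nil => intro _; rfl
  | cons a l ih =>
    intro h
    rw [List.flatMap_cons, if_neg (fun e => h (by simp [e])), ih (fun e => h (by simp [e]))]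
    rfl

lemma flatMap_at {p : Port T} {m l1 l2 : List (Port T)} (h1 : p ∉ l1) (h2 : p ∉ l2) :
    ((l1 ++ p :: l2).flatMap fun x => if x = p then m else [x]) = l1 ++ (m ++ l2) := by
  rw [List.flatMap_append, List.flatMap_cons, if_pos rfl, flatMap_id h1, flatMap_id h2]

lemma filter_id {p q : Port T} {l : List (Port T)} (h1 : p ∉ l) (h2 : q ∉ l) :
    (l.filter fun x => x ≠ p ∧ x ≠ q) = l := by
  rw [List.filter_eq_self]
  intro a ha
  simp only [ne_eq, decide_eq_true_eq]
  exact ⟨fun e => h1 (e ▸ ha), fun e => h2 (e ▸ ha)⟩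

omit [DecidableEq T] in
/-- rotating a nodup cons -/
lemma rot_cons {p : Port T} {l l1 l2 : List (Port T)} (hnd : (p :: l).Nodup)
    (h : ((p :: l : List (Port T)) : Cycle (Port T)) = ((l1 ++ p :: l2 : List (Port T)) : Cycle (Port T))) :
    l = l2 ++ l1 := by
  have h1 : ((l1 ++ p :: l2 : List (Port T)) : Cycle (Port T)) =
      ((p :: (l2 ++ l1) : List (Port T)) : Cycle (Port T)) := by
    rw [Cycle.coe_eq_coe]
    have := List.isRotated_append (l := l1) (l' := p :: l2)
    simpa using this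
  rw [h1, Cycle.coe_eq_coe] at h
  obtain ⟨n, hn⟩ := h
  have hlen : 0 < (p :: l).length := by simp
  have h2 : ((p :: l).rotate n)[0]? = some p := by rw [hn]; rfl
  have h3 : (p :: l)[n % (p :: l).length]? = some p := by
    rw [← h2, List.getElem?_rotate hlen]
    simp
  have h4 : n % (p :: l).length = 0 := by
    by_contra h5
    obtain ⟨k, hk⟩ := Nat.exists_eq_succ_of_ne_zero h5
    rw [hk] at h3
    simp only [Nat.succ_eq_add_one, List.getElem?_cons_succ] at h3
    exact (List.nodup_cons.1 hnd).1 (List.mem_of_getElem? h3)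
  have h5 : (p :: l).rotate n = p :: l := by
    rw [← List.rotate_mod, h4, List.rotate_zero]
  rw [h5] at hn
  exact (List.cons.inj hn).2

/-- **the adapter** -/
theorem Wd.adapt {b : Option T} {c : Cycle (Port T)} {A : Set (Option T)}
    {G : Port T → Port T → Prop} (h : Wd b c A G)
    (h0 : ∀ t, b = some t → ∀ q, ¬ G (some (t, 0)) q) : ∃ w, Ad b w c A G := by
  induction h with
  | base =>
    rcases b with - | t
    · refine ⟨.leg, trivial, rfl, ?_, List.nodup_nil, ?_, ⟨[none], rfl, rfl, ?_⟩, fun _ => rfl,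
        fun _ => trivial⟩
      · intro t; simp [Sw300.tls]
      · intro p q
        exact ⟨False.elim, fun h => h.2 h.1⟩
      · intro t h; cases h
    · refine ⟨.tile t, trivial, rfl, ?_, List.nodup_singleton _, ?_,
        ⟨baseL (some t), rfl, rfl, ?_⟩, ?_, fun _ => trivial⟩
      · intro t'; simp [Sw300.tls]
      · intro p q
        exact ⟨False.elim, fun h => h.2 h.1⟩
      · rintro t' h
        cases h
        exact ⟨_, rfl⟩
      · intro h
        rw [Cycle.mem_coe_iff] at h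
        simp [baseL] at h
  | @att p l A G t d h1 h2 ih =>
    obtain ⟨w, hw⟩ := ih fun t ht q hq => h0 t ht q (Or.inl hq)
    have hi := h1.inv
    have hi' := (h1.att t d h2).inv
    obtain ⟨l0, hL, hc, hb⟩ := hw.L
    have hnd := hi.nd
    rw [Cycle.nodup_coe_iff] at hnd
    have hp : p ∈ l0 := by
      have : p ∈ ((p :: l : List (Port T)) : Cycle (Port T)) := by simp
      rwa [hc, Cycle.mem_coe_iff] at this
    have hnd0 : l0.Nodup := by
      have := hi.nd
      rwa [hc, Cycle.nodup_coe_iff] at this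
    obtain ⟨l1, l2, rfl⟩ := List.append_of_mem hp
    have hl : l = l2 ++ l1 := rot_cons hnd hc
    have hnd1 : p ∉ l1 ∧ p ∉ l2 := by
      rw [hl] at hnd
      have := (List.nodup_cons.1 hnd).1
      simp only [List.mem_append, not_or] at this
      exact ⟨this.2, this.1⟩
    have hpm : p ∉ mk b := by
      rcases b with - | t0
      · simp [mk]
      · simp only [mk, List.mem_singleton]
        rintro rfl
        have h3 := (hi.mem none).1 (by simp)
        have := h1.none_mem.1 (by simpa using h3.1)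
        cases this
    have hpleg : p = none → w = .leg := by
      rintro rfl
      exact hw.leg (by simp)
    have hptd : p ≠ some (t, d) := by
      intro he
      exact h2 (by simpa [he] using ((hi.mem p).1 (by simp)).1)
    refine ⟨.att w p t d, ⟨hw.ok, ?_, ?_, hpleg⟩, hw.bas, ?_, ?_, ?_, ?_, ?_, ?_⟩
    · rw [hL]; simp
    · rw [hw.tls]; exact h2
    · intro t'
      simp only [Sw300.tls, List.mem_cons, hw.tls, Set.mem_insert_iff, Option.some.injEq]
    · exact List.nodup_cons.2 ⟨fun h => h2 ((hw.tls t).1 h), hw.nod⟩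
    · intro x y
      simp only [Sw300.be]
      by_cases hx : x = p
      · subst hx
        rw [if_pos rfl]
        constructor
        · intro h3
          have := hi'.fn _ _ _ h3 (Or.inr (Or.inl ⟨rfl, rfl⟩))
          exact ⟨this.symm, this ▸ hptd⟩
        · rintro ⟨rfl, -⟩
          exact Or.inr (Or.inl ⟨rfl, rfl⟩)
      · rw [if_neg hx]
        by_cases hx2 : x = some (t, d)
        · subst hx2
          rw [if_pos rfl]
          constructor
          · intro h3
            have := hi'.fn _ _ _ h3 (Or.inr (Or.inr ⟨rfl, rfl⟩))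
            exact ⟨this.symm, this ▸ hptd.symm⟩
          · rintro ⟨rfl, -⟩
            exact Or.inr (Or.inr ⟨rfl, rfl⟩)
        · rw [if_neg hx2, ← hw.be]
          constructor
          · rintro (h3 | ⟨h3, -⟩ | ⟨h3, -⟩)
            · exact h3
            · exact absurd h3 hx
            · exact absurd h3 hx2
          · exact Or.inl
    · refine ⟨l1 ++ ([some (t, d + 1), some (t, d + 2), some (t, d + 3)] ++ l2), ?_, ?_, ?_⟩
      · simp only [Sw300.L]
        rw [hL, List.flatMap_append, flatMap_at hnd1.1 hnd1.2, flatMap_id hpm]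
      · rw [hl, Cycle.coe_eq_coe]
        have := List.isRotated_append (l := some (t, d + 1) :: some (t, d + 2) :: some (t, d + 3) :: l2)
          (l' := l1)
        simpa using this
      · intro t0 ht0
        obtain ⟨l', hl'⟩ := hb t0 ht0
        cases l1 with
        | nil =>
          simp only [List.nil_append, List.cons.injEq] at hl'
          exact absurd (Or.inr (Or.inl ⟨hl'.1.symm, rfl⟩)) (h0 t0 ht0 (some (t, d)))
        | cons a m =>
          simp only [List.cons_append, List.cons.injEq] at hl'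
          exact ⟨_, by rw [hl'.1]; rfl⟩
    · intro hn
      exfalso
      rw [Cycle.mem_coe_iff] at hn
      simp only [List.mem_cons, reduceCtorEq, false_or] at hn
      have hwl := hw.leg (by rw [Cycle.mem_coe_iff]; exact List.mem_cons_of_mem _ hn)
      have hb' : b = none := by rw [← hw.bas, hwl]; rfl
      subst hb' hwl
      simp only [Sw300.L, mk, List.nil_append] at hL
      have h5 := congrArg List.length hL
      simp only [List.length_cons, List.length_nil, List.length_append] at h5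
      have h6 : l1 = [] := List.length_eq_zero_iff.1 (by omega)
      have h7 : l2 = [] := List.length_eq_zero_iff.1 (by omega)
      rw [hl, h6, h7] at hn
      simp at hn
    · intro h3
      refine ⟨hw.fc fun p q h4 => h3 p q (Or.inl h4), ?_⟩
      have := h3 p (some (t, d)) (Or.inr (Or.inl ⟨rfl, rfl⟩))
      simpa using this
  | @con p q l A G h1 ih =>
    obtain ⟨w, hw⟩ := ih fun t ht q hq => h0 t ht q (Or.inl hq)
    have hi := h1.inv
    have hi' := h1.con.inv
    obtain ⟨l0, hL, hc, hb⟩ := hw.L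
    have hnd := hi.nd
    rw [Cycle.nodup_coe_iff] at hnd
    have hp : p ∈ l0 := by
      have : p ∈ ((p :: q :: l : List (Port T)) : Cycle (Port T)) := by simp
      rwa [hc, Cycle.mem_coe_iff] at this
    have hnd2 := List.nodup_cons.1 hnd
    have hnd3 := List.nodup_cons.1 hnd2.2
    have hpq : p ≠ q := fun h => hnd2.1 (by simp [h])
    have hpl : p ∉ l := fun h => hnd2.1 (by simp [h])
    have hql : q ∉ l := hnd3.1
    have hnone : ∀ x, x ∈ p :: q :: l → x ≠ none := by
      rintro x hx rfl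
      have hwl := hw.leg (by rw [Cycle.mem_coe_iff]; exact hx)
      have hb' : b = none := by rw [← hw.bas, hwl]; rfl
      subst hb' hwl
      simp only [Sw300.L, mk, List.nil_append] at hL
      rw [← hL, Cycle.coe_eq_coe] at hc
      have := hc.perm.length_eq
      simp at this
    have hpn := hnone p (by simp)
    have hqn := hnone q (by simp)
    obtain ⟨l1, l2, rfl⟩ := List.append_of_mem hp
    have hl : q :: l = l2 ++ l1 := rot_cons hnd hc
    have hpm : p ∉ mk b := by
      rcases b with - | t0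
      · simp [mk]
      · simpa [mk] using hpn
    have hqm : q ∉ mk b := by
      rcases b with - | t0
      · simp [mk]
      · simpa [mk] using hqn
    -- the head is not `p`, not `q` if the base is a tile
    have hhead : ∀ t, b = some t → p ≠ some (t, 0) ∧ q ≠ some (t, 0) := by
      intro t ht
      exact ⟨fun h => h0 t ht q (Or.inr (Or.inl ⟨h.symm, rfl⟩)),
        fun h => h0 t ht p (Or.inr (Or.inr ⟨h.symm, rfl⟩))⟩
    have hmain : (Sw300.Adj (Sw300.L w) p q) ∧
        ∃ l', (Sw300.L w).filter (fun x => x ≠ p ∧ x ≠ q) = mk b ++ l' ∧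
          (l : Cycle (Port T)) = (l' : Cycle (Port T)) ∧
          ∀ t, b = some t → ∃ l'', l' = some (t, 0) :: l'' := by
      cases l2 with
      | nil =>
        -- `l0 = l1 ++ [p]`, `l1 = q :: l`
        rw [List.nil_append] at hl
        have hbn : b = none := by
          rcases b with - | t
          · rfl
          · exfalso
            obtain ⟨l', hl'⟩ := hb t rfl
            rw [← hl, List.cons_append] at hl'
            exact (hhead t rfl).2 (List.cons.inj hl').1
        subst hbn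
        rw [← hl] at hL
        simp only [mk, List.nil_append] at hL
        refine ⟨Or.inr ⟨l, by rw [hL]⟩, l, ?_, rfl, ?_⟩
        · rw [hL]
          simp only [mk, List.nil_append, List.cons_append, List.filter_cons, List.filter_append,
            filter_id hpl hql]
          simp
        · intro t h; cases h
      | cons q' m =>
        rw [List.cons_append] at hl
        obtain ⟨rfl, hl2⟩ := List.cons.inj hl
        refine ⟨Or.inl ⟨mk b ++ l1, m, by rw [hL, List.append_assoc]⟩, l1 ++ m, ?_, ?_, ?_⟩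
        · have k1 : p ∉ l1 := fun h => hpl (by rw [hl2]; simp [h])
          have k2 : q ∉ l1 := fun h => hql (by rw [hl2]; simp [h])
          have k3 : p ∉ m := fun h => hpl (by rw [hl2]; simp [h])
          have k4 : q ∉ m := fun h => hql (by rw [hl2]; simp [h])
          rw [hL]
          simp only [List.filter_cons, List.filter_append, filter_id hpm hqm, filter_id k1 k2,
            filter_id k3 k4]
          simp
        · rw [hl2, Cycle.coe_eq_coe]
          exact List.isRotated_append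
        · intro t ht
          obtain ⟨l', hl'⟩ := hb t ht
          cases l1 with
          | nil =>
            simp only [List.nil_append, List.cons.injEq] at hl'
            exact absurd hl'.1 (hhead t ht).1
          | cons a m' =>
            simp only [List.cons_append, List.cons.injEq] at hl'
            exact ⟨_, by rw [hl'.1]; rfl⟩
    obtain ⟨hadj, l', hf, hlc, hb'⟩ := hmain
    refine ⟨.con w p q, ⟨hw.ok, hpn, hqn, hpq, hadj⟩, hw.bas, hw.tls, hw.nod, ?_, ⟨l', hf, hlc, hb'⟩,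
      ?_, ?_⟩
    · intro x y
      simp only [Sw300.be]
      by_cases hx : x = p
      · subst hx
        rw [if_pos rfl]
        constructor
        · intro h3
          have := hi'.fn _ _ _ h3 (Or.inr (Or.inl ⟨rfl, rfl⟩))
          exact ⟨this.symm, this ▸ hpq⟩
        · rintro ⟨rfl, -⟩
          exact Or.inr (Or.inl ⟨rfl, rfl⟩)
      · rw [if_neg hx]
        by_cases hx2 : x = q
        · subst hx2
          rw [if_pos rfl]
          constructor
          · intro h3
            have := hi'.fn _ _ _ h3 (Or.inr (Or.inr ⟨rfl, rfl⟩))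
            exact ⟨this.symm, this ▸ hpq.symm⟩
          · rintro ⟨rfl, -⟩
            exact Or.inr (Or.inr ⟨rfl, rfl⟩)
        · rw [if_neg hx2, ← hw.be]
          constructor
          · rintro (h3 | ⟨h3, -⟩ | ⟨h3, -⟩)
            · exact h3
            · exact absurd h3 hx
            · exact absurd h3 hx2
          · exact Or.inl
    · intro hn
      rw [Cycle.mem_coe_iff] at hn
      exact absurd rfl (hnone none (by simp [hn]))
    · intro h3
      exact ⟨hw.fc fun p q h4 => h3 p q (Or.inl h4), h3 p q (Or.inr (Or.inl ⟨rfl, rfl⟩))⟩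

namespace Reg

variable {R : Reg}

lemma gl_face {p q : Port (ℤ × ℤ)} (h : R.gl p q) : Sw300.sd q = Sw300.sd p + 2 := by
  rcases p with - | ⟨⟨x, y⟩, d⟩
  · exact h.elim
  · rcases d4 d with rfl | rfl | rfl | rfl
    · rw [(gl_0.1 h).2]; rfl
    · rw [(gl_1.1 h).2]; rfl
    · rw [(gl_2.1 h).2]; rfl
    · rw [(gl_3.1 h).2]; rfl

lemma gl_GA {p q : Port (ℤ × ℤ)} (h : R.gl p q) : GA R.gl (some '' (R.P : Set (ℤ × ℤ))) p q := by
  rcases p with - | ⟨⟨x, y⟩, d⟩
  · exact h.elim
  · refine ⟨h, ?_⟩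
    rcases d4 d with rfl | rfl | rfl | rfl
    · obtain ⟨h1, rfl⟩ := gl_0.1 h
      have := R.hP _ _ h1
      rw [sub_add_cancel] at this
      exact ⟨mem_some.2 (by exact_mod_cast this.2), mem_some.2 (by exact_mod_cast this.1)⟩
    · obtain ⟨h1, rfl⟩ := gl_1.1 h
      have := R.vP _ _ h1
      exact ⟨mem_some.2 (by exact_mod_cast this.1), mem_some.2 (by exact_mod_cast this.2)⟩
    · obtain ⟨h1, rfl⟩ := gl_2.1 h
      have := R.hP _ _ h1
      exact ⟨mem_some.2 (by exact_mod_cast this.1), mem_some.2 (by exact_mod_cast this.2)⟩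
    · obtain ⟨h1, rfl⟩ := gl_3.1 h
      have := R.vP _ _ h1
      rw [sub_add_cancel] at this
      exact ⟨mem_some.2 (by exact_mod_cast this.2), mem_some.2 (by exact_mod_cast this.1)⟩

/-- **hole-free connected region ⟹ admissible word of the official carrier** -/
theorem ok (hsc : R.SC) (hc : R.Conn) {a0 b0 t0 : ℤ} (hr0 : R.IsRun a0 b0 t0) :
    ∃ (w : Sw300.Wd (ℤ × ℤ)) (l : List (Port (ℤ × ℤ))),
      Sw300.Ok w ∧ Sw300.Fc w ∧ bas w = some (a0, t0) ∧
      (∀ t, t ∈ Sw300.tls w ↔ t ∈ R.P) ∧ (Sw300.tls w).Nodup ∧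
      (∀ p q, R.gl p q ↔ (Sw300.be w p = q ∧ p ≠ q)) ∧
      Sw300.L w = none :: some ((a0, t0), 0) :: l ∧
      (Sw300.L w).Nodup ∧
      (∀ p, p ∈ some ((a0, t0), 0) :: l ↔ (∃ t d, p = some (t, d) ∧ t ∈ R.P) ∧ ∀ q, ¬ R.gl p q) ∧
      List.IsChain (Nx R.gl) (some ((a0, t0), 0) :: l ++ [some ((a0, t0), 0)]) := by
  obtain ⟨c, hw, hnd, hmem, hch, hbase⟩ := word hsc hc hr0
  have hG : GA R.gl (some '' (R.P : Set (ℤ × ℤ))) = R.gl := by
    funext p q
    exact propext ⟨fun h => h.1, gl_GA⟩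
  rw [hG] at hw hch
  obtain ⟨w, ha⟩ := hw.adapt (by
    rintro t ht q hq
    cases ht
    exact hr0.la (gl_0.1 hq).1)
  obtain ⟨l0, hL, hcl, hb⟩ := ha.L
  obtain ⟨l, rfl⟩ := hb (a0, t0) rfl
  have hnd' : (some ((a0, t0), (0 : ZMod 4)) :: l).Nodup := by
    rwa [hcl, Cycle.nodup_coe_iff] at hnd
  refine ⟨w, l, ha.ok, ha.fc fun p q h => gl_face h, ha.bas, ?_, ha.nod, ha.be, hL, ?_, ?_, ?_⟩
  · intro t
    rw [ha.tls, mem_some]
    exact_mod_cast Iff.rfl
  · rw [hL]
    refine List.nodup_cons.2 ⟨?_, hnd'⟩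
    intro h
    obtain ⟨⟨t, d, h1, _⟩, _⟩ := (hmem none).1 (by rw [hcl, Cycle.mem_coe_iff]; exact h)
    cases h1
  · intro p
    rw [← hmem p, hcl, Cycle.mem_coe_iff]
  · rw [hcl, Cycle.chain_coe_cons] at hch
    exact hch

end Reg

end Crest.Agent.R158.Xr249
private theorem rz_467df11d1b : type_of% @_root_.Crest.Agent.R158.Xr249.bas.eq_def := @_root_.Crest.Agent.R158.Xr249.bas.eq_def -- L20
private theorem rz_c729d21908 : type_of% @_root_.Crest.Agent.R158.Xr249.bas.eq_1 := @_root_.Crest.Agent.R158.Xr249.bas.eq_1 -- L20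
private theorem rz_9808ac0ff2 : type_of% @_root_.Crest.Agent.R158.Xr249.mk.eq_1 := @_root_.Crest.Agent.R158.Xr249.mk.eq_1 -- L27
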