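import Crest.Agent.R158.Rs1_689
import Crest.Agent.R158.Rs5_689

-- ▼ part R158/Cpl1_963
section

/-!
# Row 158 (helper963): hybrid coupling for product Bernoulli laws

* `PB_congr`   : the law of an event depending on `S` only depends on the parameters on `S`
* `up b e A`   : the event `A` after the status of `e` is set to `b`
* `piv e A`    : `e` is pivotal for `A`
* `PB_split`   : conditioning on one edge
* `PB_tele`    : `|P_w(A) - P_w'(A)| ≤ Σ_{e ∈ R} |w e - w' e| * M` if `w = w'` off `R` and all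
  hybrids `v` of `w`, `w'` satisfy `P_v(e piv A) ≤ M`
* `PB_compare` : `P_w(A) ≤ P_w'(B) + d |R| M` if `A` implies `B` and `B` depends on `R` only
-/

set_option autoImplicit false

noncomputable section

namespace Crest.Agent.R158.Cpl963

open MeasureTheory ProbabilityTheory unitInterval
open Crest.Agent.R158.Rs689
open scoped ENNReal

variable {ι : Type*}

/-- the law of an event depending on `S` only depends on the parameters on `S` -/
theorem PB_congr {w w' : ι → I} {S : Finset ι} {A : Set (ι → Bool)} (hA : Dep S A)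
    (h : ∀ e ∈ S, w e = w' e) : (PB w).real A = (PB w').real A := by
  classical
  rw [PB_real_eq w hA, PB_real_eq w' hA]
  refine Finset.sum_congr rfl fun y _ => ?_
  congr 1
  unfold wt
  exact Finset.prod_congr rfl fun e _ => by rw [h e e.2]

section upd
variable [DecidableEq ι]

/-- the event `A` after the status of `e` is set to `b` -/
def up (b : Bool) (e : ι) (A : Set (ι → Bool)) : Set (ι → Bool) :=
  {z | Function.update z e b ∈ A}

/-- `e` is pivotal for `A` -/
def piv (e : ι) (A : Set (ι → Bool)) : Set (ι → Bool) :=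
  {z | ¬ (Function.update z e true ∈ A ↔ Function.update z e false ∈ A)}

theorem dep_up {S : Finset ι} {A : Set (ι → Bool)} (hA : Dep S A) (b : Bool) (e : ι) :
    Dep (S.erase e) (up b e A) := by
  intro z z' h
  refine hA _ _ fun f hf => ?_
  by_cases hfe : f = e
  · subst hfe
    simp
  · rw [Function.update_of_ne hfe, Function.update_of_ne hfe]
    exact h f (Finset.mem_erase.2 ⟨hfe, hf⟩)


theorem dep_single (e : ι) (b : Bool) : Dep {e} {z : ι → Bool | z e = b} := by
  intro z z' h
  have := h e (Finset.mem_singleton_self e)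
  simp only [Set.mem_setOf_eq, this]

theorem PB_single_true (w : ι → I) (e : ι) : (PB w).real {z | z e = true} = w e := by
  classical
  have h : (PB w).map (fun z => z e) = bern (w e) := by
    unfold PB
    exact Measure.infinitePi_map_eval _ e
  have h2 : (PB w).real {z | z e = true} = ((PB w).map (fun z => z e)).real {true} := by
    rw [measureReal_def, measureReal_def, Measure.map_apply (measurable_pi_apply e)
      (measurableSet_singleton true)]
    rfl
  rw [h2, h, bern_real_true]

theorem PB_single_false (w : ι → I) (e : ι) : (PB w).real {z | z e = false} = 1 - w e := by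
  classical
  have h : (PB w).map (fun z => z e) = bern (w e) := by
    unfold PB
    exact Measure.infinitePi_map_eval _ e
  have h2 : (PB w).real {z | z e = false} = ((PB w).map (fun z => z e)).real {false} := by
    rw [measureReal_def, measureReal_def, Measure.map_apply (measurable_pi_apply e)
      (measurableSet_singleton false)]
    rfl
  rw [h2, h, bern_real_false]

/-- conditioning on one edge -/
theorem PB_split (w : ι → I) (e : ι) {S : Finset ι} {A : Set (ι → Bool)} (hA : Dep S A) :
    (PB w).real A = w e * (PB w).real (up true e A) + (1 - w e) * (PB w).real (up false e A) := by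
  have hd : Disjoint (S.erase e) {e} := by simp
  have h1 : A ∩ {z | z e = true} = up true e A ∩ {z | z e = true} := by
    ext z
    simp only [Set.mem_inter_iff, Set.mem_setOf_eq, up]
    refine and_congr_left fun hz => ?_
    rw [← hz, Function.update_eq_self]
  have h2 : A \ {z | z e = true} = up false e A ∩ {z | z e = false} := by
    ext z
    simp only [Set.mem_inter_iff, Set.mem_setOf_eq, up, Set.mem_diff, Bool.not_eq_true]
    refine and_congr_left fun hz => ?_
    rw [← hz, Function.update_eq_self]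
  have h3 := measureReal_inter_add_diff (μ := PB w) (s := A) (t := {z | z e = true})
    (dep_single e true).measurableSet
  rw [h1, h2, PB_indep_real w hd (dep_up hA true e) (dep_single e true),
    PB_indep_real w hd (dep_up hA false e) (dep_single e false), PB_single_true,
    PB_single_false] at h3
  rw [← h3]
  ring

/-- the two restrictions differ at most by pivotality -/
theorem abs_up_sub_le (w : ι → I) (e : ι) {S : Finset ι} {A : Set (ι → Bool)} (hA : Dep S A) :
    |(PB w).real (up true e A) - (PB w).real (up false e A)| ≤ (PB w).real (piv e A) := by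
  have h1 : up true e A ⊆ up false e A ∪ piv e A := by
    intro z hz
    by_cases h : z ∈ up false e A
    · exact Or.inl h
    · exact Or.inr fun hc => h (hc.1 hz)
  have h2 : up false e A ⊆ up true e A ∪ piv e A := by
    intro z hz
    by_cases h : z ∈ up true e A
    · exact Or.inl h
    · exact Or.inr fun hc => h (hc.2 hz)
  have h3 := (measureReal_mono (μ := PB w) h1).trans (measureReal_union_le _ _)
  have h4 := (measureReal_mono (μ := PB w) h2).trans (measureReal_union_le _ _)
  rw [abs_le]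
  constructor <;> linarith

/-- change of one parameter -/
theorem PB_one (w : ι → I) (e : ι) (p : I) {S : Finset ι} {A : Set (ι → Bool)} (hA : Dep S A) :
    |(PB w).real A - (PB (Function.update w e p)).real A| ≤
      |(w e : ℝ) - p| * (PB w).real (piv e A) := by
  have h1 := PB_split w e hA
  have h2 := PB_split (Function.update w e p) e hA
  have h3 : ∀ b, (PB (Function.update w e p)).real (up b e A) = (PB w).real (up b e A) := by
    intro b
    refine PB_congr (dep_up hA b e) fun f hf => ?_
    rw [Function.update_of_ne (Finset.ne_of_mem_erase hf)]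
  rw [Function.update_self, h3, h3] at h2
  have h4 : (PB w).real A - (PB (Function.update w e p)).real A =
      ((w e : ℝ) - p) * ((PB w).real (up true e A) - (PB w).real (up false e A)) := by
    rw [h1, h2]; ring
  rw [h4, abs_mul]
  exact mul_le_mul_of_nonneg_left (abs_up_sub_le w e hA) (abs_nonneg _)

end upd

/-- `v` is a hybrid of `w` and `w'` -/
def Hyb (w w' v : ι → I) : Prop := ∀ e, v e = w e ∨ v e = w' e

open Classical in
/-- **Telescoping.** -/
theorem PB_tele {S : Finset ι} {A : Set (ι → Bool)} (hA : Dep S A) {M : ℝ} (R : Finset ι)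
    (w w' : ι → I) (hR : ∀ e, e ∉ R → w e = w' e)
    (hM : ∀ v, Hyb w w' v → ∀ e ∈ R, (PB v).real (piv e A) ≤ M) :
    |(PB w).real A - (PB w').real A| ≤ ∑ e ∈ R, |(w e : ℝ) - w' e| * M := by
  induction R using Finset.induction_on generalizing w with
  | empty =>
    have : w = w' := funext fun e => hR e (Finset.notMem_empty e)
    subst this
    simp
  | insert a R ha ih =>
    set w1 := Function.update w a (w' a) with hw1
    have h1 : Hyb w w' w := fun e => Or.inl rfl
    have h2 := PB_one w a (w' a) hA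
    have h3 : |(PB w).real A - (PB w1).real A| ≤ |(w a : ℝ) - w' a| * M :=
      h2.trans (mul_le_mul_of_nonneg_left (hM w h1 a (Finset.mem_insert_self _ _))
        (abs_nonneg _))
    have h4 : |(PB w1).real A - (PB w').real A| ≤ ∑ e ∈ R, |(w1 e : ℝ) - w' e| * M := by
      refine ih w1 (fun e he => ?_) fun v hv e he => hM v (fun f => ?_) e
        (Finset.mem_insert_of_mem he)
      · by_cases hea : e = a
        · subst hea; simp [hw1]
        · rw [hw1, Function.update_of_ne hea]
          exact hR e (by simp [hea, he])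
      · rcases hv f with hf | hf
        · by_cases hfa : f = a
          · subst hfa
            right
            rw [hf, hw1, Function.update_self]
          · left
            rw [hf, hw1, Function.update_of_ne hfa]
        · exact Or.inr hf
    have h5 : ∑ e ∈ R, |(w1 e : ℝ) - w' e| * M = ∑ e ∈ R, |(w e : ℝ) - w' e| * M := by
      refine Finset.sum_congr rfl fun e he => ?_
      have : e ≠ a := fun h => ha (h ▸ he)
      rw [hw1, Function.update_of_ne this]
    rw [Finset.sum_insert ha]
    have h6 : (PB w).real A - (PB w').real A =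
        ((PB w).real A - (PB w1).real A) + ((PB w1).real A - (PB w').real A) := by ring
    rw [h6]
    refine (abs_add_le _ _).trans ?_
    rw [h5] at h4
    exact add_le_add h3 h4

/-- the window between two parameters: all edge parameters within distance `d` of `w0` -/
def Win (w0 : ι → I) (d : ℝ) : Set (ι → I) := {w | ∀ e, |(w e : ℝ) - w0 e| ≤ d}

open Classical in
/-- parameters of `w` reverted to `w0` on `R` -/
def rev (R : Finset ι) (w w0 : ι → I) : ι → I := fun e => if e ∈ R then w0 e else w e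

theorem rev_mem_win {w0 w : ι → I} {d : ℝ} (hd : 0 ≤ d) (hw : w ∈ Win w0 d) (R : Finset ι) :
    rev R w w0 ∈ Win w0 d := by
  intro e
  unfold rev
  split_ifs
  · simpa using hd
  · exact hw e

theorem hyb_mem_win {w0 w v : ι → I} {d : ℝ} (hd : 0 ≤ d) (hw : w ∈ Win w0 d) {R : Finset ι}
    (hv : Hyb w (rev R w w0) v) : v ∈ Win w0 d := by
  intro e
  rcases hv e with h | h
  · rw [h]; exact hw e
  · rw [h]; exact rev_mem_win hd hw R e

/-- **Comparison, two sided.** The parameters of the edges in `R` are reverted to `w0`. -/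
theorem PB_revert [DecidableEq ι] {S : Finset ι} {A : Set (ι → Bool)} (hA : Dep S A)
    (R : Finset ι)
    {w0 w : ι → I} {d M : ℝ} (hd : 0 ≤ d) (hw : w ∈ Win w0 d)
    (hM : ∀ v ∈ Win w0 d, ∀ e ∈ R, (PB v).real (piv e A) ≤ M) :
    |(PB w).real A - (PB (rev R w w0)).real A| ≤ d * R.card * M := by
  classical
  rcases R.eq_empty_or_nonempty with rfl | ⟨e0, he0⟩
  · have : rev ∅ w w0 = w := by funext e; simp [rev]
    rw [this]; simp
  have hM0 : 0 ≤ M := measureReal_nonneg.trans (hM w hw e0 he0)
  have hdec : ∀ e, piv e A = @piv ι (fun a b => Classical.propDecidable (a = b)) e A := by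
    intro e
    unfold piv
    congr!
  have h := PB_tele hA (M := M) R w (rev R w w0) (fun e he => by simp [rev, he])
    fun v hv e he => by
      rw [← hdec]
      exact hM v (hyb_mem_win hd hw hv) e he
  refine h.trans ?_
  calc ∑ e ∈ R, |(w e : ℝ) - rev R w w0 e| * M ≤ ∑ e ∈ R, d * M := by
        refine Finset.sum_le_sum fun e he => mul_le_mul_of_nonneg_right ?_ hM0
        simp only [rev, he, if_true]
        exact hw e
    _ = d * R.card * M := by rw [Finset.sum_const, nsmul_eq_mul]; ring

/-- **One step, upper bound.** `A ⊆ B`, `B` depends on the reverted edges only. -/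
theorem PB_step_le [DecidableEq ι] {S : Finset ι} {A B : Set (ι → Bool)} (hA : Dep S A)
    {R : Finset ι}
    (hB : Dep R B) (hAB : A ⊆ B) {w0 w : ι → I} {d M : ℝ} (hd : 0 ≤ d) (hw : w ∈ Win w0 d)
    (hM : ∀ v ∈ Win w0 d, ∀ e ∈ R, (PB v).real (piv e A) ≤ M) :
    (PB w).real A ≤ (PB w0).real B + d * R.card * M := by
  have h1 := PB_revert hA R hd hw hM
  have h2 : (PB (rev R w w0)).real A ≤ (PB (rev R w w0)).real B := measureReal_mono hAB
  have h3 : (PB (rev R w w0)).real B = (PB w0).real B :=
    PB_congr hB fun e he => by simp [rev, he]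
  have h4 := (abs_le.1 h1).2
  linarith



end Crest.Agent.R158.Cpl963
end
end

-- ▼ part R158/Cpl2_963

/-!
# Row 158 (helper963): arm events in annuli and pivotal edges

* `An x r R` : vertices at sup distance in `[r,R]` from `x`; `eAn` : its edges
* `A1 x r R` : one arm; `T2 x r R` : two distinct crossing clusters
* `OC_congr`, `A1_dep`, `T2_dep`, `eAn_disj`, `eAn_card`
* `cross_sub`, `A1_shrink`, `T2_shrink`
* `OC_update` : effect of opening one edge
* `piv_T2` : an edge which is pivotal for an event determined by the connections between boundary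
  vertices of `An x r R`, at distance `≥ s` from the boundary, satisfies `T2 (src e) k l`,
  `1 ≤ k ≤ l ≤ s`
-/

set_option autoImplicit false

noncomputable section

namespace Crest.Agent.R158.Cpl963

open MeasureTheory ProbabilityTheory unitInterval
open Crest.Agent.R161.Geo729 Crest.Agent.R161.Topo374 Crest.Agent.R161.Dual374
open Crest.Agent.R161.Tas682 Crest.Agent.R161.Ring421
open Crest.Agent.R158.Rs689

/-! ### the annulus -/

/-- vertices at sup distance in `[r,R]` from `x` -/
def An (x : P2) (r R : ℤ) : Set P2 := {v | r ≤ sd x v ∧ sd x v ≤ R}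

theorem mem_An {x : P2} {r R : ℤ} {v : P2} : v ∈ An x r R ↔ r ≤ sd x v ∧ sd x v ≤ R := Iff.rfl

open Classical in
/-- edges of the annulus -/
def eAn (x : P2) (r R : ℤ) : Finset Edge :=
  ((Finset.Icc (x.1 - R) (x.1 + R) ×ˢ Finset.Icc (x.2 - R) (x.2 + R)) ×ˢ
    (Finset.univ : Finset Bool)).filter fun e => src e ∈ An x r R ∧ tgt e ∈ An x r R

theorem mem_eAn {x : P2} {r R : ℤ} {e : Edge} :
    e ∈ eAn x r R ↔ src e ∈ An x r R ∧ tgt e ∈ An x r R := by
  classical
  unfold eAn
  rw [Finset.mem_filter]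
  refine and_iff_right_of_imp fun h => ?_
  have h1 := sd_le.1 h.1.2
  obtain ⟨⟨i, j⟩, k⟩ := e
  simp only [src] at h1
  simp only [Finset.mem_product, Finset.mem_Icc, Finset.mem_univ, and_true]
  omega

theorem eAn_card (x : P2) (r : ℤ) (R : ℕ) : (eAn x r R).card ≤ 2 * (2 * R + 1) ^ 2 := by
  classical
  unfold eAn
  refine (Finset.card_filter_le _ _).trans ?_
  rw [Finset.card_product, Finset.card_product, Int.card_Icc, Int.card_Icc, Finset.card_univ,
    Fintype.card_bool]
  have h1 : (x.1 + (R : ℤ) + 1 - (x.1 - R)).toNat = 2 * R + 1 := by omega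
  have h2 : (x.2 + (R : ℤ) + 1 - (x.2 - R)).toNat = 2 * R + 1 := by omega
  rw [h1, h2]
  apply le_of_eq
  ring

theorem eAn_disj {x : P2} {r R r' R' : ℤ} (h : R < r') : Disjoint (eAn x r R) (eAn x r' R') := by
  rw [Finset.disjoint_left]
  intro e he he'
  rw [mem_eAn, mem_An, mem_An] at he he'
  omega

theorem eAn_mono {x : P2} {r R r' R' : ℤ} (h1 : r ≤ r') (h2 : R' ≤ R) :
    eAn x r' R' ⊆ eAn x r R := by
  intro e he
  rw [mem_eAn, mem_An, mem_An] at he ⊢
  omega

/-! ### distances -/

theorem sd_self (x : P2) : sd x x = 0 := by simp [sd]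

theorem sd_nonneg (x p : P2) : 0 ≤ sd x p := le_max_of_le_left (abs_nonneg _)

theorem sd_comm (x y : P2) : sd x y = sd y x := by
  unfold sd
  rw [abs_sub_comm y.1 x.1, abs_sub_comm y.2 x.2]

theorem sd_tri (x y w : P2) : sd x w ≤ sd x y + sd y w := by
  unfold sd
  have h1 := abs_sub_le w.1 y.1 x.1
  have h2 := abs_sub_le w.2 y.2 x.2
  have h3 := le_max_left |y.1 - x.1| |y.2 - x.2|
  have h4 := le_max_right |y.1 - x.1| |y.2 - x.2|
  have h5 := le_max_left |w.1 - y.1| |w.2 - y.2|
  have h6 := le_max_right |w.1 - y.1| |w.2 - y.2|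
  refine max_le ?_ ?_ <;> linarith

theorem nbr_src_tgt (e : Edge) : Nbr (src e) (tgt e) := by
  obtain ⟨⟨i, j⟩, k⟩ := e
  cases k <;> simp [src, tgt, Nbr]

theorem sd_src_tgt (e : Edge) : sd (src e) (tgt e) ≤ 1 := by
  have := sd_nbr (src e) (src e) (tgt e) (nbr_src_tgt e)
  rw [sd_self] at this
  omega

/-! ### locality -/

theorem OC_congr {z z' : Cf} {S : Set P2} (hz : ∀ e : Edge, src e ∈ S → tgt e ∈ S → z e = z' e)
    {u v : P2} (h : OC z S u v) : OC z' S u v := by
  refine ⟨h.1, Relation.ReflTransGen.mono (fun a b hab => ?_) _ _ h.2⟩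
  obtain ⟨⟨e, he, h1⟩, ha, hb⟩ := hab
  refine ⟨⟨e, ?_, h1⟩, ha, hb⟩
  have h2 : src e ∈ S ∧ tgt e ∈ S := by
    rcases h1 with ⟨rfl, rfl⟩ | ⟨rfl, rfl⟩
    · exact ⟨ha, hb⟩
    · exact ⟨hb, ha⟩
  show z' e = true
  rw [← hz e h2.1 h2.2]
  exact he

theorem OC_congr_iff {z z' : Cf} {S : Set P2}
    (hz : ∀ e : Edge, src e ∈ S → tgt e ∈ S → z e = z' e) {u v : P2} :
    OC z S u v ↔ OC z' S u v :=
  ⟨OC_congr hz, OC_congr fun e h1 h2 => (hz e h1 h2).symm⟩

/-- one arm in the annulus -/
def A1 (x : P2) (r R : ℤ) : Set Cf :=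
  {z | ∃ u v : P2, sd x u = r ∧ sd x v = R ∧ OC z (An x r R) u v}

/-- two distinct crossing clusters of the annulus -/
def T2 (x : P2) (r R : ℤ) : Set Cf :=
  {z | ∃ u v u' v' : P2, sd x u = r ∧ sd x v = R ∧ sd x u' = r ∧ sd x v' = R ∧
    OC z (An x r R) u v ∧ OC z (An x r R) u' v' ∧ ¬ OC z (An x r R) u u'}

/-- boundary vertices of the annulus -/
def Bd (x : P2) (r R : ℤ) : Set P2 := {v | sd x v = r ∨ sd x v = R}

/-- events determined by the connections between vertices of `B` inside `S` -/
def BdEv (S B : Set P2) (A : Set Cf) : Prop :=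
  ∀ z z' : Cf, (∀ u ∈ B, ∀ v ∈ B, (OC z S u v ↔ OC z' S u v)) → (z ∈ A ↔ z' ∈ A)

theorem A1_bdEv (x : P2) (r R : ℤ) : BdEv (An x r R) (Bd x r R) (A1 x r R) := by
  intro z z' h
  constructor <;> rintro ⟨u, v, hu, hv, huv⟩
  · exact ⟨u, v, hu, hv, (h u (Or.inl hu) v (Or.inr hv)).1 huv⟩
  · exact ⟨u, v, hu, hv, (h u (Or.inl hu) v (Or.inr hv)).2 huv⟩

theorem T2_bdEv (x : P2) (r R : ℤ) : BdEv (An x r R) (Bd x r R) (T2 x r R) := by
  intro z z' h
  constructor <;> rintro ⟨u, v, u', v', hu, hv, hu', hv', h1, h2, h3⟩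
  · exact ⟨u, v, u', v', hu, hv, hu', hv', (h u (Or.inl hu) v (Or.inr hv)).1 h1,
      (h u' (Or.inl hu') v' (Or.inr hv')).1 h2, fun hc =>
        h3 ((h u (Or.inl hu) u' (Or.inl hu')).2 hc)⟩
  · exact ⟨u, v, u', v', hu, hv, hu', hv', (h u (Or.inl hu) v (Or.inr hv)).2 h1,
      (h u' (Or.inl hu') v' (Or.inr hv')).2 h2, fun hc =>
        h3 ((h u (Or.inl hu) u' (Or.inl hu')).1 hc)⟩

theorem bdEv_dep {x : P2} {r R : ℤ} {B : Set P2} {A : Set Cf} (hA : BdEv (An x r R) B A) :
    Dep (eAn x r R) A := by
  intro z z' h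
  refine hA z z' fun u _ v _ => OC_congr_iff fun e h1 h2 => h e (mem_eAn.2 ⟨h1, h2⟩)

theorem A1_dep (x : P2) (r R : ℤ) : Dep (eAn x r R) (A1 x r R) := bdEv_dep (A1_bdEv x r R)

theorem T2_dep (x : P2) (r R : ℤ) : Dep (eAn x r R) (T2 x r R) := bdEv_dep (T2_bdEv x r R)

theorem A1_inc (x : P2) (r R : ℤ) : Inc (A1 x r R) := by
  rintro z z' h ⟨u, v, hu, hv, huv⟩
  refine ⟨u, v, hu, hv, huv.mono (fun e => ?_) subset_rfl⟩
  cases hz : z e
  · exact bot_le
  · rw [h e hz]

/-! ### sub-crossings -/

theorem cross_sub {z : Cf} {S : Set P2} (x : P2) {k l : ℤ} (hkl : k ≤ l) {u v : P2}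
    (h : OC z S u v) (hu : sd x u ≤ k) (hv : l ≤ sd x v) :
    ∃ p q, sd x p = k ∧ sd x q = l ∧ OC z (S ∩ An x k l) p q ∧ OC z S u p := by
  obtain ⟨p, hp, h1, h2⟩ := last_exit (sd x) (sd_nbr x) k h hu (hkl.trans hv)
  obtain ⟨q, hq, h3⟩ := first_hit (sd x) (sd_nbr x) l h1 (by omega) hv
  refine ⟨p, q, hp, hq, h3.monoS ?_, h2⟩
  rintro w ⟨⟨hw1, hw2⟩, hw3⟩
  exact ⟨hw1, hw2, hw3⟩

theorem A1_shrink {x : P2} {r R r' R' : ℤ} (h1 : r ≤ r') (h2 : r' ≤ R') (h3 : R' ≤ R) :
    A1 x r R ⊆ A1 x r' R' := by
  rintro z ⟨u, v, hu, hv, h⟩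
  obtain ⟨p, q, hp, hq, h4, _⟩ := cross_sub x h2 h (by omega) (by omega)
  exact ⟨p, q, hp, hq, h4.monoS Set.inter_subset_right⟩

theorem T2_shrink {x : P2} {r R r' R' : ℤ} (h1 : r ≤ r') (h2 : r' ≤ R') (h3 : R' ≤ R) :
    T2 x r R ⊆ T2 x r' R' := by
  rintro z ⟨u, v, u', v', hu, hv, hu', hv', h, h', hn⟩
  obtain ⟨p, q, hp, hq, h4, h5⟩ := cross_sub x h2 h (by omega) (by omega)
  obtain ⟨p', q', hp', hq', h4', h5'⟩ := cross_sub x h2 h' (by omega) (by omega)
  refine ⟨p, q, p', q', hp, hq, hp', hq', h4.monoS Set.inter_subset_right,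
    h4'.monoS Set.inter_subset_right, fun hc => hn ?_⟩
  have hc' : OC z (An x r R) p p' := hc.monoS fun w hw => ⟨h1.trans hw.1, hw.2.trans h3⟩
  exact (h5.trans hc').trans h5'.symm

/-! ### opening one edge -/

theorem OC_update {z : Cf} {S : Set P2} {e : Edge} {u v : P2}
    (h : OC (Function.update z e true) S u v) :
    OC (Function.update z e false) S u v ∨
      (OC (Function.update z e false) S u (src e) ∧ OC (Function.update z e false) S (tgt e) v) ∨
      (OC (Function.update z e false) S u (tgt e) ∧ OC (Function.update z e false) S (src e) v) := by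
  obtain ⟨huS, h⟩ := h
  induction h with
  | refl => exact Or.inl (OC.refl huS)
  | @tail b c _ h2 ih =>
    obtain ⟨⟨f, hf, hbc⟩, hb, hc⟩ := h2
    by_cases hfe : f = e
    · subst hfe
      rcases hbc with ⟨rfl, rfl⟩ | ⟨rfl, rfl⟩
      · -- `b = src e`, `c = tgt e`
        rcases ih with ih | ih | ih
        · exact Or.inr (Or.inl ⟨ih, OC.refl hc⟩)
        · exact Or.inr (Or.inl ⟨ih.1, OC.refl hc⟩)
        · exact Or.inl ih.1
      · rcases ih with ih | ih | ih
        · exact Or.inr (Or.inr ⟨ih, OC.refl hc⟩)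
        · exact Or.inl ih.1
        · exact Or.inr (Or.inr ⟨ih.1, OC.refl hc⟩)
    · have hs : OC (Function.update z e false) S b c := by
        refine ⟨hb, Relation.ReflTransGen.single ⟨⟨f, ?_, hbc⟩, hb, hc⟩⟩
        have hf' : Function.update z e true f = true := hf
        show Function.update z e false f = true
        rw [Function.update_of_ne hfe] at hf' ⊢
        exact hf'
      rcases ih with ih | ih | ih
      · exact Or.inl (ih.trans hs)
      · exact Or.inr (Or.inl ⟨ih.1, ih.2.trans hs⟩)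
      · exact Or.inr (Or.inr ⟨ih.1, ih.2.trans hs⟩)

theorem update_le (z : Cf) (e : Edge) :
    Function.update z e false ≤ Function.update z e true := by
  intro f
  by_cases h : f = e
  · subst h
    simp
  · rw [Function.update_of_ne h, Function.update_of_ne h]

/-- pivotal edges of boundary events -/
theorem piv_bd {S B : Set P2} {A : Set Cf} (hA : BdEv S B A) {e : Edge} {z : Cf}
    (hz : z ∈ piv e A) :
    ¬ OC (Function.update z e false) S (src e) (tgt e) ∧
      (∃ u ∈ B, OC (Function.update z e false) S (src e) u) ∧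
      (∃ u ∈ B, OC (Function.update z e false) S (tgt e) u) := by
  have h1 : ∃ u ∈ B, ∃ v ∈ B, ¬ (OC (Function.update z e true) S u v ↔
      OC (Function.update z e false) S u v) := by
    by_contra hc
    push Not at hc
    exact hz (hA _ _ fun u hu v hv => by have := hc u hu v hv; tauto)
  obtain ⟨u, hu, v, hv, h2⟩ := h1
  have h3 : OC (Function.update z e false) S u v → OC (Function.update z e true) S u v :=
    fun h => h.mono (update_le z e) subset_rfl
  have h4 : OC (Function.update z e true) S u v ∧ ¬ OC (Function.update z e false) S u v := by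
    tauto
  rcases OC_update h4.1 with h5 | h5 | h5
  · exact absurd h5 h4.2
  · refine ⟨fun hc => h4.2 ((h5.1.trans hc).trans h5.2), ⟨u, hu, h5.1.symm⟩, ⟨v, hv, h5.2⟩⟩
  · refine ⟨fun hc => h4.2 ((h5.1.trans hc.symm).trans h5.2), ⟨v, hv, h5.2⟩, ⟨u, hu, h5.1.symm⟩⟩

theorem T2_update {z : Cf} {e : Edge} {b : Bool} {k l : ℤ} (hk : 1 ≤ k) :
    Function.update z e b ∈ T2 (src e) k l ↔ z ∈ T2 (src e) k l := by
  refine T2_dep (src e) k l _ _ fun f hf => ?_
  have hfe : f ≠ e := by
    rintro rfl
    rw [mem_eAn, mem_An, sd_self] at hf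
    omega
  rw [Function.update_of_ne hfe]

/-- **Pivotal edges in the bulk have two distinct clusters around them.** -/
theorem piv_T2 {S B : Set P2} {A : Set Cf} (hA : BdEv S B A) {e : Edge} {s k l : ℤ}
    (hS : ∀ w : P2, sd (src e) w ≤ s → w ∈ S) (hB : ∀ w ∈ B, s ≤ sd (src e) w)
    (hk : 1 ≤ k) (hkl : k ≤ l) (hl : l ≤ s) : piv e A ⊆ T2 (src e) k l := by
  intro z hz
  obtain ⟨h1, ⟨u, hu, h2⟩, ⟨v, hv, h3⟩⟩ := piv_bd hA hz
  rw [← T2_update (b := false) (e := e) hk]
  have h4 := hB u hu
  have h5 := hB v hv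
  obtain ⟨p, q, hp, hq, h6, h7⟩ := cross_sub (src e) hkl h2 (by rw [sd_self]; omega) (by omega)
  obtain ⟨p', q', hp', hq', h6', h7'⟩ := cross_sub (src e) hkl h3
    (by have := sd_src_tgt e; omega) (by omega)
  refine ⟨p, q, p', q', hp, hq, hp', hq', h6.monoS Set.inter_subset_right,
    h6'.monoS Set.inter_subset_right, fun hc => h1 ?_⟩
  have hc' : OC (Function.update z e false) S p p' := hc.monoS fun w hw => hS w (by
    rw [mem_An] at hw; omega)
  exact (h7.trans hc').trans h7'.symm

/-- pivotal edges of boundary events of an annulus -/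
theorem piv_An {x : P2} {r R : ℤ} {A : Set Cf} (hA : BdEv (An x r R) (Bd x r R) A) {e : Edge}
    {s k l : ℤ} (he : e ∈ eAn x (r + s) (R - s)) (hk : 1 ≤ k) (hkl : k ≤ l) (hl : l ≤ s) :
    piv e A ⊆ T2 (src e) k l := by
  rw [mem_eAn, mem_An, mem_An] at he
  refine piv_T2 hA (fun w hw => ?_) (fun w hw => ?_) hk hkl hl
  · have h1 := sd_tri x (src e) w
    have h2 := sd_tri x w (src e)
    rw [sd_comm w (src e)] at h2
    rw [mem_An]
    omega
  · have h1 := sd_tri x (src e) w
    have h2 := sd_tri x w (src e)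
    rw [sd_comm w (src e)] at h2
    rcases hw with hw | hw <;> omega

/-! ### translations -/

theorem sd_add (x a w : P2) : sd (x + a) (w + a) = sd x w := by
  simp [sd]

theorem OC_shift {z : Cf} (a : P2) {S : Set P2} {u v : P2} (h : OC (shiftZ a z) S u v) :
    OC z {w | w - a ∈ S} (u + a) (v + a) := by
  refine ⟨by simpa using h.1, ?_⟩
  obtain ⟨_, h⟩ := h
  induction h with
  | refl => exact .refl
  | @tail b c _ h2 ih =>
    obtain ⟨⟨e, he, h3⟩, hb, hc⟩ := h2
    refine ih.tail ⟨⟨shE a e, he, ?_⟩, by simpa using hb, by simpa using hc⟩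
    rw [src_shE, tgt_shE]
    rcases h3 with ⟨rfl, rfl⟩ | ⟨rfl, rfl⟩
    · exact Or.inl ⟨rfl, rfl⟩
    · exact Or.inr ⟨rfl, rfl⟩

theorem OC_shift_iff {z : Cf} (a : P2) {S : Set P2} {u v : P2} :
    OC (shiftZ a z) S u v ↔ OC z {w | w - a ∈ S} (u + a) (v + a) := by
  refine ⟨OC_shift a, fun h => ?_⟩
  have h1 : OC (shiftZ (-a) (shiftZ a z)) {w | w - a ∈ S} (u + a) (v + a) := by
    rw [shiftZ_shiftZ, neg_add_cancel, shiftZ_zero]
    exact h
  have h2 := OC_shift (-a) h1
  have h3 : {w : P2 | w - -a ∈ {w : P2 | w - a ∈ S}} = S := by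
    ext w
    simp
  rw [h3] at h2
  simpa using h2

theorem An_shift (x a : P2) (r R : ℤ) : {w : P2 | w - a ∈ An x r R} = An (x + a) r R := by
  ext w
  have h := sd_add x a (w - a)
  rw [sub_add_cancel] at h
  simp only [Set.mem_ofPred_eq, mem_An, h]


theorem T2_shift (x a : P2) (r R : ℤ) : shiftZ a ⁻¹' T2 x r R = T2 (x + a) r R := by
  ext z
  constructor
  · rintro ⟨u, v, u', v', hu, hv, hu', hv', h, h', hn⟩
    rw [OC_shift_iff, An_shift] at h h' hn
    exact ⟨u + a, v + a, u' + a, v' + a, by rw [sd_add, hu], by rw [sd_add, hv],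
      by rw [sd_add, hu'], by rw [sd_add, hv'], h, h', hn⟩
  · rintro ⟨u, v, u', v', hu, hv, hu', hv', h, h', hn⟩
    refine ⟨u - a, v - a, u' - a, v' - a, ?_, ?_, ?_, ?_, ?_, ?_, ?_⟩
    · rw [← sd_add x a, sub_add_cancel, hu]
    · rw [← sd_add x a, sub_add_cancel, hv]
    · rw [← sd_add x a, sub_add_cancel, hu']
    · rw [← sd_add x a, sub_add_cancel, hv']
    · rw [OC_shift_iff, An_shift, sub_add_cancel, sub_add_cancel]
      exact h
    · rw [OC_shift_iff, An_shift, sub_add_cancel, sub_add_cancel]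
      exact h'
    · rw [OC_shift_iff, An_shift, sub_add_cancel, sub_add_cancel]
      exact hn


theorem T2_prob (p : I) (x : P2) (r R : ℤ) :
    (nu p).real (T2 x r R) = (nu p).real (T2 (0, 0) r R) := by
  have h := tInv p x
  have h1 : T2 x r R = shiftZ x ⁻¹' T2 (0, 0) r R := by
    rw [T2_shift]
    congr 1
    simp
  rw [h1]
  conv_rhs => rw [← h]
  rw [measureReal_def, measureReal_def, Measure.map_apply (measurable_shiftZ x)
    (T2_dep _ _ _).measurableSet]

end Crest.Agent.R158.Cpl963
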