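import Mathlib
import Crest.Agent.R158.Wl1_290

/-!
# R158, Block CS (helper410), part 2: from slices to `CSr`

* `CSd l s d H a b c e δ` : contour sums with defect `δ`
* `CSd.glue` : vertical gluing, defects add
* `CSd.of_close` : comparison with a function `G` having `CSr`
* `CSr_of_cr` : pointwise relation with error `o(d)` implies `CSr`
* `CSr_of_slices` : 482's slices (every slice has its own comparison function)
* `CSr_of_uniform` : slices of height `h` with error `W h = o(h)`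
* `CSr_of_heights` : slice error `C (h/(h+t))^(1+γ) (h+t)^γ'` at distance `t` from finitely many
  bad heights
-/

set_option autoImplicit false

open Filter Topology Finset

namespace Crest.Agent.R158.Cs410

open Crest.Agent.R158.Wl290

variable {ι : Type*}

/-- contour sums with defect `δ` -/
def CSd (l : Filter ι) (s : ℂ) (d : ι → ℝ) (H : ι → ℤ → ℤ → ℂ) (a b c e δ : ℝ) : Prop :=
  ∀ᶠ n in l, ∀ i1 i2 j1 j2 : ℤ, i1 ≤ i2 → j1 ≤ j2 →
    a ≤ d n * i1 → d n * i2 ≤ b → c ≤ d n * j1 → d n * j2 ≤ e →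
      d n * ‖csum s (H n) i1 i2 j1 j2‖ ≤ δ

theorem CSd.mono {l : Filter ι} {s : ℂ} {d : ι → ℝ} {H : ι → ℤ → ℤ → ℂ}
    {a b c e δ a' b' c' e' δ' : ℝ} (h : CSd l s d H a b c e δ) (ha : a ≤ a') (hb : b' ≤ b)
    (hc : c ≤ c') (he : e' ≤ e) (hδ : δ ≤ δ') : CSd l s d H a' b' c' e' δ' := by
  filter_upwards [h] with n hn i1 i2 j1 j2 hi hj h1 h2 h3 h4
  exact (hn _ _ _ _ hi hj (ha.trans h1) (h2.trans hb) (hc.trans h3) (h4.trans he)).trans hδ

theorem CSr.toCSd {l : Filter ι} {s : ℂ} {d : ι → ℝ} {H : ι → ℤ → ℤ → ℂ}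
    {a b c e : ℝ} (h : CSr l s d H a b c e) {δ : ℝ} (hδ : 0 < δ) : CSd l s d H a b c e δ := h δ hδ

theorem CSr_iff {l : Filter ι} {s : ℂ} {d : ι → ℝ} {H : ι → ℤ → ℤ → ℂ} {a b c e : ℝ} :
    CSr l s d H a b c e ↔ ∀ δ > 0, CSd l s d H a b c e δ := Iff.rfl

theorem csum_split (s : ℂ) (H : ℤ → ℤ → ℂ) (i1 i2 : ℤ) {j1 j2 j3 : ℤ} (h1 : j1 ≤ j2)
    (h2 : j2 ≤ j3) : csum s H i1 i2 j1 j3 = csum s H i1 i2 j1 j2 + csum s H i1 i2 j2 j3 := by
  unfold csum
  have e1 : ∑ j ∈ Finset.Ico j1 j3, (H i2 j - H i1 j) =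
      ∑ j ∈ Finset.Ico j1 j2, (H i2 j - H i1 j) + ∑ j ∈ Finset.Ico j2 j3, (H i2 j - H i1 j) := by
    rw [← Finset.sum_union (Finset.disjoint_left.2 fun x hx hx' => by
      rw [Finset.mem_Ico] at hx hx'; omega), Finset.Ico_union_Ico_eq_Ico h1 h2]
  have e2 : ∑ i ∈ Finset.Ico i1 i2, (H i j3 - H i j1) =
      ∑ i ∈ Finset.Ico i1 i2, (H i j2 - H i j1) + ∑ i ∈ Finset.Ico i1 i2, (H i j3 - H i j2) := by
    rw [← Finset.sum_add_distrib]
    exact Finset.sum_congr rfl fun i _ => by ring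
  rw [e1, e2]
  ring

/-- **gluing**: defects add -/
theorem CSd.glue {l : Filter ι} {s : ℂ} {d : ι → ℝ} (hd : ∀ᶠ n in l, 0 < d n)
    (hd0 : Tendsto d l (𝓝 0)) {H : ι → ℤ → ℤ → ℂ} {a b c m m' e δ1 δ2 : ℝ} (hm : m' < m)
    (h1 : CSd l s d H a b c m δ1) (h2 : CSd l s d H a b m' e δ2) (hδ1 : 0 ≤ δ1) (hδ2 : 0 ≤ δ2) :
    CSd l s d H a b c e (δ1 + δ2) := by
  have hsm : ∀ᶠ n in l, d n < m - m' := hd0.eventually (gt_mem_nhds (sub_pos.2 hm))
  filter_upwards [h1, h2, hd, hsm] with n hn1 hn2 hn hns i1 i2 j1 j2 hi hj g1 g2 g3 g4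
  -- the cutting level
  set k : ℤ := ⌊m / d n⌋ with hk
  have hk1 : d n * (k : ℝ) ≤ m := by
    have := Int.floor_le (m / d n)
    rw [← hk, le_div_iff₀ hn] at this
    linarith
  have hk2 : m' ≤ d n * (k : ℝ) := by
    have := Int.lt_floor_add_one (m / d n)
    rw [← hk, div_lt_iff₀ hn] at this
    nlinarith
  rcases le_total j2 k with h | h
  · have h3 : d n * (j2 : ℝ) ≤ m := by
      have : (j2 : ℝ) ≤ k := by exact_mod_cast h
      nlinarith
    exact (hn1 _ _ _ _ hi hj g1 g2 g3 h3).trans (by linarith)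
  rcases le_total k j1 with h' | h'
  · have h3 : m' ≤ d n * (j1 : ℝ) := by
      have : (k : ℝ) ≤ j1 := by exact_mod_cast h'
      nlinarith
    exact (hn2 _ _ _ _ hi hj g1 g2 h3 g4).trans (by linarith)
  · rw [csum_split s (H n) i1 i2 h' h]
    have h3 := hn1 _ _ _ _ hi h' g1 g2 g3 hk1
    have h4 := hn2 _ _ _ _ hi h g1 g2 hk2 g4
    calc d n * ‖csum s (H n) i1 i2 j1 k + csum s (H n) i1 i2 k j2‖ ≤
        d n * (‖csum s (H n) i1 i2 j1 k‖ + ‖csum s (H n) i1 i2 k j2‖) :=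
          mul_le_mul_of_nonneg_left (norm_add_le _ _) hn.le
      _ ≤ _ := by linarith [mul_add (d n) ‖csum s (H n) i1 i2 j1 k‖ ‖csum s (H n) i1 i2 k j2‖]

theorem csum_sub (s : ℂ) (H G : ℤ → ℤ → ℂ) (i1 i2 j1 j2 : ℤ) :
    csum s H i1 i2 j1 j2 = csum s G i1 i2 j1 j2 + csum s (fun i j => H i j - G i j) i1 i2 j1 j2 := by
  unfold csum
  simp only [Finset.sum_sub_distrib]
  ring

/-- **comparison** on the whole slice -/
theorem CSd.of_close {l : Filter ι} {s : ℂ} (hs : ‖s‖ ≤ 1) {d : ι → ℝ} (hd : ∀ᶠ n in l, 0 < d n)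
    {H G : ι → ℤ → ℤ → ℂ} {a b c e w δ : ℝ} (hw : 0 ≤ w)
    (hG : CSd l s d G a b c e δ)
    (hH : ∀ᶠ n in l, ∀ i j : ℤ, a ≤ d n * i → d n * i ≤ b → c ≤ d n * j → d n * j ≤ e →
      ‖H n i j - G n i j‖ ≤ w) :
    CSd l s d H a b c e (δ + 2 * ((b - a) + (e - c)) * w) := by
  filter_upwards [hG, hH, hd] with n hn1 hn2 hn i1 i2 j1 j2 hi hj g1 g2 g3 g4
  have hib : (i1 : ℝ) ≤ i2 := by exact_mod_cast hi
  have hjb : (j1 : ℝ) ≤ j2 := by exact_mod_cast hj
  rw [csum_sub s (H n) (G n)]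
  have h1 : ‖∑ i ∈ Finset.Ico i1 i2, ((H n i j2 - G n i j2) - (H n i j1 - G n i j1))‖ ≤
      (i2 - i1 : ℝ) * (2 * w) := by
    refine (norm_sum_le _ _).trans ?_
    refine (Finset.sum_le_sum (g := fun _ => 2 * w) fun i hi' => ?_).trans ?_
    · rw [Finset.mem_Ico] at hi'
      have q1 : (i1 : ℝ) ≤ i := by exact_mod_cast hi'.1
      have q2 : (i : ℝ) ≤ i2 := by exact_mod_cast hi'.2.le
      have k1 : a ≤ d n * i := by nlinarith
      have k2 : d n * i ≤ b := by nlinarith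
      refine (norm_sub_le _ _).trans ?_
      have k3 := hn2 i j2 k1 k2 (by nlinarith) g4
      have k4 := hn2 i j1 k1 k2 g3 (by nlinarith)
      linarith
    · rw [Finset.sum_const, Int.card_Ico, nsmul_eq_mul]
      have : (((i2 - i1).toNat : ℕ) : ℝ) = i2 - i1 := by
        have : ((i2 - i1).toNat : ℤ) = i2 - i1 := Int.toNat_of_nonneg (by omega)
        exact_mod_cast this
      rw [this]
  have h2 : ‖∑ j ∈ Finset.Ico j1 j2, ((H n i2 j - G n i2 j) - (H n i1 j - G n i1 j))‖ ≤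
      (j2 - j1 : ℝ) * (2 * w) := by
    refine (norm_sum_le _ _).trans ?_
    refine (Finset.sum_le_sum (g := fun _ => 2 * w) fun j hj' => ?_).trans ?_
    · rw [Finset.mem_Ico] at hj'
      have q1 : (j1 : ℝ) ≤ j := by exact_mod_cast hj'.1
      have q2 : (j : ℝ) ≤ j2 := by exact_mod_cast hj'.2.le
      have k1 : c ≤ d n * j := by nlinarith
      have k2 : d n * j ≤ e := by nlinarith
      refine (norm_sub_le _ _).trans ?_
      have k3 := hn2 i2 j (by nlinarith) g2 k1 k2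
      have k4 := hn2 i1 j g1 (by nlinarith) k1 k2
      linarith
    · rw [Finset.sum_const, Int.card_Ico, nsmul_eq_mul]
      have : (((j2 - j1).toNat : ℕ) : ℝ) = j2 - j1 := by
        have : ((j2 - j1).toNat : ℤ) = j2 - j1 := Int.toNat_of_nonneg (by omega)
        exact_mod_cast this
      rw [this]
  have h3 : ‖csum s (fun i j => H n i j - G n i j) i1 i2 j1 j2‖ ≤
      (i2 - i1 : ℝ) * (2 * w) + (j2 - j1 : ℝ) * (2 * w) := by
    unfold csum
    refine (norm_sub_le _ _).trans (add_le_add h1 ?_)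
    rw [norm_mul]
    have := mul_le_mul hs h2 (norm_nonneg _) zero_le_one
    linarith
  have h4 := hn1 _ _ _ _ hi hj g1 g2 g3 g4
  have h5 : d n * ((i2 - i1 : ℝ) * (2 * w) + (j2 - j1 : ℝ) * (2 * w)) ≤
      2 * ((b - a) + (e - c)) * w := by
    have k1 : d n * (i2 - i1 : ℝ) ≤ b - a := by linarith
    have k2 : d n * (j2 - j1 : ℝ) ≤ e - c := by linarith
    nlinarith
  have h6 := mul_le_mul_of_nonneg_left h3 hn.le
  have h7 := mul_le_mul_of_nonneg_left (norm_add_le (csum s (G n) i1 i2 j1 j2)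
    (csum s (fun i j => H n i j - G n i j) i1 i2 j1 j2)) hn.le
  rw [mul_add] at h7
  linarith







/-- sum of the errors near one bad height -/
theorem sum_near {p : ℝ} (hp : 1 < p) : ∃ S : ℝ, 0 ≤ S ∧ ∀ (K : ℕ) (m : ℤ),
    ∑ k ∈ range K, (max 1 |((k : ℤ) - m : ℝ)|) ^ (-p) ≤ S := by
  have h1 : Summable fun n : ℤ => (max 1 |(n : ℝ)|) ^ (-p) := by
    have h2 : Summable fun n : ℤ => |(n : ℝ)| ^ (-p) + if n = 0 then (1 : ℝ) else 0 := by
      refine (Real.summable_abs_int_rpow (by simpa using hp)).add ?_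
      exact summable_of_ne_finset_zero (s := {0}) fun n hn => by simp at hn; simp [hn]
    refine h2.of_nonneg_of_le (fun n => by positivity) fun n => ?_
    by_cases hn : n = 0
    · subst hn
      have : (0 : ℝ) ≤ |((0 : ℤ) : ℝ)| ^ (-p) := by positivity
      simp only [if_true]
      simp
      positivity
    · have h3 : (1 : ℝ) ≤ |(n : ℝ)| := by
        have : (1 : ℤ) ≤ |n| := Int.one_le_abs hn
        exact_mod_cast this
      rw [max_eq_right h3, if_neg hn, add_zero]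
  refine ⟨∑' n : ℤ, (max 1 |(n : ℝ)|) ^ (-p), tsum_nonneg fun n => by positivity, fun K m => ?_⟩
  have h4 : ∑ k ∈ range K, (max 1 |((k : ℤ) - m : ℝ)|) ^ (-p) =
      ∑ n ∈ (range K).image (fun k : ℕ => (k : ℤ) - m), (max 1 |(n : ℝ)|) ^ (-p) := by
    rw [Finset.sum_image fun a _ b _ hab => by simpa using hab]
    refine Finset.sum_congr rfl fun k _ => ?_
    push_cast
    rfl
  rw [h4]
  exact h1.sum_le_tsum _ fun n _ => by positivity


end Crest.Agent.R158.Cs410
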