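import Mathlib
import Crest.Prelude.Def_PlanarPerc
import Crest.Agent.R161.Geo_729

-- ▼ part R158/Gp1_949
section

/-!
# Row 158 (S0237), block GP (helper949): grid polygons, file 1

Unit mesh. `GC P` : `P : ℝ → ℂ` is continuous, 1-periodic, injective modulo 1 and runs inside the
grid lines of `ℤ²`. Result: `P` is a lattice polygon: there are strictly increasing times `t i`
(`i : ℤ`) with `t (i + L) = t i + 1`, at which `P` is at the lattice point `v i`, and on
`[t i, t (i+1)]` the curve runs monotonically through the closed edge `e i` from `v i` to `v (i+1)`.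
-/

set_option autoImplicit false

namespace Crest.Agent.R158.Gp949

open Set Filter Topology Crest.Agent.R161.Geo729

/-- the lattice point `v` in the plane -/
noncomputable def lp (v : P2) : ℂ := ⟨v.1, v.2⟩

@[simp] theorem lp_re (v : P2) : (lp v).re = v.1 := rfl
@[simp] theorem lp_im (v : P2) : (lp v).im = v.2 := rfl

theorem lp_inj {v w : P2} (h : lp v = lp w) : v = w := by
  have h1 := congrArg Complex.re h
  have h2 := congrArg Complex.im h
  simp only [lp_re, lp_im] at h1 h2
  exact Prod.ext (by exact_mod_cast h1) (by exact_mod_cast h2)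

/-- the grid lines of `ℤ²` -/
def GrL : Set ℂ := {z : ℂ | (∃ k : ℤ, z.re = k) ∨ ∃ k : ℤ, z.im = k}

/-- coordinate along the edge `e` -/
noncomputable def co (e : Edge) (z : ℂ) : ℝ := if e.2 then z.im - e.1.2 else z.re - e.1.1

@[simp] theorem co_h (v : P2) (z : ℂ) : co (v, false) z = z.re - v.1 := rfl
@[simp] theorem co_v (v : P2) (z : ℂ) : co (v, true) z = z.im - v.2 := rfl

theorem continuous_co (e : Edge) : Continuous (co e) := by
  obtain ⟨v, b⟩ := e
  cases b
  · exact Complex.continuous_re.sub continuous_const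
  · exact Complex.continuous_im.sub continuous_const

/-- the line of the edge -/
def lineE (e : Edge) : Set ℂ := {z | if e.2 then z.re = e.1.1 else z.im = e.1.2}

@[simp] theorem mem_line_h (v : P2) (z : ℂ) : z ∈ lineE (v, false) ↔ z.im = v.2 := Iff.rfl
@[simp] theorem mem_line_v (v : P2) (z : ℂ) : z ∈ lineE (v, true) ↔ z.re = v.1 := Iff.rfl

/-- open edge -/
def oE (e : Edge) : Set ℂ := {z | z ∈ lineE e ∧ 0 < co e z ∧ co e z < 1}
/-- closed edge -/
def cE (e : Edge) : Set ℂ := {z | z ∈ lineE e ∧ 0 ≤ co e z ∧ co e z ≤ 1}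

theorem oE_sub_cE (e : Edge) : oE e ⊆ cE e := fun _ h => ⟨h.1, h.2.1.le, h.2.2.le⟩

theorem isClosed_lineE (e : Edge) : IsClosed (lineE e) := by
  obtain ⟨v, b⟩ := e
  cases b
  · exact isClosed_eq Complex.continuous_im continuous_const
  · exact isClosed_eq Complex.continuous_re continuous_const

theorem isClosed_cE (e : Edge) : IsClosed (cE e) :=
  (isClosed_lineE e).inter ((isClosed_le continuous_const (continuous_co e)).inter
    (isClosed_le (continuous_co e) continuous_const))

/-- the open rectangle around the open edge -/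
def vE (e : Edge) : Set ℂ :=
  {z | (if e.2 then |z.re - e.1.1| < 1 else |z.im - e.1.2| < 1) ∧ 0 < co e z ∧ co e z < 1}

theorem isOpen_vE (e : Edge) : IsOpen (vE e) := by
  have h2 : IsOpen {z | 0 < co e z ∧ co e z < 1} :=
    (isOpen_lt continuous_const (continuous_co e)).inter
      (isOpen_lt (continuous_co e) continuous_const)
  obtain ⟨v, b⟩ := e
  cases b
  · refine IsOpen.inter ?_ h2
    exact isOpen_lt (Complex.continuous_im.sub continuous_const).abs continuous_const
  · refine IsOpen.inter ?_ h2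
    exact isOpen_lt (Complex.continuous_re.sub continuous_const).abs continuous_const

theorem int_eq_of_abs {a b : ℤ} {x : ℝ} (h : x = a) (h' : |x - b| < 1) : a = b := by
  rw [h, abs_lt] at h'
  have h1 : (b : ℝ) - 1 < a := by linarith
  have h2 : (a : ℝ) < b + 1 := by linarith
  have h3 : b - 1 < a := by exact_mod_cast h1
  have h4 : a < b + 1 := by exact_mod_cast h2
  omega

theorem no_int {a k : ℤ} {x : ℝ} (h : x = k) (h1 : 0 < x - a) (h2 : x - a < 1) : False := by
  rw [h] at h1 h2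
  have h3 : (a : ℝ) < k := by linarith
  have h4 : (k : ℝ) < a + 1 := by linarith
  have h5 : a < k := by exact_mod_cast h3
  have h6 : k < a + 1 := by exact_mod_cast h4
  omega

theorem oE_sub_vE (e : Edge) : oE e ⊆ vE e := by
  obtain ⟨v, b⟩ := e
  rintro z ⟨h1, h2⟩
  refine ⟨?_, h2⟩
  cases b
  · rw [mem_line_h] at h1
    simp [h1]
  · rw [mem_line_v] at h1
    simp [h1]

theorem vE_GrL (e : Edge) {z : ℂ} (h : z ∈ vE e) (hz : z ∈ GrL) : z ∈ oE e := by
  obtain ⟨v, b⟩ := e
  obtain ⟨h1, h2, h3⟩ := h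
  refine ⟨?_, h2, h3⟩
  cases b
  · rw [mem_line_h]
    simp only [co_h, Bool.false_eq_true, if_false] at h1 h2 h3
    rcases hz with ⟨k, hk⟩ | ⟨k, hk⟩
    · exact (no_int hk h2 h3).elim
    · rw [hk, int_eq_of_abs hk h1]
  · rw [mem_line_v]
    simp only [co_v, if_true] at h1 h2 h3
    rcases hz with ⟨k, hk⟩ | ⟨k, hk⟩
    · rw [hk, int_eq_of_abs hk h1]
    · exact (no_int hk h2 h3).elim


theorem cE_sub_GrL (e : Edge) : cE e ⊆ GrL := by
  obtain ⟨v, b⟩ := e
  rintro z ⟨h1, -⟩
  cases b
  · exact Or.inr ⟨v.2, h1⟩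
  · exact Or.inl ⟨v.1, h1⟩

theorem lp_not_oE (v : P2) (e : Edge) : lp v ∉ oE e := by
  obtain ⟨w, b⟩ := e
  rintro ⟨-, h2, h3⟩
  cases b
  · exact no_int (x := (lp v).re) (k := v.1) rfl h2 h3
  · exact no_int (x := (lp v).im) (k := v.2) rfl h2 h3

theorem floor_of {x : ℝ} {a : ℤ} (h1 : 0 < x - a) (h2 : x - a < 1) : ⌊x⌋ = a := by
  rw [Int.floor_eq_iff]
  exact ⟨by linarith, by linarith⟩

theorem oE_unique {e e' : Edge} {z : ℂ} (h : z ∈ oE e) (h' : z ∈ oE e') : e = e' := by
  obtain ⟨⟨a, b⟩, c⟩ := e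
  obtain ⟨⟨a', b'⟩, c'⟩ := e'
  obtain ⟨h1, h2, h3⟩ := h
  obtain ⟨h1', h2', h3'⟩ := h'
  cases c <;> cases c' <;>
    simp only [mem_line_h, mem_line_v, co_h, co_v] at h1 h2 h3 h1' h2' h3'
  · have e1 : (b : ℝ) = b' := by rw [← h1, ← h1']
    have e2 : a = a' := by rw [← floor_of h2 h3, ← floor_of h2' h3']
    have e3 : b = b' := by exact_mod_cast e1
    rw [e2, e3]
  · exact (no_int h1' h2 h3).elim
  · exact (no_int h1' h2 h3).elim
  · have e1 : (a : ℝ) = a' := by rw [← h1, ← h1']
    have e2 : b = b' := by rw [← floor_of h2 h3, ← floor_of h2' h3']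
    have e3 : a = a' := by exact_mod_cast e1
    rw [e2, e3]

theorem GrL_cases {z : ℂ} (h : z ∈ GrL) : (∃ v, z = lp v) ∨ ∃ e, z ∈ oE e := by
  rcases h with ⟨k, hk⟩ | ⟨k, hk⟩
  · by_cases hf : z.im = ⌊z.im⌋
    · exact Or.inl ⟨(k, ⌊z.im⌋), Complex.ext hk hf⟩
    · refine Or.inr ⟨((k, ⌊z.im⌋), true), hk, ?_, ?_⟩
      · rw [co_v]
        have := Int.floor_le z.im
        exact sub_pos.2 (lt_of_le_of_ne this (fun h => hf h.symm))
      · rw [co_v]
        have := Int.lt_floor_add_one z.im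
        show z.im - (⌊z.im⌋ : ℝ) < 1
        linarith
  · by_cases hf : z.re = ⌊z.re⌋
    · exact Or.inl ⟨(⌊z.re⌋, k), Complex.ext hf hk⟩
    · refine Or.inr ⟨((⌊z.re⌋, k), false), hk, ?_, ?_⟩
      · rw [co_h]
        have := Int.floor_le z.re
        exact sub_pos.2 (lt_of_le_of_ne this (fun h => hf h.symm))
      · rw [co_h]
        have := Int.lt_floor_add_one z.re
        show z.re - (⌊z.re⌋ : ℝ) < 1
        linarith


/-- on the closed edge the coordinate is injective -/
theorem co_inj {e : Edge} {z w : ℂ} (hz : z ∈ cE e) (hw : w ∈ cE e) (h : co e z = co e w) :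
    z = w := by
  obtain ⟨v, b⟩ := e
  obtain ⟨h1, -⟩ := hz
  obtain ⟨h2, -⟩ := hw
  cases b
  · rw [mem_line_h] at h1 h2
    rw [co_h, co_h] at h
    exact Complex.ext (by linarith) (by rw [h1, h2])
  · rw [mem_line_v] at h1 h2
    rw [co_v, co_v] at h
    exact Complex.ext (by rw [h1, h2]) (by linarith)

/-- the two end points of a closed edge -/
theorem lp_cE {e : Edge} {v : P2} (h : lp v ∈ cE e) :
    (co e (lp v) = 0 ∧ v = src e) ∨ (co e (lp v) = 1 ∧ v = tgt e) := by
  obtain ⟨⟨a, b⟩, c⟩ := e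
  obtain ⟨p, q⟩ := v
  obtain ⟨h1, h2, h3⟩ := h
  cases c <;> simp only [mem_line_h, mem_line_v, co_h, co_v, lp_re, lp_im] at h1 h2 h3 ⊢
  · have e1 : q = b := by exact_mod_cast h1
    have e2 : a ≤ p := by
      have : (a : ℝ) ≤ p := by linarith
      exact_mod_cast this
    have e3 : p ≤ a + 1 := by
      have : (p : ℝ) ≤ a + 1 := by linarith
      exact_mod_cast this
    rcases (by omega : p = a ∨ p = a + 1) with h | h
    · left
      subst h; subst e1
      exact ⟨by simp, rfl⟩
    · right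
      subst h; subst e1
      exact ⟨by push_cast; ring, rfl⟩
  · have e1 : p = a := by exact_mod_cast h1
    have e2 : b ≤ q := by
      have : (b : ℝ) ≤ q := by linarith
      exact_mod_cast this
    have e3 : q ≤ b + 1 := by
      have : (q : ℝ) ≤ b + 1 := by linarith
      exact_mod_cast this
    rcases (by omega : q = b ∨ q = b + 1) with h | h
    · left
      subst h; subst e1
      exact ⟨by simp, rfl⟩
    · right
      subst h; subst e1
      exact ⟨by push_cast; ring, rfl⟩

theorem src_cE (e : Edge) : lp (src e) ∈ cE e ∧ co e (lp (src e)) = 0 := by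
  obtain ⟨⟨a, b⟩, c⟩ := e
  cases c <;> simp [cE, src]

theorem tgt_cE (e : Edge) : lp (tgt e) ∈ cE e ∧ co e (lp (tgt e)) = 1 := by
  obtain ⟨⟨a, b⟩, c⟩ := e
  cases c <;> simp [cE, tgt, add_comm]

/-- point of the closed edge with prescribed coordinate -/
noncomputable def ep (e : Edge) (s : ℝ) : ℂ :=
  if e.2 then ⟨e.1.1, e.1.2 + s⟩ else ⟨e.1.1 + s, e.1.2⟩

theorem ep_line (e : Edge) (s : ℝ) : ep e s ∈ lineE e := by
  obtain ⟨⟨a, b⟩, c⟩ := e
  cases c <;> simp [ep]

theorem co_ep (e : Edge) (s : ℝ) : co e (ep e s) = s := by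
  obtain ⟨⟨a, b⟩, c⟩ := e
  cases c <;> simp [ep]

theorem ep_oE {e : Edge} {s : ℝ} (h : 0 < s) (h' : s < 1) : ep e s ∈ oE e :=
  ⟨ep_line e s, by rw [co_ep]; exact h, by rw [co_ep]; exact h'⟩


/-- grid curve of unit mesh, in periodic form -/
structure GC (P : ℝ → ℂ) : Prop where
  cont : Continuous P
  per : ∀ t, P (t + 1) = P t
  inj : ∀ s t, P s = P t → ∃ k : ℤ, s - t = k
  grid : ∀ t, P t ∈ GrL

/-- a continuous periodic real function is never injective modulo the period -/
theorem noinj {f : ℝ → ℝ} (hf : Continuous f) (hp : ∀ t, f (t + 1) = f t) :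
    ∃ s t : ℝ, f s = f t ∧ ∀ k : ℤ, s - t ≠ k := by
  set g : ℝ → ℝ := fun x => f (x + 1 / 2) - f x with hg
  have hgc : Continuous g := (hf.comp (continuous_id.add continuous_const)).sub hf
  have h1 : g (1 / 2) = - g 0 := by
    simp only [hg]
    have := hp 0
    rw [zero_add] at this
    norm_num [this]
  have hx : ∃ x, g x = 0 := by
    rcases le_total (g 0) 0 with h | h
    · have := intermediate_value_Icc (by norm_num : (0 : ℝ) ≤ 1 / 2) hgc.continuousOn
      obtain ⟨x, -, hx⟩ := this ⟨h, by rw [h1]; linarith⟩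
      exact ⟨x, hx⟩
    · have := intermediate_value_Icc' (by norm_num : (0 : ℝ) ≤ 1 / 2) hgc.continuousOn
      obtain ⟨x, -, hx⟩ := this ⟨by rw [h1]; linarith, h⟩
      exact ⟨x, hx⟩
  obtain ⟨x, hx⟩ := hx
  refine ⟨x + 1 / 2, x, by simpa [hg, sub_eq_zero] using hx, fun k hk => ?_⟩
  have h2 : (1 : ℝ) = 2 * k := by linarith
  have h3 : (1 : ℤ) = 2 * k := by exact_mod_cast h2
  omega

/-- times at lattice points -/
def L0 (P : ℝ → ℂ) : Set ℝ := {t | ∃ v, P t = lp v}

namespace GC

variable {P : ℝ → ℂ} (h : GC P)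
include h

theorem per_int (t : ℝ) (k : ℤ) : P (t + k) = P t := by
  have h1 : Function.Periodic P 1 := h.per
  have := h1.int_mul k t
  simpa using this

theorem L0_add {t : ℝ} (k : ℤ) (ht : t ∈ L0 P) : t + k ∈ L0 P := by
  obtain ⟨v, hv⟩ := ht
  exact ⟨v, by rw [h.per_int, hv]⟩

theorem edge_of {t : ℝ} (ht : t ∉ L0 P) : ∃ e, P t ∈ oE e := by
  rcases GrL_cases (h.grid t) with ⟨v, hv⟩ | he
  · exact (ht ⟨v, hv⟩).elim
  · exact he

theorem edge_const {s : Set ℝ} (hs : IsPreconnected s) (hS : ∀ t ∈ s, t ∉ L0 P)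
    {e : Edge} {t0 : ℝ} (ht0 : t0 ∈ s) (he : P t0 ∈ oE e) : ∀ t ∈ s, P t ∈ oE e := by
  have hu : IsOpen (P ⁻¹' vE e) := (isOpen_vE e).preimage h.cont
  have hv : IsOpen (⋃ e' ∈ {e' | e' ≠ e}, P ⁻¹' vE e') :=
    isOpen_biUnion fun e' _ => (isOpen_vE e').preimage h.cont
  have hd : Disjoint (P ⁻¹' vE e) (⋃ e' ∈ {e' | e' ≠ e}, P ⁻¹' vE e') := by
    rw [Set.disjoint_left]
    intro t h1 h2
    simp only [mem_iUnion, mem_ofPred_eq] at h2
    obtain ⟨e', hne, h2⟩ := h2
    exact hne (oE_unique (vE_GrL e' h2 (h.grid t)) (vE_GrL e h1 (h.grid t)))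
  have hsub : s ⊆ (P ⁻¹' vE e) ∪ ⋃ e' ∈ {e' | e' ≠ e}, P ⁻¹' vE e' := by
    intro t ht
    obtain ⟨e', he'⟩ := h.edge_of (hS t ht)
    by_cases hee : e' = e
    · exact Or.inl (by rw [← hee]; exact oE_sub_vE e' he')
    · refine Or.inr ?_
      simp only [mem_iUnion, mem_ofPred_eq]
      exact ⟨e', hee, oE_sub_vE e' he'⟩
  have := IsPreconnected.subset_left_of_subset_union hu hv hd hsub ⟨t0, ht0, oE_sub_vE e he⟩ hs
  intro t ht
  exact vE_GrL e (this ht) (h.grid t)

theorem L0_nonempty : (L0 P).Nonempty := by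
  by_contra hne
  rw [Set.not_nonempty_iff_eq_empty] at hne
  have hS : ∀ t ∈ (univ : Set ℝ), t ∉ L0 P := fun t _ => by rw [hne]; exact notMem_empty t
  obtain ⟨e, he⟩ := h.edge_of (hS 0 trivial)
  have h1 := h.edge_const isPreconnected_univ hS (mem_univ 0) he
  obtain ⟨s, t, hst, hk⟩ := noinj (f := fun t => co e (P t)) ((continuous_co e).comp h.cont)
    (fun t => by simp only [h.per])
  obtain ⟨k, hk'⟩ := h.inj s t (co_inj (oE_sub_cE e (h1 s trivial)) (oE_sub_cE e (h1 t trivial)) hst)
  exact hk k hk'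

theorem bounded : ∃ R : ℕ, ∀ t, |(P t).re| ≤ R ∧ |(P t).im| ≤ R := by
  have h1 : IsCompact (P '' Icc 0 1) := isCompact_Icc.image h.cont
  obtain ⟨C, hC⟩ := h1.isBounded.exists_norm_le
  obtain ⟨R, hR⟩ := exists_nat_ge C
  refine ⟨R, fun t => ?_⟩
  have h2 : P t ∈ P '' Icc 0 1 := by
    refine ⟨Int.fract t, ⟨Int.fract_nonneg t, (Int.fract_lt_one t).le⟩, ?_⟩
    have := h.per_int (Int.fract t) ⌊t⌋
    rw [← this]
    congr 1
    exact Int.fract_add_floor t
  have h3 := (hC _ h2).trans hR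
  exact ⟨(Complex.abs_re_le_norm _).trans h3, (Complex.abs_im_le_norm _).trans h3⟩

theorem L0_finite : (L0 P ∩ Ico 0 1).Finite := by
  obtain ⟨R, hR⟩ := h.bounded
  have hfin : (Icc (-(R : ℤ)) R ×ˢ Icc (-(R : ℤ)) R : Set (ℤ × ℤ)).Finite :=
    (Set.finite_Icc _ _).prod (Set.finite_Icc _ _)
  refine Set.Finite.of_finite_image (f := P) ?_ ?_
  · refine (hfin.image lp).subset ?_
    rintro z ⟨t, ⟨⟨v, hv⟩, -⟩, rfl⟩
    refine ⟨v, ?_, hv.symm⟩
    have h1 := (hR t).1
    have h2 := (hR t).2
    rw [hv] at h1 h2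
    simp only [lp_re, lp_im] at h1 h2
    have h1' : |v.1| ≤ (R : ℤ) := by exact_mod_cast h1
    have h2' : |v.2| ≤ (R : ℤ) := by exact_mod_cast h2
    rw [abs_le] at h1' h2'
    exact ⟨⟨h1'.1, h1'.2⟩, ⟨h2'.1, h2'.2⟩⟩
  · rintro s ⟨-, hs⟩ t ⟨-, ht⟩ hst
    obtain ⟨k, hk⟩ := h.inj s t hst
    have h1 : (k : ℝ) < 1 := by rw [← hk]; linarith [hs.2, ht.1]
    have h2 : (-1 : ℝ) < k := by rw [← hk]; linarith [hs.1, ht.2]
    have h3 : k < 1 := by exact_mod_cast h1
    have h4 : -1 < k := by exact_mod_cast h2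
    have : k = 0 := by omega
    rw [this] at hk
    push_cast at hk
    linarith

end GC

end Crest.Agent.R158.Gp949
end

-- ▼ part R158/Gp2_949
section

/-!
# Row 158 (S0237), block GP (helper949): grid polygons, file 2

The cyclic enumeration of the lattice points of a grid curve.
-/

set_option autoImplicit false

namespace Crest.Agent.R158.Gp949

open Set Filter Topology Crest.Agent.R161.Geo729

/-- The combinatorial structure of a grid curve `P` of unit mesh. -/
structure GWalk (P : ℝ → ℂ) where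
  L : ℕ
  t : ℤ → ℝ
  v : ℤ → P2
  e : ℤ → Edge
  hL : 2 ≤ L
  mono : StrictMono t
  tper : ∀ i, t (i + L) = t i + 1
  all : ∀ s, s ∈ L0 P → ∃ i, s = t i
  Pt : ∀ i, P (t i) = lp (v i)
  Pe : ∀ i, ∀ s ∈ Ioo (t i) (t (i + 1)), P s ∈ oE (e i)
  ends : ∀ i, (v i = src (e i) ∧ v (i + 1) = tgt (e i) ∧
      StrictMonoOn (fun s => co (e i) (P s)) (Icc (t i) (t (i + 1)))) ∨
    (v i = tgt (e i) ∧ v (i + 1) = src (e i) ∧
      StrictAntiOn (fun s => co (e i) (P s)) (Icc (t i) (t (i + 1))))
  surj : ∀ i, P '' Icc (t i) (t (i + 1)) = cE (e i)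

section enum

/-- abstract enumeration: a nonempty set of reals, invariant under integer translations and finite
in `[0,1)`, is the range of a strictly increasing sequence with `t (i + L) = t i + 1`. -/
theorem exists_enum {S : Set ℝ} (hadd : ∀ t ∈ S, ∀ k : ℤ, t + k ∈ S) (hfin : (S ∩ Ico 0 1).Finite)
    (hne : S.Nonempty) : ∃ (L : ℕ) (t : ℤ → ℝ), 1 ≤ L ∧ StrictMono t ∧
      (∀ i, t (i + L) = t i + 1) ∧ ∀ s, s ∈ S ↔ ∃ i, s = t i := by
  classical
  set F : Finset ℝ := hfin.toFinset with hF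
  have memF : ∀ s, s ∈ F ↔ s ∈ S ∧ 0 ≤ s ∧ s < 1 := by
    intro s
    rw [hF, Set.Finite.mem_toFinset]
    exact Iff.rfl
  set L : ℕ := F.card with hL
  have hLpos : 0 < L := by
    obtain ⟨s, hs⟩ := hne
    refine Finset.card_pos.2 ⟨Int.fract s, (memF _).2 ⟨?_, Int.fract_nonneg s, Int.fract_lt_one s⟩⟩
    have := hadd s hs (-⌊s⌋)
    rw [Int.fract]
    push_cast at this
    rwa [← sub_eq_add_neg] at this
  have hLz : (0 : ℤ) < L := by exact_mod_cast hLpos
  let o : Fin L ↪o ℝ := F.orderEmbOfFin hL.symm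
  have ho : ∀ j, o j ∈ F := fun j => F.orderEmbOfFin_mem hL.symm j
  have hr : ∀ s ∈ F, ∃ j, o j = s := by
    intro s hs
    have := F.range_orderEmbOfFin hL.symm
    have h2 : s ∈ Set.range (F.orderEmbOfFin hL.symm) := by rw [this]; exact hs
    exact h2
  have hm : ∀ i : ℤ, (i % L).toNat < L := by
    intro i
    have h1 := Int.emod_nonneg i hLz.ne'
    have h2 := Int.emod_lt_of_pos i hLz
    omega
  set t : ℤ → ℝ := fun i => o ⟨(i % L).toNat, hm i⟩ + ((i / L : ℤ) : ℝ) with ht
  have hqr : ∀ (q : ℤ) (r : Fin L), t (L * q + r.1) = o r + q := by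
    intro q r
    have h1 : (L * q + (r.1 : ℤ)) % L = r.1 := by
      rw [Int.mul_add_emod_self_left]
      exact Int.emod_eq_of_lt (by omega) (by exact_mod_cast r.2)
    have h2 : (L * q + (r.1 : ℤ)) / L = q := by
      rw [Int.mul_add_ediv_left _ _ hLz.ne', Int.ediv_eq_zero_of_lt (by omega)
        (by exact_mod_cast r.2), add_zero]
    simp only [ht, h2]
    congr 2
    apply Fin.ext
    simp only [h1, Int.toNat_natCast]
  have hdec : ∀ i : ℤ, ∃ (q : ℤ) (r : Fin L), i = L * q + r.1 := by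
    intro i
    refine ⟨i / L, ⟨(i % L).toNat, hm i⟩, ?_⟩
    have h1 := Int.emod_nonneg i hLz.ne'
    have h2 := Int.mul_ediv_add_emod i L
    simp only
    rw [Int.toNat_of_nonneg h1]
    exact h2.symm
  refine ⟨L, t, hLpos, ?_, ?_, ?_⟩
  · refine strictMono_int_of_lt_succ fun i => ?_
    obtain ⟨q, r, rfl⟩ := hdec i
    rw [hqr]
    by_cases hr1 : r.1 + 1 < L
    · have : (L * q + (r.1 : ℤ) + 1) = L * q + ((⟨r.1 + 1, hr1⟩ : Fin L).1 : ℤ) := by
        push_cast; ring
      rw [this, hqr]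
      have h1 : o r < o ⟨r.1 + 1, hr1⟩ := o.strictMono (by rw [Fin.lt_def]; simp)
      linarith
    · have h2 : r.1 + 1 = L := by have := r.2; omega
      have : (L * q + (r.1 : ℤ) + 1) = L * (q + 1) + ((⟨0, hLpos⟩ : Fin L).1 : ℤ) := by
        have h3 : ((r.1 : ℤ) + 1) = L := by exact_mod_cast h2
        push_cast
        linear_combination h3
      rw [this, hqr]
      have h3 := ((memF _).1 (ho r)).2.2
      have h4 := ((memF _).1 (ho ⟨0, hLpos⟩)).2.1
      push_cast
      linarith
  · intro i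
    obtain ⟨q, r, rfl⟩ := hdec i
    have : (L * q + (r.1 : ℤ) + L) = L * (q + 1) + (r.1 : ℤ) := by ring
    rw [this, hqr, hqr]
    push_cast
    ring
  · intro s
    constructor
    · intro hs
      have h1 : Int.fract s ∈ F := by
        refine (memF _).2 ⟨?_, Int.fract_nonneg s, Int.fract_lt_one s⟩
        have := hadd s hs (-⌊s⌋)
        rw [Int.fract]
        push_cast at this
        rwa [← sub_eq_add_neg] at this
      obtain ⟨j, hj⟩ := hr _ h1
      refine ⟨L * ⌊s⌋ + j.1, ?_⟩
      rw [hqr, hj]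
      exact (Int.fract_add_floor s).symm
    · rintro ⟨i, rfl⟩
      obtain ⟨q, r, rfl⟩ := hdec i
      rw [hqr]
      exact hadd _ ((memF _).1 (ho r)).1 q

end enum

/-- **(GP1)** a grid curve is a lattice polygon. -/
theorem GC.exists_walk {P : ℝ → ℂ} (h : GC P) : Nonempty (GWalk P) := by
  obtain ⟨L, t, hL1, hmono, htper, hall⟩ :=
    exists_enum (S := L0 P) (fun t ht k => h.L0_add k ht) h.L0_finite h.L0_nonempty
  have hlt : ∀ i : ℤ, t i < t (i + 1) := fun i => hmono (by omega)
  have hv : ∀ i, ∃ v, P (t i) = lp v := fun i => (hall (t i)).2 ⟨i, rfl⟩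
  choose v hv using hv
  have hno : ∀ i : ℤ, ∀ s ∈ Ioo (t i) (t (i + 1)), s ∉ L0 P := by
    intro i s hs hs'
    obtain ⟨j, rfl⟩ := (hall s).1 hs'
    have h1 := hmono.lt_iff_lt.1 hs.1
    have h2 := hmono.lt_iff_lt.1 hs.2
    omega
  have he : ∀ i : ℤ, ∃ e, ∀ s ∈ Ioo (t i) (t (i + 1)), P s ∈ oE e := by
    intro i
    have hm : (t i + t (i + 1)) / 2 ∈ Ioo (t i) (t (i + 1)) := by
      have := hlt i
      constructor <;> linarith
    obtain ⟨e, he⟩ := h.edge_of (hno i _ hm)
    exact ⟨e, h.edge_const isPreconnected_Ioo (hno i) hm he⟩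
  choose e he using he
  have hcl : ∀ i : ℤ, ∀ s ∈ Icc (t i) (t (i + 1)), P s ∈ cE (e i) := by
    intro i
    have h1 : closure (Ioo (t i) (t (i + 1))) = Icc (t i) (t (i + 1)) := closure_Ioo (hlt i).ne
    intro s hs
    rw [← h1] at hs
    have h2 : MapsTo P (closure (Ioo (t i) (t (i + 1)))) (closure (cE (e i))) :=
      MapsTo.closure (fun x hx => oE_sub_cE _ (he i x hx)) h.cont
    rw [(isClosed_cE (e i)).closure_eq] at h2
    exact h2 hs
  have hL : 2 ≤ L := by
    by_contra hL2
    have hL1' : L = 1 := by omega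
    subst hL1'
    obtain ⟨s, s', hst, hk⟩ := noinj (f := fun x => co (e 0) (P x))
      ((continuous_co (e 0)).comp h.cont) (fun x => by simp only [h.per])
    have hin : ∀ x, P x ∈ cE (e 0) := by
      intro x
      have h1 : t (0 + 1) = t 0 + 1 := by have := htper 0; simpa using this
      have h2 := Int.fract_nonneg (x - t 0)
      have h3 := (Int.fract_lt_one (x - t 0)).le
      have h4 : P x = P (t 0 + Int.fract (x - t 0)) := by
        have := h.per_int (t 0 + Int.fract (x - t 0)) ⌊x - t 0⌋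
        rw [← this]
        congr 1
        have := Int.fract_add_floor (x - t 0)
        linarith
      rw [h4]
      exact hcl 0 _ ⟨by linarith, by rw [h1]; linarith⟩
    obtain ⟨k, hk'⟩ := h.inj s s' (co_inj (hin s) (hin s') hst)
    exact hk k hk'
  have hone : ∀ i : ℤ, t (i + 1) < t i + 1 := by
    intro i
    rw [← htper i]
    exact hmono (by omega)
  have hinj : ∀ i : ℤ, InjOn (fun s => co (e i) (P s)) (Icc (t i) (t (i + 1))) := by
    intro i s hs s' hs' hss
    obtain ⟨k, hk⟩ := h.inj s s' (co_inj (hcl i s hs) (hcl i s' hs') hss)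
    have h1 := hone i
    have h2 : (k : ℝ) < 1 := by rw [← hk]; linarith [hs.2, hs'.1]
    have h3 : (-1 : ℝ) < k := by rw [← hk]; linarith [hs.1, hs'.2]
    have h4 : k < 1 := by exact_mod_cast h2
    have h5 : -1 < k := by exact_mod_cast h3
    have : k = 0 := by omega
    rw [this] at hk
    push_cast at hk
    linarith
  have hcont : ∀ i : ℤ, ContinuousOn (fun s => co (e i) (P s)) (Icc (t i) (t (i + 1))) :=
    fun i => ((continuous_co (e i)).comp h.cont).continuousOn
  have hends : ∀ i : ℤ, (v i = src (e i) ∧ v (i + 1) = tgt (e i) ∧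
      StrictMonoOn (fun s => co (e i) (P s)) (Icc (t i) (t (i + 1)))) ∨
    (v i = tgt (e i) ∧ v (i + 1) = src (e i) ∧
      StrictAntiOn (fun s => co (e i) (P s)) (Icc (t i) (t (i + 1)))) := by
    intro i
    have hli := left_mem_Icc.2 (hlt i).le
    have hri := right_mem_Icc.2 (hlt i).le
    have h1 := hcl i _ hli
    have h2 := hcl i _ hri
    rw [hv i] at h1
    rw [hv (i + 1)] at h2
    have h3 := lp_cE h1
    have h4 := lp_cE h2
    rcases ContinuousOn.strictMonoOn_of_injOn_Icc' (hlt i).le (hcont i) (hinj i) with hm | hm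
    · left
      have h5 := hm hli hri (hlt i)
      simp only [hv] at h5
      rcases h3 with ⟨h3, h3'⟩ | ⟨h3, h3'⟩ <;> rcases h4 with ⟨h4, h4'⟩ | ⟨h4, h4'⟩ <;>
        rw [h3, h4] at h5
      · exact (lt_irrefl _ h5).elim
      · exact ⟨h3', h4', hm⟩
      · norm_num at h5
      · exact (lt_irrefl _ h5).elim
    · right
      have h5 := hm hli hri (hlt i)
      simp only [hv] at h5
      rcases h3 with ⟨h3, h3'⟩ | ⟨h3, h3'⟩ <;> rcases h4 with ⟨h4, h4'⟩ | ⟨h4, h4'⟩ <;>
        rw [h3, h4] at h5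
      · exact (lt_irrefl _ h5).elim
      · norm_num at h5
      · exact ⟨h3', h4', hm⟩
      · exact (lt_irrefl _ h5).elim
  refine ⟨⟨L, t, v, e, hL, hmono, htper, fun s hs => (hall s).1 hs, hv, he, hends, ?_⟩⟩
  intro i
  apply Subset.antisymm
  · rintro z ⟨s, hs, rfl⟩
    exact hcl i s hs
  · intro z hz
    have h0 : co (e i) z ∈ Icc (0 : ℝ) 1 := ⟨hz.2.1, hz.2.2⟩
    have hli := left_mem_Icc.2 (hlt i).le
    have hri := right_mem_Icc.2 (hlt i).le
    rcases hends i with ⟨h1, h2, -⟩ | ⟨h1, h2, -⟩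
    · have h3 := intermediate_value_Icc (hlt i).le (hcont i)
      simp only [hv, h1, h2, (src_cE (e i)).2, (tgt_cE (e i)).2] at h3
      obtain ⟨s, hs, hs'⟩ := h3 h0
      exact ⟨s, hs, co_inj (hcl i s hs) hz hs'⟩
    · have h3 := intermediate_value_Icc' (hlt i).le (hcont i)
      simp only [hv, h1, h2, (src_cE (e i)).2, (tgt_cE (e i)).2] at h3
      obtain ⟨s, hs, hs'⟩ := h3 h0
      exact ⟨s, hs, co_inj (hcl i s hs) hz hs'⟩

end Crest.Agent.R158.Gp949
end

-- ▼ part R158/Gp3_949
section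

/-!
# Row 158 (S0237), block GP (helper949): grid polygons, file 3

Combinatorial Jordan curve theorem for the lattice polygon: parity of the cells, the cells of equal
parity are connected through edges off the trace.
-/

set_option autoImplicit false
set_option linter.unusedSectionVars false
set_option linter.unusedVariables false

namespace Crest.Agent.R158.Gp949

open Set Filter Topology Crest.Agent.R161.Geo729

/-- the vertex `w` is an end point of the edge `e` -/
def Inc (e : Edge) (w : P2) : Prop := w = src e ∨ w = tgt e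

theorem inc_iff (e : Edge) (w : P2) : Inc e w ↔
    e = ((w.1, w.2), false) ∨ e = ((w.1 - 1, w.2), false) ∨ e = ((w.1, w.2), true) ∨
      e = ((w.1, w.2 - 1), true) := by
  obtain ⟨⟨a, b⟩, c⟩ := e
  obtain ⟨p, q⟩ := w
  cases c <;> simp only [Inc, src, tgt, Prod.mk.injEq, if_true, if_false, Bool.false_eq_true,
    and_true, and_false, or_false, false_or, Bool.true_eq_false] <;> omega

theorem inc_src (e : Edge) : Inc e (src e) := Or.inl rfl
theorem inc_tgt (e : Edge) : Inc e (tgt e) := Or.inr rfl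

theorem corner_of_inc {e : Edge} {w : P2} (h : Inc e w) :
    IsCorner w (fA e) ∧ IsCorner w (fB e) := by
  obtain ⟨⟨a, b⟩, c⟩ := e
  obtain ⟨p, q⟩ := w
  simp only [isCorner_iff]
  cases c <;> simp only [Inc, src, tgt, fA, fB, Prod.mk.injEq, if_true, if_false,
    Bool.false_eq_true] at h ⊢ <;> omega

namespace GWalk

variable {P : ℝ → ℂ} (h : GC P) (W : GWalk P)

theorem hlt (i : ℤ) : W.t i < W.t (i + 1) := W.mono (by omega)


theorem tper_int (i k : ℤ) : W.t (i + k * W.L) = W.t i + k := by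
  induction k using Int.induction_on with
  | zero => simp
  | succ n ih =>
    have : i + ((n : ℤ) + 1) * W.L = (i + n * W.L) + W.L := by ring
    rw [this, W.tper, ih]; push_cast; ring
  | pred n ih =>
    have h1 := W.tper (i + (-(n : ℤ) - 1) * W.L)
    have : i + (-(n : ℤ) - 1) * W.L + W.L = i + -(n : ℤ) * W.L := by ring
    rw [this, ih] at h1
    push_cast at h1 ⊢
    linarith

include h

theorem vper (i k : ℤ) : W.v (i + k * W.L) = W.v i := by
  apply lp_inj
  rw [← W.Pt, ← W.Pt, W.tper_int, h.per_int]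

theorem vinj {i j : ℤ} (hij : W.v i = W.v j) : ∃ k : ℤ, i = j + k * W.L := by
  have h1 : P (W.t i) = P (W.t j) := by rw [W.Pt, W.Pt, hij]
  obtain ⟨k, hk⟩ := h.inj _ _ h1
  refine ⟨k, W.mono.injective ?_⟩
  rw [W.tper_int]
  linarith

theorem mid_mem (i : ℤ) : (W.t i + W.t (i + 1)) / 2 ∈ Ioo (W.t i) (W.t (i + 1)) := by
  have := W.hlt i
  constructor <;> linarith

theorem eper (i k : ℤ) : W.e (i + k * W.L) = W.e i := by
  have h1 := W.Pe i _ (W.mid_mem h i)
  have h2 := W.Pe (i + k * W.L) ((W.t i + W.t (i + 1)) / 2 + k) (by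
    have h3 := W.tper_int i k
    have h4 := W.tper_int (i + 1) k
    have h5 : i + 1 + k * W.L = i + k * W.L + 1 := by ring
    rw [h5] at h4
    rw [h3, h4]
    have := W.mid_mem h i
    exact ⟨by linarith [this.1], by linarith [this.2]⟩)
  rw [h.per_int] at h2
  exact oE_unique h2 h1

omit h in
theorem oE_image (i : ℤ) {z : ℂ} (hz : z ∈ oE (W.e i)) :
    ∃ s ∈ Ioo (W.t i) (W.t (i + 1)), P s = z := by
  have h1 : z ∈ P '' Icc (W.t i) (W.t (i + 1)) := by rw [W.surj]; exact oE_sub_cE _ hz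
  obtain ⟨s, hs, rfl⟩ := h1
  refine ⟨s, ⟨lt_of_le_of_ne hs.1 ?_, lt_of_le_of_ne hs.2 ?_⟩, rfl⟩
  · rintro rfl
    rw [W.Pt] at hz
    exact lp_not_oE _ _ hz
  · rintro rfl
    rw [W.Pt] at hz
    exact lp_not_oE _ _ hz

theorem einj {i j : ℤ} (hij : W.e i = W.e j) : ∃ k : ℤ, i = j + k * W.L := by
  have h1 := W.Pe i _ (W.mid_mem h i)
  rw [hij] at h1
  obtain ⟨s, hs, hs'⟩ := W.oE_image j h1
  obtain ⟨k, hk⟩ := h.inj _ _ hs'
  have h2 := W.mid_mem h i
  refine ⟨-k, ?_⟩
  have h3 := W.tper_int j (-k)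
  have h4 := W.tper_int (j + 1) (-k)
  have h5 : j + 1 + -k * W.L = j + -k * W.L + 1 := by ring
  rw [h5] at h4
  have h6 : (W.t i + W.t (i + 1)) / 2 = s - k := by linarith
  rw [h6] at h2
  have h7 : W.t (j + -k * W.L) < W.t (i + 1) := by
    rw [h3]; push_cast; linarith [hs.1, h2.2]
  have h8 : W.t i < W.t (j + -k * W.L + 1) := by
    rw [h4]; push_cast; linarith [hs.2, h2.1]
  have h9 := W.mono.lt_iff_lt.1 h7
  have h10 := W.mono.lt_iff_lt.1 h8
  omega

omit h in
/-- trace edges -/
def tr (W : GWalk P) (e : Edge) : Prop := ∃ i, W.e i = e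

/-- every point of the curve lies on a closed trace edge -/
theorem mem_cE (s : ℝ) : ∃ i, s ∈ Ico (W.t i) (W.t (i + 1)) := by
  -- unboundedness of the times
  have hup : ∃ i, s < W.t i := by
    obtain ⟨n, hn⟩ := exists_nat_gt (s - W.t 0)
    refine ⟨0 + n * W.L, ?_⟩
    rw [W.tper_int]
    push_cast
    linarith
  have hdn : ∃ b : ℤ, ∀ i, s < W.t i → b ≤ i := by
    obtain ⟨n, hn⟩ := exists_nat_gt (W.t 0 - s)
    refine ⟨0 + (-(n : ℤ)) * W.L, fun i hi => ?_⟩
    have h1 : W.t (0 + (-(n : ℤ)) * W.L) < W.t i := by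
      rw [W.tper_int]
      push_cast
      linarith
    exact (W.mono.lt_iff_lt.1 h1).le
  obtain ⟨j, hj, hmin⟩ := Int.exists_least_of_bdd hdn hup
  refine ⟨j - 1, ?_, by simpa using hj⟩
  by_contra hlt
  push Not at hlt
  have := hmin (j - 1) hlt
  omega

theorem range_eq : range P = ⋃ i, cE (W.e i) := by
  ext z
  simp only [mem_range, mem_iUnion]
  constructor
  · rintro ⟨s, rfl⟩
    obtain ⟨i, hi⟩ := W.mem_cE h s
    refine ⟨i, ?_⟩
    rw [← W.surj]
    exact ⟨s, ⟨hi.1, hi.2.le⟩, rfl⟩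
  · rintro ⟨i, hi⟩
    rw [← W.surj] at hi
    obtain ⟨s, -, hs⟩ := hi
    exact ⟨s, hs⟩

theorem tr_of_mem {e : Edge} {z : ℂ} (hz : z ∈ oE e) (hz' : z ∈ range P) : W.tr e := by
  obtain ⟨s, rfl⟩ := hz'
  obtain ⟨i, hi⟩ := W.mem_cE h s
  have hne : W.t i ≠ s := by
    rintro rfl
    rw [W.Pt] at hz
    exact lp_not_oE _ _ hz
  exact ⟨i, oE_unique (W.Pe i s ⟨lt_of_le_of_ne hi.1 hne, hi.2⟩) hz⟩

omit h in
theorem cE_sub (i : ℤ) : cE (W.e i) ⊆ range P := by
  rw [← W.surj]
  exact image_subset_range _ _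

omit h in
theorem cE_sub' {e : Edge} (he : W.tr e) : cE e ⊆ range P := by
  obtain ⟨i, rfl⟩ := he
  exact W.cE_sub i

omit h in
theorem inc_e (i : ℤ) : Inc (W.e i) (W.v i) ∧ Inc (W.e i) (W.v (i + 1)) := by
  rcases W.ends i with ⟨h1, h2, -⟩ | ⟨h1, h2, -⟩
  · exact ⟨Or.inl h1, Or.inr h2⟩
  · exact ⟨Or.inr h1, Or.inl h2⟩

omit h in
theorem inc_e_iff (i : ℤ) {w : P2} (hw : Inc (W.e i) w) : w = W.v i ∨ w = W.v (i + 1) := by
  rcases W.ends i with ⟨h1, h2, -⟩ | ⟨h1, h2, -⟩ <;> rcases hw with rfl | rfl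
  · exact Or.inl h1.symm
  · exact Or.inr h2.symm
  · exact Or.inr h2.symm
  · exact Or.inl h1.symm

/-- lattice points of the trace -/
theorem lp_mem {w : P2} : lp w ∈ range P ↔ ∃ i, W.v i = w := by
  constructor
  · rintro ⟨s, hs⟩
    obtain ⟨i, hi⟩ := W.all s ⟨w, hs⟩
    refine ⟨i, lp_inj ?_⟩
    rw [← W.Pt, ← hi, hs]
  · rintro ⟨i, rfl⟩
    exact ⟨W.t i, W.Pt i⟩

theorem tr_at {e : Edge} {i : ℤ} (hi : Inc e (W.v i)) (he : W.tr e) :
    e = W.e (i - 1) ∨ e = W.e i := by
  obtain ⟨j, rfl⟩ := he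
  rcases W.inc_e_iff j hi with h1 | h1
  · obtain ⟨k, hk⟩ := W.vinj h h1
    right
    have h2 := W.eper h j k
    rw [hk]
    exact h2.symm
  · obtain ⟨k, hk⟩ := W.vinj h h1
    left
    rw [hk]
    have : j + 1 + k * W.L - 1 = j + k * W.L := by ring
    rw [this, W.eper h]

theorem e_ne (i : ℤ) : W.e (i - 1) ≠ W.e i := by
  intro hh
  obtain ⟨k, hk⟩ := W.einj h hh
  have h1 := W.hL
  have h2 : (2 : ℤ) ≤ W.L := by exact_mod_cast h1
  have h3 : k * W.L = -1 := by omega
  have h4 : (W.L : ℤ) ∣ 1 := ⟨-k, by linarith [mul_comm k (W.L : ℤ)]⟩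
  have h5 := Int.le_of_dvd one_pos h4
  omega

/-- the four edges at a vertex -/
theorem deg (w : P2) :
    (∀ e, Inc e w → ¬ W.tr e) ∨ ∃ e1 e2, e1 ≠ e2 ∧ Inc e1 w ∧ Inc e2 w ∧ W.tr e1 ∧ W.tr e2 ∧
      ∀ e, Inc e w → W.tr e → e = e1 ∨ e = e2 := by
  by_cases hw : ∃ i, W.v i = w
  · obtain ⟨i, rfl⟩ := hw
    right
    refine ⟨W.e (i - 1), W.e i, W.e_ne h i, ?_, (W.inc_e i).1, ⟨_, rfl⟩, ⟨_, rfl⟩,
      fun e he he' => W.tr_at h he he'⟩
    have := (W.inc_e (i - 1)).2
    rwa [sub_add_cancel] at this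
  · left
    rintro e he ⟨j, rfl⟩
    rcases W.inc_e_iff j he with h1 | h1
    · exact hw ⟨j, h1.symm⟩
    · exact hw ⟨j + 1, h1.symm⟩

open Classical in
/-- indicator of the trace edges, modulo 2 -/
noncomputable def tz (W : GWalk P) (e : Edge) : ZMod 2 := if W.tr e then 1 else 0

/-- the four edges at `(a, b)`: none or exactly two are trace edges -/
theorem deg_cases (a b : ℤ) :
    (¬ W.tr ((a, b), false) ∧ ¬ W.tr ((a - 1, b), false) ∧ ¬ W.tr ((a, b), true) ∧
      ¬ W.tr ((a, b - 1), true)) ∨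
    (W.tr ((a, b), false) ∧ W.tr ((a - 1, b), false) ∧ ¬ W.tr ((a, b), true) ∧
      ¬ W.tr ((a, b - 1), true)) ∨
    (W.tr ((a, b), false) ∧ ¬ W.tr ((a - 1, b), false) ∧ W.tr ((a, b), true) ∧
      ¬ W.tr ((a, b - 1), true)) ∨
    (W.tr ((a, b), false) ∧ ¬ W.tr ((a - 1, b), false) ∧ ¬ W.tr ((a, b), true) ∧
      W.tr ((a, b - 1), true)) ∨
    (¬ W.tr ((a, b), false) ∧ W.tr ((a - 1, b), false) ∧ W.tr ((a, b), true) ∧
      ¬ W.tr ((a, b - 1), true)) ∨
    (¬ W.tr ((a, b), false) ∧ W.tr ((a - 1, b), false) ∧ ¬ W.tr ((a, b), true) ∧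
      W.tr ((a, b - 1), true)) ∨
    (¬ W.tr ((a, b), false) ∧ ¬ W.tr ((a - 1, b), false) ∧ W.tr ((a, b), true) ∧
      W.tr ((a, b - 1), true)) := by
  have i1 : Inc ((a, b), false) (a, b) := (inc_iff _ _).2 (Or.inl rfl)
  have i2 : Inc ((a - 1, b), false) (a, b) := (inc_iff _ _).2 (Or.inr (Or.inl rfl))
  have i3 : Inc ((a, b), true) (a, b) := (inc_iff _ _).2 (Or.inr (Or.inr (Or.inl rfl)))
  have i4 : Inc ((a, b - 1), true) (a, b) := (inc_iff _ _).2 (Or.inr (Or.inr (Or.inr rfl)))
  rcases W.deg h (a, b) with h0 | ⟨e1, e2, hne, h1, h2, ht1, ht2, hall⟩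
  · exact Or.inl ⟨h0 _ i1, h0 _ i2, h0 _ i3, h0 _ i4⟩
  · have key : ∀ e, Inc e (a, b) → (W.tr e ↔ e = e1 ∨ e = e2) := fun e he =>
      ⟨hall e he, by rintro (rfl | rfl) <;> assumption⟩
    rw [key _ i1, key _ i2, key _ i3, key _ i4]
    rw [inc_iff] at h1 h2
    have na : ¬ (a = a - 1) := by omega
    have nb : ¬ (b = b - 1) := by omega
    have na' : ¬ (a - 1 = a) := by omega
    have nb' : ¬ (b - 1 = b) := by omega
    clear hall key ht1 ht2 i1 i2 i3 i4
    rcases h1 with rfl | rfl | rfl | rfl <;> rcases h2 with rfl | rfl | rfl | rfl <;>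
      simp [na, nb, na', nb'] at hne ⊢

theorem tz_sum (a b : ℤ) : W.tz ((a, b), false) + W.tz ((a - 1, b), false) + W.tz ((a, b), true) +
    W.tz ((a, b - 1), true) = 0 := by
  have h11 : (1 : ZMod 2) + 1 = 0 := by decide
  rcases W.deg_cases h a b with h1 | h1 | h1 | h1 | h1 | h1 | h1 <;>
    obtain ⟨h1, h2, h3, h4⟩ := h1 <;> simp [tz, h1, h2, h3, h4, h11]

open Classical in
/-- the finite set of trace edges -/
noncomputable def TF (W : GWalk P) : Finset Edge :=
  (Finset.range W.L).image fun i : ℕ => W.e (i : ℤ)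

theorem mem_TF {e : Edge} : e ∈ W.TF ↔ W.tr e := by
  classical
  simp only [TF, Finset.mem_image, Finset.mem_range]
  constructor
  · rintro ⟨i, -, rfl⟩
    exact ⟨i, rfl⟩
  · rintro ⟨i, rfl⟩
    have hL : (0 : ℤ) < W.L := by have := W.hL; omega
    refine ⟨(i % W.L).toNat, ?_, ?_⟩
    · have h1 := Int.emod_nonneg i hL.ne'
      have h2 := Int.emod_lt_of_pos i hL
      omega
    · have h1 := Int.emod_nonneg i hL.ne'
      rw [Int.toNat_of_nonneg h1]
      have h2 := Int.mul_ediv_add_emod i W.L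
      have h3 := W.eper h (i % W.L) (i / W.L)
      rw [← h3]
      congr 1
      linarith [mul_comm (i / (W.L : ℤ)) (W.L : ℤ)]

open Classical in
/-- parity of a cell: number of vertical trace edges to its right -/
noncomputable def par (W : GWalk P) (c : P2) : ZMod 2 :=
  ((W.TF.filter fun e => e.2 = true ∧ e.1.2 = c.2 ∧ c.1 < e.1.1).card : ZMod 2)

theorem par_right (i j : ℤ) : W.par (i - 1, j) = W.par (i, j) + W.tz ((i, j), true) := by
  classical
  have hsplit : (W.TF.filter fun e => e.2 = true ∧ e.1.2 = j ∧ i - 1 < e.1.1) =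
      (W.TF.filter fun e => e.2 = true ∧ e.1.2 = j ∧ i < e.1.1) ∪
        (W.TF.filter fun e => e = ((i, j), true)) := by
    ext ⟨⟨a, b⟩, c⟩
    simp only [Finset.mem_filter, Finset.mem_union, Prod.mk.injEq]
    constructor
    · rintro ⟨h1, h2, h3, h4⟩
      by_cases h5 : i < a
      · exact Or.inl ⟨h1, h2, h3, h5⟩
      · exact Or.inr ⟨h1, ⟨by omega, h3⟩, h2⟩
    · rintro (⟨h1, h2, h3, h4⟩ | ⟨h1, ⟨h2, h3⟩, h4⟩)
      · exact ⟨h1, h2, h3, by omega⟩
      · exact ⟨h1, h4, h3, by omega⟩
  have hdisj : Disjoint (W.TF.filter fun e => e.2 = true ∧ e.1.2 = j ∧ i < e.1.1)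
      (W.TF.filter fun e => e = ((i, j), true)) := by
    rw [Finset.disjoint_left]
    intro e h1 h2
    rw [Finset.mem_filter] at h1 h2
    rw [h2.2] at h1
    exact lt_irrefl _ h1.2.2.2
  have hone : ((W.TF.filter fun e => e = ((i, j), true)).card : ZMod 2) = W.tz ((i, j), true) := by
    rw [tz]
    split_ifs with ht
    · have : (W.TF.filter fun e => e = ((i, j), true)) = {((i, j), true)} := by
        ext e
        simp only [Finset.mem_filter, Finset.mem_singleton, and_iff_right_iff_imp]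
        rintro rfl
        exact (W.mem_TF h).2 ht
      rw [this]
      simp
    · have : (W.TF.filter fun e => e = ((i, j), true)) = ∅ := by
        ext e
        simp only [Finset.mem_filter, Finset.notMem_empty, iff_false, not_and]
        rintro h1 rfl
        exact ht ((W.mem_TF h).1 h1)
      rw [this]
      simp
  unfold par
  simp only
  rw [hsplit, Finset.card_union_of_disjoint hdisj, Nat.cast_add, hone]

/-- a box containing the trace -/
theorem exists_box : ∃ B : ℤ, 0 < B ∧ ∀ e, W.tr e → |e.1.1| < B ∧ |e.1.2| < B := by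
  obtain ⟨B, hB⟩ := (W.TF.image fun e => max |e.1.1| |e.1.2|).exists_le
  refine ⟨max B 0 + 1, by positivity, fun e he => ?_⟩
  have h1 := hB _ (Finset.mem_image_of_mem _ ((W.mem_TF h).2 he))
  have h2 := le_max_left |e.1.1| |e.1.2|
  have h3 := le_max_right |e.1.1| |e.1.2|
  have h4 := le_max_left B 0
  exact ⟨by linarith, by linarith⟩

theorem par_zero_right {B : ℤ} (hB : ∀ e, W.tr e → |e.1.1| < B ∧ |e.1.2| < B) {c : P2}
    (hc : B ≤ c.1) : W.par c = 0 := by
  classical
  unfold par
  have : (W.TF.filter fun e => e.2 = true ∧ e.1.2 = c.2 ∧ c.1 < e.1.1) = ∅ := by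
    ext e
    simp only [Finset.mem_filter, Finset.notMem_empty, iff_false, not_and]
    intro h1 _ _ h2
    have := (hB e ((W.mem_TF h).1 h1)).1
    rw [abs_lt] at this
    omega
  rw [this]
  simp

theorem par_zero_row {B : ℤ} (hB : ∀ e, W.tr e → |e.1.1| < B ∧ |e.1.2| < B) {c : P2}
    (hc : B ≤ |c.2|) : W.par c = 0 := by
  classical
  unfold par
  have : (W.TF.filter fun e => e.2 = true ∧ e.1.2 = c.2 ∧ c.1 < e.1.1) = ∅ := by
    ext e
    simp only [Finset.mem_filter, Finset.notMem_empty, iff_false, not_and]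
    intro h1 _ h2 _
    have := (hB e ((W.mem_TF h).1 h1)).2
    rw [h2] at this
    omega
  rw [this]
  simp

theorem tz_zero {B : ℤ} (hB : ∀ e, W.tr e → |e.1.1| < B ∧ |e.1.2| < B) {e : Edge}
    (he : B ≤ |e.1.1| ∨ B ≤ |e.1.2|) : W.tz e = 0 := by
  rw [tz, if_neg]
  intro ht
  have := hB e ht
  omega

theorem par_up (i j : ℤ) : W.par (i, j) = W.par (i, j - 1) + W.tz ((i, j), false) := by
  obtain ⟨B, hB0, hB⟩ := W.exists_box h
  -- downward induction on `i`
  have key : ∀ n : ℕ, ∀ i : ℤ, B ≤ i + n →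
      W.par (i, j) = W.par (i, j - 1) + W.tz ((i, j), false) := by
    intro n
    induction n with
    | zero =>
      intro i hi
      have hi' : B ≤ i := by simpa using hi
      rw [W.par_zero_right h hB hi', W.par_zero_right h hB hi',
        W.tz_zero h hB (Or.inl (le_trans hi' (le_abs_self i)))]
      simp
    | succ n ih =>
      intro i hi
      have h1 := ih (i + 1) (by push_cast at hi; omega)
      have h2 := W.par_right h (i + 1) j
      have h3 := W.par_right h (i + 1) (j - 1)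
      have h4 := W.tz_sum h (i + 1) j
      rw [add_sub_cancel_right] at h2 h3 h4
      rw [h2, h3, h1]
      have h5 : W.tz ((i, j), false) = W.tz ((i + 1, j), false) + W.tz ((i + 1, j), true) +
          W.tz ((i + 1, j - 1), true) := by
        have h6 : ∀ x y z w : ZMod 2, x + y + z + w = 0 → y = x + z + w := by decide
        exact h6 _ _ _ _ h4
      rw [h5]
      generalize W.par (i + 1, j - 1) = p
      generalize W.tz ((i + 1, j), false) = q
      generalize W.tz ((i + 1, j), true) = r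
      generalize W.tz ((i + 1, j - 1), true) = s
      revert p q r s
      decide
  refine key (B - i).toNat i ?_
  have := Int.self_le_toNat (B - i)
  omega

theorem par_edge (e : Edge) : W.par (fA e) = W.par (fB e) + W.tz e := by
  obtain ⟨⟨a, b⟩, c⟩ := e
  cases c
  · exact W.par_up h a b
  · have h1 := W.par_right h a b
    simp only [fA_mk, fB_v]
    rw [h1]
    generalize W.par (a, b) = p
    generalize W.tz ((a, b), true) = q
    revert p q
    decide

theorem par_zero {B : ℤ} (hB : ∀ e, W.tr e → |e.1.1| < B ∧ |e.1.2| < B) {c : P2}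
    (hc : B ≤ |c.1| ∨ B ≤ |c.2|) : W.par c = 0 := by
  rcases hc with hc | hc
  · rcases le_total 0 c.1 with h1 | h1
    · rw [abs_of_nonneg h1] at hc
      exact W.par_zero_right h hB hc
    · rw [abs_of_nonpos h1] at hc
      obtain ⟨i, j⟩ := c
      simp only at hc h1
      -- move up to the row `B`
      have key : ∀ n : ℕ, ∀ j : ℤ, B ≤ j + n → W.par (i, j) = 0 := by
        intro n
        induction n with
        | zero =>
          intro j hj
          have hj' : B ≤ j := by simpa using hj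
          exact W.par_zero_row h hB (le_trans hj' (le_abs_self j))
        | succ n ih =>
          intro j hj
          have h2 := ih (j + 1) (by push_cast at hj; omega)
          have h3 := W.par_up h i (j + 1)
          rw [add_sub_cancel_right, h2, W.tz_zero h hB (Or.inl (le_trans hc (neg_le_abs i))),
            add_zero] at h3
          exact h3.symm
      refine key (B - j).toNat j ?_
      have := Int.self_le_toNat (B - j)
      omega
  · exact W.par_zero_row h hB hc

omit h in
/-- one step between neighbouring cells through an edge off the trace -/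
def Step (W : GWalk P) (c c' : P2) : Prop :=
  ∃ e, ¬ W.tr e ∧ ((c = fA e ∧ c' = fB e) ∨ (c = fB e ∧ c' = fA e))

omit h in
/-- connection of cells through edges off the trace -/
def Reach (W : GWalk P) (c c' : P2) : Prop := Relation.ReflTransGen W.Step c c'

omit h in
theorem Step.symm {c c' : P2} (hs : W.Step c c') : W.Step c' c := by
  obtain ⟨e, he, h1 | h1⟩ := hs
  · exact ⟨e, he, Or.inr ⟨h1.2, h1.1⟩⟩
  · exact ⟨e, he, Or.inl ⟨h1.2, h1.1⟩⟩

omit h in
theorem Reach.symm {c c' : P2} (hs : W.Reach c c') : W.Reach c' c := by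
  induction hs with
  | refl => exact Relation.ReflTransGen.refl
  | tail _ h2 ih => exact Relation.ReflTransGen.head (Step.symm W h2) ih

omit h in
theorem Reach.trans {c c' c'' : P2} (hs : W.Reach c c') (hs' : W.Reach c' c'') : W.Reach c c'' :=
  Relation.ReflTransGen.trans hs hs'

omit h in
theorem Reach.refl (c : P2) : W.Reach c c := Relation.ReflTransGen.refl

omit h in
theorem reach_edge {e : Edge} (he : ¬ W.tr e) : W.Reach (fA e) (fB e) :=
  Relation.ReflTransGen.single ⟨e, he, Or.inl ⟨rfl, rfl⟩⟩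

theorem par_step {c c' : P2} (hs : W.Step c c') : W.par c = W.par c' := by
  obtain ⟨e, he, h1⟩ := hs
  have h2 := W.par_edge h e
  rw [tz, if_neg he, add_zero] at h2
  rcases h1 with ⟨rfl, rfl⟩ | ⟨rfl, rfl⟩
  · exact h2
  · exact h2.symm

theorem par_reach {c c' : P2} (hs : W.Reach c c') : W.par c = W.par c' := by
  induction hs with
  | refl => rfl
  | tail _ h2 ih => rw [ih, W.par_step h h2]

theorem par_ne {e : Edge} (he : W.tr e) : W.par (fA e) ≠ W.par (fB e) := by
  have h2 := W.par_edge h e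
  rw [tz, if_pos he] at h2
  rw [h2]
  generalize W.par (fB e) = p
  revert p
  decide

/-- cells of equal parity at a common vertex are connected -/
theorem reach_corner {w q q' : P2} (hq : IsCorner w q) (hq' : IsCorner w q')
    (hp : W.par q = W.par q') : W.Reach q q' := by
  obtain ⟨a, b⟩ := w
  -- the four edges and cells
  have eN : ¬ W.tr ((a, b), true) → W.Reach (a, b) (a - 1, b) := fun hh => W.reach_edge hh
  have eE : ¬ W.tr ((a, b), false) → W.Reach (a, b) (a, b - 1) := fun hh => W.reach_edge hh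
  have eW : ¬ W.tr ((a - 1, b), false) → W.Reach (a - 1, b) (a - 1, b - 1) :=
    fun hh => W.reach_edge hh
  have eS : ¬ W.tr ((a, b - 1), true) → W.Reach (a, b - 1) (a - 1, b - 1) :=
    fun hh => W.reach_edge hh
  have nN : W.tr ((a, b), true) → W.par (a, b) ≠ W.par (a - 1, b) := fun hh => W.par_ne h hh
  have nE : W.tr ((a, b), false) → W.par (a, b) ≠ W.par (a, b - 1) := fun hh => W.par_ne h hh
  have nW : W.tr ((a - 1, b), false) → W.par (a - 1, b) ≠ W.par (a - 1, b - 1) :=
    fun hh => W.par_ne h hh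
  have nS : W.tr ((a, b - 1), true) → W.par (a, b - 1) ≠ W.par (a - 1, b - 1) :=
    fun hh => W.par_ne h hh
  have hdeg := W.deg_cases h a b
  have opp1 : W.par (a, b) = W.par (a - 1, b - 1) → W.Reach (a, b) (a - 1, b - 1) := by
    intro hp
    by_cases hN : W.tr ((a, b), true)
    · by_cases hE : W.tr ((a, b), false)
      · have h1 : ¬ W.tr ((a - 1, b), false) := by
          rcases hdeg with h0 | h0 | h0 | h0 | h0 | h0 | h0
          · exact h0.2.1
          · exact (h0.2.2.1 hN).elim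
          · exact h0.2.1
          · exact h0.2.1
          · exact (h0.1 hE).elim
          · exact (h0.1 hE).elim
          · exact h0.2.1
        have h2 := W.par_reach h (eW h1)
        exact (nN hN (hp.trans h2.symm)).elim
      · by_cases hS : W.tr ((a, b - 1), true)
        · have h2 := W.par_reach h (eE hE)
          exact (nS hS (h2.symm.trans hp)).elim
        · exact (eE hE).trans _ (eS hS)
    · by_cases hW : W.tr ((a - 1, b), false)
      · have h2 := W.par_reach h (eN hN)
        exact (nW hW (h2.symm.trans hp)).elim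
      · exact (eN hN).trans _ (eW hW)
  have opp2 : W.par (a - 1, b) = W.par (a, b - 1) → W.Reach (a - 1, b) (a, b - 1) := by
    intro hp
    by_cases hN : W.tr ((a, b), true)
    · by_cases hW : W.tr ((a - 1, b), false)
      · have h1 : ¬ W.tr ((a, b), false) := by
          rcases hdeg with h0 | h0 | h0 | h0 | h0 | h0 | h0
          · exact h0.1
          · exact (h0.2.2.1 hN).elim
          · exact (h0.2.1 hW).elim
          · exact (h0.2.1 hW).elim
          · exact h0.1
          · exact h0.1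
          · exact h0.1
        have h2 := W.par_reach h (eE h1)
        exact (nN hN (h2.trans hp.symm)).elim
      · by_cases hS : W.tr ((a, b - 1), true)
        · have h2 := W.par_reach h (eW hW)
          exact (nS hS (hp.symm.trans h2)).elim
        · exact (eW hW).trans _ (Reach.symm W (eS hS))
    · by_cases hE : W.tr ((a, b), false)
      · have h2 := W.par_reach h (eN hN)
        exact (nE hE (h2.trans hp)).elim
      · exact (Reach.symm W (eN hN)).trans _ (eE hE)
  have aN : W.par (a, b) = W.par (a - 1, b) → W.Reach (a, b) (a - 1, b) := fun hp =>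
    eN fun ht => nN ht hp
  have aE : W.par (a, b) = W.par (a, b - 1) → W.Reach (a, b) (a, b - 1) := fun hp =>
    eE fun ht => nE ht hp
  have aW : W.par (a - 1, b) = W.par (a - 1, b - 1) → W.Reach (a - 1, b) (a - 1, b - 1) :=
    fun hp => eW fun ht => nW ht hp
  have aS : W.par (a, b - 1) = W.par (a - 1, b - 1) → W.Reach (a, b - 1) (a - 1, b - 1) :=
    fun hp => eS fun ht => nS ht hp
  rw [isCorner_iff] at hq hq'
  simp only at hq hq'
  rcases hq with rfl | rfl | rfl | rfl <;> rcases hq' with rfl | rfl | rfl | rfl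
  · exact Reach.refl W _
  · exact aN hp
  · exact aE hp
  · exact opp1 hp
  · exact Reach.symm W (aN hp.symm)
  · exact Reach.refl W _
  · exact opp2 hp
  · exact aW hp
  · exact Reach.symm W (aE hp.symm)
  · exact Reach.symm W (opp2 hp.symm)
  · exact Reach.refl W _
  · exact aS hp
  · exact Reach.symm W (opp1 hp.symm)
  · exact Reach.symm W (aW hp.symm)
  · exact Reach.symm W (aS hp.symm)
  · exact Reach.refl W _

open Classical in
/-- the cell of parity `p` at a trace edge -/
noncomputable def side (W : GWalk P) (e : Edge) (p : ZMod 2) : P2 :=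
  if W.par (fA e) = p then fA e else fB e

omit h in
theorem zmod2_cases {x y p : ZMod 2} (hne : x ≠ y) (hx : x ≠ p) : y = p := by
  revert x y p; decide

theorem par_side {e : Edge} (he : W.tr e) (p : ZMod 2) : W.par (W.side e p) = p := by
  unfold side
  split_ifs with h1
  · exact h1
  · exact zmod2_cases (W.par_ne h he) h1

omit h in
theorem side_corner {e : Edge} {w : P2} (hw : Inc e w) (p : ZMod 2) :
    IsCorner w (W.side e p) := by
  unfold side
  split_ifs
  · exact (corner_of_inc hw).1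
  · exact (corner_of_inc hw).2

theorem side_succ (i : ℤ) (p : ZMod 2) :
    W.Reach (W.side (W.e i) p) (W.side (W.e (i + 1)) p) := by
  refine W.reach_corner h (w := W.v (i + 1)) (W.side_corner (W.inc_e i).2 p)
    (W.side_corner (W.inc_e (i + 1)).1 p) ?_
  rw [W.par_side h ⟨i, rfl⟩, W.par_side h ⟨i + 1, rfl⟩]

theorem side_all (i j : ℤ) (p : ZMod 2) :
    W.Reach (W.side (W.e i) p) (W.side (W.e j) p) := by
  have key : ∀ (n : ℕ) (i : ℤ), W.Reach (W.side (W.e i) p) (W.side (W.e (i + n)) p) := by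
    intro n
    induction n with
    | zero => intro i; simpa using Reach.refl W _
    | succ n ih =>
      intro i
      refine (ih i).trans _ ?_
      have := W.side_succ h (i + n) p
      push_cast
      rwa [← add_assoc]
  rcases le_total i j with h1 | h1
  · have := key (j - i).toNat i
    rwa [Int.toNat_of_nonneg (by omega), add_sub_cancel] at this
  · have := key (i - j).toNat j
    rw [Int.toNat_of_nonneg (by omega), add_sub_cancel] at this
    exact Reach.symm W this

/-- far to the right all cells are connected -/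
theorem reach_far {B : ℤ} (hB0 : 0 < B) (hB : ∀ e, W.tr e → |e.1.1| < B ∧ |e.1.2| < B) {c c' : P2}
    (hc : B ≤ c.1) (hc' : B ≤ c'.1) : W.Reach c c' := by
  have nt : ∀ e : Edge, B ≤ e.1.1 → ¬ W.tr e := by
    intro e he ht
    have := (hB e ht).1
    rw [abs_lt] at this
    omega
  have hx : ∀ (n : ℕ) (i j : ℤ), B ≤ i → W.Reach (i, j) (i + n, j) := by
    intro n
    induction n with
    | zero => intro i j _; simpa using Reach.refl W _
    | succ n ih =>
      intro i j hi
      refine (ih i j hi).trans _ ?_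
      have h1 : W.Reach (fA ((i + n + 1, j), true)) (fB ((i + n + 1, j), true)) :=
        W.reach_edge (nt _ (by simp only; omega))
      simp only [fA_mk, fB_v, add_sub_cancel_right] at h1
      push_cast
      rw [← add_assoc]
      exact Reach.symm W h1
  have hy : ∀ (n : ℕ) (i j : ℤ), B ≤ i → W.Reach (i, j) (i, j + n) := by
    intro n
    induction n with
    | zero => intro i j _; simpa using Reach.refl W _
    | succ n ih =>
      intro i j hi
      refine (ih i j hi).trans _ ?_
      have h1 : W.Reach (fA ((i, j + n + 1), false)) (fB ((i, j + n + 1), false)) :=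
        W.reach_edge (nt _ (by simpa using hi))
      simp only [fA_mk, fB_h, add_sub_cancel_right] at h1
      push_cast
      rw [← add_assoc]
      exact Reach.symm W h1
  have hx' : ∀ i i' j : ℤ, B ≤ i → B ≤ i' → W.Reach (i, j) (i', j) := by
    intro i i' j hi hi'
    rcases le_total i i' with h1 | h1
    · have := hx (i' - i).toNat i j hi
      rwa [Int.toNat_of_nonneg (by omega), add_sub_cancel] at this
    · have := hx (i - i').toNat i' j hi'
      rw [Int.toNat_of_nonneg (by omega), add_sub_cancel] at this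
      exact Reach.symm W this
  have hy' : ∀ i j j' : ℤ, B ≤ i → W.Reach (i, j) (i, j') := by
    intro i j j' hi
    rcases le_total j j' with h1 | h1
    · have := hy (j' - j).toNat i j hi
      rwa [Int.toNat_of_nonneg (by omega), add_sub_cancel] at this
    · have := hy (j - j').toNat i j' hi
      rw [Int.toNat_of_nonneg (by omega), add_sub_cancel] at this
      exact Reach.symm W this
  obtain ⟨i, j⟩ := c
  obtain ⟨i', j'⟩ := c'
  exact (hx' i i' j hc hc').trans _ (hy' i' j j' hc')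

/-- walk to the right until the first trace edge -/
theorem reach_or {B : ℤ} (hB : ∀ e, W.tr e → |e.1.1| < B ∧ |e.1.2| < B) (c : P2) :
    (∃ c', W.Reach c c' ∧ B ≤ c'.1) ∨ ∃ i, W.Reach c (W.side (W.e i) (W.par c)) := by
  have key : ∀ (n : ℕ) (c : P2), B ≤ c.1 + n → (∃ c', W.Reach c c' ∧ B ≤ c'.1) ∨
      ∃ i, W.Reach c (W.side (W.e i) (W.par c)) := by
    intro n
    induction n with
    | zero => intro c hc; exact Or.inl ⟨c, Reach.refl W _, by simpa using hc⟩
    | succ n ih =>
      rintro ⟨i, j⟩ hc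
      simp only at hc
      by_cases ht : W.tr ((i + 1, j), true)
      · right
        obtain ⟨k, hk⟩ := ht
        refine ⟨k, ?_⟩
        have h1 : W.side (W.e k) (W.par (i, j)) = (i, j) := by
          have h2 := W.par_ne h (e := W.e k) ⟨k, rfl⟩
          rw [hk] at h2 ⊢
          simp only [fA_mk, fB_v, add_sub_cancel_right] at h2
          unfold side
          simp only [fA_mk, fB_v, add_sub_cancel_right]
          rw [if_neg h2]
        rw [h1]
        exact Reach.refl W _
      · have h1 := W.reach_edge ht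
        simp only [fA_mk, fB_v, add_sub_cancel_right] at h1
        have h2 := Reach.symm W h1
        rcases ih (i + 1, j) (by simp only; push_cast at hc; omega) with ⟨c', h3, h4⟩ | ⟨k, h3⟩
        · exact Or.inl ⟨c', h2.trans _ h3, h4⟩
        · right
          refine ⟨k, ?_⟩
          rw [W.par_reach h h2]
          exact h2.trans _ h3
  refine key (B - c.1).toNat c ?_
  have := Int.self_le_toNat (B - c.1)
  omega

/-- the exterior side of the polygon is connected to the far cells -/
theorem far_side {B : ℤ} (hB : ∀ e, W.tr e → |e.1.1| < B ∧ |e.1.2| < B) :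
    ∃ i c', W.Reach (W.side (W.e i) 0) c' ∧ B ≤ c'.1 := by
  classical
  -- a vertical trace edge exists
  have hv : (W.TF.filter fun e => e.2 = true).Nonempty := by
    have h1 := W.par_side h (e := W.e 0) ⟨0, rfl⟩ 1
    by_contra hne
    rw [Finset.not_nonempty_iff_eq_empty] at hne
    have h2 : W.par (W.side (W.e 0) 1) = 0 := by
      unfold par
      have : (W.TF.filter fun e => e.2 = true ∧ e.1.2 = (W.side (W.e 0) 1).2 ∧
          (W.side (W.e 0) 1).1 < e.1.1) = ∅ := by
        rw [← Finset.subset_empty, ← hne]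
        intro e he
        rw [Finset.mem_filter] at he ⊢
        exact ⟨he.1, he.2.1⟩
      rw [this]; simp
    rw [h1] at h2
    exact absurd h2 (by decide)
  obtain ⟨⟨⟨x, y⟩, d⟩, he, hmax⟩ :=
    Finset.exists_max_image (W.TF.filter fun e => e.2 = true) (fun e => e.1.1) hv
  rw [Finset.mem_filter] at he
  obtain ⟨he1, he2⟩ := he
  simp only at he2
  subst he2
  have ht := (W.mem_TF h).1 he1
  have nt : ∀ k : ℤ, x < k → ¬ W.tr ((k, y), true) := by
    intro k hk htk
    have := hmax ((k, y), true) (Finset.mem_filter.2 ⟨(W.mem_TF h).2 htk, rfl⟩)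
    simp only at this
    omega
  have hrun : ∀ n : ℕ, W.Reach (x, y) (x + n, y) := by
    intro n
    induction n with
    | zero => simpa using Reach.refl W _
    | succ n ih =>
      refine ih.trans _ ?_
      have h1 := W.reach_edge (nt (x + n + 1) (by omega))
      simp only [fA_mk, fB_v, add_sub_cancel_right] at h1
      push_cast
      rw [← add_assoc]
      exact Reach.symm W h1
  have hfar : B ≤ x + ((B - x).toNat : ℤ) := by
    have := Int.self_le_toNat (B - x)
    omega
  have h0 : W.par (x, y) = 0 := by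
    rw [W.par_reach h (hrun (B - x).toNat)]
    exact W.par_zero_right h hB hfar
  obtain ⟨i, hi⟩ := ht
  refine ⟨i, (x + ((B - x).toNat : ℤ), y), ?_, hfar⟩
  have h1 : W.side (W.e i) 0 = (x, y) := by
    unfold side
    rw [hi]
    simp only [fA_mk, h0, if_true]
  rw [h1]
  exact hrun _

/-- **combinatorial Jordan curve theorem**: two cells are connected through edges off the trace
iff they have the same parity. -/
theorem reach_iff (c c' : P2) : W.Reach c c' ↔ W.par c = W.par c' := by
  refine ⟨fun hr => W.par_reach h hr, fun hp => ?_⟩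
  obtain ⟨B, hB0, hB⟩ := W.exists_box h
  obtain ⟨i0, c0, hc0, hc0'⟩ := W.far_side h hB
  -- every cell is connected to the side of `e 0` of its parity
  have key : ∀ c, W.Reach c (W.side (W.e 0) (W.par c)) := by
    intro c
    rcases W.reach_or h hB c with ⟨c1, h1, h2⟩ | ⟨i, hi⟩
    · have h3 : W.par c = 0 := by rw [W.par_reach h h1]; exact W.par_zero_right h hB h2
      rw [h3]
      exact (h1.trans _ (W.reach_far h hB0 hB h2 hc0')).trans _
        ((Reach.symm W hc0).trans _ (W.side_all h i0 0 0))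
    · exact hi.trans _ (W.side_all h i 0 _)
  have h1 := key c
  rw [hp] at h1
  exact h1.trans _ (Reach.symm W (key c'))

end GWalk

end Crest.Agent.R158.Gp949
end

-- ▼ part R158/Gp4_949
section

/-!
# Row 158 (S0237), block GP (helper949): grid polygons, file 4

The plane side: the complement of the polygon has exactly the two components `{pz = 0}`, `{pz = 1}`,
the second one is bounded and the first one is not.
-/

set_option autoImplicit false
set_option linter.unusedSectionVars false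
set_option linter.unusedVariables false

namespace Crest.Agent.R158.Gp949

open Set Filter Topology Crest.Agent.R161.Geo729

/-- the half open cell of a point -/
noncomputable def cell (z : ℂ) : P2 := (⌊z.re⌋, ⌊z.im⌋)

/-- open cell -/
def oC (c : P2) : Set ℂ := {z | ((c.1 : ℝ) < z.re ∧ z.re < c.1 + 1) ∧ (c.2 : ℝ) < z.im ∧ z.im < c.2 + 1}
/-- closed cell -/
def cC (c : P2) : Set ℂ := {z | ((c.1 : ℝ) ≤ z.re ∧ z.re ≤ c.1 + 1) ∧ (c.2 : ℝ) ≤ z.im ∧ z.im ≤ c.2 + 1}

/-- centre of a cell -/
noncomputable def ctr (c : P2) : ℂ := ⟨c.1 + 1 / 2, c.2 + 1 / 2⟩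

@[simp] theorem ctr_re (c : P2) : (ctr c).re = c.1 + 1 / 2 := rfl
@[simp] theorem ctr_im (c : P2) : (ctr c).im = c.2 + 1 / 2 := rfl



theorem oC_GrL {c : P2} {z : ℂ} (h : z ∈ oC c) : z ∉ GrL := by
  rintro (⟨k, hk⟩ | ⟨k, hk⟩)
  · exact no_int hk (a := c.1) (by linarith [h.1.1]) (by linarith [h.1.2])
  · exact no_int hk (a := c.2) (by linarith [h.2.1]) (by linarith [h.2.2])

theorem cell_oC {c : P2} {z : ℂ} (h : z ∈ oC c) : cell z = c := by
  refine Prod.ext ?_ ?_
  · exact floor_of (by linarith [h.1.1]) (by linarith [h.1.2])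
  · exact floor_of (by linarith [h.2.1]) (by linarith [h.2.2])

theorem cell_lp (w : P2) : cell (lp w) = w := by
  refine Prod.ext ?_ ?_ <;> simp [cell]

theorem cell_oE {e : Edge} {z : ℂ} (h : z ∈ oE e) : cell z = fA e := by
  obtain ⟨⟨a, b⟩, c⟩ := e
  obtain ⟨h1, h2, h3⟩ := h
  cases c
  · rw [mem_line_h] at h1
    rw [co_h] at h2 h3
    refine Prod.ext (floor_of h2 h3) ?_
    simp [cell, h1]
  · rw [mem_line_v] at h1
    rw [co_v] at h2 h3
    refine Prod.ext ?_ (floor_of h2 h3)
    simp [cell, h1]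

/-- the closed cells containing a lattice point -/
theorem corner_of_cC {w c : P2} (h : lp w ∈ cC c) : IsCorner w c := by
  obtain ⟨⟨h1, h2⟩, h3, h4⟩ := h
  simp only [lp_re, lp_im] at h1 h2 h3 h4
  have h1' : c.1 ≤ w.1 := by exact_mod_cast h1
  have h2' : w.1 ≤ c.1 + 1 := by exact_mod_cast h2
  have h3' : c.2 ≤ w.2 := by exact_mod_cast h3
  have h4' : w.2 ≤ c.2 + 1 := by exact_mod_cast h4
  obtain ⟨a, b⟩ := w
  obtain ⟨p, q⟩ := c
  rw [isCorner_iff]
  simp only [Prod.mk.injEq] at *
  omega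

/-- the closed cells containing a point of an open edge -/
theorem cC_oE {e : Edge} {c : P2} {z : ℂ} (h : z ∈ oE e) (hc : z ∈ cC c) : c = fA e ∨ c = fB e := by
  obtain ⟨⟨a, b⟩, d⟩ := e
  obtain ⟨p, q⟩ := c
  obtain ⟨h1, h2, h3⟩ := h
  obtain ⟨⟨h4, h5⟩, h6, h7⟩ := hc
  cases d <;> simp only [mem_line_h, mem_line_v, co_h, co_v, fA_mk, fB_h, fB_v, Prod.mk.injEq]
    at *
  · have e1 : p < a + 1 := by
      have : (p : ℝ) < a + 1 := by linarith
      exact_mod_cast this
    have e2 : a < p + 1 := by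
      have : (a : ℝ) < p + 1 := by linarith
      exact_mod_cast this
    have e3 : q ≤ b := by
      have : (q : ℝ) ≤ b := by linarith
      exact_mod_cast this
    have e4 : b ≤ q + 1 := by
      have : (b : ℝ) ≤ q + 1 := by linarith
      exact_mod_cast this
    omega
  · have e1 : q < b + 1 := by
      have : (q : ℝ) < b + 1 := by linarith
      exact_mod_cast this
    have e2 : b < q + 1 := by
      have : (b : ℝ) < q + 1 := by linarith
      exact_mod_cast this
    have e3 : p ≤ a := by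
      have : (p : ℝ) ≤ a := by linarith
      exact_mod_cast this
    have e4 : a ≤ p + 1 := by
      have : (a : ℝ) ≤ p + 1 := by linarith
      exact_mod_cast this
    omega


theorem cC_not_GrL {z : ℂ} (h : z ∉ GrL) {c : P2} (hc : z ∈ cC c) : c = cell z := by
  have h1 : z ∈ oC c := by
    obtain ⟨⟨h4, h5⟩, h6, h7⟩ := hc
    refine ⟨⟨lt_of_le_of_ne h4 fun hh => h (Or.inl ⟨c.1, hh.symm⟩),
      lt_of_le_of_ne h5 fun hh => h (Or.inl ⟨c.1 + 1, by rw [hh]; push_cast; rfl⟩)⟩,
      lt_of_le_of_ne h6 fun hh => h (Or.inr ⟨c.2, hh.symm⟩),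
      lt_of_le_of_ne h7 fun hh => h (Or.inr ⟨c.2 + 1, by rw [hh]; push_cast; rfl⟩)⟩
  exact (cell_oC h1).symm

theorem floor_near (a : ℝ) : ∃ ε : ℝ, 0 < ε ∧ ∀ x : ℝ, |x - a| < ε →
    ((⌊x⌋ : ℝ) ≤ a ∧ a ≤ (⌊x⌋ : ℝ) + 1) := by
  have h1 : (⌈a⌉ : ℝ) < a + 1 := Int.ceil_lt_add_one a
  have h2 : a < (⌊a⌋ : ℝ) + 1 := Int.lt_floor_add_one a
  refine ⟨min (a - (⌈a⌉ - 1)) (⌊a⌋ + 1 - a), lt_min (by linarith) (by linarith), fun x hx => ?_⟩
  rw [abs_lt] at hx
  have h3 := min_le_left (a - ((⌈a⌉ : ℝ) - 1)) ((⌊a⌋ : ℝ) + 1 - a)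
  have h4 := min_le_right (a - ((⌈a⌉ : ℝ) - 1)) ((⌊a⌋ : ℝ) + 1 - a)
  have h5 : ((⌈a⌉ - 1 : ℤ) : ℝ) ≤ x := by push_cast; linarith
  have h6 : ⌈a⌉ - 1 ≤ ⌊x⌋ := Int.le_floor.2 h5
  have h7 : x < ((⌊a⌋ + 1 : ℤ) : ℝ) := by push_cast; linarith
  have h8 : ⌊x⌋ < ⌊a⌋ + 1 := Int.floor_lt.2 h7
  have h9 : (⌊x⌋ : ℝ) ≤ ⌊a⌋ := by exact_mod_cast Int.lt_add_one_iff.1 h8
  have h10 : ((⌈a⌉ : ℝ)) ≤ ⌊x⌋ + 1 := by
    have : ⌈a⌉ ≤ ⌊x⌋ + 1 := by omega
    exact_mod_cast this
  exact ⟨h9.trans (Int.floor_le a), (Int.le_ceil a).trans h10⟩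

theorem component_eq_of_segment {F : Set ℂ} {z w : ℂ} (hs : segment ℝ z w ⊆ F) :
    connectedComponentIn F z = connectedComponentIn F w := by
  have h1 : w ∈ connectedComponentIn F z :=
    (convex_segment z w).isPreconnected.subset_connectedComponentIn (left_mem_segment ℝ z w) hs
      (right_mem_segment ℝ z w)
  exact connectedComponentIn_eq h1

namespace GWalk

variable {P : ℝ → ℂ} (h : GC P) (W : GWalk P)
include h

omit h in
/-- parity of a point off the trace -/
noncomputable def pz (W : GWalk P) (z : ℂ) : ZMod 2 := W.par (cell z)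

theorem par_corner {w : P2} (hw : lp w ∉ range P) {q q' : P2} (hq : IsCorner w q)
    (hq' : IsCorner w q') : W.par q = W.par q' := by
  obtain ⟨a, b⟩ := w
  have hnt : ∀ e, Inc e (a, b) → ¬ W.tr e := by
    rintro e he ⟨i, rfl⟩
    rcases W.inc_e_iff i he with h1 | h1
    · exact hw ((W.lp_mem h).2 ⟨i, h1.symm⟩)
    · exact hw ((W.lp_mem h).2 ⟨i + 1, h1.symm⟩)
  have e1 : W.par (a, b) = W.par (a, b - 1) :=
    W.par_reach h (W.reach_edge (hnt ((a, b), false) ((inc_iff _ _).2 (Or.inl rfl))))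
  have e2 : W.par (a - 1, b) = W.par (a - 1, b - 1) :=
    W.par_reach h (W.reach_edge (hnt ((a - 1, b), false) ((inc_iff _ _).2 (Or.inr (Or.inl rfl)))))
  have e3 : W.par (a, b) = W.par (a - 1, b) :=
    W.par_reach h (W.reach_edge (hnt ((a, b), true)
      ((inc_iff _ _).2 (Or.inr (Or.inr (Or.inl rfl))))))
  have f3 := e2
  have f1 : W.par (a, b) = W.par (a - 1, b - 1) := e3.trans e2
  have f2 : W.par (a, b - 1) = W.par (a - 1, b - 1) := e1.symm.trans f1
  clear e1 e2 e3
  rw [isCorner_iff] at hq hq'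
  simp only at hq hq'
  rcases hq with rfl | rfl | rfl | rfl <;> rcases hq' with rfl | rfl | rfl | rfl <;>
    simp only [f1, f2, f3]

theorem par_closed {z : ℂ} (hz : z ∉ range P) {c : P2} (hc : z ∈ cC c) : W.par c = W.pz z := by
  unfold pz
  by_cases hg : z ∈ GrL
  · rcases GrL_cases hg with ⟨w, rfl⟩ | ⟨e, he⟩
    · rw [cell_lp]
      exact W.par_corner h hz (corner_of_cC hc) ((isCorner_iff _ _).2 (Or.inl rfl))
    · have hnt : ¬ W.tr e := fun ht => hz (W.cE_sub' ht (oE_sub_cE e he))
      rw [cell_oE he]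
      rcases cC_oE he hc with rfl | rfl
      · rfl
      · exact (W.par_reach h (W.reach_edge hnt)).symm
  · rw [cC_not_GrL hg hc]

theorem isClosed_range : IsClosed (range P) := by
  have h1 : range P = P '' Icc 0 1 := by
    apply Subset.antisymm
    · rintro _ ⟨t, rfl⟩
      refine ⟨Int.fract t, ⟨Int.fract_nonneg t, (Int.fract_lt_one t).le⟩, ?_⟩
      have := h.per_int (Int.fract t) ⌊t⌋
      rw [← this]
      congr 1
      exact Int.fract_add_floor t
    · exact image_subset_range _ _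
  rw [h1]
  exact (isCompact_Icc.image h.cont).isClosed

theorem pz_near {z : ℂ} (hz : z ∉ range P) : ∀ᶠ w in 𝓝 z, w ∉ range P ∧ W.pz w = W.pz z := by
  have h1 : ∀ᶠ w in 𝓝 z, w ∉ range P := (isClosed_range h).isOpen_compl.mem_nhds hz
  obtain ⟨ε1, hε1, h2⟩ := floor_near z.re
  obtain ⟨ε2, hε2, h3⟩ := floor_near z.im
  have h4 : ∀ᶠ w in 𝓝 z, |w.re - z.re| < ε1 := by
    have := (Complex.continuous_re.tendsto z).eventually (Metric.ball_mem_nhds z.re hε1)
    filter_upwards [this] with w hw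
    exact hw
  have h5 : ∀ᶠ w in 𝓝 z, |w.im - z.im| < ε2 := by
    have := (Complex.continuous_im.tendsto z).eventually (Metric.ball_mem_nhds z.im hε2)
    filter_upwards [this] with w hw
    exact hw
  filter_upwards [h1, h4, h5] with w hw1 hw2 hw3
  refine ⟨hw1, ?_⟩
  have h6 : z ∈ cC (cell w) := ⟨h2 _ hw2, h3 _ hw3⟩
  exact W.par_closed h hz h6

omit h in
/-- the points off the trace of parity `p` -/
def Rg (W : GWalk P) (p : ZMod 2) : Set ℂ := {z | z ∉ range P ∧ W.pz z = p}

theorem isOpen_Rg (p : ZMod 2) : IsOpen (W.Rg p) := by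
  rw [isOpen_iff_mem_nhds]
  rintro z ⟨hz, rfl⟩
  exact W.pz_near h hz

/-- a point is in the component of the centre of its cell -/
theorem comp_ctr {z : ℂ} (hz : z ∉ range P) :
    connectedComponentIn (range P)ᶜ z = connectedComponentIn (range P)ᶜ (ctr (cell z)) := by
  apply component_eq_of_segment
  rw [segment_eq_image]
  rintro _ ⟨s, ⟨hs0, hs1⟩, rfl⟩
  rcases hs0.eq_or_lt with rfl | hs0
  · simpa using hz
  · have h1 := Int.floor_le z.re
    have h2 := Int.lt_floor_add_one z.re
    have h3 := Int.floor_le z.im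
    have h4 := Int.lt_floor_add_one z.im
    have hoc : (1 - s) • z + s • ctr (cell z) ∈ oC (cell z) := by
      simp only [oC, mem_ofPred_eq, Complex.add_re, Complex.add_im, Complex.smul_re,
        Complex.smul_im, ctr_re, ctr_im, cell, smul_eq_mul]
      refine ⟨⟨?_, ?_⟩, ?_, ?_⟩ <;> nlinarith
    rintro ⟨t, ht⟩
    have hg := h.grid t
    rw [ht] at hg
    exact oC_GrL hoc hg

theorem comp_step {c c' : P2} (hs : W.Step c c') :
    connectedComponentIn (range P)ᶜ (ctr c) = connectedComponentIn (range P)ᶜ (ctr c') := by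
  have key : ∀ e, ¬ W.tr e → connectedComponentIn (range P)ᶜ (ctr (fA e)) =
      connectedComponentIn (range P)ᶜ (ctr (fB e)) := by
    intro e he
    apply component_eq_of_segment
    rw [segment_eq_image]
    rintro _ ⟨s, ⟨hs0, hs1⟩, rfl⟩
    rintro ⟨t, ht⟩
    have hg := h.grid t
    have hoe : P t ∈ oE e := by
      rw [ht] at hg ⊢
      obtain ⟨⟨a, b⟩, d⟩ := e
      cases d
      · simp only [fA_mk, fB_h] at hg ⊢
        rcases hg with ⟨k, hk⟩ | ⟨k, hk⟩
        · exfalso
          simp only [Complex.add_re, Complex.smul_re, ctr_re, smul_eq_mul] at hk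
          have h2 : (2 : ℝ) * k = 2 * a + 1 := by linarith
          have h3 : (2 : ℤ) * k = 2 * a + 1 := by exact_mod_cast h2
          omega
        · simp only [Complex.add_im, Complex.smul_im, ctr_im, smul_eq_mul] at hk
          push_cast at hk
          have h2 : (k : ℝ) = b + 1 / 2 - s := by linarith
          have h3 : (k : ℝ) < b + 1 := by linarith
          have h4 : (b : ℝ) - 1 < k := by linarith
          have h5 : k < b + 1 := by exact_mod_cast h3
          have h6 : b - 1 < k := by exact_mod_cast h4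
          have h7 : k = b := by omega
          subst h7
          refine ⟨?_, ?_, ?_⟩
          · rw [mem_line_h]
            simp only [Complex.add_im, Complex.smul_im, ctr_im, smul_eq_mul]
            push_cast
            linarith
          · rw [co_h]
            simp only [Complex.add_re, Complex.smul_re, ctr_re, smul_eq_mul]
            linarith
          · rw [co_h]
            simp only [Complex.add_re, Complex.smul_re, ctr_re, smul_eq_mul]
            linarith
      · simp only [fA_mk, fB_v] at hg ⊢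
        rcases hg with ⟨k, hk⟩ | ⟨k, hk⟩
        · simp only [Complex.add_re, Complex.smul_re, ctr_re, smul_eq_mul] at hk
          push_cast at hk
          have h2 : (k : ℝ) = a + 1 / 2 - s := by linarith
          have h3 : (k : ℝ) < a + 1 := by linarith
          have h4 : (a : ℝ) - 1 < k := by linarith
          have h5 : k < a + 1 := by exact_mod_cast h3
          have h6 : a - 1 < k := by exact_mod_cast h4
          have h7 : k = a := by omega
          subst h7
          refine ⟨?_, ?_, ?_⟩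
          · rw [mem_line_v]
            simp only [Complex.add_re, Complex.smul_re, ctr_re, smul_eq_mul]
            push_cast
            linarith
          · rw [co_v]
            simp only [Complex.add_im, Complex.smul_im, ctr_im, smul_eq_mul]
            linarith
          · rw [co_v]
            simp only [Complex.add_im, Complex.smul_im, ctr_im, smul_eq_mul]
            linarith
        · exfalso
          simp only [Complex.add_im, Complex.smul_im, ctr_im, smul_eq_mul] at hk
          have h2 : (2 : ℝ) * k = 2 * b + 1 := by linarith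
          have h3 : (2 : ℤ) * k = 2 * b + 1 := by exact_mod_cast h2
          omega
    exact he (W.tr_of_mem h hoe ⟨t, rfl⟩)
  obtain ⟨e, he, ⟨rfl, rfl⟩ | ⟨rfl, rfl⟩⟩ := hs
  · exact key e he
  · exact (key e he).symm

theorem comp_reach {c c' : P2} (hs : W.Reach c c') :
    connectedComponentIn (range P)ᶜ (ctr c) = connectedComponentIn (range P)ᶜ (ctr c') := by
  induction hs with
  | refl => rfl
  | tail _ h2 ih => rw [ih, W.comp_step h h2]

/-- **the components of the complement** -/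
theorem comp_eq {z : ℂ} (hz : z ∉ range P) :
    connectedComponentIn (range P)ᶜ z = W.Rg (W.pz z) := by
  apply Subset.antisymm
  · -- separation
    have hpc : IsPreconnected (connectedComponentIn (range P)ᶜ z) :=
      isPreconnected_connectedComponentIn
    have hsub : connectedComponentIn (range P)ᶜ z ⊆ W.Rg (W.pz z) ∪ W.Rg (W.pz z + 1) := by
      intro w hw
      have hw' : w ∉ range P := connectedComponentIn_subset _ _ hw
      have : W.pz w = W.pz z ∨ W.pz w = W.pz z + 1 := by
        generalize W.pz w = x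
        generalize W.pz z = y
        revert x y
        decide
      rcases this with h1 | h1
      · exact Or.inl ⟨hw', h1⟩
      · exact Or.inr ⟨hw', h1⟩
    have hdisj : Disjoint (W.Rg (W.pz z)) (W.Rg (W.pz z + 1)) := by
      rw [Set.disjoint_left]
      rintro w ⟨-, h1⟩ ⟨-, h2⟩
      rw [h1] at h2
      generalize W.pz z = y at h2
      revert y
      decide
    exact hpc.subset_left_of_subset_union (W.isOpen_Rg h _) (W.isOpen_Rg h _) hdisj hsub
      ⟨z, mem_connectedComponentIn hz, hz, rfl⟩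
  · rintro w ⟨hw, hwp⟩
    have h1 : W.Reach (cell w) (cell z) := (W.reach_iff h _ _).2 hwp
    rw [comp_ctr h hz, ← W.comp_reach h h1, ← comp_ctr h hw]
    exact mem_connectedComponentIn hw

theorem bdd_Rg_one : Bornology.IsBounded (W.Rg 1) := by
  obtain ⟨B, hB0, hB⟩ := W.exists_box h
  refine (Metric.isBounded_ball (x := (0 : ℂ)) (r := 2 * (B + 1))).subset ?_
  rintro z ⟨-, hz⟩
  have h1 : ¬ (B ≤ |(cell z).1| ∨ B ≤ |(cell z).2|) := by
    intro hh
    have := W.par_zero h hB hh
    rw [pz, this] at hz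
    exact absurd hz (by decide)
  push Not at h1
  obtain ⟨h2, h3⟩ := h1
  rw [abs_lt] at h2 h3
  have a1 := Int.floor_le z.re
  have a2 := Int.lt_floor_add_one z.re
  have a3 := Int.floor_le z.im
  have a4 := Int.lt_floor_add_one z.im
  have b1 : (-(B : ℝ)) < ⌊z.re⌋ := by exact_mod_cast h2.1
  have b2 : (⌊z.re⌋ : ℝ) < B := by exact_mod_cast h2.2
  have b3 : (-(B : ℝ)) < ⌊z.im⌋ := by exact_mod_cast h3.1
  have b4 : (⌊z.im⌋ : ℝ) < B := by exact_mod_cast h3.2
  rw [mem_ball_zero_iff]
  have h5 : |z.re| < B + 1 := abs_lt.2 ⟨by linarith, by linarith⟩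
  have h6 : |z.im| < B + 1 := abs_lt.2 ⟨by linarith, by linarith⟩
  calc ‖z‖ ≤ |z.re| + |z.im| := Complex.norm_le_abs_re_add_abs_im z
    _ < 2 * (B + 1) := by linarith

theorem not_bdd_Rg_zero : ¬ Bornology.IsBounded (W.Rg 0) := by
  obtain ⟨B, hB0, hB⟩ := W.exists_box h
  intro hb
  obtain ⟨C, hC⟩ := hb.exists_norm_le
  obtain ⟨n, hn⟩ := exists_nat_gt C
  set k : ℤ := B + n with hk
  have hkB : B ≤ k := by omega
  have hz : ctr (k, 0) ∈ oC (k, 0) := by
    simp only [oC, mem_ofPred_eq, ctr_re, ctr_im]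
    refine ⟨⟨?_, ?_⟩, ?_, ?_⟩ <;> linarith
  have hnt : ctr (k, 0) ∉ range P := by
    rintro ⟨t, ht⟩
    exact oC_GrL hz (ht ▸ h.grid t)
  have h1 : ctr (k, 0) ∈ W.Rg 0 := by
    refine ⟨hnt, ?_⟩
    rw [pz, cell_oC hz]
    exact W.par_zero_right h hB hkB
  have h2 := hC _ h1
  have h3 := (Complex.abs_re_le_norm (ctr (k, 0))).trans h2
  rw [ctr_re] at h3
  have h4 := le_abs_self ((k : ℝ) + 1 / 2)
  have h5 : (k : ℝ) = B + n := by rw [hk]; push_cast; ring
  have h6 : (0 : ℝ) < B := by exact_mod_cast hB0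
  linarith

/-- bounded components are the odd ones -/
theorem bdd_iff {z : ℂ} (hz : z ∉ range P) :
    Bornology.IsBounded (connectedComponentIn (range P)ᶜ z) ↔ W.pz z = 1 := by
  rw [W.comp_eq h hz]
  have : W.pz z = 0 ∨ W.pz z = 1 := by
    generalize W.pz z = x
    revert x
    decide
  rcases this with h1 | h1
  · rw [h1]
    exact ⟨fun hb => (W.not_bdd_Rg_zero h hb).elim, fun hh => absurd hh (by decide)⟩
  · rw [h1]
    exact ⟨fun _ => rfl, fun _ => W.bdd_Rg_one h⟩

/-- **(GP3)** a closed edge is in the closed region iff one of its two cells is inside -/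
theorem cE_sub_iff (e : Edge) :
    cE e ⊆ W.Rg 1 ∪ range P ↔ W.par (fA e) = 1 ∨ W.par (fB e) = 1 := by
  constructor
  · intro hs
    have hm : ep e (1 / 2) ∈ oE e := ep_oE (by norm_num) (by norm_num)
    rcases hs (oE_sub_cE e hm) with ⟨-, h1⟩ | h1
    · left
      rwa [pz, cell_oE hm] at h1
    · have h2 := W.par_ne h (W.tr_of_mem h hm h1)
      generalize W.par (fA e) = x at *
      generalize W.par (fB e) = y at *
      revert x y
      decide
  · intro h1 z hz
    by_cases ht : z ∈ range P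
    · exact Or.inr ht
    · left
      refine ⟨ht, ?_⟩
      -- off the trace: both cells have the parity of `z`
      have hcA : z ∈ cC (fA e) := by
        obtain ⟨⟨a, b⟩, d⟩ := e
        obtain ⟨h2, h3, h4⟩ := hz
        cases d <;> simp only [mem_line_h, mem_line_v, co_h, co_v] at h2 h3 h4
        · exact ⟨⟨by simpa using h3, by simp only [fA_mk]; linarith⟩, by simp [h2], by simp [h2]⟩
        · exact ⟨⟨by simp [h2], by simp [h2]⟩, by simpa using h3, by simp only [fA_mk]; linarith⟩
      have hcB : z ∈ cC (fB e) := by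
        obtain ⟨⟨a, b⟩, d⟩ := e
        obtain ⟨h2, h3, h4⟩ := hz
        cases d <;> simp only [mem_line_h, mem_line_v, co_h, co_v] at h2 h3 h4
        · exact ⟨⟨by simpa using h3, by simp only [fB_h]; linarith⟩, by simp [h2], by simp [h2]⟩
        · exact ⟨⟨by simp [h2], by simp [h2]⟩, by simpa using h3, by simp only [fB_v]; linarith⟩
      rcases h1 with h1 | h1
      · rw [← h1]; exact (W.par_closed h ht hcA).symm
      · rw [← h1]; exact (W.par_closed h ht hcB).symm

/-- a lattice point is in the closed region iff one of its four cells is inside -/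
theorem lp_mem_iff (w : P2) :
    lp w ∈ W.Rg 1 ∪ range P ↔ ∃ q, IsCorner w q ∧ W.par q = 1 := by
  constructor
  · rintro (⟨-, h1⟩ | h1)
    · rw [pz, cell_lp] at h1
      exact ⟨w, (isCorner_iff _ _).2 (Or.inl rfl), h1⟩
    · obtain ⟨i, hi⟩ := (W.lp_mem h).1 h1
      refine ⟨W.side (W.e i) 1, W.side_corner ?_ 1, W.par_side h ⟨i, rfl⟩ 1⟩
      rw [← hi]
      exact (W.inc_e i).1
  · rintro ⟨q, hq, hq'⟩
    by_cases ht : lp w ∈ range P
    · exact Or.inr ht
    · left
      refine ⟨ht, ?_⟩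
      rw [pz, cell_lp, ← hq']
      exact W.par_corner h ht ((isCorner_iff _ _).2 (Or.inl rfl)) hq


end GWalk

end Crest.Agent.R158.Gp949
end

-- ▼ part R158/Gp5_949

/-!
# Row 158 (S0237), block GP (helper949): grid polygons, file 5

The literal grid polygons of S0237 (`IsGridPolygon δ γ`, `jordanInterior γ`, `regionGraph δ γ`).
-/

set_option autoImplicit false
set_option linter.unusedSectionVars false
set_option linter.unusedVariables false

namespace Crest.Agent.R158.Gp949

open Set Filter Topology Crest.Agent.R161.Geo729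
open Crest.ProbabilityR.Percolation Crest.ProbabilityR.FirstPassage

/-- the curve in unit mesh and periodic form -/
noncomputable def uc (δ : ℝ) (γ : ℝ → ℂ) : ℝ → ℂ := fun t => γ (Int.fract t) / δ

variable {δ : ℝ} {γ : ℝ → ℂ}

theorem div_re (z : ℂ) (δ : ℝ) : (z / (δ : ℂ)).re = z.re / δ := Complex.div_ofReal_re z δ
theorem div_im (z : ℂ) (δ : ℝ) : (z / (δ : ℂ)).im = z.im / δ := Complex.div_ofReal_im z δ

theorem fract_mem_Ico (t : ℝ) : Int.fract t ∈ Ico (0 : ℝ) 1 :=
  ⟨Int.fract_nonneg t, Int.fract_lt_one t⟩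

theorem gc_uc (hδ : 0 < δ) (hγ : IsGridPolygon δ γ) : GC (uc δ γ) := by
  obtain ⟨⟨hc, hi, h01⟩, hg⟩ := hγ
  have hδ' : (δ : ℂ) ≠ 0 := by exact_mod_cast hδ.ne'
  refine ⟨?_, ?_, ?_, ?_⟩
  · exact (ContinuousOn.comp_fract'' hc h01).div_const _
  · intro t
    simp only [uc, Int.fract_add_one]
  · intro s t hst
    simp only [uc] at hst
    have h1 : γ (Int.fract s) = γ (Int.fract t) := by
      field_simp at hst
      exact hst
    have h2 := hi (fract_mem_Ico s) (fract_mem_Ico t) h1
    refine ⟨⌊s⌋ - ⌊t⌋, ?_⟩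
    have h3 := Int.fract_add_floor s
    have h4 := Int.fract_add_floor t
    push_cast
    linarith
  · intro t
    have h1 : γ (Int.fract t) ∈ curveTrace γ := ⟨_, Ico_subset_Icc_self (fract_mem_Ico t), rfl⟩
    rcases hg h1 with ⟨k, hk⟩ | ⟨k, hk⟩
    · left
      refine ⟨k, ?_⟩
      rw [uc, div_re, hk]
      field_simp
    · right
      refine ⟨k, ?_⟩
      rw [uc, div_im, hk]
      field_simp

theorem uc_trace (hδ : 0 < δ) (h01 : γ 0 = γ 1) (z : ℂ) :
    z ∈ curveTrace γ ↔ z / δ ∈ range (uc δ γ) := by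
  have hδ' : (δ : ℂ) ≠ 0 := by exact_mod_cast hδ.ne'
  constructor
  · rintro ⟨t, ht, rfl⟩
    rcases ht.2.lt_or_eq with h1 | h1
    · refine ⟨t, ?_⟩
      rw [uc, Int.fract_eq_self.2 ⟨ht.1, h1⟩]
    · refine ⟨0, ?_⟩
      rw [uc, Int.fract_zero, h01, h1]
  · rintro ⟨t, ht⟩
    refine ⟨Int.fract t, Ico_subset_Icc_self (fract_mem_Ico t), ?_⟩
    simp only [uc] at ht
    field_simp at ht
    exact ht

/-- the dilation by `δ` -/
noncomputable def dil (δ : ℝ) (hδ : 0 < δ) : ℂ ≃ₜ ℂ :=
  Homeomorph.mulLeft₀ (δ : ℂ) (by exact_mod_cast hδ.ne')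

@[simp] theorem dil_apply (hδ : 0 < δ) (z : ℂ) : dil δ hδ z = δ * z := rfl

theorem dil_compl (hδ : 0 < δ) (h01 : γ 0 = γ 1) :
    dil δ hδ '' (range (uc δ γ))ᶜ = (curveTrace γ)ᶜ := by
  have hδ' : (δ : ℂ) ≠ 0 := by exact_mod_cast hδ.ne'
  ext z
  constructor
  · rintro ⟨w, hw, rfl⟩
    rw [dil_apply, mem_compl_iff, uc_trace hδ h01]
    rwa [mul_div_cancel_left₀ w hδ']
  · intro hz
    refine ⟨z / δ, fun hh => hz ((uc_trace hδ h01 z).2 hh), ?_⟩
    rw [dil_apply]
    field_simp

section lit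

variable (hδ : 0 < δ) (hγ : IsGridPolygon δ γ) (W : GWalk (uc δ γ))
include hδ hγ

theorem ji_iff (z : ℂ) : z ∈ jordanInterior γ ↔ z / δ ∈ W.Rg 1 := by
  have h01 := hγ.1.2.2
  have hδ' : (δ : ℂ) ≠ 0 := by exact_mod_cast hδ.ne'
  have hgc := gc_uc hδ hγ
  have hzz : dil δ hδ (z / δ) = z := by
    rw [dil_apply]
    field_simp
  have key : ∀ hz : z / δ ∉ range (uc δ γ),
      (Bornology.IsBounded (connectedComponentIn (curveTrace γ)ᶜ z) ↔
        Bornology.IsBounded (connectedComponentIn (range (uc δ γ))ᶜ (z / δ))) := by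
    intro hz
    have h1 := (dil δ hδ).image_connectedComponentIn (s := (range (uc δ γ))ᶜ) (x := z / δ) hz
    rw [dil_compl hδ h01, hzz] at h1
    rw [← h1]
    constructor
    · intro hb
      obtain ⟨C, hC⟩ := hb.exists_norm_le
      refine isBounded_iff_forall_norm_le.2 ⟨C / δ, fun w hw => ?_⟩
      have h2 := hC _ (mem_image_of_mem _ hw)
      rw [dil_apply, norm_mul, Complex.norm_real, Real.norm_of_nonneg hδ.le] at h2
      rw [le_div_iff₀ hδ]
      linarith
    · intro hb
      obtain ⟨C, hC⟩ := hb.exists_norm_le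
      refine isBounded_iff_forall_norm_le.2 ⟨δ * C, ?_⟩
      rintro _ ⟨w, hw, rfl⟩
      rw [dil_apply, norm_mul, Complex.norm_real, Real.norm_of_nonneg hδ.le]
      exact mul_le_mul_of_nonneg_left (hC w hw) hδ.le
  constructor
  · rintro ⟨h1, h2⟩
    rw [uc_trace hδ h01] at h1
    rw [key h1, W.bdd_iff hgc h1] at h2
    exact ⟨h1, h2⟩
  · rintro ⟨h1, h2⟩
    refine ⟨fun hh => h1 ((uc_trace hδ h01 z).1 hh), ?_⟩
    rw [key h1, W.bdd_iff hgc h1]
    exact h2

theorem closed_iff (z : ℂ) :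
    z ∈ jordanInterior γ ∪ curveTrace γ ↔ z / δ ∈ W.Rg 1 ∪ range (uc δ γ) := by
  rw [mem_union, mem_union, ji_iff hδ hγ W, uc_trace hδ hγ.1.2.2]

omit hδ hγ in
theorem gridPoint_div (hδ : 0 < δ) (v : P2) : gridPoint δ v / δ = lp v := by
  have hδ' : (δ : ℂ) ≠ 0 := by exact_mod_cast hδ.ne'
  apply Complex.ext
  · rw [div_re]
    simp only [gridPoint, lp_re]
    field_simp
  · rw [div_im]
    simp only [gridPoint, lp_im]
    field_simp

/-- lattice points of the closed region -/
theorem gridPoint_mem_iff (v : P2) :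
    gridPoint δ v ∈ jordanInterior γ ∪ curveTrace γ ↔ ∃ q, IsCorner v q ∧ W.par q = 1 := by
  rw [closed_iff hδ hγ W, gridPoint_div hδ, W.lp_mem_iff (gc_uc hδ hγ)]

omit hδ hγ in
theorem segment_edge (hδ : 0 < δ) (e : Edge) (z : ℂ) :
    z ∈ segment ℝ (gridPoint δ (src e)) (gridPoint δ (tgt e)) ↔ z / δ ∈ cE e := by
  have hδ' : (δ : ℂ) ≠ 0 := by exact_mod_cast hδ.ne'
  rw [segment_eq_image]
  constructor
  · rintro ⟨s, ⟨hs0, hs1⟩, rfl⟩
    obtain ⟨⟨a, b⟩, c⟩ := e
    cases c
    · refine ⟨?_, ?_, ?_⟩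
      · rw [mem_line_h, div_im]
        simp only [src, tgt, gridPoint, Complex.add_im, Complex.smul_im, smul_eq_mul,
          Bool.false_eq_true, if_false]
        field_simp
        ring
      · rw [co_h, div_re]
        simp only [src, tgt, gridPoint, Complex.add_re, Complex.smul_re, smul_eq_mul,
          Bool.false_eq_true, if_false]
        push_cast
        have : ((1 - s) * (δ * a) + s * (δ * (a + 1))) / δ - a = s := by field_simp; ring
        rw [this]; exact hs0
      · rw [co_h, div_re]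
        simp only [src, tgt, gridPoint, Complex.add_re, Complex.smul_re, smul_eq_mul,
          Bool.false_eq_true, if_false]
        push_cast
        have : ((1 - s) * (δ * a) + s * (δ * (a + 1))) / δ - a = s := by field_simp; ring
        rw [this]; exact hs1
    · refine ⟨?_, ?_, ?_⟩
      · rw [mem_line_v, div_re]
        simp only [src, tgt, gridPoint, Complex.add_re, Complex.smul_re, smul_eq_mul, if_true]
        field_simp
        ring
      · rw [co_v, div_im]
        simp only [src, tgt, gridPoint, Complex.add_im, Complex.smul_im, smul_eq_mul, if_true]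
        push_cast
        have : ((1 - s) * (δ * b) + s * (δ * (b + 1))) / δ - b = s := by field_simp; ring
        rw [this]; exact hs0
      · rw [co_v, div_im]
        simp only [src, tgt, gridPoint, Complex.add_im, Complex.smul_im, smul_eq_mul, if_true]
        push_cast
        have : ((1 - s) * (δ * b) + s * (δ * (b + 1))) / δ - b = s := by field_simp; ring
        rw [this]; exact hs1
  · intro hz
    refine ⟨co e (z / δ), ⟨hz.2.1, hz.2.2⟩, ?_⟩
    obtain ⟨⟨a, b⟩, c⟩ := e
    have h1 := hz.1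
    cases c
    · rw [mem_line_h, div_im] at h1
      simp only [co_h, div_re]
      apply Complex.ext
      · simp only [src, tgt, gridPoint, Complex.add_re, Complex.smul_re, smul_eq_mul,
          Bool.false_eq_true, if_false]
        push_cast
        field_simp
        ring
      · simp only [src, tgt, gridPoint, Complex.add_im, Complex.smul_im, smul_eq_mul,
          Bool.false_eq_true, if_false]
        rw [← h1]
        field_simp
        ring
    · rw [mem_line_v, div_re] at h1
      simp only [co_v, div_im]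
      apply Complex.ext
      · simp only [src, tgt, gridPoint, Complex.add_re, Complex.smul_re, smul_eq_mul, if_true]
        rw [← h1]
        field_simp
        ring
      · simp only [src, tgt, gridPoint, Complex.add_im, Complex.smul_im, smul_eq_mul, if_true]
        push_cast
        field_simp
        ring

/-- **an edge belongs to the region graph iff one of its two cells is inside** -/
theorem segment_sub_iff (e : Edge) :
    segment ℝ (gridPoint δ (src e)) (gridPoint δ (tgt e)) ⊆ jordanInterior γ ∪ curveTrace γ ↔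
      W.par (fA e) = 1 ∨ W.par (fB e) = 1 := by
  have hδ' : (δ : ℂ) ≠ 0 := by exact_mod_cast hδ.ne'
  rw [← W.cE_sub_iff (gc_uc hδ hγ)]
  constructor
  · intro hs z hz
    have h1 : (δ : ℂ) * z ∈ segment ℝ (gridPoint δ (src e)) (gridPoint δ (tgt e)) := by
      rw [segment_edge hδ, mul_div_cancel_left₀ z hδ']
      exact hz
    have h2 := hs h1
    rw [closed_iff hδ hγ W, mul_div_cancel_left₀ z hδ'] at h2
    exact h2
  · intro hs z hz
    rw [segment_edge hδ] at hz
    rw [closed_iff hδ hγ W]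
    exact hs hz

omit hδ hγ in
theorem sq_adj_iff (u v : P2) : squareLattice.Adj u v ↔
    ∃ e : Edge, (u = src e ∧ v = tgt e) ∨ (u = tgt e ∧ v = src e) := by
  obtain ⟨a, b⟩ := u
  obtain ⟨p, q⟩ := v
  simp only [squareLattice, SimpleGraph.fromRel_adj]
  constructor
  · rintro ⟨-, (⟨h1, h2⟩ | ⟨h1, h2⟩) | (⟨h1, h2⟩ | ⟨h1, h2⟩)⟩
    · exact ⟨((a, b), true), Or.inl ⟨rfl, by simp [tgt, h1, h2]⟩⟩
    · exact ⟨((a, b), false), Or.inl ⟨rfl, by simp [tgt, h1, h2]⟩⟩
    · exact ⟨((p, q), true), Or.inr ⟨by simp [tgt, h1, h2], rfl⟩⟩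
    · exact ⟨((p, q), false), Or.inr ⟨by simp [tgt, h1, h2], rfl⟩⟩
  · rintro ⟨⟨⟨x, y⟩, c⟩, h1⟩
    cases c <;> simp only [src, tgt, Prod.mk.injEq, if_true, if_false, Bool.false_eq_true, ne_eq]
      at h1 ⊢ <;> omega

theorem region_adj_iff (u v : P2) : (regionGraph δ γ).Adj u v ↔
    ∃ e : Edge, ((u = src e ∧ v = tgt e) ∨ (u = tgt e ∧ v = src e)) ∧
      (W.par (fA e) = 1 ∨ W.par (fB e) = 1) := by
  simp only [regionGraph, SimpleGraph.fromRel_adj]
  constructor
  · rintro ⟨-, ⟨h1, h2⟩ | ⟨h1, h2⟩⟩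
    · obtain ⟨e, ⟨rfl, rfl⟩ | ⟨rfl, rfl⟩⟩ := (sq_adj_iff u v).1 h1
      · exact ⟨e, Or.inl ⟨rfl, rfl⟩, (segment_sub_iff hδ hγ W e).1 h2⟩
      · rw [segment_symm] at h2
        exact ⟨e, Or.inr ⟨rfl, rfl⟩, (segment_sub_iff hδ hγ W e).1 h2⟩
    · obtain ⟨e, ⟨rfl, rfl⟩ | ⟨rfl, rfl⟩⟩ := (sq_adj_iff v u).1 h1
      · exact ⟨e, Or.inr ⟨rfl, rfl⟩, (segment_sub_iff hδ hγ W e).1 h2⟩
      · rw [segment_symm] at h2
        exact ⟨e, Or.inl ⟨rfl, rfl⟩, (segment_sub_iff hδ hγ W e).1 h2⟩
  · rintro ⟨e, h1, h2⟩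
    have h3 := (segment_sub_iff hδ hγ W e).2 h2
    rcases h1 with ⟨rfl, rfl⟩ | ⟨rfl, rfl⟩
    · have h4 : squareLattice.Adj (src e) (tgt e) := (sq_adj_iff _ _).2 ⟨e, Or.inl ⟨rfl, rfl⟩⟩
      exact ⟨h4.ne, Or.inl ⟨h4, h3⟩⟩
    · have h4 : squareLattice.Adj (tgt e) (src e) := (sq_adj_iff _ _).2 ⟨e, Or.inr ⟨rfl, rfl⟩⟩
      rw [segment_symm] at h3
      exact ⟨h4.ne, Or.inl ⟨h4, h3⟩⟩



/-- parameters of the lattice points of the trace -/
theorem gridPoint_param {s : ℝ} (hs : s ∈ Icc (0 : ℝ) 1) {v : P2} (hv : γ s = gridPoint δ v) :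
    ∃ i, W.v i = v ∧ W.t i = s := by
  have h01 := hγ.1.2.2
  have h1 : uc δ γ s = lp v := by
    rcases hs.2.lt_or_eq with h2 | h2
    · rw [uc, Int.fract_eq_self.2 ⟨hs.1, h2⟩, hv, gridPoint_div hδ]
    · have : uc δ γ s = γ 0 / δ := by rw [h2, uc, Int.fract_one]
      rw [this, h01, ← h2, hv, gridPoint_div hδ]
  obtain ⟨i, hi⟩ := W.all s ⟨v, h1⟩
  refine ⟨i, lp_inj ?_, hi.symm⟩
  rw [← W.Pt, ← hi, h1]


end lit

end Crest.Agent.R158.Gp949
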