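import Mathlib
import Crest.Agent.R158.Jt2_785

/-! R158 (helper785) BLOCK J, file 3: the uniformising map `φ` of S0237 on the closed region: image of
the trace, connectedness of the interior, continuous inverse, angle function of the boundary. -/

set_option autoImplicit false

open Set Topology Filter Metric
open Crest.ProbabilityR.Percolation

namespace Crest.Agent.R158.Jt785

open Crest.Agent.R036.Sweep Crest.Agent.R144.Geo268

/-- the hypotheses of S0237 on the map (without holomorphy) -/
structure Unif (γ : ℝ → ℂ) (φ : ℂ → ℂ) : Prop where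
  jc : IsJordanCurve γ
  cont : ContinuousOn φ (closure (jordanInterior γ))
  inj : InjOn φ (closure (jordanInterior γ))
  img : φ '' jordanInterior γ = ball 0 1

namespace Unif

variable {γ : ℝ → ℂ} {φ : ℂ → ℂ}

theorem ne (h : Unif γ φ) : (jordanInterior γ).Nonempty := by
  have h0 : (0 : ℂ) ∈ φ '' jordanInterior γ := by
    rw [h.img]
    simp
  obtain ⟨z, hz, -⟩ := h0
  exact ⟨z, hz⟩

theorem isCompact (h : Unif γ φ) : IsCompact (closure (jordanInterior γ)) :=
  (isBounded_ji h.jc).isCompact_closure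

theorem img_closure (h : Unif γ φ) : φ '' closure (jordanInterior γ) = closedBall 0 1 := by
  apply subset_antisymm
  · refine (h.cont.image_closure).trans ?_
    rw [h.img]
    exact closure_ball_subset_closedBall
  · have h1 : IsClosed (φ '' closure (jordanInterior γ)) := (h.isCompact.image_of_continuousOn h.cont).isClosed
    have h2 : ball (0:ℂ) 1 ⊆ φ '' closure (jordanInterior γ) := by
      rw [← h.img]
      exact image_mono subset_closure
    rw [← closure_ball (0:ℂ) one_ne_zero]
    exact closure_minimal h2 h1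

theorem tr_subset (h : Unif γ φ) : curveTrace γ ⊆ closure (jordanInterior γ) :=
  tr_subset_closure_ji h.jc h.ne

theorem img_tr (h : Unif γ φ) : φ '' curveTrace γ = sphere 0 1 := by
  have h1 : curveTrace γ = closure (jordanInterior γ) \ jordanInterior γ := by
    rw [← frontier_ji h.jc h.ne, (isOpen_ji h.jc).frontier_eq]
  rw [h1, h.inj.image_sdiff_subset subset_closure, h.img_closure, h.img, closedBall_sdiff_ball]

theorem norm_eq (h : Unif γ φ) {z : ℂ} (hz : z ∈ curveTrace γ) : ‖φ z‖ = 1 := by
  have : φ z ∈ sphere (0:ℂ) 1 := by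
    rw [← h.img_tr]
    exact mem_image_of_mem _ hz
  simpa using this

theorem norm_lt (h : Unif γ φ) {z : ℂ} (hz : z ∈ jordanInterior γ) : ‖φ z‖ < 1 := by
  have : φ z ∈ ball (0:ℂ) 1 := by
    rw [← h.img]
    exact mem_image_of_mem _ hz
  simpa using this

/-- the continuous inverse -/
theorem exists_inv (h : Unif γ φ) : ∃ ψ : ℂ → ℂ, ContinuousOn ψ (closedBall 0 1) ∧
    (∀ z ∈ closure (jordanInterior γ), ψ (φ z) = z) ∧
    (∀ w ∈ closedBall (0:ℂ) 1, φ (ψ w) = w ∧ ψ w ∈ closure (jordanInterior γ)) ∧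
    ψ '' ball 0 1 = jordanInterior γ := by
  classical
  let ψ : ℂ → ℂ := Function.invFunOn φ (closure (jordanInterior γ))
  have hψ : ∀ z ∈ closure (jordanInterior γ), ψ (φ z) = z := fun z hz =>
    h.inj.leftInvOn_invFunOn hz
  have hc : ContinuousOn ψ (closedBall 0 1) := by
    rw [continuousOn_iff_isClosed]
    intro t ht
    have h1 : IsCompact (closure (jordanInterior γ) ∩ t) := h.isCompact.inter_right ht
    refine ⟨φ '' (closure (jordanInterior γ) ∩ t),
      (h1.image_of_continuousOn (h.cont.mono inter_subset_left)).isClosed, ?_⟩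
    ext w
    constructor
    · rintro ⟨hw1, hw2⟩
      rw [← h.img_closure] at hw2
      obtain ⟨z, hz, rfl⟩ := hw2
      rw [mem_preimage, hψ z hz] at hw1
      refine ⟨⟨z, ⟨hz, hw1⟩, rfl⟩, ?_⟩
      rw [← h.img_closure]
      exact mem_image_of_mem _ hz
    · rintro ⟨⟨z, ⟨hz, hzt⟩, rfl⟩, hw⟩
      exact ⟨by rw [mem_preimage, hψ z hz]; exact hzt, hw⟩
  refine ⟨ψ, hc, hψ, fun w hw => ?_, ?_⟩
  · rw [← h.img_closure] at hw
    obtain ⟨z, hz, rfl⟩ := hw
    rw [hψ z hz]
    exact ⟨rfl, hz⟩
  · rw [← h.img]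
    ext z
    constructor
    · rintro ⟨_, ⟨y, hy, rfl⟩, rfl⟩
      rwa [hψ y (subset_closure hy)]
    · intro hz
      exact ⟨φ z, ⟨z, hz, rfl⟩, hψ z (subset_closure hz)⟩





end Unif

end Crest.Agent.R158.Jt785
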