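import Mathlib
import Crest.Agent.R158.Cd4_83

-- ▼ part R158/Sk1_656
section

/-!
R158, skeleton seat (helper656), part 1: ultrafilter limits of asymptotically equicontinuous
functions and the discrete Morera theorem (a discrete Cauchy-Riemann relation with error `o(mesh)`
off finitely many lines gives a holomorphic limit).
-/

set_option autoImplicit false

namespace Crest.Agent.R158.Sk656

open Filter Topology Set Metric MeasureTheory
open Complex (I)

noncomputable section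

/-! ## ultrafilter limits -/

/-- limit along a filter -/
def ul (l : Filter ℕ) (f : ℕ → ℂ) : ℂ := limUnder l f


/-- asymptotic equicontinuity on compact subsets -/
def AEq (l : Filter ℕ) (S : Set ℂ) (H : ℕ → ℂ → ℂ) : Prop :=
  ∀ K : Set ℂ, IsCompact K → K ⊆ S → ∀ ε : ℝ, 0 < ε → ∃ d : ℝ, 0 < d ∧
    ∀ᶠ n in l, ∀ z ∈ K, ∀ w ∈ K, dist z w < d → ‖H n z - H n w‖ ≤ ε

/-- pointwise convergence on `S` -/
def PLim (l : Filter ℕ) (S : Set ℂ) (H : ℕ → ℂ → ℂ) (h : ℂ → ℂ) : Prop :=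
  ∀ z ∈ S, Tendsto (fun n => H n z) l (𝓝 (h z))

theorem AEq.mono {l l' : Filter ℕ} {S S' : Set ℂ} {H : ℕ → ℂ → ℂ} (hl : l' ≤ l) (hS : S' ⊆ S)
    (h : AEq l S H) : AEq l' S' H := by
  intro K hK hKS ε hε
  obtain ⟨d, hd, h1⟩ := h K hK (hKS.trans hS) ε hε
  exact ⟨d, hd, h1.filter_mono hl⟩





/-! ## Riemann sums -/



/-! ## discrete Cauchy-Riemann relation -/

/-- the discrete Cauchy-Riemann relation on compact subsets of `S`, direction `ω`, step `r n`:
`H(z + i r ω) - H(z) = c (H(z + r ω) - H(z)) + o(r)` (`c = i`: holomorphic, `c = -i`: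
antiholomorphic limits) -/
def DCR (l : Filter ℕ) (S : Set ℂ) (ω c : ℂ) (r : ℕ → ℝ) (H : ℕ → ℂ → ℂ) : Prop :=
  ∀ K : Set ℂ, IsCompact K → K ⊆ S → ∀ ε : ℝ, 0 < ε → ∀ᶠ n in l, ∀ z ∈ K,
    ‖(H n (z + r n * I * ω) - H n z) - c * (H n (z + r n * ω) - H n z)‖ ≤ ε * r n

/-- the point with coordinates `(x,y)` in the frame `(ω, iω)` -/
def pt (ω : ℂ) (x y : ℝ) : ℂ := (x + y * I) * ω





/-- the closed rectangle in the frame `(ω, iω)` -/
def Rc (ω : ℂ) (x1 x2 y1 y2 : ℝ) : Set ℂ := (fun q : ℝ × ℝ => pt ω q.1 q.2) '' (Icc x1 x2 ×ˢ Icc y1 y2)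


theorem mem_Rc {ω : ℂ} {x1 x2 y1 y2 x y : ℝ} (h1 : x1 ≤ x) (h2 : x ≤ x2) (h3 : y1 ≤ y)
    (h4 : y ≤ y2) : pt ω x y ∈ Rc ω x1 x2 y1 y2 := ⟨(x, y), ⟨⟨h1, h2⟩, ⟨h3, h4⟩⟩, rfl⟩



end

end Crest.Agent.R158.Sk656
end

-- ▼ part R158/Sk2_656
section

/-!
R158, skeleton seat (helper656), part 2: Morera off finitely many lines; the (anti)holomorphic limit
of lattice functions with the discrete Cauchy-Riemann relation.
-/

set_option autoImplicit false

namespace Crest.Agent.R158.Sk656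

open Filter Topology Set Metric MeasureTheory
open Complex (I)

noncomputable section









/-- the set `S` without the lines at the heights `Λ` (frame `ω`) -/
def offL (S : Set ℂ) (ω : ℂ) (Λ : Set ℝ) : Set ℂ := {z | z ∈ S ∧ (z / ω).im ∉ Λ}



/-- complex conjugate family -/
theorem AEq.conj {l : Filter ℕ} {S : Set ℂ} {H : ℕ → ℂ → ℂ} (hA : AEq l S H) :
    AEq l S (fun n z => (starRingEnd ℂ) (H n z)) := by
  intro K hK hKS ε hε
  obtain ⟨d, hd, h1⟩ := hA K hK hKS ε hε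
  refine ⟨d, hd, ?_⟩
  filter_upwards [h1] with n hn z hz w hw hzw
  rw [← map_sub, RCLike.norm_conj]
  exact hn z hz w hw hzw

theorem PLim.conj {l : Filter ℕ} {S : Set ℂ} {H : ℕ → ℂ → ℂ} {h : ℂ → ℂ} (hP : PLim l S H h) :
    PLim l S (fun n z => (starRingEnd ℂ) (H n z)) (fun z => (starRingEnd ℂ) (h z)) := by
  intro z hz
  exact (Complex.continuous_conj.tendsto _).comp (hP z hz)

theorem DCR.conj {l : Filter ℕ} {S : Set ℂ} {ω : ℂ} {r : ℕ → ℝ} {H : ℕ → ℂ → ℂ}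
    (hD : DCR l S ω (-I) r H) : DCR l S ω I r (fun n z => (starRingEnd ℂ) (H n z)) := by
  intro K hK hKS ε hε
  filter_upwards [hD K hK hKS ε hε] with n hn z hz
  have h1 := hn z hz
  rw [← RCLike.norm_conj] at h1
  simp only [map_sub, map_mul, map_neg, Complex.conj_I, neg_neg] at h1
  exact h1


end

end Crest.Agent.R158.Sk656
end

-- ▼ part R158/Sk3_656

/-!
R158, skeleton seat (helper656), part 3: the two-parameter abstract form of S0237.

`ObsK γ p up`: lattice functions `H k n` (`k` = index of the environment (comb / polygon), `n` = mesh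
index) with the discrete Cauchy-Riemann relation, asymptotic equicontinuity inside, boundary
conditions on the three open arcs, the value near `γ (1/4)`, and the one-sided comparison of the
number `q k n` with `p n`.
`Ident γ X`: the identification theorem in limit form (bounded (anti)holomorphic functions with these
boundary conditions tend to `1 + (om-1) X` at `γ (1/4)`).
`lim_of_obsK`: `Ident`, `ObsK .. true` and `ObsK .. false` give `p n → X`.
-/

set_option autoImplicit false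

namespace Crest.Agent.R158.Sk656

open Filter Topology Set Metric MeasureTheory
open Complex (I)
open Crest.ProbabilityR.Percolation
open Crest.Agent.R158.Cd83

noncomputable section

/-- the three side functionals: `0` on the line of the side of the triangle `1, om, om²` -/
def sd1 (w : ℂ) : ℝ := ((w - 1) / (om - 1)).im
def sd2 (w : ℂ) : ℝ := ((w - om) / (om * (om - 1))).im
def sd3 (w : ℂ) : ℝ := ((w - om ^ 2) / (om ^ 2 * (om - 1))).im

theorem sd1_cont : Continuous sd1 := by unfold sd1; fun_prop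
theorem sd2_cont : Continuous sd2 := by unfold sd2; fun_prop
theorem sd3_cont : Continuous sd3 := by unfold sd3; fun_prop

/-- `(O4)`: boundary condition on the open arc `γ '' J`, side functional `s` -/
def BCk (D : Set ℂ) (γ : ℝ → ℂ) (J : Set ℝ) (s : ℂ → ℝ) (H : ℕ → ℕ → ℂ → ℂ) : Prop :=
  ∀ t ∈ J, ∀ ε : ℝ, 0 < ε → ∃ V ∈ 𝓝 (γ t), ∀ z ∈ V ∩ D, ∀ᶠ k in atTop, ∀ᶠ n in atTop,
    |s (H k n z)| ≤ ε

/-- One side of the sandwich (`up = true`: `p ≤ q + ε`; `up = false`: `q ≤ p + ε`). -/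
structure ObsK (γ : ℝ → ℂ) (p : ℕ → ℝ) (up : Bool) where
  /-- the domain of the `k`-th environment -/
  S : ℕ → Set ℂ
  /-- direction of the rows -/
  ω : ℂ
  /-- `I`: holomorphic, `-I`: antiholomorphic -/
  c : ℂ
  /-- step -/
  r : ℕ → ℕ → ℝ
  /-- exceptional heights -/
  Λ : ℕ → Set ℝ
  /-- observable -/
  H : ℕ → ℕ → ℂ → ℂ
  /-- crossing probability of the environment -/
  q : ℕ → ℕ → ℝ
  /-- bound -/
  B : ℝ
  hω : ‖ω‖ = 1
  hc : c = I ∨ c = -I
  S_open : ∀ k, IsOpen (S k)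
  Λ_fin : ∀ k, (Λ k).Finite
  S_ex : ∀ K : Set ℂ, IsCompact K → K ⊆ jordanInterior γ → ∀ᶠ k in atTop, K ⊆ S k
  r_pos : ∀ k, ∀ᶠ n in atTop, 0 < r k n
  r_lim : ∀ k, Tendsto (r k) atTop (𝓝 0)
  q01 : ∀ k, ∀ᶠ n in atTop, 0 ≤ q k n ∧ q k n ≤ 1
  O1 : ∀ k, ∀ z ∈ S k, ∀ᶠ n in atTop, ‖H k n z‖ ≤ B
  O2 : ∀ k, AEq atTop (S k) (H k)
  O3 : ∀ k, DCR atTop (offL (S k) ω (Λ k)) ω c (r k) (H k)
  O4a : BCk (jordanInterior γ) γ (Ioo 0 (1 / 2)) sd1 H
  O4b : BCk (jordanInterior γ) γ (Ioo (1 / 2) (3 / 4)) sd2 H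
  O4c : BCk (jordanInterior γ) γ (Ioo (3 / 4) 1) sd3 H
  O5 : ∀ ε : ℝ, 0 < ε → ∃ V ∈ 𝓝 (γ (1 / 4)), ∀ z ∈ V ∩ jordanInterior γ, ∀ᶠ k in atTop,
    ∀ᶠ n in atTop, ‖H k n z - (1 + (om - 1) * (q k n : ℂ))‖ ≤ ε
  O6 : ∀ ε : ℝ, 0 < ε → ∀ᶠ k in atTop, ∀ᶠ n in atTop,
    if up then p n ≤ q k n + ε else q k n ≤ p n + ε







end

end Crest.Agent.R158.Sk656
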