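import Crest.Agent.R158.Jt3_785
import Crest.Agent.R158.Spa_331

/-!
# Row 158 (S0237), SPL helpers (helper331), file 3: symmetries of the data of S0237

* `rp sg c γ t = γ (fract (c + sg t))`, `sg = ±1` : reparametrisations of the circle
  (`rv γ = rp (-1) (1/4) γ` keeps the arcs `A = γ[0,1/4]`, `C = γ[1/2,3/4]` and exchanges
  `B = γ[1/4,1/2]`, `E = γ[3/4,1]`)
* `cjc γ t = conj (γ t)` : reflection
* `arc_rv`, `arc_cjc` : same `arcCrossingProb`; `cross_rv`, `cross_cj` : same cross ratio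
-/

set_option autoImplicit false

noncomputable section

namespace Crest.Agent.R158.Spl331

open Set Topology Filter Metric MeasureTheory ProbabilityTheory unitInterval
open Crest.Agent.R161.Geo729 Crest.Agent.R161.Topo374 Crest.Agent.R161.Dual374
open Crest.Agent.R158.Rs689 Crest.Agent.R158.Cb771 Crest.Agent.R158.Gp949 Crest.Agent.R158.Jt785
open Crest.ProbabilityR.Percolation Crest.ProbabilityR.FirstPassage

/-! ### reparametrisation -/

/-- reparametrised closed curve -/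
def rp (sg c : ℝ) (γ : ℝ → ℂ) : ℝ → ℂ := fun t => γ (Int.fract (c + sg * t))

variable {γ : ℝ → ℂ} {sg c : ℝ}

theorem fract_Ico (t : ℝ) : Int.fract t ∈ Ico (0 : ℝ) 1 := ⟨Int.fract_nonneg t, Int.fract_lt_one t⟩

theorem fract_Icc (t : ℝ) : Int.fract t ∈ Icc (0 : ℝ) 1 := Ico_subset_Icc_self (fract_Ico t)

theorem rp_jordan (hs' : sg = 1 ∨ sg = -1) (h : IsJordanCurve γ) : IsJordanCurve (rp sg c γ) := by
  obtain ⟨hc, hi, h01⟩ := h
  refine ⟨?_, ?_, ?_⟩
  · have h1 : Continuous fun t => γ (Int.fract t) := ContinuousOn.comp_fract'' hc h01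
    exact (h1.comp (by fun_prop : Continuous fun t : ℝ => c + sg * t)).continuousOn
  · intro s hs t ht hst
    have h2 := hi (fract_Ico _) (fract_Ico _) hst
    have h3 := Int.fract_add_floor (c + sg * s)
    have h4 := Int.fract_add_floor (c + sg * t)
    have h5 : sg * (s - t) = ((⌊c + sg * s⌋ - ⌊c + sg * t⌋ : ℤ) : ℝ) := by
      push_cast
      linarith
    set m : ℤ := ⌊c + sg * s⌋ - ⌊c + sg * t⌋
    have h6 : |sg * (s - t)| < 1 := by
      rcases hs' with rfl | rfl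
      · rw [abs_lt]; constructor <;> linarith [hs.1, hs.2, ht.1, ht.2]
      · rw [abs_lt]; constructor <;> linarith [hs.1, hs.2, ht.1, ht.2]
    rw [h5] at h6
    have h7 : |m| < 1 := by exact_mod_cast h6
    have h8 : m = 0 := by
      rw [abs_lt] at h7; omega
    rw [h8] at h5
    rcases hs' with rfl | rfl
    · simp at h5; linarith
    · simp at h5; linarith
  · rcases hs' with rfl | rfl
    · simp only [rp, mul_zero, add_zero, mul_one, Int.fract_add_one]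
    · simp only [rp, mul_zero, add_zero, mul_one]
      rw [show c + -1 = c - 1 by ring, Int.fract_sub_one]

theorem rp_trace (hs : sg = 1 ∨ sg = -1) (h01 : γ 0 = γ 1) : curveTrace (rp sg c γ) = curveTrace γ := by
  have hs2 : sg * sg = 1 := by rcases hs with rfl | rfl <;> norm_num
  ext z
  constructor
  · rintro ⟨t, -, rfl⟩
    exact ⟨_, fract_Icc _, rfl⟩
  · rintro ⟨t, ht, rfl⟩
    refine ⟨Int.fract (sg * (t - c)), fract_Icc _, ?_⟩
    have h1 : Int.fract (c + sg * Int.fract (sg * (t - c))) = Int.fract t := by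
      rw [Int.fract_eq_fract]
      have h2 := Int.fract_add_floor (sg * (t - c))
      have h3 : Int.fract (sg * (t - c)) = sg * (t - c) - ⌊sg * (t - c)⌋ := by linarith
      rcases hs with rfl | rfl
      · refine ⟨-⌊(1 : ℝ) * (t - c)⌋, ?_⟩
        rw [h3]; push_cast; ring
      · refine ⟨⌊(-1 : ℝ) * (t - c)⌋, ?_⟩
        rw [h3]; push_cast; ring
    show γ (Int.fract (c + sg * Int.fract (sg * (t - c)))) = γ t
    rw [h1]
    rcases ht.2.lt_or_eq with h2 | h2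
    · rw [Int.fract_eq_self.2 ⟨ht.1, h2⟩]
    · rw [h2, Int.fract_one, h01]

theorem ji_congr {γ' : ℝ → ℂ} (h : curveTrace γ' = curveTrace γ) :
    jordanInterior γ' = jordanInterior γ := by
  unfold jordanInterior
  rw [h]

theorem rp_ji (hs : sg = 1 ∨ sg = -1) (h01 : γ 0 = γ 1) :
    jordanInterior (rp sg c γ) = jordanInterior γ := ji_congr (rp_trace hs h01)


theorem rp_unif {φ : ℂ → ℂ} (hs : sg = 1 ∨ sg = -1) (h : Unif γ φ) : Unif (rp sg c γ) φ := by
  have h1 := rp_ji (c := c) hs h.jc.2.2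
  exact ⟨rp_jordan hs h.jc, by rw [h1]; exact h.cont, by rw [h1]; exact h.inj, by rw [h1]; exact h.img⟩




/-! ### time reversal exchanging `B` and `E` -/

/-- the curve run backwards, keeping the arcs `A` and `C` -/
def rv (γ : ℝ → ℂ) : ℝ → ℂ := rp (-1) (1 / 4) γ

/-- the curve read from the mark `1/4` on (the arcs `A, B, C, E` become `B, C, E, A`) -/
def sh (γ : ℝ → ℂ) : ℝ → ℂ := rp 1 (1 / 4) γ

theorem fract_rv1 {t : ℝ} (h0 : 0 ≤ t) (h1 : t ≤ 1 / 4) : Int.fract (1 / 4 + -1 * t) = 1 / 4 - t := by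
  rw [show (1 : ℝ) / 4 + -1 * t = 1 / 4 - t by ring]
  exact Int.fract_eq_self.2 ⟨by linarith, by linarith⟩

theorem fract_rv2 {t : ℝ} (h0 : 1 / 4 < t) (h1 : t ≤ 5 / 4) :
    Int.fract (1 / 4 + -1 * t) = 5 / 4 - t := by
  rw [← Int.fract_add_one, show (1 : ℝ) / 4 + -1 * t + 1 = 5 / 4 - t by ring]
  exact Int.fract_eq_self.2 ⟨by linarith, by linarith⟩

theorem rv_A : rv γ '' Icc 0 (1 / 4) = γ '' Icc 0 (1 / 4) := by
  ext z
  constructor
  · rintro ⟨t, ht, rfl⟩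
    refine ⟨1 / 4 - t, ⟨by linarith [ht.2], by linarith [ht.1]⟩, ?_⟩
    show _ = γ (Int.fract (1 / 4 + -1 * t))
    rw [fract_rv1 ht.1 ht.2]
  · rintro ⟨t, ht, rfl⟩
    refine ⟨1 / 4 - t, ⟨by linarith [ht.2], by linarith [ht.1]⟩, ?_⟩
    show γ (Int.fract (1 / 4 + -1 * (1 / 4 - t))) = _
    rw [fract_rv1 (by linarith [ht.2]) (by linarith [ht.1])]
    congr 1
    ring

theorem rv_C : rv γ '' Icc (1 / 2) (3 / 4) = γ '' Icc (1 / 2) (3 / 4) := by
  ext z
  constructor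
  · rintro ⟨t, ht, rfl⟩
    refine ⟨5 / 4 - t, ⟨by linarith [ht.2], by linarith [ht.1]⟩, ?_⟩
    show _ = γ (Int.fract (1 / 4 + -1 * t))
    rw [fract_rv2 (by linarith [ht.1]) (by linarith [ht.2])]
  · rintro ⟨t, ht, rfl⟩
    refine ⟨5 / 4 - t, ⟨by linarith [ht.2], by linarith [ht.1]⟩, ?_⟩
    show γ (Int.fract (1 / 4 + -1 * (5 / 4 - t))) = _
    rw [fract_rv2 (by linarith [ht.2]) (by linarith [ht.1])]
    congr 1
    ring

theorem rv_B (h01 : γ 0 = γ 1) : rv γ '' Icc (1 / 4) (1 / 2) = γ '' Icc (3 / 4) 1 := by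
  ext z
  constructor
  · rintro ⟨t, ht, rfl⟩
    rcases ht.1.eq_or_lt with h | h
    · refine ⟨1, ⟨by norm_num, le_refl _⟩, ?_⟩
      show _ = γ (Int.fract (1 / 4 + -1 * t))
      rw [← h, fract_rv1 (by norm_num) (by norm_num), sub_self, h01]
    · refine ⟨5 / 4 - t, ⟨by linarith [ht.2], by linarith⟩, ?_⟩
      show _ = γ (Int.fract (1 / 4 + -1 * t))
      rw [fract_rv2 h (by linarith [ht.2])]
  · rintro ⟨t, ht, rfl⟩
    rcases ht.2.eq_or_lt with h | h
    · refine ⟨1 / 4, ⟨by norm_num, by norm_num⟩, ?_⟩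
      show γ (Int.fract (1 / 4 + -1 * (1 / 4))) = _
      rw [fract_rv1 (by norm_num) (by norm_num), sub_self, h, h01]
    · refine ⟨5 / 4 - t, ⟨by linarith, by linarith [ht.1]⟩, ?_⟩
      show γ (Int.fract (1 / 4 + -1 * (5 / 4 - t))) = _
      rw [fract_rv2 (by linarith) (by linarith [ht.1])]
      congr 1
      ring

theorem rv_E (h01 : γ 0 = γ 1) : rv γ '' Icc (3 / 4) 1 = γ '' Icc (1 / 4) (1 / 2) := by
  ext z
  constructor
  · rintro ⟨t, ht, rfl⟩
    refine ⟨5 / 4 - t, ⟨by linarith [ht.2], by linarith [ht.1]⟩, ?_⟩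
    show _ = γ (Int.fract (1 / 4 + -1 * t))
    rw [fract_rv2 (by linarith [ht.1]) (by linarith [ht.2])]
  · rintro ⟨t, ht, rfl⟩
    refine ⟨5 / 4 - t, ⟨by linarith [ht.2], by linarith [ht.1]⟩, ?_⟩
    show γ (Int.fract (1 / 4 + -1 * (5 / 4 - t))) = _
    rw [fract_rv2 (by linarith [ht.2]) (by linarith [ht.1])]
    congr 1
    ring

theorem rv_zero : rv γ 0 = γ (1 / 4) := by
  show γ (Int.fract (1 / 4 + -1 * 0)) = _
  rw [fract_rv1 (by norm_num) (by norm_num)]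
  norm_num

theorem rv_quarter : rv γ (1 / 4) = γ 0 := by
  show γ (Int.fract (1 / 4 + -1 * (1 / 4))) = _
  rw [fract_rv1 (by norm_num) (by norm_num)]
  norm_num

theorem rv_half : rv γ (1 / 2) = γ (3 / 4) := by
  show γ (Int.fract (1 / 4 + -1 * (1 / 2))) = _
  rw [fract_rv2 (by norm_num) (by norm_num)]
  norm_num

theorem rv_three : rv γ (3 / 4) = γ (1 / 2) := by
  show γ (Int.fract (1 / 4 + -1 * (3 / 4))) = _
  rw [fract_rv2 (by norm_num) (by norm_num)]
  norm_num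

theorem rv_jordan (h : IsJordanCurve γ) : IsJordanCurve (rv γ) := rp_jordan (Or.inr rfl) h
theorem rv_ji (h01 : γ 0 = γ 1) : jordanInterior (rv γ) = jordanInterior γ := rp_ji (Or.inr rfl) h01


theorem cross_swap (p q r s : ℂ) : crossRatioAt q p s r = crossRatioAt p q r s := by
  unfold crossRatioAt
  congr 2
  · ring
  · ring

/-- the cross ratio does not see the reversal -/
theorem cross_rv (φ : ℂ → ℂ) :
    crossRatioAt (φ (rv γ 0)) (φ (rv γ (1 / 4))) (φ (rv γ (1 / 2))) (φ (rv γ (3 / 4))) =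
      crossRatioAt (φ (γ 0)) (φ (γ (1 / 4))) (φ (γ (1 / 2))) (φ (γ (3 / 4))) := by
  rw [rv_zero, rv_quarter, rv_half, rv_three, cross_swap]

/-! ### the shift by a quarter -/

theorem fract_sh1 {t : ℝ} (h0 : 0 ≤ t) (h1 : t < 3 / 4) : Int.fract (1 / 4 + 1 * t) = 1 / 4 + t := by
  rw [one_mul]
  exact Int.fract_eq_self.2 ⟨by linarith, by linarith⟩

theorem fract_sh2 {t : ℝ} (h0 : 3 / 4 ≤ t) (h1 : t ≤ 1) : Int.fract (1 / 4 + 1 * t) = t - 3 / 4 := by
  rw [← Int.fract_sub_one, show (1 : ℝ) / 4 + 1 * t - 1 = t - 3 / 4 by ring]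
  exact Int.fract_eq_self.2 ⟨by linarith, by linarith⟩

theorem sh_apply1 {t : ℝ} (h0 : 0 ≤ t) (h1 : t < 3 / 4) : sh γ t = γ (1 / 4 + t) := by
  show γ (Int.fract (1 / 4 + 1 * t)) = _
  rw [fract_sh1 h0 h1]

theorem sh_apply2 {t : ℝ} (h0 : 3 / 4 ≤ t) (h1 : t ≤ 1) : sh γ t = γ (t - 3 / 4) := by
  show γ (Int.fract (1 / 4 + 1 * t)) = _
  rw [fract_sh2 h0 h1]

theorem sh_A : sh γ '' Icc 0 (1 / 4) = γ '' Icc (1 / 4) (1 / 2) := by
  ext z
  constructor
  · rintro ⟨t, ht, rfl⟩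
    exact ⟨1 / 4 + t, ⟨by linarith [ht.1], by linarith [ht.2]⟩,
      (sh_apply1 ht.1 (by linarith [ht.2])).symm⟩
  · rintro ⟨t, ht, rfl⟩
    refine ⟨t - 1 / 4, ⟨by linarith [ht.1], by linarith [ht.2]⟩, ?_⟩
    rw [sh_apply1 (by linarith [ht.1]) (by linarith [ht.2])]
    congr 1; ring

theorem sh_B : sh γ '' Icc (1 / 4) (1 / 2) = γ '' Icc (1 / 2) (3 / 4) := by
  ext z
  constructor
  · rintro ⟨t, ht, rfl⟩
    exact ⟨1 / 4 + t, ⟨by linarith [ht.1], by linarith [ht.2]⟩,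
      (sh_apply1 (by linarith [ht.1]) (by linarith [ht.2])).symm⟩
  · rintro ⟨t, ht, rfl⟩
    refine ⟨t - 1 / 4, ⟨by linarith [ht.1], by linarith [ht.2]⟩, ?_⟩
    rw [sh_apply1 (by linarith [ht.1]) (by linarith [ht.2])]
    congr 1; ring

theorem sh_C (h01 : γ 0 = γ 1) : sh γ '' Icc (1 / 2) (3 / 4) = γ '' Icc (3 / 4) 1 := by
  ext z
  constructor
  · rintro ⟨t, ht, rfl⟩
    rcases ht.2.eq_or_lt with h | h
    · refine ⟨1, ⟨by norm_num, le_refl _⟩, ?_⟩
      rw [h, sh_apply2 (le_refl _) (by norm_num), sub_self, h01]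
    · exact ⟨1 / 4 + t, ⟨by linarith [ht.1], by linarith⟩, (sh_apply1 (by linarith [ht.1]) h).symm⟩
  · rintro ⟨t, ht, rfl⟩
    rcases ht.2.eq_or_lt with h | h
    · refine ⟨3 / 4, ⟨by norm_num, le_refl _⟩, ?_⟩
      rw [h, sh_apply2 (le_refl _) (by norm_num), sub_self, h01]
    · refine ⟨t - 1 / 4, ⟨by linarith [ht.1], by linarith⟩, ?_⟩
      rw [sh_apply1 (by linarith [ht.1]) (by linarith)]
      congr 1; ring

theorem sh_E : sh γ '' Icc (3 / 4) 1 = γ '' Icc 0 (1 / 4) := by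
  ext z
  constructor
  · rintro ⟨t, ht, rfl⟩
    exact ⟨t - 3 / 4, ⟨by linarith [ht.1], by linarith [ht.2]⟩, (sh_apply2 ht.1 ht.2).symm⟩
  · rintro ⟨t, ht, rfl⟩
    refine ⟨t + 3 / 4, ⟨by linarith [ht.1], by linarith [ht.2]⟩, ?_⟩
    rw [sh_apply2 (by linarith [ht.1]) (by linarith [ht.2])]
    congr 1; ring

theorem sh_ji (h01 : γ 0 = γ 1) : jordanInterior (sh γ) = jordanInterior γ := rp_ji (Or.inl rfl) h01
theorem sh_unif {φ : ℂ → ℂ} (h : Unif γ φ) : Unif (sh γ) φ := rp_unif (Or.inl rfl) h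

/-! ### reflection -/


/-- complex conjugation as a homeomorphism -/
def cjh : ℂ ≃ₜ ℂ := Complex.conjCLE.toHomeomorph

@[simp] theorem cjh_apply (z : ℂ) : cjh z = (starRingEnd ℂ) z := rfl





























end Crest.Agent.R158.Spl331
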