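import Crest.Agent.R158.Tj3_656
import Crest.Agent.R158.Wt1_290
import Crest.Agent.R158.Sk3_656
import Crest.Agent.R158.Cd10_83
import Crest.Agent.R158.SplC_331
import Crest.Agent.R158.Gp5_949
import Crest.Agent.R158.Mr1_679
import Crest.Agent.R158.SpD_331
import Mathlib
import Crest.Agent.R158.Jt3_785
import Crest.Agent.R158.Spa_331
import Crest.Agent.R158.Sp7_896
import Crest.Agent.R158.Tj2_656

-- ▼ part R158/Tj4_656
section

/-!
R158, Lean architect of S0237 (helper656), J2 part 4: `obsOf` : a sequence of polygons with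
`PolyOK`, the inputs `Q1 an, Q2, Q3m, Q3p` and one of the sides `(S-)`, `(S+)` give 290's `Obs`.
-/

set_option autoImplicit false

namespace Crest.Agent.R158.Tj656

open Filter Topology Set Metric MeasureTheory
open Complex (I)
open Crest.Agent.R158.Sp896
open Crest.Agent.R158.Wl290 (CSr sg Geo Cone Obs MB mpt sdH obs_of_macro)
open Crest.Agent.R158.Cd83 (om)
open Crest.ProbabilityR.Percolation

noncomputable section

theorem mpt_mpos (L : ℕ) (i j : ℤ) : mpt L i j = mpos (L : ℤ) (2 * i) (2 * j) := by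
  apply Complex.ext
  · simp [mpt, mpos]
  · simp [mpt, mpos]

theorem NB.mb {P : P4} {b : ℂ} {u : ℤ → ℂ → ℝ} (h : NB P b u) {v : ℕ → ℂ → ℝ}
    (hv : ∀ (L : ℕ) w, v L w = u L w) : MB (↑P.F) (fun L x y => P.HD (L : ℤ) x y) b v := by
  intro ε hε
  obtain ⟨r, hr, L0, h1⟩ := h ε hε
  refine ⟨r, hr, L0.toNat, fun L hL hL0 i j h2 h3 => ?_⟩
  rw [mpt_mpos] at h2 h3
  rw [hv]
  exact h1 L (by omega) (by exact_mod_cast hL) i j h2 h3

theorem Ls_tend {s : ℝ} (hs : 0 < s) {δ : ℕ → ℝ} (hδ : ∀ n, 0 < δ n)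
    (hδ0 : Tendsto δ atTop (𝓝 0)) : Tendsto (fun n => Ls s (δ n)) atTop atTop := by
  have h1 : Tendsto δ atTop (𝓝[>] 0) :=
    tendsto_nhdsWithin_iff.2 ⟨hδ0, Eventually.of_forall fun n => hδ n⟩
  have h2 : Tendsto (fun n => s / (Real.sqrt 2 * δ n)) atTop atTop := by
    have h3 : Tendsto (fun n => (s / Real.sqrt 2) * (δ n)⁻¹) atTop atTop :=
      Tendsto.const_mul_atTop (by positivity) (tendsto_inv_nhdsGT_zero.comp h1)
    refine h3.congr fun n => ?_
    have := (hδ n).ne'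
    field_simp
  have h4 : Tendsto (fun n => ⌊s / (Real.sqrt 2 * δ n)⌋) atTop atTop :=
    tendsto_floor_atTop.comp h2
  refine tendsto_atTop_mono' _ ?_ h4
  filter_upwards [h4.eventually_ge_atTop 0] with n hn
  show ⌊s / (Real.sqrt 2 * δ n)⌋ ≤ 2 * ⌊s / (Real.sqrt 2 * δ n)⌋
  omega

theorem Ls_toNat_tend {s : ℝ} (hs : 0 < s) {δ : ℕ → ℝ} (hδ : ∀ n, 0 < δ n)
    (hδ0 : Tendsto δ atTop (𝓝 0)) : Tendsto (fun n => (Ls s (δ n)).toNat) atTop atTop := by
  refine tendsto_atTop.2 fun a => ?_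
  filter_upwards [(Ls_tend hs hδ hδ0).eventually_ge_atTop (a : ℤ)] with n hn
  omega

theorem Ls_toNat_even (s d : ℝ) : Even (Ls s d).toNat := by
  unfold Ls
  generalize ⌊s / (Real.sqrt 2 * d)⌋ = a
  rcases le_total 0 a with h | h
  · exact ⟨a.toNat, by omega⟩
  · exact ⟨0, by omega⟩

variable {γ : ℝ → ℂ}

theorem geo_pt {e s : ℕ → ℝ} {P : ℕ → P4} (hγ : IsJordanCurve γ)
    (h : ∀ k, PolyOK γ (e k) (s k) (P k)) (he : Tendsto e atTop (𝓝 0)) {k : ℕ} {j : Fin 4} {ζ : ℂ}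
    (hζ : ζ ∈ (geoOf hγ h he).A k j) : ww * ζ / s k ∈ (P k).hA j := by
  obtain ⟨z, hz, hw⟩ := hζ
  have h0 : ((s k : ℝ) : ℂ) ≠ 0 := by exact_mod_cast (h k).s_pos.ne'
  rw [hw, mul_div_cancel_left₀ _ h0]
  exact hz

theorem sdH_val : sdH = ![fun w : ℂ => w.im, fun w => w.im, fun w => (om ^ 2 * (w - 1)).im,
    fun w => (om * (w - (1 + om))).im] := by
  unfold sdH
  rw [Wl290.v2_val]


theorem PolyOK.mono {e e' s : ℝ} {P : P4} (h : PolyOK γ e s P) (he : e ≤ e') : PolyOK γ e' s P where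
  s_pos := h.s_pos
  s_lt := h.s_lt.trans_le he
  arc := fun j ζ hζ => by
    obtain ⟨t, ht, h1⟩ := h.arc j ζ hζ
    exact ⟨t, ht, h1.trans_le he⟩
  cover := fun z hz h1 => h.cover z hz fun t ht => he.trans (h1 t ht)
  near := fun t ht => by
    obtain ⟨z, h1, h2⟩ := h.near t ht
    exact ⟨z, h1, h2.trans_le he⟩

end

end Crest.Agent.R158.Tj656
end

-- ▼ part R158/Sk4_656
section

/-!
R158, skeleton seat (helper656), part 4: the literal S0237 from `ObsK`.
-/

set_option autoImplicit false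

namespace Crest.Agent.R158.Sk656

open Filter Topology Set Metric MeasureTheory
open Complex (I)
open Crest.ProbabilityR.Percolation
open Crest.Agent.R158.Cd83

noncomputable section

/-- the literal statement S0237 -/
def S0237Body : Prop :=
  ∀ (γ : ℝ → ℂ) (_ : IsJordanCurve γ)
    (δ : ℕ → ℝ) (_ : ∀ n, 0 < δ n) (_ : Antitone δ)
    (_ : Filter.Tendsto δ Filter.atTop (nhds 0))
    (γs : ℕ → ℝ → ℂ) (_ : ∀ n, IsGridPolygon (δ n) (γs n))
    (_ : TendstoUniformlyOn γs γ Filter.atTop (Set.Icc 0 1))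
    (φ : ℂ → ℂ) (_ : ContinuousOn φ (closure (jordanInterior γ)))
    (_ : Set.InjOn φ (closure (jordanInterior γ)))
    (_ : DifferentiableOn ℂ φ (jordanInterior γ))
    (_ : φ '' jordanInterior γ = Metric.ball 0 1),
    Filter.Tendsto (fun n : ℕ => (arcCrossingProb (δ n) (γs n)).toReal) Filter.atTop
      (nhds (cardyRatio
        (crossRatioAt (φ (γ 0)) (φ (γ (1 / 4))) (φ (γ (1 / 2))) (φ (γ (3 / 4))))))





end

end Crest.Agent.R158.Sk656
end

-- ▼ part R158/Tj5_656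
section

/-!
R158, Lean architect of S0237 (helper656), J2 part 5: the top.

`LoSide γ δ p` : for every `e` a polygon at distance `e` with `(S-)`; `UpSide` : with `(S+)`.
`top_of` : the four inputs and `LoSide γ ∨ LoSide (rv γ)`, `UpSide γ ∨ UpSide (rv γ)` give `S0237Body`.
-/

set_option autoImplicit false

namespace Crest.Agent.R158.Tj656

open Filter Topology Set Metric MeasureTheory
open Complex (I)
open Crest Crest.ProbabilityR Crest.ProbabilityR.Percolation
open Crest.Agent.R158.Cd83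
open Crest.Agent.R158.Spl331 (rv rv_jordan rv_ji cross_rv)
open Crest.Agent.R158.Wl290 (obs_lower obs_upper tendsto_of_sides arc_prob_mem)
open Crest.Agent.R158.Sk656 (S0237Body)

noncomputable section

/-- lower bound: polygons of `γ` with `(S-)` at every scale -/
def LoSide (γ : ℝ → ℂ) (δ : ℕ → ℝ) (p : ℕ → ℝ) : Prop :=
  ∀ e : ℝ, 0 < e → ∃ (s : ℝ) (P : P4), PolyOK γ e s P ∧ Sm s P δ p

/-- upper bound: polygons of `γ` with `(S+)` at every scale -/
def UpSide (γ : ℝ → ℂ) (δ : ℕ → ℝ) (p : ℕ → ℝ) : Prop :=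
  ∀ e : ℝ, 0 < e → ∃ (s : ℝ) (P : P4), PolyOK γ e s P ∧ Sp s P δ p

theorem dich {R1 R2 : ℝ → Prop} (m1 : ∀ e e', e ≤ e' → R1 e → R1 e')
    (m2 : ∀ e e', e ≤ e' → R2 e → R2 e') {e0 : ℝ} (he0 : 0 < e0)
    (h : ∀ e, 0 < e → e ≤ e0 → R1 e ∨ R2 e) : (∀ e, 0 < e → R1 e) ∨ (∀ e, 0 < e → R2 e) := by
  by_contra hc
  push Not at hc
  obtain ⟨⟨e1, h1, h1'⟩, e2, h2, h2'⟩ := hc
  have h3 : 0 < min e0 (min e1 e2) := lt_min he0 (lt_min h1 h2)
  rcases h _ h3 (min_le_left _ _) with h4 | h4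
  · exact h1' (m1 _ _ ((min_le_right _ _).trans (min_le_left _ _)) h4)
  · exact h2' (m2 _ _ ((min_le_right _ _).trans (min_le_right _ _)) h4)

variable {γ : ℝ → ℂ} {φ : ℂ → ℂ} {δ : ℕ → ℝ} {p : ℕ → ℝ}

theorem lo_or {γ' : ℝ → ℂ} {e0 : ℝ} (he0 : 0 < e0) (h : ∀ e, 0 < e → e ≤ e0 →
    (∃ (s : ℝ) (P : P4), PolyOK γ e s P ∧ Sm s P δ p) ∨
    (∃ (s : ℝ) (P : P4), PolyOK γ' e s P ∧ Sm s P δ p)) : LoSide γ δ p ∨ LoSide γ' δ p :=
  dich (fun _ _ he ⟨s, P, h1, h2⟩ => ⟨s, P, h1.mono he, h2⟩)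
    (fun _ _ he ⟨s, P, h1, h2⟩ => ⟨s, P, h1.mono he, h2⟩) he0 h

theorem up_or {γ' : ℝ → ℂ} {e0 : ℝ} (he0 : 0 < e0) (h : ∀ e, 0 < e → e ≤ e0 →
    (∃ (s : ℝ) (P : P4), PolyOK γ e s P ∧ Sp s P δ p) ∨
    (∃ (s : ℝ) (P : P4), PolyOK γ' e s P ∧ Sp s P δ p)) : UpSide γ δ p ∨ UpSide γ' δ p :=
  dich (fun _ _ he ⟨s, P, h1, h2⟩ => ⟨s, P, h1.mono he, h2⟩)
    (fun _ _ he ⟨s, P, h1, h2⟩ => ⟨s, P, h1.mono he, h2⟩) he0 h

theorem cdat_rv (C : CDat γ φ) : CDat (rv γ) φ := by
  have h := rv_ji C.hγ.2.2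
  exact ⟨rv_jordan C.hγ, by rw [h]; exact C.hc, by rw [h]; exact C.hi, by rw [h]; exact C.hd,
    by rw [h]; exact C.hD⟩

/-- the value of Cardy's formula -/
def cv (γ : ℝ → ℂ) (φ : ℂ → ℂ) : ℝ :=
  cardyRatio (crossRatioAt (φ (γ 0)) (φ (γ (1 / 4))) (φ (γ (1 / 2))) (φ (γ (3 / 4))))

theorem cv_rv : cv (rv γ) φ = cv γ φ := by
  unfold cv
  rw [cross_rv]

theorem lim_e : Tendsto (fun k : ℕ => 1 / ((k : ℝ) + 1)) atTop (𝓝 0) :=
  tendsto_one_div_add_atTop_nhds_zero_nat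

theorem pos_e (k : ℕ) : 0 < 1 / ((k : ℝ) + 1) := by positivity

variable {an : Bool}




/-- the sandwich: everything except the observable -/
def Sandwich : Prop :=
  ∀ (γ : ℝ → ℂ) (φ : ℂ → ℂ), CDat γ φ → ∀ (δ : ℕ → ℝ), (∀ n, 0 < δ n) →
    Tendsto δ atTop (𝓝 0) → ∀ γs : ℕ → ℝ → ℂ, (∀ n, IsGridPolygon (δ n) (γs n)) →
      TendstoUniformlyOn γs γ atTop (Icc 0 1) →
      (LoSide γ δ (fun n => (arcCrossingProb (δ n) (γs n)).toReal) ∨
        LoSide (rv γ) δ (fun n => (arcCrossingProb (δ n) (γs n)).toReal)) ∧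
      (UpSide γ δ (fun n => (arcCrossingProb (δ n) (γs n)).toReal) ∨
        UpSide (rv γ) δ (fun n => (arcCrossingProb (δ n) (γs n)).toReal))


end

end Crest.Agent.R158.Tj656
end

-- ▼ part R158/Spl1_949
section

/-!
# Row 158 (S0237), block SPL (helper949), file 1: discrete excursions

`pf d f` : position of the medial face `f` in the plane of the literal grid polygon of mesh `d`
`Loc` : the metric facts about a set `Φ` of faces near which the polygon only carries the parameters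
of `TP` and `TQ`
`even_cross` : an open path of vertices from the outside near `P` to the outside near `Q` contains a
crossing of the closed region from `c '' TP` to `c '' TQ`
`odd_block` : a dual path from the outside near `P` to the outside near `Q` blocks all crossings of
the region between the two other arcs
-/

set_option autoImplicit false

namespace Crest.Agent.R158.Spl949

open Set Filter Topology Crest.Agent.R161.Geo729 Crest.Agent.R161.Dual374
open Crest.Agent.R158.Gp949 Crest.Agent.R158.Mr679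
open Crest.ProbabilityR.Percolation

noncomputable section

/-- position of a medial face -/
def pf (d : ℝ) (f : P2) : ℂ := ⟨d / 2 * (f.1 + f.2), d / 2 * (f.2 - f.1)⟩

@[simp] theorem pf_re (d : ℝ) (f : P2) : (pf d f).re = d / 2 * (f.1 + f.2) := rfl
@[simp] theorem pf_im (d : ℝ) (f : P2) : (pf d f).im = d / 2 * (f.2 - f.1) := rfl

theorem pf_prim (d : ℝ) (v : P2) : pf d (prim v) = gridPoint d v := by
  apply Complex.ext
  · simp only [pf, prim, gridPoint]; push_cast; ring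
  · simp only [pf, prim, gridPoint]; push_cast; ring

theorem pf_dufc (d : ℝ) (v : P2) : pf d (dufc v) = d * ctr v := by
  apply Complex.ext
  · simp only [pf, dufc, Complex.mul_re, Complex.ofReal_re, Complex.ofReal_im, ctr_re, ctr_im]
    push_cast; ring
  · simp only [pf, dufc, Complex.mul_im, Complex.ofReal_re, Complex.ofReal_im, ctr_re, ctr_im]
    push_cast; ring

theorem norm_le_of_abs {z : ℂ} {a b : ℝ} (h1 : |z.re| ≤ a) (h2 : |z.im| ≤ b) : ‖z‖ ≤ a + b :=
  (Complex.norm_le_abs_re_add_abs_im z).trans (add_le_add h1 h2)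

/-- steps have length at most `2 d` (exactly `d`) -/
theorem pf_step {d : ℝ} (hd : 0 < d) {f g : P2} (h : Dg f g) : ‖pf d f - pf d g‖ ≤ 2 * d := by
  have h1 : ((g.1 : ℝ) = f.1 + 1 ∨ (f.1 : ℝ) = g.1 + 1) ∧ ((g.2 : ℝ) = f.2 + 1 ∨ (f.2 : ℝ) = g.2 + 1) := by
    obtain ⟨ha, hb⟩ := h
    constructor
    · rcases ha with h | h
      · left; exact_mod_cast h
      · right; exact_mod_cast h
    · rcases hb with h | h
      · left; exact_mod_cast h
      · right; exact_mod_cast h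
  have h2 : |(pf d f - pf d g).re| ≤ d ∧ |(pf d f - pf d g).im| ≤ d := by
    simp only [Complex.sub_re, Complex.sub_im, pf_re, pf_im, abs_le]
    rcases h1 with ⟨h1 | h1, h3 | h3⟩ <;> rw [h1, h3] <;>
      refine ⟨⟨?_, ?_⟩, ?_, ?_⟩ <;> nlinarith
  have := norm_le_of_abs h2.1 h2.2
  linarith

/-- metric facts about a set `Φ` of faces -/
structure Loc (d : ℝ) (c : ℝ → ℂ) (TP TQ : Set ℝ) (Φ : Set P2) (NP NQ : P2 → Prop) : Prop where
  tr : ∀ f ∈ Φ, ∀ t ∈ Icc (0:ℝ) 1, ‖pf d f - c t‖ ≤ 2 * d → (t ∈ TP ∧ NP f) ∨ (t ∈ TQ ∧ NQ f)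
  out : ∀ f ∈ Φ, pf d f ∉ jordanInterior c → NP f ∨ NQ f
  sep : ∀ f g, f = g ∨ Dg f g → NP f → NQ g → False

variable {d : ℝ} {c : ℝ → ℂ} {TP TQ : Set ℝ} {Φ : Set P2} {NP NQ : P2 → Prop}

/-- region edges -/
def RG (d : ℝ) (c : ℝ → ℂ) (e : Edge) : Prop := (regionGraph d c).Adj (src e) (tgt e)

theorem edge_eq {e e' : Edge} (h : (src e = src e' ∧ tgt e = tgt e') ∨
    (src e = tgt e' ∧ tgt e = src e')) : e = e' := by
  obtain ⟨⟨a, b⟩, x⟩ := e
  obtain ⟨⟨a', b'⟩, x'⟩ := e'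
  cases x <;> cases x' <;>
    simp only [src, tgt, Prod.mk.injEq, if_true, if_false, Bool.false_eq_true, and_true, and_false,
      reduceCtorEq] at h ⊢ <;> omega

section lit

variable (hd : 0 < d) (hg : IsGridPolygon d c) (W : GWalk (uc d c))
include hd hg

theorem rg_iff (e : Edge) : RG d c e ↔ (W.par (fA e) = 1 ∨ W.par (fB e) = 1) := by
  unfold RG
  rw [region_adj_iff hd hg W]
  constructor
  · rintro ⟨e', h1, h2⟩
    have : e = e' := by
      rcases h1 with h1 | h1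
      · exact edge_eq (Or.inl h1)
      · exact edge_eq (Or.inr h1)
    rw [this]; exact h2
  · intro h
    exact ⟨e, Or.inl ⟨rfl, rfl⟩, h⟩

/-- a strictly inner vertex: the four cells are inside -/
theorem inner_corner {v : P2} (hv : gridPoint d v ∈ jordanInterior c) {q : P2}
    (hq : IsCorner v q) : W.par q = 1 := by
  rw [ji_iff hd hg W, gridPoint_div hd] at hv
  have h1 : lp v ∈ cC q := by
    rcases hq with h | h | h | h <;> rw [h] <;> simp [cC, Gp949.lp]
  rw [W.par_closed (gc_uc hd hg) hv.1 h1]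
  exact hv.2

theorem not_inner {e : Edge} (he : ¬ RG d c e) {w : P2} (hw : Inc e w) :
    gridPoint d w ∉ jordanInterior c := by
  obtain ⟨W⟩ := (gc_uc hd hg).exists_walk
  intro hv
  exact he ((rg_iff hd hg W e).2 (Or.inl (inner_corner hd hg W hv (corner_of_inc hw).1)))

theorem in_closed {e : Edge} (he : RG d c e) {w : P2} (hw : Inc e w) :
    gridPoint d w ∈ jordanInterior c ∪ curveTrace c := by
  obtain ⟨W⟩ := (gc_uc hd hg).exists_walk
  rw [gridPoint_mem_iff hd hg W]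
  rcases (rg_iff hd hg W e).1 he with h | h
  · exact ⟨_, (corner_of_inc hw).1, h⟩
  · exact ⟨_, (corner_of_inc hw).2, h⟩

end lit

theorem dg_of_pstep {Z : Edge → Prop} {u v : P2} (h : PStep Z u v) : Dg (prim u) (prim v) := by
  obtain ⟨e, -, ⟨rfl, rfl⟩ | ⟨rfl, rfl⟩⟩ := h
  · exact dg_prim e
  · exact (dg_prim e).symm

/-- **Excursion lemma for vertices.** -/
theorem even_cross (hd : 0 < d) (hg : IsGridPolygon d c) (hL : Loc d c TP TQ Φ NP NQ)
    {Z : Edge → Prop} (hZ : ∀ e, Z e → prim (src e) ∈ Φ ∧ prim (tgt e) ∈ Φ) {u0 u1 : P2}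
    (hp : Relation.ReflTransGen (PStep Z) u0 u1)
    (h0 : NP (prim u0)) (h0' : gridPoint d u0 ∉ jordanInterior c)
    (h1 : NQ (prim u1)) (h1' : gridPoint d u1 ∉ jordanInterior c ∪ curveTrace c) :
    ∃ a b : P2, gridPoint d a ∈ c '' TP ∧ gridPoint d b ∈ c '' TQ ∧
      Relation.ReflTransGen (PStep fun e => Z e ∧ RG d c e) a b := by
  by_contra hcon
  push Not at hcon
  have hclosed : ∀ a b : P2, gridPoint d a ∈ c '' TP → TP ⊆ Icc 0 1 →
      Relation.ReflTransGen (PStep fun e => Z e ∧ RG d c e) a b →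
      gridPoint d b ∈ jordanInterior c ∪ curveTrace c := by
    intro a b ha hT hab
    induction hab with
    | refl =>
      obtain ⟨t, ht, h⟩ := ha
      exact Or.inr ⟨t, hT ht, h⟩
    | tail _ h2 _ =>
      obtain ⟨e, he, ⟨_, rfl⟩ | ⟨_, rfl⟩⟩ := h2
      · exact in_closed hd hg he.2 (inc_tgt e)
      · exact in_closed hd hg he.2 (inc_src e)
  -- restrict the parameters
  have key : ∀ u, Relation.ReflTransGen (PStep Z) u0 u →
      (NP (prim u) ∧ gridPoint d u ∉ jordanInterior c) ∨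
      ∃ a, (∃ t ∈ TP ∩ Icc 0 1, c t = gridPoint d a) ∧
        Relation.ReflTransGen (PStep fun e => Z e ∧ RG d c e) a u := by
    intro u hu
    induction hu with
    | refl => exact Or.inl ⟨h0, h0'⟩
    | @tail u u' hu1 hs ih =>
      have hdg := dg_of_pstep hs
      obtain ⟨e, he, hue⟩ := hs
      have hincu : Inc e u := by
        rcases hue with ⟨h, _⟩ | ⟨h, _⟩
        · exact Or.inl h
        · exact Or.inr h
      have hincu' : Inc e u' := by
        rcases hue with ⟨_, h⟩ | ⟨_, h⟩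
        · exact Or.inr h
        · exact Or.inl h
      have hΦ : prim u ∈ Φ ∧ prim u' ∈ Φ := by
        have := hZ e he
        rcases hue with ⟨h, h'⟩ | ⟨h, h'⟩
        · rw [h, h']; exact this
        · rw [h, h']; exact this.symm
      -- trace vertices
      have htrace : ∀ w, prim w ∈ Φ → ∀ t ∈ Icc (0:ℝ) 1, c t = gridPoint d w →
          (t ∈ TP ∧ NP (prim w)) ∨ (t ∈ TQ ∧ NQ (prim w)) := by
        intro w hw t ht htw
        refine hL.tr _ hw t ht ?_
        rw [pf_prim, htw, sub_self, norm_zero]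
        positivity
      by_cases hR : RG d c e
      · have hstep : PStep (fun e => Z e ∧ RG d c e) u u' := ⟨e, ⟨he, hR⟩, hue⟩
        rcases ih with ⟨hN, hni⟩ | ⟨a, ha, hau⟩
        · right
          rcases in_closed hd hg hR hincu with h | ⟨t, ht, htu⟩
          · exact absurd h hni
          · rcases htrace u hΦ.1 t ht htu with h | h
            · exact ⟨u, ⟨t, ⟨h.1, ht⟩, htu⟩, .single hstep⟩
            · exact (hL.sep _ _ (Or.inl rfl) hN h.2).elim
        · exact Or.inr ⟨a, ha, hau.tail hstep⟩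
      · have hni := not_inner hd hg hR hincu
        have hni' := not_inner hd hg hR hincu'
        have hN' := hL.out _ hΦ.2 (by rw [pf_prim]; exact hni')
        have hfin : NP (prim u) → NP (prim u') := by
          intro hN
          rcases hN' with h | h
          · exact h
          · exact (hL.sep _ _ (Or.inr hdg) hN h).elim
        left
        refine ⟨?_, hni'⟩
        rcases ih with ⟨hN, -⟩ | ⟨a, ⟨t0, ht0, hta⟩, hau⟩
        · exact hfin hN
        · have hcl : gridPoint d u ∈ jordanInterior c ∪ curveTrace c := by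
            rcases hau.cases_tail with h | ⟨b, -, e', he', hbe⟩
            · rw [h, ← hta]
              exact Or.inr ⟨t0, ht0.2, rfl⟩
            · refine in_closed hd hg he'.2 ?_
              rcases hbe with ⟨_, h⟩ | ⟨_, h⟩
              · exact Or.inr h
              · exact Or.inl h
          rcases hcl with h | ⟨t, ht, htu⟩
          · exact absurd h hni
          · rcases htrace u hΦ.1 t ht htu with h | h
            · exact hfin h.2
            · exact (hcon a u ⟨t0, ht0.1, hta⟩ ⟨t, h.1, htu⟩ hau).elim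
  rcases key u1 hp with ⟨h, -⟩ | ⟨a, ⟨t0, ht0, hta⟩, hau⟩
  · exact hL.sep _ _ (Or.inl rfl) h h1
  · apply h1'
    rcases hau.cases_tail with h | ⟨b, -, e', he', hbe⟩
    · rw [h, ← hta]
      exact Or.inr ⟨t0, ht0.2, rfl⟩
    · refine in_closed hd hg he'.2 ?_
      rcases hbe with ⟨_, h⟩ | ⟨_, h⟩
      · exact Or.inr h
      · exact Or.inl h

end

end Crest.Agent.R158.Spl949
end

-- ▼ part R158/Spl2_949
section

/-!
# Row 158 (S0237), block SPL (helper949), file 2: dual excursions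

`odd_block` : a dual path through edges of `Z'` from the outside near the arc `[1/4,1/2]` to the
outside near the arc `[3/4,1]` blocks the crossings through `Z` between the two other arcs.
-/

set_option autoImplicit false

namespace Crest.Agent.R158.Spl949

open Set Filter Topology Crest.Agent.R161.Geo729 Crest.Agent.R161.Dual374
open Crest.Agent.R158.Gp949 Crest.Agent.R158.Mr679
open Crest.ProbabilityR.Percolation

noncomputable section

open scoped Classical

theorem lc_rc (e : Edge) :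
    (SpD331.lc (src e) (tgt e) = fA e ∧ SpD331.rc (src e) (tgt e) = fB e) ∨
    (SpD331.lc (src e) (tgt e) = fB e ∧ SpD331.rc (src e) (tgt e) = fA e) := by
  obtain ⟨⟨a, b⟩, x⟩ := e
  cases x
  · left
    constructor
    · simp only [SpD331.lc, src, tgt, fA, Prod.mk.injEq, if_false, Bool.false_eq_true]; omega
    · simp only [SpD331.rc, src, tgt, fB, Prod.mk.injEq, if_false, Bool.false_eq_true]; omega
  · right
    constructor
    · simp only [SpD331.lc, src, tgt, fB, Prod.mk.injEq, if_true]; omega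
    · simp only [SpD331.rc, src, tgt, fA, Prod.mk.injEq, if_true]; omega

theorem adj_src (e : Edge) : SpD331.Adj (src e) (tgt e) := by
  obtain ⟨⟨a, b⟩, x⟩ := e
  cases x
  · exact Or.inl ⟨rfl, Or.inl rfl⟩
  · exact Or.inr ⟨rfl, Or.inl rfl⟩

theorem src_ne (e : Edge) : src e ≠ tgt e := by
  obtain ⟨⟨a, b⟩, x⟩ := e
  cases x <;> simp [src, tgt]

/-- darts of a path -/
theorem exists_darts {Z : Edge → Prop} {a b : P2} (h : Relation.ReflTransGen (PStep Z) a b) :
    ∃ l : List (P2 × P2), (∀ p ∈ l, ∃ e, Z e ∧ (p = (src e, tgt e) ∨ p = (tgt e, src e))) ∧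
      ∀ k : P2 → ℤ, (l.map fun p => k p.2 - k p.1).sum = k b - k a := by
  induction h with
  | refl => exact ⟨[], by simp, by simp⟩
  | @tail u v _ h2 ih =>
    obtain ⟨l, h3, h4⟩ := ih
    obtain ⟨e, he, h5⟩ := h2
    refine ⟨(u, v) :: l, ?_, ?_⟩
    · intro p hp
      rcases List.mem_cons.1 hp with rfl | hp
      · refine ⟨e, he, ?_⟩
        rcases h5 with ⟨rfl, rfl⟩ | ⟨rfl, rfl⟩
        · exact Or.inl rfl
        · exact Or.inr rfl
      · exact h3 p hp
    · intro k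
      rw [List.map_cons, List.sum_cons, h4]
      ring

/-- `e` is not used by the list -/
def Off (l : List (P2 × P2)) (e : Edge) : Prop := (src e, tgt e) ∉ l ∧ (tgt e, src e) ∉ l

theorem pot_eq {l : List (P2 × P2)} (hl : ∀ p ∈ l, SpD331.Adj p.1 p.2) (hc : SpD331.Closed l)
    {e : Edge} (he : Off l e) : SpD331.W l (fA e) = SpD331.W l (fB e) := by
  have hj := SpD331.jump hl hc (adj_src e)
  rw [List.count_eq_zero.2 he.1, List.count_eq_zero.2 he.2] at hj
  rcases lc_rc e with ⟨h1, h2⟩ | ⟨h1, h2⟩ <;> rw [h1, h2] at hj <;> push_cast at hj <;> linarith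

theorem pot_ne {l : List (P2 × P2)} (hl : ∀ p ∈ l, SpD331.Adj p.1 p.2) (hc : SpD331.Closed l)
    {e : Edge} (he : (l.count (src e, tgt e) : ℤ) ≠ l.count (tgt e, src e)) :
    SpD331.W l (fA e) ≠ SpD331.W l (fB e) := by
  have hj := SpD331.jump hl hc (adj_src e)
  intro h
  rcases lc_rc e with ⟨h1, h2⟩ | ⟨h1, h2⟩ <;> rw [h1, h2, h, sub_self] at hj <;>
    exact he (by linarith)

theorem off_path {Z : Edge → Prop} {l : List (P2 × P2)}
    (h : ∀ p ∈ l, ∃ e, Z e ∧ (p = (src e, tgt e) ∨ p = (tgt e, src e))) {e : Edge} (he : ¬ Z e) :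
    Off l e := by
  constructor
  · intro hm
    obtain ⟨e', h1, h2⟩ := h _ hm
    have : e = e' := by
      rcases h2 with h2 | h2
      · rw [Prod.mk.injEq] at h2; exact edge_eq (Or.inl h2)
      · rw [Prod.mk.injEq] at h2; exact edge_eq (Or.inr h2)
    exact he (this ▸ h1)
  · intro hm
    obtain ⟨e', h1, h2⟩ := h _ hm
    have : e = e' := by
      rcases h2 with h2 | h2
      · rw [Prod.mk.injEq] at h2; exact edge_eq (Or.inr ⟨h2.2, h2.1⟩)
      · rw [Prod.mk.injEq] at h2; exact edge_eq (Or.inl ⟨h2.2, h2.1⟩)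
    exact he (this ▸ h1)

variable {d : ℝ} {c : ℝ → ℂ} {Φ : Set P2} {NP NQ : P2 → Prop}

section lit

variable (hd : 0 < d) (hg : IsGridPolygon d c) (W : GWalk (uc d c))
include hd hg

/-- the centre of a cell is inside iff the parity of the cell is one -/
theorem centre_iff (q : P2) : pf d (dufc q) ∈ jordanInterior c ↔ W.par q = 1 := by
  have hd' : (d : ℂ) ≠ 0 := by exact_mod_cast hd.ne'
  rw [ji_iff hd hg W, pf_dufc, mul_div_cancel_left₀ _ hd']
  have h1 : ctr q ∈ oC q := by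
    simp only [oC, Set.mem_ofPred_eq, ctr_re, ctr_im]
    refine ⟨⟨?_, ?_⟩, ?_, ?_⟩ <;> linarith
  have h2 : ctr q ∉ range (uc d c) := by
    rw [W.range_eq (gc_uc hd hg)]
    intro h
    obtain ⟨i, hi⟩ := mem_iUnion.1 h
    exact oC_GrL h1 (cE_sub_GrL _ hi)
  constructor
  · rintro ⟨-, h⟩
    have : W.par (cell (ctr q)) = 1 := h
    rwa [cell_oC h1] at this
  · intro h
    refine ⟨h2, ?_⟩
    show W.par (cell (ctr q)) = 1
    rwa [cell_oC h1]

omit hg in
theorem near_edge {i : ℤ} {s : ℝ} (hs : s ∈ Icc (W.t i) (W.t (i + 1))) {q : P2}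
    (hq : q = fA (W.e i) ∨ q = fB (W.e i)) : ‖pf d (dufc q) - c (Int.fract s)‖ ≤ 2 * d := by
  have hd' : (d : ℂ) ≠ 0 := by exact_mod_cast hd.ne'
  have h1 : uc d c s ∈ cE (W.e i) := by rw [← W.surj]; exact ⟨s, hs, rfl⟩
  obtain ⟨z, hz⟩ : ∃ z, z = uc d c s := ⟨_, rfl⟩
  have h2 : c (Int.fract s) = d * z := by
    rw [hz, uc]
    field_simp
  rw [← hz] at h1
  rw [h2, pf_dufc, ← mul_sub, norm_mul, Complex.norm_real, Real.norm_of_nonneg hd.le]
  have h3 : |(ctr q - z).re| ≤ 1 / 2 ∧ |(ctr q - z).im| ≤ 1 / 2 := by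
    generalize W.e i = e at h1 hq
    obtain ⟨⟨a, b⟩, x⟩ := e
    obtain ⟨hl, h4, h5⟩ := h1
    simp only [Complex.sub_re, Complex.sub_im, ctr_re, ctr_im, abs_le]
    cases x
    · rw [mem_line_h] at hl
      rw [co_h] at h4 h5
      simp only at hl h4 h5
      rcases hq with rfl | rfl
      · simp only [fA_mk]
        refine ⟨⟨?_, ?_⟩, ?_, ?_⟩ <;> linarith
      · simp only [fB_h]
        push_cast
        refine ⟨⟨?_, ?_⟩, ?_, ?_⟩ <;> linarith
    · rw [mem_line_v] at hl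
      rw [co_v] at h4 h5
      simp only at hl h4 h5
      rcases hq with rfl | rfl
      · simp only [fA_mk]
        refine ⟨⟨?_, ?_⟩, ?_, ?_⟩ <;> linarith
      · simp only [fB_v]
        push_cast
        refine ⟨⟨?_, ?_⟩, ?_, ?_⟩ <;> linarith
  have h6 := norm_le_of_abs h3.1 h3.2
  nlinarith

omit hd hg in
/-- the ends of the edge of a dart -/
theorem dart_ends (i : ℤ) : (src (W.e i) = W.v i ∧ tgt (W.e i) = W.v (i + 1)) ∨
    (src (W.e i) = W.v (i + 1) ∧ tgt (W.e i) = W.v i) := by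
  rcases W.ends i with ⟨h1, h2, -⟩ | ⟨h1, h2, -⟩
  · exact Or.inl ⟨h1.symm, h2.symm⟩
  · exact Or.inr ⟨h2.symm, h1.symm⟩

omit hd hg in
theorem dart_edge {i : ℤ} {e : Edge} (h : (W.v i, W.v (i + 1)) = (src e, tgt e) ∨
    (W.v i, W.v (i + 1)) = (tgt e, src e)) : W.e i = e := by
  have h' : (W.v i = src e ∧ W.v (i + 1) = tgt e) ∨ (W.v i = tgt e ∧ W.v (i + 1) = src e) := by
    rcases h with h | h
    · exact Or.inl ⟨congrArg Prod.fst h, congrArg Prod.snd h⟩
    · exact Or.inr ⟨congrArg Prod.fst h, congrArg Prod.snd h⟩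
  apply edge_eq
  rcases dart_ends W i with ⟨h1, h2⟩ | ⟨h1, h2⟩ <;> rcases h' with ⟨h3, h4⟩ | ⟨h3, h4⟩
  · exact Or.inl ⟨h1.trans h3, h2.trans h4⟩
  · exact Or.inr ⟨h1.trans h3, h2.trans h4⟩
  · exact Or.inr ⟨h1.trans h4, h2.trans h3⟩
  · exact Or.inl ⟨h1.trans h4, h2.trans h3⟩

end lit

/-- **Dual excursions block.** -/
theorem odd_block (hd : 0 < d) (hg : IsGridPolygon d c)
    (hL : Loc d c (Icc (1 / 4) (1 / 2)) (Icc (3 / 4) 1) Φ NP NQ) {Z Z' : Edge → Prop}
    (hZZ : ∀ e, Z' e → ¬ Z e) (hΦ : ∀ e, Z' e → dufc (fA e) ∈ Φ ∧ dufc (fB e) ∈ Φ) {c0 c1 : P2}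
    (hp : Relation.ReflTransGen (DStep Z') c0 c1)
    (h0 : NP (dufc c0)) (h0' : pf d (dufc c0) ∉ jordanInterior c)
    (h1 : NQ (dufc c1)) (h1' : pf d (dufc c1) ∉ jordanInterior c) {a b : P2}
    (ha : gridPoint d a ∈ c '' Icc 0 (1 / 4)) (hb : gridPoint d b ∈ c '' Icc (1 / 2) (3 / 4))
    (hab : Relation.ReflTransGen (PStep fun e => Z e ∧ RG d c e) a b) : False := by
  obtain ⟨W⟩ := (gc_uc hd hg).exists_walk
  have hgc := gc_uc hd hg
  obtain ⟨ta, hta, hta'⟩ := ha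
  obtain ⟨tb, htb, htb'⟩ := hb
  obtain ⟨iu, hiu, hiu'⟩ := gridPoint_param hd hg W (s := ta)
    ⟨hta.1, by linarith [hta.2]⟩ hta'
  obtain ⟨iv, hiv, hiv'⟩ := gridPoint_param hd hg W (s := tb)
    ⟨by linarith [htb.1], by linarith [htb.2]⟩ htb'
  have hlt : iu < iv := by
    rw [← W.mono.lt_iff_lt, hiu', hiv']
    linarith [hta.2, htb.1]
  have htop : W.t (iu + W.L) = ta + 1 := by rw [W.tper, hiu']
  have hLv : iv < iu + W.L := by
    rw [← W.mono.lt_iff_lt, hiv', htop]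
    linarith [hta.1, htb.2]
  obtain ⟨n, hn⟩ : ∃ n : ℕ, (n : ℤ) = iu + W.L - iv :=
    ⟨(iu + W.L - iv).toNat, by rw [Int.toNat_of_nonneg (by omega)]⟩
  have hnL : n < W.L := by omega
  obtain ⟨l1, hl1, hl1'⟩ := exists_darts hab
  obtain ⟨x, hx⟩ : ∃ x : ℕ → P2, ∀ k, x k = W.v (iv + k) := ⟨_, fun _ => rfl⟩
  have hxs : ∀ k, x (k + 1) = W.v (iv + k + 1) := by
    intro k; rw [hx]; push_cast; rw [add_assoc]
  obtain ⟨l, hl⟩ : ∃ l, l = l1 ++ SpD331.darts x n := ⟨_, rfl⟩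
  -- the list is a closed list of unit darts
  have hadj : ∀ p ∈ l, SpD331.Adj p.1 p.2 := by
    intro p hpl
    rw [hl, List.mem_append] at hpl
    rcases hpl with hpl | hpl
    · obtain ⟨e, -, h | h⟩ := hl1 p hpl
      · rw [h]; exact adj_src e
      · rw [h]; exact (adj_src e).symm
    · obtain ⟨k, -, rfl⟩ := SpD331.mem_darts.1 hpl
      rw [hx, hxs]
      rcases dart_ends W (iv + k) with ⟨h3, h4⟩ | ⟨h3, h4⟩
      · rw [← h3, ← h4]; exact adj_src _
      · rw [← h3, ← h4]; exact (adj_src _).symm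
  have hclosed : SpD331.Closed l := by
    intro k
    rw [hl, List.map_append, List.sum_append, hl1', SpD331.darts_sum, hx, hx, hn]
    have e1 : iv + (iu + (W.L : ℤ) - iv) = iu + 1 * W.L := by ring
    have e2 : iv + ((0 : ℕ) : ℤ) = iv := by simp
    rw [e1, e2, W.vper hgc, hiu, hiv]
    ring
  have hinj : ∀ i < n, ∀ j < n, x i = x j → i = j := by
    intro i hi j hj hij
    rw [hx, hx] at hij
    obtain ⟨k, hk⟩ := W.vinj hgc hij
    have hk0 : k = 0 := by
      by_contra hne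
      rcases lt_or_gt_of_ne hne with h | h
      · have : k * (W.L : ℤ) ≤ -1 * W.L := by
          apply mul_le_mul_of_nonneg_right (by omega); positivity
        omega
      · have : 1 * (W.L : ℤ) ≤ k * W.L := by
          apply mul_le_mul_of_nonneg_right (by omega); positivity
        omega
    rw [hk0, zero_mul] at hk
    omega
  -- the potential
  obtain ⟨H, hH⟩ : ∃ H : P2 → ℤ, H = SpD331.W l := ⟨_, rfl⟩
  have offl : ∀ e, ¬ (Z e ∧ RG d c e) → (∀ k < n, W.e (iv + k) ≠ e) → H (fA e) = H (fB e) := by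
    intro e he1 he2
    rw [hH]
    apply pot_eq hadj hclosed
    have h3 := off_path hl1 he1
    constructor
    · rw [hl, List.mem_append]
      rintro (h | h)
      · exact h3.1 h
      · obtain ⟨k, hk, h⟩ := SpD331.mem_darts.1 h
        rw [hx, hxs] at h
        exact he2 k hk (dart_edge W (Or.inl h))
    · rw [hl, List.mem_append]
      rintro (h | h)
      · exact h3.2 h
      · obtain ⟨k, hk, h⟩ := SpD331.mem_darts.1 h
        rw [hx, hxs] at h
        exact he2 k hk (dart_edge W (Or.inr h))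
  have hne : ∀ e, ¬ (Z e ∧ RG d c e) → (∃ k < n, W.e (iv + k) = e) → H (fA e) ≠ H (fB e) := by
    rintro e he1 ⟨k, hk, rfl⟩
    rw [hH]
    apply pot_ne hadj hclosed
    have h3 := off_path hl1 he1
    have hnd : (SpD331.darts x n).Nodup := SpD331.darts_nodup hinj
    have hmem : (W.v (iv + k), W.v (iv + k + 1)) ∈ SpD331.darts x n :=
      SpD331.mem_darts.2 ⟨k, hk, by rw [hx, hxs]⟩
    have hnot : (W.v (iv + k + 1), W.v (iv + k)) ∉ SpD331.darts x n := by
      intro h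
      obtain ⟨j, hj, h⟩ := SpD331.mem_darts.1 h
      rw [hx, hxs] at h
      have h4 : W.e (iv + j) = W.e (iv + k) := by
        apply dart_edge W
        rcases dart_ends W (iv + k) with ⟨h5, h6⟩ | ⟨h5, h6⟩
        · right; rw [h, h5, h6]
        · left; rw [h, h5, h6]
      obtain ⟨m, hm⟩ := W.einj hgc h4
      have h7 : W.v (iv + j) = W.v (iv + k) := by rw [hm, W.vper hgc]
      have h8 := hinj j hj k hk (by rw [hx, hx]; exact h7)
      rw [h8, Prod.mk.injEq] at h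
      have h9 := src_ne (W.e (iv + k))
      rcases dart_ends W (iv + k) with ⟨h5, h6⟩ | ⟨h5, h6⟩
      · rw [h5, h6] at h9
        exact h9 h.1
      · rw [h5, h6] at h9
        exact h9 h.1.symm
    rw [hl, List.count_append, List.count_append, List.count_eq_zero.2 h3.1,
      List.count_eq_zero.2 h3.2, zero_add, zero_add]
    rcases dart_ends W (iv + k) with ⟨h5, h6⟩ | ⟨h5, h6⟩
    · rw [h5, h6, List.count_eq_one_of_mem hnd hmem, List.count_eq_zero.2 hnot]
      norm_num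
    · rw [h5, h6, List.count_eq_one_of_mem hnd hmem, List.count_eq_zero.2 hnot]
      norm_num
  -- constant outside
  have hout : ∀ q q', W.par q = 0 → W.par q' = 0 → H q = H q' := by
    intro q q' hq hq'
    have hr : W.Reach q q' := (W.reach_iff hgc q q').2 (by rw [hq, hq'])
    have key : ∀ r, W.Reach q r → H q = H r ∧ W.par r = 0 := by
      intro r hr
      induction hr with
      | refl => exact ⟨rfl, hq⟩
      | @tail r r' _ hs ih =>
        have hp' : W.par r' = 0 := by rw [← W.par_step hgc hs]; exact ih.2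
        refine ⟨ih.1.trans ?_, hp'⟩
        obtain ⟨e, he, hrr⟩ := hs
        have hpar : W.par (fA e) = 0 ∧ W.par (fB e) = 0 := by
          rcases hrr with ⟨h3, h4⟩ | ⟨h3, h4⟩
          · rw [← h3, ← h4]; exact ⟨ih.2, hp'⟩
          · rw [← h3, ← h4]; exact ⟨hp', ih.2⟩
        have hnR : ¬ RG d c e := by
          rw [rg_iff hd hg W, hpar.1, hpar.2]
          decide
        have h5 := offl e (fun h => hnR h.2) (fun k _ hk => he ⟨_, hk⟩)
        rcases hrr with ⟨h3, h4⟩ | ⟨h3, h4⟩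
        · rw [h3, h4, h5]
        · rw [h3, h4, h5]
    exact (key q' hr).1
  -- `P` edges are off the arc, `Q` edges are on the arc
  have hPedge : ∀ i, (∀ s ∈ Icc (W.t i) (W.t (i + 1)), Int.fract s ∈ Icc (1 / 4 : ℝ) (1 / 2)) →
      ∀ k < n, W.e (iv + k) ≠ W.e i := by
    intro i hi k hk heq
    obtain ⟨m, hm⟩ := W.einj hgc heq
    have h3 := W.mid_mem hgc i
    have h4 := hi _ ⟨h3.1.le, h3.2.le⟩
    have e1 := W.tper_int i m
    have e2 := W.tper_int (i + 1) m
    have e3 : i + 1 + m * W.L = iv + k + 1 := by rw [← add_right_comm, ← hm]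
    rw [← hm] at e1
    rw [e3] at e2
    have h5 : tb ≤ W.t (iv + k) := by
      rw [← hiv']; exact W.mono.monotone (by omega)
    have h6 : W.t (iv + k + 1) ≤ ta + 1 := by
      rw [← htop]; exact W.mono.monotone (by omega)
    have h7 : Int.fract ((W.t i + W.t (i + 1)) / 2) =
        Int.fract ((W.t (iv + k) + W.t (iv + k + 1)) / 2) := by
      rw [e1, e2]
      have : (W.t i + m + (W.t (i + 1) + m)) / 2 = (W.t i + W.t (i + 1)) / 2 + m := by ring
      rw [this, Int.fract_add_intCast]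
    have h8 := W.mid_mem hgc (iv + k)
    rw [h7] at h4
    set y := (W.t (iv + k) + W.t (iv + k + 1)) / 2 with hy
    have h9 : 1 / 2 < y := by linarith [htb.1, h8.1]
    have h10 : y < 5 / 4 := by linarith [hta.2, h8.2]
    rcases lt_or_ge y 1 with h11 | h11
    · rw [Int.fract_eq_self.2 ⟨by linarith, h11⟩] at h4
      linarith [h4.2]
    · have h12 : Int.fract y = y - 1 := by
        have : Int.fract y = Int.fract (y - 1) := by
          rw [Int.fract_sub_one]
        rw [this]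
        exact Int.fract_eq_self.2 ⟨by linarith, by linarith⟩
      rw [h12] at h4
      linarith [h4.1]
  have hQedge : ∀ i, (∀ s ∈ Icc (W.t i) (W.t (i + 1)), Int.fract s ∈ Icc (3 / 4 : ℝ) 1) →
      ∃ k < n, W.e (iv + k) = W.e i := by
    intro i hi
    have h3 := W.mid_mem hgc i
    have h4 := hi _ ⟨h3.1.le, h3.2.le⟩
    set y := (W.t i + W.t (i + 1)) / 2 with hy
    set m := ⌊y⌋ with hm
    have e1 := W.tper_int i (-m)
    have e2 := W.tper_int (i + 1) (-m)
    have hfr : Int.fract y = y - m := rfl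
    rw [hfr] at h4
    push_cast at e1 e2
    have h5 : iv < i + 1 + -m * W.L := by
      rw [← W.mono.lt_iff_lt, hiv', e2]
      linarith [htb.2, h3.2, h4.1]
    have h6 : i + -m * W.L < iu + W.L := by
      rw [← W.mono.lt_iff_lt, htop, e1]
      have : 0 ≤ ta := hta.1
      linarith [h3.1, h4.2]
    refine ⟨(i + -m * W.L - iv).toNat, by omega, ?_⟩
    rw [Int.toNat_of_nonneg (by omega)]
    have : iv + (i + -m * (W.L : ℤ) - iv) = i + -m * W.L := by ring
    rw [this, W.eper hgc]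
  -- the induction
  have hpar01 : ∀ q, W.par q = 0 ∨ W.par q = 1 := by
    intro q
    generalize W.par q = p
    revert p; decide
  have hpar0 : W.par c0 = 0 := by
    rcases hpar01 c0 with h | h
    · exact h
    · exact absurd ((centre_iff hd hg W c0).2 h) h0'
  have hpar1 : W.par c1 = 0 := by
    rcases hpar01 c1 with h | h
    · exact h
    · exact absurd ((centre_iff hd hg W c1).2 h) h1'
  have key : ∀ q, Relation.ReflTransGen (DStep Z') c0 q →
      (W.par q = 0 ∧ NP (dufc q)) ∨ (W.par q = 1 ∧ H q = H c0) := by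
    intro q hq
    induction hq with
    | refl => exact Or.inl ⟨hpar0, h0⟩
    | @tail q q' _ hs ih =>
      obtain ⟨e, he, hqq⟩ := hs
      have hfq : (dufc q ∈ Φ ∧ dufc q' ∈ Φ) := by
        have := hΦ e he
        rcases hqq with ⟨h3, h4⟩ | ⟨h3, h4⟩
        · rw [h3, h4]; exact this
        · rw [h3, h4]; exact this.symm
      have hdg : Dg (dufc q) (dufc q') := by
        rcases hqq with ⟨h3, h4⟩ | ⟨h3, h4⟩
        · rw [h3, h4]; exact dg_dufc e
        · rw [h3, h4]; exact (dg_dufc e).symm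
      have hHe : (H (fA e) = H (fB e)) ↔ H q = H q' := by
        rcases hqq with ⟨h3, h4⟩ | ⟨h3, h4⟩
        · rw [h3, h4]
        · rw [h3, h4]; exact eq_comm
      have heZ : ¬ (Z e ∧ RG d c e) := fun h => hZZ e he h.1
      by_cases htr : W.tr e
      · have hne' := W.par_ne hgc htr
        have hpne : W.par q ≠ W.par q' := by
          rcases hqq with ⟨h3, h4⟩ | ⟨h3, h4⟩
          · rw [h3, h4]; exact hne'
          · rw [h3, h4]; exact hne'.symm
        obtain ⟨i, rfl⟩ := htr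
        have hqe : q = fA (W.e i) ∨ q = fB (W.e i) := by
          rcases hqq with ⟨h3, _⟩ | ⟨h3, _⟩
          · exact Or.inl h3
          · exact Or.inr h3
        have hqe' : q' = fA (W.e i) ∨ q' = fB (W.e i) := by
          rcases hqq with ⟨_, h3⟩ | ⟨_, h3⟩
          · exact Or.inr h3
          · exact Or.inl h3
        have htrq := fun s hs => hL.tr _ hfq.1 (Int.fract s)
          ⟨Int.fract_nonneg s, (Int.fract_lt_one s).le⟩ (near_edge hd W (s := s) hs hqe)
        have htrq' := fun s hs => hL.tr _ hfq.2 (Int.fract s)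
          ⟨Int.fract_nonneg s, (Int.fract_lt_one s).le⟩ (near_edge hd W (s := s) hs hqe')
        have hti : W.t i ∈ Icc (W.t i) (W.t (i + 1)) := ⟨le_rfl, (W.hlt i).le⟩
        rcases htrq _ hti with ⟨-, hN⟩ | ⟨-, hN⟩
        · -- an edge of `P`
          have hall : ∀ s ∈ Icc (W.t i) (W.t (i + 1)), Int.fract s ∈ Icc (1 / 4 : ℝ) (1 / 2) := by
            intro s hs
            rcases htrq s hs with h | h
            · exact h.1
            · exact (hL.sep _ _ (Or.inl rfl) hN h.2).elim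
          have h5 := hHe.1 (offl _ heZ (hPedge i hall))
          rcases ih with ⟨h6, h7⟩ | ⟨h6, h7⟩
          · right
            refine ⟨?_, ?_⟩
            · rcases hpar01 q' with h | h
              · exact absurd (h6.trans h.symm) hpne
              · exact h
            · rw [← h5]; exact hout q c0 h6 hpar0
          · left
            refine ⟨?_, ?_⟩
            · rcases hpar01 q' with h | h
              · exact h
              · exact absurd (h6.trans h.symm) hpne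
            · rcases htrq' _ hti with h | h
              · exact h.2
              · exact (hL.sep _ _ (Or.inr hdg) hN h.2).elim
        · -- an edge of `Q`
          have hall : ∀ s ∈ Icc (W.t i) (W.t (i + 1)), Int.fract s ∈ Icc (3 / 4 : ℝ) 1 := by
            intro s hs
            rcases htrq s hs with h | h
            · exact (hL.sep _ _ (Or.inl rfl) h.2 hN).elim
            · exact h.1
          have h5 := hne _ heZ (hQedge i hall)
          rcases ih with ⟨h6, h7⟩ | ⟨h6, h7⟩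
          · exact (hL.sep _ _ (Or.inl rfl) h7 hN).elim
          · exfalso
            have h8 : W.par q' = 0 := by
              rcases hpar01 q' with h | h
              · exact h
              · exact absurd (h6.trans h.symm) hpne
            exact h5 (hHe.2 (h7.trans (hout c0 q' hpar0 h8)))
      · have hpeq : W.par q = W.par q' := by
          refine W.par_step hgc ⟨e, htr, hqq⟩
        rcases ih with ⟨h6, h7⟩ | ⟨h6, h7⟩
        · left
          refine ⟨hpeq ▸ h6, ?_⟩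
          have h8 : pf d (dufc q') ∉ jordanInterior c := by
            rw [centre_iff hd hg W, ← hpeq, h6]
            decide
          rcases hL.out _ hfq.2 h8 with h | h
          · exact h
          · exact (hL.sep _ _ (Or.inr hdg) h7 h).elim
        · right
          refine ⟨hpeq ▸ h6, ?_⟩
          rw [← hHe.1 (offl e heZ fun k _ hk => htr ⟨_, hk⟩)]
          exact h7
  rcases key c1 hp with ⟨-, h⟩ | ⟨h, -⟩
  · exact hL.sep _ _ (Or.inl rfl) h h1
  · rw [hpar1] at h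
    exact absurd h (by decide)

end

end Crest.Agent.R158.Spl949
end

-- ▼ part R158/Jt4_785
section

/-! R158 (helper785) BLOCK J, file 4: kernel convergence `γs n → γ` (uniformly on `[0,1]`), moduli of
the parameter, uniform local connectedness of the closed regions. -/

set_option autoImplicit false

open Set Topology Filter Metric
open Crest.ProbabilityR.Percolation

namespace Crest.Agent.R158.Jt785

open Crest.Agent.R036.Sweep Crest.Agent.R144.Geo268

/-! ### kernel convergence -/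

/-- stability on closed sets off the limit curve -/
theorem stable {γ : ℝ → ℂ} {γs : ℕ → ℝ → ℂ} (h : Lp γ) (hs : ∀ n, Lp (γs n))
    (hu : TendstoUniformlyOn γs γ atTop (Icc 0 1)) {K : Set ℂ} (hK : IsClosed K)
    (hd : Disjoint K (tr γ)) :
    ∀ᶠ n in atTop, ∀ z ∈ K, z ∉ tr (γs n) ∧ wd (γs n) z = wd γ z := by
  obtain ⟨r, hr, h0⟩ := hd.symm.exists_thickenings h.isCompact hK
  have h1 : ∀ z ∈ K, ∀ s ∈ Icc (0:ℝ) 1, r ≤ ‖γ s - z‖ := fun z hz s hs => by
    by_contra h2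
    rw [not_le] at h2
    have h3 : γ s ∈ thickening r K := by
      rw [mem_thickening_iff]
      exact ⟨z, hz, by rwa [dist_eq_norm]⟩
    have h4 : γ s ∈ thickening r (tr γ) := self_subset_thickening hr _ (mem_tr hs)
    exact disjoint_left.1 h0 h4 h3
  filter_upwards [Metric.tendstoUniformlyOn_iff.1 hu r hr] with n hn z hz
  have h2 : ∀ s ∈ Icc (0:ℝ) 1, ‖γs n s - γ s‖ < ‖γ s - z‖ := fun s hs => by
    have := hn s hs
    rw [dist_comm, dist_eq_norm] at this
    exact this.trans_le (h1 z hz s hs)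
  obtain ⟨-, h3, h4⟩ := wd_close h (hs n) h2
  exact ⟨h3, h4⟩

section seq

variable {γ : ℝ → ℂ} {γs : ℕ → ℝ → ℂ} (h : IsJordanCurve γ) (hs : ∀ n, IsJordanCurve (γs n))
  (hu : TendstoUniformlyOn γs γ atTop (Icc 0 1))

include h hs hu

/-- compact (closed) subsets of the interior are eventually inside -/
theorem eventually_inside {K : Set ℂ} (hK : IsClosed K) (hKi : K ⊆ jordanInterior γ) :
    ∀ᶠ n in atTop, K ⊆ jordanInterior (γs n) := by
  have hd : Disjoint K (tr γ) := disjoint_left.2 fun z hz => (hKi hz).1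
  filter_upwards [stable (lp_of h) (fun n => lp_of (hs n)) hu hK hd] with n hn z hz
  obtain ⟨h1, h2⟩ := hn z hz
  exact (mem_ji (hs n) z).2 ⟨h1, by rw [h2]; exact ((mem_ji h z).1 (hKi hz)).2⟩

/-- closed subsets of the exterior are eventually outside -/
theorem eventually_outside {K : Set ℂ} (hK : IsClosed K) (hKi : K ⊆ ext γ) :
    ∀ᶠ n in atTop, K ⊆ ext (γs n) := by
  have hd : Disjoint K (tr γ) := disjoint_left.2 fun z hz => (hKi hz).1
  filter_upwards [stable (lp_of h) (fun n => lp_of (hs n)) hu hK hd] with n hn z hz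
  obtain ⟨h1, h2⟩ := hn z hz
  exact ⟨h1, by rw [h2]; exact (hKi hz).2⟩

/-- the closed regions are eventually in any neighbourhood of the limit closed region -/
theorem eventually_thick {ε : ℝ} (hε : 0 < ε) :
    ∀ᶠ n in atTop, jordanInterior (γs n) ∪ curveTrace (γs n) ⊆
      thickening ε (jordanInterior γ ∪ curveTrace γ) := by
  have h1 : IsClosed (thickening ε (jordanInterior γ ∪ curveTrace γ))ᶜ :=
    isOpen_thickening.isClosed_compl
  have h2 : (thickening ε (jordanInterior γ ∪ curveTrace γ))ᶜ ⊆ ext γ := fun z hz => by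
    have h3 : z ∉ jordanInterior γ ∪ curveTrace γ := fun h4 =>
      hz (self_subset_thickening hε _ h4)
    rcases cover h z with h4 | h4 | h4
    · exact absurd (Or.inr h4) h3
    · exact absurd (Or.inl h4) h3
    · exact h4
  filter_upwards [eventually_outside h hs hu h1 h2] with n hn z hz
  by_contra h3
  have h4 := hn h3
  rcases hz with h5 | h5
  · exact disjoint_left.1 (disj_ji_ext (hs n)) h5 h4
  · exact h4.1 h5


end seq

theorem eventually_close {γ : ℝ → ℂ} {γs : ℕ → ℝ → ℂ}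
    (hu : TendstoUniformlyOn γs γ atTop (Icc 0 1)) {ε : ℝ} (hε : 0 < ε) :
    ∀ᶠ n in atTop, ∀ s ∈ Icc (0:ℝ) 1, ‖γs n s - γ s‖ < ε := by
  filter_upwards [Metric.tendstoUniformlyOn_iff.1 hu ε hε] with n hn s hs
  have := hn s hs
  rwa [dist_comm, dist_eq_norm] at this

/-! ### moduli -/











end Crest.Agent.R158.Jt785
end

-- ▼ part R158/Spl3_949
section

/-!
# Row 158 (S0237), block SPL (helper949), file 3: the metric part

`loc_ev` : if the faces of `Φ n` are close to a compact set `R` that misses the parameters `TM` and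
leaves the interior only near `TP`, `TQ`, then eventually `Loc` holds
`ji_rot` : interiors of rotated curves
-/

set_option autoImplicit false

namespace Crest.Agent.R158.Spl949

open Set Filter Topology Metric Crest.Agent.R161.Geo729
open Crest.Agent.R158.Gp949 Crest.Agent.R158.Mr679 Crest.Agent.R158.Jt785
open Crest.ProbabilityR.Percolation

noncomputable section

/-- closeness of a point to the part of the curve over `T` -/
def NT (γ : ℝ → ℂ) (T : Set ℝ) (r : ℝ) (z : ℂ) : Prop := ∃ t ∈ T, ‖z - γ t‖ < r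

theorem sep_compact {K K' : Set ℂ} (hK : IsCompact K) (hK' : IsCompact K') (h : Disjoint K K') :
    ∃ η : ℝ, 0 < η ∧ ∀ z ∈ K, ∀ w ∈ K', η < ‖z - w‖ := by
  obtain ⟨r, hr, hr'⟩ := exists_pos_forall_lt_edist hK hK'.isClosed h
  refine ⟨r, by exact_mod_cast hr, fun z hz w hw => ?_⟩
  have h1 := hr' z hz w hw
  rw [edist_dist, ← ENNReal.ofReal_coe_nnreal, ENNReal.ofReal_lt_ofReal_iff_of_nonneg r.coe_nonneg]
    at h1
  rwa [dist_eq_norm] at h1

section ev

variable {γ : ℝ → ℂ} {γs : ℕ → ℝ → ℂ} {δ : ℕ → ℝ} (hγ : IsJordanCurve γ)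
  (hγs : ∀ n, IsJordanCurve (γs n)) (hu : TendstoUniformlyOn γs γ atTop (Icc 0 1))
  (hδ : ∀ n, 0 < δ n) (hδ0 : Tendsto δ atTop (𝓝 0))

include hγ hγs hu hδ hδ0

/-- **The metric facts hold eventually.** -/
theorem loc_ev {TP TQ TM : Set ℝ} (hM : IsClosed TM) (hM1 : TM ⊆ Icc 0 1)
    (hcov : ∀ t ∈ Icc (0:ℝ) 1, t ∈ TP ∨ t ∈ TQ ∨ t ∈ TM) {e : ℝ} (he : 0 < e)
    (hsep : ∀ t ∈ TP, ∀ t' ∈ TQ, 5 * e ≤ ‖γ t - γ t'‖) {R : Set ℂ} (hR : IsCompact R)
    (hmiss : ∀ z ∈ R, ∀ t ∈ TM, z ≠ γ t)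
    (hout : ∀ z ∈ R, z ∉ jordanInterior γ → NT γ TP e z ∨ NT γ TQ e z) {Φ : ℕ → Set P2}
    (happ : ∀ η : ℝ, 0 < η → ∀ᶠ n in atTop, ∀ f ∈ Φ n, ∃ z ∈ R, ‖pf (δ n) f - z‖ ≤ η) :
    ∀ᶠ n in atTop, Loc (δ n) (γs n) TP TQ (Φ n) (fun f => NT γ TP (2 * e) (pf (δ n) f))
      (fun f => NT γ TQ (2 * e) (pf (δ n) f)) := by
  -- distance to the missed arcs
  have hMc : IsCompact (γ '' TM) :=
    (isCompact_Icc.of_isClosed_subset hM hM1).image_of_continuousOn (hγ.1.mono hM1)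
  obtain ⟨η1, hη1, hη1'⟩ := sep_compact hR hMc (by
    rw [disjoint_left]
    rintro z hz ⟨t, ht, hzt⟩
    exact hmiss z hz t ht hzt.symm)
  -- the deep part
  set K1 : Set ℂ := R ∩ {z | ¬ (NT γ TP e z ∨ NT γ TQ e z)} with hK1
  have hK1c : IsClosed {z : ℂ | ¬ (NT γ TP e z ∨ NT γ TQ e z)} := by
    have : {z : ℂ | ¬ (NT γ TP e z ∨ NT γ TQ e z)}ᶜ = ⋃ t ∈ TP ∪ TQ, ball (γ t) e := by
      ext z
      simp only [NT, mem_compl_iff, mem_ofPred_eq, not_not, mem_iUnion, mem_ball, dist_eq_norm,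
        exists_prop, mem_union]
      constructor
      · rintro (⟨t, ht, h⟩ | ⟨t, ht, h⟩)
        · exact ⟨t, Or.inl ht, h⟩
        · exact ⟨t, Or.inr ht, h⟩
      · rintro ⟨t, ht | ht, h⟩
        · exact Or.inl ⟨t, ht, h⟩
        · exact Or.inr ⟨t, ht, h⟩
    rw [← isOpen_compl_iff, this]
    exact isOpen_biUnion fun t _ => isOpen_ball
  have hK1D : K1 ⊆ jordanInterior γ := by
    intro z hz
    by_contra h
    exact hz.2 (hout z hz.1 h)
  obtain ⟨η2, hη2, hη2'⟩ := (hR.inter_right hK1c).exists_cthickening_subset_open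
    (isOpen_ji hγ) hK1D
  have hin := eventually_inside hγ hγs hu (isClosed_cthickening (δ := η2) (E := K1)) hη2'
  set η := min (η1 / 4) (min η2 (e / 2)) with hη
  have hη0 : 0 < η := lt_min (by linarith) (lt_min hη2 (by linarith))
  have hηa : η ≤ η1 / 4 := min_le_left _ _
  have hηb : η ≤ η2 := (min_le_right _ _).trans (min_le_left _ _)
  have hηc : η ≤ e / 2 := (min_le_right _ _).trans (min_le_right _ _)
  have hsm : ∀ᶠ n in atTop, δ n < η / 4 := (tendsto_order.1 hδ0).2 _ (by linarith)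
  filter_upwards [hin, happ η hη0, eventually_close hu (show 0 < η / 2 by linarith), hsm]
    with n h1 h2 h3 h4
  refine ⟨?_, ?_, ?_⟩
  · intro f hf t ht hft
    obtain ⟨z, hz, hfz⟩ := h2 f hf
    have h5 := h3 t ht
    have h6 : ‖pf (δ n) f - γ t‖ < 2 * e := by
      have : pf (δ n) f - γ t = (pf (δ n) f - γs n t) + (γs n t - γ t) := by ring
      rw [this]
      refine (norm_add_le _ _).trans_lt ?_
      linarith
    have h7 : t ∉ TM := by
      intro hm
      have h8 := hη1' z hz _ ⟨t, hm, rfl⟩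
      have : z - γ t = -(pf (δ n) f - z) + (pf (δ n) f - γs n t) + (γs n t - γ t) := by ring
      rw [this] at h8
      have h9 := (norm_add_le (-(pf (δ n) f - z) + (pf (δ n) f - γs n t)) (γs n t - γ t)).trans
        (add_le_add (norm_add_le (-(pf (δ n) f - z)) (pf (δ n) f - γs n t)) le_rfl)
      rw [norm_neg] at h9
      linarith
    rcases hcov t ht with h | h | h
    · exact Or.inl ⟨h, t, h, h6⟩
    · exact Or.inr ⟨h, t, h, h6⟩
    · exact absurd h h7
  · intro f hf hfi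
    obtain ⟨z, hz, hfz⟩ := h2 f hf
    by_cases hzK : NT γ TP e z ∨ NT γ TQ e z
    · have key : ∀ T : Set ℝ, NT γ T e z → NT γ T (2 * e) (pf (δ n) f) := by
        rintro T ⟨t, ht, h⟩
        refine ⟨t, ht, ?_⟩
        have : pf (δ n) f - γ t = (pf (δ n) f - z) + (z - γ t) := by ring
        rw [this]
        refine (norm_add_le _ _).trans_lt ?_
        linarith
      rcases hzK with h | h
      · exact Or.inl (key _ h)
      · exact Or.inr (key _ h)
    · exfalso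
      apply hfi
      apply h1
      apply mem_cthickening_of_dist_le _ z _ _ (⟨hz, hzK⟩ : z ∈ K1)
      rw [dist_eq_norm]
      linarith
  · rintro f g hfg ⟨t, ht, h5⟩ ⟨t', ht', h6⟩
    have h7 : ‖pf (δ n) f - pf (δ n) g‖ ≤ 2 * δ n := by
      rcases hfg with rfl | hfg
      · rw [sub_self, norm_zero]
        have := hδ n
        linarith
      · exact pf_step (hδ n) hfg
    have h8 := hsep t ht t' ht'
    have : γ t - γ t' = -(pf (δ n) f - γ t) + (pf (δ n) f - pf (δ n) g) + (pf (δ n) g - γ t') := by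
      ring
    rw [this] at h8
    have h9 := (norm_add_le (-(pf (δ n) f - γ t) + (pf (δ n) f - pf (δ n) g)) (pf (δ n) g - γ t')).trans
        (add_le_add (norm_add_le (-(pf (δ n) f - γ t)) (pf (δ n) f - pf (δ n) g)) le_rfl)
    rw [norm_neg] at h9
    linarith

omit hδ hδ0 in
/-- **Starting and final faces are eventually outside the closed region.** -/
theorem end_ev {TP : Set ℝ} {e : ℝ} (he : 0 < e) {R : Set ℂ} (hR : IsCompact R)
    (hRD : ∀ z ∈ R, z ∉ jordanInterior γ ∪ curveTrace γ) (hRn : ∀ z ∈ R, NT γ TP e z)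
    {Φ : ℕ → Set P2}
    (happ : ∀ η : ℝ, 0 < η → ∀ᶠ n in atTop, ∀ f ∈ Φ n, ∃ z ∈ R, ‖pf (δ n) f - z‖ ≤ η) :
    ∀ᶠ n in atTop, ∀ f ∈ Φ n, NT γ TP (2 * e) (pf (δ n) f) ∧
      pf (δ n) f ∉ jordanInterior (γs n) ∪ curveTrace (γs n) := by
  have hcl : IsClosed (jordanInterior γ ∪ curveTrace γ) := by
    rw [← isOpen_compl_iff]
    have : (jordanInterior γ ∪ curveTrace γ)ᶜ = ext γ := by
      ext z
      constructor
      · intro hz
        rcases cover hγ z with h | h | h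
        · exact absurd (Or.inr h) hz
        · exact absurd (Or.inl h) hz
        · exact h
      · intro hz hh
        rcases hh with h | h
        · exact disjoint_left.1 (disj_ji_ext hγ) h hz
        · exact hz.1 h
    rw [this]
    exact isOpen_ext hγ
  obtain ⟨η1, hη1, hη1'⟩ : ∃ η : ℝ, 0 < η ∧ ∀ z ∈ R, ∀ w ∈ jordanInterior γ ∪ curveTrace γ,
      η < ‖z - w‖ := by
    obtain ⟨r, hr, hr'⟩ := exists_pos_forall_lt_edist hR hcl (by
      rw [disjoint_left]
      exact hRD)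
    refine ⟨r, by exact_mod_cast hr, fun z hz w hw => ?_⟩
    have h1 := hr' z hz w hw
    rw [edist_dist, ← ENNReal.ofReal_coe_nnreal,
      ENNReal.ofReal_lt_ofReal_iff_of_nonneg r.coe_nonneg] at h1
    rwa [dist_eq_norm] at h1
  set η := min (η1 / 2) e with hη
  have hη0 : 0 < η := lt_min (by linarith) he
  have hηa : η ≤ η1 / 2 := min_le_left _ _
  have hηb : η ≤ e := min_le_right _ _
  filter_upwards [happ (η / 2) (by linarith), eventually_thick hγ hγs hu (show 0 < η1 / 2 by linarith)]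
    with n h1 h2 f hf
  obtain ⟨z, hz, hfz⟩ := h1 f hf
  constructor
  · obtain ⟨t, ht, h⟩ := hRn z hz
    refine ⟨t, ht, ?_⟩
    have : pf (δ n) f - γ t = (pf (δ n) f - z) + (z - γ t) := by ring
    rw [this]
    refine (norm_add_le _ _).trans_lt ?_
    linarith
  · intro h3
    have h4 := h2 h3
    rw [mem_thickening_iff] at h4
    obtain ⟨w, hw, h5⟩ := h4
    rw [dist_eq_norm] at h5
    have h6 := hη1' z hz w hw
    have : z - w = -(pf (δ n) f - z) + (pf (δ n) f - w) := by ring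
    rw [this] at h6
    have h7 := norm_add_le (-(pf (δ n) f - z)) (pf (δ n) f - w)
    rw [norm_neg] at h7
    linarith

end ev

/-! ### rotations -/

theorem ji_rot {γ : ℝ → ℂ} {w : ℂ} (hw : w ≠ 0) (z : ℂ) :
    w * z ∈ jordanInterior (fun t => w * γ t) ↔ z ∈ jordanInterior γ := by
  obtain ⟨H, hH⟩ : ∃ H : ℂ ≃ₜ ℂ, ∀ z, H z = w * z := ⟨Homeomorph.mulLeft₀ w hw, fun _ => rfl⟩
  have h1 : curveTrace (fun t => w * γ t) = H '' curveTrace γ := by
    unfold curveTrace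
    rw [image_image]
    exact image_congr fun t _ => (hH _).symm
  have h2 : (curveTrace fun t => w * γ t)ᶜ = H '' (curveTrace γ)ᶜ := by
    rw [h1, H.image_compl]
  have hw' : 0 < ‖w‖ := norm_pos_iff.2 hw
  simp only [jordanInterior, mem_ofPred_eq]
  have h3 : w * z ∈ curveTrace (fun t => w * γ t) ↔ z ∈ curveTrace γ := by
    rw [h1, ← hH, H.injective.mem_set_image]
  rw [h3]
  refine and_congr_right fun hz => ?_
  have h4 := H.image_connectedComponentIn (s := (curveTrace γ)ᶜ) (x := z) hz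
  rw [h2, ← hH, ← h4]
  constructor
  · intro hb
    obtain ⟨C, hC⟩ := hb.exists_norm_le
    refine isBounded_iff_forall_norm_le.2 ⟨C / ‖w‖, fun x hx => ?_⟩
    have h5 := hC _ (mem_image_of_mem _ hx)
    rw [hH, norm_mul] at h5
    rw [le_div_iff₀ hw']
    linarith
  · intro hb
    obtain ⟨C, hC⟩ := hb.exists_norm_le
    refine isBounded_iff_forall_norm_le.2 ⟨‖w‖ * C, ?_⟩
    rintro _ ⟨x, hx, rfl⟩
    rw [hH, norm_mul]
    exact mul_le_mul_of_nonneg_left (hC x hx) hw'.le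

theorem ji_rot_eq {γ : ℝ → ℂ} {w : ℂ} (hw : w ≠ 0) :
    jordanInterior (fun t => w * γ t) = (fun z => w * z) '' jordanInterior γ := by
  ext z
  constructor
  · intro hz
    have h1 : w * (z / w) = z := by field_simp
    refine ⟨z / w, ?_, h1⟩
    rw [← ji_rot hw, h1]
    exact hz
  · rintro ⟨x, hx, rfl⟩
    exact (ji_rot hw x).2 hx

theorem closure_ji_rot {γ : ℝ → ℂ} {w : ℂ} (hw : w ≠ 0) (z : ℂ) :
    w * z ∈ closure (jordanInterior (fun t => w * γ t)) ↔ z ∈ closure (jordanInterior γ) := by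
  obtain ⟨H, hH⟩ : ∃ H : ℂ ≃ₜ ℂ, ∀ z, H z = w * z := ⟨Homeomorph.mulLeft₀ w hw, fun _ => rfl⟩
  have h1 : jordanInterior (fun t => w * γ t) = H '' jordanInterior γ := by
    rw [ji_rot_eq hw]
    exact image_congr fun z _ => (hH z).symm
  rw [h1, ← H.image_closure, ← hH, H.injective.mem_set_image]

theorem jordan_rot {γ : ℝ → ℂ} {w : ℂ} (hw : w ≠ 0) (h : IsJordanCurve γ) :
    IsJordanCurve (fun t => w * γ t) := by
  refine ⟨continuousOn_const.mul h.1, ?_, by show w * γ 0 = w * γ 1; rw [h.2.2]⟩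
  intro s hs t ht hst
  exact h.2.1 hs ht (mul_left_cancel₀ hw hst)

end

end Crest.Agent.R158.Spl949
end

-- ▼ part R158/SplH_331
section

/-!
# Row 158 (S0237), SPL helpers (helper331), file 2: the literal crossing event on tiles

* `RE δ γ t` : the edge of the tile `t` is an edge of the region graph
* `Lit δ γ` : crossing of the closed region, even face paths (771's `FP`)
* `lit_prob` : `(arcCrossingProb δ γ).toReal = (tau hf).real (Lit δ γ)`
* monotone wrappers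
-/

set_option autoImplicit false

noncomputable section

namespace Crest.Agent.R158.Spl331

open MeasureTheory ProbabilityTheory unitInterval
open Crest.Agent.R161.Geo729 Crest.Agent.R161.Topo374 Crest.Agent.R161.Dual374
open Crest.Agent.R158.Rs689 Crest.Agent.R158.Mr679 Crest.Agent.R158.Cb771 Crest.Agent.R158.Gp949
open Crest.ProbabilityR.Percolation Crest.ProbabilityR.FirstPassage
open scoped ENNReal

/-- the edge of the tile belongs to the region graph -/
def RE (δ : ℝ) (γ : ℝ → ℂ) (t : P2) : Prop :=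
  (regionGraph δ γ).Adj (src (tE.symm t)) (tgt (tE.symm t))

/-- the literal crossing event on tile fields -/
def Lit (δ : ℝ) (γ : ℝ → ℂ) : Set TF :=
  {o | ∃ u v : P2, gridPoint δ u ∈ γ '' Set.Icc 0 (1 / 4) ∧
    gridPoint δ v ∈ γ '' Set.Icc (1 / 2) (3 / 4) ∧ FP o (RE δ γ) (prim u) (prim v)}

theorem RE_tE {δ : ℝ} {γ : ℝ → ℂ} (e : Edge) : RE δ γ (tE e) ↔ REG δ γ e := by
  unfold RE
  rw [Equiv.symm_apply_apply, region_adj]
  constructor
  · rintro ⟨e', h1, h2⟩
    have h3 : se e = se e' := by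
      simp only [se, Sym2.eq_iff]
      exact h1
    rw [se_inj h3]
    exact h2
  · intro h
    exact ⟨e, Or.inl ⟨rfl, rfl⟩, h⟩



theorem fp_prim {o : TF} {Q : P2 → Prop} {u v : P2} : FP o Q (prim u) (prim v) ↔
    Relation.ReflTransGen (PStep fun e => xg o (tE e) = true ∧ Q (tE e)) u v := by
  rw [fp_even (prim_par u), tp_prim_iff]
  have h : (fun e : Edge => Q (tE e) ∧ xg o (tE e) = true) =
      fun e => xg o (tE e) = true ∧ Q (tE e) := by
    funext e
    exact propext and_comm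
  rw [h]

theorem mem_Lit {δ : ℝ} {γ : ℝ → ℂ} {o : TF} : o ∈ Lit δ γ ↔ (fun e => xg o (tE e)) ∈ XEv δ γ := by
  unfold Lit XEv
  simp only [Set.mem_ofPred_eq]
  refine exists_congr fun u => exists_congr fun v => and_congr_right fun _ =>
    and_congr_right fun _ => ?_
  rw [fp_prim]
  have h : (fun e : Edge => xg o (tE e) = true ∧ RE δ γ (tE e)) =
      fun e => xg o (tE e) = true ∧ REG δ γ e := by
    funext e
    rw [RE_tE]
  rw [h]

theorem measurableSet_Lit (δ : ℝ) (γ : ℝ → ℂ) : MeasurableSet (Lit δ γ) := by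
  have h : Lit δ γ = (fun (g : TF) (e : Edge) => xg g (tE e)) ⁻¹' XEv δ γ := by
    ext o
    exact mem_Lit
  rw [h]
  have hm : Measurable (fun (g : TF) (e : Edge) => xg g (tE e)) :=
    measurable_pi_lambda _ fun e => (measurable_pi_apply (tE e)).comp measurable_xg
  exact hm (measurableSet_XEv δ γ)

/-- **(H1)** the literal crossing probability is the probability of the literal tile event -/
theorem lit_prob (δ : ℝ) (γ : ℝ → ℂ) :
    (arcCrossingProb δ γ).toReal = (tau hf).real (Lit δ γ) := by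
  rw [arc_real, ← tau_real_tE (measurableSet_XEv δ γ)]
  congr 1
  ext o
  exact mem_Lit.symm

/-! ### wrappers -/


theorem le_lit {δ : ℝ} {γ : ℝ → ℂ} {X : Set TF} (h : X ⊆ Lit δ γ) :
    (tau hf).real X ≤ (arcCrossingProb δ γ).toReal := by
  rw [lit_prob]
  exact measureReal_mono h

/-- events disjoint from the literal crossing event -/
theorem disj_lit {δ : ℝ} {γ : ℝ → ℂ} {X : Set TF} (h : ∀ o ∈ X, o ∉ Lit δ γ) :
    (tau hf).real X ≤ 1 - (arcCrossingProb δ γ).toReal := by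
  have h1 : X ⊆ (Lit δ γ)ᶜ := fun o ho => h o ho
  have h2 : (tau hf).real ((Lit δ γ)ᶜ) = 1 - (tau hf).real (Lit δ γ) := by
    rw [measureReal_compl (measurableSet_Lit δ γ), probReal_univ]
  rw [lit_prob, ← h2]
  exact measureReal_mono h1



end Crest.Agent.R158.Spl331
end
end

-- ▼ part R158/Spl4_949
section

/-!
# Row 158 (S0237), block SPL (helper949), file 4: (S+) and (S-)

* `w8 = e^{iπ/4}`, `Ls s d` : number of medial steps of a macro edge, `DT F L` : tiles of the scaled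
  polyomino, `Nk k S` : `k`-neighbourhood, `arcT` : medial points of macro boundary edges
* `XF p Q S S'` : faces of parity `p` joined through tiles of `Q` from `S` to `S'`
* `splus`, `sminus` : the two one-sided comparisons with `arcCrossingProb`
-/

set_option autoImplicit false

namespace Crest.Agent.R158.Spl949

open Set Filter Topology Metric Crest.Agent.R161.Geo729 Crest.Agent.R161.Dual374
open Crest.Agent.R158.Gp949 Crest.Agent.R158.Mr679 Crest.Agent.R158.Jt785 Crest.Agent.R158.Cb771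
open Crest.Agent.R158.Sp896 Crest.Agent.R158.Rs689 Crest.Agent.R158.Spl331
open Crest.ProbabilityR.Percolation

noncomputable section

/-- `e^{iπ/4}` -/
def w8 : ℂ := ⟨Real.sqrt 2 / 2, Real.sqrt 2 / 2⟩

theorem s2 : Real.sqrt 2 * Real.sqrt 2 = 2 := Real.mul_self_sqrt (by norm_num)
theorem s2_pos : 0 < Real.sqrt 2 := Real.sqrt_pos.2 (by norm_num)
theorem s2_le : Real.sqrt 2 ≤ 2 := by
  nlinarith [s2, s2_pos]

theorem norm_w8 : ‖w8‖ = 1 := by
  have h1 : Complex.normSq w8 = 1 := by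
    rw [Complex.normSq_apply]
    simp only [w8]
    nlinarith [s2]
  rw [Complex.normSq_eq_norm_sq] at h1
  nlinarith [norm_nonneg w8]

theorem w8_ne : w8 ≠ 0 := by
  intro h
  have := norm_w8
  rw [h, norm_zero] at this
  exact zero_ne_one this

theorem w8_pf (d : ℝ) (f : P2) :
    w8 * pf d f = ⟨Real.sqrt 2 / 2 * d * f.1, Real.sqrt 2 / 2 * d * f.2⟩ := by
  apply Complex.ext
  · simp only [Complex.mul_re, w8, pf]; ring
  · simp only [Complex.mul_im, w8, pf]; ring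

/-- number of medial steps of a macro edge (even) -/
def Ls (s d : ℝ) : ℕ := 2 * ⌊s / (Real.sqrt 2 * d)⌋₊

/-- tiles of the scaled polyomino -/
def DT (F : Set P2) (L : ℕ) : Set P2 := {t | (t.1 / (L : ℤ), t.2 / (L : ℤ)) ∈ F}

/-- sup-norm neighbourhood -/
def Nk (k : ℕ) (S : Set P2) : Set P2 := {x | ∃ y ∈ S, |x.1 - y.1| ≤ k ∧ |x.2 - y.2| ≤ k}

/-- medial points of the macro edges `m0, ..., m1` -/
def arcT (L : ℕ) (v : ℕ → P2) (m0 m1 : ℕ) : Set P2 :=
  {f | ∃ m, m0 ≤ m ∧ m ≤ m1 ∧ ∃ r : ℕ, r ≤ L ∧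
    f = (L * (v m).1 + r * ((v (m + 1)).1 - (v m).1), L * (v m).2 + r * ((v (m + 1)).2 - (v m).2))}

theorem Nk.mono {k k' : ℕ} (hk : k ≤ k') {S S' : Set P2} (hS : S ⊆ S') : Nk k S ⊆ Nk k' S' := by
  rintro x ⟨y, hy, h1, h2⟩
  have : (k : ℤ) ≤ k' := by exact_mod_cast hk
  exact ⟨y, hS hy, h1.trans this, h2.trans this⟩

theorem Nk.grow {k k' : ℕ} {S : Set P2} {x y : P2} (hx : x ∈ Nk k S) (h1 : |y.1 - x.1| ≤ k')
    (h2 : |y.2 - x.2| ≤ k') : y ∈ Spl949.Nk (k + k') S := by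
  obtain ⟨z, hz, h3, h4⟩ := hx
  refine ⟨z, hz, ?_, ?_⟩
  · have := abs_sub_le y.1 x.1 z.1; push_cast; linarith
  · have := abs_sub_le y.2 x.2 z.2; push_cast; linarith


/-! ### approximation -/

section approx

variable {δ : ℕ → ℝ} (hδ : ∀ n, 0 < δ n) (hδ0 : Tendsto δ atTop (𝓝 0)) {s : ℝ} (hs : 0 < s)

theorem Ls_le (hs : 0 < s) {d : ℝ} (hd : 0 < d) : Real.sqrt 2 / 2 * d * Ls s d ≤ s := by
  have h1 : (⌊s / (Real.sqrt 2 * d)⌋₊ : ℝ) ≤ s / (Real.sqrt 2 * d) :=
    Nat.floor_le (by have := s2_pos; positivity)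
  have h2 : 0 < Real.sqrt 2 * d := mul_pos s2_pos hd
  rw [le_div_iff₀ h2] at h1
  unfold Ls
  push_cast
  nlinarith

theorem Ls_gt (_hs : 0 < s) {d : ℝ} (hd : 0 < d) : s - 2 * d < Real.sqrt 2 / 2 * d * Ls s d := by
  have h1 : s / (Real.sqrt 2 * d) < ⌊s / (Real.sqrt 2 * d)⌋₊ + 1 := Nat.lt_floor_add_one _
  have h2 : 0 < Real.sqrt 2 * d := mul_pos s2_pos hd
  rw [div_lt_iff₀ h2] at h1
  have h3 := s2_le
  unfold Ls
  push_cast
  nlinarith

include hδ hδ0 hs in
theorem Ls_pos : ∀ᶠ n in atTop, 0 < Ls s (δ n) := by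
  filter_upwards [(tendsto_order.1 hδ0).2 (s / 2) (by linarith)] with n hn
  have h1 := Ls_gt hs (hδ n)
  by_contra h
  have h2 : Ls s (δ n) = 0 := by omega
  rw [h2] at h1
  simp only [Nat.cast_zero, mul_zero] at h1
  linarith

include hδ hδ0 hs in
/-- **Approximation**: neighbourhoods of lattice sets whose macro positions lie in `K` -/
theorem approx {K : Set ℂ} (hK : Bornology.IsBounded K) {S : ℕ → Set P2}
    (hS : ∀ n, 0 < Ls s (δ n) → ∀ y ∈ S n,
      (⟨s / Ls s (δ n) * y.1, s / Ls s (δ n) * y.2⟩ : ℂ) ∈ K) (k : ℕ) {η : ℝ} (hη : 0 < η) :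
    ∀ᶠ n in atTop, ∀ f ∈ Nk k (S n), ∃ z ∈ {z | w8 * z ∈ K}, ‖pf (δ n) f - z‖ ≤ η := by
  obtain ⟨Rb, hRb⟩ := hK.exists_norm_le
  set R := max Rb 0 with hR
  have hR0 : 0 ≤ R := le_max_right _ _
  have hRb' : ∀ z ∈ K, ‖z‖ ≤ R := fun z hz => (hRb z hz).trans (le_max_left _ _)
  have hC : 0 < 2 * ((k : ℝ) + 2 * R / s) + 1 := by positivity
  filter_upwards [Ls_pos hδ hδ0 hs,
    (tendsto_order.1 hδ0).2 (η / (2 * ((k : ℝ) + 2 * R / s) + 1)) (by positivity)] with n h1 h2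
  rintro f ⟨y, hy, hf1, hf2⟩
  have hd := hδ n
  set d := δ n with hdd
  set L := Ls s d with hL
  have hL0 : (0 : ℝ) < L := by exact_mod_cast h1
  have hz := hS n h1 y hy
  rw [← hdd, ← hL] at hz
  set z : ℂ := ⟨s / L * y.1, s / L * y.2⟩ with hzz
  have hzw : w8 * (z / w8) = z := by
    have := w8_ne
    field_simp
  refine ⟨z / w8, by show w8 * (z / w8) ∈ K; rw [hzw]; exact hz, ?_⟩
  have e1 : ‖pf d f - z / w8‖ = ‖w8 * pf d f - z‖ := by
    have : w8 * pf d f - z = w8 * (pf d f - z / w8) := by rw [mul_sub, hzw]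
    rw [this, norm_mul, norm_w8, one_mul]
  rw [e1, w8_pf]
  have hzn := hRb' z hz
  have hre : |z.re| ≤ R := (Complex.abs_re_le_norm z).trans hzn
  have him : |z.im| ≤ R := (Complex.abs_im_le_norm z).trans hzn
  have hlo := Ls_gt hs hd
  have hhi := Ls_le hs hd
  rw [← hL] at hlo hhi
  have hs2 := s2_le
  have hs2p := s2_pos
  have coord : ∀ a b : ℤ, |a - b| ≤ k → |s / L * (b : ℝ)| ≤ R →
      |Real.sqrt 2 / 2 * d * a - s / L * b| ≤ d * (k + 2 * R / s) := by
    intro a b hab hb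
    have h3 : Real.sqrt 2 / 2 * d * a - s / L * b =
        Real.sqrt 2 / 2 * d * (a - b) + (Real.sqrt 2 / 2 * d * L - s) / s * (s / L * b) := by
      field_simp
      ring
    rw [h3]
    have h4 : |Real.sqrt 2 / 2 * d * ((a : ℝ) - b)| ≤ d * k := by
      rw [abs_mul, abs_of_nonneg (by positivity)]
      have h5 : |(a : ℝ) - b| ≤ k := by exact_mod_cast hab
      have h6 : Real.sqrt 2 / 2 * d ≤ d := by nlinarith
      have h7 : 0 ≤ |(a : ℝ) - b| := abs_nonneg _
      calc Real.sqrt 2 / 2 * d * |(a : ℝ) - b| ≤ d * |(a : ℝ) - b| :=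
            mul_le_mul_of_nonneg_right h6 h7
        _ ≤ d * k := mul_le_mul_of_nonneg_left h5 hd.le
    have h5 : |(Real.sqrt 2 / 2 * d * L - s) / s * (s / L * b)| ≤ d * (2 * R / s) := by
      rw [abs_mul]
      have h6 : |(Real.sqrt 2 / 2 * d * L - s) / s| ≤ 2 * d / s := by
        rw [abs_div, abs_of_pos hs]
        apply div_le_div_of_nonneg_right _ hs.le
        rw [abs_le]
        constructor <;> linarith
      calc |(Real.sqrt 2 / 2 * d * L - s) / s| * |s / L * b| ≤ 2 * d / s * R :=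
            mul_le_mul h6 hb (abs_nonneg _) (by positivity)
        _ = d * (2 * R / s) := by ring
    calc _ ≤ |Real.sqrt 2 / 2 * d * ((a : ℝ) - b)| +
          |(Real.sqrt 2 / 2 * d * L - s) / s * (s / L * b)| := abs_add_le _ _
      _ ≤ d * k + d * (2 * R / s) := add_le_add h4 h5
      _ = d * (k + 2 * R / s) := by ring
  have c1 := coord f.1 y.1 hf1 hre
  have c2 := coord f.2 y.2 hf2 him
  have h3 : ‖(⟨Real.sqrt 2 / 2 * d * f.1, Real.sqrt 2 / 2 * d * f.2⟩ : ℂ) - z‖ ≤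
      d * (k + 2 * R / s) + d * (k + 2 * R / s) := norm_le_of_abs c1 c2
  refine h3.trans ?_
  rw [lt_div_iff₀ hC] at h2
  nlinarith

theorem DT_mem {F : Set P2} (hs : 0 < s) {L : ℕ} (hL : 0 < L) {y : P2} (hy : y ∈ DT F L) :
    (⟨s / L * y.1, s / L * y.2⟩ : ℂ) ∈ ⋃ q ∈ F, sq s q := by
  have hL' : (0 : ℝ) < L := by exact_mod_cast hL
  have hLz : (0 : ℤ) < L := by exact_mod_cast hL
  have key : ∀ a : ℤ, s * ((a / (L : ℤ) : ℤ) : ℝ) ≤ s / L * a ∧
      s / L * a ≤ s * (((a / (L : ℤ) : ℤ) : ℝ) + 1) := by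
    intro a
    have h1 : (L : ℤ) * (a / L) ≤ a := Int.mul_ediv_self_le hLz.ne'
    have h2 : a < L * (a / L) + L := Int.lt_mul_ediv_self_add hLz
    have h3 : (L : ℝ) * ((a / (L : ℤ) : ℤ) : ℝ) ≤ a := by exact_mod_cast h1
    have h4 : (a : ℝ) < L * ((a / (L : ℤ) : ℤ) : ℝ) + L := by exact_mod_cast h2
    constructor
    · rw [div_mul_eq_mul_div, le_div_iff₀ hL']
      nlinarith
    · rw [div_mul_eq_mul_div, div_le_iff₀ hL']
      nlinarith
  refine mem_iUnion₂.2 ⟨_, hy, ?_⟩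
  exact ⟨(key y.1).1, (key y.1).2, (key y.2).1, (key y.2).2⟩

theorem arcT_mem {v : ℕ → P2} {m0 m1 L : ℕ} (hL : 0 < L) {y : P2} (hy : y ∈ arcT L v m0 m1) :
    (⟨s / L * y.1, s / L * y.2⟩ : ℂ) ∈ ⋃ m ∈ Icc m0 m1, ed s (v m) (v (m + 1)) := by
  have hL' : (0 : ℝ) < L := by exact_mod_cast hL
  obtain ⟨m, h1, h2, r, hr, rfl⟩ := hy
  refine mem_iUnion₂.2 ⟨m, ⟨h1, h2⟩, ?_⟩
  have hr' : (r : ℝ) ≤ L := by exact_mod_cast hr
  refine ⟨1 - r / L, r / L, ?_, by positivity, by ring, ?_⟩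
  · rw [sub_nonneg, div_le_one hL']
    exact hr'
  · apply Complex.ext
    · simp only [pt, Complex.add_re, Complex.smul_re, smul_eq_mul]
      push_cast
      field_simp
      ring
    · simp only [pt, Complex.add_im, Complex.smul_im, smul_eq_mul]
      push_cast
      field_simp
      ring

end approx

end

end Crest.Agent.R158.Spl949
end

-- ▼ part R158/Spl5_949
section

/-!
# Row 158 (S0237), block SPL (helper949), file 5: (S+) and (S-)

* `env_ev` : the metric facts hold eventually for a sandwich polygon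
* `XF p Q S S'` : faces of parity `p` joined through tiles of `Q` from `S` to `S'`
* `splus`, `sminus` : the two one-sided comparisons with `arcCrossingProb`
-/

set_option autoImplicit false

namespace Crest.Agent.R158.Spl949

open Set Filter Topology Metric MeasureTheory Crest.Agent.R161.Geo729 Crest.Agent.R161.Dual374
open Crest.Agent.R158.Gp949 Crest.Agent.R158.Mr679 Crest.Agent.R158.Jt785 Crest.Agent.R158.Cb771
open Crest.Agent.R158.Sp896 Crest.Agent.R158.Rs689 Crest.Agent.R158.Spl331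
open Crest.ProbabilityR.Percolation

noncomputable section

theorem nr_w8 {γ : ℝ → ℂ} {T : Set ℝ} {e : ℝ} {z : ℂ} :
    Nr e ((fun t => w8 * γ t) '' T) (w8 * z) ↔ NT γ T e z := by
  have key : ∀ t, ‖w8 * z - w8 * γ t‖ = ‖z - γ t‖ := by
    intro t
    rw [← mul_sub, norm_mul, norm_w8, one_mul]
  constructor
  · rintro ⟨_, ⟨t, ht, rfl⟩, h⟩
    exact ⟨t, ht, by rw [← key]; exact h⟩
  · rintro ⟨t, ht, h⟩
    exact ⟨_, ⟨t, ht, rfl⟩, by rw [← key] at h; exact h⟩

theorem compact_pre {K : Set ℂ} (hK : IsCompact K) : IsCompact {z | w8 * z ∈ K} := by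
  obtain ⟨H, hH⟩ : ∃ H : ℂ ≃ₜ ℂ, ∀ z, H z = w8 * z :=
    ⟨Homeomorph.mulLeft₀ w8 w8_ne, fun _ => rfl⟩
  have : {z | w8 * z ∈ K} = H ⁻¹' K := by
    ext z
    rw [mem_preimage, hH]
    rfl
  rw [this]
  exact H.isCompact_preimage.2 hK

theorem isCompact_sq (s : ℝ) (q : P2) : IsCompact (sq s q) := by
  refine Metric.isCompact_of_isClosed_isBounded (isClosed_sq s q) ?_
  refine isBounded_iff_forall_norm_le.2
    ⟨(|s * q.1| + |s * (q.1 + 1)|) + (|s * q.2| + |s * (q.2 + 1)|), fun z hz => ?_⟩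
  obtain ⟨h1, h2, h3, h4⟩ := hz
  refine norm_le_of_abs ?_ ?_
  · rw [abs_le]
    constructor
    · linarith [neg_abs_le (s * (q.1 : ℝ)), abs_nonneg (s * ((q.1 : ℝ) + 1))]
    · linarith [le_abs_self (s * ((q.1 : ℝ) + 1)), abs_nonneg (s * (q.1 : ℝ))]
  · rw [abs_le]
    constructor
    · linarith [neg_abs_le (s * (q.2 : ℝ)), abs_nonneg (s * ((q.2 : ℝ) + 1))]
    · linarith [le_abs_self (s * ((q.2 : ℝ) + 1)), abs_nonneg (s * (q.2 : ℝ))]

theorem isCompact_ed (s : ℝ) (a b : P2) : IsCompact (ed s a b) := by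
  unfold ed
  rw [segment_eq_image]
  exact isCompact_Icc.image (by fun_prop)

section ev

variable {γ : ℝ → ℂ} {γs : ℕ → ℝ → ℂ} {δ : ℕ → ℝ} (hγ : IsJordanCurve γ)
  (hne : (jordanInterior γ).Nonempty)
  (hγs : ∀ n, IsJordanCurve (γs n)) (hu : TendstoUniformlyOn γs γ atTop (Icc 0 1))
  (hδ : ∀ n, 0 < δ n) (hδ0 : Tendsto δ atTop (𝓝 0))

include hγ hne hγs hu hδ hδ0

/-- **The metric facts for a sandwich polygon**: `T1`, `T3` are cut off. -/
theorem env_ev {T1 T2 T3 T4 : Set ℝ} (h1 : IsClosed T1) (h3 : IsClosed T3) (h1' : T1 ⊆ Icc 0 1)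
    (h3' : T3 ⊆ Icc 0 1) (hcov : ∀ t ∈ Icc (0:ℝ) 1, t ∈ T2 ∨ t ∈ T4 ∨ t ∈ T1 ∪ T3) {e s : ℝ}
    {F : Set P2} {N : ℕ} {v : ℕ → P2} {mb mc md : ℕ}
    (hsep : ∀ t ∈ T2, ∀ t' ∈ T4, 5 * e ≤ ‖γ t - γ t'‖)
    (hP : SPoly ((fun t => w8 * γ t) '' T1) ((fun t => w8 * γ t) '' T2)
      ((fun t => w8 * γ t) '' T3) ((fun t => w8 * γ t) '' T4)
      (jordanInterior fun t => w8 * γ t) e s F N v mb mc md) (k : ℕ) :
    ∀ᶠ n in atTop, Loc (δ n) (γs n) T2 T4 (Nk (k + 1) (DT F (Ls s (δ n))))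
        (fun f => NT γ T2 (2 * e) (pf (δ n) f)) (fun f => NT γ T4 (2 * e) (pf (δ n) f)) ∧
      (∀ f ∈ Nk k (arcT (Ls s (δ n)) v mb mc), NT γ T2 (2 * e) (pf (δ n) f) ∧
        pf (δ n) f ∉ jordanInterior (γs n) ∪ curveTrace (γs n)) ∧
      ∀ f ∈ Nk k (arcT (Ls s (δ n)) v md N), NT γ T4 (2 * e) (pf (δ n) f) ∧
        pf (δ n) f ∉ jordanInterior (γs n) ∪ curveTrace (γs n) := by
  have he : 0 < e := hP.s_pos.trans hP.s_lt
  have hcl := closure_ji hγ hne
  -- the region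
  have hK : IsCompact (⋃ q ∈ F, sq s q) := hP.fin.isCompact_biUnion fun q _ => isCompact_sq s q
  have hKP : IsCompact (⋃ m ∈ Icc mb mc, ed s (v m) (v (m + 1))) :=
    (finite_Icc mb mc).isCompact_biUnion fun m _ => isCompact_ed s _ _
  have hKQ : IsCompact (⋃ m ∈ Icc md N, ed s (v m) (v (m + 1))) :=
    (finite_Icc md N).isCompact_biUnion fun m _ => isCompact_ed s _ _
  have hloc := loc_ev hγ hγs hu hδ hδ0 (TP := T2) (TQ := T4) (TM := T1 ∪ T3) (h1.union h3)
    (union_subset h1' h3') hcov he hsep (compact_pre hK) (by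
      rintro z hz t ht rfl
      obtain ⟨q, hq, hzq⟩ := mem_iUnion₂.1 (show w8 * γ t ∈ ⋃ q ∈ F, sq s q from hz)
      have hd := disjoint_left.1 (hP.miss q hq) hzq
      rcases ht with ht | ht
      · exact hd (Or.inl ⟨t, ht, rfl⟩)
      · exact hd (Or.inr ⟨t, ht, rfl⟩)) (by
      intro z hz hzD
      obtain ⟨q, hq, hzq⟩ := mem_iUnion₂.1 (show w8 * z ∈ ⋃ q ∈ F, sq s q from hz)
      have hzD' : w8 * z ∉ jordanInterior fun t => w8 * γ t := by
        rw [ji_rot w8_ne]; exact hzD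
      rcases hP.outer q hq _ hzq hzD' with h | h
      · exact Or.inl (nr_w8.1 h)
      · exact Or.inr (nr_w8.1 h)) (Φ := fun n => Nk (k + 1) (DT F (Ls s (δ n)))) (fun η hη =>
      approx hδ hδ0 hP.s_pos hK.isBounded (S := fun n => DT F (Ls s (δ n)))
        (fun n hL y hy => DT_mem hP.s_pos hL hy) (k + 1) hη)
  have hout : ∀ z, w8 * z ∉ closure (jordanInterior fun t => w8 * γ t) →
      z ∉ jordanInterior γ ∪ curveTrace γ := by
    intro z hz
    rw [closure_ji_rot w8_ne, hcl] at hz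
    exact hz
  have hend1 := end_ev hγ hγs hu he (compact_pre hKP) (TP := T2) (by
      intro z hz
      obtain ⟨m, hm, hzm⟩ := mem_iUnion₂.1
        (show w8 * z ∈ ⋃ m ∈ Icc mb mc, ed s (v m) (v (m + 1)) from hz)
      exact hout z (hP.arcB m hm.1 hm.2 _ hzm).1) (by
      intro z hz
      obtain ⟨m, hm, hzm⟩ := mem_iUnion₂.1
        (show w8 * z ∈ ⋃ m ∈ Icc mb mc, ed s (v m) (v (m + 1)) from hz)
      exact nr_w8.1 (hP.arcB m hm.1 hm.2 _ hzm).2)
      (Φ := fun n => Nk k (arcT (Ls s (δ n)) v mb mc)) (fun η hη =>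
      approx hδ hδ0 hP.s_pos hKP.isBounded (S := fun n => arcT (Ls s (δ n)) v mb mc)
        (fun n hL y hy => arcT_mem hL hy) k hη)
  have hend2 := end_ev hγ hγs hu he (compact_pre hKQ) (TP := T4) (by
      intro z hz
      obtain ⟨m, hm, hzm⟩ := mem_iUnion₂.1
        (show w8 * z ∈ ⋃ m ∈ Icc md N, ed s (v m) (v (m + 1)) from hz)
      exact hout z (hP.arcE m hm.1 hm.2 _ hzm).1) (by
      intro z hz
      obtain ⟨m, hm, hzm⟩ := mem_iUnion₂.1
        (show w8 * z ∈ ⋃ m ∈ Icc md N, ed s (v m) (v (m + 1)) from hz)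
      exact nr_w8.1 (hP.arcE m hm.1 hm.2 _ hzm).2)
      (Φ := fun n => Nk k (arcT (Ls s (δ n)) v md N)) (fun η hη =>
      approx hδ hδ0 hP.s_pos hKQ.isBounded (S := fun n => arcT (Ls s (δ n)) v md N)
        (fun n hL y hy => arcT_mem hL hy) k hη)
  filter_upwards [hloc, hend1, hend2] with n a1 a2 a3
  exact ⟨a1, a2, a3⟩

end ev

/-! ### paths of faces -/

/-- faces of parity `p` joined through tiles of `Q` from `S` to `S'` -/
def XF (p : ℤ) (Q S S' : Set P2) : Set TF :=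
  {g | ∃ f0 f1 : P2, (f0.1 + f0.2) % 2 = p ∧ f0 ∈ S ∧ f1 ∈ S' ∧ FP g (fun t => t ∈ Q) f0 f1}

theorem XF_symm {p : ℤ} {Q S S' : Set P2} {g : TF} (h : g ∈ XF p Q S S') : g ∈ XF p Q S' S := by
  obtain ⟨f0, f1, h1, h2, h3, h4⟩ := h
  refine ⟨f1, f0, ?_, h3, h2, h4.symm⟩
  rw [← h1]
  clear h1 h2 h3
  induction h4 with
  | refl => rfl
  | tail _ h2 ih => rw [← ih]; exact h2.1.par.symm



theorem face_tile (e : Edge) (f : P2) (hf : f = prim (src e) ∨ f = prim (tgt e) ∨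
    f = dufc (fA e) ∨ f = dufc (fB e)) : |f.1 - (tE e).1| ≤ 1 ∧ |f.2 - (tE e).2| ≤ 1 := by
  obtain ⟨⟨a, b⟩, x⟩ := e
  cases x
  · simp only [src_mk, tgt_h, fA_mk, fB_h, prim, dufc, tE_h] at hf ⊢
    rcases hf with rfl | rfl | rfl | rfl <;> simp only [abs_le] <;> omega
  · simp only [src_mk, tgt_v, fA_mk, fB_v, prim, dufc, tE_v] at hf ⊢
    rcases hf with rfl | rfl | rfl | rfl <;> simp only [abs_le] <;> omega

variable {d : ℝ} {c : ℝ → ℂ} {NP NQ : P2 → Prop}

theorem Loc.swap {TP TQ : Set ℝ} {Φ : Set P2} (h : Loc d c TP TQ Φ NP NQ) :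
    Loc d c TQ TP Φ NQ NP :=
  ⟨fun f hf t ht hft => (h.tr f hf t ht hft).symm, fun f hf hfi => (h.out f hf hfi).symm,
    fun f g hfg h1 h2 => h.sep g f (hfg.elim (fun h => Or.inl h.symm) fun h => Or.inr h.symm) h2 h1⟩

/-- even face paths give literal crossings -/
theorem even_lit (hd : 0 < d) (hg : IsGridPolygon d c) {TP TQ : Set ℝ} {k : ℕ} {Q S S' : Set P2}
    (hL : Loc d c TP TQ (Nk (k + 1) Q) NP NQ)
    (hS : ∀ f ∈ S, NP f ∧ pf d f ∉ jordanInterior c ∪ curveTrace c)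
    (hS' : ∀ f ∈ S', NQ f ∧ pf d f ∉ jordanInterior c ∪ curveTrace c) {g : TF}
    (hgX : g ∈ XF 0 (Nk k Q) S S') :
    ∃ a b : P2, gridPoint d a ∈ c '' TP ∧ gridPoint d b ∈ c '' TQ ∧ FP g (RE d c) (prim a) (prim b) := by
  obtain ⟨f0, f1, h1, h2, h3, h4⟩ := hgX
  obtain ⟨u0, rfl⟩ := exists_prim h1
  have h5 := (fp_even (prim_par u0)).1 h4
  obtain ⟨u1, rfl⟩ := exists_prim (F := f1) (by rw [← h5.parity]; exact prim_par u0)
  rw [tp_prim_iff] at h5
  obtain ⟨a, b, ha, hb, hab⟩ := even_cross hd hg hL (Z := fun e => tE e ∈ Nk k Q ∧ xg g (tE e) = true)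
    (fun e he => ⟨Nk.grow he.1 (face_tile e _ (Or.inl rfl)).1 (face_tile e _ (Or.inl rfl)).2,
      Nk.grow he.1 (face_tile e _ (Or.inr (Or.inl rfl))).1 (face_tile e _ (Or.inr (Or.inl rfl))).2⟩)
    h5 (hS _ h2).1 (fun h => (hS _ h2).2 (Or.inl (by rw [pf_prim]; exact h))) (hS' _ h3).1
    (fun h => (hS' _ h3).2 (by rw [pf_prim]; exact h))
  refine ⟨a, b, ha, hb, fp_prim.2 ?_⟩
  refine Relation.ReflTransGen.mono (fun x y h => ?_) _ _ hab
  obtain ⟨e, he, h6⟩ := h
  refine ⟨e, ⟨he.1.2, ?_⟩, h6⟩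
  have h7 : RG d c e := he.2
  unfold Spl331.RE
  rw [Equiv.symm_apply_apply]
  exact h7

/-- odd face paths block literal crossings -/
theorem odd_lit (hd : 0 < d) (hg : IsGridPolygon d c) {k : ℕ} {Q S S' : Set P2}
    (hL : Loc d c (Icc (1 / 4) (1 / 2)) (Icc (3 / 4) 1) (Nk (k + 1) Q) NP NQ)
    (hS : ∀ f ∈ S, NP f ∧ pf d f ∉ jordanInterior c ∪ curveTrace c)
    (hS' : ∀ f ∈ S', NQ f ∧ pf d f ∉ jordanInterior c ∪ curveTrace c) {g : TF}
    (hgX : g ∈ XF 1 (Nk k Q) S S') : g ∉ Lit d c := by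
  rintro ⟨a, b, ha, hb, hab⟩
  obtain ⟨f0, f1, h1, h2, h3, h4⟩ := hgX
  obtain ⟨c0, rfl⟩ := exists_dufc h1
  have h5 := (fp_odd (dufc_par c0)).1 h4
  obtain ⟨c1, rfl⟩ := exists_dufc (F := f1) (by rw [← h5.parity]; exact dufc_par c0)
  rw [tp_dufc_iff] at h5
  rw [fp_prim] at hab
  refine odd_block hd hg hL (Z := fun e => xg g (tE e) = true)
    (Z' := fun e => tE e ∈ Nk k Q ∧ xg g (tE e) = false) (fun e he h => ?_)
    (fun e he => ⟨Nk.grow he.1 (face_tile e _ (Or.inr (Or.inr (Or.inl rfl)))).1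
        (face_tile e _ (Or.inr (Or.inr (Or.inl rfl)))).2,
      Nk.grow he.1 (face_tile e _ (Or.inr (Or.inr (Or.inr rfl)))).1
        (face_tile e _ (Or.inr (Or.inr (Or.inr rfl)))).2⟩)
    h5 (hS _ h2).1 (fun h => (hS _ h2).2 (Or.inl h)) (hS' _ h3).1
    (fun h => (hS' _ h3).2 (Or.inl h)) ha hb ?_
  · rw [he.2] at h
    exact Bool.false_ne_true h
  · refine Relation.ReflTransGen.mono (fun x y h => ?_) _ _ hab
    obtain ⟨e, he, h6⟩ := h
    refine ⟨e, ⟨he.1, ?_⟩, h6⟩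
    have h7 := he.2
    unfold Spl331.RE at h7
    rw [Equiv.symm_apply_apply] at h7
    exact h7

theorem lit_symm {g : TF} {TP TQ : Set ℝ}
    (h : ∃ a b : P2, gridPoint d a ∈ c '' TP ∧ gridPoint d b ∈ c '' TQ ∧
      FP g (RE d c) (prim a) (prim b)) :
    ∃ a b : P2, gridPoint d a ∈ c '' TQ ∧ gridPoint d b ∈ c '' TP ∧
      FP g (RE d c) (prim a) (prim b) := by
  obtain ⟨a, b, h1, h2, h3⟩ := h
  exact ⟨b, a, h2, h1, h3.symm⟩

/-! ### the four arcs -/


/-- distance of two disjoint arcs -/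
theorem arc_sep {γ : ℝ → ℂ} (hγ : IsJordanCurve γ) {T T' : Set ℝ} (hT : IsClosed T)
    (hT' : IsClosed T') (hT1 : T ⊆ Icc 0 1) (hT1' : T' ⊆ Icc 0 1)
    (hd : ∀ t ∈ T, ∀ t' ∈ T', γ t ≠ γ t') :
    ∃ e0 : ℝ, 0 < e0 ∧ ∀ e ≤ e0, ∀ t ∈ T, ∀ t' ∈ T', 5 * e ≤ ‖γ t - γ t'‖ := by
  have h1 : IsCompact (γ '' T) :=
    (isCompact_Icc.of_isClosed_subset hT hT1).image_of_continuousOn (hγ.1.mono hT1)
  have h2 : IsCompact (γ '' T') :=
    (isCompact_Icc.of_isClosed_subset hT' hT1').image_of_continuousOn (hγ.1.mono hT1')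
  obtain ⟨η, hη, h⟩ := sep_compact h1 h2 (by
    rw [disjoint_left]
    rintro _ ⟨t, ht, rfl⟩ ⟨t', ht', h⟩
    exact hd t ht t' ht' h.symm)
  refine ⟨η / 5, by linarith, fun e he t ht t' ht' => ?_⟩
  have := h _ ⟨t, ht, rfl⟩ _ ⟨t', ht', rfl⟩
  linarith

theorem ne_BE {γ : ℝ → ℂ} (hγ : IsJordanCurve γ) : ∀ t ∈ Icc (1/4 : ℝ) (1/2),
    ∀ t' ∈ Icc (3/4 : ℝ) 1, γ t ≠ γ t' := by
  intro t ht t' ht' h
  rcases ht'.2.lt_or_eq with h1 | h1
  · have := hγ.2.1 ⟨by linarith [ht.1], by linarith [ht.2]⟩ ⟨by linarith [ht'.1], h1⟩ h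
    linarith [ht.2, ht'.1]
  · rw [h1, ← hγ.2.2] at h
    have := hγ.2.1 ⟨by linarith [ht.1], by linarith [ht.2]⟩ ⟨le_rfl, zero_lt_one⟩ h
    linarith [ht.1]

theorem ne_AC {γ : ℝ → ℂ} (hγ : IsJordanCurve γ) : ∀ t ∈ Icc (0 : ℝ) (1/4),
    ∀ t' ∈ Icc (1/2 : ℝ) (3/4), γ t ≠ γ t' := by
  intro t ht t' ht' h
  have := hγ.2.1 ⟨ht.1, by linarith [ht.2]⟩ ⟨by linarith [ht'.1], by linarith [ht'.2]⟩ h
  linarith [ht.2, ht'.1]

section final

variable {γ : ℝ → ℂ} {γs : ℕ → ℝ → ℂ} {δ : ℕ → ℝ} (hγ : IsJordanCurve γ)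
  (hne : (jordanInterior γ).Nonempty)
  (hγs : ∀ n, IsGridPolygon (δ n) (γs n)) (hu : TendstoUniformlyOn γs γ atTop (Icc 0 1))
  (hδ : ∀ n, 0 < δ n) (hδ0 : Tendsto δ atTop (𝓝 0))

include hγ hne hγs hu hδ hδ0

/-- **(S+)**: in a polygon with the arcs `B`, `E` outside (either orientation), dual crossings
between them block the literal crossing. -/
theorem splus : ∃ e0 : ℝ, 0 < e0 ∧ ∀ (e s : ℝ) (F : Set P2) (N : ℕ) (v : ℕ → P2) (mb mc md : ℕ),
    e ≤ e0 →
    (SPoly (arc (fun t => w8 * γ t) 0 (1/4)) (arc (fun t => w8 * γ t) (1/4) (1/2))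
        (arc (fun t => w8 * γ t) (1/2) (3/4)) (arc (fun t => w8 * γ t) (3/4) 1)
        (jordanInterior fun t => w8 * γ t) e s F N v mb mc md ∨
     SPoly (arc (fun t => w8 * γ t) 0 (1/4)) (arc (fun t => w8 * γ t) (3/4) 1)
        (arc (fun t => w8 * γ t) (1/2) (3/4)) (arc (fun t => w8 * γ t) (1/4) (1/2))
        (jordanInterior fun t => w8 * γ t) e s F N v mb mc md) →
    ∀ k : ℕ, ∀ᶠ n in atTop,
      (∀ g ∈ XF 1 (Nk k (DT F (Ls s (δ n)))) (Nk k (arcT (Ls s (δ n)) v mb mc))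
        (Nk k (arcT (Ls s (δ n)) v md N)), g ∉ Lit (δ n) (γs n)) ∧
      (tau hf).real (XF 1 (Nk k (DT F (Ls s (δ n)))) (Nk k (arcT (Ls s (δ n)) v mb mc))
        (Nk k (arcT (Ls s (δ n)) v md N))) ≤ 1 - (arcCrossingProb (δ n) (γs n)).toReal := by
  obtain ⟨e0, he0, hsep⟩ := arc_sep hγ isClosed_Icc isClosed_Icc
    (Icc_subset_Icc (by norm_num) (by norm_num)) (Icc_subset_Icc (by norm_num) (by norm_num))
    (ne_BE hγ)
  refine ⟨e0, he0, fun e s F N v mb mc md he hP k => ?_⟩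
  have hcov1 : ∀ t ∈ Icc (0:ℝ) 1, t ∈ Icc (1/4 : ℝ) (1/2) ∨ t ∈ Icc (3/4 : ℝ) 1 ∨
      t ∈ Icc (0 : ℝ) (1/4) ∪ Icc (1/2) (3/4) := by
    intro t ht
    rcases le_total t (1/4) with h | h
    · exact Or.inr (Or.inr (Or.inl ⟨ht.1, h⟩))
    rcases le_total t (1/2) with h' | h'
    · exact Or.inl ⟨h, h'⟩
    rcases le_total t (3/4) with h'' | h''
    · exact Or.inr (Or.inr (Or.inr ⟨h', h''⟩))
    · exact Or.inr (Or.inl ⟨h'', ht.2⟩)
  have hA : Icc (0 : ℝ) (1/4) ⊆ Icc 0 1 := Icc_subset_Icc (by norm_num) (by norm_num)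
  have hC : Icc (1/2 : ℝ) (3/4) ⊆ Icc 0 1 := Icc_subset_Icc (by norm_num) (by norm_num)
  have key : ∀ᶠ n in atTop, ∀ g ∈ XF 1 (Nk k (DT F (Ls s (δ n))))
      (Nk k (arcT (Ls s (δ n)) v mb mc)) (Nk k (arcT (Ls s (δ n)) v md N)),
      g ∉ Lit (δ n) (γs n) := by
    rcases hP with hP | hP
    · filter_upwards [env_ev hγ hne (fun n => (hγs n).1) hu hδ hδ0 isClosed_Icc isClosed_Icc hA hC
        hcov1 (hsep e he) hP k] with n hn g hg
      exact odd_lit (hδ n) (hγs n) hn.1 hn.2.1 hn.2.2 hg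
    · filter_upwards [env_ev hγ hne (fun n => (hγs n).1) hu hδ hδ0 isClosed_Icc isClosed_Icc hA hC
        (fun t ht => by rcases hcov1 t ht with h | h | h
                        · exact Or.inr (Or.inl h)
                        · exact Or.inl h
                        · exact Or.inr (Or.inr h))
        (fun t ht t' ht' => by rw [norm_sub_rev]; exact hsep e he t' ht' t ht) hP k] with n hn g hg
      exact odd_lit (hδ n) (hγs n) hn.1.swap hn.2.2 hn.2.1 (XF_symm hg)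
  filter_upwards [key] with n hn
  exact ⟨hn, disj_lit hn⟩

/-- **(S-)**: in a polygon with the arcs `A`, `C` outside (either orientation), primal crossings
between them give the literal crossing. -/
theorem sminus : ∃ e0 : ℝ, 0 < e0 ∧ ∀ (e s : ℝ) (F : Set P2) (N : ℕ) (v : ℕ → P2) (mb mc md : ℕ),
    e ≤ e0 →
    (SPoly (arc (fun t => w8 * γ t) (1/4) (1/2)) (arc (fun t => w8 * γ t) (1/2) (3/4))
        (arc (fun t => w8 * γ t) (3/4) 1) (arc (fun t => w8 * γ t) 0 (1/4))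
        (jordanInterior fun t => w8 * γ t) e s F N v mb mc md ∨
     SPoly (arc (fun t => w8 * γ t) (1/4) (1/2)) (arc (fun t => w8 * γ t) 0 (1/4))
        (arc (fun t => w8 * γ t) (3/4) 1) (arc (fun t => w8 * γ t) (1/2) (3/4))
        (jordanInterior fun t => w8 * γ t) e s F N v mb mc md) →
    ∀ k : ℕ, ∀ᶠ n in atTop,
      (∀ g ∈ XF 0 (Nk k (DT F (Ls s (δ n)))) (Nk k (arcT (Ls s (δ n)) v mb mc))
        (Nk k (arcT (Ls s (δ n)) v md N)), g ∈ Lit (δ n) (γs n)) ∧
      (tau hf).real (XF 0 (Nk k (DT F (Ls s (δ n)))) (Nk k (arcT (Ls s (δ n)) v mb mc))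
        (Nk k (arcT (Ls s (δ n)) v md N))) ≤ (arcCrossingProb (δ n) (γs n)).toReal := by
  obtain ⟨e0, he0, hsep⟩ := arc_sep hγ isClosed_Icc isClosed_Icc
    (Icc_subset_Icc (by norm_num) (by norm_num)) (Icc_subset_Icc (by norm_num) (by norm_num))
    (ne_AC hγ)
  refine ⟨e0, he0, fun e s F N v mb mc md he hP k => ?_⟩
  have hcov1 : ∀ t ∈ Icc (0:ℝ) 1, t ∈ Icc (0 : ℝ) (1/4) ∨ t ∈ Icc (1/2 : ℝ) (3/4) ∨
      t ∈ Icc (1/4 : ℝ) (1/2) ∪ Icc (3/4) 1 := by
    intro t ht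
    rcases le_total t (1/4) with h | h
    · exact Or.inl ⟨ht.1, h⟩
    rcases le_total t (1/2) with h' | h'
    · exact Or.inr (Or.inr (Or.inl ⟨h, h'⟩))
    rcases le_total t (3/4) with h'' | h''
    · exact Or.inr (Or.inl ⟨h', h''⟩)
    · exact Or.inr (Or.inr (Or.inr ⟨h'', ht.2⟩))
  have hB : Icc (1/4 : ℝ) (1/2) ⊆ Icc 0 1 := Icc_subset_Icc (by norm_num) (by norm_num)
  have hE : Icc (3/4 : ℝ) 1 ⊆ Icc 0 1 := Icc_subset_Icc (by norm_num) (by norm_num)
  have key : ∀ᶠ n in atTop, ∀ g ∈ XF 0 (Nk k (DT F (Ls s (δ n))))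
      (Nk k (arcT (Ls s (δ n)) v mb mc)) (Nk k (arcT (Ls s (δ n)) v md N)),
      g ∈ Lit (δ n) (γs n) := by
    rcases hP with hP | hP
    · filter_upwards [env_ev hγ hne (fun n => (hγs n).1) hu hδ hδ0 isClosed_Icc isClosed_Icc hB hE
        (fun t ht => by rcases hcov1 t ht with h | h | h
                        · exact Or.inr (Or.inl h)
                        · exact Or.inl h
                        · exact Or.inr (Or.inr h))
        (fun t ht t' ht' => by rw [norm_sub_rev]; exact hsep e he t' ht' t ht) hP k] with n hn g hg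
      exact lit_symm (even_lit (hδ n) (hγs n) hn.1 hn.2.1 hn.2.2 hg)
    · filter_upwards [env_ev hγ hne (fun n => (hγs n).1) hu hδ hδ0 isClosed_Icc isClosed_Icc hB hE
        hcov1 (hsep e he) hP k] with n hn g hg
      exact even_lit (hδ n) (hγs n) hn.1 hn.2.1 hn.2.2 hg
  filter_upwards [key] with n hn
  exact ⟨hn, le_lit hn⟩

end final

end

end Crest.Agent.R158.Spl949
end

-- ▼ part R158/Spl6_949
section

/-!
# Row 158 (S0237), block SPL (helper949), file 6: existence of the polygons of (S+) and (S-)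
-/

set_option autoImplicit false

namespace Crest.Agent.R158.Spl949

open Set Filter Topology Metric Crest.Agent.R158.Jt785 Crest.Agent.R158.Sp896
open Crest.Agent.R158.Spl331 Crest.Agent.R161.Geo729
open Crest.ProbabilityR.Percolation

noncomputable section

variable {γ : ℝ → ℂ} {φ : ℂ → ℂ}

theorem unif_rot (h : Unif γ φ) : Unif (fun t => w8 * γ t) (fun z => φ (w8⁻¹ * z)) := by
  have hw := w8_ne
  have e1 : ∀ z, w8⁻¹ * (w8 * z) = z := fun z => by field_simp
  have e2 : ∀ z, w8 * (w8⁻¹ * z) = z := fun z => by field_simp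
  have hc : ∀ z, z ∈ closure (jordanInterior fun t => w8 * γ t) ↔
      w8⁻¹ * z ∈ closure (jordanInterior γ) := fun z => by
    have := closure_ji_rot (γ := γ) hw (w8⁻¹ * z)
    rwa [e2] at this
  refine ⟨jordan_rot hw h.jc, ?_, ?_, ?_⟩
  · exact h.cont.comp (by fun_prop) fun z hz => (hc z).1 hz
  · intro z hz z' hz' hzz
    have := h.inj ((hc z).1 hz) ((hc z').1 hz') hzz
    rw [← e2 z, this, e2]
  · rw [← h.img, ji_rot_eq hw, image_image]
    exact image_congr fun z _ => by rw [e1]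


/-- polygons for (S+) -/
theorem exists_up (h : Unif γ φ) {e s0 : ℝ} (he : 0 < e) (hs0 : 0 < s0) :
    ∃ (s : ℝ) (F : Set P2) (N : ℕ) (v : ℕ → P2) (mb mc md : ℕ), s < s0 ∧
      (SPoly (arc (fun t => w8 * γ t) 0 (1/4)) (arc (fun t => w8 * γ t) (1/4) (1/2))
          (arc (fun t => w8 * γ t) (1/2) (3/4)) (arc (fun t => w8 * γ t) (3/4) 1)
          (jordanInterior fun t => w8 * γ t) e s F N v mb mc md ∨
       SPoly (arc (fun t => w8 * γ t) 0 (1/4)) (arc (fun t => w8 * γ t) (3/4) 1)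
          (arc (fun t => w8 * γ t) (1/2) (3/4)) (arc (fun t => w8 * γ t) (1/4) (1/2))
          (jordanInterior fun t => w8 * γ t) e s F N v mb mc md) :=
  sp_exists (unif_rot h) he hs0

/-- polygons for (S-) -/
theorem exists_lo (h : Unif γ φ) {e s0 : ℝ} (he : 0 < e) (hs0 : 0 < s0) :
    ∃ (s : ℝ) (F : Set P2) (N : ℕ) (v : ℕ → P2) (mb mc md : ℕ), s < s0 ∧
      (SPoly (arc (fun t => w8 * γ t) (1/4) (1/2)) (arc (fun t => w8 * γ t) (1/2) (3/4))
          (arc (fun t => w8 * γ t) (3/4) 1) (arc (fun t => w8 * γ t) 0 (1/4))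
          (jordanInterior fun t => w8 * γ t) e s F N v mb mc md ∨
       SPoly (arc (fun t => w8 * γ t) (1/4) (1/2)) (arc (fun t => w8 * γ t) 0 (1/4))
          (arc (fun t => w8 * γ t) (3/4) 1) (arc (fun t => w8 * γ t) (1/2) (3/4))
          (jordanInterior fun t => w8 * γ t) e s F N v mb mc md) := by
  have hr := unif_rot h
  have h01 : (fun t => w8 * γ t) 0 = (fun t => w8 * γ t) 1 := hr.jc.2.2
  have h1 := sp_exists (sh_unif hr) he hs0
  have a1 : arc (sh fun t => w8 * γ t) 0 (1/4) = arc (fun t => w8 * γ t) (1/4) (1/2) := sh_A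
  have a2 : arc (sh fun t => w8 * γ t) (1/4) (1/2) = arc (fun t => w8 * γ t) (1/2) (3/4) := sh_B
  have a3 : arc (sh fun t => w8 * γ t) (1/2) (3/4) = arc (fun t => w8 * γ t) (3/4) 1 := sh_C h01
  have a4 : arc (sh fun t => w8 * γ t) (3/4) 1 = arc (fun t => w8 * γ t) 0 (1/4) := sh_E
  rw [a1, a2, a3, a4, sh_ji h01] at h1
  exact h1

end

end Crest.Agent.R158.Spl949
end

-- ▼ part R158/Tg3_331
section

/-!
# Row 158 (S0237), BLOCK GEO (helper331), file 3: (A) polygons `P4` with `PolyOK` from `SPoly`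

* `NB J e s F N v mb mc md` : the metric facts; `NB.of_up`, `NB.of_lo`, `NB.of_lo2`
* `toP`, `NB.polyOK`
* `poly_up`, `poly_lo` : existence, with the `SPoly` data in 949's form
-/

set_option autoImplicit false

open Set Topology Filter Metric
open Crest Crest.ProbabilityR Crest.ProbabilityR.Percolation
open Crest.Agent.R158.Sp896 Crest.Agent.R158.Tj656 Crest.Agent.R158.Jt785
open Crest.Agent.R158.Spl331 Crest.Agent.R158.Spl949

namespace Crest.Agent.R158.Tg331

noncomputable section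

theorem w8_eq : w8 = ww := by
  unfold w8 ww
  apply Complex.ext
  · rw [Complex.exp_ofReal_mul_I_re, Real.cos_pi_div_four]
  · rw [Complex.exp_ofReal_mul_I_im, Real.sin_pi_div_four]

/-- polyomino approximation of a Jordan curve with four marks (marked edges `0, mb, mc, md`) -/
structure NB (J : ℝ → ℂ) (e s : ℝ) (F : Set V) (N : ℕ) (v : ℕ → V) (mb mc md : ℕ) : Prop where
  s_pos : 0 < s
  s_lt : s < e
  fin : F.Finite
  con : ∀ q ∈ F, ∀ q' ∈ F, Con F q q'
  con' : ∀ q ∉ F, ∀ q' ∉ F, Con Fᶜ q q'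
  cyc : Cyc F N v
  ord1 : 0 < mb
  ord2 : mb < mc
  ord3 : mc < md
  ord4 : md < N
  arc0 : ∀ m ≤ mb, ∀ z ∈ ed s (v m) (v (m + 1)), Nr e (arc J 0 (1 / 4)) z
  arc1 : ∀ m, mb ≤ m → m ≤ mc → ∀ z ∈ ed s (v m) (v (m + 1)), Nr e (arc J (1 / 4) (1 / 2)) z
  arc2 : ∀ m, mc ≤ m → m ≤ md → ∀ z ∈ ed s (v m) (v (m + 1)), Nr e (arc J (1 / 2) (3 / 4)) z
  arc3 : ∀ m, md ≤ m → m ≤ N → ∀ z ∈ ed s (v m) (v (m + 1)), Nr e (arc J (3 / 4) 1) z
  cover : ∀ z ∈ jordanInterior J, (∀ t ∈ Icc (0 : ℝ) 1, e ≤ ‖z - J t‖) → z ∈ Om s F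
  near : ∀ t ∈ Icc (0 : ℝ) 1, ∃ q ∉ F, ∀ w ∈ sq s q, ‖w - J t‖ < e

theorem not_nr {J : ℝ → ℂ} {e a b : ℝ} (ha : 0 ≤ a) (hb : b ≤ 1) {z : ℂ}
    (h : ∀ t ∈ Icc (0 : ℝ) 1, e ≤ ‖z - J t‖) : ¬ Nr e (arc J a b) z := by
  rintro ⟨_, ⟨t, ht, rfl⟩, h1⟩
  exact absurd h1 (not_lt.2 (h t ⟨ha.trans ht.1, ht.2.trans hb⟩))

theorem arc_cases (J : ℝ → ℂ) {t : ℝ} (ht : t ∈ Icc (0 : ℝ) 1) :
    J t ∈ arc J 0 (1 / 4) ∨ J t ∈ arc J (1 / 4) (1 / 2) ∨ J t ∈ arc J (1 / 2) (3 / 4) ∨
      J t ∈ arc J (3 / 4) 1 := by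
  rcases le_total t (1 / 4) with h1 | h1
  · exact Or.inl ⟨t, ⟨ht.1, h1⟩, rfl⟩
  rcases le_total t (1 / 2) with h2 | h2
  · exact Or.inr (Or.inl ⟨t, ⟨h1, h2⟩, rfl⟩)
  rcases le_total t (3 / 4) with h3 | h3
  · exact Or.inr (Or.inr (Or.inl ⟨t, ⟨h2, h3⟩, rfl⟩))
  · exact Or.inr (Or.inr (Or.inr ⟨t, ⟨h3, ht.2⟩, rfl⟩))

variable {J : ℝ → ℂ} {e s : ℝ} {F : Set V} {N : ℕ} {v : ℕ → V} {mb mc md : ℕ}

/-- the UP family -/
theorem NB.of_up (h : SPoly (arc J 0 (1 / 4)) (arc J (1 / 4) (1 / 2)) (arc J (1 / 2) (3 / 4))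
    (arc J (3 / 4) 1) (jordanInterior J) e s F N v mb mc md) : NB J e s F N v mb mc md where
  s_pos := h.s_pos
  s_lt := h.s_lt
  fin := h.fin
  con := h.con
  con' := h.con'
  cyc := h.cyc
  ord1 := h.ord1
  ord2 := h.ord2
  ord3 := h.ord3
  ord4 := h.ord4
  arc0 := h.arcA
  arc1 := fun m h1 h2 z hz => (h.arcB m h1 h2 z hz).2
  arc2 := h.arcC
  arc3 := fun m h1 h2 z hz => (h.arcE m h1 h2 z hz).2
  cover := fun z hz hn => h.cover z (subset_closure hz) (not_nr le_rfl (by norm_num) hn)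
    (not_nr (by norm_num) (by norm_num) hn)
  near := by
    intro t ht
    refine h.near (J t) ?_
    rcases arc_cases J ht with h1 | h1 | h1 | h1
    · exact Or.inl (Or.inl (Or.inl h1))
    · exact Or.inl (Or.inl (Or.inr h1))
    · exact Or.inl (Or.inr h1)
    · exact Or.inr h1

/-- the LO family, first alternative, rotated by `md` -/
theorem NB.of_lo (h : SPoly (arc J (1 / 4) (1 / 2)) (arc J (1 / 2) (3 / 4)) (arc J (3 / 4) 1)
    (arc J 0 (1 / 4)) (jordanInterior J) e s F N v mb mc md) :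
    NB J e s F N (fun i => v (i + md)) (N - md) (N - md + mb) (N - md + mc) where
  s_pos := h.s_pos
  s_lt := h.s_lt
  fin := h.fin
  con := h.con
  con' := h.con'
  cyc := h.cyc.rot md
  ord1 := by have := h.ord4; omega
  ord2 := by have := h.ord1; omega
  ord3 := by have := h.ord2; omega
  ord4 := by have := h.ord3; have := h.ord4; omega
  arc0 := by
    intro m hm z hz
    have h4 := h.ord4
    refine (h.arcE (m + md) (by omega) (by omega) z ?_).2
    rw [show m + md + 1 = m + 1 + md by omega]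
    exact hz
  arc1 := by
    intro m h1 h2 z hz
    have h4 := h.ord4
    refine h.arcA (m - (N - md)) (by omega) z ?_
    have e1 : v (m + md) = v (m - (N - md)) := by
      rw [← h.cyc.per (m - (N - md))]; congr 1; omega
    have e2 : v (m + 1 + md) = v (m - (N - md) + 1) := by
      rw [← h.cyc.per (m - (N - md) + 1)]; congr 1; omega
    simp only [e1, e2] at hz
    exact hz
  arc2 := by
    intro m h1 h2 z hz
    have h4 := h.ord4
    refine (h.arcB (m - (N - md)) (by omega) (by omega) z ?_).2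
    have e1 : v (m + md) = v (m - (N - md)) := by
      rw [← h.cyc.per (m - (N - md))]; congr 1; omega
    have e2 : v (m + 1 + md) = v (m - (N - md) + 1) := by
      rw [← h.cyc.per (m - (N - md) + 1)]; congr 1; omega
    simp only [e1, e2] at hz
    exact hz
  arc3 := by
    intro m h1 h2 z hz
    have h4 := h.ord4
    refine h.arcC (m - (N - md)) (by omega) (by omega) z ?_
    have e1 : v (m + md) = v (m - (N - md)) := by
      rw [← h.cyc.per (m - (N - md))]; congr 1; omega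
    have e2 : v (m + 1 + md) = v (m - (N - md) + 1) := by
      rw [← h.cyc.per (m - (N - md) + 1)]; congr 1; omega
    simp only [e1, e2] at hz
    exact hz
  cover := fun z hz hn => h.cover z (subset_closure hz) (not_nr (by norm_num) (by norm_num) hn)
    (not_nr (by norm_num) le_rfl hn)
  near := by
    intro t ht
    refine h.near (J t) ?_
    rcases arc_cases J ht with h1 | h1 | h1 | h1
    · exact Or.inr h1
    · exact Or.inl (Or.inl (Or.inl h1))
    · exact Or.inl (Or.inl (Or.inr h1))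
    · exact Or.inl (Or.inr h1)

/-- the LO family, second alternative (for the reversed curve), rotated by `mb` -/
theorem NB.of_lo2 (h : SPoly (arc J (3 / 4) 1) (arc J 0 (1 / 4)) (arc J (1 / 4) (1 / 2))
    (arc J (1 / 2) (3 / 4)) (jordanInterior J) e s F N v mb mc md) :
    NB J e s F N (fun i => v (i + mb)) (mc - mb) (md - mb) (N - mb) where
  s_pos := h.s_pos
  s_lt := h.s_lt
  fin := h.fin
  con := h.con
  con' := h.con'
  cyc := h.cyc.rot mb
  ord1 := by have := h.ord2; omega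
  ord2 := by have := h.ord2; have := h.ord3; omega
  ord3 := by have := h.ord2; have := h.ord3; have := h.ord4; omega
  ord4 := by have := h.ord1; have := h.ord2; have := h.ord3; have := h.ord4; omega
  arc0 := by
    intro m hm z hz
    have h2 := h.ord2
    refine (h.arcB (m + mb) (by omega) (by omega) z ?_).2
    rw [show m + mb + 1 = m + 1 + mb by omega]
    exact hz
  arc1 := by
    intro m h1 h2 z hz
    have h3 := h.ord2
    have h4 := h.ord3
    refine h.arcC (m + mb) (by omega) (by omega) z ?_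
    rw [show m + mb + 1 = m + 1 + mb by omega]
    exact hz
  arc2 := by
    intro m h1 h2 z hz
    have h3 := h.ord2
    have h4 := h.ord3
    have h5 := h.ord4
    refine (h.arcE (m + mb) (by omega) (by omega) z ?_).2
    rw [show m + mb + 1 = m + 1 + mb by omega]
    exact hz
  arc3 := by
    intro m h1 h2 z hz
    have h3 := h.ord2
    have h4 := h.ord3
    have h5 := h.ord4
    refine h.arcA (m - (N - mb)) (by omega) z ?_
    have e1 : v (m + mb) = v (m - (N - mb)) := by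
      rw [← h.cyc.per (m - (N - mb))]; congr 1; omega
    have e2 : v (m + 1 + mb) = v (m - (N - mb) + 1) := by
      rw [← h.cyc.per (m - (N - mb) + 1)]; congr 1; omega
    simp only [e1, e2] at hz
    exact hz
  cover := fun z hz hn => h.cover z (subset_closure hz) (not_nr (by norm_num) le_rfl hn)
    (not_nr (by norm_num) (by norm_num) hn)
  near := by
    intro t ht
    refine h.near (J t) ?_
    rcases arc_cases J ht with h1 | h1 | h1 | h1
    · exact Or.inl (Or.inl (Or.inr h1))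
    · exact Or.inl (Or.inr h1)
    · exact Or.inr h1
    · exact Or.inl (Or.inl (Or.inl h1))

/-- the polygon -/
def toP (h : NB J e s F N v mb mc md) : P4 where
  F := h.fin.toFinset
  N := N
  v := v
  mb := mb
  mc := mc
  md := md
  con := fun q hq q' hq' => by
    rw [h.fin.coe_toFinset]
    exact h.con q (h.fin.mem_toFinset.1 hq) q' (h.fin.mem_toFinset.1 hq')
  con' := fun q hq q' hq' => by
    rw [h.fin.coe_toFinset]
    exact h.con' q (fun hh => hq (h.fin.mem_toFinset.2 hh)) q'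
      (fun hh => hq' (h.fin.mem_toFinset.2 hh))
  cyc := by rw [h.fin.coe_toFinset]; exact h.cyc
  h1 := h.ord1
  h2 := h.ord2
  h3 := h.ord3
  h4 := h.ord4

theorem toP_F (h : NB J e s F N v mb mc md) : (↑(toP h).F : Set V) = F := h.fin.coe_toFinset

theorem ept_mem (s : ℝ) (v : ℕ → V) (m : ℕ) {t : ℝ} (h0 : 0 ≤ t) (h1 : t ≤ 1) :
    (s : ℂ) * ept v m t ∈ ed s (v m) (v (m + 1)) := by
  unfold ed
  rw [segment_eq_image']
  refine ⟨t, ⟨h0, h1⟩, ?_⟩
  simp only [Complex.real_smul]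
  rw [ept, pt_smul s (v m), pt_smul s (v (m + 1))]
  ring

/-- **the metric facts** -/
theorem NB.polyOK {g : ℝ → ℂ} (h : NB (fun t => w8 * g t) e s F N v mb mc md) :
    PolyOK g e s (toP h) where
  s_pos := h.s_pos
  s_lt := h.s_lt
  arc := by
    have hN : v N = v 0 := by have := h.cyc.per 0; rwa [Nat.zero_add] at this
    have hN1 : v (N + 1) = v 1 := by have := h.cyc.per 1; rwa [Nat.add_comm] at this
    have key : ∀ a b : ℝ, ∀ z, Nr e (Sp896.arc (fun t => w8 * g t) a b) z →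
        ∃ t ∈ Icc a b, ‖z - ww * g t‖ < e := by
      rintro a b z ⟨_, ⟨t, ht, rfl⟩, h2⟩
      refine ⟨t, ht, ?_⟩
      rw [← w8_eq]
      exact h2
    intro j ζ hζ
    obtain ⟨m, t, h0, h1, hon, rfl⟩ := hζ
    have hm := ept_mem s v m h0.le h1.le
    have o1 := h.ord1
    have o2 := h.ord2
    have o3 := h.ord3
    have o4 := h.ord4
    fin_cases j
    · have hon' : (0 < m ∧ m < mb) ∨ (m = 0 ∧ 1 / 2 < t) ∨ (m = mb ∧ t < 1 / 2) := hon
      obtain ⟨t', ht', h7⟩ := key _ _ _ (h.arc0 m (by omega) _ hm)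
      exact ⟨t', by convert ht' using 2 <;> norm_num, h7⟩
    · have hon' : (mb < m ∧ m < mc) ∨ (m = mb ∧ 1 / 2 < t) ∨ (m = mc ∧ t < 1 / 2) := hon
      obtain ⟨t', ht', h7⟩ := key _ _ _ (h.arc1 m (by omega) (by omega) _ hm)
      exact ⟨t', by convert ht' using 2 <;> norm_num, h7⟩
    · have hon' : (mc < m ∧ m < md) ∨ (m = mc ∧ 1 / 2 < t) ∨ (m = md ∧ t < 1 / 2) := hon
      obtain ⟨t', ht', h7⟩ := key _ _ _ (h.arc2 m (by omega) (by omega) _ hm)
      exact ⟨t', by convert ht' using 2 <;> norm_num, h7⟩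
    · have hon' : (md < m ∧ m < N) ∨ (m = md ∧ 1 / 2 < t) ∨ (m = 0 ∧ t < 1 / 2) := hon
      rcases hon' with hh | hh | hh
      · obtain ⟨t', ht', h7⟩ := key _ _ _ (h.arc3 m (by omega) (by omega) _ hm)
        exact ⟨t', by convert ht' using 2 <;> norm_num, h7⟩
      · obtain ⟨t', ht', h7⟩ := key _ _ _ (h.arc3 m (by omega) (by omega) _ hm)
        exact ⟨t', by convert ht' using 2 <;> norm_num, h7⟩
      · obtain ⟨rfl, -⟩ := hh
        have hm' : (s : ℂ) * ept v 0 t ∈ ed s (v N) (v (N + 1)) := by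
          rw [hN, hN1]; exact hm
        obtain ⟨t', ht', h7⟩ := key _ _ _ (h.arc3 N o4.le le_rfl _ hm')
        exact ⟨t', by convert ht' using 2 <;> norm_num, h7⟩
  cover := by
    intro z hz hn
    rw [toP_F, ← w8_eq]
    refine h.cover (w8 * z) ((ji_rot w8_ne z).2 hz) ?_
    intro t ht
    show e ≤ ‖w8 * z - w8 * g t‖
    rw [← mul_sub, norm_mul, norm_w8, one_mul]
    exact hn t ht
  near := by
    intro t ht
    obtain ⟨q, hq, h2⟩ := h.near t ht
    obtain ⟨c, hc⟩ := sq_nonempty h.s_pos q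
    refine ⟨w8⁻¹ * c, ?_, ?_⟩
    · rw [toP_F, ← w8_eq, mul_inv_cancel_left₀ w8_ne]
      exact not_mem_om h.s_pos hq hc
    · have h5 := h2 c hc
      have h6 : ‖w8⁻¹ * c - g t‖ = ‖c - w8 * g t‖ := by
        have h7 : c - w8 * g t = w8 * (w8⁻¹ * c - g t) := by
          rw [mul_sub, mul_inv_cancel_left₀ w8_ne]
        rw [h7, norm_mul, norm_w8, one_mul]
      rw [h6]
      exact h5

section ex

variable {γ : ℝ → ℂ} {φ : ℂ → ℂ}

/-- **(A), UP family** -/
theorem poly_up (h : Unif γ φ) {e s0 : ℝ} (he : 0 < e) (hs0 : 0 < s0) :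
    ∃ (s : ℝ) (P : P4), s < s0 ∧
      ((PolyOK γ e s P ∧
        SPoly (arc (fun t => w8 * γ t) 0 (1/4)) (arc (fun t => w8 * γ t) (1/4) (1/2))
          (arc (fun t => w8 * γ t) (1/2) (3/4)) (arc (fun t => w8 * γ t) (3/4) 1)
          (jordanInterior fun t => w8 * γ t) e s ↑P.F P.N P.v P.mb P.mc P.md) ∨
       (PolyOK (rv γ) e s P ∧
        SPoly (arc (fun t => w8 * γ t) 0 (1/4)) (arc (fun t => w8 * γ t) (3/4) 1)
          (arc (fun t => w8 * γ t) (1/2) (3/4)) (arc (fun t => w8 * γ t) (1/4) (1/2))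
          (jordanInterior fun t => w8 * γ t) e s ↑P.F P.N P.v P.mb P.mc P.md)) := by
  obtain ⟨s, F, N, v, mb, mc, md, hs, h1⟩ := exists_up h he hs0
  rcases h1 with h1 | h1
  · refine ⟨s, toP (NB.of_up h1), hs, Or.inl ⟨(NB.of_up h1).polyOK, ?_⟩⟩
    rw [toP_F]
    exact h1
  · have h01 : (fun t => w8 * γ t) 0 = (fun t => w8 * γ t) 1 := (unif_rot h).jc.2.2
    have h2 : SPoly (arc (fun t => w8 * (rv γ) t) 0 (1/4)) (arc (fun t => w8 * (rv γ) t) (1/4) (1/2))
          (arc (fun t => w8 * (rv γ) t) (1/2) (3/4)) (arc (fun t => w8 * (rv γ) t) (3/4) 1)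
          (jordanInterior fun t => w8 * (rv γ) t) e s F N v mb mc md := by
      have e0 : (fun t => w8 * (rv γ) t) = rv (fun t => w8 * γ t) := rfl
      have a1 : arc (rv fun t => w8 * γ t) 0 (1/4) = arc (fun t => w8 * γ t) 0 (1/4) := rv_A
      have a2 : arc (rv fun t => w8 * γ t) (1/4) (1/2) = arc (fun t => w8 * γ t) (3/4) 1 := rv_B h01
      have a3 : arc (rv fun t => w8 * γ t) (1/2) (3/4) = arc (fun t => w8 * γ t) (1/2) (3/4) := rv_C
      have a4 : arc (rv fun t => w8 * γ t) (3/4) 1 = arc (fun t => w8 * γ t) (1/4) (1/2) := rv_E h01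
      rw [e0, a1, a2, a3, a4, rv_ji h01]
      exact h1
    refine ⟨s, toP (NB.of_up h2), hs, Or.inr ⟨(NB.of_up h2).polyOK, ?_⟩⟩
    rw [toP_F]
    exact h1

/-- **(A), LO family** -/
theorem poly_lo (h : Unif γ φ) {e s0 : ℝ} (he : 0 < e) (hs0 : 0 < s0) :
    ∃ (s : ℝ) (P : P4), s < s0 ∧
      ((PolyOK γ e s P ∧ ∃ (v0 : ℕ → V) (mb0 mc0 md0 : ℕ),
        SPoly (arc (fun t => w8 * γ t) (1/4) (1/2)) (arc (fun t => w8 * γ t) (1/2) (3/4))
          (arc (fun t => w8 * γ t) (3/4) 1) (arc (fun t => w8 * γ t) 0 (1/4))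
          (jordanInterior fun t => w8 * γ t) e s ↑P.F P.N v0 mb0 mc0 md0 ∧
        (∀ i, P.v i = v0 (i + md0)) ∧ P.mb + md0 = P.N ∧ P.mc = P.mb + mb0 ∧ P.md = P.mb + mc0) ∨
       (PolyOK (rv γ) e s P ∧ ∃ (v0 : ℕ → V) (mb0 mc0 md0 : ℕ),
        SPoly (arc (fun t => w8 * γ t) (1/4) (1/2)) (arc (fun t => w8 * γ t) 0 (1/4))
          (arc (fun t => w8 * γ t) (3/4) 1) (arc (fun t => w8 * γ t) (1/2) (3/4))
          (jordanInterior fun t => w8 * γ t) e s ↑P.F P.N v0 mb0 mc0 md0 ∧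
        (∀ i, P.v i = v0 (i + mb0)) ∧ P.mb + mb0 = mc0 ∧ P.mc + mb0 = md0 ∧ P.md + mb0 = P.N)) := by
  obtain ⟨s, F, N, v, mb, mc, md, hs, h1⟩ := exists_lo h he hs0
  rcases h1 with h1 | h1
  · refine ⟨s, toP (NB.of_lo h1), hs, Or.inl ⟨(NB.of_lo h1).polyOK, v, mb, mc, md, ?_, ?_, ?_, rfl, rfl⟩⟩
    · rw [toP_F]
      exact h1
    · exact fun i => rfl
    · show N - md + md = N
      have := h1.ord4
      omega
  · have h01 : (fun t => w8 * γ t) 0 = (fun t => w8 * γ t) 1 := (unif_rot h).jc.2.2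
    have h2 : SPoly (arc (fun t => w8 * (rv γ) t) (3/4) 1) (arc (fun t => w8 * (rv γ) t) 0 (1/4))
          (arc (fun t => w8 * (rv γ) t) (1/4) (1/2)) (arc (fun t => w8 * (rv γ) t) (1/2) (3/4))
          (jordanInterior fun t => w8 * (rv γ) t) e s F N v mb mc md := by
      have e0 : (fun t => w8 * (rv γ) t) = rv (fun t => w8 * γ t) := rfl
      have a1 : arc (rv fun t => w8 * γ t) 0 (1/4) = arc (fun t => w8 * γ t) 0 (1/4) := rv_A
      have a2 : arc (rv fun t => w8 * γ t) (1/4) (1/2) = arc (fun t => w8 * γ t) (3/4) 1 := rv_B h01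
      have a3 : arc (rv fun t => w8 * γ t) (1/2) (3/4) = arc (fun t => w8 * γ t) (1/2) (3/4) := rv_C
      have a4 : arc (rv fun t => w8 * γ t) (3/4) 1 = arc (fun t => w8 * γ t) (1/4) (1/2) := rv_E h01
      rw [e0, a1, a2, a3, a4, rv_ji h01]
      exact h1
    refine ⟨s, toP (NB.of_lo2 h2), hs,
      Or.inr ⟨(NB.of_lo2 h2).polyOK, v, mb, mc, md, ?_, fun i => rfl, ?_, ?_, ?_⟩⟩
    · rw [toP_F]
      exact h1
    · show mc - mb + mb = mc
      have := h1.ord2
      omega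
    · show md - mb + mb = md
      have := h1.ord2
      have := h1.ord3
      omega
    · show N - mb + mb = N
      have := h1.ord2
      have := h1.ord3
      have := h1.ord4
      omega

end ex

end

end Crest.Agent.R158.Tg331
end

-- ▼ part R158/Spl7_949
section

/-!
# Row 158 (S0237), block SPL (helper949), file 7: (S+) and (S-) in 656's frozen form
-/

set_option autoImplicit false

namespace Crest.Agent.R158.Spl949

open Set Filter Topology Metric MeasureTheory Crest.Agent.R158.Jt785 Crest.Agent.R158.Sp896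
open Crest.Agent.R158.Spl331 Crest.Agent.R161.Geo729 Crest.Agent.R158.Mr679
open Crest.Agent.R158.Cb771 Crest.Agent.R158.Rs689
open Crest.Agent.R158.Tj656 (P4 Sp Sm XP)
open Crest.ProbabilityR.Percolation

noncomputable section


theorem Ls_cast {s d : ℝ} (hs : 0 < s) (hd : 0 < d) : Tj656.Ls s d = ((Ls s d : ℕ) : ℤ) := by
  unfold Tj656.Ls Ls
  have h : 0 ≤ s / (Real.sqrt 2 * d) := by
    have := s2_pos
    positivity
  push_cast
  rw [Int.natCast_floor_eq_floor h]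

theorem Nk_sub {k : ℤ} {S S' : Set P2} (hS : S ⊆ S') : Tj656.Nk k S ⊆ Nk k.toNat S' := by
  rintro x ⟨y, hy, h1, h2⟩
  have h3 := abs_nonneg (x.1 - y.1)
  refine ⟨y, hS hy, ?_, ?_⟩
  · rw [Int.toNat_of_nonneg (h3.trans h1)]; exact h1
  · rw [Int.toNat_of_nonneg (h3.trans h1)]; exact h2

theorem DT_cast (F : Set P2) (L : ℕ) : Tj656.DT F (L : ℤ) = DT F L := rfl

theorem arcT_sub {L : ℕ} {v v0 : ℕ → P2} {c m0 m1 n0 n1 : ℕ} (hv : ∀ i, v i = v0 (i + c))
    (h0 : m0 + c = n0) (h1 : m1 + c = n1) : Tj656.arcT (L : ℤ) v m0 m1 ⊆ arcT L v0 n0 n1 := by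
  rintro f ⟨m, r, h2, h3, h4, h5, rfl⟩
  refine ⟨m + c, by omega, by omega, r.toNat, by omega, ?_⟩
  rw [Int.toNat_of_nonneg h4, hv, hv, show m + 1 + c = m + c + 1 by omega]

theorem arcT_per {L : ℕ} {v0 : ℕ → P2} {N m0 m1 : ℕ} (hv : ∀ i, v0 (i + N) = v0 i) :
    arcT L v0 (m0 + N) (m1 + N) ⊆ arcT L v0 m0 m1 := by
  rintro f ⟨m, h2, h3, r, h4, rfl⟩
  refine ⟨m - N, by omega, by omega, r, h4, ?_⟩
  have e1 : v0 m = v0 (m - N) := by
    conv_lhs => rw [show m = (m - N) + N by omega]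
    exact hv _
  have e2 : v0 (m + 1) = v0 (m - N + 1) := by
    conv_lhs => rw [show m + 1 = (m - N + 1) + N by omega]
    exact hv _
  rw [e1, e2]

section final

variable {γ : ℝ → ℂ} {γs : ℕ → ℝ → ℂ} {δ : ℕ → ℝ} (hγ : IsJordanCurve γ)
  (hne : (jordanInterior γ).Nonempty)
  (hγs : ∀ n, IsGridPolygon (δ n) (γs n)) (hu : TendstoUniformlyOn γs γ atTop (Icc 0 1))
  (hδ : ∀ n, 0 < δ n) (hδ0 : Tendsto δ atTop (𝓝 0))

include hγ hne hγs hu hδ hδ0

/-- **(S+) in 656's form** -/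
theorem sp_of : ∃ e0 : ℝ, 0 < e0 ∧ ∀ (e s : ℝ) (P : P4), e ≤ e0 →
    (SPoly (arc (fun t => w8 * γ t) 0 (1/4)) (arc (fun t => w8 * γ t) (1/4) (1/2))
        (arc (fun t => w8 * γ t) (1/2) (3/4)) (arc (fun t => w8 * γ t) (3/4) 1)
        (jordanInterior fun t => w8 * γ t) e s (↑P.F) P.N P.v P.mb P.mc P.md ∨
     SPoly (arc (fun t => w8 * γ t) 0 (1/4)) (arc (fun t => w8 * γ t) (3/4) 1)
        (arc (fun t => w8 * γ t) (1/2) (3/4)) (arc (fun t => w8 * γ t) (1/4) (1/2))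
        (jordanInterior fun t => w8 * γ t) e s (↑P.F) P.N P.v P.mb P.mc P.md) →
    Sp s P δ (fun n => (arcCrossingProb (δ n) (γs n)).toReal) := by
  obtain ⟨e0, he0, h⟩ := splus hγ hne hγs hu hδ hδ0
  refine ⟨e0, he0, fun e s P he hP k => ?_⟩
  have hs : 0 < s := hP.elim (fun h => h.s_pos) fun h => h.s_pos
  filter_upwards [h e s _ _ _ _ _ _ he hP k.toNat] with n hn
  refine le_trans ?_ hn.2
  unfold P4.pp
  refine measureReal_mono ?_
  rw [Ls_cast hs (hδ n)]
  rintro g ⟨f0, f1, h1, h2, h3, h4⟩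
  refine ⟨f0, f1, h1, Nk_sub (arcT_sub (c := 0) (fun i => rfl) rfl rfl) h3,
    Nk_sub (arcT_sub (c := 0) (fun i => rfl) rfl rfl) h4, ?_⟩
  exact FP.mono (fun t ht => ⟨Nk_sub (le_of_eq (DT_cast _ _)) ht, rfl⟩) h2

/-- **(S-) in 656's form, first alternative** (rotation by `md0`) -/
theorem sm_of1 : ∃ e0 : ℝ, 0 < e0 ∧ ∀ (e s : ℝ) (P : P4) (v0 : ℕ → P2) (mb0 mc0 md0 : ℕ), e ≤ e0 →
    SPoly (arc (fun t => w8 * γ t) (1/4) (1/2)) (arc (fun t => w8 * γ t) (1/2) (3/4))
      (arc (fun t => w8 * γ t) (3/4) 1) (arc (fun t => w8 * γ t) 0 (1/4))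
      (jordanInterior fun t => w8 * γ t) e s (↑P.F) P.N v0 mb0 mc0 md0 →
    (∀ i, P.v i = v0 (i + md0)) → P.mb + md0 = P.N → P.mc = P.mb + mb0 → P.md = P.mb + mc0 →
    Sm s P δ (fun n => (arcCrossingProb (δ n) (γs n)).toReal) := by
  obtain ⟨e0, he0, h⟩ := sminus hγ hne hγs hu hδ hδ0
  refine ⟨e0, he0, fun e s P v0 mb0 mc0 md0 he hP hv hb hc hd k => ?_⟩
  have hs : 0 < s := hP.s_pos
  filter_upwards [h e s _ _ _ _ _ _ he (Or.inl hP) k.toNat] with n hn
  refine le_trans ?_ hn.2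
  unfold P4.pm
  refine measureReal_mono ?_
  rw [Ls_cast hs (hδ n)]
  rintro g ⟨f0, f1, h1, h2, h3, h4⟩
  apply XF_symm
  refine ⟨f0, f1, h1, Nk_sub (arcT_sub hv (by omega) hb) h3, ?_, ?_⟩
  · refine Nk_sub ?_ h4
    refine (arcT_sub hv (n0 := mb0 + P.N) (n1 := mc0 + P.N) (by omega) (by omega)).trans ?_
    exact arcT_per hP.cyc.per
  · exact FP.mono (fun t ht => ⟨Nk_sub (le_of_eq (DT_cast _ _)) ht, rfl⟩) h2

/-- **(S-) in 656's form, second alternative** (rotation by `mb0`, `P` is a polygon for `rv γ`) -/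
theorem sm_of2 : ∃ e0 : ℝ, 0 < e0 ∧ ∀ (e s : ℝ) (P : P4) (v0 : ℕ → P2) (mb0 mc0 md0 : ℕ), e ≤ e0 →
    SPoly (arc (fun t => w8 * γ t) (1/4) (1/2)) (arc (fun t => w8 * γ t) 0 (1/4))
      (arc (fun t => w8 * γ t) (3/4) 1) (arc (fun t => w8 * γ t) (1/2) (3/4))
      (jordanInterior fun t => w8 * γ t) e s (↑P.F) P.N v0 mb0 mc0 md0 →
    (∀ i, P.v i = v0 (i + mb0)) → P.mb + mb0 = mc0 → P.mc + mb0 = md0 → P.md + mb0 = P.N →
    Sm s P δ (fun n => (arcCrossingProb (δ n) (γs n)).toReal) := by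
  obtain ⟨e0, he0, h⟩ := sminus hγ hne hγs hu hδ hδ0
  refine ⟨e0, he0, fun e s P v0 mb0 mc0 md0 he hP hv hb hc hd k => ?_⟩
  have hs : 0 < s := hP.s_pos
  filter_upwards [h e s _ _ _ _ _ _ he (Or.inr hP) k.toNat] with n hn
  refine le_trans ?_ hn.2
  unfold P4.pm
  refine measureReal_mono ?_
  rw [Ls_cast hs (hδ n)]
  rintro g ⟨f0, f1, h1, h2, h3, h4⟩
  refine ⟨f0, f1, h1, Nk_sub (arcT_sub hv (by omega) hb) h3, Nk_sub (arcT_sub hv hc hd) h4, ?_⟩
  exact FP.mono (fun t ht => ⟨Nk_sub (le_of_eq (DT_cast _ _)) ht, rfl⟩) h2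

end final

end

end Crest.Agent.R158.Spl949
end

-- ▼ part R158/Tj6_656
section

/-!
R158, Lean architect of S0237 (helper656), J2 part 6: `sandwich : Sandwich` (331, 949, 896) and
**`S0237_of : Q1 an → Q2 → Q3m → Q3p → S0237Body`**.
-/

set_option autoImplicit false

namespace Crest.Agent.R158.Tj656

open Filter Topology Set Metric MeasureTheory
open Crest Crest.ProbabilityR Crest.ProbabilityR.Percolation
open Crest.Agent.R158.Cd83
open Crest.Agent.R158.Jt785 (Unif)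
open Crest.Agent.R158.Spl331 (rv)
open Crest.Agent.R158.Sk656 (S0237Body)

theorem unif_of {γ : ℝ → ℂ} {φ : ℂ → ℂ} (C : CDat γ φ) : Unif γ φ := ⟨C.hγ, C.hc, C.hi, C.hD⟩

theorem sandwich : Sandwich := by
  intro γ φ C δ hδ hδ0 γs hγs hu
  have hU := unif_of C
  constructor
  · obtain ⟨e1, he1, h1⟩ := Spl949.sm_of1 C.hγ C.nonempty hγs hu hδ hδ0
    obtain ⟨e2, he2, h2⟩ := Spl949.sm_of2 C.hγ C.nonempty hγs hu hδ hδ0
    refine lo_or (lt_min he1 he2) fun e he hle => ?_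
    obtain ⟨s, P, -, h3 | h3⟩ := Tg331.poly_lo hU he one_pos
    · obtain ⟨h3, v0, mb0, mc0, md0, h4, h5, h6, h7, h8⟩ := h3
      exact Or.inl ⟨s, P, h3, h1 e s P v0 mb0 mc0 md0 (hle.trans (min_le_left _ _)) h4 h5 h6 h7 h8⟩
    · obtain ⟨h3, v0, mb0, mc0, md0, h4, h5, h6, h7, h8⟩ := h3
      exact Or.inr ⟨s, P, h3, h2 e s P v0 mb0 mc0 md0 (hle.trans (min_le_right _ _)) h4 h5 h6 h7 h8⟩
  · obtain ⟨e0, he0, h1⟩ := Spl949.sp_of C.hγ C.nonempty hγs hu hδ hδ0
    refine up_or he0 fun e he hle => ?_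
    obtain ⟨s, P, -, h3 | h3⟩ := Tg331.poly_up hU he one_pos
    · exact Or.inl ⟨s, P, h3.1, h1 e s P hle (Or.inl h3.2)⟩
    · exact Or.inr ⟨s, P, h3.1, h1 e s P hle (Or.inr h3.2)⟩


end Crest.Agent.R158.Tj656
end

-- ▼ part R158/Tj7_656

/-!
R158, Lean architect of S0237 (helper656), J2 part 7: the rows `y = c L` are avoided:
`P4.HM P L x y = HD L x (y + 2)` if `L ∣ y`, `HD L x y` otherwise;
**`S0237_ofM : Q1m an → Q2 → Q3m → Q3p → S0237Body`**.
-/

set_option autoImplicit false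

namespace Crest.Agent.R158.Tj656

open Filter Topology Set Metric MeasureTheory
open Complex (I)
open Crest Crest.ProbabilityR Crest.ProbabilityR.Percolation
open Crest.Agent.R158.Sp896
open Crest.Agent.R158.Cd83
open Crest.Agent.R158.Spl331 (rv rv_jordan rv_ji cross_rv)
open Crest.Agent.R158.Wl290 (CSr sg Geo Cone Obs MB mpt sdH obs_of_macro obs_lower obs_upper
  tendsto_of_sides arc_prob_mem)
open Crest.Agent.R158.Sk656 (S0237Body)

noncomputable section

/-- the observable without the rows `y = c L` -/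
def P4.HM (P : P4) (L : ℤ) (x y : ℤ) : ℂ := if L ∣ y then P.HD L x (y + 2) else P.HD L x y

/-- **(Q1')** contour sums of `HM` -/
def Q1m (an : Bool) : Prop :=
  ∀ (P : P4) (x1 x2 y1 y2 : ℝ), x1 ≤ x2 → y1 ≤ y2 →
    (∀ x ∈ Icc x1 x2, ∀ y ∈ Icc y1 y2, ((x : ℂ) + (y : ℂ) * I) ∈ P.Om) →
    ∀ Ln : ℕ → ℤ, (∀ n, Even (Ln n)) → Tendsto Ln atTop atTop →
      CSr atTop (sg an) (fun n => 2 / (Ln n : ℝ)) (fun n i j => P.HM (Ln n) (2 * i) (2 * j))
        x1 x2 y1 y2

theorem HM_of {P : P4} {L x y : ℤ} (h : ¬ L ∣ y) : P.HM L x y = P.HD L x y := if_neg h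

theorem HM_mem (P : P4) (L x y : ℤ) : P.HM L x y ∈ Al194.Tri := by
  unfold P4.HM
  split_ifs
  · exact Ob664.HD_mem _ _ _ _ _
  · exact Ob664.HD_mem _ _ _ _ _

/-- near an inner point of a boundary edge no point of the domain lies at an integer height -/
theorem row_ne {P : P4} {m : ℕ} {t : ℝ} (h0 : 0 < t) (h1 : t < 1) :
    ∃ r : ℝ, 0 < r ∧ ∀ z ∈ P.Om, ‖z - ept P.v m t‖ < r → ∀ c : ℤ, z.im ≠ c := by
  refine ⟨min t (1 - t), lt_min h0 (by linarith), fun z hz hr c hc => ?_⟩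
  have hre : |z.re - (ept P.v m t).re| < min t (1 - t) :=
    (Complex.abs_re_le_norm (z - ept P.v m t)).trans_lt hr
  have him : |z.im - (ept P.v m t).im| < min t (1 - t) :=
    (Complex.abs_im_le_norm (z - ept P.v m t)).trans_lt hr
  have hmin1 := min_le_left t (1 - t)
  have hmin2 := min_le_right t (1 - t)
  rw [abs_lt] at hre him
  have hst := P.cyc.step m
  have hlc := P.cyc.right m
  have hout : ∀ q : V, q ∉ P.F → z ∉ sq 1 q := fun q hq hzq => hq ((mem_om one_pos).1 hz q hzq)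
  have ere : (ept P.v m t).re = (P.v m).1 + t * ((P.v (m + 1)).1 - (P.v m).1) := by
    unfold ept
    rw [Complex.add_re, Complex.re_ofReal_mul, Complex.sub_re, pt_re, pt_re]
    ring
  have eim : (ept P.v m t).im = (P.v m).2 + t * ((P.v (m + 1)).2 - (P.v m).2) := by
    unfold ept
    rw [Complex.add_im, Complex.im_ofReal_mul, Complex.sub_im, pt_im, pt_im]
    ring
  rw [ere] at hre
  rw [eim] at him
  generalize P.v m = a at *
  generalize P.v (m + 1) = b at *
  obtain ⟨b1, b2⟩ := b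
  rcases hst with ⟨e1, e2⟩ | ⟨e1, e2⟩ | ⟨e1, e2⟩ | ⟨e1, e2⟩ <;> simp only at e1 e2 <;> subst e1 e2
  · -- east
    have hc2 : c = a.2 := by
      have : ((c : ℝ) - a.2) < 1 ∧ (-1 : ℝ) < (c : ℝ) - a.2 := by
        rw [← hc]; push_cast at him; constructor <;> nlinarith [him.1, him.2]
      have h3 : c - a.2 < 1 := by exact_mod_cast this.1
      have h4 : -1 < c - a.2 := by exact_mod_cast this.2
      omega
    refine hout _ hlc ?_
    have l2 : rc a (a.1 + 1, a.2) = (a.1, a.2 - 1) := by unfold rc; ext <;> simp only <;> omega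
    rw [l2]
    push_cast at hre
    refine ⟨?_, ?_, ?_, ?_⟩ <;> push_cast <;> rw [one_mul] <;> (try rw [hc, hc2]) <;>
      nlinarith [hre.1, hre.2]
  · have hc2 : c = a.2 := by
      have : ((c : ℝ) - a.2) < 1 ∧ (-1 : ℝ) < (c : ℝ) - a.2 := by
        rw [← hc]; push_cast at him; constructor <;> nlinarith [him.1, him.2]
      have h3 : c - a.2 < 1 := by exact_mod_cast this.1
      have h4 : -1 < c - a.2 := by exact_mod_cast this.2
      omega
    refine hout _ hlc ?_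
    have l2 : rc a (a.1 - 1, a.2) = (a.1 - 1, a.2) := by unfold rc; ext <;> simp only <;> omega
    rw [l2]
    push_cast at hre
    refine ⟨?_, ?_, ?_, ?_⟩ <;> push_cast <;> rw [one_mul] <;> (try rw [hc, hc2]) <;>
      nlinarith [hre.1, hre.2]
  · -- north: the height is not an integer
    exfalso
    push_cast at him
    have h3 : (a.2 : ℝ) < c := by rw [← hc]; nlinarith [him.1, him.2]
    have h4 : (c : ℝ) < a.2 + 1 := by rw [← hc]; nlinarith [him.1, him.2]
    have h3' : a.2 < c := by exact_mod_cast h3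
    have h4' : c < a.2 + 1 := by exact_mod_cast h4
    omega
  · exfalso
    push_cast at him
    have h3 : (c : ℝ) < a.2 := by rw [← hc]; nlinarith [him.1, him.2]
    have h4 : (a.2 : ℝ) - 1 < c := by rw [← hc]; nlinarith [him.1, him.2]
    have h3' : c < a.2 := by exact_mod_cast h3
    have h4' : a.2 - 1 < c := by exact_mod_cast h4
    omega

theorem NB.mbM {P : P4} {b : ℂ} {j : Fin 4} (hb : b ∈ P.hA j) {u : ℤ → ℂ → ℝ} (h : NB P b u)
    {v : ℕ → ℂ → ℝ} (hv : ∀ (L : ℕ) w, v L w = u L w) :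
    MB (↑P.F) (fun L x y => P.HM (L : ℤ) x y) b v := by
  obtain ⟨m, t, h0, h1, -, rfl⟩ := hb
  obtain ⟨r0, hr0, hrow⟩ := row_ne (P := P) (m := m) h0 h1
  intro ε hε
  obtain ⟨r, hr, L0, h2⟩ := h ε hε
  refine ⟨min r r0, lt_min hr hr0, L0.toNat + 1, fun L hL hL0 i j h3 h4 => ?_⟩
  rw [mpt_mpos] at h3 h4
  rw [hv]
  have hLp : (0 : ℝ) < ((L : ℤ) : ℝ) := by
    have : 0 < L := by omega
    exact_mod_cast this
  have hne : ¬ (L : ℤ) ∣ 2 * j := by
    rintro ⟨c, hc⟩
    refine hrow _ h3 (h4.trans_le (min_le_right _ _)) c ?_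
    show ((2 * j : ℤ) : ℝ) / ((L : ℤ) : ℝ) = c
    rw [hc, Int.cast_mul, mul_div_cancel_left₀ _ hLp.ne']
  simp only [HM_of hne]
  exact h2 L (by omega) (by exact_mod_cast hL) i j h3 (h4.trans_le (min_le_left _ _))

variable {γ : ℝ → ℂ} {φ : ℂ → ℂ} {δ : ℕ → ℝ} {p : ℕ → ℝ} {an : Bool}

/-- **`Obs` from a sequence of polygons**, without the rows `y = c L` -/
def obsOfM (hγ : IsJordanCurve γ) {e s : ℕ → ℝ} {P : ℕ → P4}
    (h : ∀ k, PolyOK γ (e k) (s k) (P k)) (he : Tendsto e atTop (𝓝 0))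
    (hδ : ∀ n, 0 < δ n) (hδ0 : Tendsto δ atTop (𝓝 0)) (up an : Bool)
    (q1 : Q1m an) (q2 : Q2) {κm κp : ℤ}
    (q3m : ∀ P : P4, ∀ b ∈ P.hA 0, NB P b fun L w => w.re - P.pm κm L)
    (q3p : ∀ P : P4, ∀ b ∈ P.hA 1, NB P b fun L w => (1 - w.re) - P.pp κp L)
    (hm : up = false → ∀ k, ∀ᶠ n in atTop, (P k).pm κm (Ls (s k) (δ n)) ≤ p n)
    (hp : up = true → ∀ k, ∀ᶠ n in atTop, (P k).pp κp (Ls (s k) (δ n)) ≤ 1 - p n) :
    Obs (geoOf hγ h he) p up := by
  refine obs_of_macro (geoOf hγ h he) p up an (w := ww) norm_ww (s := s) (fun k => (h k).s_pos)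
    (F := fun k => ↑(P k).F) (fun k => rfl) (Ln := fun k n => (Ls (s k) (δ n)).toNat)
    (fun k n => Ls_toNat_even _ _) (fun k => Ls_toNat_tend (h k).s_pos hδ hδ0)
    (Hd := fun k L x y => (P k).HM (L : ℤ) x y) (fun k L x y => HM_mem _ _ _ _)
    ?_ ?_ (qm := fun k L => (P k).pm κm L) (qp := fun k L => (P k).pp κp L) ?_ ?_ ?_ ?_
  · intro k a b c e hab hce hin
    have := q1 (P k) a b c e hab hce hin (fun n => (((Ls (s k) (δ n)).toNat : ℕ) : ℤ))
      (fun n => by exact_mod_cast Ls_toNat_even (s k) (δ n))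
      (tendsto_natCast_atTop_atTop.comp (Ls_toNat_tend (h k).s_pos hδ hδ0))
    simpa only [Int.cast_natCast] using this
  · intro k j ζ _ _ hζ
    have hb := geo_pt hγ h he hζ
    obtain ⟨c0, c1, c2, c3⟩ := q2 (P k)
    rw [sdH_val]
    fin_cases j
    · exact (c0 _ hb).mbM hb fun _ _ => rfl
    · exact (c1 _ hb).mbM hb fun _ _ => rfl
    · exact (c2 _ hb).mbM hb fun _ _ => rfl
    · exact (c3 _ hb).mbM hb fun _ _ => rfl
  · intro _ k ζ _ _ hζ
    have hb := geo_pt hγ h he hζ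
    exact (q3m _ _ hb).mbM hb fun _ _ => rfl
  · intro hup k
    filter_upwards [hm hup k, (Ls_tend (h k).s_pos hδ hδ0).eventually_ge_atTop 0] with n hn h0
    show (P k).pm κm (((Ls (s k) (δ n)).toNat : ℕ) : ℤ) ≤ p n
    rwa [Int.toNat_of_nonneg h0]
  · intro _ k ζ _ _ hζ
    have hb := geo_pt hγ h he hζ
    exact (q3p _ _ hb).mbM hb fun _ _ => rfl
  · intro hup k
    filter_upwards [hp hup k, (Ls_tend (h k).s_pos hδ hδ0).eventually_ge_atTop 0] with n hn h0
    show (P k).pp κp (((Ls (s k) (δ n)).toNat : ℕ) : ℤ) ≤ 1 - p n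
    rwa [Int.toNat_of_nonneg h0]

theorem lower_ofM (C : CDat γ φ) (hp : ∀ n, p n ∈ Icc (0 : ℝ) 1) (hδ : ∀ n, 0 < δ n)
    (hδ0 : Tendsto δ atTop (𝓝 0)) (q1 : Q1m an) (q2 : Q2) (q3m : Q3m) (q3p : Q3p)
    (h : LoSide γ δ p) {ε : ℝ} (hε : 0 < ε) : ∀ᶠ n in atTop, cv γ φ - ε < p n := by
  obtain ⟨κm, q3m⟩ := q3m
  obtain ⟨κp, q3p⟩ := q3p
  choose s P h1 h2 using fun k : ℕ => h _ (pos_e k)
  exact obs_lower C hp (obsOfM C.hγ h1 lim_e hδ hδ0 false an q1 q2 q3m q3p
    (fun _ k => h2 k κm) (fun h => absurd h (by decide))) hε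

theorem upper_ofM (C : CDat γ φ) (hp : ∀ n, p n ∈ Icc (0 : ℝ) 1) (hδ : ∀ n, 0 < δ n)
    (hδ0 : Tendsto δ atTop (𝓝 0)) (q1 : Q1m an) (q2 : Q2) (q3m : Q3m) (q3p : Q3p)
    (h : UpSide γ δ p) {ε : ℝ} (hε : 0 < ε) : ∀ᶠ n in atTop, p n < cv γ φ + ε := by
  obtain ⟨κm, q3m⟩ := q3m
  obtain ⟨κp, q3p⟩ := q3p
  choose s P h1 h2 using fun k : ℕ => h _ (pos_e k)
  exact obs_upper C hp (obsOfM C.hγ h1 lim_e hδ hδ0 true an q1 q2 q3m q3p
    (fun h => absurd h (by decide)) (fun _ k => h2 k κp)) hε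

theorem tend_ofM (C : CDat γ φ) (hp : ∀ n, p n ∈ Icc (0 : ℝ) 1) (hδ : ∀ n, 0 < δ n)
    (hδ0 : Tendsto δ atTop (𝓝 0)) (q1 : Q1m an) (q2 : Q2) (q3m : Q3m) (q3p : Q3p)
    (hlo : LoSide γ δ p ∨ LoSide (rv γ) δ p) (hup : UpSide γ δ p ∨ UpSide (rv γ) δ p) :
    Tendsto p atTop (𝓝 (cv γ φ)) := by
  refine tendsto_of_sides (fun ε hε => ?_) (fun ε hε => ?_)
  · rcases hlo with h | h
    · exact lower_ofM C hp hδ hδ0 q1 q2 q3m q3p h hε
    · rw [← cv_rv]
      exact lower_ofM (cdat_rv C) hp hδ hδ0 q1 q2 q3m q3p h hε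
  · rcases hup with h | h
    · exact upper_ofM C hp hδ hδ0 q1 q2 q3m q3p h hε
    · rw [← cv_rv]
      exact upper_ofM (cdat_rv C) hp hδ hδ0 q1 q2 q3m q3p h hε

/-- **S0237 from the four inputs, without the rows `y = c L`** -/
theorem S0237_ofM (q1 : Q1m an) (q2 : Q2) (q3m : Q3m) (q3p : Q3p) : S0237Body := by
  intro γ hγ δ hδ _ hδ0 γs hγs hunif φ hφc hφi hφd hφD
  have C : CDat γ φ := ⟨hγ, hφc, hφi, hφd, hφD⟩
  obtain ⟨hlo, hup⟩ := sandwich γ φ C δ hδ hδ0 γs hγs hunif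
  exact tend_ofM C (fun n => arc_prob_mem _ _) hδ hδ0 q1 q2 q3m q3p hlo hup

end

end Crest.Agent.R158.Tj656
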