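import Mathlib
import Crest.Agent.R158.Cs2_410
import Crest.Agent.R158.Tj2_656
import Crest.Agent.R158.Tj7_656

-- ▼ part R158/Cs4_410
section

/-!
# R158, Block CS (helper410), part 4: assembly with bad heights

* `CSd_cover` : finite cover by slices with defects
* `CSd_of_osc` : a thin slab with small vertical oscillation
* `CSr_of_centres'` : slices centred at `c + k h`, each with its own defect
* `CSr_assemble` : good slices away from finitely many bad heights `B`, thin slabs at the bad heights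
-/

set_option autoImplicit false

open Filter Topology Finset

namespace Crest.Agent.R158.Cs410

open Crest.Agent.R158.Wl290

variable {ι : Type*}

/-- finite cover -/
theorem CSd_cover {l : Filter ι} {s : ℂ} {d : ι → ℝ}
    (hd : ∀ᶠ n in l, 0 < d n) (hd0 : Tendsto d l (𝓝 0)) {H : ι → ℤ → ℤ → ℂ} {a b : ℝ}
    (u v δ : ℕ → ℝ) (K : ℕ) (hov : ∀ k < K, u (k + 1) < v k) (hδ : ∀ k ≤ K, 0 ≤ δ k)
    (h : ∀ k ≤ K, CSd l s d H a b (u k) (v k) (δ k)) :
    CSd l s d H a b (u 0) (v K) (∑ k ∈ range (K + 1), δ k) := by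
  suffices h' : ∀ k ≤ K, CSd l s d H a b (u 0) (v k) (∑ i ∈ range (k + 1), δ i) from h' K le_rfl
  intro k
  induction k with
  | zero => intro _; simpa using h 0 (Nat.zero_le _)
  | succ k ih =>
    intro hk
    rw [Finset.sum_range_succ]
    exact CSd.glue hd hd0 (hov k hk) (ih (by omega)) (h (k + 1) hk)
      (Finset.sum_nonneg fun i hi => hδ i (by rw [Finset.mem_range] at hi; omega)) (hδ _ hk)

/-- **thin slab** with small vertical oscillation -/
theorem CSd_of_osc {l : Filter ι} {s : ℂ} (hs : ‖s‖ ≤ 1) {d : ι → ℝ} (hd : ∀ᶠ n in l, 0 < d n)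
    {H : ι → ℤ → ℤ → ℂ} {a b c e w B0 : ℝ} (hw : 0 ≤ w) (hB0 : 0 ≤ B0)
    (hB : ∀ᶠ n in l, ∀ i j : ℤ, a ≤ d n * i → d n * i ≤ b → c ≤ d n * j → d n * j ≤ e →
      ‖H n i j‖ ≤ B0)
    (hH : ∀ᶠ n in l, ∀ i j j' : ℤ, a ≤ d n * i → d n * i ≤ b → c ≤ d n * j → d n * j ≤ e →
      c ≤ d n * j' → d n * j' ≤ e → ‖H n i j - H n i j'‖ ≤ w) :
    CSd l s d H a b c e ((b - a) * w + 2 * B0 * (e - c)) := by
  filter_upwards [hB, hH, hd] with n hn1 hn2 hn i1 i2 j1 j2 hi hj g1 g2 g3 g4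
  have hib : (i1 : ℝ) ≤ i2 := by exact_mod_cast hi
  have hjb : (j1 : ℝ) ≤ j2 := by exact_mod_cast hj
  have ci : (((i2 - i1).toNat : ℕ) : ℝ) = i2 - i1 := by
    have : ((i2 - i1).toNat : ℤ) = i2 - i1 := Int.toNat_of_nonneg (by omega)
    exact_mod_cast this
  have cj : (((j2 - j1).toNat : ℕ) : ℝ) = j2 - j1 := by
    have : ((j2 - j1).toNat : ℤ) = j2 - j1 := Int.toNat_of_nonneg (by omega)
    exact_mod_cast this
  have h1 : ‖∑ i ∈ Finset.Ico i1 i2, (H n i j2 - H n i j1)‖ ≤ (i2 - i1 : ℝ) * w := by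
    refine (norm_sum_le _ _).trans ?_
    refine (Finset.sum_le_sum (g := fun _ => w) fun i hi' => ?_).trans ?_
    · rw [Finset.mem_Ico] at hi'
      have q1 : (i1 : ℝ) ≤ i := by exact_mod_cast hi'.1
      have q2 : (i : ℝ) ≤ i2 := by exact_mod_cast hi'.2.le
      exact hn2 i j2 j1 (by nlinarith) (by nlinarith) (by nlinarith) g4 g3 (by nlinarith)
    · rw [Finset.sum_const, Int.card_Ico, nsmul_eq_mul, ci]
  have h2 : ‖∑ j ∈ Finset.Ico j1 j2, (H n i2 j - H n i1 j)‖ ≤ (j2 - j1 : ℝ) * (2 * B0) := by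
    refine (norm_sum_le _ _).trans ?_
    refine (Finset.sum_le_sum (g := fun _ => 2 * B0) fun j hj' => ?_).trans ?_
    · rw [Finset.mem_Ico] at hj'
      have q1 : (j1 : ℝ) ≤ j := by exact_mod_cast hj'.1
      have q2 : (j : ℝ) ≤ j2 := by exact_mod_cast hj'.2.le
      have k1 : c ≤ d n * j := by nlinarith
      have k2 : d n * j ≤ e := by nlinarith
      refine (norm_sub_le _ _).trans ?_
      have k3 := hn1 i2 j (by nlinarith) g2 k1 k2
      have k4 := hn1 i1 j g1 (by nlinarith) k1 k2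
      linarith
    · rw [Finset.sum_const, Int.card_Ico, nsmul_eq_mul, cj]
  have h3 : ‖csum s (H n) i1 i2 j1 j2‖ ≤ (i2 - i1 : ℝ) * w + (j2 - j1 : ℝ) * (2 * B0) := by
    unfold csum
    refine (norm_sub_le _ _).trans (add_le_add h1 ?_)
    rw [norm_mul]
    have := mul_le_mul hs h2 (norm_nonneg _) zero_le_one
    linarith
  have k1 : d n * (i2 - i1 : ℝ) ≤ b - a := by linarith
  have k2 : d n * (j2 - j1 : ℝ) ≤ e - c := by linarith
  calc d n * ‖csum s (H n) i1 i2 j1 j2‖ ≤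
      d n * ((i2 - i1 : ℝ) * w + (j2 - j1 : ℝ) * (2 * B0)) := mul_le_mul_of_nonneg_left h3 hn.le
    _ = (d n * (i2 - i1 : ℝ)) * w + (d n * (j2 - j1 : ℝ)) * (2 * B0) := by ring
    _ ≤ (b - a) * w + (e - c) * (2 * B0) :=
        add_le_add (mul_le_mul_of_nonneg_right k1 hw)
          (mul_le_mul_of_nonneg_right k2 (by positivity))
    _ = _ := by ring

/-- slices centred at `c + k h` -/
theorem CSr_of_centres' {l : Filter ι} {s : ℂ} {d : ι → ℝ}
    (hd : ∀ᶠ n in l, 0 < d n) (hd0 : Tendsto d l (𝓝 0)) {H : ι → ℤ → ℤ → ℂ} {a b c e : ℝ}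
    (h : ∀ ε > 0, ∃ (h : ℝ) (δ : ℕ → ℝ), 0 < h ∧
      (∀ k ≤ ⌈(e - c) / h⌉₊, 0 ≤ δ k ∧ CSd l s d H a b (c + k * h - h) (c + k * h + h) (δ k)) ∧
      ∑ k ∈ range (⌈(e - c) / h⌉₊ + 1), δ k ≤ ε) :
    CSr l s d H a b c e := by
  rw [CSr_iff]
  intro ε hε
  obtain ⟨h, δ, h1, h2, h3⟩ := h ε hε
  have hK : (e - c) / h ≤ (⌈(e - c) / h⌉₊ : ℝ) := Nat.le_ceil _
  rw [div_le_iff₀ h1] at hK
  have h4 := CSd_cover hd hd0 (fun k => c + k * h - h) (fun k => c + k * h + h) δ
    ⌈(e - c) / h⌉₊ (fun k _ => by push_cast; linarith) (fun k hk => (h2 k hk).1)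
    fun k hk => (h2 k hk).2
  exact h4.mono le_rfl le_rfl (by simp [h1.le]) (by linarith) h3

/-- number of `k` with `|c + k h - t| ≤ 2 h` -/
lemma card_near (K : ℕ) (c t h : ℝ) (hh : 0 < h) :
    ((range K).filter fun k : ℕ => |c + (k : ℝ) * h - t| ≤ 2 * h).card ≤ 5 := by
  set m : ℤ := ⌈(t - c) / h⌉ - 2 with hm
  have key : ((range K).filter fun k : ℕ => |c + (k : ℝ) * h - t| ≤ 2 * h).image
      (fun k : ℕ => (k : ℤ)) ⊆ Finset.Icc m (m + 4) := by
    intro z hz
    rw [Finset.mem_image] at hz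
    obtain ⟨k, hk, rfl⟩ := hz
    rw [Finset.mem_filter, abs_le] at hk
    obtain ⟨-, g1, g2⟩ := hk
    rw [Finset.mem_Icc]
    have q1 := Int.le_ceil ((t - c) / h)
    have q2 := Int.ceil_lt_add_one ((t - c) / h)
    rw [div_le_iff₀ hh] at q1
    have q3 : ((⌈(t - c) / h⌉ : ℤ) : ℝ) * h < (t - c) + h := by
      have := mul_lt_mul_of_pos_right q2 hh
      rwa [add_mul, div_mul_cancel₀ _ hh.ne', one_mul] at this
    constructor
    · have : ((⌈(t - c) / h⌉ - 3 : ℤ) : ℝ) * h < (k : ℝ) * h := by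
        push_cast
        nlinarith
      have h5 := lt_of_mul_lt_mul_right this hh.le
      have h6 : ⌈(t - c) / h⌉ - 3 < (k : ℤ) := by exact_mod_cast h5
      omega
    · have : (k : ℝ) * h ≤ ((⌈(t - c) / h⌉ + 2 : ℤ) : ℝ) * h := by
        push_cast
        nlinarith
      have h5 := le_of_mul_le_mul_right this hh
      have h6 : (k : ℤ) ≤ ⌈(t - c) / h⌉ + 2 := by exact_mod_cast h5
      omega
  have h1 := Finset.card_le_card key
  rw [Finset.card_image_of_injective _ Nat.cast_injective, Int.card_Icc] at h1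
  omega

set_option maxHeartbeats 2000000 in
/-- **assembly**: good slices away from the bad heights, thin slabs at the bad heights -/
theorem CSr_assemble {l : Filter ι} {s : ℂ} (hs : ‖s‖ ≤ 1) {d : ι → ℝ}
    (hd : ∀ᶠ n in l, 0 < d n) (hd0 : Tendsto d l (𝓝 0)) {H : ι → ℤ → ℤ → ℂ} {a b c e : ℝ}
    (hab : a ≤ b) (hce : c ≤ e) {h0 : ℝ} (hh0 : 0 < h0) (W : ℝ → ℝ) (hW : ∀ h, 0 ≤ W h)
    (hW0 : Tendsto (fun h => W h / h) (𝓝[>] 0) (𝓝 0)) (B : Finset ℝ) {C γ γ' : ℝ} (hC : 0 ≤ C)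
    (hγ' : 0 < γ') (hγ : γ' < γ)
    (good : ∀ h, 0 < h → h < h0 → ∀ y, c ≤ y → y ≤ e + h → (∀ t ∈ B, 2 * h < |y - t|) →
      ∃ G : ι → ℤ → ℤ → ℂ, CSr l s d G a b (y - h) (y + h) ∧
      ∀ᶠ n in l, ∀ i j : ℤ, a ≤ d n * i → d n * i ≤ b → y - h ≤ d n * j → d n * j ≤ y + h →
        ‖H n i j - G n i j‖ ≤
          W h + C * ∑ t ∈ B, (h / (h + |y - t|)) ^ (1 + γ) * (h + |y - t|) ^ γ')
    (bad : ∀ t ∈ B, c ≤ t → t ≤ e → ∀ ε > 0, ∃ h1 > 0, CSd l s d H a b (t - h1) (t + h1) ε) :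
    CSr l s d H a b c e := by
  classical
  obtain ⟨S, hS0, hS⟩ := sum_near (p := 1 + γ - γ') (by linarith)
  refine CSr_of_centres' hd hd0 fun ε hε => ?_
  -- the defect allowed in a bad slab
  set ε1 : ℝ := ε / (4 * (5 * B.card + 1)) with hε1
  have hε10 : 0 < ε1 := by rw [hε1]; positivity
  have hbad : ∃ h1 > 0, ∀ t ∈ B, c ≤ t → t ≤ e → CSd l s d H a b (t - h1) (t + h1) ε1 := by
    have key : ∀ B' : Finset ℝ, B' ⊆ B → ∃ h1 > 0, ∀ t ∈ B', c ≤ t → t ≤ e →
        CSd l s d H a b (t - h1) (t + h1) ε1 := by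
      intro B'
      induction B' using Finset.induction_on with
      | empty => intro _; exact ⟨1, one_pos, fun t ht => absurd ht (Finset.notMem_empty t)⟩
      | insert t B'' _ ih =>
        intro hB
        obtain ⟨h1, h1p, h2⟩ := ih fun x hx => hB (Finset.mem_insert_of_mem hx)
        by_cases htc : c ≤ t ∧ t ≤ e
        · obtain ⟨h3, h3p, h4⟩ := bad t (hB (Finset.mem_insert_self _ _)) htc.1 htc.2 ε1 hε10
          refine ⟨min h1 h3, lt_min h1p h3p, fun x hx hx1 hx2 => ?_⟩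
          rcases Finset.mem_insert.1 hx with rfl | hx
          · exact h4.mono le_rfl le_rfl (by linarith [min_le_right h1 h3])
              (by linarith [min_le_right h1 h3]) le_rfl
          · exact (h2 x hx hx1 hx2).mono le_rfl le_rfl (by linarith [min_le_left h1 h3])
              (by linarith [min_le_left h1 h3]) le_rfl
        · refine ⟨h1, h1p, fun x hx hx1 hx2 => ?_⟩
          rcases Finset.mem_insert.1 hx with rfl | hx
          · exact absurd ⟨hx1, hx2⟩ htc
          · exact h2 x hx hx1 hx2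
    exact key B Subset.rfl
  obtain ⟨h1, h1p, hbad⟩ := hbad
  -- the distance of the outer bad heights
  have hfar : ∃ h2 > 0, ∀ t ∈ B, ¬ (c ≤ t ∧ t ≤ e) → ∀ y, c ≤ y → y ≤ e + h2 →
      2 * h2 < |y - t| := by
    have key : ∀ B' : Finset ℝ, ∃ h2 > 0, ∀ t ∈ B', ¬ (c ≤ t ∧ t ≤ e) → ∀ y, c ≤ y → y ≤ e + h2 →
        2 * h2 < |y - t| := by
      intro B'
      induction B' using Finset.induction_on with
      | empty => exact ⟨1, one_pos, fun t ht => absurd ht (Finset.notMem_empty t)⟩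
      | insert t B'' _ ih =>
        obtain ⟨h2, h2p, h3⟩ := ih
        by_cases htc : c ≤ t ∧ t ≤ e
        · refine ⟨h2, h2p, fun x hx hx1 => ?_⟩
          rcases Finset.mem_insert.1 hx with rfl | hx
          · exact absurd htc hx1
          · exact h3 x hx hx1
        · have h4 : ∃ h5 > 0, ∀ y, c ≤ y → y ≤ e + h5 → 2 * h5 < |y - t| := by
            rcases not_and_or.1 htc with h | h
            · push Not at h
              refine ⟨(c - t) / 3, by linarith, fun y hy1 hy2 => ?_⟩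
              rw [abs_of_nonneg (by linarith)]
              linarith
            · push Not at h
              refine ⟨(t - e) / 4, by linarith, fun y hy1 hy2 => ?_⟩
              rw [abs_of_nonpos (by linarith)]
              linarith
          obtain ⟨h5, h5p, h6⟩ := h4
          refine ⟨min h2 h5, lt_min h2p h5p, fun x hx hx1 y hy1 hy2 => ?_⟩
          rcases Finset.mem_insert.1 hx with rfl | hx
          · have := h6 y hy1 (hy2.trans (by linarith [min_le_right h2 h5]))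
            linarith [min_le_right h2 h5]
          · have := h3 x hx hx1 y hy1 (hy2.trans (by linarith [min_le_left h2 h5]))
            linarith [min_le_left h2 h5]
    exact key B
  obtain ⟨h2, h2p, hfar⟩ := hfar
  -- the good slices
  have hA : 0 < (b - a) + 2 := by linarith
  have hE : 0 < (e - c) + 2 := by linarith
  have e1 : ∀ᶠ h in 𝓝[>] (0 : ℝ), W h / h < ε / 16 / ((b - a) + 2) / ((e - c) + 2) :=
    hW0.eventually (gt_mem_nhds (by positivity))
  have e2 : ∀ᶠ h in 𝓝[>] (0 : ℝ), h < min (min h0 1) (min (h1 / 3) h2) :=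
    nhdsWithin_le_nhds (gt_mem_nhds (lt_min (lt_min hh0 one_pos)
      (lt_min (by positivity) h2p)))
  have e3 : ∀ᶠ h in 𝓝[>] (0 : ℝ), C * (B.card * (S * h ^ γ')) < ε / 16 / ((b - a) + 2) := by
    have : Tendsto (fun h : ℝ => C * (B.card * (S * h ^ γ'))) (𝓝[>] 0)
        (𝓝 (C * (B.card * (S * 0 ^ γ')))) := by
      have h5 : Tendsto (fun h : ℝ => h ^ γ') (𝓝[>] 0) (𝓝 (0 ^ γ')) :=
        ((Real.continuousAt_rpow_const 0 γ' (Or.inr hγ'.le)).tendsto).mono_left
          nhdsWithin_le_nhds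
      exact ((h5.const_mul S).const_mul _).const_mul C
    rw [Real.zero_rpow hγ'.ne', mul_zero, mul_zero, mul_zero] at this
    exact this.eventually (gt_mem_nhds (by positivity))
  obtain ⟨h, ⟨⟨g1, g2⟩, g3⟩, g4⟩ := (((e1.and e2).and e3).and self_mem_nhdsWithin).exists
  have hp : 0 < h := g4
  have l1 : h < h0 := g2.trans_le ((min_le_left _ _).trans (min_le_left _ _))
  have l2 : h ≤ 1 := (g2.trans_le ((min_le_left _ _).trans (min_le_right _ _))).le
  have l3 : h < h1 / 3 := g2.trans_le ((min_le_right _ _).trans (min_le_left _ _))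
  have l4 : h < h2 := g2.trans_le ((min_le_right _ _).trans (min_le_right _ _))
  set K : ℕ := ⌈(e - c) / h⌉₊ with hKdef
  have hK' : (K : ℝ) < (e - c) / h + 1 :=
    Nat.ceil_lt_add_one (div_nonneg (sub_nonneg.2 hce) hp.le)
  have hK2 : (K : ℝ) * h < (e - c) + h := by
    have := mul_lt_mul_of_pos_right hK' hp
    rwa [add_mul, div_mul_cancel₀ _ hp.ne', one_mul] at this
  set X : ℕ → ℝ := fun k => ∑ t ∈ B, (h / (h + |c + (k : ℝ) * h - t|)) ^ (1 + γ) *
    (h + |c + (k : ℝ) * h - t|) ^ γ' with hX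
  have hX0 : ∀ k, 0 ≤ X k := fun k => Finset.sum_nonneg fun t _ => by positivity
  set η : ℝ := ε / (4 * (K + 1)) with hη
  have hη0 : 0 < η := by rw [hη]; positivity
  set near : ℕ → Prop := fun k => ∃ t ∈ B, |c + (k : ℝ) * h - t| ≤ 2 * h with hnear
  have hw0 : ∀ k, 0 ≤ 2 * ((b - a) + 2 * h) * (W h + C * X k) := fun k => by
    have := hW h
    have := hX0 k
    have : 0 ≤ b - a := by linarith
    positivity
  refine ⟨h, fun k => (if near k then ε1 else 0) + (η + 2 * ((b - a) + 2 * h) * (W h + C * X k)),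
    hp, fun k hk => ?_, ?_⟩
  · have hk' : (k : ℝ) ≤ K := by exact_mod_cast hk
    have hkh : (k : ℝ) * h ≤ (K : ℝ) * h := mul_le_mul_of_nonneg_right hk' hp.le
    have y1 : c ≤ c + (k : ℝ) * h := by have := mul_nonneg (Nat.cast_nonneg (α := ℝ) k) hp.le; linarith
    have y2 : c + (k : ℝ) * h ≤ e + h := by linarith
    refine ⟨?_, ?_⟩
    · have := hw0 k
      show 0 ≤ (if near k then ε1 else 0) + (η + 2 * ((b - a) + 2 * h) * (W h + C * X k))
      split_ifs <;> linarith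
    show CSd l s d H a b (c + k * h - h) (c + k * h + h)
      ((if near k then ε1 else 0) + (η + 2 * ((b - a) + 2 * h) * (W h + C * X k)))
    by_cases hn : near k
    · obtain ⟨t, ht, hty⟩ := hn
      have htc : c ≤ t ∧ t ≤ e := by
        by_contra hcon
        have := hfar t ht hcon (c + (k : ℝ) * h) y1 (by linarith)
        linarith
      rw [if_pos ⟨t, ht, hty⟩]
      rw [abs_le] at hty
      refine (hbad t ht htc.1 htc.2).mono le_rfl le_rfl (by linarith) (by linarith) ?_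
      have := hw0 k
      linarith
    · rw [if_neg hn, zero_add]
      have hn' : ∀ t ∈ B, 2 * h < |c + (k : ℝ) * h - t| := by
        intro t ht
        by_contra hcon
        exact hn ⟨t, ht, not_lt.1 hcon⟩
      obtain ⟨G, q1, q2⟩ := good h hp l1 _ y1 y2 hn'
      have q3 := CSd.of_close hs hd (w := W h + C * X k) (by
        have := hW h
        have := hX0 k
        positivity) (CSr.toCSd q1 hη0) q2
      refine q3.mono le_rfl le_rfl le_rfl le_rfl (le_of_eq ?_)
      ring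
  · -- the sum
    rw [← hKdef, Finset.sum_add_distrib, Finset.sum_add_distrib]
    have s1 : ∑ k ∈ range (K + 1), (if near k then ε1 else 0) ≤ ε / 4 := by
      rw [← Finset.sum_filter, Finset.sum_const, nsmul_eq_mul]
      have hsub : (range (K + 1)).filter near ⊆ B.biUnion fun t =>
          (range (K + 1)).filter fun k : ℕ => |c + (k : ℝ) * h - t| ≤ 2 * h := by
        intro k hk
        rw [Finset.mem_filter] at hk
        obtain ⟨hk1, t, ht, hk2⟩ := hk
        exact Finset.mem_biUnion.2 ⟨t, ht, Finset.mem_filter.2 ⟨hk1, hk2⟩⟩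
      have hcard : ((range (K + 1)).filter near).card ≤ B.card * 5 :=
        (Finset.card_le_card hsub).trans (Finset.card_biUnion_le_card_mul _ _ _ fun t _ =>
          card_near (K + 1) c t h hp)
      have hcard' : ((((range (K + 1)).filter near).card : ℕ) : ℝ) ≤ 5 * B.card + 1 := by
        have : ((((range (K + 1)).filter near).card : ℕ) : ℝ) ≤ ((B.card * 5 : ℕ) : ℝ) := by
          exact_mod_cast hcard
        push_cast at this
        linarith
      calc _ ≤ (5 * (B.card : ℝ) + 1) * ε1 := mul_le_mul_of_nonneg_right hcard' hε10.le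
        _ = ε / 4 := by rw [hε1]; field_simp
    have s2 : ∑ _k ∈ range (K + 1), η = ε / 4 := by
      rw [Finset.sum_const, card_range, nsmul_eq_mul, hη]
      push_cast
      field_simp
    have s3 : ∑ k ∈ range (K + 1), 2 * ((b - a) + 2 * h) * (W h + C * X k) ≤ ε / 4 := by
      rw [← Finset.mul_sum, Finset.sum_add_distrib, ← Finset.mul_sum]
      have t1 : ∑ _k ∈ range (K + 1), W h ≤ ε / 16 / ((b - a) + 2) := by
        rw [Finset.sum_const, card_range, nsmul_eq_mul]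
        rw [div_lt_iff₀ hp] at g1
        push_cast
        have hq : 0 < ε / 16 / ((b - a) + 2) := by positivity
        calc ((K : ℝ) + 1) * W h ≤
              ((e - c) / h + 1 + 1) * (ε / 16 / ((b - a) + 2) / ((e - c) + 2) * h) :=
              mul_le_mul (by linarith) g1.le (hW h)
                (by have := div_nonneg (sub_nonneg.2 hce) hp.le; linarith)
          _ = ((e - c) + 2 * h) * (ε / 16 / ((b - a) + 2) / ((e - c) + 2)) := by
              field_simp; ring
          _ ≤ ((e - c) + 2) * (ε / 16 / ((b - a) + 2) / ((e - c) + 2)) :=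
              mul_le_mul_of_nonneg_right (by linarith) (by positivity)
          _ = ε / 16 / ((b - a) + 2) := by field_simp
      have t2 : C * ∑ k ∈ range (K + 1), X k ≤ ε / 16 / ((b - a) + 2) := by
        refine le_trans ?_ g3.le
        refine mul_le_mul_of_nonneg_left ?_ hC
        rw [hX, Finset.sum_comm, ← nsmul_eq_mul]
        refine Finset.sum_le_card_nsmul _ _ _ fun t _ => ?_
        set m : ℤ := ⌊(t - c) / h⌋ with hm
        have m1 : (m : ℝ) * h ≤ t - c := by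
          have := Int.floor_le ((t - c) / h)
          rw [← hm, le_div_iff₀ hp] at this
          exact this
        have m2 : t - c < (m + 1 : ℝ) * h := by
          have := Int.lt_floor_add_one ((t - c) / h)
          rw [← hm, div_lt_iff₀ hp] at this
          exact this
        refine (Finset.sum_le_sum (g := fun k : ℕ =>
          (max 1 |((k : ℤ) - m : ℝ)|) ^ (-(1 + γ - γ')) * h ^ γ') fun k _ => ?_).trans ?_
        · set Y : ℝ := h + |c + (k : ℝ) * h - t| with hY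
          have hY0 : 0 < Y := by positivity
          have hY1 : (max 1 |((k : ℤ) - m : ℝ)|) * h ≤ Y := by
            rcases le_total |((k : ℤ) - m : ℝ)| 1 with hle | hle
            · rw [max_eq_left hle, one_mul, hY]
              linarith [abs_nonneg (c + (k : ℝ) * h - t)]
            · rw [max_eq_right hle, hY]
              rcases le_total 0 ((k : ℤ) - m : ℝ) with h0' | h0'
              · rw [abs_of_nonneg h0']
                have := le_abs_self (c + (k : ℝ) * h - t)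
                push_cast at h0' ⊢
                nlinarith
              · rw [abs_of_nonpos h0']
                have := neg_abs_le (c + (k : ℝ) * h - t)
                push_cast at h0' ⊢
                nlinarith
          have f1 : (h / Y) ^ (1 + γ) * Y ^ γ' = h ^ (1 + γ) * Y ^ (-(1 + γ - γ')) := by
            rw [Real.div_rpow hp.le hY0.le, div_eq_mul_inv, ← Real.rpow_neg hY0.le, mul_assoc,
              ← Real.rpow_add hY0]
            congr 2
            ring
          have f2 : Y ^ (-(1 + γ - γ')) ≤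
              ((max 1 |((k : ℤ) - m : ℝ)|) * h) ^ (-(1 + γ - γ')) :=
            Real.rpow_le_rpow_of_nonpos (by positivity) hY1 (by linarith)
          rw [f1]
          calc h ^ (1 + γ) * Y ^ (-(1 + γ - γ')) ≤
              h ^ (1 + γ) * ((max 1 |((k : ℤ) - m : ℝ)|) * h) ^ (-(1 + γ - γ')) :=
                mul_le_mul_of_nonneg_left f2 (by positivity)
            _ = _ := by
                rw [Real.mul_rpow (by positivity) hp.le, mul_left_comm, ← Real.rpow_add hp]
                congr 2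
                ring
        · rw [← Finset.sum_mul]
          exact mul_le_mul_of_nonneg_right (hS _ m) (by positivity)
      have t3 : (∑ _k ∈ range (K + 1), W h + C * ∑ k ∈ range (K + 1), X k) ≤
          ε / 8 / ((b - a) + 2) := by
        have : ε / 8 / ((b - a) + 2) = ε / 16 / ((b - a) + 2) + ε / 16 / ((b - a) + 2) := by
          field_simp; ring
        linarith
      have t4 : 2 * ((b - a) + 2 * h) ≤ 2 * ((b - a) + 2) := by linarith
      calc 2 * ((b - a) + 2 * h) * (∑ _k ∈ range (K + 1), W h + C * ∑ k ∈ range (K + 1), X k) ≤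
          2 * ((b - a) + 2) * (ε / 8 / ((b - a) + 2)) := by
            refine mul_le_mul t4 t3 ?_ (by linarith)
            have w1 : 0 ≤ ∑ _k ∈ range (K + 1), W h := Finset.sum_nonneg fun _ _ => hW h
            have w2 : 0 ≤ ∑ k ∈ range (K + 1), X k := Finset.sum_nonneg fun k _ => hX0 k
            positivity
        _ = ε / 4 := by field_simp; ring
    refine (add_le_add s1 (add_le_add s2.le s3)).trans ?_
    linarith only [hε]

end Crest.Agent.R158.Cs410
end

-- ▼ part R158/Csf_410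
section

/-!
# R158, Q1 = assembly (helper410): `SliceP` and `OscP` imply 656's `Q1`

* `eT γ γ' h u` : the error `(h/(h+u))^(1+γ) (h+u)^γ'` of a mouth of half height `h` at distance `u` from
  a corner or a mark
* `SliceP s γ γ' P` : for every macroscopic run `[A, B]` of `P` at height `r`, every `a < b` inside it and
  every thin slice `(y - h, y + h)` of the row `(r, r + 1)`, off the middle height `r + 1/2`, the
  observable is close to a function with contour sums `o(1)`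
* `OscP P` : small vertical oscillation in thin slabs around the heights `k / 2`
* `Q1_of_slices` : `SliceP` and `OscP` for all polygons imply `Q1`
-/

set_option autoImplicit false

open Filter Topology Set Metric
open Complex (I)

namespace Crest.Agent.R158.Cs410

open Crest.Agent.R158.Wl290 (CSr sg)
open Crest.Agent.R158.Sp896 (V)
open Crest.Agent.R158.Env664 (Run exists_run)
open Crest.Agent.R158.Tj656 (P4 Om mpos Q1 mem_om om_open)

noncomputable section

/-- error of a mouth of half height `h` at distance `u` from a corner or a mark -/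
def eT (γ γ' h u : ℝ) : ℝ := (h / (h + u)) ^ (1 + γ) * (h + u) ^ γ'

lemma eT_nonneg {γ γ' h u : ℝ} (hh : 0 ≤ h) (hu : 0 ≤ u) : 0 ≤ eT γ γ' h u := by
  unfold eT; positivity

/-- **slices**: `s` = `I` or `-I` -/
def SliceP (s : ℂ) (γ γ' : ℝ) (P : P4) : Prop :=
  ∀ A B r : ℤ, Run P.F A B r → ∀ a b : ℝ, (A : ℝ) < a → a ≤ b → b < B + 1 →
    ∃ (h0 C : ℝ) (W : ℝ → ℝ), 0 < h0 ∧ 0 ≤ C ∧ (∀ h, 0 ≤ W h) ∧
      Tendsto (fun h => W h / h) (𝓝[>] 0) (𝓝 0) ∧
      ∀ h y : ℝ, 0 < h → h < h0 → (r : ℝ) + 2 * h < y → y < (r : ℝ) + 1 - 2 * h →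
        2 * h < |y - ((r : ℝ) + 1 / 2)| →
        ∀ Ln : ℕ → ℤ, (∀ n, Even (Ln n)) → Tendsto Ln atTop atTop →
          ∃ G : ℕ → ℤ → ℤ → ℂ, CSr atTop s (fun n => 2 / (Ln n : ℝ)) G a b (y - h) (y + h) ∧
            ∀ᶠ n in atTop, ∀ i j : ℤ, a ≤ 2 / (Ln n : ℝ) * i → 2 / (Ln n : ℝ) * i ≤ b →
              y - h ≤ 2 / (Ln n : ℝ) * j → 2 / (Ln n : ℝ) * j ≤ y + h →
              ‖P.HD (Ln n) (2 * i) (2 * j) - G n i j‖ ≤
                W h + C * (eT γ γ' h |y - r| + eT γ γ' h |y - ((r : ℝ) + 1 / 2)| +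
                  eT γ γ' h |y - ((r : ℝ) + 1)|)


lemma mem_sq_iff {q : V} {x y : ℝ} : ((x : ℂ) + (y : ℂ) * I) ∈ Crest.Agent.R158.Sp896.sq 1 q ↔
    (q.1 : ℝ) ≤ x ∧ x ≤ q.1 + 1 ∧ (q.2 : ℝ) ≤ y ∧ y ≤ q.2 + 1 := by
  unfold Crest.Agent.R158.Sp896.sq
  simp

/-- the run under a horizontal segment of the open region -/
theorem exists_run_of {F : Finset (ℤ × ℤ)} {a b y : ℝ} (hab : a ≤ b)
    (h : ∀ x ∈ Icc a b, ((x : ℂ) + (y : ℂ) * I) ∈ Om 1 (↑F)) :
    ∃ A B : ℤ, Run F A B ⌊y⌋ ∧ (A : ℝ) < a ∧ b < (B : ℝ) + 1 := by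
  have key : ∀ (k : ℤ) (x : ℝ), x ∈ Icc a b → (k : ℝ) ≤ x → x ≤ k + 1 → (k, ⌊y⌋) ∈ F := by
    intro k x hx h1 h2
    have h3 := (mem_om one_pos).1 (h x hx) (k, ⌊y⌋) (mem_sq_iff.2
      ⟨h1, h2, Int.floor_le y, (Int.lt_floor_add_one y).le⟩)
    exact_mod_cast h3
  obtain ⟨A, B, h1, h2, hr⟩ := exists_run F (key ⌊a⌋ a (left_mem_Icc.2 hab) (Int.floor_le a)
    (Int.lt_floor_add_one a).le)
  simp only at h1 h2 hr
  refine ⟨A, B, hr, ?_, ?_⟩
  · have h3 : (A : ℝ) ≤ a := (by exact_mod_cast h1 : (A : ℝ) ≤ ⌊a⌋).trans (Int.floor_le a)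
    rcases h3.eq_or_lt with h4 | h4
    · exfalso
      exact hr.left (key (A - 1) a (left_mem_Icc.2 hab) (by push_cast; linarith)
        (by push_cast; linarith))
    · exact h4
  · by_contra hcon
    push Not at hcon
    have h5 : a ≤ (B : ℝ) + 1 := by
      have h6 : (⌊a⌋ : ℝ) ≤ B := by exact_mod_cast h2
      linarith [Int.lt_floor_add_one a]
    exact hr.right (key (B + 1) ((B : ℝ) + 1) ⟨h5, hcon⟩ (by push_cast; linarith)
      (by push_cast; linarith))

/-- uniform constants over finitely many rows -/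
theorem SliceP.unif {s : ℂ} {γ γ' : ℝ} {P : P4} (h : SliceP s γ γ' P) {a b : ℝ} (hab : a ≤ b)
    (S : Finset ℤ) :
    ∃ (h0 C : ℝ) (W : ℝ → ℝ), 0 < h0 ∧ 0 ≤ C ∧ (∀ h, 0 ≤ W h) ∧
      Tendsto (fun h => W h / h) (𝓝[>] 0) (𝓝 0) ∧
      ∀ r ∈ S, (∃ A B : ℤ, Run P.F A B r ∧ (A : ℝ) < a ∧ b < B + 1) →
      ∀ h y : ℝ, 0 < h → h < h0 → (r : ℝ) + 2 * h < y → y < (r : ℝ) + 1 - 2 * h →
        2 * h < |y - ((r : ℝ) + 1 / 2)| →
        ∀ Ln : ℕ → ℤ, (∀ n, Even (Ln n)) → Tendsto Ln atTop atTop →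
          ∃ G : ℕ → ℤ → ℤ → ℂ, CSr atTop s (fun n => 2 / (Ln n : ℝ)) G a b (y - h) (y + h) ∧
            ∀ᶠ n in atTop, ∀ i j : ℤ, a ≤ 2 / (Ln n : ℝ) * i → 2 / (Ln n : ℝ) * i ≤ b →
              y - h ≤ 2 / (Ln n : ℝ) * j → 2 / (Ln n : ℝ) * j ≤ y + h →
              ‖P.HD (Ln n) (2 * i) (2 * j) - G n i j‖ ≤
                W h + C * (eT γ γ' h |y - r| + eT γ γ' h |y - ((r : ℝ) + 1 / 2)| +
                  eT γ γ' h |y - ((r : ℝ) + 1)|) := by
  induction S using Finset.induction_on with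
  | empty =>
    refine ⟨1, 0, fun _ => 0, one_pos, le_rfl, fun _ => le_rfl, by simp, ?_⟩
    intro r hr
    exact absurd hr (Finset.notMem_empty r)
  | insert r0 S _ ih =>
    obtain ⟨h1, C1, W1, hh1, hC1, hW1, hT1, H1⟩ := ih
    by_cases hr0 : ∃ A B : ℤ, Run P.F A B r0 ∧ (A : ℝ) < a ∧ b < B + 1
    · obtain ⟨A, B, hrun, hA, hB⟩ := hr0
      obtain ⟨h2, C2, W2, hh2, hC2, hW2, hT2, H2⟩ := h A B r0 hrun a b hA hab hB
      refine ⟨min h1 h2, C1 + C2, fun h => W1 h + W2 h, lt_min hh1 hh2, add_nonneg hC1 hC2,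
        fun h => add_nonneg (hW1 h) (hW2 h), ?_, ?_⟩
      · have := hT1.add hT2
        rw [add_zero] at this
        refine this.congr fun h => ?_
        rw [add_div]
      · intro r hr hex h' y hh' hlt g1 g2 g3 Ln hev hL
        have n1 : 0 ≤ eT γ γ' h' |y - r| := eT_nonneg hh'.le (abs_nonneg _)
        have n2 : 0 ≤ eT γ γ' h' |y - ((r : ℝ) + 1 / 2)| := eT_nonneg hh'.le (abs_nonneg _)
        have n3 : 0 ≤ eT γ γ' h' |y - ((r : ℝ) + 1)| := eT_nonneg hh'.le (abs_nonneg _)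
        rcases Finset.mem_insert.1 hr with rfl | hr
        · obtain ⟨G, q1, q2⟩ := H2 h' y hh' (hlt.trans_le (min_le_right _ _)) g1 g2 g3 Ln hev hL
          refine ⟨G, q1, ?_⟩
          filter_upwards [q2] with n hn i j k1 k2 k3 k4
          refine (hn i j k1 k2 k3 k4).trans ?_
          have := hW1 h'
          nlinarith
        · obtain ⟨G, q1, q2⟩ := H1 r hr hex h' y hh' (hlt.trans_le (min_le_left _ _)) g1 g2 g3
            Ln hev hL
          refine ⟨G, q1, ?_⟩
          filter_upwards [q2] with n hn i j k1 k2 k3 k4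
          refine (hn i j k1 k2 k3 k4).trans ?_
          have := hW2 h'
          nlinarith
    · refine ⟨h1, C1, W1, hh1, hC1, hW1, hT1, ?_⟩
      intro r hr hex
      rcases Finset.mem_insert.1 hr with rfl | hr
      · exact absurd hex hr0
      · exact H1 r hr hex

/-- bad heights: all `k / 2` in a range -/
def badH (c e : ℝ) : Finset ℝ :=
  (Finset.Icc (⌊2 * c⌋ - 2) (⌈2 * e⌉ + 4)).image fun k : ℤ => (k : ℝ) / 2

lemma mem_badH {c e : ℝ} {k : ℤ} (h1 : 2 * c - 2 ≤ k) (h2 : (k : ℝ) ≤ 2 * e + 4) :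
    (k : ℝ) / 2 ∈ badH c e := by
  unfold badH
  refine Finset.mem_image_of_mem _ (Finset.mem_Icc.2 ⟨?_, ?_⟩)
  · have h3 := Int.floor_le (2 * c)
    have : ((⌊2 * c⌋ - 2 : ℤ) : ℝ) ≤ (k : ℝ) := by push_cast; linarith
    exact_mod_cast this
  · have h3 := Int.le_ceil (2 * e)
    have : (k : ℝ) ≤ ((⌈2 * e⌉ + 4 : ℤ) : ℝ) := by push_cast; linarith
    exact_mod_cast this

lemma dpos {Ln : ℕ → ℤ} (hL : Tendsto Ln atTop atTop) : ∀ᶠ n in atTop, 0 < 2 / (Ln n : ℝ) := by
  filter_upwards [hL.eventually (eventually_ge_atTop 1)] with n hn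
  have : (1 : ℝ) ≤ Ln n := by exact_mod_cast hn
  positivity

lemma dlim {Ln : ℕ → ℤ} (hL : Tendsto Ln atTop atTop) :
    Tendsto (fun n => 2 / (Ln n : ℝ)) atTop (𝓝 0) := by
  have h1 : Tendsto (fun n => (Ln n : ℝ)) atTop atTop := tendsto_intCast_atTop_iff.2 hL
  exact h1.const_div_atTop 2

lemma mpos_eq (L x y : ℤ) : mpos L x y = (((x : ℝ) / L : ℝ) : ℂ) + (((y : ℝ) / L : ℝ) : ℂ) * I := by
  apply Complex.ext <;> simp [mpos]



end

end Crest.Agent.R158.Cs410
end

-- ▼ part R158/Csf2_410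

/-!
# R158, Q1 = assembly (helper410), part 2: the target `Q1m` of 656

* `SliceU s P` : for every macroscopic run `[A, B]` of `P` at height `r`, every `a ≤ b` inside it, every
  `[c, e]` inside one half row, thin slices centred in `[c, e]`: comparison function with error
  `W h = o(h)`
* `OscM P` : **the official form of BL**, rows `L ∣ y` excluded
* `Q1m_of_slices : (∀ P, SliceU (sg an) P) → (∀ P, OscM P) → Q1m an`
-/

set_option autoImplicit false

open Filter Topology Set Metric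
open Complex (I)

namespace Crest.Agent.R158.Cs410

open Crest.Agent.R158.Wl290 (CSr sg)
open Crest.Agent.R158.Sp896 (V)
open Crest.Agent.R158.Env664 (Run exists_run)
open Crest.Agent.R158.Tj656 (P4 Om mpos Q1 Q1m mem_om om_open)

noncomputable section

/-- half row: `[c, e]` lies inside `(r, r + 1/2)` or inside `(r + 1/2, r + 1)` -/
def InHalf (r : ℤ) (c e : ℝ) : Prop :=
  ((r : ℝ) < c ∧ e < (r : ℝ) + 1 / 2) ∨ ((r : ℝ) + 1 / 2 < c ∧ e < (r : ℝ) + 1)

/-- **slices** -/
def SliceU (s : ℂ) (P : P4) : Prop :=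
  ∀ A B r : ℤ, Run P.F A B r → ∀ a b : ℝ, (A : ℝ) < a → a ≤ b → b < B + 1 →
    ∀ c e : ℝ, c ≤ e → InHalf r c e →
    ∃ (h0 : ℝ) (W : ℝ → ℝ), 0 < h0 ∧ (∀ h, 0 ≤ W h) ∧
      Tendsto (fun h => W h / h) (𝓝[>] 0) (𝓝 0) ∧
      ∀ h y : ℝ, 0 < h → h < h0 → c ≤ y → y ≤ e →
        ∀ Ln : ℕ → ℤ, (∀ n, Even (Ln n)) → Tendsto Ln atTop atTop →
          ∃ G : ℕ → ℤ → ℤ → ℂ, CSr atTop s (fun n => 2 / (Ln n : ℝ)) G a b (y - h) (y + h) ∧
            ∀ᶠ n in atTop, ∀ i j : ℤ, a ≤ 2 / (Ln n : ℝ) * i → 2 / (Ln n : ℝ) * i ≤ b →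
              y - h ≤ 2 / (Ln n : ℝ) * j → 2 / (Ln n : ℝ) * j ≤ y + h →
              ‖P.HD (Ln n) (2 * i) (2 * j) - G n i j‖ ≤ W h

/-- **BL, official form**: small vertical oscillation in thin slabs around the heights `k / 2` -/
def OscM (P : P4) : Prop :=
  ∀ (k : ℤ) (r0 ε : ℝ), 0 < r0 → 0 < ε → ∃ h : ℝ, 0 < h ∧ ∃ L0 : ℤ, ∀ L : ℤ, L0 ≤ L → Even L →
    ∀ x y y' : ℤ, ¬ L ∣ y → ¬ L ∣ y' → |(y : ℝ) / L - k / 2| ≤ h → |(y' : ℝ) / L - k / 2| ≤ h →
      ball (mpos L x y) r0 ⊆ P.Om → ball (mpos L x y') r0 ⊆ P.Om →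
      ‖P.HD L x y - P.HD L x y'‖ ≤ ε

/-- closeness transfers `CSr` -/
theorem csr_congr {ι : Type*} {l : Filter ι} {s : ℂ} {d : ι → ℝ} {H H' : ι → ℤ → ℤ → ℂ}
    {a b c e : ℝ} (h : CSr l s d H a b c e) (hd : ∀ᶠ n in l, 0 < d n)
    (heq : ∀ᶠ n in l, ∀ i j : ℤ, a ≤ d n * i → d n * i ≤ b → c ≤ d n * j → d n * j ≤ e →
      H' n i j = H n i j) : CSr l s d H' a b c e := by
  intro ε hε
  filter_upwards [h ε hε, heq, hd] with n hn he hdn i1 i2 j1 j2 hi hj g1 g2 g3 g4
  have hib : (i1 : ℝ) ≤ i2 := by exact_mod_cast hi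
  have hjb : (j1 : ℝ) ≤ j2 := by exact_mod_cast hj
  have e1 : Wl290.csum s (H' n) i1 i2 j1 j2 = Wl290.csum s (H n) i1 i2 j1 j2 := by
    unfold Wl290.csum
    congr 1
    · refine Finset.sum_congr rfl fun i hi' => ?_
      rw [Finset.mem_Ico] at hi'
      have q1 : (i1 : ℝ) ≤ i := by exact_mod_cast hi'.1
      have q2 : (i : ℝ) ≤ i2 := by exact_mod_cast hi'.2.le
      rw [he i j2 (by nlinarith) (by nlinarith) (by nlinarith) g4,
        he i j1 (by nlinarith) (by nlinarith) g3 (by nlinarith)]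
    · congr 1
      refine Finset.sum_congr rfl fun j hj' => ?_
      rw [Finset.mem_Ico] at hj'
      have q1 : (j1 : ℝ) ≤ j := by exact_mod_cast hj'.1
      have q2 : (j : ℝ) ≤ j2 := by exact_mod_cast hj'.2.le
      rw [he i2 j (by nlinarith) g2 (by nlinarith) (by nlinarith),
        he i1 j g1 (by nlinarith) (by nlinarith) (by nlinarith)]
  rw [e1]
  exact hn i1 i2 j1 j2 hi hj g1 g2 g3 g4

/-- **closed rectangles inside a half row** -/
theorem half_row {s : ℂ} (hs : ‖s‖ ≤ 1) {P : P4} (h : SliceU s P) {A B r : ℤ}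
    (hr : Run P.F A B r) {a b : ℝ} (hA : (A : ℝ) < a) (hab : a ≤ b) (hB : b < B + 1) {c e : ℝ}
    (hce : c ≤ e) (hc : InHalf r c e) {Ln : ℕ → ℤ} (hev : ∀ n, Even (Ln n))
    (hL : Tendsto Ln atTop atTop) :
    CSr atTop s (fun n => 2 / (Ln n : ℝ)) (fun n i j => P.HD (Ln n) (2 * i) (2 * j)) a b c e := by
  obtain ⟨e', he, hc'⟩ : ∃ e' : ℝ, e < e' ∧ InHalf r c e' := by
    rcases hc with ⟨h1, h2⟩ | ⟨h1, h2⟩
    · exact ⟨(e + ((r : ℝ) + 1 / 2)) / 2, by linarith, Or.inl ⟨h1, by linarith⟩⟩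
    · exact ⟨(e + ((r : ℝ) + 1)) / 2, by linarith, Or.inr ⟨h1, by linarith⟩⟩
  obtain ⟨h0, W, hh0, hW, hT, H⟩ := h A B r hr a b hA hab hB c e' (hce.trans he.le) hc'
  refine CSr_assemble hs (dpos hL) (dlim hL) hab hce (h0 := min h0 (e' - e))
    (lt_min hh0 (sub_pos.2 he)) W hW hT ∅ le_rfl (γ := 2) (γ' := 1) one_pos (by norm_num) ?_ ?_
  · intro h' hh' hlt y hy1 hy2 _
    have g1 := hlt.trans_le (min_le_left _ _)
    have g2 := hlt.trans_le (min_le_right _ _)
    obtain ⟨G, q1, q2⟩ := H h' y hh' g1 hy1 (by linarith) Ln hev hL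
    refine ⟨G, q1, ?_⟩
    filter_upwards [q2] with n hn i j k1 k2 k3 k4
    simpa using hn i j k1 k2 k3 k4
  · intro t ht
    exact absurd ht (Finset.notMem_empty t)

/-- a height at positive distance from all half integers lies in one half row, with its slice -/
lemma inHalf_of {y h : ℝ} (h0 : 2 * h < |y - (⌊y⌋ : ℝ)|) (h1 : 2 * h < |y - ((⌊y⌋ : ℝ) + 1 / 2)|)
    (h2 : 2 * h < |y - ((⌊y⌋ : ℝ) + 1)|) (hh : 0 < h) : InHalf ⌊y⌋ (y - h) (y + h) := by
  have hr1 : (⌊y⌋ : ℝ) ≤ y := Int.floor_le y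
  have hr2 : y < ⌊y⌋ + 1 := Int.lt_floor_add_one y
  rw [abs_of_nonneg (by linarith)] at h0
  rw [abs_of_nonpos (by linarith)] at h2
  rcases le_total y ((⌊y⌋ : ℝ) + 1 / 2) with hy | hy
  · rw [abs_of_nonpos (by linarith)] at h1
    exact Or.inl ⟨by linarith, by linarith⟩
  · rw [abs_of_nonneg (by linarith)] at h1
    exact Or.inr ⟨by linarith, by linarith⟩

/-- on a half row no lattice row is a multiple of `L` -/
lemma not_dvd_of {r L j : ℤ} {c e : ℝ} (h : InHalf r c e) (hL : 0 < L) (h1 : c ≤ (j : ℝ) / L)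
    (h2 : (j : ℝ) / L ≤ e) : ¬ L ∣ j := by
  rintro ⟨k, rfl⟩
  have hLp : (L : ℝ) ≠ 0 := by exact_mod_cast hL.ne'
  rw [Int.cast_mul, mul_div_cancel_left₀ _ hLp] at h1 h2
  have h3 : (r : ℝ) < k := by rcases h with ⟨a1, a2⟩ | ⟨a1, a2⟩ <;> linarith
  have h4 : (k : ℝ) < r + 1 := by rcases h with ⟨a1, a2⟩ | ⟨a1, a2⟩ <;> linarith
  have h5 : r < k := by exact_mod_cast h3
  have h6 : k < r + 1 := by exact_mod_cast h4
  omega

set_option maxHeartbeats 1000000 in
/-- **`SliceU` and `OscM` imply contour sums for one polygon** -/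
theorem csm_of_slices {s : ℂ} (hs : ‖s‖ ≤ 1) {P : P4} (h : SliceU s P) (ho : OscM P)
    {a b c e : ℝ} (hab : a ≤ b) (hce : c ≤ e)
    (hR : ∀ x ∈ Icc a b, ∀ y ∈ Icc c e, ((x : ℂ) + (y : ℂ) * I) ∈ P.Om) {Ln : ℕ → ℤ}
    (hev : ∀ n, Even (Ln n)) (hL : Tendsto Ln atTop atTop) :
    CSr atTop s (fun n => 2 / (Ln n : ℝ)) (fun n i j => P.HM (Ln n) (2 * i) (2 * j)) a b c e := by
  -- distance to the complement
  set R : Set ℂ := Icc a b ×ℂ Icc c e with hRdef
  have hRc : IsCompact R := (isCompact_Icc).reProdIm isCompact_Icc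
  have hRO : R ⊆ P.Om := by
    intro z hz
    rw [hRdef, Complex.mem_reProdIm] at hz
    have := hR z.re hz.1 z.im hz.2
    rwa [Complex.re_add_im] at this
  have hopen : IsOpen P.Om := om_open 1 _
  obtain ⟨r0, hr0, hball⟩ := hRc.exists_thickening_subset_open hopen hRO
  have hball' : ∀ x y : ℝ, a ≤ x → x ≤ b → ∀ t, c ≤ t → t ≤ e → |y - t| < r0 / 2 →
      ball ((x : ℂ) + (y : ℂ) * I) (r0 / 2) ⊆ P.Om := by
    intro x y hx1 hx2 t ht1 ht2 hyt w hw
    refine hball (mem_thickening_iff.2 ⟨(x : ℂ) + (t : ℂ) * I, ?_, ?_⟩)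
    · rw [hRdef, Complex.mem_reProdIm]
      simp [hx1, hx2, ht1, ht2]
    · have h1 : dist w ((x : ℂ) + (y : ℂ) * I) < r0 / 2 := hw
      have h2 : dist ((x : ℂ) + (y : ℂ) * I) ((x : ℂ) + (t : ℂ) * I) < r0 / 2 := by
        rw [dist_eq_norm]
        have e1 : (x : ℂ) + (y : ℂ) * I - ((x : ℂ) + (t : ℂ) * I) = ((y - t : ℝ) : ℂ) * I := by
          push_cast; ring
        rw [e1, norm_mul, Complex.norm_I, mul_one, Complex.norm_real, Real.norm_eq_abs]
        exact hyt
      linarith [dist_triangle w ((x : ℂ) + (y : ℂ) * I) ((x : ℂ) + (t : ℂ) * I)]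
  refine CSr_assemble hs (dpos hL) (dlim hL) hab hce (h0 := 1) one_pos (fun _ => 0)
    (fun _ => le_rfl) (by simp) (badH c e) le_rfl (γ := 2) (γ' := 1) one_pos (by norm_num) ?_ ?_
  · intro h' hh' hle1 y hy1 hy2 hfar
    set r : ℤ := ⌊y⌋ with hr
    have hr1 : (r : ℝ) ≤ y := Int.floor_le y
    have hr2 : y < r + 1 := Int.lt_floor_add_one y
    have m0 : (r : ℝ) ∈ badH c e := by
      have := mem_badH (c := c) (e := e) (k := 2 * r) (by push_cast; linarith)
        (by push_cast; linarith)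
      rwa [show ((2 * r : ℤ) : ℝ) / 2 = r by push_cast; ring] at this
    have m1 : (r : ℝ) + 1 / 2 ∈ badH c e := by
      have := mem_badH (c := c) (e := e) (k := 2 * r + 1) (by push_cast; linarith)
        (by push_cast; linarith)
      rwa [show ((2 * r + 1 : ℤ) : ℝ) / 2 = (r : ℝ) + 1 / 2 by push_cast; ring] at this
    have m2 : (r : ℝ) + 1 ∈ badH c e := by
      have := mem_badH (c := c) (e := e) (k := 2 * r + 2) (by push_cast; linarith)
        (by push_cast; linarith)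
      rwa [show ((2 * r + 2 : ℤ) : ℝ) / 2 = (r : ℝ) + 1 by push_cast; ring] at this
    have hIn : InHalf r (y - h') (y + h') := inHalf_of (hfar _ m0) (hfar _ m1) (hfar _ m2) hh'
    have f0 := hfar _ m0
    have f2 := hfar _ m2
    rw [abs_of_nonneg (by linarith)] at f0
    rw [abs_of_nonpos (by linarith)] at f2
    -- the row contains a point of the rectangle
    have hyy : ∃ y', y' ∈ Icc c e ∧ ⌊y'⌋ = r := by
      rcases le_total y e with hye | hye
      · exact ⟨y, ⟨hy1, hye⟩, rfl⟩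
      · refine ⟨e, ⟨hce, le_rfl⟩, ?_⟩
        rw [Int.floor_eq_iff]
        constructor <;> linarith
    obtain ⟨y', hy', hfl⟩ := hyy
    obtain ⟨A, B, hrun, hA, hB⟩ := exists_run_of hab fun x hx => hR x hx y' hy'
    rw [hfl] at hrun
    refine ⟨fun n i j => P.HM (Ln n) (2 * i) (2 * j), ?_, ?_⟩
    · refine csr_congr (half_row hs h hrun hA hab hB (by linarith) hIn hev hL) (dpos hL) ?_
      filter_upwards [hL.eventually (eventually_ge_atTop 1)] with n hn i j g1 g2 g3 g4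
      refine Tj656.HM_of (not_dvd_of hIn (by omega) ?_ ?_)
      · push_cast; rw [mul_div_right_comm]; exact g3
      · push_cast; rw [mul_div_right_comm]; exact g4
    · exact Eventually.of_forall fun n i j _ _ _ _ => by simp
  · intro t ht ht1 ht2 ε hε
    unfold badH at ht
    rw [Finset.mem_image] at ht
    obtain ⟨k, -, rfl⟩ := ht
    have hb1 : 0 < (b - a) + 1 := by linarith
    obtain ⟨h1, hh1, L0, hosc⟩ := ho k (r0 / 2) (ε / 2 / ((b - a) + 1)) (by positivity)
      (by positivity)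
    set h2 : ℝ := min (h1 / 2) (min (r0 / 8) (ε / 16)) with hh2
    have p1 : h2 ≤ h1 / 2 := min_le_left _ _
    have p2 : h2 ≤ r0 / 8 := (min_le_right _ _).trans (min_le_left _ _)
    have p3 : h2 ≤ ε / 16 := (min_le_right _ _).trans (min_le_right _ _)
    have p0 : 0 < h2 := lt_min (by positivity) (lt_min (by positivity) (by positivity))
    refine ⟨h2, p0, ?_⟩
    have hmain := CSd_of_osc (l := atTop) hs (dpos hL)
      (H := fun n i j => P.HM (Ln n) (2 * i) (2 * j)) (a := a) (b := b)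
      (c := (k : ℝ) / 2 - h2) (e := (k : ℝ) / 2 + h2)
      (w := ε / 2 / ((b - a) + 1)) (B0 := 1) (by positivity) zero_le_one
      (Eventually.of_forall fun n i j _ _ _ _ => Ob664.norm_le_of_Tri (Tj656.HM_mem _ _ _ _)) ?_
    · refine hmain.mono le_rfl le_rfl le_rfl le_rfl ?_
      have e1 : (b - a) * (ε / 2 / ((b - a) + 1)) ≤ ε / 2 := by
        rw [mul_div_assoc', div_le_iff₀ hb1]
        nlinarith
      linarith
    · have hd2 := (dlim hL).eventually (gt_mem_nhds p0)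
      filter_upwards [hL.eventually (eventually_ge_atTop L0), hL.eventually (eventually_ge_atTop 3),
        hd2] with n hn hn1 hdn i j j' g1 g2 g3 g4 g5 g6
      have hLp : (0 : ℝ) < Ln n := by
        have : (3 : ℝ) ≤ Ln n := by exact_mod_cast hn1
        linarith
      -- the row that is used
      have key : ∀ j : ℤ, (k : ℝ) / 2 - h2 ≤ 2 / (Ln n : ℝ) * j →
          2 / (Ln n : ℝ) * j ≤ (k : ℝ) / 2 + h2 → ∃ y : ℤ, ¬ Ln n ∣ y ∧
            P.HM (Ln n) (2 * i) (2 * j) = P.HD (Ln n) (2 * i) y ∧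
            |(y : ℝ) / (Ln n : ℝ) - (k : ℝ) / 2| ≤ 2 * h2 := by
        intro j q1 q2
        by_cases hdv : Ln n ∣ 2 * j
        · refine ⟨2 * j + 2, ?_, if_pos hdv, ?_⟩
          · intro h3
            have h4 := (Int.dvd_iff_dvd_of_dvd_add h3).1 hdv
            have h5 := Int.le_of_dvd (by norm_num) h4
            omega
          · have e1 : ((2 * j + 2 : ℤ) : ℝ) / (Ln n : ℝ) = 2 / (Ln n : ℝ) * j + 2 / (Ln n : ℝ) := by
              push_cast; ring
            rw [e1, abs_le]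
            have e2 : 0 < 2 / (Ln n : ℝ) := by positivity
            constructor <;> linarith
        · refine ⟨2 * j, hdv, if_neg hdv, ?_⟩
          have e1 : ((2 * j : ℤ) : ℝ) / (Ln n : ℝ) = 2 / (Ln n : ℝ) * j := by
            push_cast; ring
          rw [e1, abs_le]
          constructor <;> linarith
      obtain ⟨y, v1, v2, v3⟩ := key j g3 g4
      obtain ⟨y', w1, w2, w3⟩ := key j' g5 g6
      have ex : ((2 * i : ℤ) : ℝ) / (Ln n : ℝ) = 2 / (Ln n : ℝ) * i := by
        push_cast; ring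
      rw [v2, w2]
      refine hosc (Ln n) hn (hev n) (2 * i) y y' v1 w1 (v3.trans (by linarith))
        (w3.trans (by linarith)) ?_ ?_
      · rw [mpos_eq, ex]
        exact hball' _ _ g1 g2 _ ht1 ht2 (by linarith)
      · rw [mpos_eq, ex]
        exact hball' _ _ g1 g2 _ ht1 ht2 (by linarith)

/-- **`Q1m` from slices** -/
theorem Q1m_of_slices (an : Bool) (h : ∀ P : P4, SliceU (sg an) P) (ho : ∀ P : P4, OscM P) :
    Q1m an := by
  intro P x1 x2 y1 y2 hx hy hR Ln hev hL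
  refine csm_of_slices ?_ (h P) (ho P) hx hy hR hev hL
  cases an <;> simp [sg]

end

end Crest.Agent.R158.Cs410
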