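import Mathlib
import Crest.Agent.R158.Bm7_857
import Crest.Agent.R158.Cs1_410
import Crest.Agent.R158.Cs2_410
import Crest.Agent.R158.Csf2_410
import Crest.Agent.R158.Ao12_857
import Crest.Agent.R158.Xr12_249

-- ▼ part R158/Cs3_410
section

/-!
# R158, Block CS (helper410), part 3: the ring function satisfies `CSr`

* `insN n p` : 857/932's insertion, `p : ℕ`
* `HG n L c O I Z p a` : family of amplitudes, insertion at the gap `p`, `a` rows below, `L - a` above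
* `hg_step` : two rows / two columns, from `band`
* `csum_back`, `CSr_of_back` : backward form of the relation
* `ring_CSr` (`s = I`), `ring_CSr_mirror` (`s = -I`)
-/

set_option autoImplicit false

noncomputable section

open Matrix Finset Filter Topology
open scoped Matrix.Norms.L2Operator

namespace Crest.Agent.R158.Cs410

open Crest.Agent.R158.Wl290
open Crest.Agent.R158.Bd932 (That e3 ins)

/-- insertion of a line at the gap `p` -/
def insN (n p : ℕ) : Matrix (Fin (n + 2) → Bool) (Fin (n + 1) → Bool) ℂ :=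
  if h : p < n + 2 then ins n ⟨p, h⟩ else 0

/-- family of amplitudes on the ring with `n + 1` columns (`n + 2` above the insertion); the twist
`c μ` may depend on the member of the family -/
def HG (n : ℕ) (L : ℕ) {ι : Type*} [Fintype ι] (c : ι → ℝ) (O : ι → (Fin (n + 2) → Bool) → ℂ)
    (I : ι → (Fin (n + 1) → Bool) → ℂ) (Z : ℂ) (p a : ℕ) : ℂ :=
  (∑ μ, amp (That (n + 2) (c μ + e3) (1 / 2)) (That (n + 1) (c μ) (1 / 2)) (insN n p) (L - a) a
    (O μ) (I μ)) / Z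

/-- **two rows / two columns** -/
theorem hg_step {ε h H : ℝ} (hε : 0 < ε) (hh0 : 0 < h) (hH : 0 ≤ H) : ∃ C : ℝ, 0 < C ∧
    ∀ᶠ n : ℕ in atTop, ∀ (L p a : ℕ), p + 2 < n + 2 → h * (n + 1) ≤ a → a + 2 ≤ L →
      h * (n + 1) ≤ (L - (a + 2) : ℕ) → L ≤ H * (n + 1) →
      ∀ {ι : Type} [Fintype ι] (c : ι → ℝ) (O : ι → (Fin (n + 2) → Bool) → ℂ)
        (I : ι → (Fin (n + 1) → Bool) → ℂ) (Z : ℂ), Z ≠ 0 → ∀ K : ℝ,
        ∑ μ, nrm (I μ) * nrm (O μ) ≤ K * ‖Z‖ →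
      ‖(HG n L c O I Z (p + 2) (a + 2) - HG n L c O I Z (p + 2) a) -
          Complex.I * (HG n L c O I Z (p + 2) a - HG n L c O I Z p a)‖ ≤
        C * ((n : ℝ) + 1) ^ (-(4 / 3) + ε) * K := by
  obtain ⟨C, hC, H1⟩ := Crest.Agent.R158.Bm857.band hε hh0 hH
  refine ⟨C, hC, ?_⟩
  filter_upwards [H1] with n hn L p a hp ha1 ha2 hb1 hL ι _ c O I Z hZ K hK
  have hp' : p < n := by omega
  have haL : (a : ℝ) ≤ L := by exact_mod_cast (by omega : a ≤ L)
  have hbL : ((L - (a + 2) : ℕ) : ℝ) ≤ L := by exact_mod_cast Nat.sub_le _ _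
  have h1 := fun μ => hn (c μ) ⟨p, hp'⟩ a (L - (a + 2)) ha1 (haL.trans hL) hb1 (hbL.trans hL)
  have e1 : insN n (p + 2) = ins n (⟨p, hp'⟩ : Fin n).succ.succ := by
    rw [insN, dif_pos (by omega)]
    rfl
  have e2 : insN n p = ins n (⟨p, hp'⟩ : Fin n).castSucc.castSucc := by
    rw [insN, dif_pos (by omega)]
    rfl
  simp only [← e1, ← e2] at h1
  have hZ' : 0 < ‖Z‖ := norm_pos_iff.2 hZ
  have e3 : L - a = L - (a + 2) + 2 := by omega
  have h2 : (HG n L c O I Z (p + 2) (a + 2) - HG n L c O I Z (p + 2) a) -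
          Complex.I * (HG n L c O I Z (p + 2) a - HG n L c O I Z p a) =
      (∑ μ, ((amp (That (n + 2) (c μ + Bd932.e3) (1 / 2)) (That (n + 1) (c μ) (1 / 2)) (insN n (p + 2))
          (L - (a + 2)) (a + 2) (O μ) (I μ) -
        amp (That (n + 2) (c μ + Bd932.e3) (1 / 2)) (That (n + 1) (c μ) (1 / 2)) (insN n (p + 2))
          (L - (a + 2) + 2) a (O μ) (I μ)) +
        Complex.I * (amp (That (n + 2) (c μ + Bd932.e3) (1 / 2)) (That (n + 1) (c μ) (1 / 2)) (insN n p)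
          (L - (a + 2) + 2) a (O μ) (I μ) -
          amp (That (n + 2) (c μ + Bd932.e3) (1 / 2)) (That (n + 1) (c μ) (1 / 2)) (insN n (p + 2))
          (L - (a + 2) + 2) a (O μ) (I μ)))) / Z := by
    simp only [HG, e3, Finset.sum_add_distrib, Finset.sum_sub_distrib, ← Finset.mul_sum]
    ring
  rw [h2, norm_div, div_le_iff₀ hZ']
  refine (norm_sum_le _ _).trans ?_
  refine (Finset.sum_le_sum fun μ _ => amp_step_le (h1 μ) (O μ) (I μ)).trans ?_
  rw [← Finset.mul_sum]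
  have h3 : 0 ≤ C * ((n : ℝ) + 1) ^ (-(4 / 3) + ε) := by positivity
  calc C * ((n : ℝ) + 1) ^ (-(4 / 3) + ε) * ∑ μ, nrm (I μ) * nrm (O μ) ≤
      C * ((n : ℝ) + 1) ^ (-(4 / 3) + ε) * (K * ‖Z‖) := mul_le_mul_of_nonneg_left hK h3
    _ = _ := by ring

/-- backward telescoping identity -/
theorem csum_back (s : ℂ) (H : ℤ → ℤ → ℂ) {i1 i2 j1 j2 : ℤ} (hi : i1 ≤ i2) (hj : j1 ≤ j2) :
    csum s H i1 i2 j1 j2 = ∑ i ∈ Finset.Ico i1 i2, ∑ j ∈ Finset.Ico j1 j2,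
      ((H (i + 1) (j + 1) - H (i + 1) j) - s * (H (i + 1) j - H i j)) +
      ((H i1 j2 - H i1 j1) - (H i2 j2 - H i2 j1)) := by
  have tel : ∀ (f : ℤ → ℂ) {a b : ℤ}, a ≤ b → ∑ k ∈ Finset.Ico a b, (f (k + 1) - f k) =
      f b - f a := by
    intro f a b hab
    obtain ⟨k, rfl⟩ : ∃ k : ℕ, b = a + k := ⟨(b - a).toNat, by omega⟩
    induction k with
    | zero => simp
    | succ k ih =>
      have h1 : Finset.Ico a (a + ((k + 1 : ℕ) : ℤ)) = insert (a + (k : ℤ)) (Finset.Ico a (a + k)) := by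
        ext x; simp only [Finset.mem_Ico, Finset.mem_insert]; push_cast; omega
      rw [h1, Finset.sum_insert (by simp), ih (by omega)]
      push_cast
      ring_nf
  have e1 : ∑ i ∈ Finset.Ico i1 i2, (H i j2 - H i j1) =
      ∑ i ∈ Finset.Ico i1 i2, ∑ j ∈ Finset.Ico j1 j2, (H (i + 1) (j + 1) - H (i + 1) j) +
      ((H i1 j2 - H i1 j1) - (H i2 j2 - H i2 j1)) := by
    have h1 : ∑ i ∈ Finset.Ico i1 i2, ∑ j ∈ Finset.Ico j1 j2, (H (i + 1) (j + 1) - H (i + 1) j) =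
        ∑ i ∈ Finset.Ico i1 i2, (H (i + 1) j2 - H (i + 1) j1) :=
      Finset.sum_congr rfl fun i _ => tel (H (i + 1)) hj
    have h2 := tel (fun i => H i j2 - H i j1) hi
    have h3 : ∑ i ∈ Finset.Ico i1 i2, (H (i + 1) j2 - H (i + 1) j1) -
        ∑ i ∈ Finset.Ico i1 i2, (H i j2 - H i j1) =
        (H i2 j2 - H i2 j1) - (H i1 j2 - H i1 j1) := by
      rw [← Finset.sum_sub_distrib]; exact h2
    rw [h1]
    linear_combination -h3
  have e2 : ∑ j ∈ Finset.Ico j1 j2, (H i2 j - H i1 j) =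
      ∑ i ∈ Finset.Ico i1 i2, ∑ j ∈ Finset.Ico j1 j2, (H (i + 1) j - H i j) := by
    rw [Finset.sum_comm]
    exact Finset.sum_congr rfl fun j _ => (tel (fun i => H i j) hi).symm
  unfold csum
  rw [e1, e2, Finset.mul_sum, add_sub_right_comm, ← Finset.sum_sub_distrib]
  congr 1
  refine Finset.sum_congr rfl fun i _ => ?_
  rw [Finset.mul_sum, ← Finset.sum_sub_distrib]

lemma dsum_le {F : ℤ → ℤ → ℂ} {i1 i2 j1 j2 : ℤ} {η : ℝ} (hi : i1 ≤ i2) (hj : j1 ≤ j2)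
    (h : ∀ i j, i1 ≤ i → i < i2 → j1 ≤ j → j < j2 → ‖F i j‖ ≤ η) :
    ‖∑ i ∈ Finset.Ico i1 i2, ∑ j ∈ Finset.Ico j1 j2, F i j‖ ≤
      (i2 - i1 : ℝ) * ((j2 - j1 : ℝ) * η) := by
  have ci : (((i2 - i1).toNat : ℕ) : ℝ) = i2 - i1 := by
    have : ((i2 - i1).toNat : ℤ) = i2 - i1 := Int.toNat_of_nonneg (by omega)
    exact_mod_cast this
  have cj : (((j2 - j1).toNat : ℕ) : ℝ) = j2 - j1 := by
    have : ((j2 - j1).toNat : ℤ) = j2 - j1 := Int.toNat_of_nonneg (by omega)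
    exact_mod_cast this
  refine (norm_sum_le _ _).trans ?_
  refine (Finset.sum_le_sum (g := fun _ => (j2 - j1 : ℝ) * η) fun i hi' => ?_).trans ?_
  · refine (norm_sum_le _ _).trans ?_
    refine (Finset.sum_le_sum (g := fun _ => η) fun j hj' => ?_).trans ?_
    · rw [Finset.mem_Ico] at hi' hj'
      exact h i j hi'.1 hi'.2 hj'.1 hj'.2
    · rw [Finset.sum_const, Int.card_Ico, nsmul_eq_mul, cj]
  · rw [Finset.sum_const, Int.card_Ico, nsmul_eq_mul, ci]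

/-- backward relation with error `o(d)` and boundedness imply `CSr` -/
theorem CSr_of_back {ι : Type*} {l : Filter ι} {s : ℂ} {d : ι → ℝ} (hd : ∀ᶠ n in l, 0 < d n)
    (hd0 : Tendsto d l (𝓝 0)) {H : ι → ℤ → ℤ → ℂ} {a b c e B : ℝ} (hB0 : 0 ≤ B)
    (hB : ∀ᶠ n in l, ∀ i j : ℤ, a ≤ d n * i → d n * i ≤ b → c ≤ d n * j → d n * j ≤ e →
      ‖H n i j‖ ≤ B)
    (h : ∀ ε > 0, ∀ᶠ n in l, ∀ i j : ℤ, a ≤ d n * i → d n * (i + 1 : ℤ) ≤ b → c ≤ d n * j →
      d n * (j + 1 : ℤ) ≤ e →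
      ‖(H n (i + 1) (j + 1) - H n (i + 1) j) - s * (H n (i + 1) j - H n i j)‖ ≤ ε * d n) :
    CSr l s d H a b c e := by
  intro ε hε
  set A : ℝ := |b - a| * |e - c| + 1 with hA
  have hA0 : 0 < A := by positivity
  have hsm : ∀ᶠ n in l, d n < ε / 2 / (4 * B + 1) := hd0.eventually (gt_mem_nhds (by positivity))
  filter_upwards [h (ε / 2 / A) (by positivity), hd, hB, hsm] with n hn hdn hBn hns i1 i2 j1 j2 hi hj
    g1 g2 g3 g4
  have hib : (i1 : ℝ) ≤ i2 := by exact_mod_cast hi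
  have hjb : (j1 : ℝ) ≤ j2 := by exact_mod_cast hj
  rw [csum_back s (H n) hi hj]
  have h1 := dsum_le (F := fun i j => (H n (i + 1) (j + 1) - H n (i + 1) j) -
      s * (H n (i + 1) j - H n i j)) (η := ε / 2 / A * d n) hi hj fun i j k1 k2 k3 k4 => by
    have q1 : (i1 : ℝ) ≤ i := by exact_mod_cast k1
    have q2 : ((i + 1 : ℤ) : ℝ) ≤ i2 := by exact_mod_cast k2
    have q3 : (j1 : ℝ) ≤ j := by exact_mod_cast k3
    have q4 : ((j + 1 : ℤ) : ℝ) ≤ j2 := by exact_mod_cast k4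
    exact hn i j (by nlinarith) (by nlinarith) (by nlinarith) (by nlinarith)
  have h2 : ‖(H n i1 j2 - H n i1 j1) - (H n i2 j2 - H n i2 j1)‖ ≤ 4 * B := by
    have b1 := hBn i1 j2 g1 (by nlinarith) (by nlinarith) g4
    have b2 := hBn i1 j1 g1 (by nlinarith) g3 (by nlinarith)
    have b3 := hBn i2 j2 (by nlinarith) g2 (by nlinarith) g4
    have b4 := hBn i2 j1 (by nlinarith) g2 g3 (by nlinarith)
    refine (norm_sub_le _ _).trans ?_
    have c1 := norm_sub_le (H n i1 j2) (H n i1 j1)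
    have c2 := norm_sub_le (H n i2 j2) (H n i2 j1)
    linarith
  have k1 : d n * (i2 - i1 : ℝ) ≤ |b - a| := (by linarith : d n * (i2 - i1 : ℝ) ≤ b - a).trans
    (le_abs_self _)
  have k2 : d n * (j2 - j1 : ℝ) ≤ |e - c| := (by linarith : d n * (j2 - j1 : ℝ) ≤ e - c).trans
    (le_abs_self _)
  have k3 : 0 ≤ d n * (i2 - i1 : ℝ) := mul_nonneg hdn.le (by linarith)
  have k4 : 0 ≤ d n * (j2 - j1 : ℝ) := mul_nonneg hdn.le (by linarith)
  have h3 : d n * ((i2 - i1 : ℝ) * ((j2 - j1 : ℝ) * (ε / 2 / A * d n))) ≤ ε / 2 := by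
    calc d n * ((i2 - i1 : ℝ) * ((j2 - j1 : ℝ) * (ε / 2 / A * d n))) =
        (d n * (i2 - i1 : ℝ)) * (d n * (j2 - j1 : ℝ)) * (ε / 2 / A) := by ring
      _ ≤ (|b - a| * |e - c|) * (ε / 2 / A) :=
        mul_le_mul_of_nonneg_right (mul_le_mul k1 k2 k4 (abs_nonneg _)) (by positivity)
      _ ≤ A * (ε / 2 / A) := mul_le_mul_of_nonneg_right (by rw [hA]; linarith) (by positivity)
      _ = ε / 2 := by field_simp
  have h4 : d n * (4 * B) ≤ ε / 2 := by
    rw [lt_div_iff₀ (by positivity)] at hns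
    nlinarith
  have h5 := mul_le_mul_of_nonneg_left (norm_add_le (∑ i ∈ Finset.Ico i1 i2,
    ∑ j ∈ Finset.Ico j1 j2, ((H n (i + 1) (j + 1) - H n (i + 1) j) -
      s * (H n (i + 1) j - H n i j))) ((H n i1 j2 - H n i1 j1) - (H n i2 j2 - H n i2 j1))) hdn.le
  have h6 := mul_le_mul_of_nonneg_left h1 hdn.le
  have h7 := mul_le_mul_of_nonneg_left h2 hdn.le
  rw [mul_add] at h5
  linarith

/-- data of the ring function: `H x i j` is the family amplitude at the gap `P x i` (natural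
number), `Q x j` rows below -/
def IsRing {ι : Type*} (l : Filter ι) (d : ι → ℝ) (H : ι → ℤ → ℤ → ℂ) (a b c' e : ℝ)
    (P : ι → ℤ → ℤ) (κ : ℝ) : Prop :=
  ∃ (N L : ι → ℕ) (J : ι → Type) (_ : ∀ x, Fintype (J x)) (c : ∀ x, J x → ℝ)
    (O : ∀ x, J x → (Fin (N x + 2) → Bool) → ℂ) (I : ∀ x, J x → (Fin (N x + 1) → Bool) → ℂ)
    (Z : ι → ℂ) (a0 : ι → ℤ) (h Hh r0 K0 : ℝ), 0 < h ∧ 0 < r0 ∧ 0 ≤ Hh ∧ 0 ≤ K0 ∧
    ∀ᶠ x in l, r0 ≤ d x * (N x + 1) ∧ (L x : ℝ) ≤ Hh * (N x + 1) ∧ Z x ≠ 0 ∧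
      (∑ μ, nrm (I x μ) * nrm (O x μ)) ≤ K0 * ((N x : ℝ) + 1) ^ κ * ‖Z x‖ ∧
      ∀ i j : ℤ, a ≤ d x * i → d x * i ≤ b → c' ≤ d x * j → d x * j ≤ e →
        ∃ p q : ℕ, (p : ℤ) = P x i ∧ (q : ℤ) = a0 x + 2 * j ∧ p < N x + 2 ∧
          h * (N x + 1) ≤ q ∧ q ≤ L x ∧ h * (N x + 1) ≤ (L x - q : ℕ) ∧
          H x i j = HG (N x) (L x) (c x) (O x) (I x) (Z x) p q

/-- size of the error -/
lemma small_err {ι : Type*} {l : Filter ι} {d : ι → ℝ} (hd : ∀ᶠ x in l, 0 < d x)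
    (hd0 : Tendsto d l (𝓝 0)) {N : ι → ℕ} {r0 C K0 ρ : ℝ} (hr0 : 0 < r0) (hC : 0 ≤ C * K0)
    (hρ : 0 < ρ) (hN : ∀ᶠ x in l, r0 ≤ d x * (N x + 1)) {δ : ℝ} (hδ : 0 < δ) :
    ∀ᶠ x in l, C * K0 * ((N x : ℝ) + 1) ^ (-1 - ρ) ≤ δ * d x := by
  have h1 : Tendsto (fun x => (d x / r0) ^ ρ) l (𝓝 0) := by
    have h2 : Tendsto (fun x => d x / r0) l (𝓝 0) := by
      have := hd0.div_const r0
      rwa [zero_div] at this
    have h3 := (Real.continuousAt_rpow_const 0 ρ (Or.inr hρ.le)).tendsto.comp h2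
    rw [Real.zero_rpow hρ.ne'] at h3
    exact h3
  have h2 : ∀ᶠ x in l, (d x / r0) ^ ρ < δ * r0 / (C * K0 + 1) :=
    h1.eventually (gt_mem_nhds (by positivity))
  filter_upwards [hd, hN, h2] with x hx hNx h2x
  have hn0 : (0 : ℝ) < (N x : ℝ) + 1 := by positivity
  have e1 : ((N x : ℝ) + 1)⁻¹ ≤ d x / r0 := by
    rw [inv_eq_one_div, div_le_div_iff₀ hn0 hr0]
    linarith
  have e2 : ((N x : ℝ) + 1) ^ (-1 - ρ) = ((N x : ℝ) + 1)⁻¹ * (((N x : ℝ) + 1)⁻¹) ^ ρ := by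
    rw [sub_eq_add_neg, Real.rpow_add hn0, Real.rpow_neg_one, Real.rpow_neg hn0.le,
      Real.inv_rpow hn0.le]
  have e3 : (((N x : ℝ) + 1)⁻¹) ^ ρ ≤ (d x / r0) ^ ρ :=
    Real.rpow_le_rpow (by positivity) e1 hρ.le
  have e4 : 0 ≤ d x / r0 := by positivity
  rw [e2]
  calc C * K0 * (((N x : ℝ) + 1)⁻¹ * (((N x : ℝ) + 1)⁻¹) ^ ρ) ≤
      C * K0 * ((d x / r0) * (δ * r0 / (C * K0 + 1))) :=
        mul_le_mul_of_nonneg_left (mul_le_mul e1 (e3.trans h2x.le) (by positivity) e4) hC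
    _ = (C * K0) / (C * K0 + 1) * (δ * d x) := by field_simp
    _ ≤ 1 * (δ * d x) := by
        refine mul_le_mul_of_nonneg_right ?_ (by positivity)
        rw [div_le_one (by positivity)]; linarith
    _ = _ := one_mul _

/-- **the ring function satisfies `CSr` with `s = I`** -/
theorem ring_CSr {ι : Type*} {l : Filter ι} {d : ι → ℝ} (hd : ∀ᶠ x in l, 0 < d x)
    (hd0 : Tendsto d l (𝓝 0)) {H : ι → ℤ → ℤ → ℂ} {a b c' e B κ : ℝ} (hB0 : 0 ≤ B)
    (hB : ∀ᶠ x in l, ∀ i j : ℤ, a ≤ d x * i → d x * i ≤ b → c' ≤ d x * j → d x * j ≤ e →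
      ‖H x i j‖ ≤ B) (hκ : κ < 1 / 3) {p0 : ι → ℤ}
    (hR : IsRing l d H a b c' e (fun x i => p0 x + 2 * i) κ) :
    CSr l Complex.I d H a b c' e := by
  obtain ⟨N, L, J, _, c, O, I, Z, a0, h, Hh, r0, K0, hh, hr0, hHh, hK0, hR⟩ := hR
  set ε : ℝ := (1 / 3 - κ) / 2 with hε
  have hε0 : 0 < ε := by rw [hε]; linarith
  obtain ⟨C, hC, H1⟩ := hg_step hε0 hh hHh
  have hN : ∀ᶠ x in l, r0 ≤ d x * (N x + 1) := hR.mono fun x hx => hx.1
  have hNt : Tendsto N l atTop := by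
    have h1 : Tendsto (fun x => (N x : ℝ)) l atTop := by
      rw [tendsto_atTop]
      intro A
      have h2 : ∀ᶠ x in l, d x < r0 / (|A| + 1) := hd0.eventually (gt_mem_nhds (by positivity))
      filter_upwards [hd, hN, h2] with x hx hNx h2x
      rw [lt_div_iff₀ (by positivity)] at h2x
      have h3 : |A| + 1 < (N x : ℝ) + 1 := by
        by_contra hcon
        push Not at hcon
        have := mul_le_mul_of_nonneg_left hcon hx.le
        linarith
      linarith [le_abs_self A]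
    exact tendsto_natCast_atTop_iff.1 h1
  refine CSr_of_back hd hd0 hB0 hB fun δ hδ => ?_
  have hsmall := small_err (C := C) (K0 := K0) (ρ := ε) hd hd0 hr0 (by positivity) hε0 hN hδ
  filter_upwards [hNt.eventually H1, hR, hsmall] with x hx hRx hsx i j g1 g2 g3 g4
  obtain ⟨-, hL, hZ, hK, hH⟩ := hRx
  have hdi : d x * i ≤ d x * (i + 1 : ℤ) ∧ d x * j ≤ d x * (j + 1 : ℤ) := by
    have hdx : 0 ≤ d x := by
      by_contra hcon
      push Not at hcon
      have hpos : (0 : ℝ) ≤ C * K0 * ((N x : ℝ) + 1) ^ (-1 - ε) := by positivity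
      have : δ * d x < 0 := mul_neg_of_pos_of_neg hδ hcon
      linarith
    constructor
    · refine mul_le_mul_of_nonneg_left ?_ hdx
      push_cast; linarith
    · refine mul_le_mul_of_nonneg_left ?_ hdx
      push_cast; linarith
  obtain ⟨p1, q1, e1, e2, e3, e4, e5, e6, e7⟩ := hH i j g1 (hdi.1.trans g2) g3 (hdi.2.trans g4)
  obtain ⟨p2, q2, f1, f2, f3, f4, f5, f6, f7⟩ := hH (i + 1) j (g1.trans hdi.1) g2 g3
    (hdi.2.trans g4)
  obtain ⟨p3, q3, k1, k2, k3, k4, k5, k6, k7⟩ := hH (i + 1) (j + 1) (g1.trans hdi.1) g2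
    (g3.trans hdi.2) g4
  have a1 : p2 = p1 + 2 := by
    have : (p2 : ℤ) = p1 + 2 := by rw [f1, e1]; ring
    exact_mod_cast this
  have a2 : p3 = p1 + 2 := by
    have : (p3 : ℤ) = p1 + 2 := by rw [k1, e1]; ring
    exact_mod_cast this
  have a3 : q2 = q1 := by
    have : (q2 : ℤ) = q1 := by rw [f2, e2]
    exact_mod_cast this
  have a4 : q3 = q1 + 2 := by
    have : (q3 : ℤ) = q1 + 2 := by rw [k2, e2]; ring
    exact_mod_cast this
  subst a1 a2 a3 a4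
  rw [e7, f7, k7]
  have := hx (L x) p1 q2 f3 e4 k5 k6 hL (c x) (O x) (I x) (Z x) hZ (K0 * ((N x : ℝ) + 1) ^ κ) hK
  refine this.trans (le_trans (le_of_eq ?_) hsx)
  have hn0 : (0 : ℝ) < (N x : ℝ) + 1 := by positivity
  have e8 : (-1 - ε : ℝ) = (-(4 / 3) + ε) + κ := by rw [hε]; ring
  rw [e8, Real.rpow_add hn0 (-(4 / 3) + ε) κ]
  ring


end Crest.Agent.R158.Cs410
end
end

-- ▼ part R158/Csg_410
section

/-!
# R158, Q1 = assembly (helper410), part 3: ring data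

* `Pack n` : a family of ring vectors on `n + 1` columns
* `Pack.val D Lt p q` : `HG`, gap `p`, `q` rows below, `Lt - q` rows above
* `nR A B L` : `n + 1` = width of the ring below the leg (strip width `L`)
* `RingAt` : ring data of one slice at scale `L`, `SliceR` : for all slices
* `sliceU_of_ring : SliceR P → SliceU I P`
-/

set_option autoImplicit false

open Filter Topology Set Metric
open Complex (I)

namespace Crest.Agent.R158.Cs410

open Crest.Agent.R158.Wl290 (CSr sg)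
open Crest.Agent.R158.Env664 (Run exists_run)
open Crest.Agent.R158.Tj656 (P4 Om mpos Q1 Q1m mem_om om_open)

noncomputable section

/-- a family of ring vectors -/
structure Pack (n : ℕ) where
  /-- index type -/
  J : Type
  /-- finiteness -/
  fin : Fintype J
  /-- twist of the member below the leg -/
  c : J → ℝ
  /-- vector above -/
  O : J → (Fin (n + 2) → Bool) → ℂ
  /-- vector below, with the coefficient -/
  I : J → (Fin (n + 1) → Bool) → ℂ
  /-- normalisation -/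
  Z : ℂ

attribute [instance] Pack.fin

namespace Pack

variable {n : ℕ}

/-- value at the gap `p`, `q` rows below the leg, `Lt - q` rows above -/
def val (D : Pack n) (Lt p q : ℕ) : ℂ := HG n Lt D.c D.O D.I D.Z p q

/-- sum of the products of the norms -/
def nm (D : Pack n) : ℝ := ∑ μ, nrm (D.I μ) * nrm (D.O μ)

/-- trivial family -/
def triv (n : ℕ) : Pack n where
  J := Empty
  fin := inferInstance
  c := Empty.elim
  O := fun μ => Empty.elim μ
  I := fun μ => Empty.elim μ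
  Z := 1

end Pack

/-- `n + 1` = width of the ring below the leg, strip width `L` -/
def nR (A B L : ℤ) : ℕ := ((B - A + 2) * L - 1).toNat

/-- ring data of one slice at scale `L` -/
def RingAt (P : P4) (A B L y1 y2 : ℤ) (a b ya yb K κ δ : ℝ) (D : Pack (nR A B L)) : Prop :=
  D.Z ≠ 0 ∧ D.nm ≤ K * (L : ℝ) ^ κ * ‖D.Z‖ ∧
    ∀ p y0 : ℤ, a ≤ (p : ℝ) / L → (p : ℝ) / L ≤ b → ya ≤ (y0 : ℝ) / L → (y0 : ℝ) / L ≤ yb →
      ‖P.HD L p y0 - D.val (y2 - y1).toNat (p - A * L).toNat (y0 - y1).toNat‖ ≤ δ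

/-- **ring data for all slices** -/
def SliceR (P : P4) : Prop :=
  ∀ A B r : ℤ, Run P.F A B r → ∀ a b : ℝ, (A : ℝ) < a → a ≤ b → b < B + 1 →
    ∀ c e : ℝ, c ≤ e → InHalf r c e →
    ∃ (h0 κ : ℝ) (W : ℝ → ℝ), 0 < h0 ∧ κ < 1 / 3 ∧ (∀ h, 0 ≤ W h) ∧
      Tendsto (fun h => W h / h) (𝓝[>] 0) (𝓝 0) ∧
      ∀ h y : ℝ, 0 < h → h < h0 → c ≤ y → y ≤ e →
        ∃ (K : ℝ) (L0 : ℤ), ∀ L : ℤ, L0 ≤ L → Even L →
          ∃ D, RingAt P A B L ⌊(y - 2 * h) * L⌋ ⌊(y + 2 * h) * L⌋ a b (y - h) (y + h) K κ (W h) D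

lemma nR_eq {A B L : ℤ} (hAB : A ≤ B) (hL : 1 ≤ L) : (nR A B L : ℤ) + 1 = (B - A + 2) * L := by
  unfold nR
  have : 1 ≤ (B - A + 2) * L := by nlinarith
  omega

lemma nR_real {A B L : ℤ} (hAB : A ≤ B) (hL : 1 ≤ L) :
    ((nR A B L : ℕ) : ℝ) + 1 = ((B : ℝ) - A + 2) * L := by
  have := nR_eq hAB hL
  exact_mod_cast this

set_option maxHeartbeats 1000000 in
/-- **ring data give the comparison functions** -/
theorem sliceU_of_ring {P : P4} (h : SliceR P) : SliceU I P := by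
  intro A B r hrun a b hA hab hB c e hce hc
  obtain ⟨h0, κ, W, hh0, hκ, hW, hT, H⟩ := h A B r hrun a b hA hab hB c e hce hc
  refine ⟨h0, W, hh0, hW, hT, fun h' y hh' hlt hy1 hy2 Ln hev hL => ?_⟩
  obtain ⟨K, L0, HD⟩ := H h' y hh' hlt hy1 hy2
  have hAB : A ≤ B := hrun.le
  -- the data
  set y1 : ℤ → ℤ := fun L => ⌊(y - 2 * h') * L⌋ with hy1d
  set y2 : ℤ → ℤ := fun L => ⌊(y + 2 * h') * L⌋ with hy2d
  have hex : ∀ n : ℕ, ∃ D : Pack (nR A B (Ln n)), L0 ≤ Ln n →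
      RingAt P A B (Ln n) (y1 (Ln n)) (y2 (Ln n)) a b (y - h') (y + h') K κ (W h') D := by
    intro n
    by_cases hn : L0 ≤ Ln n
    · obtain ⟨D, hD⟩ := HD (Ln n) hn (hev n)
      exact ⟨D, fun _ => hD⟩
    · exact ⟨Pack.triv _, fun h => absurd h hn⟩
  choose D hD using hex
  set G : ℕ → ℤ → ℤ → ℂ := fun n i j =>
    (D n).val (y2 (Ln n) - y1 (Ln n)).toNat (2 * i - A * Ln n).toNat (2 * j - y1 (Ln n)).toNat
    with hG
  have hLp : ∀ᶠ n in atTop, (1 : ℤ) ≤ Ln n := hL.eventually (eventually_ge_atTop 1)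
  have hL0 : ∀ᶠ n in atTop, L0 ≤ Ln n := hL.eventually (eventually_ge_atTop L0)
  have ex : ∀ (n : ℕ) (i : ℤ), ((2 * i : ℤ) : ℝ) / (Ln n : ℝ) = 2 / (Ln n : ℝ) * i := by
    intro n i; push_cast; ring
  have hclose : ∀ᶠ n in atTop, ∀ i j : ℤ, a ≤ 2 / (Ln n : ℝ) * i → 2 / (Ln n : ℝ) * i ≤ b →
      y - h' ≤ 2 / (Ln n : ℝ) * j → 2 / (Ln n : ℝ) * j ≤ y + h' →
      ‖P.HD (Ln n) (2 * i) (2 * j) - G n i j‖ ≤ W h' := by
    filter_upwards [hL0] with n hn i j g1 g2 g3 g4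
    exact (hD n hn).2.2 (2 * i) (2 * j) (by rwa [ex]) (by rwa [ex]) (by rwa [ex]) (by rwa [ex])
  refine ⟨G, ?_, hclose⟩
  -- the ring function
  refine ring_CSr (p0 := fun n => - (A * Ln n)) (dpos hL) (dlim hL) (B := 1 + W h')
    (by have := hW h'; linarith) ?_ hκ ?_
  · filter_upwards [hclose] with n hn i j g1 g2 g3 g4
    have h1 := hn i j g1 g2 g3 g4
    have h2 : ‖P.HD (Ln n) (2 * i) (2 * j)‖ ≤ 1 := Ob664.norm_HD_le _ _ _ _ _
    have h3 : G n i j = P.HD (Ln n) (2 * i) (2 * j) - (P.HD (Ln n) (2 * i) (2 * j) - G n i j) := by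
      ring
    rw [h3]
    exact (norm_sub_le _ _).trans (add_le_add h2 h1)
  · -- `IsRing`
    have hm : (1 : ℝ) ≤ (B : ℝ) - A + 1 := by
      have : (A : ℝ) ≤ B := by exact_mod_cast hAB
      linarith
    set m : ℝ := (B : ℝ) - A + 2 with hmd
    have hm0 : 0 < m := by rw [hmd]; linarith
    refine ⟨fun n => nR A B (Ln n), fun n => (y2 (Ln n) - y1 (Ln n)).toNat, fun n => (D n).J,
      fun n => (D n).fin, fun n => (D n).c, fun n => (D n).O, fun n => (D n).I, fun n => (D n).Z,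
      fun n => - y1 (Ln n), h' / (2 * m), (4 * h' + 1) / m, 1, |K| * (1 / m) ^ κ,
      by positivity, one_pos, by positivity, by positivity, ?_⟩
    have hLbig : ∀ᶠ n in atTop, (2 / h' + 1 : ℝ) ≤ Ln n :=
      (tendsto_intCast_atTop_iff.2 hL).eventually (eventually_ge_atTop _)
    filter_upwards [hLp, hL0, hLbig] with n h1 hn0 h2
    have hLr : (0 : ℝ) < Ln n := by
      have : (1 : ℝ) ≤ Ln n := by exact_mod_cast h1
      linarith
    have hLr1 : (1 : ℝ) ≤ Ln n := by exact_mod_cast h1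
    have hN := nR_real hAB h1
    have hhL : 2 ≤ h' * Ln n := by
      have h3 : 2 / h' ≤ Ln n := by linarith
      rw [div_le_iff₀ hh'] at h3
      linarith
    have f1 : (y1 (Ln n) : ℝ) ≤ (y - 2 * h') * Ln n := Int.floor_le _
    have f2 : (y - 2 * h') * Ln n < y1 (Ln n) + 1 := Int.lt_floor_add_one _
    have f3 : (y2 (Ln n) : ℝ) ≤ (y + 2 * h') * Ln n := Int.floor_le _
    have f4 : (y + 2 * h') * Ln n < y2 (Ln n) + 1 := Int.lt_floor_add_one _
    have f5 : (0 : ℝ) ≤ (y2 (Ln n) : ℝ) - y1 (Ln n) := by nlinarith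
    have f6 : y1 (Ln n) ≤ y2 (Ln n) := by
      have : (y1 (Ln n) : ℝ) ≤ y2 (Ln n) := by linarith
      exact_mod_cast this
    have f7 : (((y2 (Ln n) - y1 (Ln n)).toNat : ℕ) : ℝ) = (y2 (Ln n) : ℝ) - y1 (Ln n) := by
      have : (((y2 (Ln n) - y1 (Ln n)).toNat : ℕ) : ℤ) = y2 (Ln n) - y1 (Ln n) :=
        Int.toNat_of_nonneg (by omega)
      exact_mod_cast this
    obtain ⟨hZ, hnm, -⟩ := hD n hn0
    refine ⟨?_, ?_, hZ, ?_, ?_⟩
    · rw [hN, ← hmd]
      have : 2 / (Ln n : ℝ) * (m * Ln n) = 2 * m := by field_simp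
      rw [this]; linarith
    · rw [f7, hN, ← hmd]
      have : (4 * h' + 1) / m * (m * Ln n) = (4 * h' + 1) * Ln n := by field_simp
      rw [this]
      nlinarith
    · refine hnm.trans ?_
      refine mul_le_mul_of_nonneg_right ?_ (norm_nonneg _)
      rw [hN, ← hmd, Real.mul_rpow hm0.le hLr.le]
      have e1 : (1 / m) ^ κ * (m ^ κ * (Ln n : ℝ) ^ κ) = (Ln n : ℝ) ^ κ := by
        rw [← mul_assoc, ← Real.mul_rpow (by positivity) hm0.le, one_div_mul_cancel hm0.ne',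
          Real.one_rpow, one_mul]
      calc K * (Ln n : ℝ) ^ κ ≤ |K| * (Ln n : ℝ) ^ κ :=
            mul_le_mul_of_nonneg_right (le_abs_self K) (by positivity)
        _ = |K| * ((1 / m) ^ κ * (m ^ κ * (Ln n : ℝ) ^ κ)) := by rw [e1]
        _ = _ := by ring
    · intro i j g1 g2 g3 g4
      have i1 : a * Ln n ≤ 2 * i := by
        rw [div_mul_eq_mul_div, le_div_iff₀ hLr] at g1; linarith
      have i2 : 2 * (i : ℝ) ≤ b * Ln n := by
        rw [div_mul_eq_mul_div, div_le_iff₀ hLr] at g2; linarith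
      have i3 : (y - h') * Ln n ≤ 2 * j := by
        rw [div_mul_eq_mul_div, le_div_iff₀ hLr] at g3; linarith
      have i4 : 2 * (j : ℝ) ≤ (y + h') * Ln n := by
        rw [div_mul_eq_mul_div, div_le_iff₀ hLr] at g4; linarith
      have k1 : A * Ln n ≤ 2 * i := by
        have : ((A * Ln n : ℤ) : ℝ) ≤ ((2 * i : ℤ) : ℝ) := by
          push_cast
          nlinarith
        exact_mod_cast this
      have k2 : y1 (Ln n) ≤ 2 * j := by
        have : ((y1 (Ln n) : ℤ) : ℝ) ≤ ((2 * j : ℤ) : ℝ) := by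
          push_cast
          nlinarith
        exact_mod_cast this
      have k3 : 2 * j ≤ y2 (Ln n) := by
        have : ((2 * j : ℤ) : ℝ) < ((y2 (Ln n) + 1 : ℤ) : ℝ) := by
          push_cast
          nlinarith
        have : 2 * j < y2 (Ln n) + 1 := by exact_mod_cast this
        omega
      have cq : (((2 * j - y1 (Ln n)).toNat : ℕ) : ℝ) = 2 * j - y1 (Ln n) := by
        have : (((2 * j - y1 (Ln n)).toNat : ℕ) : ℤ) = 2 * j - y1 (Ln n) :=
          Int.toNat_of_nonneg (by omega)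
        have h3 : ((((2 * j - y1 (Ln n)).toNat : ℕ) : ℤ) : ℝ) = ((2 * j - y1 (Ln n) : ℤ) : ℝ) := by
          rw [this]
        rw [Int.cast_natCast] at h3
        rw [h3]
        push_cast
        ring
      have cq2 : (((y2 (Ln n) - y1 (Ln n)).toNat - (2 * j - y1 (Ln n)).toNat : ℕ) : ℝ) =
          y2 (Ln n) - 2 * j := by
        have : (((y2 (Ln n) - y1 (Ln n)).toNat - (2 * j - y1 (Ln n)).toNat : ℕ) : ℤ) =
            y2 (Ln n) - 2 * j := by omega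
        have h3 : ((((y2 (Ln n) - y1 (Ln n)).toNat - (2 * j - y1 (Ln n)).toNat : ℕ) : ℤ) : ℝ) =
            ((y2 (Ln n) - 2 * j : ℤ) : ℝ) := by
          rw [this]
        rw [Int.cast_natCast] at h3
        rw [h3]
        push_cast
        ring
      refine ⟨(2 * i - A * Ln n).toNat, (2 * j - y1 (Ln n)).toNat, ?_, ?_, ?_, ?_, ?_, ?_, rfl⟩
      · rw [Int.toNat_of_nonneg (by omega)]; ring
      · rw [Int.toNat_of_nonneg (by omega)]; ring
      · have h3 : ((2 * i - A * Ln n : ℤ) : ℝ) < (((nR A B (Ln n) : ℕ) : ℤ) + 2 : ℤ) := by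
          push_cast
          have : (b - A) * Ln n < (B + 1 - A) * Ln n := by
            refine mul_lt_mul_of_pos_right ?_ hLr
            linarith
          nlinarith
        have h4 : 2 * i - A * Ln n < ((nR A B (Ln n) : ℕ) : ℤ) + 2 := by exact_mod_cast h3
        omega
      · show h' / (2 * m) * (((nR A B (Ln n) : ℕ) : ℝ) + 1) ≤ (((2 * j - y1 (Ln n)).toNat : ℕ) : ℝ)
        rw [cq, hN, ← hmd]
        have : h' / (2 * m) * (m * Ln n) = h' * Ln n / 2 := by field_simp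
        rw [this]
        nlinarith
      · show (2 * j - y1 (Ln n)).toNat ≤ (y2 (Ln n) - y1 (Ln n)).toNat
        omega
      · show h' / (2 * m) * (((nR A B (Ln n) : ℕ) : ℝ) + 1) ≤
          (((y2 (Ln n) - y1 (Ln n)).toNat - (2 * j - y1 (Ln n)).toNat : ℕ) : ℝ)
        rw [cq2, hN, ← hmd]
        have : h' / (2 * m) * (m * Ln n) = h' * Ln n / 2 := by field_simp
        rw [this]
        nlinarith

/-- **`Q1m false` from ring data and `OscM`** -/
theorem Q1m_of_ring (h : ∀ P : P4, SliceR P) (ho : ∀ P : P4, OscM P) : Q1m false :=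
  Q1m_of_slices false (fun P => sliceU_of_ring (h P)) ho

end

end Crest.Agent.R158.Cs410
end

-- ▼ part R158/Csh_410

/-!
# R158, Q1 = assembly (helper410), part 4: the three named inputs `NormP`, `EvalP`, `CompP`

* `FamZ B` : a family `(c μ, φ μ, co μ)` with normalisation `Z`, `FamZ.amp` : its amplitude, `FamZ.nm` :
  sum of the products of the norms after `a1` rows below / `b1` rows above
* `FamZ.pack`, `pack_val` : the ring vectors
* `OnB` : the band of the slice, `bandOf`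
* `HAp` : the observable of the region with stubs (length `L / 8`)
* `NormP`, `EvalP`, `CompP`
* `sliceR_of : NormP fz P → EvalP fz P → CompP P → SliceR P`
-/

set_option autoImplicit false

open Filter Topology Set Metric Matrix
open Complex (I)

namespace Crest.Agent.R158.Cs410

open Crest.Agent.R158.Wl290 (CSr sg)
open Crest.Agent.R158.Sw300 (Port)
open Crest.Agent.R158.Bd932 (That e3 ins)
open Crest.Agent.R158.Env664 (Run Band TG D mark lowT upT)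
open Crest.Agent.R158.Ao857 (nn aa bb pp InZ OutZ Kz plainL nn_eq aa_eq bb_eq pp_eq)
open Crest.Agent.R158.Tj656 (P4 Om mpos Q1 Q1m)
open Crest.Agent.R158.Xr249 (Dp)

noncomputable section

/-- the arrows outside do not matter -/
def σ0 : Port TG → Bool := fun _ => false

/-- vector of the part below the band -/
def InA {A : Finset (ℤ × ℤ)} (B : Band A) (φ : Port TG → ℝ) : (Fin (nn B + 1) → Bool) → ℂ :=
  InZ B (lowT A B.xl B.xr B.y1) φ (plainL A (lowT A B.xl B.xr B.y1) φ) σ0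

/-- vector of the part above the band -/
def OutA {A : Finset (ℤ × ℤ)} (B : Band A) (φ : Port TG → ℝ) : (Fin (nn B + 2) → Bool) → ℂ :=
  OutZ B (upT A B.xl B.xr B.y2) φ (plainL A (upT A B.xl B.xr B.y2) φ) σ0

/-- a family of phases with normalisation -/
structure FamZ {A : Finset (ℤ × ℤ)} (B : Band A) where
  /-- index type -/
  J : Type
  /-- finiteness -/
  fin : Fintype J
  /-- twist below the leg -/
  c : J → ℝ
  /-- phases of the cut ends -/
  φ : J → Port TG → ℝ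
  /-- coefficient -/
  co : J → ℂ
  /-- normalisation -/
  Z : ℂ

attribute [instance] FamZ.fin

namespace FamZ

variable {A : Finset (ℤ × ℤ)} {B : Band A}

/-- the amplitude of the family at `z = (p, y0)` -/
def amp (F : FamZ B) (p y0 : ℤ) : ℂ :=
  ∑ μ, F.co μ * (OutA B (F.φ μ) ⬝ᵥ (Kz B p y0 (F.c μ) (F.c μ + e3) *ᵥ InA B (F.φ μ)))

/-- sum of the products of the norms, after `a1` rows below and `b1` rows above -/
def nm (F : FamZ B) (a1 b1 : ℕ) : ℝ :=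
  ∑ μ, ‖F.co μ‖ * (nrm (That (nn B + 1) (F.c μ) (1 / 2) ^ a1 *ᵥ InA B (F.φ μ)) *
    nrm (OutA B (F.φ μ) ᵥ* That (nn B + 2) (F.c μ + e3) (1 / 2) ^ b1))

/-- the ring vectors -/
def pack (F : FamZ B) (a1 b1 : ℕ) : Pack (nn B) where
  J := F.J
  fin := F.fin
  c := F.c
  O μ := OutA B (F.φ μ) ᵥ* That (nn B + 2) (F.c μ + e3) (1 / 2) ^ b1
  I μ := F.co μ • (That (nn B + 1) (F.c μ) (1 / 2) ^ a1 *ᵥ InA B (F.φ μ))
  Z := F.Z

lemma pack_nm (F : FamZ B) (a1 b1 : ℕ) : (F.pack a1 b1).nm = F.nm a1 b1 := by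
  show (∑ μ, nrm (F.co μ • (That (nn B + 1) (F.c μ) (1 / 2) ^ a1 *ᵥ InA B (F.φ μ))) * _) = _
  refine Finset.sum_congr rfl fun μ _ => ?_
  have h1 : nrm (F.co μ • (That (nn B + 1) (F.c μ) (1 / 2) ^ a1 *ᵥ InA B (F.φ μ))) =
      ‖F.co μ‖ * nrm (That (nn B + 1) (F.c μ) (1 / 2) ^ a1 *ᵥ InA B (F.φ μ)) := by
    unfold nrm
    rw [WithLp.toLp_smul, norm_smul]
  rw [h1, mul_assoc]
  rfl

theorem pack_val (F : FamZ B) {p y0 : ℤ} (h : B.At p y0) {a1 b1 Lt q g : ℕ}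
    (hg : (g : ℤ) = p - B.xl) (ha : (a1 : ℤ) + q = y0 - B.y1)
    (hb : (b1 : ℤ) + (Lt - q : ℕ) = B.y2 - y0) :
    (F.pack a1 b1).val Lt g q = F.amp p y0 / F.Z := by
  have haa := aa_eq B h
  have hbb := bb_eq B h
  have hpp := pp_eq B h
  have e1 : aa B y0 + 1 = q + a1 := by omega
  have e2 : bb B y0 + 1 = b1 + (Lt - q) := by omega
  have e3' : insN (nn B) g = ins (nn B) (pp B p) := by
    have hg' : g = ((pp B p : Fin (nn B + 2)) : ℕ) := by omega
    rw [insN, dif_pos (by rw [hg']; exact (pp B p).2)]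
    congr 1
    exact Fin.ext hg'
  unfold Pack.val HG FamZ.amp
  congr 1
  refine Finset.sum_congr rfl fun μ _ => ?_
  show Cs410.amp (That (nn B + 2) (F.c μ + e3) (1 / 2)) (That (nn B + 1) (F.c μ) (1 / 2))
    (insN (nn B) g) (Lt - q) q (OutA B (F.φ μ) ᵥ* That (nn B + 2) (F.c μ + e3) (1 / 2) ^ b1)
      (F.co μ • (That (nn B + 1) (F.c μ) (1 / 2) ^ a1 *ᵥ InA B (F.φ μ))) = _
  unfold Cs410.amp Kz
  rw [Matrix.mulVec_smul, dotProduct_smul, smul_eq_mul, ← Matrix.dotProduct_mulVec,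
    Matrix.mulVec_mulVec, Matrix.mulVec_mulVec, e3', e1, e2, pow_add _ q a1, pow_add _ b1 (Lt - q)]
  simp only [Matrix.mul_assoc]

end FamZ

/-! ### the bands -/

/-- the band of the slice: strip width `L`, rows from `(y - 3 h) L` to `(y + 3 h) L` -/
structure OnB (A B' L : ℤ) (h y : ℝ) {T : Finset (ℤ × ℤ)} (B : Band T) : Prop where
  xl : B.xl = A * L
  xr : B.xr = B' * L + L - 1
  R : B.R = L
  y1 : B.y1 = ⌊(y - 3 * h) * L⌋
  y2 : B.y2 = ⌊(y + 3 * h) * L⌋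

/-- existence of the band -/
theorem exists_band {F : Finset (ℤ × ℤ)} {A B' r L : ℤ} (hrun : Run F A B' r) (hL : 0 < L) {h y : ℝ}
    (h1 : (r : ℝ) ≤ y - 3 * h) (h2 : y + 3 * h < r + 1) :
    ∃ B : Band (D F L), OnB A B' L h y B := by
  have hLr : (0 : ℝ) < L := by exact_mod_cast hL
  have g1 : r * L ≤ ⌊(y - 3 * h) * L⌋ := by
    rw [Int.le_floor]; push_cast; nlinarith
  have g2 : ⌊(y + 3 * h) * L⌋ ≤ r * L + L := by
    have h3 := Int.floor_le ((y + 3 * h) * L)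
    have : (⌊(y + 3 * h) * L⌋ : ℝ) ≤ ((r * L + L : ℤ) : ℝ) := by push_cast; nlinarith
    exact_mod_cast this
  let B : Band (D F L) :=
    { xl := A * L
      xr := B' * L + L - 1
      y1 := ⌊(y - 3 * h) * L⌋
      y2 := ⌊(y + 3 * h) * L⌋
      R := L
      hR := hL
      run := fun y' g3 g4 => hrun.scale hL (by omega) (by omega) }
  exact ⟨B, ⟨rfl, rfl, rfl, rfl, rfl⟩⟩

lemma OnB.nn_eq {F : Finset (ℤ × ℤ)} {A B' L : ℤ} {h y : ℝ} {B : Band (D F L)}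
    (hB : OnB A B' L h y B) : nn B = nR A B' L := by
  unfold Ao857.nn nR
  rw [hB.xl, hB.xr, hB.R]
  congr 1
  ring

/-- a band on each scale -/
abbrev FZ : Type 1 := ∀ (P : P4) (L : ℤ) (_δ : ℝ) (B : Band (D P.F L)), FamZ B

/-- marks of the polygon at scale `L` -/
def mk (P : P4) (L : ℤ) (i : Fin 3) : Port (ℤ × ℤ) := (mark L (P.cc i).1 (P.cc i).2).2

/-- the observable of the region with stubs of length `L / 8` -/
def HAp (P : P4) (L : ℤ) (B : Band (D P.F L)) (p y0 : ℤ) : ℂ :=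
  Ob664.HA (Dp (D P.F L) B.xl B.xr B.y1 B.y2 (L / 8)) (mk P L 0) (mk P L 1) (mk P L 2) p y0

/-! ### the inputs -/

/-- **norms** -/
def NormP (fz : FZ) (P : P4) : Prop :=
  ∃ κ h0 : ℝ, κ < 1 / 3 ∧ 0 < h0 ∧ ∀ A B' r : ℤ, Run P.F A B' r → ∀ h y δ : ℝ, 0 < h → h < h0 →
    0 < δ → δ ≤ h / 100 → InHalf r (y - 4 * h) (y + 4 * h) → ∃ (K : ℝ) (L0 : ℤ), ∀ L : ℤ, L0 ≤ L →
      Even L → ∀ B : Band (D P.F L), OnB A B' L h y B →
        (fz P L δ B).Z ≠ 0 ∧ (fz P L δ B).nm (⌊(y - 2 * h) * L⌋ - B.y1).toNat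
          (B.y2 - ⌊(y + 2 * h) * L⌋).toNat ≤ K * (L : ℝ) ^ κ * ‖(fz P L δ B).Z‖

/-- **evaluation** -/
def EvalP (fz : FZ) (P : P4) : Prop :=
  ∀ A B' r : ℤ, Run P.F A B' r → ∀ a b c e : ℝ, (A : ℝ) < a → a ≤ b → b < B' + 1 → c ≤ e →
    InHalf r c e → ∃ h0 C γ : ℝ, 0 < h0 ∧ 0 ≤ C ∧ 0 < γ ∧
      ∀ h y : ℝ, 0 < h → h < h0 → c ≤ y → y ≤ e → ∃ δ : ℝ, 0 < δ ∧ δ ≤ h / 100 ∧
        ∃ L0 : ℤ, ∀ L : ℤ, L0 ≤ L → Even L → ∀ B : Band (D P.F L), OnB A B' L h y B →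
          ∀ p y0 : ℤ, a ≤ (p : ℝ) / L → (p : ℝ) / L ≤ b → y - h ≤ (y0 : ℝ) / L →
            (y0 : ℝ) / L ≤ y + h →
            ‖(fz P L δ B).amp p y0 / (fz P L δ B).Z - HAp P L B p y0‖ ≤ C * h ^ (1 + γ)

/-- **comparison** with the region without stubs -/
def CompP (P : P4) : Prop :=
  ∀ A B' r : ℤ, Run P.F A B' r → ∀ a b c e : ℝ, (A : ℝ) < a → a ≤ b → b < B' + 1 → c ≤ e →
    InHalf r c e → ∃ h0 C γ : ℝ, 0 < h0 ∧ 0 ≤ C ∧ 0 < γ ∧
      ∀ h y : ℝ, 0 < h → h < h0 → c ≤ y → y ≤ e →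
        ∃ L0 : ℤ, ∀ L : ℤ, L0 ≤ L → Even L → ∀ B : Band (D P.F L), OnB A B' L h y B →
          ∀ p y0 : ℤ, a ≤ (p : ℝ) / L → (p : ℝ) / L ≤ b → y - h ≤ (y0 : ℝ) / L →
            (y0 : ℝ) / L ≤ y + h → ‖HAp P L B p y0 - P.HD L p y0‖ ≤ C * h ^ (1 + γ)

/-! ### the slices -/

lemma RingAt.cast {P : P4} {A B L y1 y2 : ℤ} {a b ya yb K κ δ : ℝ} {n : ℕ} (hn : n = nR A B L)
    (D : Pack n) (hZ : D.Z ≠ 0) (hnm : D.nm ≤ K * (L : ℝ) ^ κ * ‖D.Z‖)
    (hv : ∀ p y0 : ℤ, a ≤ (p : ℝ) / L → (p : ℝ) / L ≤ b → ya ≤ (y0 : ℝ) / L → (y0 : ℝ) / L ≤ yb →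
      ‖P.HD L p y0 - D.val (y2 - y1).toNat (p - A * L).toNat (y0 - y1).toNat‖ ≤ δ) :
    ∃ D, RingAt P A B L y1 y2 a b ya yb K κ δ D := by
  subst hn
  exact ⟨D, hZ, hnm, hv⟩

/-- error of a slice -/
def Wf (C C' γ γ' h : ℝ) : ℝ := C * |h| ^ (1 + γ) + C' * |h| ^ (1 + γ')

lemma Wf_nonneg {C C' γ γ' : ℝ} (hC : 0 ≤ C) (hC' : 0 ≤ C') (h : ℝ) : 0 ≤ Wf C C' γ γ' h := by
  unfold Wf; positivity

lemma Wf_tendsto {C C' γ γ' : ℝ} (hγ : 0 < γ) (hγ' : 0 < γ') :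
    Tendsto (fun h => Wf C C' γ γ' h / h) (𝓝[>] 0) (𝓝 0) := by
  have t : ∀ q : ℝ, 1 < q → Tendsto (fun h : ℝ => |h| ^ q / h) (𝓝[>] 0) (𝓝 0) := by
    intro q hq
    have h1 : Tendsto (fun h : ℝ => h ^ (q - 1)) (𝓝[>] 0) (𝓝 0) := by
      have := ((Real.continuousAt_rpow_const 0 (q - 1) (Or.inr (by linarith))).tendsto).mono_left
        (nhdsWithin_le_nhds (s := Ioi 0))
      rwa [Real.zero_rpow (by linarith)] at this
    refine h1.congr' ?_
    filter_upwards [self_mem_nhdsWithin] with h hh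
    have hh' : (0 : ℝ) < h := hh
    rw [abs_of_pos hh', Real.rpow_sub_one hh'.ne']
  have e2 := t (1 + γ) (by linarith)
  have e3 := t (1 + γ') (by linarith)
  have h1 := (e2.const_mul C).add (e3.const_mul C')
  rw [mul_zero, mul_zero, add_zero] at h1
  refine h1.congr fun h => ?_
  unfold Wf
  ring

/-- margin inside the half row -/
lemma InHalf.margin {r : ℤ} {c e : ℝ} (h : InHalf r c e) (hce : c ≤ e) :
    ∃ m : ℝ, 0 < m ∧ InHalf r (c - m) (e + m) ∧ (r : ℝ) < c - m ∧ e + m < r + 1 := by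
  rcases h with ⟨h1, h2⟩ | ⟨h1, h2⟩
  · refine ⟨min ((c - r) / 2) (((r : ℝ) + 1 / 2 - e) / 2), lt_min (by linarith) (by linarith),
      Or.inl ⟨?_, ?_⟩, ?_, ?_⟩
    · linarith [min_le_left ((c - r) / 2) (((r : ℝ) + 1 / 2 - e) / 2)]
    · linarith [min_le_right ((c - r) / 2) (((r : ℝ) + 1 / 2 - e) / 2)]
    · linarith [min_le_left ((c - r) / 2) (((r : ℝ) + 1 / 2 - e) / 2)]
    · linarith [min_le_right ((c - r) / 2) (((r : ℝ) + 1 / 2 - e) / 2)]
  · refine ⟨min ((c - ((r : ℝ) + 1 / 2)) / 2) (((r : ℝ) + 1 - e) / 2),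
      lt_min (by linarith) (by linarith), Or.inr ⟨?_, ?_⟩, ?_, ?_⟩
    · linarith [min_le_left ((c - ((r : ℝ) + 1 / 2)) / 2) (((r : ℝ) + 1 - e) / 2)]
    · linarith [min_le_right ((c - ((r : ℝ) + 1 / 2)) / 2) (((r : ℝ) + 1 - e) / 2)]
    · linarith [min_le_left ((c - ((r : ℝ) + 1 / 2)) / 2) (((r : ℝ) + 1 - e) / 2)]
    · linarith [min_le_right ((c - ((r : ℝ) + 1 / 2)) / 2) (((r : ℝ) + 1 - e) / 2)]

lemma InHalf.mono {r : ℤ} {c e c' e' : ℝ} (h : InHalf r c e) (hc : c ≤ c') (he : e' ≤ e) :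
    InHalf r c' e' := by
  rcases h with ⟨h1, h2⟩ | ⟨h1, h2⟩
  · exact Or.inl ⟨by linarith, by linarith⟩
  · exact Or.inr ⟨by linarith, by linarith⟩

set_option maxHeartbeats 1000000 in
/-- **the slices from norms, evaluation and comparison** -/
theorem sliceR_of {fz : FZ} {P : P4} (hN : NormP fz P) (hE : EvalP fz P) (hC : CompP P) :
    SliceR P := by
  obtain ⟨κ, h3, hκ, hh3, hN⟩ := hN
  intro A B' r hrun a b hA hab hB c e hce hc
  obtain ⟨h1, C, γ1, hh1, hC0, hγ1, hE⟩ := hE A B' r hrun a b c e hA hab hB hce hc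
  obtain ⟨h2, C', γ, hh2, hC0', hγ, hC⟩ := hC A B' r hrun a b c e hA hab hB hce hc
  obtain ⟨m, hm0, hm, hm1, hm2⟩ := hc.margin hce
  refine ⟨min (min h1 h2) (min (m / 4) h3), κ, Wf C C' γ1 γ,
    lt_min (lt_min hh1 hh2) (lt_min (by positivity) hh3), hκ, Wf_nonneg hC0 hC0',
    Wf_tendsto hγ1 hγ, fun h y hh hlt hy1 hy2 => ?_⟩
  have l1 : h < h1 := hlt.trans_le ((min_le_left _ _).trans (min_le_left _ _))
  have l2 : h < h2 := hlt.trans_le ((min_le_left _ _).trans (min_le_right _ _))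
  have l3 : h < m / 4 := hlt.trans_le ((min_le_right _ _).trans (min_le_left _ _))
  have l4 : h < h3 := hlt.trans_le ((min_le_right _ _).trans (min_le_right _ _))
  obtain ⟨δ, hδ0, hδ1, L2, hE⟩ := hE h y hh l1 hy1 hy2
  obtain ⟨K, L1, hN⟩ := hN A B' r hrun h y δ hh l4 hδ0 hδ1 (hm.mono (by linarith) (by linarith))
  obtain ⟨L3, hC⟩ := hC h y hh l2 hy1 hy2
  refine ⟨K, max (max L1 L2) (max L3 (⌈2 / h⌉ + 1)), fun L hL hev => ?_⟩
  have k1 : L1 ≤ L := (le_max_left _ _).trans ((le_max_left _ _).trans hL)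
  have k2 : L2 ≤ L := (le_max_right _ _).trans ((le_max_left _ _).trans hL)
  have k3 : L3 ≤ L := (le_max_left _ _).trans ((le_max_right _ _).trans hL)
  have k4 : ⌈2 / h⌉ + 1 ≤ L := (le_max_right _ _).trans ((le_max_right _ _).trans hL)
  have hL2 : 2 / h + 1 ≤ L := by
    have h5 := Int.le_ceil (2 / h)
    have : ((⌈2 / h⌉ + 1 : ℤ) : ℝ) ≤ L := by exact_mod_cast k4
    push_cast at this
    linarith
  have hLr : (0 : ℝ) < L := by
    have : 0 < 2 / h := by positivity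
    linarith
  have hL0 : 0 < L := by exact_mod_cast hLr
  have hhL : 2 ≤ h * L := by
    have h3 : 2 / h ≤ L := by linarith
    rw [div_le_iff₀ hh] at h3
    linarith
  obtain ⟨B, hB0⟩ := exists_band (F := P.F) hrun hL0 (h := h) (y := y) (by linarith) (by linarith)
  obtain ⟨hZ, hnm⟩ := hN L k1 hev B hB0
  set F := fz P L δ B with hF
  set y1 : ℤ := ⌊(y - 2 * h) * L⌋ with hy1'
  set y2 : ℤ := ⌊(y + 2 * h) * L⌋ with hy2'
  refine RingAt.cast hB0.nn_eq (F.pack (y1 - B.y1).toNat (B.y2 - y2).toNat) hZ ?_ ?_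
  · rw [FamZ.pack_nm]
    exact hnm
  · intro p y0 g1 g2 g3 g4
    have f1 : (y1 : ℝ) ≤ (y - 2 * h) * L := Int.floor_le _
    have f2 : (y - 2 * h) * L < y1 + 1 := Int.lt_floor_add_one _
    have f3 : (y2 : ℝ) ≤ (y + 2 * h) * L := Int.floor_le _
    have f4 : (y + 2 * h) * L < y2 + 1 := Int.lt_floor_add_one _
    have f5 : (B.y1 : ℝ) ≤ (y - 3 * h) * L := by rw [hB0.y1]; exact Int.floor_le _
    have f6 : (y + 3 * h) * L < B.y2 + 1 := by rw [hB0.y2]; exact Int.lt_floor_add_one _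
    have i3 : (y - h) * L ≤ y0 := by rwa [le_div_iff₀ hLr] at g3
    have i4 : (y0 : ℝ) ≤ (y + h) * L := by rwa [div_le_iff₀ hLr] at g4
    have i1 : a * L ≤ p := by rwa [le_div_iff₀ hLr] at g1
    have i2 : (p : ℝ) ≤ b * L := by rwa [div_le_iff₀ hLr] at g2
    have j1 : B.y1 ≤ y1 := by
      have : (B.y1 : ℝ) < ((y1 + 1 : ℤ) : ℝ) := by push_cast; nlinarith
      have : B.y1 < y1 + 1 := by exact_mod_cast this
      omega
    have j2 : y1 < y0 := by
      have : (y1 : ℝ) < y0 := by nlinarith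
      exact_mod_cast this
    have j3 : y0 < y2 := by
      have : ((y0 : ℤ) : ℝ) < y2 := by nlinarith
      exact_mod_cast this
    have j4 : y2 ≤ B.y2 := by
      have : (y2 : ℝ) < ((B.y2 + 1 : ℤ) : ℝ) := by push_cast; nlinarith
      have : y2 < B.y2 + 1 := by exact_mod_cast this
      omega
    have j5 : A * L < p := by
      have : ((A * L : ℤ) : ℝ) < p := by push_cast; nlinarith
      exact_mod_cast this
    have j6 : p < B' * L + L := by
      have : (p : ℝ) < ((B' * L + L : ℤ) : ℝ) := by push_cast; nlinarith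
      exact_mod_cast this
    have hAt : B.At p y0 := ⟨by omega, by omega, by rw [hB0.xl]; exact j5, by rw [hB0.xr]; omega⟩
    have hval := F.pack_val hAt (a1 := (y1 - B.y1).toNat) (b1 := (B.y2 - y2).toNat)
      (Lt := (y2 - y1).toNat) (q := (y0 - y1).toNat) (g := (p - A * L).toNat)
      (by rw [hB0.xl]; omega) (by omega) (by omega)
    rw [hval]
    have e1 := hE L k2 hev B hB0 p y0 g1 g2 g3 g4
    have e2 := hC L k3 hev B hB0 p y0 g1 g2 g3 g4
    have e3 : P.HD L p y0 - F.amp p y0 / F.Z =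
        -((F.amp p y0 / F.Z - HAp P L B p y0) + (HAp P L B p y0 - P.HD L p y0)) := by ring
    rw [e3, norm_neg]
    refine (norm_add_le _ _).trans ?_
    unfold Wf
    rw [abs_of_pos hh]
    exact add_le_add e1 e2

/-- **`Q1m false` from the named inputs** -/
theorem Q1m_of_inputs {fz : FZ} (hN : ∀ P, NormP fz P) (hE : ∀ P, EvalP fz P)
    (hC : ∀ P, CompP P) (ho : ∀ P : P4, OscM P) : Q1m false :=
  Q1m_of_ring (fun P => sliceR_of (hN P) (hE P) (hC P)) ho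

end

end Crest.Agent.R158.Cs410
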