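import Crest.Agent.R158.Bl3_802

/-!
# Row 158 (helper949): macro geometry of `D^(z)`, 1: positions of the free ends

Generic part: `pr i`, `i < n` : the steps of a closed boundary walk (counterclockwise),
`LG pr n q N` : the clockwise list read from the step `n - 1`, with the extra end `N` inserted after
the step `q`.

* `pu n q i` : position of the step `i`;  `vx n q g` : the vertex of the walk at the gap `g`
* `AtE` : end `x` at the step `i` (the extra end is at the step `q`)
* `rotl_LG` : `rotl (L w) m1 = LG`, `m1` = step `n - 1`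
* **`sect31`, `sect12`** : sectors
-/

set_option autoImplicit false
set_option linter.unusedVariables false

namespace Crest.Agent.R158.Mg949

open Crest.Agent.R158.Sw300
open Crest.Agent.R158.Al194
open Crest.Agent.R158.Ob664

/-! ### rotations -/

theorem rotl_of {α : Type*} [BEq α] [LawfulBEq α] {l l' : List α} (hr : l ~r l') (hn : l.Nodup) {m : α}
    {t : List α} (h : l' = m :: t) : rotl l m = l' := by
  obtain ⟨k, hk⟩ := hr
  have hl : l ≠ [] := by
    rintro rfl
    rw [List.rotate_nil] at hk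
    rw [← hk] at h
    exact absurd h (by simp)
  have hpos : 0 < l.length := List.length_pos_iff.2 hl
  have hk' : l.rotate (k % l.length) = l' := by rw [List.rotate_mod]; exact hk
  have hlt : k % l.length < l.length := Nat.mod_lt _ hpos
  have h0 : l[k % l.length] = m := by
    have h1 : (l.rotate (k % l.length))[0]'(by rw [List.length_rotate]; exact hpos) = m := by
      simp only [hk', h, List.getElem_cons_zero]
    rw [List.getElem_rotate] at h1
    simpa [Nat.mod_eq_of_lt hlt] using h1
  unfold rotl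
  rw [← h0, hn.idxOf_getElem _ hlt, hk']

/-! ### the list -/

section list

variable {T : Type*} {pr : ℕ → Port T} {n q : ℕ} {N : Port T}

/-- the steps `m - 1, ..., 0` -/
def bk (pr : ℕ → Port T) (m : ℕ) : List (Port T) := (List.range m).map fun i => pr (m - 1 - i)

@[simp] theorem bk_length (m : ℕ) : (bk pr m).length = m := by simp [bk]

theorem bk_get (m i : ℕ) (h : i < (bk pr m).length) : (bk pr m)[i] = pr (m - 1 - i) := by simp [bk]

/-- the clockwise list of free ends, read from the step `n - 1` -/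
def LG (pr : ℕ → Port T) (n q : ℕ) (N : Port T) : List (Port T) :=
  bk (fun i => pr (i + q)) (n - q) ++ N :: bk pr q

/-- position of the step `i` -/
def pu (n q i : ℕ) : ℕ := if q ≤ i then n - 1 - i else n - i

/-- vertex at the gap `g` -/
def vx (n q g : ℕ) : ℕ := if g ≤ n - q then n - g else n + 1 - g

theorem LG_length (hq : q < n) : (LG pr n q N).length = n + 1 := by
  simp [LG]; omega

theorem LG_step (hq : q < n) {i : ℕ} (hi : i < n) :
    (LG pr n q N).getD (pu n q i) none = pr i := by
  unfold LG pu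
  split_ifs with h
  · rw [List.getD_append _ _ _ _ (by rw [bk_length]; omega)]
    have hlt : n - 1 - i < (bk (fun i => pr (i + q)) (n - q)).length := by rw [bk_length]; omega
    rw [List.getD_eq_getElem _ _ hlt, bk_get]
    congr 1; omega
  · rw [List.getD_append_right _ _ _ _ (by rw [bk_length]; omega), bk_length,
      show n - i - (n - q) = (q - 1 - i) + 1 by omega, List.getD_cons_succ]
    have hlt : q - 1 - i < (bk pr q).length := by rw [bk_length]; omega
    rw [List.getD_eq_getElem _ _ hlt, bk_get]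
    congr 1; omega

theorem LG_N : (LG pr n q N).getD (n - q) none = N := by
  unfold LG
  rw [List.getD_append_right _ _ _ _ (by rw [bk_length]), bk_length, Nat.sub_self,
    List.getD_cons_zero]

/-- every position is a step or the extra end -/
theorem pos_cases (hq : q < n) {g : ℕ} (hg : g < n + 1) :
    (∃ i < n, g = pu n q i ∧ vx n q g = i + 1) ∨ (g = n - q ∧ vx n q g = q) := by
  by_cases h : g = n - q
  · right
    refine ⟨h, ?_⟩
    unfold vx; split_ifs <;> omega
  · left
    rcases Nat.lt_or_ge g (n - q) with h1 | h1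
    · refine ⟨n - 1 - g, by omega, ?_, ?_⟩
      · unfold pu; split_ifs <;> omega
      · unfold vx; split_ifs <;> omega
    · refine ⟨n - g, by omega, ?_, ?_⟩
      · unfold pu; split_ifs <;> omega
      · unfold vx; split_ifs <;> omega

theorem pu_lt (hq : q < n) {i : ℕ} (hi : i < n) : pu n q i < n + 1 := by
  unfold pu; split_ifs <;> omega

/-- the end `x` is at the step `i` -/
def AtE (pr : ℕ → Port T) (n q : ℕ) (N : Port T) (x : Port T) (i : ℕ) : Prop :=
  i < n ∧ (x = pr i ∨ (x = N ∧ i = q))

theorem mem_LG (hq : q < n) {x : Port T} : x ∈ LG pr n q N ↔ ∃ i, AtE pr n q N x i := by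
  constructor
  · intro hx
    obtain ⟨g, hg, rfl⟩ := List.getElem_of_mem hx
    rw [LG_length hq] at hg
    rw [← List.getD_eq_getElem _ none]
    rcases pos_cases hq hg with ⟨i, hi, e, -⟩ | ⟨e, -⟩
    · exact ⟨i, hi, Or.inl (by rw [e, LG_step hq hi])⟩
    · exact ⟨q, hq, Or.inr ⟨by rw [e, LG_N], rfl⟩⟩
  · rintro ⟨i, hi, rfl | ⟨rfl, rfl⟩⟩
    · rw [← LG_step (pr := pr) (N := N) hq hi]
      have : pu n q i < (LG pr n q N).length := by rw [LG_length hq]; exact pu_lt hq hi
      rw [List.getD_eq_getElem _ _ this]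
      exact List.getElem_mem _
    · unfold LG; simp

theorem bk_succ (m : ℕ) : bk pr (m + 1) = pr m :: bk pr m := by
  unfold bk
  rw [List.range_succ_eq_map, List.map_cons, List.map_map]
  congr 1
  apply List.map_congr_left
  intro i _
  simp only [Function.comp]
  congr 1; omega

theorem LG_cons (hq : q < n) : ∃ t, LG pr n q N = pr (n - 1) :: t := by
  unfold LG
  obtain ⟨m, hm⟩ : ∃ m, n - q = m + 1 := ⟨n - q - 1, by omega⟩
  refine ⟨bk (fun i => pr (i + q)) m ++ N :: bk pr q, ?_⟩
  rw [hm, bk_succ, List.cons_append]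
  congr 2; omega

end list

/-! ### positions in a word -/

section word

variable {T : Type*} [DecidableEq T] {pr : ℕ → Port T} {n q : ℕ} {N : Port T} {w : Wd T}

theorem rotl_LG (hw : Ok w) (hL : L w ~r LG pr n q N) (hq : q < n) :
    rotl (L w) (pr (n - 1)) = LG pr n q N := by
  obtain ⟨t, ht⟩ := LG_cons (pr := pr) (N := N) hq
  exact rotl_of hL (nodup hw) ht

theorem idL_inj {x y : Port T} (hx : x ∈ L w) (hy : y ∈ L w) {m : Port T} :
    idL (L w) m x = idL (L w) m y ↔ x = y := by
  refine ⟨fun h => ?_, fun h => by rw [h]⟩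
  rw [← enL_idL (m1 := m) hx, h, enL_idL hy]

variable (hw : Ok w) (hL : L w ~r LG pr n q N) (hq : q < n)
include hw hL hq

theorem length_L : (L w).length = n + 1 := by
  rw [← rotl_length (L w) (pr (n - 1)), rotl_LG hw hL hq, LG_length hq]

theorem mem_L {x : Port T} : x ∈ L w ↔ ∃ i, AtE pr n q N x i := by
  rw [← mem_LG hq, ← rotl_LG hw hL hq, mem_rotl]

theorem idL_step {i : ℕ} (hi : i < n) : idL (L w) (pr (n - 1)) (pr i) = pu n q i := by
  unfold idL
  have hn : (rotl (L w) (pr (n - 1))).Nodup := rotl_nodup (nodup hw)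
  rw [rotl_LG hw hL hq] at hn ⊢
  have hlt : pu n q i < (LG pr n q N).length := by rw [LG_length hq]; exact pu_lt hq hi
  have := LG_step (pr := pr) (N := N) hq hi
  rw [List.getD_eq_getElem _ _ hlt] at this
  conv_lhs => rw [← this]
  exact hn.idxOf_getElem _ hlt

theorem idL_N : idL (L w) (pr (n - 1)) N = n - q := by
  unfold idL
  have hn : (rotl (L w) (pr (n - 1))).Nodup := rotl_nodup (nodup hw)
  rw [rotl_LG hw hL hq] at hn ⊢
  have hlt : n - q < (LG pr n q N).length := by rw [LG_length hq]; omega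
  have := LG_N (pr := pr) (n := n) (q := q) (N := N)
  rw [List.getD_eq_getElem _ _ hlt] at this
  have h2 := hn.idxOf_getElem _ hlt
  rw [this] at h2
  exact h2

/-- position of an end compared with the position of a step -/
theorem le_idL {x : Port T} {i : ℕ} (hx : AtE pr n q N x i) {e : ℕ} (he : e < n) :
    idL (L w) (pr (n - 1)) (pr e) ≤ idL (L w) (pr (n - 1)) x ↔ i ≤ e := by
  rw [idL_step hw hL hq he]
  obtain ⟨hi, rfl | ⟨rfl, rfl⟩⟩ := hx
  · rw [idL_step hw hL hq hi]
    unfold pu; split_ifs <;> omega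
  · rw [idL_N hw hL hq]
    unfold pu; split_ifs <;> omega

theorem m1_mem : pr (n - 1) ∈ L w :=
  (mem_L hw hL hq).2 ⟨n - 1, by omega, Or.inl rfl⟩

theorem idL_m1 : idL (L w) (pr (n - 1)) (pr (n - 1)) = 0 :=
  idxOf_rotl_self (nodup hw) (m1_mem hw hL hq)

theorem idL_pos {e : ℕ} (he : e + 1 < n) : 0 < idL (L w) (pr (n - 1)) (pr e) := by
  rw [idL_step hw hL hq (by omega)]
  unfold pu; split_ifs <;> omega

/-- the sector from the mark at the step `e` to the mark at the step `n - 1` -/
theorem sect31 {x : Port T} {i : ℕ} (hx : AtE pr n q N x i) {e : ℕ} (he : e + 1 < n) :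
    Sect (pos w) (pr e) (pr (n - 1)) x ↔ i ≤ e := by
  have m1 := m1_mem hw hL hq
  have m3 : pr e ∈ L w := (mem_L hw hL hq).2 ⟨e, by omega, Or.inl rfl⟩
  have mx : x ∈ L w := (mem_L hw hL hq).2 ⟨i, hx⟩
  have z1 := idL_m1 hw hL hq
  have z3 := idL_pos hw hL hq he
  have inj := idL_inj (m := pr (n - 1)) mx m3
  rw [← le_idL hw hL hq hx (by omega : e < n)]
  unfold Sect
  rw [cyc_idL hw m1 m3 mx m1, z1, ← inj]
  unfold cyc
  omega

/-- the sector from the mark at the step `n - 1` to the mark at the step `e` -/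
theorem sect12 {x : Port T} {i : ℕ} (hx : AtE pr n q N x i) {e : ℕ} (he : e + 1 < n) :
    Sect (pos w) (pr (n - 1)) (pr e) x ↔ e < i := by
  have m1 := m1_mem hw hL hq
  have m3 : pr e ∈ L w := (mem_L hw hL hq).2 ⟨e, by omega, Or.inl rfl⟩
  have mx : x ∈ L w := (mem_L hw hL hq).2 ⟨i, hx⟩
  have z1 := idL_m1 hw hL hq
  have z3 := idL_pos hw hL hq he
  have inj := idL_inj (m := pr (n - 1)) mx m1
  rw [z1] at inj
  rw [← not_le, ← le_idL hw hL hq hx (by omega : e < n)]
  unfold Sect
  rw [cyc_idL hw m1 m1 mx m3, z1, ← inj]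
  unfold cyc
  omega

/-! gaps -/

/-- before the mark at the step `e` : vertices `≥ e + 1` -/
theorem vx_ge {e g : ℕ} (he : e < n) (hg : g ≤ idL (L w) (pr (n - 1)) (pr e)) :
    e + 1 ≤ vx n q g := by
  rw [idL_step hw hL hq he] at hg
  unfold pu at hg; unfold vx
  split_ifs at hg ⊢ <;> omega

/-- after the mark at the step `e` : vertices `≤ e + 1` -/
theorem vx_le {e g : ℕ} (he : e < n) (hg : idL (L w) (pr (n - 1)) (pr e) ≤ g) :
    vx n q g ≤ e + 1 := by
  rw [idL_step hw hL hq he] at hg
  unfold pu at hg; unfold vx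
  split_ifs at hg ⊢ <;> omega

/-- gaps after the end `x` at the step `i` : vertices `≤ i` -/
theorem vx_le_of_lt {x : Port T} {i : ℕ} (hx : AtE pr n q N x i) {g : ℕ}
    (hg : idL (L w) (pr (n - 1)) x < g) (hg' : g ≤ n + 1) : vx n q g ≤ i := by
  obtain ⟨hi, rfl | ⟨rfl, rfl⟩⟩ := hx
  · rw [idL_step hw hL hq hi] at hg
    unfold pu at hg; unfold vx
    split_ifs at hg ⊢ <;> omega
  · rw [idL_N hw hL hq] at hg
    unfold vx
    split_ifs at hg ⊢ <;> omega

/-- gaps up to the end `x` at the step `i` : vertices `≥ i` -/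
theorem vx_ge_of_le {x : Port T} {i : ℕ} (hx : AtE pr n q N x i) {g : ℕ}
    (hg : g ≤ idL (L w) (pr (n - 1)) x) : i ≤ vx n q g := by
  obtain ⟨hi, rfl | ⟨rfl, rfl⟩⟩ := hx
  · rw [idL_step hw hL hq hi] at hg
    unfold pu at hg; unfold vx
    split_ifs at hg ⊢ <;> omega
  · rw [idL_N hw hL hq] at hg
    unfold vx
    split_ifs at hg ⊢ <;> omega

end word

/-! ### 802's list -/

section blk

open Crest.Agent.R158.Sp896 Crest.Agent.R158.Bl802

variable {U : ℕ → V} {n q : ℕ} {N : Port V}

/-- the steps of the walk `U` -/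
def st (U : ℕ → V) (i : ℕ) : Port V := pt (U i) (U (i + 1))

theorem blk_eq (U : ℕ → V) (m : ℕ) : blk U m = bk (st U) m := by
  unfold blk bk st
  apply List.map_congr_left
  intro i hi
  rw [List.mem_range] at hi
  congr 2; omega


end blk

end Crest.Agent.R158.Mg949
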