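import Crest.Agent.R158.Sl1_434
import Crest.Agent.R158.Vt4_300
import Crest.Agent.R158.Ob0_664
import Crest.Agent.R158.Gc3_748

-- ▼ part R158/Sl2_434
section

/-!
# R158, block SL (helper434), file Sl2: the triangle observable on cyclic lists

`L : List α` = the cyclic list of ends (clockwise), `M` = partner, `u` = leg end; a mark `x ∈ L` is
the gap just before the end `x` (664's convention).

* `gq`, `opp`, `Sepc` : sides of an arc, "some arc separates the gaps `x, y` from `z` and the leg"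
* `cyc` : the leg end lies in the clockwise interval `[x, y)`
* `VV` : the value of the observable; `vv_rot` : invariance under rotation of the list
* `vv_one`, `vv_zero` : **invariance when the block `B` of the cyclic list `A ++ B` is changed**
-/

set_option autoImplicit false

namespace Crest.Agent.R158.Sl434

open Crest.Agent.R158.Vt300

variable {α : Type*} [DecidableEq α]

set_option linter.unusedSectionVars false

/-- `a` is before `t` in the list -/
def gq (L : List α) (a t : α) : Bool := decide (L.idxOf a < L.idxOf t)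

/-- the gaps before `x` and `y` are on different sides of the arc `a b` (`a, b ≠ y`) -/
def opp (L : List α) (a b x y : α) : Bool := (gq L a x ^^ gq L b x) ^^ (gq L a y ^^ gq L b y)

/-- some arc has the gaps `x`, `y` on the side away from `u` and `z` on the side of `u` -/
def Sepc (L : List α) (M : α → α) (u x y z : α) : Prop :=
  ∃ a ∈ L, M a ∈ L ∧ M a ≠ a ∧ opp L a (M a) x u = true ∧ opp L a (M a) y u = true ∧
    opp L a (M a) z u = false

/-- the end `u` lies in the clockwise interval `[x, y)` -/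
def cyc (L : List α) (x u y : α) : Bool :=
  (!(gq L u x) && gq L u y) || (gq L u y && !(gq L x y)) || (!(gq L x y) && !(gq L u x))

open Classical in
/-- value of the observable from its three separation events and the place of the leg -/
noncomputable def vval (p1 p2 p3 : Prop) (q1 q2 : Bool) : ℂ :=
  if p1 then 0 else if p2 then 1 else if p3 then v2
  else if q1 = true then 1 / 2 else if q2 = true then v2 / 2 else (v2 + 1) / 2

/-- the triangle observable with marks `x1 x2 x3` -/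
noncomputable def VV (L : List α) (M : α → α) (u x1 x2 x3 : α) : ℂ :=
  vval (Sepc L M u x2 x3 x1) (Sepc L M u x1 x2 x3) (Sepc L M u x3 x1 x2) (cyc L x3 u x1)
    (cyc L x1 u x2)



theorem opp_comm (L : List α) (a b x y : α) : opp L a b x y = opp L b a x y := by
  unfold opp
  rw [Bool.xor_comm (gq L a x), Bool.xor_comm (gq L a y)]

/-! ### indices -/

theorem gq_ll {A B : List α} {a t : α} (ha : a ∈ A) (ht : t ∈ A) : gq (A ++ B) a t = gq A a t := by
  unfold gq
  rw [List.idxOf_append_of_mem ha, List.idxOf_append_of_mem ht]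

theorem notMem_left {A B : List α} (hn : (A ++ B).Nodup) {b : α} (hb : b ∈ B) : b ∉ A := by
  intro ha
  exact (List.disjoint_of_nodup_append hn) ha hb

theorem gq_lr {A B : List α} (hn : (A ++ B).Nodup) {a b : α} (ha : a ∈ A) (hb : b ∈ B) :
    gq (A ++ B) a b = true := by
  unfold gq
  rw [List.idxOf_append_of_mem ha, List.idxOf_append_of_notMem (notMem_left hn hb)]
  have := List.idxOf_lt_length_iff.2 ha
  simp only [decide_eq_true_eq]
  omega

theorem gq_rl {A B : List α} (hn : (A ++ B).Nodup) {a b : α} (ha : a ∈ A) (hb : b ∈ B) :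
    gq (A ++ B) b a = false := by
  unfold gq
  rw [List.idxOf_append_of_mem ha, List.idxOf_append_of_notMem (notMem_left hn hb)]
  have := List.idxOf_lt_length_iff.2 ha
  simp only [decide_eq_false_iff_not]
  omega

theorem gq_rr {A B : List α} (hn : (A ++ B).Nodup) {a b : α} (ha : a ∈ B) (hb : b ∈ B) :
    gq (A ++ B) a b = gq B a b := by
  unfold gq
  rw [List.idxOf_append_of_notMem (notMem_left hn ha),
    List.idxOf_append_of_notMem (notMem_left hn hb)]
  congr 1
  simp

theorem gq_swap {A B : List α} (hn : (A ++ B).Nodup) {a t : α} (ha : a ∈ A ++ B)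
    (ht : t ∈ A ++ B) :
    gq (B ++ A) a t = (gq (A ++ B) a t ^^ (decide (a ∈ B) ^^ decide (t ∈ B))) := by
  have hn' : (B ++ A).Nodup := List.nodup_append_comm.1 hn
  rw [List.mem_append] at ha ht
  rcases ha with ha | ha <;> rcases ht with ht | ht
  · have h1 : a ∉ B := notMem_left hn' ha
    have h2 : t ∉ B := notMem_left hn' ht
    rw [gq_rr hn' ha ht, gq_ll ha ht]; simp [h1, h2]
  · have h1 : a ∉ B := notMem_left hn' ha
    rw [gq_rl hn' ht ha, gq_lr hn ha ht]; simp [h1, ht]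
  · have h1 : t ∉ B := notMem_left hn' ht
    rw [gq_lr hn' ha ht, gq_rl hn ht ha]; simp [h1, ha]
  · rw [gq_ll ha ht, gq_rr hn ha ht]; simp [ha, ht]

theorem opp_swap {A B : List α} (hn : (A ++ B).Nodup) {a b x y : α} (ha : a ∈ A ++ B)
    (hb : b ∈ A ++ B) (hx : x ∈ A ++ B) (hy : y ∈ A ++ B) :
    opp (B ++ A) a b x y = opp (A ++ B) a b x y := by
  unfold opp
  rw [gq_swap hn ha hx, gq_swap hn hb hx, gq_swap hn ha hy, gq_swap hn hb hy]
  generalize gq (A ++ B) a x = p1
  generalize gq (A ++ B) b x = p2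
  generalize gq (A ++ B) a y = p3
  generalize gq (A ++ B) b y = p4
  generalize decide (a ∈ B) = q1
  generalize decide (b ∈ B) = q2
  generalize decide (x ∈ B) = q3
  generalize decide (y ∈ B) = q4
  revert p1 p2 p3 p4 q1 q2 q3 q4
  decide

theorem sepc_swap_aux {A B : List α} (hn : (A ++ B).Nodup) {M : α → α} {u x y z : α}
    (hu : u ∈ A ++ B) (hx : x ∈ A ++ B) (hy : y ∈ A ++ B) (hz : z ∈ A ++ B)
    (h : Sepc (A ++ B) M u x y z) : Sepc (B ++ A) M u x y z := by
  obtain ⟨a, ha, hMa, hne, h1, h2, h3⟩ := h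
  refine ⟨a, (List.mem_append.1 ha).elim (fun h => List.mem_append.2 (Or.inr h))
    (fun h => List.mem_append.2 (Or.inl h)), (List.mem_append.1 hMa).elim
    (fun h => List.mem_append.2 (Or.inr h)) (fun h => List.mem_append.2 (Or.inl h)), hne, ?_, ?_, ?_⟩
  · rw [opp_swap hn ha hMa hx hu]; exact h1
  · rw [opp_swap hn ha hMa hy hu]; exact h2
  · rw [opp_swap hn ha hMa hz hu]; exact h3

theorem mem_swap {A B : List α} {x : α} (h : x ∈ A ++ B) : x ∈ B ++ A := by
  rw [List.mem_append] at h ⊢; exact h.symm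

theorem sepc_swap {A B : List α} (hn : (A ++ B).Nodup) {M : α → α} {u x y z : α}
    (hu : u ∈ A ++ B) (hx : x ∈ A ++ B) (hy : y ∈ A ++ B) (hz : z ∈ A ++ B) :
    Sepc (B ++ A) M u x y z ↔ Sepc (A ++ B) M u x y z :=
  ⟨sepc_swap_aux (List.nodup_append_comm.1 hn) (mem_swap hu) (mem_swap hx) (mem_swap hy)
    (mem_swap hz), sepc_swap_aux hn hu hx hy hz⟩

/-- comparison of two different members is a strict order -/
theorem gq_ne {L : List α} {a b : α} (ha : a ∈ L) (hab : a ≠ b) :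
    gq L b a = !(gq L a b) := by
  unfold gq
  have hne : L.idxOf a ≠ L.idxOf b := fun h => hab ((List.idxOf_inj ha).1 h)
  by_cases h : L.idxOf a < L.idxOf b
  · have h2 : ¬ L.idxOf b < L.idxOf a := by omega
    simp [h, h2]
  · have h2 : L.idxOf b < L.idxOf a := by omega
    simp [h, h2]

theorem gq_self (L : List α) (a : α) : gq L a a = false := by simp [gq]

theorem cyc_swap {A B : List α} (hn : (A ++ B).Nodup) {u x y : α}
    (hu : u ∈ A ++ B) (hx : x ∈ A ++ B) (hy : y ∈ A ++ B) (hxy : x ≠ y) :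
    cyc (B ++ A) x u y = cyc (A ++ B) x u y := by
  unfold cyc
  rw [gq_swap hn hu hx, gq_swap hn hu hy, gq_swap hn hx hy]
  by_cases hux : u = x
  · subst hux
    rw [gq_self]
    generalize gq (A ++ B) u y = p2
    generalize decide (u ∈ B) = q1
    generalize decide (y ∈ B) = q2
    revert p2 q1 q2
    decide
  by_cases huy : u = y
  · subst huy
    have h1 := gq_ne hu hux
    rw [gq_self]
    rw [h1]
    generalize gq (A ++ B) u x = p2
    generalize decide (u ∈ B) = q1
    generalize decide (x ∈ B) = q2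
    revert p2 q1 q2
    decide
  -- three different ends: transitivity
  have t1 := gq_ne hu hux
  have t2 := gq_ne hu huy
  have t3 := gq_ne hx hxy
  have hu' := List.mem_append.1 hu
  have hx' := List.mem_append.1 hx
  have hy' := List.mem_append.1 hy
  -- block facts
  have k1 : decide (u ∈ B) = true → decide (x ∈ B) = false → gq (A ++ B) u x = false := by
    intro h1 h2
    simp only [decide_eq_true_eq, decide_eq_false_iff_not] at h1 h2
    exact gq_rl hn (hx'.resolve_right h2) h1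
  have k2 : decide (u ∈ B) = false → decide (x ∈ B) = true → gq (A ++ B) u x = true := by
    intro h1 h2
    simp only [decide_eq_true_eq, decide_eq_false_iff_not] at h1 h2
    exact gq_lr hn (hu'.resolve_right h1) h2
  have k3 : decide (u ∈ B) = true → decide (y ∈ B) = false → gq (A ++ B) u y = false := by
    intro h1 h2
    simp only [decide_eq_true_eq, decide_eq_false_iff_not] at h1 h2
    exact gq_rl hn (hy'.resolve_right h2) h1
  have k4 : decide (u ∈ B) = false → decide (y ∈ B) = true → gq (A ++ B) u y = true := by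
    intro h1 h2
    simp only [decide_eq_true_eq, decide_eq_false_iff_not] at h1 h2
    exact gq_lr hn (hu'.resolve_right h1) h2
  have k5 : decide (x ∈ B) = true → decide (y ∈ B) = false → gq (A ++ B) x y = false := by
    intro h1 h2
    simp only [decide_eq_true_eq, decide_eq_false_iff_not] at h1 h2
    exact gq_rl hn (hy'.resolve_right h2) h1
  have k6 : decide (x ∈ B) = false → decide (y ∈ B) = true → gq (A ++ B) x y = true := by
    intro h1 h2
    simp only [decide_eq_true_eq, decide_eq_false_iff_not] at h1 h2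
    exact gq_lr hn (hx'.resolve_right h1) h2
  have k7 : gq (A ++ B) u x = true → gq (A ++ B) x y = true → gq (A ++ B) u y = true := by
    unfold gq; simp only [decide_eq_true_eq]; omega
  have k8 : gq (A ++ B) u y = true → gq (A ++ B) x y = false → gq (A ++ B) u x = true := by
    unfold gq; simp only [decide_eq_true_eq, decide_eq_false_iff_not]; omega
  clear t1 t2 t3
  revert k1 k2 k3 k4 k5 k6 k7 k8
  generalize gq (A ++ B) u x = p1
  generalize gq (A ++ B) u y = p2
  generalize gq (A ++ B) x y = p3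
  generalize decide (u ∈ B) = q1
  generalize decide (x ∈ B) = q2
  generalize decide (y ∈ B) = q3
  cases p1 <;> cases p2 <;> cases p3 <;> cases q1 <;> cases q2 <;> cases q3 <;> simp

theorem vv_swap {A B : List α} (hn : (A ++ B).Nodup) {M : α → α} {u x1 x2 x3 : α}
    (hu : u ∈ A ++ B) (h1 : x1 ∈ A ++ B) (h2 : x2 ∈ A ++ B) (h3 : x3 ∈ A ++ B) (h12 : x1 ≠ x2)
    (h31 : x3 ≠ x1) : VV (B ++ A) M u x1 x2 x3 = VV (A ++ B) M u x1 x2 x3 := by
  unfold VV
  rw [cyc_swap hn hu h3 h1 h31, cyc_swap hn hu h1 h2 h12]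
  rw [propext (sepc_swap (M := M) hn hu h2 h3 h1), propext (sepc_swap (M := M) hn hu h1 h2 h3),
    propext (sepc_swap (M := M) hn hu h3 h1 h2)]

/-- **rotation invariance** -/
theorem vv_rot {L L' : List α} (hr : L ~r L') (hn : L.Nodup) {M : α → α} {u x1 x2 x3 : α}
    (hu : u ∈ L) (h1 : x1 ∈ L) (h2 : x2 ∈ L) (h3 : x3 ∈ L) (h12 : x1 ≠ x2) (h31 : x3 ≠ x1) :
    VV L' M u x1 x2 x3 = VV L M u x1 x2 x3 := by
  obtain ⟨n, hn', rfl⟩ := List.isRotated_iff_mod.1 hr
  rw [List.rotate_eq_drop_append_take hn']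
  have e : L.take n ++ L.drop n = L := List.take_append_drop n L
  rw [← e] at hn hu h1 h2 h3
  have := vv_swap (M := M) hn hu h1 h2 h3 h12 h31
  rw [this, e]

/-! ### change of a block -/

/-- one side of the invariance of `Sepc`, one crossing strand -/
theorem sepc_one_aux {A B B' : List α} (hn : (A ++ B).Nodup) (hn' : (A ++ B').Nodup)
    {M M' : α → α} {u u' x y z : α} (huL : u ∈ A ++ B) (huL' : u' ∈ A ++ B')
    (hu : u ∈ A ∨ u' ∈ A → u = u') (hM : ∀ a ∈ A, ∀ b ∈ A, M a = b ↔ M' a = b)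
    (hMM : ∀ a ∈ A ++ B, M (M a) = a) (hMl' : ∀ a ∈ A ++ B', M' a ∈ A ++ B')
    (h3 : u ∉ A → ∀ a ∈ A, M a ∈ A) (hx : x ∈ A) (hy : y ∈ A) (hz : z ∈ A)
    (h : Sepc (A ++ B) M u x y z) : Sepc (A ++ B') M' u' x y z := by
  -- an arc from `A` to `B`
  have key : ∀ a ∈ A, M a ∈ B → M a ≠ a → opp (A ++ B) a (M a) x u = true →
      opp (A ++ B) a (M a) y u = true → opp (A ++ B) a (M a) z u = false →
      Sepc (A ++ B') M' u' x y z := by
    intro a ha hb hne h4 h5 h6
    have hbA : M a ∉ A := notMem_left hn hb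
    have huA : u ∈ A := by
      by_contra huA
      exact hbA (h3 huA a ha)
    obtain rfl := hu (Or.inl huA)
    have hb' : M' a ∈ A ++ B' := hMl' a (List.mem_append_left _ ha)
    have hb2 : M' a ∉ A := by
      intro h7
      have h8 : M a = M' a := (hM a ha _ h7).2 rfl
      exact hbA (h8 ▸ h7)
    have hb3 : M' a ∈ B' := (List.mem_append.1 hb').resolve_left hb2
    have e1 : ∀ t ∈ A, opp (A ++ B) a (M a) t u = (gq A a t ^^ gq A a u) := by
      intro t ht
      unfold opp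
      rw [gq_ll ha ht, gq_ll ha huA, gq_rl hn ht hb, gq_rl hn huA hb]
      simp
    have e2 : ∀ t ∈ A, opp (A ++ B') a (M' a) t u = (gq A a t ^^ gq A a u) := by
      intro t ht
      unfold opp
      rw [gq_ll ha ht, gq_ll ha huA, gq_rl hn' ht hb3, gq_rl hn' huA hb3]
      simp
    refine ⟨a, List.mem_append_left _ ha, hb', fun h7 => hb2 (by rw [h7]; exact ha), ?_, ?_, ?_⟩
    · rw [e2 x hx, ← e1 x hx]; exact h4
    · rw [e2 y hy, ← e1 y hy]; exact h5
    · rw [e2 z hz, ← e1 z hz]; exact h6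
  obtain ⟨a, ha, hMa, hne, h4, h5, h6⟩ := h
  rcases List.mem_append.1 ha with ha | ha <;> rcases List.mem_append.1 hMa with hb | hb
  · -- both in `A`
    have e0 : M' a = M a := (hM a ha _ hb).1 rfl
    have e1 : ∀ t ∈ A, opp (A ++ B') a (M' a) t u' = opp (A ++ B) a (M a) t u := by
      intro t ht
      unfold opp
      rw [e0, gq_ll ha ht, gq_ll ha ht, gq_ll hb ht, gq_ll hb ht]
      congr 1
      rcases List.mem_append.1 huL with h7 | h7
      · obtain rfl := hu (Or.inl h7)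
        rw [gq_ll ha h7, gq_ll ha h7, gq_ll hb h7, gq_ll hb h7]
      · have h8 : u' ∈ B' := by
          refine (List.mem_append.1 huL').resolve_left fun h9 => ?_
          have h10 := hu (Or.inr h9)
          exact notMem_left hn h7 (h10 ▸ h9)
        rw [gq_lr hn' ha h8, gq_lr hn ha h7, gq_lr hn' hb h8, gq_lr hn hb h7]
    refine ⟨a, List.mem_append_left _ ha, ?_, ?_, ?_, ?_, ?_⟩
    · rw [e0]; exact List.mem_append_left _ hb
    · rw [e0]; exact hne
    · rw [e1 x hx]; exact h4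
    · rw [e1 y hy]; exact h5
    · rw [e1 z hz]; exact h6
  · exact key a ha hb hne h4 h5 h6
  · have h7 : M (M a) = a := hMM a (List.mem_append_right _ ha)
    have c1 : ∀ t, opp (A ++ B) (M a) (M (M a)) t u = opp (A ++ B) a (M a) t u := by
      intro t; rw [h7]; exact opp_comm _ _ _ _ _
    refine key (M a) hb (by rw [h7]; exact ha) (by rw [h7]; exact hne.symm) ?_ ?_ ?_
    · rw [c1]; exact h4
    · rw [c1]; exact h5
    · rw [c1]; exact h6
  · -- both in `B`
    exfalso
    unfold opp at h4 h6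
    rw [gq_rl hn hx ha, gq_rl hn hx hb] at h4
    rw [gq_rl hn hz ha, gq_rl hn hz hb] at h6
    rw [h4] at h6
    exact absurd h6 (by decide)

/-- data of a change of the block `B` with at most one strand between the far part and the block -/
structure One (A B B' : List α) (M M' : α → α) (u u' : α) : Prop where
  nd : (A ++ B).Nodup
  nd' : (A ++ B').Nodup
  uL : u ∈ A ++ B
  uL' : u' ∈ A ++ B'
  hu : u ∈ A ∨ u' ∈ A → u = u'
  hM : ∀ a ∈ A, ∀ b ∈ A, M a = b ↔ M' a = b
  inv : ∀ a ∈ A ++ B, M (M a) = a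
  inv' : ∀ a ∈ A ++ B', M' (M' a) = a
  mem : ∀ a ∈ A ++ B, M a ∈ A ++ B
  mem' : ∀ a ∈ A ++ B', M' a ∈ A ++ B'
  leg : u ∉ A → ∀ a ∈ A, M a ∈ A

theorem One.symm {A B B' : List α} {M M' : α → α} {u u' : α} (h : One A B B' M M' u u') :
    One A B' B M' M u' u where
  nd := h.nd'
  nd' := h.nd
  uL := h.uL'
  uL' := h.uL
  hu h1 := (h.hu h1.symm).symm
  hM a ha b hb := (h.hM a ha b hb).symm
  inv := h.inv'
  inv' := h.inv
  mem := h.mem'
  mem' := h.mem
  leg h1 a ha := by
    have h2 : u ∉ A := fun h3 => h1 ((h.hu (Or.inl h3)) ▸ h3)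
    have h3 := h.leg h2 a ha
    have h4 : M' a = M a := (h.hM a ha _ h3).1 rfl
    rw [h4]; exact h3

theorem One.sepc {A B B' : List α} {M M' : α → α} {u u' : α} (h : One A B B' M M' u u')
    {x y z : α} (hx : x ∈ A) (hy : y ∈ A) (hz : z ∈ A) :
    Sepc (A ++ B) M u x y z ↔ Sepc (A ++ B') M' u' x y z :=
  ⟨sepc_one_aux h.nd h.nd' h.uL h.uL' h.hu h.hM h.inv h.mem' h.leg hx hy hz,
    sepc_one_aux h.symm.nd h.symm.nd' h.symm.uL h.symm.uL' h.symm.hu h.symm.hM h.symm.inv
      h.symm.mem' h.symm.leg hx hy hz⟩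

theorem One.cyc {A B B' : List α} {M M' : α → α} {u u' : α} (h : One A B B' M M' u u')
    {x y : α} (hx : x ∈ A) (hy : y ∈ A) : cyc (A ++ B) x u y = cyc (A ++ B') x u' y := by
  unfold Sl434.cyc
  rw [gq_ll hx hy, gq_ll hx hy]
  rcases List.mem_append.1 h.uL with h7 | h7
  · obtain rfl := h.hu (Or.inl h7)
    rw [gq_ll h7 hx, gq_ll h7 hx, gq_ll h7 hy, gq_ll h7 hy]
  · have h8 : u' ∈ B' := by
      refine (List.mem_append.1 h.uL').resolve_left fun h9 => ?_
      have h10 := h.hu (Or.inr h9)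
      exact notMem_left h.nd h7 (h10 ▸ h9)
    rw [gq_rl h.nd hx h7, gq_rl h.nd hy h7, gq_rl h.nd' hx h8, gq_rl h.nd' hy h8]

/-- **V-invariance, at most one crossing strand** -/
theorem vv_one {A B B' : List α} {M M' : α → α} {u u' : α} (h : One A B B' M M' u u')
    {x1 x2 x3 : α} (h1 : x1 ∈ A) (h2 : x2 ∈ A) (h3 : x3 ∈ A) :
    VV (A ++ B) M u x1 x2 x3 = VV (A ++ B') M' u' x1 x2 x3 := by
  unfold VV
  rw [h.cyc h3 h1, h.cyc h1 h2]
  rw [propext (h.sepc h2 h3 h1), propext (h.sepc h1 h2 h3), propext (h.sepc h3 h1 h2)]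

/-- a mark and its image: the same far end, or arbitrary ends of the two blocks -/
def Mk (A B B' : List α) (x x' : α) : Prop := (x ∈ A ∧ x' = x) ∨ (x ∈ B ∧ x' ∈ B')

theorem Mk.symm {A B B' : List α} {x x' : α} (h : Mk A B B' x x') : Mk A B' B x' x := by
  rcases h with ⟨h1, rfl⟩ | ⟨h1, h2⟩
  · exact Or.inl ⟨h1, rfl⟩
  · exact Or.inr ⟨h2, h1⟩

theorem Mk.mem {A B B' : List α} {x x' : α} (h : Mk A B B' x x') : x ∈ A ++ B ∧ x' ∈ A ++ B' := by
  rcases h with ⟨h1, rfl⟩ | ⟨h1, h2⟩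
  · exact ⟨List.mem_append_left _ h1, List.mem_append_left _ h1⟩
  · exact ⟨List.mem_append_right _ h1, List.mem_append_right _ h2⟩

theorem sepc_zero_aux {A B B' : List α} {M M' : α → α} {u u' : α} (h : One A B B' M M' u u')
    (huA : u ∈ A) (hA : ∀ a ∈ A, M a ∈ A) {x y z x' y' z' : α} (hx : Mk A B B' x x')
    (hy : Mk A B B' y y') (hz : Mk A B B' z z') (hxy : x ∈ A ∨ y ∈ A)
    (hs : Sepc (A ++ B) M u x y z) : Sepc (A ++ B') M' u' x' y' z' := by
  obtain rfl := h.hu (Or.inl huA)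
  obtain ⟨a, ha, hMa, hne, h4, h5, h6⟩ := hs
  by_cases haA : a ∈ A
  · have hb : M a ∈ A := hA a haA
    have e0 : M' a = M a := (h.hM a haA _ hb).1 rfl
    have e1 : ∀ t t', Mk A B B' t t' → opp (A ++ B') a (M' a) t' u = opp (A ++ B) a (M a) t u := by
      intro t t' ht
      unfold opp
      rw [e0, gq_ll haA huA, gq_ll haA huA, gq_ll hb huA, gq_ll hb huA]
      congr 1
      rcases ht with ⟨ht, rfl⟩ | ⟨ht, ht'⟩
      · rw [gq_ll haA ht, gq_ll haA ht, gq_ll hb ht, gq_ll hb ht]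
      · rw [gq_lr h.nd haA ht, gq_lr h.nd hb ht, gq_lr h.nd' haA ht', gq_lr h.nd' hb ht']
    refine ⟨a, List.mem_append_left _ haA, ?_, ?_, ?_, ?_, ?_⟩
    · rw [e0]; exact List.mem_append_left _ hb
    · rw [e0]; exact hne
    · rw [e1 x x' hx]; exact h4
    · rw [e1 y y' hy]; exact h5
    · rw [e1 z z' hz]; exact h6
  · exfalso
    have haB : a ∈ B := (List.mem_append.1 ha).resolve_left haA
    have hbA : M a ∉ A := by
      intro hb
      have h7 := hA _ hb
      rw [h.inv a ha] at h7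
      exact haA h7
    have hbB : M a ∈ B := (List.mem_append.1 hMa).resolve_left hbA
    rcases hxy with h7 | h7
    · unfold opp at h4
      rw [gq_rl h.nd h7 haB, gq_rl h.nd h7 hbB, gq_rl h.nd huA haB, gq_rl h.nd huA hbB] at h4
      exact absurd h4 (by decide)
    · unfold opp at h5
      rw [gq_rl h.nd h7 haB, gq_rl h.nd h7 hbB, gq_rl h.nd huA haB, gq_rl h.nd huA hbB] at h5
      exact absurd h5 (by decide)

theorem cyc_zero {A B B' : List α} {M M' : α → α} {u u' : α} (h : One A B B' M M' u u')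
    (huA : u ∈ A) {x y x' y' : α} (hx : Mk A B B' x x') (hy : Mk A B B' y y')
    (hxy : x ∈ A ∨ y ∈ A) : cyc (A ++ B) x u y = cyc (A ++ B') x' u' y' := by
  obtain rfl := h.hu (Or.inl huA)
  unfold Sl434.cyc
  rcases hx with ⟨hx, rfl⟩ | ⟨hx, hx'⟩ <;> rcases hy with ⟨hy, rfl⟩ | ⟨hy, hy'⟩
  · rw [gq_ll hx hy, gq_ll hx hy, gq_ll huA hx, gq_ll huA hx, gq_ll huA hy, gq_ll huA hy]
  · rw [gq_ll huA hx, gq_ll huA hx, gq_lr h.nd huA hy, gq_lr h.nd' huA hy', gq_lr h.nd hx hy,
      gq_lr h.nd' hx hy']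
  · rw [gq_ll huA hy, gq_ll huA hy, gq_lr h.nd huA hx, gq_lr h.nd' huA hx', gq_rl h.nd hy hx,
      gq_rl h.nd' hy hx']
  · exfalso
    rcases hxy with h7 | h7
    · exact notMem_left h.nd hx h7
    · exact notMem_left h.nd hy h7

/-- **V-invariance, no crossing strand, at most one mark in the block** -/
theorem vv_zero {A B B' : List α} {M M' : α → α} {u u' : α} (h : One A B B' M M' u u')
    (huA : u ∈ A) (hA : ∀ a ∈ A, M a ∈ A) {x1 x2 x3 y1 y2 y3 : α} (h1 : Mk A B B' x1 y1)
    (h2 : Mk A B B' x2 y2) (h3 : Mk A B B' x3 y3) (h12 : x1 ∈ A ∨ x2 ∈ A) (h23 : x2 ∈ A ∨ x3 ∈ A)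
    (h31 : x3 ∈ A ∨ x1 ∈ A) :
    VV (A ++ B) M u x1 x2 x3 = VV (A ++ B') M' u' y1 y2 y3 := by
  have hu'A : u' ∈ A := (h.hu (Or.inl huA)) ▸ huA
  have hA' : ∀ a ∈ A, M' a ∈ A := fun a ha => by
    have h4 := hA a ha
    rw [(h.hM a ha _ h4).1 rfl]; exact h4
  have back : ∀ {x x' : α}, Mk A B B' x x' → x ∈ A → x' ∈ A := by
    intro x x' hx hA
    rcases hx with ⟨_, rfl⟩ | ⟨h4, _⟩
    · exact hA
    · exact absurd hA (notMem_left h.nd h4)
  have s : ∀ {x y z x' y' z' : α}, Mk A B B' x x' → Mk A B B' y y' → Mk A B B' z z' →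
      (x ∈ A ∨ y ∈ A) → (Sepc (A ++ B) M u x y z ↔ Sepc (A ++ B') M' u' x' y' z') := by
    intro x y z x' y' z' hx hy hz hxy
    exact ⟨sepc_zero_aux h huA hA hx hy hz hxy, sepc_zero_aux h.symm hu'A hA' hx.symm hy.symm
      hz.symm (hxy.imp (back hx) (back hy))⟩
  unfold VV
  rw [cyc_zero h huA h3 h1 h31, cyc_zero h huA h1 h2 h12]
  rw [propext (s h2 h3 h1 h23), propext (s h1 h2 h3 h12), propext (s h3 h1 h2 h31)]

end Crest.Agent.R158.Sl434
end

-- ▼ part R158/Sl3_434
section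

/-!
# R158, block SL (helper434), file Sl3: two systems which differ behind a planar annulus

Carrier-free: ports `X`; `Fa` = far ports (leg included), `An` = annulus ports, both systems agree
on `Fa ∪ An` except at the inner interface `Jl`.  The free ends of the annulus, in cyclic order, are
`N1 ++ Jl ++ N2 ++ Jo` (wall, inner side, wall, outer side) with a non-crossing partner map `MA`.
The cyclic lists of the two systems are `A ++ N1 ++ Di ++ N2` and `A ++ N1 ++ Gi ++ N2`.

* `vv_ann` : if at most one arc of the annulus joins `Jl` to `Jo`, the observable is the same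
* `vv_ann0` : if no arc joins `Jl` to `Jo`, the same with one mark anywhere in the block
-/

set_option autoImplicit false
set_option linter.unusedSectionVars false

namespace Crest.Agent.R158.Sl434

variable {X : Type*} [DecidableEq X]

/-! ### non-crossing -/

/-- non-crossing partner map on a list -/
def NCl (L : List X) (M : X → X) : Prop :=
  ∀ a ∈ L, ∀ b ∈ L, L.idxOf a < L.idxOf b → L.idxOf b < L.idxOf (M a) →
    L.idxOf a < L.idxOf (M b) ∧ L.idxOf (M b) < L.idxOf (M a)

theorem idx_lt {P Q : List X} (hn : (P ++ Q).Nodup) {a b : X} (ha : a ∈ P) (hb : b ∈ Q) :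
    (P ++ Q).idxOf a < (P ++ Q).idxOf b := by
  rw [List.idxOf_append_of_mem ha, List.idxOf_append_of_notMem (notMem_left hn hb)]
  have := List.idxOf_lt_length_iff.2 ha
  omega

theorem nc_block {L P Q R S : List X} {M : X → X} (hn : L.Nodup) (h : NCl L M)
    (e : L = P ++ Q ++ R ++ S) {a b : X} (ha : a ∈ P) (hb : b ∈ Q) (hMa : M a ∈ R)
    (hMb : M b ∈ S) : False := by
  subst e
  have i1 : (P ++ Q ++ R ++ S).idxOf a < (P ++ Q ++ R ++ S).idxOf b := by
    have e2 : P ++ Q ++ R ++ S = P ++ (Q ++ R ++ S) := by simp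
    rw [e2] at hn ⊢
    exact idx_lt hn ha (by simp [hb])
  have i2 : (P ++ Q ++ R ++ S).idxOf b < (P ++ Q ++ R ++ S).idxOf (M a) := by
    have e2 : P ++ Q ++ R ++ S = (P ++ Q) ++ (R ++ S) := by simp
    rw [e2] at hn ⊢
    exact idx_lt hn (by simp [hb]) (by simp [hMa])
  have i3 : (P ++ Q ++ R ++ S).idxOf (M a) < (P ++ Q ++ R ++ S).idxOf (M b) :=
    idx_lt hn (by simp [hMa]) hMb
  have := h a (by simp [ha]) b (by simp [hb]) i1 i2
  omega

/-- splitting of a list before the first element with `P` -/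
theorem split_first (P : X → Prop) (N : List X) : ∃ N' N'', N = N' ++ N'' ∧ (∀ e ∈ N', ¬ P e) ∧
    (N'' = [] ∨ ∃ k r, N'' = k :: r ∧ P k) := by
  classical
  induction N with
  | nil => exact ⟨[], [], rfl, by simp, Or.inl rfl⟩
  | cons x N ih =>
    by_cases hx : P x
    · exact ⟨[], x :: N, rfl, by simp, Or.inr ⟨x, N, rfl, hx⟩⟩
    · obtain ⟨N', N'', h1, h2, h3⟩ := ih
      refine ⟨x :: N', N'', by rw [h1]; rfl, ?_, h3⟩
      intro e he
      rcases List.mem_cons.1 he with rfl | he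
      · exact hx
      · exact h2 e he

/-- splitting of a list after the last element with `P` -/
theorem split_last (P : X → Prop) (N : List X) : ∃ N' N'', N = N' ++ N'' ∧ (∀ e ∈ N'', ¬ P e) ∧
    (N' = [] ∨ ∃ k r, N' = r ++ [k] ∧ P k) := by
  obtain ⟨A, B, h1, h2, h3⟩ := split_first P N.reverse
  refine ⟨B.reverse, A.reverse, ?_, fun e he => h2 e (List.mem_reverse.1 he), ?_⟩
  · have := congrArg List.reverse h1
    rw [List.reverse_reverse, List.reverse_append] at this
    exact this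
  · rcases h3 with h3 | ⟨k, r, h3, h4⟩
    · left; rw [h3]; rfl
    · right; exact ⟨k, r.reverse, by rw [h3, List.reverse_cons], h4⟩

/-! ### the annulus state -/

/-- the strand system of a region with its cyclic list of ends, partner map and leg -/
structure Sys (al be : X → X) (z : X) (L : List X) (M : X → X) (u : X) : Prop where
  ali : Function.Involutive al
  bei : Function.Involutive be
  nd : L.Nodup
  mem : ∀ a ∈ L, M a ∈ L
  inv : ∀ a ∈ L, M (M a) = a
  uL : u ∈ L
  fix : ∀ a ∈ L, M a = a ↔ a = u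
  str : ∀ a ∈ L, Rf al be a (M a)
  uni : ∀ a ∈ L, ∀ b ∈ L, Rf al be a b → b = a ∨ b = M a
  leg : ∀ a ∈ L, Rf al be z a ↔ a = u

/-- the annulus: free ends `N1 ++ Jl ++ N2 ++ Jo` -/
structure AnnS (al be : X → X) (Fa An : Set X) (N1 Jl N2 Jo : List X) (MA : X → X) : Prop where
  nd : (N1 ++ Jl ++ N2 ++ Jo).Nodup
  nc : NCl (N1 ++ Jl ++ N2 ++ Jo) MA
  mem : ∀ a ∈ N1 ++ Jl ++ N2 ++ Jo, MA a ∈ N1 ++ Jl ++ N2 ++ Jo
  inv : ∀ a ∈ N1 ++ Jl ++ N2 ++ Jo, MA (MA a) = a
  ne : ∀ a ∈ N1 ++ Jl ++ N2 ++ Jo, MA a ≠ a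
  uni : ∀ a ∈ N1 ++ Jl ++ N2 ++ Jo, ∀ b ∈ N1 ++ Jl ++ N2 ++ Jo,
    Rl al be An {x | x ∈ N1 ++ Jl ++ N2 ++ Jo} a b → b = a ∨ b = MA a
  dj : ∀ x ∈ Fa, x ∉ An
  sub : ∀ x ∈ N1 ++ Jl ++ N2 ++ Jo, x ∈ An
  alF : ∀ x ∈ Fa, al x ∈ Fa
  alA : ∀ x ∈ An, al x ∈ An
  beF : ∀ x ∈ Fa, be x ∈ Fa ∨ be x ∈ Jo
  beA : ∀ x ∈ An, x ∉ N1 ++ Jl ++ N2 ++ Jo → be x ∈ An ∧ be x ∉ N1 ++ Jl ++ N2 ++ Jo
  beN1 : ∀ x ∈ N1, be x = x
  beN2 : ∀ x ∈ N2, be x = x
  beo : ∀ x ∈ Jo, be x ∈ Fa

section

variable {al be al' be' : X → X} {Fa An : Set X} {N1 Jl N2 Jo : List X} {MA : X → X}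

theorem AnnS.agr (h : AnnS al be Fa An N1 Jl N2 Jo MA) (hal : ∀ x ∈ Fa ∪ An, al' x = al x)
    (hbe : ∀ x ∈ Fa ∪ An, x ∉ Jl → be' x = be x) :
    Agr al be al' be' (Fa ∪ An) {x | x ∈ Jl} where
  al_mem x hx := by
    rcases hx with hx | hx
    · exact Or.inl (h.alF x hx)
    · exact Or.inr (h.alA x hx)
  al_eq x hx := hal x hx
  be_mem x hx hJ := by
    simp only [Set.mem_ofPred_eq] at hJ
    rcases hx with hx | hx
    · rcases h.beF x hx with h1 | h1
      · exact Or.inl h1
      · exact Or.inr (h.sub _ (by simp [h1]))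
    · by_cases hL : x ∈ N1 ++ Jl ++ N2 ++ Jo
      · simp only [List.mem_append] at hL
        rcases hL with ((h1 | h1) | h1) | h1
        · rw [h.beN1 x h1]; exact Or.inr hx
        · exact absurd h1 hJ
        · rw [h.beN2 x h1]; exact Or.inr hx
        · exact Or.inl (h.beo x h1)
      · exact Or.inr (h.beA x hx hL).1
  be_J x hx hJ := by
    simp only [Set.mem_ofPred_eq] at hJ ⊢
    rcases hx with hx | hx
    · rcases h.beF x hx with h1 | h1
      · intro h2; exact h.dj _ h1 (h.sub _ (by simp [h2]))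
      · intro h2
        have := h.nd
        exact notMem_left this h1 (by simp [h2])
    · by_cases hL : x ∈ N1 ++ Jl ++ N2 ++ Jo
      · simp only [List.mem_append] at hL
        rcases hL with ((h1 | h1) | h1) | h1
        · rw [h.beN1 x h1]; exact hJ
        · exact absurd h1 hJ
        · rw [h.beN2 x h1]; exact hJ
        · intro h2; exact h.dj _ (h.beo x h1) (h.sub _ (by simp [h2]))
      · intro h2; exact (h.beA x hx hL).2 (by simp [h2])
  be_eq x hx hJ := hbe x hx hJ

/-- the four pieces of the walls: `N1 = N1' ++ N1''`, `N2 = N2' ++ N2''`; the inner pieces `N1''`,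
`N2'` are cut off from the outer ones -/
structure Cutd (N1 Jl N2 Jo : List X) (MA : X → X) (P1 Q1 Q2 P2 : List X) : Prop where
  e1 : N1 = P1 ++ Q1
  e2 : N2 = Q2 ++ P2
  c1 : ∀ e ∈ P1 ++ P2, MA e ∈ P1 ++ P2 ++ Jo
  c2 : ∀ e ∈ Q1 ++ Q2, MA e ∈ Q1 ++ Q2 ++ Jl

theorem AnnS.cutd (h : AnnS al be Fa An N1 Jl N2 Jo MA) :
    ∃ P1 Q1 Q2 P2, Cutd N1 Jl N2 Jo MA P1 Q1 Q2 P2 := by
  obtain ⟨P1, Q1, e1, h1, h2⟩ := split_first (fun e => MA e ∈ Jl) N1
  obtain ⟨Q2, P2, e2, h3, h4⟩ := split_last (fun e => MA e ∈ Jl) N2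
  subst e1 e2
  have nd := h.nd
  have nc := h.nc
  -- membership helpers
  have mem := h.mem
  have inv := h.inv
  -- an outer wall end is not joined to the inner block
  have key : ∀ e ∈ P1 ++ P2, MA e ∉ Q1 ++ Q2 := by
    intro e he hMe
    have heL : e ∈ (P1 ++ Q1) ++ Jl ++ (Q2 ++ P2) ++ Jo := by
      simp only [List.mem_append] at he ⊢; tauto
    rcases List.mem_append.1 hMe with hM | hM
    · -- `MA e ∈ Q1 = k :: r`
      rcases h2 with h2 | ⟨k, r, h2, hk⟩
      · rw [h2] at hM; simp at hM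
      subst h2
      have hMk : MA e ∈ r := by
        rcases List.mem_cons.1 hM with h5 | h5
        · exfalso
          have h6 := inv e heL
          rw [h5] at h6
          -- `e = MA k ∈ Jl`
          have h7 : e ∈ Jl := h6 ▸ hk
          rcases List.mem_append.1 he with h8 | h8
          · exact h1 e h8 (by rw [h5]; exfalso; exact notMem_left (by
              have : (P1 ++ k :: r ++ Jl ++ (Q2 ++ P2) ++ Jo) =
                P1 ++ (k :: r ++ Jl ++ (Q2 ++ P2) ++ Jo) := by simp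
              rw [this] at nd; exact nd) (by simp [h7] : e ∈ k :: r ++ Jl ++ (Q2 ++ P2) ++ Jo) h8)
          · have : (P1 ++ k :: r ++ Jl ++ (Q2 ++ P2) ++ Jo) =
                (P1 ++ k :: r ++ Jl) ++ ((Q2 ++ P2) ++ Jo) := by simp
            rw [this] at nd
            exact notMem_left nd (by simp [h8] : e ∈ (Q2 ++ P2) ++ Jo) (by simp [h7])
        · exact h5
      rcases List.mem_append.1 he with h8 | h8
      · exact nc_block (L := P1 ++ k :: r ++ Jl ++ (Q2 ++ P2) ++ Jo) (P := P1) (Q := [k]) (R := r)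
          (S := Jl ++ (Q2 ++ P2) ++ Jo) nd nc (by simp) h8 (by simp : k ∈ [k]) hMk
          (by simp [hk])
      · refine nc_block (L := P1 ++ k :: r ++ Jl ++ (Q2 ++ P2) ++ Jo) (P := P1 ++ [k]) (Q := r)
          (R := Jl) (S := (Q2 ++ P2) ++ Jo) nd nc (by simp) (by simp : k ∈ P1 ++ [k]) hMk hk ?_
        rw [inv e heL]; simp [h8]
    · -- `MA e ∈ Q2 = r ++ [k]`
      rcases h4 with h4 | ⟨k, r, h4, hk⟩
      · rw [h4] at hM; simp at hM
      subst h4
      have hkL : k ∈ (P1 ++ Q1) ++ Jl ++ ((r ++ [k]) ++ P2) ++ Jo := by simp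
      have hMk : MA e ∈ r := by
        rcases List.mem_append.1 hM with h5 | h5
        · exact h5
        · exfalso
          have h5' : MA e = k := by simpa using h5
          have h6 := inv e heL
          rw [h5'] at h6
          have h7 : e ∈ Jl := h6 ▸ hk
          rcases List.mem_append.1 he with h8 | h8
          · have : (P1 ++ Q1 ++ Jl ++ (r ++ [k] ++ P2) ++ Jo) =
                P1 ++ (Q1 ++ Jl ++ (r ++ [k] ++ P2) ++ Jo) := by simp
            rw [this] at nd
            exact notMem_left nd (by simp [h7] : e ∈ Q1 ++ Jl ++ (r ++ [k] ++ P2) ++ Jo) h8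
          · have : (P1 ++ Q1 ++ Jl ++ (r ++ [k] ++ P2) ++ Jo) =
                (P1 ++ Q1 ++ Jl) ++ ((r ++ [k] ++ P2) ++ Jo) := by simp
            rw [this] at nd
            exact notMem_left nd (by simp [h8] : e ∈ (r ++ [k] ++ P2) ++ Jo) (by simp [h7])
      rcases List.mem_append.1 he with h8 | h8
      · refine nc_block (L := P1 ++ Q1 ++ Jl ++ (r ++ [k] ++ P2) ++ Jo) (P := P1) (Q := Q1 ++ Jl)
          (R := r) (S := [k] ++ P2 ++ Jo) nd nc (by simp) h8 (b := MA k) (by simp [hk]) hMk ?_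
        rw [inv k hkL]; simp
      · refine nc_block (L := P1 ++ Q1 ++ Jl ++ (r ++ [k] ++ P2) ++ Jo) (P := P1 ++ Q1 ++ Jl)
          (Q := r) (R := [k]) (S := P2 ++ Jo) nd nc (by simp) (a := MA k) (b := MA e)
          (by simp [hk]) hMk ?_ ?_
        · rw [inv k hkL]; simp
        · rw [inv e heL]; simp [h8]
  have cl1 : ∀ e ∈ P1 ++ P2, MA e ∈ P1 ++ P2 ++ Jo := by
    intro e he
    have heL : e ∈ (P1 ++ Q1) ++ Jl ++ (Q2 ++ P2) ++ Jo := by
      simp only [List.mem_append] at he ⊢; tauto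
    have h5 := mem e heL
    have h6 := key e he
    have h7 : MA e ∉ Jl := by
      rcases List.mem_append.1 he with h8 | h8
      · exact h1 e h8
      · exact h3 e h8
    simp only [List.mem_append] at h5 h6 ⊢
    tauto
  refine ⟨P1, Q1, Q2, P2, rfl, rfl, cl1, ?_⟩
  intro e he
  have heL : e ∈ (P1 ++ Q1) ++ Jl ++ (Q2 ++ P2) ++ Jo := by
    simp only [List.mem_append] at he ⊢; tauto
  have h5 := mem e heL
  have h6 : MA e ∉ P1 ++ P2 := by
    intro h7
    have h8 := key _ h7
    rw [inv e heL] at h8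
    exact h8 he
  have h7 : MA e ∉ Jo := by
    intro h7
    rcases List.mem_append.1 he with h8 | h8
    · rcases h2 with h2 | ⟨k, r, h2, hk⟩
      · rw [h2] at h8; simp at h8
      subst h2
      rcases List.mem_cons.1 h8 with rfl | h9
      · have : (P1 ++ e :: r ++ Jl ++ (Q2 ++ P2) ++ Jo) =
            (P1 ++ e :: r ++ Jl ++ (Q2 ++ P2)) ++ Jo := by simp
        rw [this] at nd
        exact notMem_left nd h7 (by simp [hk])
      · exact nc_block (L := P1 ++ k :: r ++ Jl ++ (Q2 ++ P2) ++ Jo) (P := P1 ++ [k]) (Q := r)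
          (R := Jl ++ (Q2 ++ P2)) (S := Jo) nd nc (by simp) (by simp : k ∈ P1 ++ [k]) h9
          (by simp [hk]) h7
    · rcases h4 with h4 | ⟨k, r, h4, hk⟩
      · rw [h4] at h8; simp at h8
      subst h4
      have hkL : k ∈ (P1 ++ Q1) ++ Jl ++ ((r ++ [k]) ++ P2) ++ Jo := by simp
      rcases List.mem_append.1 h8 with h9 | h9
      · refine nc_block (L := P1 ++ Q1 ++ Jl ++ (r ++ [k] ++ P2) ++ Jo) (P := P1 ++ Q1 ++ Jl)
          (Q := r) (R := [k] ++ P2) (S := Jo) nd nc (by simp) (a := MA k) (b := e)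
          (by simp [hk]) h9 ?_ h7
        rw [inv k hkL]; simp
      · have h9' : e = k := by simpa using h9
        subst h9'
        have : (P1 ++ Q1 ++ Jl ++ (r ++ [e] ++ P2) ++ Jo) =
            (P1 ++ Q1 ++ Jl ++ (r ++ [e] ++ P2)) ++ Jo := by simp
        rw [this] at nd
        exact notMem_left nd h7 (by simp [hk])
  simp only [List.mem_append] at h5 h6 h7 ⊢
  tauto

/-- the outer ports: far ports and annulus ports joined to outer ends -/
def Ou (al be : X → X) (Fa An : Set X) (N1 Jl N2 Jo P1 P2 : List X) (y : X) : Prop :=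
  y ∈ Fa ∨ (y ∈ An ∧ ∃ e ∈ P1 ++ P2 ++ Jo, Rl al be An {x | x ∈ N1 ++ Jl ++ N2 ++ Jo} y e)

theorem AnnS.ou_rl (h : AnnS al be Fa An N1 Jl N2 Jo MA) (hal : Function.Involutive al)
    (hbe : Function.Involutive be) {P1 P2 : List X} {x y : X}
    (hx : Ou al be Fa An N1 Jl N2 Jo P1 P2 x) (hxy : Rl al be (Fa ∪ An) {x | x ∈ Jl} x y) :
    Ou al be Fa An N1 Jl N2 Jo P1 P2 y := by
  obtain ⟨-, hxy⟩ := hxy
  induction hxy with
  | refl => exact hx
  | @tail b c _ hbc ih =>
    obtain ⟨hb, hc, hbc⟩ := hbc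
    rcases hbc with rfl | ⟨rfl, hbJ, hcJ⟩
    · rcases ih with ih | ⟨ih, e, he, h1⟩
      · exact Or.inl (h.alF b ih)
      · refine Or.inr ⟨h.alA b ih, e, he, ?_⟩
        refine Rl.trans ?_ h1
        exact ⟨h.alA b ih, .single ⟨h.alA b ih, ih, Or.inl (hal b).symm⟩⟩
    · simp only [Set.mem_ofPred_eq] at hbJ hcJ
      rcases ih with ih | ⟨ih, e, he, h1⟩
      · rcases h.beF b ih with h2 | h2
        · exact Or.inl h2
        · have h3 : be b ∈ An := h.sub _ (by simp [h2])
          exact Or.inr ⟨h3, be b, by simp [h2], .refl h3⟩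
      · by_cases hL : b ∈ N1 ++ Jl ++ N2 ++ Jo
        · simp only [List.mem_append] at hL
          rcases hL with ((h2 | h2) | h2) | h2
          · rw [h.beN1 b h2]; exact Or.inr ⟨ih, e, he, h1⟩
          · exact absurd h2 hbJ
          · rw [h.beN2 b h2]; exact Or.inr ⟨ih, e, he, h1⟩
          · exact Or.inl (h.beo b h2)
        · obtain ⟨h2, h3⟩ := h.beA b ih hL
          refine Or.inr ⟨h2, e, he, Rl.trans ?_ h1⟩
          exact ⟨h2, .single ⟨h2, ih, Or.inr ⟨(hbe b).symm, h3, hL⟩⟩⟩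

/-- an outer port of the inner interface is the end of a crossing arc -/
theorem AnnS.ou_J (h : AnnS al be Fa An N1 Jl N2 Jo MA) {P1 Q1 Q2 P2 : List X}
    (hc : Cutd N1 Jl N2 Jo MA P1 Q1 Q2 P2) {i : X} (hi : i ∈ Jl)
    (ho : Ou al be Fa An N1 Jl N2 Jo P1 P2 i) : MA i ∈ Jo := by
  have hiL : i ∈ N1 ++ Jl ++ N2 ++ Jo := by simp [hi]
  rcases ho with ho | ⟨-, e, he, h1⟩
  · exact absurd (h.sub i hiL) (h.dj i ho)
  have heL : e ∈ N1 ++ Jl ++ N2 ++ Jo := by
    simp only [List.mem_append] at he ⊢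
    rw [hc.e1, hc.e2]; simp only [List.mem_append]; tauto
  have nd := h.nd
  -- `e` is not in `Jl`
  have heJ : e ∉ Jl := by
    intro h2
    simp only [List.mem_append] at he
    rcases he with (h3 | h3) | h3
    · have e2 : N1 ++ Jl ++ N2 ++ Jo = N1 ++ (Jl ++ N2 ++ Jo) := by simp
      rw [e2] at nd
      exact notMem_left nd (by simp [h2] : e ∈ Jl ++ N2 ++ Jo) (by rw [hc.e1]; simp [h3])
    · have e2 : N1 ++ Jl ++ N2 ++ Jo = (N1 ++ Jl) ++ (N2 ++ Jo) := by simp
      rw [e2] at nd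
      exact notMem_left nd (by rw [hc.e2]; simp [h3] : e ∈ N2 ++ Jo) (by simp [h2])
    · exact notMem_left nd h3 (by simp [h2])
  rcases h.uni i hiL e heL h1 with h2 | h2
  · rw [h2] at heJ; exact absurd hi heJ
  · have hMe : MA e = i := by rw [h2, h.inv i hiL]
    rw [← h2]
    simp only [List.mem_append] at he
    rcases he with h3 | h3
    · exfalso
      have h4 := hc.c1 e (by simpa using h3)
      rw [hMe] at h4
      simp only [List.mem_append] at h4
      rcases h4 with (h5 | h5) | h5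
      · have e2 : N1 ++ Jl ++ N2 ++ Jo = N1 ++ (Jl ++ N2 ++ Jo) := by simp
        rw [e2] at nd
        exact notMem_left nd (by simp [hi] : i ∈ Jl ++ N2 ++ Jo) (by rw [hc.e1]; simp [h5])
      · have e2 : N1 ++ Jl ++ N2 ++ Jo = (N1 ++ Jl) ++ (N2 ++ Jo) := by simp
        rw [e2] at nd
        exact notMem_left nd (by rw [hc.e2]; simp [h5] : i ∈ N2 ++ Jo) (by simp [hi])
      · exact notMem_left nd h5 (by simp [hi])
    · exact h3

/-- an outer port is not an inner wall end -/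
theorem AnnS.ou_Q (h : AnnS al be Fa An N1 Jl N2 Jo MA) {P1 Q1 Q2 P2 : List X}
    (hc : Cutd N1 Jl N2 Jo MA P1 Q1 Q2 P2) {i : X} (hi : i ∈ Q1 ++ Q2) :
    ¬ Ou al be Fa An N1 Jl N2 Jo P1 P2 i := by
  intro ho
  have nd := h.nd
  rw [hc.e1, hc.e2] at nd
  have hiL : i ∈ N1 ++ Jl ++ N2 ++ Jo := by
    rw [hc.e1, hc.e2]; simp only [List.mem_append] at hi ⊢; tauto
  rcases ho with ho | ⟨-, e, he, h1⟩
  · exact absurd (h.sub i hiL) (h.dj i ho)
  have heL : e ∈ N1 ++ Jl ++ N2 ++ Jo := by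
    rw [hc.e1, hc.e2]; simp only [List.mem_append] at he ⊢; tauto
  -- outer and inner ends are different
  have hne : ∀ t, t ∈ P1 ++ P2 ++ Jo → t ∉ Q1 ++ Q2 ++ Jl := by
    intro t h2 h3
    rw [List.nodup_iff_count_le_one] at nd
    have h4 := nd t
    simp only [List.count_append] at h4
    have h5 : 1 ≤ (P1 ++ P2 ++ Jo).count t := List.one_le_count_iff.2 h2
    have h6 : 1 ≤ (Q1 ++ Q2 ++ Jl).count t := List.one_le_count_iff.2 h3
    simp only [List.count_append] at h5 h6
    omega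
  rcases h.uni i hiL e heL h1 with h2 | h2
  · rw [h2] at he
    exact hne i he (by rw [List.mem_append]; exact Or.inl hi)
  · have h3 := hc.c2 i hi
    rw [← h2] at h3
    exact hne e he h3

end

/-- the two regions -/
structure Two (al be al' be' : X → X) (Fa An : Set X) (N1 Jl N2 Jo : List X) (MA : X → X) (z : X)
    (A Di Gi : List X) (M M' : X → X) (u u' : X) : Prop where
  an : AnnS al be Fa An N1 Jl N2 Jo MA
  al_eq : ∀ x ∈ Fa ∪ An, al' x = al x
  be_eq : ∀ x ∈ Fa ∪ An, x ∉ Jl → be' x = be x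
  zF : z ∈ Fa
  AF : ∀ a ∈ A, a ∈ Fa
  D : Sys al be z (A ++ N1 ++ Di ++ N2) M u
  G : Sys al' be' z (A ++ N1 ++ Gi ++ N2) M' u'
  Do : ∀ a ∈ Di, a ∉ Fa ∪ An
  Go : ∀ a ∈ Gi, a ∉ Fa ∪ An

section

variable {al be al' be' : X → X} {Fa An : Set X} {N1 Jl N2 Jo : List X} {MA : X → X} {z : X}
  {A Di Gi : List X} {M M' : X → X} {u u' : X}

theorem Sys.rot {L L' : List X} (h : Sys al be z L M u) (hr : L ~r L') : Sys al be z L' M u where
  ali := h.ali
  bei := h.bei
  nd := (hr.nodup_iff).1 h.nd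
  mem a ha := hr.mem_iff.1 (h.mem a (hr.mem_iff.2 ha))
  inv a ha := h.inv a (hr.mem_iff.2 ha)
  uL := hr.mem_iff.1 h.uL
  fix a ha := h.fix a (hr.mem_iff.2 ha)
  str a ha := h.str a (hr.mem_iff.2 ha)
  uni a ha b hb := h.uni a (hr.mem_iff.2 ha) b (hr.mem_iff.2 hb)
  leg a ha := h.leg a (hr.mem_iff.2 ha)

theorem rot_block (A P1 Q1 D Q2 P2 : List X) :
    A ++ (P1 ++ Q1) ++ D ++ (Q2 ++ P2) ~r (P2 ++ A ++ P1) ++ (Q1 ++ D ++ Q2) := by
  have e1 : A ++ (P1 ++ Q1) ++ D ++ (Q2 ++ P2) = (A ++ P1 ++ Q1 ++ D ++ Q2) ++ P2 := by simp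
  have e2 : (P2 ++ A ++ P1) ++ (Q1 ++ D ++ Q2) = P2 ++ (A ++ P1 ++ Q1 ++ D ++ Q2) := by simp
  rw [e1, e2]
  exact List.isRotated_append

theorem Sys.fix' {L : List X} (h : Sys al be z L M u) {a : X} (ha : a ∈ L) : M a = a ↔ a = u :=
  h.fix a ha

/-- partners and strands -/
theorem Sys.partner {L : List X} (h : Sys al be z L M u) {a b : X} (ha : a ∈ L) (hb : b ∈ L)
    (hab : a ≠ b) : M a = b ↔ Rf al be a b := by
  constructor
  · rintro rfl; exact h.str a ha
  · intro h1
    rcases h.uni a ha b hb h1 with h2 | h2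
    · exact absurd h2.symm hab
    · exact h2.symm

/-- the observable does not change: the data of `One` -/
theorem Two.one (h : Two al be al' be' Fa An N1 Jl N2 Jo MA z A Di Gi M M' u u')
    (hc : ∀ i ∈ Jl, ∀ j ∈ Jl, MA i ∈ Jo → MA j ∈ Jo → i = j) {P1 Q1 Q2 P2 : List X}
    (hq : Cutd N1 Jl N2 Jo MA P1 Q1 Q2 P2) :
    One (P2 ++ A ++ P1) (Q1 ++ Di ++ Q2) (Q1 ++ Gi ++ Q2) M M' u u' ∧
      ((∀ i ∈ Jl, MA i ∉ Jo) → u ∈ P2 ++ A ++ P1 ∧ ∀ a ∈ P2 ++ A ++ P1, M a ∈ P2 ++ A ++ P1) := by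
  have hag := h.an.agr h.al_eq h.be_eq
  have r1 : A ++ N1 ++ Di ++ N2 ~r (P2 ++ A ++ P1) ++ (Q1 ++ Di ++ Q2) := by
    rw [hq.e1, hq.e2]; exact rot_block A P1 Q1 Di Q2 P2
  have r2 : A ++ N1 ++ Gi ++ N2 ~r (P2 ++ A ++ P1) ++ (Q1 ++ Gi ++ Q2) := by
    rw [hq.e1, hq.e2]; exact rot_block A P1 Q1 Gi Q2 P2
  have hD := h.D.rot r1
  have hG := h.G.rot r2
  set F : Set X := {x | x = z ∨ x ∈ P2 ++ A ++ P1} with hF
  have hOu : ∀ x ∈ F, Ou al be Fa An N1 Jl N2 Jo P1 P2 x := by
    rintro x (rfl | hx)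
    · exact Or.inl h.zF
    · simp only [List.mem_append] at hx
      have hN : ∀ t, t ∈ P1 ∨ t ∈ P2 → t ∈ An := by
        intro t ht
        apply h.an.sub
        rw [hq.e1, hq.e2]; simp only [List.mem_append]; tauto
      rcases hx with (hx | hx) | hx
      · exact Or.inr ⟨hN x (Or.inr hx), x, by simp [hx], .refl (hN x (Or.inr hx))⟩
      · exact Or.inl (h.AF x hx)
      · exact Or.inr ⟨hN x (Or.inl hx), x, by simp [hx], .refl (hN x (Or.inl hx))⟩
  have hFO : F ⊆ Fa ∪ An := by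
    intro x hx
    rcases hOu x hx with h1 | h1
    · exact Or.inl h1
    · exact Or.inr h1.1
  -- classes which meet the interface
  have hJ : ∀ x ∈ F, ∀ i ∈ Jl, Rl al be (Fa ∪ An) {x | x ∈ Jl} x i → MA i ∈ Jo := by
    intro x hx i hi h1
    exact h.an.ou_J hq hi (h.an.ou_rl hD.ali hD.bei (hOu x hx) h1)
  have hone : OneC al be (Fa ∪ An) {x | x ∈ Jl} F := by
    intro x hx y hy i hi j hj h1 h2
    have h3 := hc i hi j hj (hJ x hx i hi h1) (hJ y hy j hj h2)
    subst h3
    exact h1.trans (h2.symm hD.ali hD.bei)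
  have hcomp : ∀ x ∈ F, ∀ y ∈ F, Rf al be x y ↔ Rf al' be' x y := fun x hx y hy =>
    comp hD.ali hD.bei hG.ali hG.bei hag hone hFO hx hy
  have hAF : ∀ a ∈ P2 ++ A ++ P1, a ∈ F := fun a ha => Or.inr ha
  have hzF : z ∈ F := Or.inl rfl
  have hAD : ∀ a ∈ P2 ++ A ++ P1, a ∈ (P2 ++ A ++ P1) ++ (Q1 ++ Di ++ Q2) :=
    fun a ha => List.mem_append_left _ ha
  have hAG : ∀ a ∈ P2 ++ A ++ P1, a ∈ (P2 ++ A ++ P1) ++ (Q1 ++ Gi ++ Q2) :=
    fun a ha => List.mem_append_left _ ha
  -- a far class which stays in `O` ends in the outer part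
  have hend : ∀ x ∈ F, ∀ b ∈ (P2 ++ A ++ P1) ++ (Q1 ++ Di ++ Q2), Rf al be x b →
      b ∈ P2 ++ A ++ P1 ∨ ∃ i ∈ Jl, Rl al be (Fa ∪ An) {x | x ∈ Jl} x i := by
    intro x hx b hb hxb
    rcases hag.exit (hFO hx) hxb with h1 | ⟨i, hi, h1⟩
    · left
      have h2 := h.an.ou_rl hD.ali hD.bei (hOu x hx) h1
      rcases List.mem_append.1 hb with h3 | h3
      · exact h3
      · exfalso
        simp only [List.mem_append] at h3
        rcases h3 with (h3 | h3) | h3
        · exact h.an.ou_Q hq (by simp [h3]) h2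
        · exact h.Do b h3 h1.right
        · exact h.an.ou_Q hq (by simp [h3]) h2
    · exact Or.inr ⟨i, hi, h1⟩
  refine ⟨⟨hD.nd, hG.nd, hD.uL, hG.uL, ?_, ?_, hD.inv, hG.inv, hD.mem, hG.mem, ?_⟩, ?_⟩
  · rintro (h1 | h1)
    · have h2 : Rf al be z u := (hD.leg u hD.uL).2 rfl
      exact (hG.leg u (hAG u h1)).1 ((hcomp z hzF u (hAF u h1)).1 h2)
    · have h2 : Rf al' be' z u' := (hG.leg u' hG.uL).2 rfl
      exact ((hD.leg u' (hAD u' h1)).1 ((hcomp z hzF u' (hAF u' h1)).2 h2)).symm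
  · intro a ha b hb
    by_cases hab : a = b
    · subst hab
      rw [hD.fix' (hAD a ha), hG.fix' (hAG a ha), ← hD.leg a (hAD a ha), ← hG.leg a (hAG a ha)]
      exact hcomp z hzF a (hAF a ha)
    · rw [hD.partner (hAD a ha) (hAD b hb) hab, hG.partner (hAG a ha) (hAG b hb) hab]
      exact hcomp a (hAF a ha) b (hAF b hb)
  · intro hu a ha
    by_contra hMa
    have h1 := hD.str a (hAD a ha)
    rcases hend a (hAF a ha) _ (hD.mem a (hAD a ha)) h1 with h2 | ⟨i, hi, h2⟩
    · exact hMa h2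
    have h3 : Rf al be z u := (hD.leg u hD.uL).2 rfl
    rcases hend z hzF _ hD.uL h3 with h4 | ⟨j, hj, h4⟩
    · exact hu h4
    have h5 := hone z hzF a (hAF a ha) j hj i hi h4 h2
    have h6 := (hD.leg a (hAD a ha)).1 (Rf.of h5)
    exact hu (h6 ▸ ha)
  · intro h0
    constructor
    · have h3 : Rf al be z u := (hD.leg u hD.uL).2 rfl
      rcases hend z hzF _ hD.uL h3 with h4 | ⟨j, hj, h4⟩
      · exact h4
      · exact absurd (hJ z hzF j hj h4) (h0 j hj)
    · intro a ha
      have h1 := hD.str a (hAD a ha)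
      rcases hend a (hAF a ha) _ (hD.mem a (hAD a ha)) h1 with h2 | ⟨i, hi, h2⟩
      · exact h2
      · exact absurd (hJ a (hAF a ha) i hi h2) (h0 i hi)

/-- **the observable is the same if at most one arc crosses the annulus** -/
theorem vv_ann (h : Two al be al' be' Fa An N1 Jl N2 Jo MA z A Di Gi M M' u u')
    (hc : ∀ i ∈ Jl, ∀ j ∈ Jl, MA i ∈ Jo → MA j ∈ Jo → i = j) {x1 x2 x3 : X} (h1 : x1 ∈ A)
    (h2 : x2 ∈ A) (h3 : x3 ∈ A) (h12 : x1 ≠ x2) (h31 : x3 ≠ x1) :
    VV (A ++ N1 ++ Di ++ N2) M u x1 x2 x3 = VV (A ++ N1 ++ Gi ++ N2) M' u' x1 x2 x3 := by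
  obtain ⟨P1, Q1, Q2, P2, hq⟩ := h.an.cutd
  obtain ⟨ho, -⟩ := h.one hc hq
  have r1 : A ++ N1 ++ Di ++ N2 ~r (P2 ++ A ++ P1) ++ (Q1 ++ Di ++ Q2) := by
    rw [hq.e1, hq.e2]; exact rot_block A P1 Q1 Di Q2 P2
  have r2 : A ++ N1 ++ Gi ++ N2 ~r (P2 ++ A ++ P1) ++ (Q1 ++ Gi ++ Q2) := by
    rw [hq.e1, hq.e2]; exact rot_block A P1 Q1 Gi Q2 P2
  rw [← vv_rot r1 h.D.nd h.D.uL (by simp [h1]) (by simp [h2]) (by simp [h3]) h12 h31,
    ← vv_rot r2 h.G.nd h.G.uL (by simp [h1]) (by simp [h2]) (by simp [h3]) h12 h31]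
  exact vv_one ho (by simp [h1]) (by simp [h2]) (by simp [h3])

/-- a mark of the near part and its image -/
def Mk' (A N1 Di Gi N2 : List X) (x x' : X) : Prop :=
  (x ∈ A ++ N1 ++ N2 ∧ x' = x) ∨ (x ∈ Di ∧ x' ∈ Gi)

/-- **the observable is the same if no arc crosses the annulus, one mark anywhere** -/
theorem vv_ann0 (h : Two al be al' be' Fa An N1 Jl N2 Jo MA z A Di Gi M M' u u')
    (hc : ∀ i ∈ Jl, MA i ∉ Jo) {x1 x2 x3 y1 y2 y3 : X} (h1 : Mk' A N1 Di Gi N2 x1 y1)
    (h2 : Mk' A N1 Di Gi N2 x2 y2) (h3 : Mk' A N1 Di Gi N2 x3 y3) (m12 : x1 ∈ A ∨ x2 ∈ A)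
    (m23 : x2 ∈ A ∨ x3 ∈ A) (m31 : x3 ∈ A ∨ x1 ∈ A) (h12 : x1 ≠ x2) (h31 : x3 ≠ x1)
    (h12' : y1 ≠ y2) (h31' : y3 ≠ y1) :
    VV (A ++ N1 ++ Di ++ N2) M u x1 x2 x3 = VV (A ++ N1 ++ Gi ++ N2) M' u' y1 y2 y3 := by
  obtain ⟨P1, Q1, Q2, P2, hq⟩ := h.an.cutd
  obtain ⟨ho, hz⟩ := h.one (fun i hi _ _ h1 _ => absurd h1 (hc i hi)) hq
  obtain ⟨hu, hA⟩ := hz hc
  have r1 : A ++ N1 ++ Di ++ N2 ~r (P2 ++ A ++ P1) ++ (Q1 ++ Di ++ Q2) := by
    rw [hq.e1, hq.e2]; exact rot_block A P1 Q1 Di Q2 P2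
  have r2 : A ++ N1 ++ Gi ++ N2 ~r (P2 ++ A ++ P1) ++ (Q1 ++ Gi ++ Q2) := by
    rw [hq.e1, hq.e2]; exact rot_block A P1 Q1 Gi Q2 P2
  have mk : ∀ {x y : X}, Mk' A N1 Di Gi N2 x y →
      Mk (P2 ++ A ++ P1) (Q1 ++ Di ++ Q2) (Q1 ++ Gi ++ Q2) x y := by
    intro x y hxy
    rcases hxy with ⟨h4, rfl⟩ | ⟨h4, h5⟩
    · rw [hq.e1, hq.e2] at h4
      simp only [List.mem_append] at h4
      rcases h4 with (h4 | h4 | h4) | h4 | h4
      · exact Or.inl ⟨by simp [h4], rfl⟩
      · exact Or.inl ⟨by simp [h4], rfl⟩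
      · exact Or.inr ⟨by simp [h4], by simp [h4]⟩
      · exact Or.inr ⟨by simp [h4], by simp [h4]⟩
      · exact Or.inl ⟨by simp [h4], rfl⟩
    · exact Or.inr ⟨by simp [h4], by simp [h5]⟩
  have memD : ∀ {x y : X}, Mk' A N1 Di Gi N2 x y → x ∈ A ++ N1 ++ Di ++ N2 := by
    intro x y hxy
    rcases hxy with ⟨h4, rfl⟩ | ⟨h4, h5⟩
    · simp only [List.mem_append] at h4 ⊢; tauto
    · simp [h4]
  have memG : ∀ {x y : X}, Mk' A N1 Di Gi N2 x y → y ∈ A ++ N1 ++ Gi ++ N2 := by
    intro x y hxy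
    rcases hxy with ⟨h4, rfl⟩ | ⟨h4, h5⟩
    · simp only [List.mem_append] at h4 ⊢; tauto
    · simp [h5]
  rw [← vv_rot r1 h.D.nd h.D.uL (memD h1) (memD h2) (memD h3) h12 h31,
    ← vv_rot r2 h.G.nd h.G.uL (memG h1) (memG h2) (memG h3) h12' h31']
  have w : ∀ {x : X}, x ∈ A → x ∈ P2 ++ A ++ P1 := fun h => by simp [h]
  exact vv_zero ho hu hA (mk h1) (mk h2) (mk h3) (m12.imp w w) (m23.imp w w) (m31.imp w w)

end

end Crest.Agent.R158.Sl434
end

-- ▼ part R158/Sl4_434

/-!
# R158, block SL (helper434), file Sl4: words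

* `al s` : passage through the tiles
* `vo_eq`, `hv_eq` : 664's observable `VO` / `HV` is `VV` of the list of free ends
* `sys_of_word` : the strand system of an admissible leg word (partner = same strand)
* `Ring`, `ring_of_word` : the ring of free ends of a word without leg, non-crossing
* `annS_of_chart` : the annulus state of `Sl3` from a ring in a chart
-/

set_option autoImplicit false
set_option linter.unusedSectionVars false

namespace Crest.Agent.R158.Sl434

open Crest.Agent.R158.Sw300 (Port Wd thru tls Inv thru_thru)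
open Crest.Agent.R158.Ob664 (VO Und SepO Sect HV)

/-! ### positions -/

section pos

variable {α : Type*} [DecidableEq α]

theorem gq_pos {L : List α} {pos : α → ℤ} (hs : L.Pairwise fun x y => pos x < pos y) {a t : α}
    (ha : a ∈ L) (ht : t ∈ L) : gq L a t = decide (pos a < pos t) := by
  have key : ∀ {a t : α}, a ∈ L → t ∈ L → L.idxOf a < L.idxOf t → pos a < pos t := by
    intro a t ha ht h
    have h1 := List.idxOf_lt_length_iff.2 ha
    have h2 := List.idxOf_lt_length_iff.2 ht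
    have := List.pairwise_iff_getElem.1 hs _ _ h1 h2 h
    rwa [List.getElem_idxOf h1, List.getElem_idxOf h2] at this
  unfold gq
  by_cases h : L.idxOf a < L.idxOf t
  · simp [h, key ha ht h]
  · rcases Nat.lt_or_ge (L.idxOf t) (L.idxOf a) with h2 | h2
    · have h3 := key ht ha h2
      have h4 : ¬ pos a < pos t := by omega
      simp [h, h4]
    · have h3 : L.idxOf a = L.idxOf t := by omega
      have h4 : a = t := (List.idxOf_inj ha).1 h3
      subst h4
      simp

theorem sect_iff {L : List α} {pos : α → ℤ} (hs : L.Pairwise fun x y => pos x < pos y)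
    (hi : ∀ x y, x ∈ L → y ∈ L → x ≠ y → pos x ≠ pos y) {x y u : α}
    (hx : x ∈ L) (hy : y ∈ L) (hu : u ∈ L) (hxy : x ≠ y) :
    Sect pos x y u ↔ cyc L x u y = true := by
  unfold Sect cyc Sw300.cyc
  rw [gq_pos hs hu hx, gq_pos hs hu hy, gq_pos hs hx hy]
  have h1 := hi x y hx hy hxy
  by_cases hux : u = x
  · subst hux
    simp only [true_or, true_iff, lt_self_iff_false, decide_false, Bool.not_false, Bool.true_and,
      Bool.and_true, Bool.or_eq_true, decide_eq_true_eq, Bool.and_eq_true, Bool.not_eq_true',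
      decide_eq_false_iff_not]
    omega
  · have h2 := hi u x hu hx hux
    simp only [hux, false_or, Bool.or_eq_true, decide_eq_true_eq, Bool.and_eq_true,
      Bool.not_eq_true', decide_eq_false_iff_not]
    omega

/-- sides of an arc in terms of positions -/
theorem opp_iff {L : List α} {pos : α → ℤ} (hs : L.Pairwise fun x y => pos x < pos y)
    (hi : ∀ x y, x ∈ L → y ∈ L → x ≠ y → pos x ≠ pos y) {a b x u : α} (ha : a ∈ L) (hb : b ∈ L)
    (hx : x ∈ L) (hu : u ∈ L) (hc : Sw300.cyc (pos a) (pos b) (pos u)) :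
    opp L a b x u = true ↔ (x = b ∨ Sw300.cyc (pos a) (pos x) (pos b)) := by
  unfold opp
  rw [gq_pos hs ha hx, gq_pos hs hb hx, gq_pos hs ha hu, gq_pos hs hb hu]
  unfold Sw300.cyc at *
  by_cases hxb : x = b
  · subst hxb
    simp only [true_or, iff_true, lt_self_iff_false, decide_false, Bool.xor_false]
    rcases hc with hc | hc | hc
    · have e1 : pos a < pos x := by omega
      have e2 : pos a < pos u := by omega
      have e3 : pos x < pos u := by omega
      simp [e1, e2, e3]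
    · have e1 : ¬ pos a < pos x := by omega
      have e2 : ¬ pos a < pos u := by omega
      have e3 : pos x < pos u := by omega
      simp [e1, e2, e3]
    · have e1 : pos a < pos x := by omega
      have e2 : ¬ pos a < pos u := by omega
      have e3 : ¬ pos x < pos u := by omega
      simp [e1, e2, e3]
  · have hxb' := hi x b hx hb hxb
    simp only [hxb, false_or]
    by_cases c1 : pos a < pos x <;> by_cases c2 : pos b < pos x <;> by_cases c3 : pos a < pos u <;>
      by_cases c4 : pos b < pos u <;> simp [c1, c2, c3, c4] <;> omega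

variable {L : List α} {pos : α → ℤ} {M : α → α} {S : α → Bool} {u : α}

/-- two different arcs ends and the leg are in cyclic position -/
theorem cyc_or (h : Inv (fun x => x ∈ L) pos M S u) {a : α} (ha : a ∈ L) (hau : a ≠ u) :
    Sw300.cyc (pos a) (pos (M a)) (pos u) ∨ Sw300.cyc (pos (M a)) (pos a) (pos u) := by
  have h1 := h.inj a (M a) ha (h.mem a ha) (h.Mne ha hau).symm
  have h2 := h.inj a u ha h.um hau
  have h3 := h.inj (M a) u (h.mem a ha) h.um (h.Mu ha hau)
  unfold Sw300.cyc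
  omega

theorem sepO_iff (h : Inv (fun x => x ∈ L) pos M S u)
    (hs : L.Pairwise fun x y => pos x < pos y) {x y z : α} (hx : x ∈ L) (hy : y ∈ L)
    (hz : z ∈ L) (hxy : x ≠ y) :
    SepO (fun x => x ∈ L) pos M S x y z ↔ Sepc L M u x y z := by
  constructor
  · rintro ⟨a, ha, hSa, h1, h2, h3⟩
    by_cases hau : a = u
    · exfalso
      subst hau
      unfold Und Sw300.cyc at h1 h2
      rw [h.uf] at h1 h2
      rcases h1 with h1 | h1
      · rcases h2 with h2 | h2
        · exact hxy (h1.trans h2.symm)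
        · omega
      · omega
    · have hc : Sw300.cyc (pos a) (pos (M a)) (pos u) := (h.st a ha hau).1 hSa
      refine ⟨a, ha, h.mem a ha, h.Mne ha hau, ?_, ?_, ?_⟩
      · exact (opp_iff hs h.inj ha (h.mem a ha) hx h.um hc).2 h1
      · exact (opp_iff hs h.inj ha (h.mem a ha) hy h.um hc).2 h2
      · have := mt (opp_iff hs h.inj ha (h.mem a ha) hz h.um hc).1 h3
        simpa using this
  · rintro ⟨a, ha, hMa, hne, h1, h2, h3⟩
    have hau : a ≠ u := by rintro rfl; exact hne h.uf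
    have key : ∀ b, b ∈ L → b ≠ u → Sw300.cyc (pos b) (pos (M b)) (pos u) →
        opp L b (M b) x u = true → opp L b (M b) y u = true → opp L b (M b) z u = false →
        SepO (fun x => x ∈ L) pos M S x y z := by
      intro b hb hbu hc h4 h5 h6
      refine ⟨b, hb, (h.st b hb hbu).2 hc, ?_, ?_, ?_⟩
      · exact (opp_iff hs h.inj hb (h.mem b hb) hx h.um hc).1 h4
      · exact (opp_iff hs h.inj hb (h.mem b hb) hy h.um hc).1 h5
      · intro h7
        have := (opp_iff hs h.inj hb (h.mem b hb) hz h.um hc).2 h7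
        rw [this] at h6
        exact absurd h6 (by decide)
    rcases cyc_or h ha hau with hc | hc
    · exact key a ha hau hc h1 h2 h3
    · have e : M (M a) = a := h.inv a ha
      refine key (M a) hMa (h.Mu ha hau) (by rw [e]; exact hc) ?_ ?_ ?_
      · rw [e, opp_comm]; exact h1
      · rw [e, opp_comm]; exact h2
      · rw [e, opp_comm]; exact h3

/-- an arc cannot have the gaps `x`, `z` but not `y` inside if the leg is in `[z, x)` and
`x, y, z` are in clockwise order -/
theorem sepO_not (h : Inv (fun x => x ∈ L) pos M S u) {x y z : α} (hx : x ∈ L) (hy : y ∈ L)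
    (hz : z ∈ L) (hc : Sw300.cyc (pos x) (pos y) (pos z)) (hu : Sect pos z x u) :
    ¬ SepO (fun x => x ∈ L) pos M S z x y := by
  rintro ⟨a, ha, hSa, h1, h2, h3⟩
  have hxz : x ≠ z := by rintro rfl; unfold Sw300.cyc at hc; omega
  by_cases hau : a = u
  · subst hau
    unfold Und Sw300.cyc at h1 h2
    rw [h.uf] at h1 h2
    rcases h1 with h1 | h1
    · rcases h2 with h2 | h2
      · exact hxz (h2.trans h1.symm)
      · omega
    · omega
  · have hb := h.mem a ha
    have hcu : Sw300.cyc (pos a) (pos (M a)) (pos u) := (h.st a ha hau).1 hSa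
    obtain ⟨b, hb'⟩ : ∃ b, b = M a := ⟨_, rfl⟩
    rw [← hb'] at hb hcu
    unfold Und at h1 h2 h3
    rw [← hb'] at h1 h2 h3
    push Not at h3
    obtain ⟨h3, h3'⟩ := h3
    have i1 : y = b ∨ pos y ≠ pos b := (em (y = b)).imp id fun hne => h.inj y b hy hb hne
    have i2 : z = u ∨ pos z ≠ pos u := (em (z = u)).imp id fun hne => h.inj z u hz h.um hne
    have i3 : x = u ∨ pos x ≠ pos u := (em (x = u)).imp id fun hne => h.inj x u hx h.um hne
    have j1 : z = b → pos z = pos b := fun e => by rw [e]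
    have j2 : x = b → pos x = pos b := fun e => by rw [e]
    have j3 : u = z → pos u = pos z := fun e => by rw [e]
    unfold Sect at hu
    unfold Sw300.cyc at *
    have k1 : pos z = pos b ∨ (pos a < pos z ∧ pos z < pos b ∨ pos z < pos b ∧ pos b < pos a ∨
      pos b < pos a ∧ pos a < pos z) := h1.imp j1 id
    have k2 : pos x = pos b ∨ (pos a < pos x ∧ pos x < pos b ∨ pos x < pos b ∧ pos b < pos a ∨
      pos b < pos a ∧ pos a < pos x) := h2.imp j2 id
    have k3 : pos u = pos z ∨ (pos z < pos u ∧ pos u < pos x ∨ pos u < pos x ∧ pos x < pos z ∨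
      pos x < pos z ∧ pos z < pos u) := hu.imp j3 id
    have k4 : pos y ≠ pos b := h.inj y b hy hb h3
    clear h1 h2 hu i1 i2 i3 j1 j2 j3
    omega

/-- **664's observable on a sorted list** -/
theorem vo_eq (h : Inv (fun x => x ∈ L) pos M S u) (hs : L.Pairwise fun x y => pos x < pos y)
    {m1 m2 m3 : α} (h1 : m1 ∈ L) (h2 : m2 ∈ L) (h3 : m3 ∈ L)
    (hc : Sw300.cyc (pos m1) (pos m2) (pos m3)) :
    VO (fun x => x ∈ L) pos M S u m1 m2 m3 = VV L M u m1 m2 m3 := by
  classical
  have n12 : m1 ≠ m2 := by rintro rfl; unfold Sw300.cyc at hc; omega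
  have n23 : m2 ≠ m3 := by rintro rfl; unfold Sw300.cyc at hc; omega
  have n31 : m3 ≠ m1 := by rintro rfl; unfold Sw300.cyc at hc; omega
  have s1 := sect_iff hs h.inj h3 h1 h.um n31
  have s2 := sect_iff hs h.inj h1 h2 h.um n12
  have p1 := sepO_iff h hs h2 h3 h1 n23
  have p2 := sepO_iff h hs h1 h2 h3 n12
  have p3 := sepO_iff h hs h3 h1 h2 n31
  have c2 : Sw300.cyc (pos m2) (pos m3) (pos m1) := by unfold Sw300.cyc at *; omega
  have c3 : Sw300.cyc (pos m3) (pos m1) (pos m2) := by unfold Sw300.cyc at *; omega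
  unfold VO VV vval
  by_cases q1 : Sect pos m3 m1 u
  · rw [if_pos q1]
    have q1' := s1.1 q1
    have np3 : ¬ Sepc L M u m3 m1 m2 := fun hh => sepO_not h h1 h2 h3 hc q1 (p3.2 hh)
    by_cases r1 : SepO (fun x => x ∈ L) pos M S m2 m3 m1
    · rw [if_pos r1, if_pos (p1.1 r1)]
    · rw [if_neg r1, if_neg (mt p1.2 r1)]
      by_cases r2 : SepO (fun x => x ∈ L) pos M S m1 m2 m3
      · rw [if_pos r2, if_pos (p2.1 r2)]
      · rw [if_neg r2, if_neg (mt p2.2 r2), if_neg np3, if_pos q1']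
  · rw [if_neg q1]
    have q1' : ¬ cyc L m3 u m1 = true := mt s1.2 q1
    by_cases q2 : Sect pos m1 m2 u
    · rw [if_pos q2]
      have q2' := s2.1 q2
      have np2 : ¬ Sepc L M u m1 m2 m3 := fun hh => sepO_not h h2 h3 h1 c2 q2 (p2.2 hh)
      by_cases r1 : SepO (fun x => x ∈ L) pos M S m2 m3 m1
      · rw [if_pos r1, if_pos (p1.1 r1)]
      · rw [if_neg r1, if_neg (mt p1.2 r1), if_neg np2]
        by_cases r3 : SepO (fun x => x ∈ L) pos M S m3 m1 m2
        · rw [if_pos r3, if_pos (p3.1 r3)]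
        · rw [if_neg r3, if_neg (mt p3.2 r3), if_neg q1', if_pos q2']
    · rw [if_neg q2]
      have q2' : ¬ cyc L m1 u m2 = true := mt s2.2 q2
      have q3 : Sect pos m2 m3 u := by
        have i1 := h.inj u m3 h.um h3
        have i2 := h.inj u m1 h.um h1
        have i3 := h.inj u m2 h.um h2
        unfold Sect at *
        push Not at q1 q2
        by_cases e : u = m2
        · exact Or.inl e
        · right
          have i1' := i1 q1.1
          have i2' := i2 q2.1
          have i3' := i3 e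
          have q12 := q1.2
          have q22 := q2.2
          unfold Sw300.cyc at *
          omega
      have np1 : ¬ Sepc L M u m2 m3 m1 := fun hh => sepO_not h h3 h1 h2 c3 q3 (p1.2 hh)
      by_cases r2 : SepO (fun x => x ∈ L) pos M S m1 m2 m3
      · rw [if_pos r2, if_neg np1, if_pos (p2.1 r2)]
      · rw [if_neg r2, if_neg np1, if_neg (mt p2.2 r2)]
        by_cases r3 : SepO (fun x => x ∈ L) pos M S m3 m1 m2
        · rw [if_pos r3, if_pos (p3.1 r3)]
        · rw [if_neg r3, if_neg (mt p3.2 r3), if_neg q1', if_neg q2']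

end pos

variable {T : Type*} [DecidableEq T]

/-- **664's `HV` on the list of free ends** -/
theorem hv_eq {w : Wd T} (h : Sw300.Ok w) (s : T → Bool) {m1 m2 m3 : Port T}
    (h1 : m1 ∈ Sw300.L w) (h2 : m2 ∈ Sw300.L w) (h3 : m3 ∈ Sw300.L w)
    (hc : Sw300.cyc (Sw300.pos w m1) (Sw300.pos w m2) (Sw300.pos w m3)) :
    HV w m1 m2 m3 s = VV (Sw300.L w) (Sw300.M s w) (Sw300.u s w) m1 m2 m3 :=
  vo_eq (Sw300.Ok.inv s w h) (Sw300.sorted w h) h1 h2 h3 hc

/-! ### strands of a word -/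

/-- passage through the tiles -/
def al (s : T → Bool) : Port T → Port T := Option.map fun x => (x.1, thru (s x.1) x.2)

omit [DecidableEq T] in
@[simp] theorem al_none (s : T → Bool) : al s none = none := rfl
omit [DecidableEq T] in
@[simp] theorem al_some (s : T → Bool) (t : T) (d : ZMod 4) :
    al s (some (t, d)) = some (t, thru (s t) d) := rfl

omit [DecidableEq T] in
theorem al_invol (s : T → Bool) : Function.Involutive (al s) := by
  rintro (_ | ⟨t, d⟩)
  · rfl
  · simp [thru_thru]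

open Crest.Agent.R158.Gc748 (Gp BeS be_state gd_wd Gd Pot lc rc jp Wk Lw bs gl ts)

theorem be_invol {w : Wd T} (h : Sw300.Ok w) : Function.Involutive (Sw300.be w) := by
  intro x
  by_cases hx : Sw300.be w x = x
  · rw [hx, hx]
  · have h1 : Gp (gl w) x (Sw300.be w x) := ((be_state h).gl _ _).2 ⟨rfl, fun e => hx e.symm⟩
    exact (((be_state h).gl _ _).1 h1.symm).1

/-- the full relation of a system is symmetric and generated by the two maps -/
theorem rf_al {X : Type*} {a b : X → X} (x : X) : Rf a b x (a x) :=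
  ⟨trivial, .single ⟨trivial, trivial, Or.inl rfl⟩⟩

theorem rf_be {X : Type*} {a b : X → X} (x : X) : Rf a b x (b x) :=
  ⟨trivial, .single ⟨trivial, trivial, Or.inr ⟨rfl, by simp, by simp⟩⟩⟩

theorem rf_of_gp {w : Wd T} (h : Sw300.Ok w) {s : T → Bool} {p q : Port T}
    (h1 : (p, q) ∈ gl w ∨ (q, p) ∈ gl w) : Rf (al s) (Sw300.be w) p q := by
  have h2 : Gp (gl w) p q := h1
  have h3 := (((be_state h).gl _ _).1 h2).1
  rw [← h3]; exact rf_be p

theorem rf_of_wk {w : Wd T} (h : Sw300.Ok w) {s : T → Bool} {p q : Port T}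
    (hpq : Wk s (gl w) p q) : Rf (al s) (Sw300.be w) p q := by
  induction hpq with
  | one t d => exact rf_al (some (t, d))
  | step _ hg _ ih1 ih2 => exact (ih1.trans (rf_of_gp h hg)).trans ih2

theorem rf_of_lw {w : Wd T} (h : Sw300.Ok w) {s : T → Bool} {q : Port T}
    (hq : Lw s (gl w) q) : Rf (al s) (Sw300.be w) none q := by
  rcases hq with rfl | ⟨z, h1, h2⟩
  · exact .refl trivial
  · exact (rf_of_gp h h1).trans (rf_of_wk h h2)

/-- jump of a potential across a port -/
def jmp (h : Port T → ZMod 2) (x : Port T) : ZMod 2 := h (rc x) - h (lc x)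

theorem z2 (a b : ZMod 2) : a - b = b - a := by revert a b; decide

theorem jmp_al {s : T → Bool} {B : Option T} {G : List (Port T × Port T)} {h : Port T → ZMod 2}
    (hp : Pot s B G h) (x : Port T) : jmp h (al s x) = jmp h x := by
  rcases x with _ | ⟨t, d⟩
  · rfl
  · have hd := hp.diag t
    have zc : d = 0 ∨ d = 1 ∨ d = 2 ∨ d = 3 := by revert d; decide
    unfold jmp
    simp only [al_some, Gc748.rc_some, Gc748.lc_some]
    cases hs : s t
    · rw [hs] at hd
      have hd' : h (some (t, 1)) = h (some (t, 3)) := by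
        have e : (Gc748.dg false + 2 : ZMod 4) = 3 := by decide
        have e1 : (Gc748.dg false : ZMod 4) = 1 := rfl
        rw [e, e1] at hd
        exact hd
      rcases zc with rfl | rfl | rfl | rfl
      · have e : thru false 0 = 3 := by decide
        have e2 : (3 : ZMod 4) + 1 = 0 := by decide
        have e3 : (0 : ZMod 4) + 1 = 1 := by decide
        rw [e, e2, e3, hd']; exact z2 _ _
      · have e : thru false 1 = 2 := by decide
        have e2 : (2 : ZMod 4) + 1 = 3 := by decide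
        have e3 : (1 : ZMod 4) + 1 = 2 := by decide
        rw [e, e2, e3, hd']; exact z2 _ _
      · have e : thru false 2 = 1 := by decide
        have e2 : (2 : ZMod 4) + 1 = 3 := by decide
        have e3 : (1 : ZMod 4) + 1 = 2 := by decide
        rw [e, e2, e3, hd']; exact z2 _ _
      · have e : thru false 3 = 0 := by decide
        have e2 : (3 : ZMod 4) + 1 = 0 := by decide
        have e3 : (0 : ZMod 4) + 1 = 1 := by decide
        rw [e, e2, e3, hd']; exact z2 _ _
    · rw [hs] at hd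
      have hd' : h (some (t, 0)) = h (some (t, 2)) := by
        have e : (Gc748.dg true + 2 : ZMod 4) = 2 := by decide
        have e1 : (Gc748.dg true : ZMod 4) = 0 := rfl
        rw [e, e1] at hd
        exact hd
      rcases zc with rfl | rfl | rfl | rfl
      · have e : thru true 0 = 1 := by decide
        have e2 : (1 : ZMod 4) + 1 = 2 := by decide
        have e3 : (0 : ZMod 4) + 1 = 1 := by decide
        rw [e, e2, e3, hd']; exact z2 _ _
      · have e : thru true 1 = 0 := by decide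
        have e2 : (1 : ZMod 4) + 1 = 2 := by decide
        have e3 : (0 : ZMod 4) + 1 = 1 := by decide
        rw [e, e2, e3, hd']; exact z2 _ _
      · have e : thru true 2 = 3 := by decide
        have e2 : (3 : ZMod 4) + 1 = 0 := by decide
        have e3 : (2 : ZMod 4) + 1 = 3 := by decide
        rw [e, e2, e3, hd']; exact z2 _ _
      · have e : thru true 3 = 2 := by decide
        have e2 : (3 : ZMod 4) + 1 = 0 := by decide
        have e3 : (2 : ZMod 4) + 1 = 3 := by decide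
        rw [e, e2, e3, hd']; exact z2 _ _

theorem jmp_be {w : Wd T} (ho : Sw300.Ok w) {s : T → Bool} {B : Option T} {h : Port T → ZMod 2}
    (hp : Pot s B (gl w) h) (x : Port T) : jmp h (Sw300.be w x) = jmp h x := by
  by_cases hx : Sw300.be w x = x
  · rw [hx]
  · have h1 : Gp (gl w) x (Sw300.be w x) := ((be_state ho).gl _ _).2 ⟨rfl, fun e => hx e.symm⟩
    unfold jmp
    rcases h1 with h1 | h1
    · rw [← hp.glr _ _ h1, ← hp.grl _ _ h1]; exact z2 _ _
    · rw [hp.glr _ _ h1, hp.grl _ _ h1]; exact z2 _ _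

theorem jmp_rf {w : Wd T} (ho : Sw300.Ok w) {s : T → Bool} {B : Option T} {h : Port T → ZMod 2}
    (hp : Pot s B (gl w) h) {x y : Port T} (hxy : Rf (al s) (Sw300.be w) x y) :
    jmp h y = jmp h x := by
  obtain ⟨-, hxy⟩ := hxy
  induction hxy with
  | refl => rfl
  | tail _ hbc ih =>
    obtain ⟨-, -, hbc⟩ := hbc
    rcases hbc with rfl | ⟨rfl, -, -⟩
    · rw [jmp_al hp, ih]
    · rw [jmp_be ho hp, ih]

/-- a free end on the strand of `a` is `a` or its partner -/
theorem uni_word {w : Wd T} (h : Sw300.Ok w) (s : T → Bool) {a b : Port T}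
    (ha : a ∈ Sw300.L w) (hb : b ∈ Sw300.L w) (hab : Rf (al s) (Sw300.be w) a b) :
    b = a ∨ b = Sw300.M s w a := by
  have hg := gd_wd s h
  have hi := Sw300.Ok.inv s w h
  have key : ∀ {a b : Port T}, a ∈ Sw300.L w → b ∈ Sw300.L w → Sw300.M s w a ≠ a →
      Rf (al s) (Sw300.be w) a b → b = a ∨ b = Sw300.M s w a := by
    intro a b ha hb hne hab
    obtain ⟨k, hk, hj⟩ := hg.pot a ha hne
    have e := jmp_rf h hk hab
    have e1 : jmp k a = 1 := by
      unfold jmp; rw [hj a ha, Gc748.jp_self]; ring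
    have e2 : jmp k b = jp a (Sw300.M s w a) b := by
      unfold jmp; rw [hj b hb]; ring
    rw [e1, e2] at e
    unfold jp at e
    by_contra hcon
    rw [if_neg hcon] at e
    exact absurd e (by decide)
  by_cases hne : Sw300.M s w a = a
  · by_cases hne' : Sw300.M s w b = b
    · left
      rw [hi.fix a ha hne, hi.fix b hb hne']
    · rcases key hb ha hne' (hab.symm (al_invol s) (be_invol h)) with h1 | h1
      · exact Or.inl h1.symm
      · left
        have h2 := hi.inv b hb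
        rw [← h1, hne] at h2
        exact h2.symm
  · exact key ha hb hne hab

/-- **the strand system of a leg word** -/
theorem sys_of_word {w : Wd T} (h : Sw300.Ok w) (s : T → Bool) :
    Sys (al s) (Sw300.be w) none (Sw300.L w) (Sw300.M s w) (Sw300.u s w) := by
  have hg := gd_wd s h
  have hi := Sw300.Ok.inv s w h
  have hfix : ∀ a ∈ Sw300.L w, Sw300.M s w a = a ↔ a = Sw300.u s w := fun a ha =>
    ⟨hi.fix a ha, fun e => by rw [e]; exact hi.uf⟩
  have hleg : Rf (al s) (Sw300.be w) none (Sw300.u s w) :=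
    rf_of_lw h (hg.leg _ hi.um hi.uf)
  refine ⟨al_invol s, be_invol h, Sw300.nodup h, hi.mem, hi.inv, hi.um, hfix,
    fun a ha => ?_, fun a ha b hb => uni_word h s ha hb, fun a ha => ?_⟩
  · by_cases hM : Sw300.M s w a = a
    · rw [hM]; exact .refl trivial
    · exact rf_of_wk h (hg.str a ha hM)
  constructor
  · intro h1
    have h2 := (hleg.symm (al_invol s) (be_invol h)).trans h1
    rcases uni_word h s hi.um ha h2 with h3 | h3
    · exact h3
    · rw [hi.uf] at h3; exact h3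
  · rintro rfl
    exact hleg

/-! ### rings -/

/-- the ring of free ends of a planar region without leg -/
structure Ring {Y : Type*} [DecidableEq Y] (alY beY : Y → Y) (C : List Y) (MY : Y → Y) :
    Prop where
  nd : C.Nodup
  nc : NCl C MY
  mem : ∀ a ∈ C, MY a ∈ C
  inv : ∀ a ∈ C, MY (MY a) = a
  ne : ∀ a ∈ C, MY a ≠ a
  uni : ∀ a ∈ C, ∀ b ∈ C, Rf alY beY a b → b = a ∨ b = MY a

section cycI

variable {β : Type*} [DecidableEq β]

/-- cyclic order of list positions -/
def cycI (L : List β) (a b c : β) : Prop :=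
  Sw300.cyc (L.idxOf a : ℤ) (L.idxOf b) (L.idxOf c)

theorem cycI_swap {A B : List β} (hn : (A ++ B).Nodup) {a b c : β} (ha : a ∈ A ++ B)
    (hb : b ∈ A ++ B) (hc : c ∈ A ++ B) : cycI (B ++ A) a b c ↔ cycI (A ++ B) a b c := by
  have key : ∀ x ∈ A ++ B, ((B ++ A).idxOf x : ℤ) =
      if x ∈ B then ((A ++ B).idxOf x : ℤ) - A.length else ((A ++ B).idxOf x : ℤ) + B.length := by
    intro x hx
    have hn' : (B ++ A).Nodup := List.nodup_append_comm.1 hn
    by_cases hB : x ∈ B
    · rw [if_pos hB, List.idxOf_append_of_mem hB,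
        List.idxOf_append_of_notMem (notMem_left hn hB)]
      push_cast; ring
    · have hA : x ∈ A := (List.mem_append.1 hx).resolve_right hB
      rw [if_neg hB, List.idxOf_append_of_mem hA, List.idxOf_append_of_notMem hB]
      push_cast; ring
  have bd : ∀ x ∈ A ++ B, if x ∈ B then (A.length : ℤ) ≤ (A ++ B).idxOf x ∧
      ((A ++ B).idxOf x : ℤ) < A.length + B.length else ((A ++ B).idxOf x : ℤ) < A.length := by
    intro x hx
    by_cases hB : x ∈ B
    · rw [if_pos hB]
      have h1 := List.idxOf_lt_length_iff.2 hx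
      rw [List.length_append] at h1
      rw [List.idxOf_append_of_notMem (notMem_left hn hB)] at h1 ⊢
      push_cast
      constructor
      · omega
      · omega
    · rw [if_neg hB]
      have hA : x ∈ A := (List.mem_append.1 hx).resolve_right hB
      rw [List.idxOf_append_of_mem hA]
      have h1 := List.idxOf_lt_length_iff.2 hA
      omega
  unfold cycI
  rw [key a ha, key b hb, key c hc]
  have b1 := bd a ha
  have b2 := bd b hb
  have b3 := bd c hc
  have n1 : ∀ x : β, (0 : ℤ) ≤ ((A ++ B).idxOf x : ℤ) := fun x => by positivity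
  have m1 := n1 a
  have m2 := n1 b
  have m3 := n1 c
  unfold Sw300.cyc
  split_ifs at b1 b2 b3 ⊢ <;> omega

theorem cycI_rot {L L' : List β} (hr : L ~r L') (hn : L.Nodup) {a b c : β} (ha : a ∈ L)
    (hb : b ∈ L) (hc : c ∈ L) : cycI L' a b c ↔ cycI L a b c := by
  obtain ⟨n, hn', rfl⟩ := List.isRotated_iff_mod.1 hr
  rw [List.rotate_eq_drop_append_take hn']
  have e : L.take n ++ L.drop n = L := List.take_append_drop n L
  rw [← e] at hn ha hb hc
  rw [cycI_swap hn ha hb hc, e]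

/-- erasing one element does not change the order of the others -/
theorem cycI_erase {P Q : List β} {z : β} (hn : (P ++ z :: Q).Nodup) {a b c : β}
    (ha : a ∈ P ++ Q) (hb : b ∈ P ++ Q) (hc : c ∈ P ++ Q) :
    cycI (P ++ Q) a b c ↔ cycI (P ++ z :: Q) a b c := by
  have key : ∀ x ∈ P ++ Q, (((P ++ z :: Q).idxOf x : ℕ) : ℤ) =
      ((P ++ Q).idxOf x : ℤ) + (if x ∈ P then 0 else 1) := by
    intro x hx
    have hn2 : (P ++ Q).Nodup := by
      rw [List.nodup_append] at hn ⊢
      refine ⟨hn.1, (List.nodup_cons.1 hn.2.1).2, fun a ha b hb => hn.2.2 a ha b (by simp [hb])⟩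
    by_cases hP : x ∈ P
    · rw [if_pos hP, List.idxOf_append_of_mem hP, List.idxOf_append_of_mem hP]; simp
    · have hQ : x ∈ Q := (List.mem_append.1 hx).resolve_left hP
      have hz : z ≠ x := by
        rintro rfl
        rw [List.nodup_append] at hn
        exact (List.nodup_cons.1 hn.2.1).1 hQ
      rw [if_neg hP, List.idxOf_append_of_notMem hP, List.idxOf_append_of_notMem hP,
        List.idxOf_cons_ne _ hz]
      push_cast; ring
  have bd : ∀ x ∈ P ++ Q, if x ∈ P then ((P ++ Q).idxOf x : ℤ) < P.length else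
      (P.length : ℤ) ≤ (P ++ Q).idxOf x := by
    intro x hx
    by_cases hP : x ∈ P
    · rw [if_pos hP, List.idxOf_append_of_mem hP]
      have h1 := List.idxOf_lt_length_iff.2 hP
      omega
    · rw [if_neg hP, List.idxOf_append_of_notMem hP]
      push_cast; omega
  unfold cycI
  rw [key a ha, key b hb, key c hc]
  have b1 := bd a ha
  have b2 := bd b hb
  have b3 := bd c hc
  unfold Sw300.cyc
  split_ifs at b1 b2 b3 ⊢ <;> omega

theorem idx_pos_iff {L : List β} {pos : β → ℤ} (hs : L.Pairwise fun x y => pos x < pos y)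
    {a t : β} (ha : a ∈ L) (ht : t ∈ L) : L.idxOf a < L.idxOf t ↔ pos a < pos t := by
  have := gq_pos hs ha ht
  unfold gq at this
  simpa using this

theorem cycI_pos {L : List β} {pos : β → ℤ} (hs : L.Pairwise fun x y => pos x < pos y)
    {a b c : β} (ha : a ∈ L) (hb : b ∈ L) (hc : c ∈ L) :
    cycI L a b c ↔ Sw300.cyc (pos a) (pos b) (pos c) := by
  have h1 := idx_pos_iff hs ha hb
  have h2 := idx_pos_iff hs hb hc
  have h3 := idx_pos_iff hs hc ha
  unfold cycI Sw300.cyc
  omega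

end cycI

/-- **ring of a word without leg** (`none` = the marker) -/
theorem ring_of_word {w : Wd T} (h : Sw300.Ok w) (s : T → Bool) (hu : Sw300.u s w = none)
    {P Q C : List (Port T)} (hr : Sw300.L w ~r P ++ none :: Q) (hC : P ++ Q ~r C) :
    Ring (al s) (Sw300.be w) C (Sw300.M s w) := by
  have hi := Sw300.Ok.inv s w h
  have hnL := Sw300.nodup h
  have hn1 : (P ++ none :: Q).Nodup := (hr.nodup_iff).1 hnL
  have hn2 : (P ++ Q).Nodup := by
    rw [List.nodup_append] at hn1 ⊢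
    refine ⟨hn1.1, (List.nodup_cons.1 hn1.2.1).2, fun a ha b hb => hn1.2.2 a ha b (by simp [hb])⟩
  have hnC : C.Nodup := (hC.nodup_iff).1 hn2
  have hnone : (none : Port T) ∉ P ++ Q := by
    intro h1
    rw [List.nodup_append] at hn1
    rcases List.mem_append.1 h1 with h2 | h2
    · exact hn1.2.2 _ h2 _ (by simp) rfl
    · exact (List.nodup_cons.1 hn1.2.1).1 h2
  have mem1 : ∀ x, x ∈ C ↔ (x ∈ Sw300.L w ∧ x ≠ none) := by
    intro x
    rw [← hC.mem_iff, hr.mem_iff]
    constructor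
    · intro h1
      refine ⟨?_, fun e => hnone (e ▸ h1)⟩
      simp only [List.mem_append, List.mem_cons] at h1 ⊢
      tauto
    · rintro ⟨h1, h2⟩
      simp only [List.mem_append, List.mem_cons] at h1 ⊢
      tauto
  have hcyc : ∀ a ∈ C, ∀ b ∈ C, ∀ c ∈ C, cycI C a b c ↔
      Sw300.cyc (Sw300.pos w a) (Sw300.pos w b) (Sw300.pos w c) := by
    intro a ha b hb c hc
    have a1 := (mem1 a).1 ha
    have b1 := (mem1 b).1 hb
    have c1 := (mem1 c).1 hc
    have a2 := hC.mem_iff.2 ha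
    have b2 := hC.mem_iff.2 hb
    have c2 := hC.mem_iff.2 hc
    rw [cycI_rot hC hn2 a2 b2 c2, cycI_erase hn1 a2 b2 c2, cycI_rot hr hnL a1.1 b1.1 c1.1,
      cycI_pos (Sw300.sorted w h) a1.1 b1.1 c1.1]
  have hmem : ∀ a ∈ C, Sw300.M s w a ∈ C := by
    intro a ha
    have a1 := (mem1 a).1 ha
    refine (mem1 _).2 ⟨hi.mem a a1.1, ?_⟩
    rw [← hu]
    exact hi.Mu a1.1 (by rw [hu]; exact a1.2)
  refine ⟨hnC, ?_, hmem, fun a ha => hi.inv a ((mem1 a).1 ha).1, fun a ha => ?_, fun a ha b hb =>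
    uni_word h s ((mem1 a).1 ha).1 ((mem1 b).1 hb).1⟩
  · intro a ha b hb h1 h2
    have a1 := (mem1 a).1 ha
    have b1 := (mem1 b).1 hb
    have c1 : cycI C a b (Sw300.M s w a) := Or.inl ⟨by exact_mod_cast h1, by exact_mod_cast h2⟩
    have hab : b ≠ a := by rintro rfl; omega
    have hbM : b ≠ Sw300.M s w a := by rintro rfl; omega
    have c2 := (hcyc a ha b hb _ (hmem a ha)).1 c1
    have c3 := (hi.nc a b a1.1 b1.1 (by rw [hu]; exact a1.2) (by rw [hu]; exact b1.2) hab hbM).1 c2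
    have c4 := (hcyc a ha _ (hmem b hb) _ (hmem a ha)).2 c3
    unfold cycI Sw300.cyc at c4
    omega
  · have a1 := (mem1 a).1 ha
    exact hi.Mne a1.1 (by rw [hu]; exact a1.2)

/-! ### charts -/

section chart

variable {X Y : Type*} [DecidableEq X] [DecidableEq Y]

theorem idx_map {ψ : X → Y} {L : List X} (hinj : ∀ x ∈ L, ∀ y ∈ L, ψ x = ψ y → x = y) {a : X}
    (ha : a ∈ L) : (L.map ψ).idxOf (ψ a) = L.idxOf a := by
  induction L with
  | nil => simp at ha
  | cons x L ih =>
    rw [List.map_cons]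
    by_cases hxa : x = a
    · subst hxa
      rw [List.idxOf_cons_self, List.idxOf_cons_self]
    · have h1 : ψ x ≠ ψ a := fun e => hxa (hinj x (by simp) a ha e)
      rw [List.idxOf_cons_ne _ h1, List.idxOf_cons_ne _ hxa]
      have ha' : a ∈ L := (List.mem_cons.1 ha).resolve_left (fun e => hxa e.symm)
      rw [ih (fun x hx y hy => hinj x (by simp [hx]) y (by simp [hy])) ha']

open Classical in
/-- pull-back of the partner map -/
noncomputable def pull (ψ : X → Y) (L : List X) (MY : Y → Y) (x : X) : X :=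
  if h : ∃ y ∈ L, ψ y = MY (ψ x) then h.choose else x

theorem pull_spec {ψ : X → Y} {L : List X} {MY : Y → Y} (hmem : ∀ a ∈ L.map ψ, MY a ∈ L.map ψ)
    {x : X} (hx : x ∈ L) : pull ψ L MY x ∈ L ∧ ψ (pull ψ L MY x) = MY (ψ x) := by
  classical
  have h : ∃ y ∈ L, ψ y = MY (ψ x) := by
    have := hmem (ψ x) (List.mem_map_of_mem hx)
    rw [List.mem_map] at this
    exact this
  unfold pull
  rw [dif_pos h]
  exact h.choose_spec

/-- **annulus state from a ring in a chart** -/
theorem annS_of_chart {al be : X → X} {alY beY : Y → Y} {Fa An : Set X}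
    {N1 Jl N2 Jo : List X} {MY : Y → Y} {ψ : X → Y}
    (hR : Ring alY beY ((N1 ++ Jl ++ N2 ++ Jo).map ψ) MY)
    (hinj : ∀ x ∈ An, ∀ y ∈ An, ψ x = ψ y → x = y)
    (sub : ∀ x ∈ N1 ++ Jl ++ N2 ++ Jo, x ∈ An)
    (hal : ∀ x ∈ An, ψ (al x) = alY (ψ x))
    (hbe : ∀ x ∈ An, x ∉ N1 ++ Jl ++ N2 ++ Jo → ψ (be x) = beY (ψ x))
    (dj : ∀ x ∈ Fa, x ∉ An) (alF : ∀ x ∈ Fa, al x ∈ Fa) (alA : ∀ x ∈ An, al x ∈ An)
    (beF : ∀ x ∈ Fa, be x ∈ Fa ∨ be x ∈ Jo)
    (beA : ∀ x ∈ An, x ∉ N1 ++ Jl ++ N2 ++ Jo → be x ∈ An ∧ be x ∉ N1 ++ Jl ++ N2 ++ Jo)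
    (beN1 : ∀ x ∈ N1, be x = x) (beN2 : ∀ x ∈ N2, be x = x) (beo : ∀ x ∈ Jo, be x ∈ Fa) :
    AnnS al be Fa An N1 Jl N2 Jo (pull ψ (N1 ++ Jl ++ N2 ++ Jo) MY) := by
  obtain ⟨hnd, hnc, hmem, hinv, hne, huni⟩ := hR
  set LA := N1 ++ Jl ++ N2 ++ Jo with hLA
  have hi : ∀ x ∈ LA, ∀ y ∈ LA, ψ x = ψ y → x = y := fun x hx y hy => hinj x (sub x hx) y (sub y hy)
  have sp : ∀ {x : X}, x ∈ LA → pull ψ LA MY x ∈ LA ∧ ψ (pull ψ LA MY x) = MY (ψ x) :=
    fun hx => pull_spec hmem hx
  have mm : ∀ {x : X}, x ∈ LA → ψ x ∈ LA.map ψ := fun hx => List.mem_map_of_mem hx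
  have hnd' : LA.Nodup := List.Nodup.of_map ψ hnd
  refine ⟨hnd', ?_, fun a ha => (sp ha).1, fun a ha => ?_, fun a ha => ?_, ?_, dj, sub, alF, alA,
    beF, beA, beN1, beN2, beo⟩
  · intro a ha b hb h1 h2
    have e1 := idx_map hi ha
    have e2 := idx_map hi hb
    have e3 := idx_map hi (sp ha).1
    have e4 := idx_map hi (sp hb).1
    rw [(sp ha).2] at e3
    rw [(sp hb).2] at e4
    have := hnc (ψ a) (mm ha) (ψ b) (mm hb) (by rw [e1, e2]; exact h1) (by rw [e2, e3]; exact h2)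
    rw [e1, e3, e4] at this
    exact this
  · apply hi _ (sp (sp ha).1).1 _ ha
    rw [(sp (sp ha).1).2, (sp ha).2, hinv _ (mm ha)]
  · intro e
    have := (sp ha).2
    rw [e] at this
    exact hne _ (mm ha) this.symm
  · intro a ha b hb hab
    have h1 : Rf alY beY (ψ a) (ψ b) := by
      obtain ⟨-, hab⟩ := hab
      clear hb
      induction hab with
      | refl => exact .refl trivial
      | @tail c d _ hcd ih =>
        obtain ⟨hc, hd, hcd⟩ := hcd
        rcases hcd with rfl | ⟨rfl, h3, h4⟩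
        · rw [hal c hc]; exact ih.trans (rf_al _)
        · rw [hbe c hc h3]; exact ih.trans (rf_be _)
    rcases huni _ (mm ha) _ (mm hb) h1 with h2 | h2
    · exact Or.inl (hi _ hb _ ha h2)
    · right
      apply hi _ hb _ (sp ha).1
      rw [h2, (sp ha).2]

end chart

end Crest.Agent.R158.Sl434
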