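import Crest.Agent.R158.Fw3_814
import Crest.Agent.R158.Fl5_440
import Crest.Agent.R158.Cb1_771
import Crest.Agent.R158.Gc7_748
import Crest.Agent.R158.Sl1_434
import Crest.Agent.R158.Xr8_249

-- ▼ part R158/Fw4_814
section

/-!
# Row 158, Block FW (helper814): flat medial wall, three arms in face-path form

* `mrsw_half` : the medial RSW hypothesis holds at `p = 1/2`
* `three_half` : `P(TT k s R) ≤ C (s/R)^(1+c)`
* `FSy` : symmetries of the tile plane acting on face paths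
* `f3` : two distinct colour-blind crossing clusters of the same parity of a half annulus at a flat wall,
  any tile set which contains the half annulus and stays behind the wall
-/

set_option autoImplicit false

noncomputable section

namespace Crest.Agent.R158.Fw814

open MeasureTheory ProbabilityTheory unitInterval
open Crest.Agent.R161.Geo729 Crest.Agent.R161.Topo374 Crest.Agent.R161.Dual374
open Crest.Agent.R161.Tas682 Crest.Agent.R158.Rs689 Crest.Agent.R158.Fl440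
open Crest.Agent.R158.Mr679 (TF Dg tb TS TP InB tau tau_real_perm measurable_perm)
open Crest.Agent.R158.Cb771 (FS FP xg dgt fs_even fp_even tau_real_xg measurable_xg PB_flip)
open Crest.Agent.R158.Hp814 (EI EI_mono ev_dep oc_dep)

/-! ### the medial RSW hypothesis at 1/2 -/

theorem hc_sub {l k : ℤ} {n : ℕ} (hl : 4 ≤ l) : HC k n ⊆ HO l k n := by
  have h0 : (0 : ℤ) ≤ n := Int.natCast_nonneg n
  have hln : 4 * (n : ℤ) ≤ l * n := mul_le_mul_of_nonneg_right hl h0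
  rintro y ⟨u, hu, v, hv, h⟩
  have hu1 := mem_HS.1 h.left
  have hv1 := mem_HS.1 h.right
  have hu2 := hd_le.1 hu1.2.2
  have hv2 := hd_le.1 hv1.2.2
  obtain ⟨hu3, hu4⟩ := hu
  obtain ⟨hv3, hv4⟩ := hv
  refine ⟨u, ⟨hu3, by omega, by omega⟩, v, ⟨hv3, by omega, by omega⟩, h.monoS ?_⟩
  intro t ht
  have ht1 := mem_HS.1 ht
  exact mem_HM.2 ⟨ht1.1, ht1.2.1, by omega⟩

theorem hx_sub_px {k : ℤ} {s n : ℕ} : HX k s n ⊆ PX k s n := by
  rintro y ⟨u, hu, v, hv, h⟩
  have hu' : hd k u = s := hu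
  have hv' : hd k v = n := hv
  refine ⟨u, hu'.le, v, le_hd.1 hv'.ge, h.monoS ?_⟩
  intro t ht
  have ht1 := mem_HM.1 ht
  have ht2 := hd_le.1 ht1.2.2
  rw [Finset.mem_coe, mem_HB]
  exact ⟨ht2.1, ht2.2.1, ht1.1, ht2.2.2⟩

/-- **The medial RSW hypothesis at `p = 1/2`.** -/
theorem mrsw_half : ∃ (c : ℝ) (l : ℤ) (C a : ℝ), Mrsw hf c l C a := by
  obtain ⟨c0, hc0, h0⟩ := HC_prob
  obtain ⟨C0, a0, hC0, ha0, h1⟩ := PX_upper
  set C := max C0 1 with hC
  set a := min a0 1 with ha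
  have ha' : 0 < a := lt_min ha0 one_pos
  have hCpos : 0 < C := lt_of_lt_of_le one_pos (le_max_right _ _)
  have harm : ∀ k s R : ℤ, 1 ≤ s → s ≤ R → (nu hf).real (HX k s R) ≤ C * ((s : ℝ) / R) ^ a := by
    intro k s R hs hsR
    obtain ⟨s', rfl⟩ : ∃ s' : ℕ, s = s' := ⟨s.toNat, by omega⟩
    obtain ⟨R', rfl⟩ : ∃ R' : ℕ, R = R' := ⟨R.toNat, by omega⟩
    have h2 := h1 k s' R' (by omega) (by omega)
    refine (measureReal_mono hx_sub_px).trans (h2.trans ?_)
    have hs0 : (1 : ℝ) ≤ s' := by exact_mod_cast hs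
    have hR0 : (s' : ℝ) ≤ R' := by exact_mod_cast hsR
    have hq : (0 : ℝ) < (s' : ℝ) / R' := by
      have : (0 : ℝ) < R' := by linarith
      positivity
    have hq1 : (s' : ℝ) / R' ≤ 1 := by
      rw [div_le_one (by linarith)]
      exact hR0
    push_cast
    refine mul_le_mul (le_max_left _ _) ?_ (by positivity) hCpos.le
    exact Real.rpow_le_rpow_of_exponent_ge hq hq1 (min_le_left _ _)
  obtain ⟨lam, hlam, hlam2⟩ : ∃ lam : ℕ, 4 ≤ lam ∧ C * (1 / (lam : ℝ)) ^ a ≤ 1 / 2 := by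
    have ht : Filter.Tendsto (fun n : ℕ => C * (1 / (n : ℝ)) ^ a) Filter.atTop (nhds (C * 0)) := by
      refine Filter.Tendsto.const_mul C ?_
      have h1 : Filter.Tendsto (fun n : ℕ => 1 / (n : ℝ)) Filter.atTop (nhds 0) :=
        tendsto_one_div_atTop_nhds_zero_nat
      have h2 := h1.rpow_const (p := a) (Or.inr ha'.le)
      rwa [Real.zero_rpow ha'.ne'] at h2
    rw [mul_zero] at ht
    have h3 := (ht.eventually (ge_mem_nhds (show (0 : ℝ) < 1 / 2 by norm_num))).and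
      (Filter.eventually_ge_atTop 4)
    obtain ⟨n, h4, h5⟩ := h3.exists
    exact ⟨n, h5, h4⟩
  refine ⟨min c0 (1 / 2), lam, C, a, ?_⟩
  refine ⟨lt_min hc0 (by norm_num), by omega, ?_, ?_, le_max_right _ _, ha', min_le_right _ _,
    harm⟩
  · intro k n hn
    obtain ⟨n', rfl⟩ : ∃ n' : ℕ, n = n' := ⟨n.toNat, by omega⟩
    refine (min_le_left _ _).trans ((h0 k n' (by omega)).trans ?_)
    exact measureReal_mono (hc_sub (by omega))
  · intro k n hn
    have h2 : n ≤ (lam : ℤ) * n := by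
      have : (4 : ℤ) ≤ lam := by exact_mod_cast hlam
      nlinarith
    refine (harm k n _ hn h2).trans ?_
    have hn0 : (0 : ℝ) < n := by
      have : (0 : ℤ) < n := by omega
      exact_mod_cast this
    have h3 : (n : ℝ) / (((lam : ℤ) * n : ℤ) : ℝ) = 1 / lam := by
      push_cast
      have : (0 : ℝ) < lam := by
        have : 0 < lam := by omega
        exact_mod_cast this
      field_simp
    rw [h3]
    have := min_le_right c0 (1 / 2)
    linarith

/-- **Three arms at the flat medial wall, `p = 1/2`.** -/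
theorem three_half : ∃ C c : ℝ, 1 ≤ C ∧ 0 < c ∧ c ≤ 1 ∧ ∀ k s R : ℤ, 1 ≤ s → s ≤ R →
    (nu hf).real (TT k s R) ≤ C * ((s : ℝ) / R) ^ (1 + c) := by
  obtain ⟨c, l, C, a, h⟩ := mrsw_half
  have hl0 : (2 : ℝ) ≤ l := by exact_mod_cast h.two
  refine ⟨max 1 (K3 c l C), a, le_max_left _ _, h.apos, h.ale, fun k s R hs hsR => ?_⟩
  refine (three_arm h k hs hsR).trans ?_
  refine mul_le_mul_of_nonneg_right (le_max_right _ _) ?_
  have hs0 : (1 : ℝ) ≤ s := by exact_mod_cast hs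
  have hR0 : (s : ℝ) ≤ R := by exact_mod_cast hsR
  have hR1 : (0 : ℝ) < R := by linarith
  positivity


/-! ### symmetries of face paths -/

/-- symmetries of the tile plane: `V` on tiles, `F` on faces -/
structure FSy where
  V : P2 ≃ P2
  F : P2 ≃ P2
  b : Bool
  dg : ∀ {A B : P2}, Dg (F A) (F B) ↔ Dg A B
  tb : ∀ {A B : P2}, Dg A B → tb (F A) (F B) = V (Mr679.tb A B)
  dgt : ∀ {A B : P2}, Dg A B → dgt (F A) (F B) = xor b (Cb771.dgt A B)

namespace FSy

/-- action on tile fields -/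
def act (ρ : FSy) (g : TF) : TF := fun t => xor ρ.b (g (ρ.V t))

theorem fs_iff (ρ : FSy) {g : TF} {Q : P2 → Prop} {A B : P2} :
    FS g Q (ρ.F A) (ρ.F B) ↔ FS (ρ.act g) (fun t => Q (ρ.V t)) A B := by
  unfold FS
  rw [ρ.dg]
  refine and_congr_right fun h => ?_
  rw [ρ.tb h, ρ.dgt h]
  refine and_congr_right fun _ => ?_
  unfold act
  cases ρ.b <;> cases g (ρ.V (Mr679.tb A B)) <;> cases Cb771.dgt A B <;> simp

theorem fp_of (ρ : FSy) {g : TF} {Q : P2 → Prop} {A B : P2}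
    (h : FP (ρ.act g) (fun t => Q (ρ.V t)) A B) : FP g Q (ρ.F A) (ρ.F B) := by
  induction h with
  | refl => exact .refl
  | tail _ h2 ih => exact ih.tail (ρ.fs_iff.2 h2)

theorem measurable_act (ρ : FSy) : Measurable ρ.act := by
  refine measurable_pi_lambda _ fun t => ?_
  exact (Measurable.of_discrete (f := fun b : Bool => xor ρ.b b)).comp (measurable_pi_apply _)

theorem prob (ρ : FSy) {A : Set TF} (hA : MeasurableSet A) :
    (tau hf).real {g | ρ.act g ∈ A} = (tau hf).real A := by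
  rcases hb : ρ.b with _ | _
  · have h0 : ρ.act = fun g t => g (ρ.V t) := by
      funext g t
      simp [act, hb]
    rw [h0]
    exact tau_real_perm hf ρ.V hA
  · have h0 : ρ.act = fun g t => !g (ρ.V t) := by
      funext g t
      simp [act, hb]
    rw [h0]
    have h1 : (tau hf).real {X : TF | (fun t => !X t) ∈ A} = (tau hf).real A := by
      have := Mr679.tau_real_not hf hA
      rwa [sigma_hf] at this
    rw [← h1]
    exact tau_real_perm hf ρ.V (Mr679.measurable_not hA)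

end FSy

theorem dg_cases {A B : P2} (h : Dg A B) : (B.1 = A.1 + 1 ∨ A.1 = B.1 + 1) ∧
    (B.2 = A.2 + 1 ∨ A.2 = B.2 + 1) := h

/-- floor: translation by `c` -/
def fS (c : P2) : FSy where
  V := Equiv.addRight c
  F := Equiv.addRight c
  b := false
  dg := by
    intro A B
    unfold Dg
    simp only [Equiv.coe_addRight, Prod.fst_add, Prod.snd_add]
    omega
  tb := by
    intro A B h
    have h' := dg_cases h
    simp only [Mr679.tb, Equiv.coe_addRight]
    ext <;> simp only [Prod.fst_add, Prod.snd_add] <;> omega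
  dgt := by
    intro A B h
    simp only [Cb771.dgt, Equiv.coe_addRight, Prod.fst_add, Prod.snd_add, Bool.false_xor]
    exact decide_eq_decide.2 ⟨fun h => by omega, fun h => by omega⟩

/-- ceiling -/
def fN (c : P2) : FSy where
  V := ⟨fun t => (c.1 + t.1, c.2 + 1 - t.2), fun t => (t.1 - c.1, c.2 + 1 - t.2),
    fun t => by ext <;> simp, fun t => by ext <;> simp⟩
  F := ⟨fun A => (c.1 + A.1, c.2 - A.2), fun A => (A.1 - c.1, c.2 - A.2),
    fun t => by ext <;> simp, fun t => by ext <;> simp⟩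
  b := true
  dg := by
    intro A B
    unfold Dg
    simp only [Equiv.coe_fn_mk]
    omega
  tb := by
    intro A B h
    have h' := dg_cases h
    simp only [Mr679.tb, Equiv.coe_fn_mk]
    ext <;> simp only <;> omega
  dgt := by
    intro A B h
    have h' := dg_cases h
    simp only [Cb771.dgt, Equiv.coe_fn_mk, Bool.true_xor]
    rw [← decide_not]
    exact decide_eq_decide.2 ⟨fun h => by omega, fun h => by omega⟩

/-- left wall -/
def fW (c : P2) : FSy where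
  V := ⟨fun t => (c.1 + t.2, c.2 + t.1), fun t => (t.2 - c.2, t.1 - c.1),
    fun t => by ext <;> simp, fun t => by ext <;> simp⟩
  F := ⟨fun A => (c.1 + A.2, c.2 + A.1), fun A => (A.2 - c.2, A.1 - c.1),
    fun t => by ext <;> simp, fun t => by ext <;> simp⟩
  b := false
  dg := by
    intro A B
    unfold Dg
    simp only [Equiv.coe_fn_mk]
    omega
  tb := by
    intro A B h
    have h' := dg_cases h
    simp only [Mr679.tb, Equiv.coe_fn_mk]
    ext <;> simp only <;> omega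
  dgt := by
    intro A B h
    simp only [Cb771.dgt, Equiv.coe_fn_mk, Bool.false_xor]
    exact decide_eq_decide.2 ⟨fun h => by omega, fun h => by omega⟩

/-- right wall -/
def fE (c : P2) : FSy where
  V := ⟨fun t => (c.1 + 1 - t.2, c.2 + 1 - t.1), fun t => (c.2 + 1 - t.2, c.1 + 1 - t.1),
    fun t => by ext <;> simp, fun t => by ext <;> simp⟩
  F := ⟨fun A => (c.1 - A.2, c.2 - A.1), fun A => (c.2 - A.2, c.1 - A.1),
    fun t => by ext <;> simp, fun t => by ext <;> simp⟩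
  b := false
  dg := by
    intro A B
    unfold Dg
    simp only [Equiv.coe_fn_mk]
    omega
  tb := by
    intro A B h
    have h' := dg_cases h
    simp only [Mr679.tb, Equiv.coe_fn_mk]
    ext <;> simp only <;> omega
  dgt := by
    intro A B h
    simp only [Cb771.dgt, Equiv.coe_fn_mk, Bool.false_xor]
    exact decide_eq_decide.2 ⟨fun h => by omega, fun h => by omega⟩

/-! ### two crossing clusters in face-path form -/

/-- distance of a face to the wall gap `(0,0)` -/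
def hF (A : P2) : ℤ := max |A.1| A.2

theorem hF_le {A : P2} {m : ℤ} : hF A ≤ m ↔ -m ≤ A.1 ∧ A.1 ≤ m ∧ A.2 ≤ m := by
  unfold hF
  rw [max_le_iff, abs_le]
  omega

theorem lt_hF {A : P2} {m : ℤ} : m < hF A ↔ A.1 < -m ∨ m < A.1 ∨ m < A.2 := by
  rw [← not_le, hF_le]
  omega

theorem le_hF {A : P2} {m : ℤ} : m ≤ hF A ↔ A.1 ≤ -m ∨ m ≤ A.1 ∨ m ≤ A.2 := by
  have : m ≤ hF A ↔ m - 1 < hF A := by omega
  rw [this, lt_hF]
  omega

theorem hF_dg {A B : P2} (h : Dg A B) : hF B ≤ hF A + 1 := by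
  have h' := dg_cases h
  have h1 := hF_le.1 (le_refl (hF A))
  rw [hF_le]
  omega

theorem hF_fP (v : P2) : hF (fP v) = hd 0 v := by
  unfold hF hd fP
  simp

/-- last exit of `{hF ≤ s}` along a face path -/
theorem fp_exit {g : TF} {Q : P2 → Prop} {s : ℤ} {A B : P2} (h : FP g Q A B) (hA : hF A ≤ s)
    (hB : s ≤ hF B) : ∃ x, hF x = s ∧ FP g Q A x ∧
      Relation.ReflTransGen (fun C D => FS g Q C D ∧ s ≤ hF C ∧ s ≤ hF D) x B := by
  induction h with
  | refl => exact ⟨A, le_antisymm hA hB, .refl, .refl⟩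
  | @tail b c h1 h2 ih =>
    by_cases hb : s ≤ hF b
    · obtain ⟨x, h3, h4, h5⟩ := ih hb
      exact ⟨x, h3, h4, h5.tail ⟨h2, hb, hB⟩⟩
    · have h3 := hF_dg h2.1
      exact ⟨c, by omega, h1.tail h2, .refl⟩

/-- first hit of `{hF = R}` -/
theorem rt_hit {r : P2 → P2 → Prop} (hr : ∀ a b, r a b → hF b ≤ hF a + 1) {R : ℤ} {A B : P2}
    (h : Relation.ReflTransGen r A B) (hA : hF A ≤ R) (hB : R ≤ hF B) :
    ∃ x, hF x = R ∧ Relation.ReflTransGen (fun C D => r C D ∧ hF C ≤ R ∧ hF D ≤ R) A x := by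
  have key : (∃ x, hF x = R ∧ Relation.ReflTransGen (fun C D => r C D ∧ hF C ≤ R ∧ hF D ≤ R) A x) ∨
      (hF B < R ∧ Relation.ReflTransGen (fun C D => r C D ∧ hF C ≤ R ∧ hF D ≤ R) A B) := by
    clear hB
    induction h with
    | refl =>
      rcases hA.lt_or_eq with h | h
      · exact Or.inr ⟨h, .refl⟩
      · exact Or.inl ⟨A, h, .refl⟩
    | @tail b c h1 h2 ih =>
      rcases ih with ih | ⟨ih1, ih2⟩
      · exact Or.inl ih
      · have h3 := hr b c h2
        have h4 := ih2.tail (c := c) ⟨h2, ih1.le, by omega⟩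
        rcases (show hF c ≤ R by omega).lt_or_eq with h5 | h5
        · exact Or.inr ⟨h5, h4⟩
        · exact Or.inl ⟨c, h5, h4⟩
  rcases key with h1 | h1
  · exact h1
  · omega

/-- the half annulus of tiles -/
def Ring (s R : ℤ) (t : P2) : Prop := InB (-R) R 0 R t ∧ ¬ InB (-(s - 1)) (s - 1) 0 (s - 1) t

/-- two distinct crossing clusters of even faces -/
def TE (Q : P2 → Prop) (s R : ℤ) : Set TF :=
  {g | ∃ A A' B B' : P2, hF A ≤ s ∧ hF A' ≤ s ∧ R ≤ hF B ∧ R ≤ hF B' ∧ (A.1 + A.2) % 2 = 0 ∧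
    (A'.1 + A'.2) % 2 = 0 ∧ FP g Q A B ∧ FP g Q A' B' ∧ ¬ FP g Q A A'}

/-- from face paths of even parity to primal paths -/
theorem fp_to_oc {g : TF} {Q : P2 → Prop} {s R : ℤ} (hQ : ∀ t, Q t → 1 ≤ t.2) {u : P2} {B : P2}
    (h : Relation.ReflTransGen (fun C D => (FS g Q C D ∧ s ≤ hF C ∧ s ≤ hF D) ∧ hF C ≤ R ∧
      hF D ≤ R) (fP u) B) (hu : u ∈ HM 0 s R) :
    ∃ v, fP v = B ∧ OC (zX (xg g)) (HM 0 s R) u v := by
  induction h with
  | refl => exact ⟨u, rfl, OC.refl hu⟩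
  | @tail b c _ h2 ih =>
    obtain ⟨w, rfl, hw⟩ := ih
    obtain ⟨⟨h3, h4, h5⟩, h6, h7⟩ := h2
    have hpar : ((fP w).1 + (fP w).2) % 2 = 0 := by simp only [fP, mX, mY]; omega
    obtain ⟨w', rfl⟩ := exists_fP (F := c) (by rw [← h3.1.par]; exact hpar)
    have h8 := (fs_even hpar).1 h3
    have h9 := ts_fP_iff.1 h8
    have hy := hQ _ h3.2.1
    have hd' := dg_cases h3.1
    refine ⟨w', rfl, hw.trans ⟨hw.right, Relation.ReflTransGen.single ⟨?_, hw.right, ?_⟩⟩⟩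
    · exact pstep_mono (fun e he => he.2) h9
    · rw [Finset.mem_coe, mem_HM, ← hF_fP]
      refine ⟨?_, h5, h7⟩
      simp only [Mr679.tb, fP] at hy hd'
      omega

/-- from primal paths to face paths -/
theorem oc_to_fp {g : TF} {Q : P2 → Prop} {s R : ℤ} (hQ : ∀ t, Ring s R t → Q t) {u v : P2}
    (h : OC (zX (xg g)) (HM 0 s R) u v) : FP g Q (fP u) (fP v) := by
  obtain ⟨_, h⟩ := h
  induction h with
  | refl => exact .refl
  | @tail a b _ h2 ih =>
    refine ih.tail ?_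
    obtain ⟨⟨e, he, h3⟩, ha, hb⟩ := h2
    have hpar : ((fP a).1 + (fP a).2) % 2 = 0 := by simp only [fP, mX, mY]; omega
    rw [fs_even hpar]
    have h4 : TS (fun t => xg g t = true) (fP a) (fP b) := ts_fP_iff.2 ⟨e, he, h3⟩
    refine ⟨h4.1, hQ _ ?_, h4.2⟩
    have ha' := mem_HM.1 ha
    have hb' := mem_HM.1 hb
    have h5 := hd_le.1 ha'.2.2
    have h6 := hd_le.1 hb'.2.2
    have h7 := (le_hd' (k := 0)).1 ha'.2.1
    have hd' := dg_cases h4.1
    simp only [fP] at hd'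
    refine ⟨?_, ?_⟩
    · simp only [InB, Mr679.tb, fP]
      omega
    · simp only [InB, Mr679.tb, fP]
      omega

theorem TE_sub {Q : P2 → Prop} {s R : ℤ} (_ : s ≤ R) (h1 : ∀ t, Q t → 1 ≤ t.2)
    (h2 : ∀ t, Ring s R t → Q t) (hs : s < R) :
    TE Q s R ⊆ {g | xg g ∈ zX ⁻¹' TT 0 s R} := by
  rintro g ⟨A, A', B, B', hA, hA', hB, hB', hpA, hpA', hAB, hAB', hn⟩
  have key : ∀ A B : P2, hF A ≤ s → R ≤ hF B → (A.1 + A.2) % 2 = 0 → FP g Q A B →
      ∃ x v : P2, hd 0 x = s ∧ hd 0 v = R ∧ FP g Q A (fP x) ∧ OC (zX (xg g)) (HM 0 s R) x v := by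
    intro A B hA hB hp hAB
    obtain ⟨x, hx, h3, h4⟩ := fp_exit hAB hA (by omega)
    obtain ⟨v, hv, h5⟩ := rt_hit (fun a b h => hF_dg h.1.1) h4 (by omega) hB
    have hpx : (x.1 + x.2) % 2 = 0 := by
      have : (A.1 + A.2) % 2 = (x.1 + x.2) % 2 := by
        clear h4 h5 hx
        induction h3 with
        | refl => rfl
        | tail _ h7 ih => rw [ih]; exact h7.1.par
      omega
    obtain ⟨x', rfl⟩ := exists_fP hpx
    have hx0 : x' ∈ HM 0 s R := by
      rw [mem_HM, ← hF_fP]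
      refine ⟨?_, hx.ge, by omega⟩
      -- the path makes at least one step
      rcases Relation.ReflTransGen.cases_head h5 with h6 | ⟨c, h6, _⟩
      · rw [← h6] at hv
        omega
      · have hy := h1 _ h6.1.1.2.1
        have hd' := dg_cases h6.1.1.1
        simp only [Mr679.tb, fP] at hy hd'
        omega
    obtain ⟨v', rfl, h7⟩ := fp_to_oc h1 h5 hx0
    rw [hF_fP] at hx hv
    exact ⟨x', v', hx, hv, h3, h7⟩
  obtain ⟨x, v, hx, hv, h3, h4⟩ := key A B hA hB hpA hAB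
  obtain ⟨x', v', hx', hv', h3', h4'⟩ := key A' B' hA' hB' hpA' hAB'
  refine ⟨x, hx, v, hv, x', hx', v', hv', h4, h4', fun h5 => hn ?_⟩
  exact (h3.trans (oc_to_fp h2 h5)).trans h3'.symm

theorem te_le {C c : ℝ} (h : ∀ k s R : ℤ, 1 ≤ s → s ≤ R →
    (nu hf).real (TT k s R) ≤ C * ((s : ℝ) / R) ^ (1 + c)) {Q : P2 → Prop} {s R : ℤ}
    (hs : 1 ≤ s) (hsR : s < R) (h1 : ∀ t, Q t → 1 ≤ t.2) (h2 : ∀ t, Ring s R t → Q t) :
    (tau hf).real (TE Q s R) ≤ C * ((s : ℝ) / R) ^ (1 + c) := by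
  refine (measureReal_mono (TE_sub hsR.le h1 h2 hsR)).trans ?_
  rw [tau_real_xg (measurable_zX (TT_dep 0 s R).measurableSet),
    tau_zX hf (TT_dep 0 s R).measurableSet]
  exact h 0 s R hs hsR.le

/-- two distinct crossing clusters of faces of the same parity, seen through `ρ` -/
def TFP (ρ : FSy) (Q : P2 → Prop) (s R : ℤ) : Set TF :=
  {g | ∃ A A' B B' : P2, hF A ≤ s ∧ hF A' ≤ s ∧ R ≤ hF B ∧ R ≤ hF B' ∧
    (A.1 + A.2) % 2 = (A'.1 + A'.2) % 2 ∧ FP g Q (ρ.F A) (ρ.F B) ∧ FP g Q (ρ.F A') (ρ.F B') ∧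
    ¬ FP g Q (ρ.F A) (ρ.F A')}

theorem fp_back (ρ : FSy) {g : TF} {Q : P2 → Prop} {A B : P2} (h : FP g Q (ρ.F A) (ρ.F B)) :
    FP (ρ.act g) (fun t => Q (ρ.V t)) A B := by
  have key : ∀ D, FP g Q (ρ.F A) D → FP (ρ.act g) (fun t => Q (ρ.V t)) A (ρ.F.symm D) := by
    intro D hD
    induction hD with
    | refl =>
      rw [Equiv.symm_apply_apply]
      exact .refl
    | @tail b c _ h2 ih =>
      refine ih.tail (ρ.fs_iff.1 ?_)
      rw [Equiv.apply_symm_apply, Equiv.apply_symm_apply]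
      exact h2
  have h1 := key _ h
  rwa [Equiv.symm_apply_apply] at h1

theorem fp_iff (ρ : FSy) {g : TF} {Q : P2 → Prop} {A B : P2} :
    FP g Q (ρ.F A) (ρ.F B) ↔ FP (ρ.act g) (fun t => Q (ρ.V t)) A B :=
  ⟨fp_back ρ, ρ.fp_of⟩


theorem meas_TE (Q : P2 → Prop) (s R : ℤ) : MeasurableSet (TE Q s R) := by
  have h : TE Q s R = ⋃ (A : P2) (A' : P2) (B : P2) (B' : P2),
      ({_g | hF A ≤ s ∧ hF A' ≤ s ∧ R ≤ hF B ∧ R ≤ hF B' ∧ (A.1 + A.2) % 2 = 0 ∧
        (A'.1 + A'.2) % 2 = 0} ∩ ({g | FP g Q A B} ∩ ({g | FP g Q A' B'} ∩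
        {g | FP g Q A A'}ᶜ))) := by
    ext g
    simp only [TE, Set.mem_ofPred_eq, Set.mem_iUnion, Set.mem_inter_iff, Set.mem_compl_iff,
      and_assoc]
  rw [h]
  refine MeasurableSet.iUnion fun A => MeasurableSet.iUnion fun A' => MeasurableSet.iUnion fun B =>
    MeasurableSet.iUnion fun B' => (MeasurableSet.const _).inter ?_
  exact (Cb771.meas_fp Q A B).inter ((Cb771.meas_fp Q A' B').inter (Cb771.meas_fp Q A A').compl)

/-- splitting by parity -/
theorem tfp_sub (ρ : FSy) (Q : P2 → Prop) (s R : ℤ) : TFP ρ Q s R ⊆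
    {g | ρ.act g ∈ TE (fun t => Q (ρ.V t)) s R} ∪
    {g | (fS (1, 0)).act (ρ.act g) ∈ TE (fun t => Q (ρ.V ((fS (1, 0)).V t))) (s + 1) (R - 1)} := by
  rintro g ⟨A, A', B, B', hA, hA', hB, hB', hp, h1, h2, h3⟩
  rw [fp_iff] at h1 h2 h3
  by_cases hpar : (A.1 + A.2) % 2 = 0
  · left
    exact ⟨A, A', B, B', hA, hA', hB, hB', hpar, by omega, h1, h2, h3⟩
  · right
    have e : ∀ D : P2, (fS (1, 0)).F (D - (1, 0)) = D := fun D => by
      show D - (1, 0) + (1, 0) = D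
      simp
    have key : ∀ D D' : P2, FP (ρ.act g) (fun t => Q (ρ.V t)) D D' ↔
        FP ((fS (1, 0)).act (ρ.act g)) (fun t => Q (ρ.V ((fS (1, 0)).V t))) (D - (1, 0))
          (D' - (1, 0)) := by
      intro D D'
      rw [← fp_iff (fS (1, 0)) (g := ρ.act g) (Q := fun t => Q (ρ.V t)), e, e]
    rw [key] at h1 h2 h3
    rw [hF_le] at hA hA'
    rw [le_hF] at hB hB'
    refine ⟨A - (1, 0), A' - (1, 0), B - (1, 0), B' - (1, 0), ?_, ?_, ?_, ?_, ?_, ?_, h1, h2, h3⟩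
    · rw [hF_le]
      simp only [Prod.fst_sub, Prod.snd_sub]
      omega
    · rw [hF_le]
      simp only [Prod.fst_sub, Prod.snd_sub]
      omega
    · rw [le_hF]
      simp only [Prod.fst_sub, Prod.snd_sub]
      omega
    · rw [le_hF]
      simp only [Prod.fst_sub, Prod.snd_sub]
      omega
    · simp only [Prod.fst_sub, Prod.snd_sub]
      omega
    · simp only [Prod.fst_sub, Prod.snd_sub]
      omega

/-- **(F3) in face-path form**, any wall: `Q` behind the wall, contains the half annulus. -/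
theorem f3 : ∃ C c : ℝ, 1 ≤ C ∧ 0 < c ∧ c ≤ 1 ∧ ∀ (ρ : FSy) (Q : P2 → Prop) (s R : ℤ), 1 ≤ s →
    s ≤ R → (∀ t, Q (ρ.V t) → 1 ≤ t.2) → (∀ t, Ring s R t → Q (ρ.V t)) →
    (tau hf).real (TFP ρ Q s R) ≤ C * ((s : ℝ) / R) ^ (1 + c) := by
  obtain ⟨C, c, hC, hc, hc1, h⟩ := three_half
  refine ⟨81 * C, c, by linarith, hc, hc1, fun ρ Q s R hs hsR h1 h2 => ?_⟩
  have hs0 : (1 : ℝ) ≤ s := by exact_mod_cast hs
  have hR0 : (s : ℝ) ≤ R := by exact_mod_cast hsR
  have hsp : (0 : ℝ) < s := by linarith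
  have hRp : (0 : ℝ) < R := by linarith
  have hq : (0 : ℝ) < (s : ℝ) / R := by positivity
  by_cases h3 : s + 3 ≤ R
  · have e1 := te_le h (Q := fun t => Q (ρ.V t)) hs (by omega : s < R) h1 h2
    have e2 := te_le h (Q := fun t => Q (ρ.V ((fS (1, 0)).V t))) (by omega : 1 ≤ s + 1)
      (by omega : s + 1 < R - 1) (fun t ht => by
        have := h1 _ ht
        change 1 ≤ (t + (1, 0)).2 at this
        simpa using this) (fun t ht => h2 _ (by
        obtain ⟨h4, h5⟩ := ht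
        change Ring s R (t + (1, 0))
        simp only [InB] at h4 h5
        refine ⟨?_, ?_⟩
        · simp only [InB, Prod.fst_add, Prod.snd_add]
          omega
        · simp only [InB, Prod.fst_add, Prod.snd_add]
          omega))
    have e3 : (tau hf).real {g | ρ.act g ∈ TE (fun t => Q (ρ.V t)) s R} ≤
        C * ((s : ℝ) / R) ^ (1 + c) := by
      rw [ρ.prob (meas_TE _ _ _)]
      exact e1
    have e4 : (tau hf).real {g | (fS (1, 0)).act (ρ.act g) ∈
        TE (fun t => Q (ρ.V ((fS (1, 0)).V t))) (s + 1) (R - 1)} ≤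
        C * (((s + 1 : ℤ) : ℝ) / ((R - 1 : ℤ) : ℝ)) ^ (1 + c) := by
      have e5 : (tau hf).real {g | (fS (1, 0)).act (ρ.act g) ∈
          TE (fun t => Q (ρ.V ((fS (1, 0)).V t))) (s + 1) (R - 1)} =
          (tau hf).real {g | (fS (1, 0)).act g ∈
            TE (fun t => Q (ρ.V ((fS (1, 0)).V t))) (s + 1) (R - 1)} :=
        ρ.prob ((fS (1, 0)).measurable_act (meas_TE _ _ _))
      rw [e5, (fS (1, 0)).prob (meas_TE _ _ _)]
      exact e2
    have e5 : ((s + 1 : ℤ) : ℝ) / ((R - 1 : ℤ) : ℝ) ≤ 4 * ((s : ℝ) / R) := by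
      have h6 : (4 : ℝ) ≤ R := by
        have : (4 : ℤ) ≤ R := by omega
        exact_mod_cast this
      push_cast
      rw [← mul_div_assoc, div_le_div_iff₀ (by linarith) hRp]
      nlinarith
    have e6 : (((s + 1 : ℤ) : ℝ) / ((R - 1 : ℤ) : ℝ)) ^ (1 + c) ≤ 16 * ((s : ℝ) / R) ^ (1 + c) := by
      have h7 : (0 : ℝ) ≤ ((s + 1 : ℤ) : ℝ) / ((R - 1 : ℤ) : ℝ) := by
        push_cast
        have : (1 : ℝ) ≤ R := by linarith
        exact div_nonneg (by linarith) (by linarith)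
      calc (((s + 1 : ℤ) : ℝ) / ((R - 1 : ℤ) : ℝ)) ^ (1 + c) ≤ (4 * ((s : ℝ) / R)) ^ (1 + c) :=
            Real.rpow_le_rpow h7 e5 (by linarith)
        _ = 4 ^ (1 + c) * ((s : ℝ) / R) ^ (1 + c) := Real.mul_rpow (by norm_num) hq.le
        _ ≤ 16 * ((s : ℝ) / R) ^ (1 + c) := by
            refine mul_le_mul_of_nonneg_right ?_ (by positivity)
            calc (4 : ℝ) ^ (1 + c) ≤ 4 ^ (2 : ℝ) :=
                  Real.rpow_le_rpow_of_exponent_le (by norm_num) (by linarith)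
              _ = 16 := by rw [Real.rpow_two]; norm_num
    have e7 := (measureReal_mono (tfp_sub ρ Q s R)).trans (measureReal_union_le (μ := tau hf) _ _)
    have e8 : (0 : ℝ) ≤ ((s : ℝ) / R) ^ (1 + c) := by positivity
    have e9 : C * (((s + 1 : ℤ) : ℝ) / ((R - 1 : ℤ) : ℝ)) ^ (1 + c) ≤
        C * (16 * ((s : ℝ) / R) ^ (1 + c)) := mul_le_mul_of_nonneg_left e6 (by linarith)
    nlinarith [mul_nonneg (by linarith : (0 : ℝ) ≤ C) e8]
  · refine measureReal_le_one.trans ?_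
    have h4 : (R : ℝ) ≤ 3 * s := by exact_mod_cast (show R ≤ 3 * s by omega)
    have h6 : (1 : ℝ) / 3 ≤ (s : ℝ) / R := by
      rw [div_le_div_iff₀ (by norm_num) hRp]
      linarith
    have h7 : (s : ℝ) / R ≤ 1 := by
      rw [div_le_one hRp]
      exact hR0
    have h8 : ((1 : ℝ) / 3) ^ (2 : ℝ) ≤ ((s : ℝ) / R) ^ (1 + c) := by
      calc ((1 : ℝ) / 3) ^ (2 : ℝ) ≤ ((s : ℝ) / R) ^ (2 : ℝ) :=
            Real.rpow_le_rpow (by norm_num) h6 (by norm_num)
        _ ≤ ((s : ℝ) / R) ^ (1 + c) :=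
            Real.rpow_le_rpow_of_exponent_ge hq h7 (by linarith)
    have h9 : ((1 : ℝ) / 3) ^ (2 : ℝ) = 1 / 9 := by
      rw [Real.rpow_two]
      norm_num
    rw [h9] at h8
    nlinarith

end Crest.Agent.R158.Fw814
end
end

-- ▼ part R158/Fw5_814
section

/-!
# Row 158, Block FW (helper814): (F3) in literal form for the four wall directions

Wall gap face `(X, Y)`; `dS`, `dN`, `dW`, `dE` : distance of a face to the gap, wall below / above /
left / right; `sS`, `sN`, `sW`, `sE` : tiles of the half annulus `(r, n)`.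
`f3S`, `f3N`, `f3W`, `f3E` : `P(two distinct crossing clusters of the same parity) ≤ C (s/R)^(1+c)`
for every tile set behind the wall which contains the half annulus `(s-1, R)`;
`f3S'`, … : the tile set is the half annulus `(r, n)`, end points with slack `k`.
-/

set_option autoImplicit false

noncomputable section

namespace Crest.Agent.R158.Fw814

open MeasureTheory ProbabilityTheory unitInterval
open Crest.Agent.R161.Geo729 Crest.Agent.R161.Topo374 Crest.Agent.R161.Dual374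
open Crest.Agent.R158.Rs689
open Crest.Agent.R158.Mr679 (TF Dg tb TS TP InB tau)
open Crest.Agent.R158.Cb771 (FS FP)

/-- distance to the gap, floor -/
def dS (X Y : ℤ) (a : P2) : ℤ := max |a.1 - X| (a.2 - Y)
/-- distance to the gap, ceiling -/
def dN (X Y : ℤ) (a : P2) : ℤ := max |a.1 - X| (Y - a.2)
/-- distance to the gap, left wall -/
def dW (X Y : ℤ) (a : P2) : ℤ := max |a.2 - Y| (a.1 - X)
/-- distance to the gap, right wall -/
def dE (X Y : ℤ) (a : P2) : ℤ := max |Y - a.2| (X - a.1)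

/-- half annulus, floor: tiles of the rows `> Y` -/
def sS (X Y r n : ℤ) (t : P2) : Prop :=
  (X - n < t.1 ∧ t.1 ≤ X + n ∧ Y < t.2 ∧ t.2 ≤ Y + n) ∧
    ¬ (X - r < t.1 ∧ t.1 ≤ X + r ∧ Y < t.2 ∧ t.2 ≤ Y + r)

/-- half annulus, ceiling: tiles of the rows `≤ Y` -/
def sN (X Y r n : ℤ) (t : P2) : Prop :=
  (X - n < t.1 ∧ t.1 ≤ X + n ∧ Y - n < t.2 ∧ t.2 ≤ Y) ∧
    ¬ (X - r < t.1 ∧ t.1 ≤ X + r ∧ Y - r < t.2 ∧ t.2 ≤ Y)

/-- half annulus, left wall: tiles of the columns `> X` -/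
def sW (X Y r n : ℤ) (t : P2) : Prop :=
  (X < t.1 ∧ t.1 ≤ X + n ∧ Y - n < t.2 ∧ t.2 ≤ Y + n) ∧
    ¬ (X < t.1 ∧ t.1 ≤ X + r ∧ Y - r < t.2 ∧ t.2 ≤ Y + r)

/-- half annulus, right wall: tiles of the columns `≤ X` -/
def sE (X Y r n : ℤ) (t : P2) : Prop :=
  (X - n < t.1 ∧ t.1 ≤ X ∧ Y - n < t.2 ∧ t.2 ≤ Y + n) ∧
    ¬ (X - r < t.1 ∧ t.1 ≤ X ∧ Y - r < t.2 ∧ t.2 ≤ Y + r)

/-- two distinct clusters of faces of the same parity of the tile set `Q` from `{d ≤ s}` to
`{R ≤ d}` -/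
def T3 (d : P2 → ℤ) (Q : P2 → Prop) (s R : ℤ) : Set TF :=
  {g | ∃ a a' b b' : P2, d a ≤ s ∧ d a' ≤ s ∧ R ≤ d b ∧ R ≤ d b' ∧
    (a.1 + a.2) % 2 = (a'.1 + a'.2) % 2 ∧ FP g Q a b ∧ FP g Q a' b' ∧ ¬ FP g Q a a'}

theorem T3_sub {ρ : FSy} {d : P2 → ℤ} (hd : ∀ a, d a = hF (ρ.F.symm a))
    (hp : ∀ a b : P2, (a.1 + a.2) % 2 = (b.1 + b.2) % 2 →
      ((ρ.F.symm a).1 + (ρ.F.symm a).2) % 2 = ((ρ.F.symm b).1 + (ρ.F.symm b).2) % 2)
    {Q : P2 → Prop} {s R : ℤ} : T3 d Q s R ⊆ TFP ρ Q s R := by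
  rintro g ⟨a, a', b, b', h1, h2, h3, h4, h5, h6, h7, h8⟩
  rw [hd] at h1 h2 h3 h4
  refine ⟨ρ.F.symm a, ρ.F.symm a', ρ.F.symm b, ρ.F.symm b', h1, h2, h3, h4, hp _ _ h5, ?_⟩
  simp only [Equiv.apply_symm_apply]
  exact ⟨h6, h7, h8⟩

/-- **(F3)**, all four wall directions. -/
theorem f3_all : ∃ C c : ℝ, 1 ≤ C ∧ 0 < c ∧ c ≤ 1 ∧ ∀ (X Y : ℤ) (Q : P2 → Prop) (s R : ℤ), 1 ≤ s →
    s ≤ R →
    ((∀ t, Q t → Y < t.2) → (∀ t, sS X Y (s - 1) R t → Q t) →
      (tau hf).real (T3 (dS X Y) Q s R) ≤ C * ((s : ℝ) / R) ^ (1 + c)) ∧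
    ((∀ t, Q t → t.2 ≤ Y) → (∀ t, sN X Y (s - 1) R t → Q t) →
      (tau hf).real (T3 (dN X Y) Q s R) ≤ C * ((s : ℝ) / R) ^ (1 + c)) ∧
    ((∀ t, Q t → X < t.1) → (∀ t, sW X Y (s - 1) R t → Q t) →
      (tau hf).real (T3 (dW X Y) Q s R) ≤ C * ((s : ℝ) / R) ^ (1 + c)) ∧
    ((∀ t, Q t → t.1 ≤ X) → (∀ t, sE X Y (s - 1) R t → Q t) →
      (tau hf).real (T3 (dE X Y) Q s R) ≤ C * ((s : ℝ) / R) ^ (1 + c)) := by
  obtain ⟨C, c, hC, hc, hc1, h⟩ := f3
  refine ⟨C, c, hC, hc, hc1, fun X Y Q s R hs hsR => ⟨fun h1 h2 => ?_, fun h1 h2 => ?_,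
    fun h1 h2 => ?_, fun h1 h2 => ?_⟩⟩
  · refine (measureReal_mono (T3_sub (ρ := fS (X, Y)) ?_ ?_)).trans
      (h (fS (X, Y)) Q s R hs hsR (fun t ht => ?_) fun t ht => h2 _ ?_)
    · intro a
      simp only [dS, hF, fS, Equiv.addRight_symm, Equiv.coe_addRight, Prod.fst_add, Prod.snd_add,
        Prod.neg_mk, sub_eq_add_neg]
    · intro a b hab
      simp only [fS, Equiv.addRight_symm, Equiv.coe_addRight, Prod.fst_add, Prod.snd_add,
        Prod.neg_mk]
      omega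
    · have := h1 _ ht
      simp only [fS, Equiv.coe_addRight, Prod.snd_add] at this
      omega
    · simp only [Ring, InB] at ht
      simp only [sS, fS, Equiv.coe_addRight, Prod.fst_add, Prod.snd_add]
      omega
  · refine (measureReal_mono (T3_sub (ρ := fN (X, Y)) ?_ ?_)).trans
      (h (fN (X, Y)) Q s R hs hsR (fun t ht => ?_) fun t ht => h2 _ ?_)
    · intro a
      simp only [dN, hF, fN, Equiv.coe_fn_symm_mk]
    · intro a b hab
      simp only [fN, Equiv.coe_fn_symm_mk]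
      omega
    · have := h1 _ ht
      simp only [fN, Equiv.coe_fn_mk] at this
      omega
    · simp only [Ring, InB] at ht
      simp only [sN, fN, Equiv.coe_fn_mk]
      omega
  · refine (measureReal_mono (T3_sub (ρ := fW (X, Y)) ?_ ?_)).trans
      (h (fW (X, Y)) Q s R hs hsR (fun t ht => ?_) fun t ht => h2 _ ?_)
    · intro a
      simp only [dW, hF, fW, Equiv.coe_fn_symm_mk]
    · intro a b hab
      simp only [fW, Equiv.coe_fn_symm_mk]
      omega
    · have := h1 _ ht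
      simp only [fW, Equiv.coe_fn_mk] at this
      omega
    · simp only [Ring, InB] at ht
      simp only [sW, fW, Equiv.coe_fn_mk]
      omega
  · refine (measureReal_mono (T3_sub (ρ := fE (X, Y)) ?_ ?_)).trans
      (h (fE (X, Y)) Q s R hs hsR (fun t ht => ?_) fun t ht => h2 _ ?_)
    · intro a
      simp only [dE, hF, fE, Equiv.coe_fn_symm_mk]
    · intro a b hab
      simp only [fE, Equiv.coe_fn_symm_mk]
      omega
    · have := h1 _ ht
      simp only [fE, Equiv.coe_fn_mk] at this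
      omega
    · simp only [Ring, InB] at ht
      simp only [sE, fE, Equiv.coe_fn_mk]
      omega

/-- changing the radii by a constant -/
theorem slack {C c : ℝ} (hC : 1 ≤ C) (hc : 0 < c) (hc1 : c ≤ 1) {k r n : ℤ} (hk : 0 ≤ k)
    (hr : 1 ≤ r) (hrn : r ≤ n) {P : ℝ} (hP : P ≤ 1)
    (h : r + k ≤ n - k → P ≤ C * (((r + k : ℤ) : ℝ) / ((n - k : ℤ) : ℝ)) ^ (1 + c)) :
    P ≤ C * (2 * k + 2) ^ 4 * ((r : ℝ) / n) ^ (1 + c) := by
  have hr0 : (1 : ℝ) ≤ r := by exact_mod_cast hr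
  have hn0 : (r : ℝ) ≤ n := by exact_mod_cast hrn
  have hk0 : (0 : ℝ) ≤ k := by exact_mod_cast hk
  have hnp : (0 : ℝ) < n := by linarith
  have hq : (0 : ℝ) < (r : ℝ) / n := by positivity
  have hq1 : (r : ℝ) / n ≤ 1 := by
    rw [div_le_one hnp]
    exact hn0
  set t := ((r : ℝ) / n) ^ (1 + c) with ht
  have ht0 : 0 < t := by positivity
  have hM : (1 : ℝ) ≤ 2 * k + 2 := by linarith
  by_cases h1 : 2 * (r + 2 * k) ≤ 2 * n
  · have h2 := h (by omega)
    by_cases h3 : 2 * k + 2 ≤ n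
    · -- `(r+k)/(n-k) ≤ (2k+2)² r/n`
      have h4 : ((r + k : ℤ) : ℝ) / ((n - k : ℤ) : ℝ) ≤ (2 * k + 2) ^ 2 * ((r : ℝ) / n) := by
        have h5 : (2 : ℝ) * k + 2 ≤ n := by exact_mod_cast h3
        have h6 : (0 : ℝ) < (n : ℝ) - k := by linarith
        push_cast
        rw [← mul_div_assoc, div_le_div_iff₀ h6 hnp]
        have h7 : (r : ℝ) + k ≤ (k + 1) * r := by nlinarith
        have h8 : (n : ℝ) ≤ 2 * (n - k) := by linarith
        calc ((r : ℝ) + k) * n ≤ ((k + 1) * r) * (2 * (n - k)) := by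
              refine mul_le_mul h7 h8 hnp.le (by positivity)
          _ = (2 * k + 2) * r * (n - k) := by ring
          _ ≤ (2 * k + 2) ^ 2 * r * (n - k) := by
              refine mul_le_mul_of_nonneg_right ?_ h6.le
              refine mul_le_mul_of_nonneg_right ?_ (by linarith)
              nlinarith
      have h5 : (0 : ℝ) ≤ ((r + k : ℤ) : ℝ) / ((n - k : ℤ) : ℝ) := by
        have h6 : (0 : ℤ) ≤ r + k := by omega
        have h7 : (0 : ℤ) ≤ n - k := by omega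
        exact div_nonneg (by exact_mod_cast h6) (by exact_mod_cast h7)
      have h6 : (((r + k : ℤ) : ℝ) / ((n - k : ℤ) : ℝ)) ^ (1 + c) ≤ (2 * k + 2) ^ 4 * t := by
        calc (((r + k : ℤ) : ℝ) / ((n - k : ℤ) : ℝ)) ^ (1 + c)
            ≤ ((2 * k + 2) ^ 2 * ((r : ℝ) / n)) ^ (1 + c) := Real.rpow_le_rpow h5 h4 (by linarith)
          _ = (((2 : ℝ) * k + 2) ^ 2) ^ (1 + c) * t := by
              rw [Real.mul_rpow (by positivity) hq.le]
          _ ≤ (2 * k + 2) ^ 4 * t := by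
              refine mul_le_mul_of_nonneg_right ?_ ht0.le
              calc (((2 : ℝ) * k + 2) ^ 2) ^ (1 + c) ≤ (((2 : ℝ) * k + 2) ^ 2) ^ (2 : ℝ) :=
                    Real.rpow_le_rpow_of_exponent_le (by nlinarith) (by linarith)
                _ = (2 * k + 2) ^ 4 := by
                    rw [Real.rpow_two]
                    ring
      calc P ≤ C * (((r + k : ℤ) : ℝ) / ((n - k : ℤ) : ℝ)) ^ (1 + c) := h2
        _ ≤ C * ((2 * k + 2) ^ 4 * t) := mul_le_mul_of_nonneg_left h6 (by linarith)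
        _ = _ := by ring
    · -- `n < 2k+2`
      have h5 : (n : ℝ) ≤ 2 * k + 2 := by exact_mod_cast (show n ≤ 2 * k + 2 by omega)
      have h6 : 1 / (2 * (k : ℝ) + 2) ≤ (r : ℝ) / n := by
        rw [div_le_div_iff₀ (by linarith) hnp]
        nlinarith
      have h7 : (1 / (2 * (k : ℝ) + 2)) ^ 2 ≤ t := by
        calc (1 / (2 * (k : ℝ) + 2)) ^ 2 ≤ ((r : ℝ) / n) ^ 2 :=
              pow_le_pow_left₀ (by positivity) h6 2
          _ = ((r : ℝ) / n) ^ (2 : ℝ) := (Real.rpow_two _).symm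
          _ ≤ t := Real.rpow_le_rpow_of_exponent_ge hq hq1 (by linarith)
      have h8 : (1 : ℝ) = (2 * k + 2) ^ 2 * (1 / (2 * (k : ℝ) + 2)) ^ 2 := by
        field_simp
      calc P ≤ 1 := hP
        _ = (2 * k + 2) ^ 2 * (1 / (2 * (k : ℝ) + 2)) ^ 2 := h8
        _ ≤ (C * (2 * k + 2) ^ 4) * t := by
            refine mul_le_mul ?_ h7 (by positivity) (by positivity)
            have h9 : ((2 : ℝ) * k + 2) ^ 2 ≤ (2 * k + 2) ^ 4 :=
              pow_le_pow_right₀ hM (by norm_num)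
            have h10 : (0 : ℝ) ≤ (2 * k + 2) ^ 4 := by positivity
            nlinarith
  · have h5 : (n : ℝ) ≤ r + 2 * k := by exact_mod_cast (show n ≤ r + 2 * k by omega)
    have h6 : 1 / (2 * (k : ℝ) + 2) ≤ (r : ℝ) / n := by
      rw [div_le_div_iff₀ (by linarith) hnp]
      nlinarith
    have h7 : (1 / (2 * (k : ℝ) + 2)) ^ 2 ≤ t := by
      calc (1 / (2 * (k : ℝ) + 2)) ^ 2 ≤ ((r : ℝ) / n) ^ 2 :=
            pow_le_pow_left₀ (by positivity) h6 2
        _ = ((r : ℝ) / n) ^ (2 : ℝ) := (Real.rpow_two _).symm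
        _ ≤ t := Real.rpow_le_rpow_of_exponent_ge hq hq1 (by linarith)
    have h8 : (1 : ℝ) = (2 * k + 2) ^ 2 * (1 / (2 * (k : ℝ) + 2)) ^ 2 := by
      field_simp
    calc P ≤ 1 := hP
      _ = (2 * k + 2) ^ 2 * (1 / (2 * (k : ℝ) + 2)) ^ 2 := h8
      _ ≤ (C * (2 * k + 2) ^ 4) * t := by
          refine mul_le_mul ?_ h7 (by positivity) (by positivity)
          have h9 : ((2 : ℝ) * k + 2) ^ 2 ≤ (2 * k + 2) ^ 4 :=
            pow_le_pow_right₀ hM (by norm_num)
          have h10 : (0 : ℝ) ≤ (2 * k + 2) ^ 4 := by positivity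
          nlinarith

/-- **(F3) with slack**: the tile set is the half annulus `(r, n)` at a flat wall, end points within
`k` of the inner / outer radius. -/
theorem f3_slack : ∃ c : ℝ, 0 < c ∧ c ≤ 1 ∧ ∀ k : ℕ, ∃ C : ℝ, 1 ≤ C ∧ ∀ X Y r n : ℤ, 1 ≤ r →
    r ≤ n →
    (tau hf).real (T3 (dS X Y) (sS X Y r n) (r + k) (n - k)) ≤ C * ((r : ℝ) / n) ^ (1 + c) ∧
    (tau hf).real (T3 (dN X Y) (sN X Y r n) (r + k) (n - k)) ≤ C * ((r : ℝ) / n) ^ (1 + c) ∧
    (tau hf).real (T3 (dW X Y) (sW X Y r n) (r + k) (n - k)) ≤ C * ((r : ℝ) / n) ^ (1 + c) ∧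
    (tau hf).real (T3 (dE X Y) (sE X Y r n) (r + k) (n - k)) ≤ C * ((r : ℝ) / n) ^ (1 + c) := by
  obtain ⟨C, c, hC, hc, hc1, h⟩ := f3_all
  refine ⟨c, hc, hc1, fun k => ⟨C * (2 * ((k + 1 : ℕ) : ℤ) + 2) ^ 4, ?_,
    fun X Y r n hr hrn => ?_⟩⟩
  · have h1 : (1 : ℝ) ≤ (2 * (((k + 1 : ℕ) : ℤ) : ℝ) + 2) ^ 4 := by
      refine one_le_pow₀ ?_
      push_cast
      have : (0 : ℝ) ≤ k := Nat.cast_nonneg k
      linarith
    nlinarith
  · have hmono : ∀ (d : P2 → ℤ) (Q : P2 → Prop), T3 d Q (r + k) (n - k) ⊆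
        T3 d Q (r + ((k + 1 : ℕ) : ℤ)) (n - ((k + 1 : ℕ) : ℤ)) := by
      rintro d Q g ⟨a, a', b, b', h1, h2, h3, h4, h5⟩
      refine ⟨a, a', b, b', ?_, ?_, ?_, ?_, h5⟩ <;> push_cast <;> omega
    refine ⟨?_, ?_, ?_, ?_⟩
    · refine slack hC hc hc1 (by positivity) hr hrn measureReal_le_one fun h1 => ?_
      refine (measureReal_mono (hmono _ _)).trans
        ((h X Y _ _ _ (by push_cast; omega) h1).1 (fun t ht => ht.1.2.2.1) fun t ht => ?_)
      simp only [sS] at ht ⊢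
      push_cast at ht
      omega
    · refine slack hC hc hc1 (by positivity) hr hrn measureReal_le_one fun h1 => ?_
      refine (measureReal_mono (hmono _ _)).trans
        ((h X Y _ _ _ (by push_cast; omega) h1).2.1 (fun t ht => ht.1.2.2.2) fun t ht => ?_)
      simp only [sN] at ht ⊢
      push_cast at ht
      omega
    · refine slack hC hc hc1 (by positivity) hr hrn measureReal_le_one fun h1 => ?_
      refine (measureReal_mono (hmono _ _)).trans
        ((h X Y _ _ _ (by push_cast; omega) h1).2.2.1 (fun t ht => ht.1.1) fun t ht => ?_)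
      simp only [sW] at ht ⊢
      push_cast at ht
      omega
    · refine slack hC hc hc1 (by positivity) hr hrn measureReal_le_one fun h1 => ?_
      refine (measureReal_mono (hmono _ _)).trans
        ((h X Y _ _ _ (by push_cast; omega) h1).2.2.2 (fun t ht => ht.1.2.1) fun t ht => ?_)
      simp only [sE] at ht ⊢
      push_cast at ht
      omega

end Crest.Agent.R158.Fw814
end
end

-- ▼ part R158/Pj1_679
section

/-!
# R158 (helper679): two crossing strands of a half annulus give the (F3) event, part 1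

434's request (3), abstract form.
* `pas s` : the passages of a splitting
* `rl_sides` : a walk of passages and glueings keeps the two sides
* `rl_end` : a walk between two free ends joins an end to itself or to its partner
* `three` : two different arcs have three pairwise not connected corners at their starts
* `two_t3` : **general form** (any carrier `X`, any system `al, be`, chart `φ` on the annulus)
-/

set_option autoImplicit false

namespace Crest.Agent.R158.Pj679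

open Crest.Agent.R158.Sw300 (Port Wd thru thru_thru)
open Crest.Agent.R158.Gc748
open Crest.Agent.R158.Sl434
open Crest.Agent.R158.Cb771 (FS FP)
open Crest.Agent.R158.Xr249 (Reg)

/-! ### passages and sides -/

section abs

variable {T : Type*} {s : T → Bool} {B : Option T} {L : List (Port T)}
  {G : List (Port T × Port T)} {Ts : Set T} {M : Port T → Port T}

/-- the passages of a splitting -/
def pas (s : T → Bool) (p : Port T) : Port T := p.map fun x => (x.1, thru (s x.1) x.2)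

@[simp] theorem pas_none (s : T → Bool) : pas s none = none := rfl

@[simp] theorem pas_some (s : T → Bool) (t : T) (d : ZMod 4) :
    pas s (some (t, d)) = some (t, thru (s t) d) := rfl

theorem pas_inv (s : T → Bool) : Function.Involutive (pas s) := by
  rintro (- | ⟨t, d⟩)
  · rfl
  · simp [thru_thru]

/-- the two sides of `p` are the two sides of `q` -/
def SS (s : T → Bool) (B : Option T) (G : List (Port T × Port T)) (p q : Port T) : Prop :=
  (R s B G (lc p) (lc q) ∧ R s B G (rc p) (rc q)) ∨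
    (R s B G (lc p) (rc q) ∧ R s B G (rc p) (lc q))

theorem SS.refl (p : Port T) : SS s B G p p := Or.inl ⟨R.refl _, R.refl _⟩

theorem SS.pass {p q : Port T} (h : SS s B G p q) : SS s B G p (pas s q) := by
  rcases q with - | ⟨t, d⟩
  · exact h
  · have h1 : R s B G (rc (some (t, d))) (lc (pas s (some (t, d)))) := tile_side s G t d
    have h2 : R s B G (rc (pas s (some (t, d)))) (lc (some (t, d))) := by
      have := tile_side (B := B) s G t (thru (s t) d)
      rwa [thru_thru] at this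
    rcases h with ⟨ha, hb⟩ | ⟨ha, hb⟩
    · exact Or.inr ⟨ha.trans h2.symm, hb.trans h1⟩
    · exact Or.inl ⟨ha.trans h1, hb.trans h2.symm⟩

theorem SS.gl {p q q' : Port T} (h : SS s B G p q) (hg : Gp G q q') : SS s B G p q' := by
  rcases h with ⟨ha, hb⟩ | ⟨ha, hb⟩
  · exact Or.inr ⟨ha.trans hg.lr, hb.trans hg.rl⟩
  · exact Or.inl ⟨ha.trans hg.rl, hb.trans hg.lr⟩

/-- **a walk keeps the two sides** (general carrier `X` with a chart `φ`) -/
theorem rl_sides {X : Type*} {al be : X → X} {O J : Set X} {φ : X → Port T}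
    (hal : ∀ x ∈ O, al x ∈ O → φ (al x) = pas s (φ x))
    (hbe : ∀ x ∈ O, x ∉ J → be x ∈ O → be x = x ∨ Gp G (φ x) (φ (be x))) {x y : X}
    (h : Rl al be O J x y) : SS s B G (φ x) (φ y) := by
  obtain ⟨-, h⟩ := h
  induction h with
  | refl => exact SS.refl _
  | @tail b c _ h2 ih =>
    obtain ⟨hb, hc, h3⟩ := h2
    rcases h3 with rfl | ⟨rfl, h4, -⟩
    · rw [hal b hb hc]; exact ih.pass
    · rcases hbe b hb h4 hc with h5 | h5
      · rw [h5]; exact ih
      · exact ih.gl h5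

variable [DecidableEq T]

/-- the two sides of a free end are the sides of another end only for the partner -/
theorem SS.eq_or (g : Gd s B L G Ts M) {p q : Port T} (hp : p ∈ L) (hM : M p ≠ p) (hq : q ∈ L)
    (h : SS s B G p q) : q = p ∨ q = M p := by
  obtain ⟨k, hk, kj⟩ := g.pot p hp hM
  by_contra hne
  rw [not_or] at hne
  have h1 : k (rc p) = k (lc p) + 1 := by rw [kj p hp]; simp [jp]
  have h2 : k (rc q) = k (lc q) := by
    rw [kj q hq]; simp [jp, hne.1, hne.2]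
  have h3 : k (rc p) = k (lc p) := by
    rcases h with ⟨ha, hb⟩ | ⟨ha, hb⟩
    · rw [hk.const ha, hk.const hb, h2]
    · rw [hk.const ha, hk.const hb, h2]
  rw [h3] at h1
  have : (0 : ZMod 2) = 1 := by
    have := congrArg (fun z => z - k (lc p)) h1
    simp at this
  exact absurd this (by decide)

/-- **two different arcs have three pairwise not connected corners at their starts** -/
theorem three (g : Gd s B L G Ts M) {p p' : Port T} (hp : p ∈ L) (hM : M p ≠ p) (hp' : p' ∈ L)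
    (hM' : M p' ≠ p') (h1 : p' ≠ p) (h2 : p' ≠ M p) :
    (¬ R s B G (lc p') (rc p')) ∧ ∃ a, (a = lc p ∨ a = rc p) ∧ ¬ R s B G a (lc p') ∧
      ¬ R s B G a (rc p') := by
  have two : ∀ z : ZMod 2, z ≠ z + 1 := by decide
  constructor
  · obtain ⟨k, hk, kj⟩ := g.pot p' hp' hM'
    intro hR
    have h3 := hk.const hR
    rw [kj p' hp'] at h3
    simp only [jp, true_or, if_true] at h3
    exact two _ h3
  · obtain ⟨k, hk, kj⟩ := g.pot p hp hM
    have h3 : k (rc p) = k (lc p) + 1 := by rw [kj p hp]; simp [jp]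
    have h4 : k (rc p') = k (lc p') := by rw [kj p' hp']; simp [jp, h1, h2]
    by_cases h5 : k (lc p) = k (lc p')
    · refine ⟨rc p, Or.inr rfl, fun hR => ?_, fun hR => ?_⟩
      · have := hk.const hR
        rw [h3, ← h5] at this
        exact two _ this.symm
      · have := hk.const hR
        rw [h3, h4, ← h5] at this
        exact two _ this.symm
    · refine ⟨lc p, Or.inl rfl, fun hR => h5 (hk.const hR), fun hR => h5 ?_⟩
      rw [hk.const hR, h4]

/-- free ports of the tiles are ends -/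
theorem mem_L_of_free : ∀ {w : Wd T}, Sw300.Ok w → ∀ {t : T} {d : ZMod 4}, t ∈ Sw300.tls w →
    Sw300.be w (some (t, d)) = some (t, d) → some (t, d) ∈ Sw300.L w
  | .leg, _, t, d, ht, _ => by simp [Sw300.tls] at ht
  | .tile t', _, t, d, ht, _ => by
    simp only [Sw300.tls, List.mem_singleton] at ht
    subst ht
    have h4 : ∀ d : ZMod 4, d = 0 ∨ d = 1 ∨ d = 2 ∨ d = 3 := by decide
    rcases h4 d with rfl | rfl | rfl | rfl <;> simp [Sw300.L]
  | .att w p t' d', h, t, d, ht, hb => by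
    obtain ⟨hw, hp, ht', -⟩ := h
    have hptd : p ≠ some (t', d') := fun e => ht' (mem_L_tls hw (e ▸ hp))
    simp only [Sw300.be] at hb
    by_cases h1 : (some (t, d) : Port T) = p
    · rw [if_pos h1] at hb
      exact absurd (h1.symm.trans hb.symm) hptd
    · rw [if_neg h1] at hb
      by_cases h2 : (some (t, d) : Port T) = some (t', d')
      · rw [if_pos h2] at hb; exact absurd hb.symm h1
      · rw [if_neg h2] at hb
        simp only [Sw300.L, List.mem_flatMap]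
        by_cases h3 : t = t'
        · subst h3
          refine ⟨p, hp, ?_⟩
          rw [if_pos rfl]
          have h5 : d ≠ d' := fun e => h2 (by rw [e])
          have h6 : ∀ d d' : ZMod 4, d ≠ d' → d = d' + 1 ∨ d = d' + 2 ∨ d = d' + 3 := by decide
          rcases h6 d d' h5 with rfl | rfl | rfl <;> simp
        · have h7 : t ∈ Sw300.tls w := by
            simp only [Sw300.tls, List.mem_cons] at ht
            exact ht.resolve_left h3
          exact ⟨some (t, d), mem_L_of_free hw h7 hb, by rw [if_neg h1]; simp⟩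
  | .con w p q, h, t, d, ht, hb => by
    obtain ⟨hw, -, -, hpq, -⟩ := h
    simp only [Sw300.be] at hb
    by_cases h1 : (some (t, d) : Port T) = p
    · rw [if_pos h1] at hb; exact absurd (h1.symm.trans hb.symm) hpq
    · rw [if_neg h1] at hb
      by_cases h2 : (some (t, d) : Port T) = q
      · rw [if_pos h2] at hb; exact absurd hb.symm h1
      · rw [if_neg h2] at hb
        simp only [Sw300.L, List.mem_filter]
        refine ⟨mem_L_of_free hw ht hb, ?_⟩
        simp only [ne_eq, decide_eq_true_eq]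
        exact ⟨h1, h2⟩

end abs

/-! ### planar annuli -/

/-- neighbour tile -/
def nbt (t : ℤ × ℤ) (d : ZMod 4) : ℤ × ℤ :=
  if d = 0 then (t.1 - 1, t.2) else if d = 1 then (t.1, t.2 + 1)
  else if d = 2 then (t.1 + 1, t.2) else (t.1, t.2 - 1)

@[simp] theorem nbt_0 (t : ℤ × ℤ) : nbt t 0 = (t.1 - 1, t.2) := rfl
@[simp] theorem nbt_1 (t : ℤ × ℤ) : nbt t 1 = (t.1, t.2 + 1) := rfl
@[simp] theorem nbt_2 (t : ℤ × ℤ) : nbt t 2 = (t.1 + 1, t.2) := rfl
@[simp] theorem nbt_3 (t : ℤ × ℤ) : nbt t 3 = (t.1, t.2 - 1) := rfl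

/-- glueing of a region without slits -/
theorem gl_full {K : Reg} (hf : ∀ x y, FullAt K x y) {t : ℤ × ℤ} {d : ZMod 4}
    {q : Port (ℤ × ℤ)} : K.gl (some (t, d)) q ↔
      (t ∈ K.P ∧ nbt t d ∈ K.P ∧ q = some (nbt t d, d + 2)) := by
  obtain ⟨x, y⟩ := t
  have a0 : (0 : ZMod 4) + 2 = 2 := by decide
  have a1 : (1 : ZMod 4) + 2 = 3 := by decide
  have a2 : (2 : ZMod 4) + 2 = 0 := by decide
  have a3 : (3 : ZMod 4) + 2 = 1 := by decide
  rcases Reg.d4 d with rfl | rfl | rfl | rfl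
  · rw [Reg.gl_0, nbt_0, a0]
    constructor
    · rintro ⟨h1, h2⟩
      have := K.hP _ _ h1
      rw [sub_add_cancel] at this
      exact ⟨this.2, this.1, h2⟩
    · rintro ⟨h1, h2, h3⟩
      refine ⟨(hf (x - 1) y).h0 h2 ?_, h3⟩
      rw [sub_add_cancel]; exact h1
  · rw [Reg.gl_1, nbt_1, a1]
    constructor
    · rintro ⟨h1, h2⟩
      have := K.vP _ _ h1
      exact ⟨this.1, this.2, h2⟩
    · rintro ⟨h1, h2, h3⟩
      exact ⟨(hf x y).v0 h1 h2, h3⟩
  · rw [Reg.gl_2, nbt_2, a2]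
    constructor
    · rintro ⟨h1, h2⟩
      have := K.hP _ _ h1
      exact ⟨this.1, this.2, h2⟩
    · rintro ⟨h1, h2, h3⟩
      exact ⟨(hf x y).h0 h1 h2, h3⟩
  · rw [Reg.gl_3, nbt_3, a3]
    constructor
    · rintro ⟨h1, h2⟩
      have := K.vP _ _ h1
      rw [sub_add_cancel] at this
      exact ⟨this.2, this.1, h2⟩
    · rintro ⟨h1, h2, h3⟩
      refine ⟨(hf x (y - 1)).v0 h2 ?_, h3⟩
      rw [sub_add_cancel]; exact h1

/-- an annulus `{r < ρ ≤ n}` of the part `H` of the plane, faces measured by `δ` -/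
structure An (K : Reg) (H : ℤ × ℤ → Prop) (ρ δ : ℤ × ℤ → ℤ) (r n : ℤ) : Prop where
  full : ∀ x y, FullAt K x y
  sc : K.SC
  conn : K.Conn
  ne : ∃ t, t ∈ K.P
  mem : ∀ t, t ∈ K.P ↔ (H t ∧ r < ρ t ∧ ρ t ≤ n)
  inn : ∀ t d, H t → H (nbt t d) → r < ρ t → ρ (nbt t d) ≤ r →
    δ (t + off d) ≤ r ∧ δ (t + off (d + 1)) ≤ r
  out : ∀ t d, H t → H (nbt t d) → ρ t ≤ n → n < ρ (nbt t d) →
    n ≤ δ (t + off d) ∧ n ≤ δ (t + off (d + 1))

variable {K : Reg} {H : ℤ × ℤ → Prop} {ρ δ : ℤ × ℤ → ℤ} {r n : ℤ}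

/-- the word of the annulus -/
theorem An.word (h : An K H ρ δ r n) : ∃ w b, RW K w b := by
  obtain ⟨⟨x0, t0⟩, ht⟩ := h.ne
  obtain ⟨a, c, -, -, hr⟩ := Reg.exists_run ht
  obtain ⟨w, l, h1, -, h3, h4, -, h6, -⟩ := Reg.ok h.sc h.conn hr
  exact ⟨w, (a, t0), ⟨h1, by rw [← bas_eq]; exact h3, h4, h6⟩⟩

/-- **local data of a system in a chart on the annulus**: `φ x` = port of the plane -/
structure Loc {X : Type*} (s : ℤ × ℤ → Bool) (al be : X → X) (A J : Set X) (φ : X → Port (ℤ × ℤ))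
    (rd : X → ℤ) (H : ℤ × ℤ → Prop) (ρ : ℤ × ℤ → ℤ) (r n : ℤ) : Prop where
  som : ∀ x ∈ A, ∃ t d, φ x = some (t, d) ∧ H t ∧ r < ρ t ∧ ρ t ≤ n
  al : ∀ x ∈ A, al x ∈ A → φ (al x) = pas s (φ x)
  be : ∀ x ∈ A, x ∉ J → be x = x ∨ ∃ t d, φ x = some (t, d) ∧ H (nbt t d) ∧
    (be x ∈ A → φ (be x) = some (nbt t d, d + 2)) ∧
    (rd (be x) ≤ r → ρ (nbt t d) ≤ r) ∧ (n < rd (be x) → n < ρ (nbt t d))

/-- the end of the word of the annulus at a crossing port -/
theorem end_of (h : An K H ρ δ r n) {w : Wd (ℤ × ℤ)} {b : ℤ × ℤ} (hw : RW K w b)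
    {t : ℤ × ℤ} {d : ZMod 4} (ht : t ∈ K.P) (hn : nbt t d ∉ K.P) :
    some (t, d) ∈ Sw300.L w := by
  refine mem_L_of_free hw.ok ((hw.tls t).2 ht) ?_
  by_contra hne
  have h1 : K.gl (some (t, d)) (Sw300.be w (some (t, d))) :=
    (hw.be _ _).2 ⟨rfl, fun e => hne e.symm⟩
  exact hn ((gl_full h.full).1 h1).2.1

/-- corner of a tile of the region -/
def InC (K : Reg) (c : Port (ℤ × ℤ)) : Prop := ∃ t k, c = some (t, k) ∧ t ∈ K.P

theorem fp_iff (h : An K H ρ δ r n) {w : Wd (ℤ × ℤ)} {b : ℤ × ℤ} (hw : RW K w b)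
    {s : ℤ × ℤ → Bool} {c c' : Port (ℤ × ℤ)} (hc : InC K c) (hc' : InC K c') :
    R s (some b) (gl w) c c' ↔ FP s (fun t => t ∈ K.P) (fa (0, 0) c) (fa (0, 0) c') := by
  obtain ⟨t, k, rfl, ht⟩ := hc
  obtain ⟨t', k', rfl, ht'⟩ := hc'
  exact R_iff_fp hw h.full ht ht'

/-- **two crossings of the annulus give the (F3) event**, general form -/
theorem two_t3 (h : An K H ρ δ r n) {X : Type*} {s : ℤ × ℤ → Bool} {al be : X → X} {O J : Set X}
    {φ : X → Port (ℤ × ℤ)} {rd : X → ℤ}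
    (hl : Loc s al be (Ann O rd r (n + 1)) J φ rd H ρ r n) {p q p' q' : X}
    (hp : InP be O J rd r (n + 1) p) (hq : OutP be O J rd r (n + 1) q)
    (hpq : Rl al be (Ann O rd r (n + 1)) (AnnJ be O J rd r (n + 1)) p q)
    (hp' : InP be O J rd r (n + 1) p') (hq' : OutP be O J rd r (n + 1) q')
    (hpq' : Rl al be (Ann O rd r (n + 1)) (AnnJ be O J rd r (n + 1)) p' q')
    (hne : φ p ≠ φ p') : s ∈ Fw814.T3 δ (fun t => t ∈ K.P) r n := by
  obtain ⟨w, b, hw⟩ := h.word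
  have g := hw.gd s
  have hbs : bs w ≠ none := by rw [hw.bas]; simp
  -- crossing ports
  have inn : ∀ x, InP be O J rd r (n + 1) x → ∃ t d, φ x = some (t, d) ∧ t ∈ K.P ∧
      ρ (nbt t d) ≤ r ∧ δ (t + off d) ≤ r ∧ δ (t + off (d + 1)) ≤ r := by
    intro x hx
    obtain ⟨t, d, h1, h2, h3, h4⟩ := hl.som x hx.1
    rcases hl.be x hx.1 hx.2.1 with h5 | ⟨t', d', h5, h6, -, h8, -⟩
    · have := hx.2.2
      rw [h5] at this
      have := hx.1.2.1
      omega
    · rw [h1] at h5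
      obtain ⟨rfl, rfl⟩ := pt_inj.1 h5
      have h9 := h8 hx.2.2
      exact ⟨t, d, h1, (h.mem t).2 ⟨h2, h3, h4⟩, h9, h.inn t d h2 h6 h3 h9⟩
  have out : ∀ x, OutP be O J rd r (n + 1) x → ∃ t d, φ x = some (t, d) ∧ t ∈ K.P ∧
      n < ρ (nbt t d) ∧ n ≤ δ (t + off d) ∧ n ≤ δ (t + off (d + 1)) := by
    intro x hx
    obtain ⟨t, d, h1, h2, h3, h4⟩ := hl.som x hx.1
    have hx2 : n < rd (be x) := by have := hx.2.2; omega
    rcases hl.be x hx.1 hx.2.1 with h5 | ⟨t', d', h5, h6, -, -, h8⟩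
    · rw [h5] at hx2
      have := hx.1.2.2
      omega
    · rw [h1] at h5
      obtain ⟨rfl, rfl⟩ := pt_inj.1 h5
      have h9 := h8 hx2
      exact ⟨t, d, h1, (h.mem t).2 ⟨h2, h3, h4⟩, h9, h.out t d h2 h6 h4 h9⟩
  -- walks keep the sides
  have hss : ∀ x y, Rl al be (Ann O rd r (n + 1)) (AnnJ be O J rd r (n + 1)) x y →
      SS s (some b) (gl w) (φ x) (φ y) := by
    intro x y hxy
    refine rl_sides hl.al (fun z hz hzJ hbz => ?_) hxy
    have hzJ' : z ∉ J := fun h1 => hzJ (Or.inl h1)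
    rcases hl.be z hz hzJ' with h1 | ⟨t, d, h1, -, h3, -, -⟩
    · exact Or.inl h1
    · right
      obtain ⟨t1, d1, h4, h5, h6, h7⟩ := hl.som z hz
      obtain ⟨t2, d2, h8, h9, h10, h11⟩ := hl.som _ hbz
      rw [h1] at h4
      obtain ⟨rfl, rfl⟩ := pt_inj.1 h4
      rw [h3 hbz] at h8
      obtain ⟨rfl, -⟩ := pt_inj.1 h8
      rw [h1, h3 hbz]
      exact hw.gp.2 ((gl_full h.full).2 ⟨(h.mem _).2 ⟨h5, h6, h7⟩, (h.mem _).2 ⟨h9, h10, h11⟩, rfl⟩)
  obtain ⟨tp, dp, ep, kp, np, ip, ip'⟩ := inn p hp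
  obtain ⟨tq, dq, eq, kq, nq, oq, oq'⟩ := out q hq
  obtain ⟨tp2, dp2, ep2, kp2, np2, ip2, ip2'⟩ := inn p' hp'
  obtain ⟨tq2, dq2, eq2, kq2, nq2, oq2, oq2'⟩ := out q' hq'
  have nK : ∀ t, ρ t ≤ r ∨ n < ρ t → t ∉ K.P := by
    intro t ht hK
    have := (h.mem t).1 hK
    omega
  have Lp : (some (tp, dp) : Port (ℤ × ℤ)) ∈ Sw300.L w := end_of h hw kp (nK _ (Or.inl np))
  have Lq : (some (tq, dq) : Port (ℤ × ℤ)) ∈ Sw300.L w := end_of h hw kq (nK _ (Or.inr nq))
  have Lp2 : (some (tp2, dp2) : Port (ℤ × ℤ)) ∈ Sw300.L w := end_of h hw kp2 (nK _ (Or.inl np2))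
  have Lq2 : (some (tq2, dq2) : Port (ℤ × ℤ)) ∈ Sw300.L w := end_of h hw kq2 (nK _ (Or.inr nq2))
  have Mne : ∀ t d, (some (t, d) : Port (ℤ × ℤ)) ∈ Sw300.L w →
      Sw300.M s w (some (t, d)) ≠ some (t, d) := by
    intro t d hL hM
    have := M_fix s hw.ok hbs hL hM
    cases this
  have rn : r ≤ n := by
    have := (h.mem tp).1 kp
    omega
  have hMp : Sw300.M s w (some (tp, dp)) = some (tq, dq) := by
    have h1 := hss _ _ hpq
    rw [ep, eq] at h1
    rcases h1.eq_or g Lp (Mne _ _ Lp) Lq with h2 | h2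
    · obtain ⟨rfl, rfl⟩ := pt_inj.1 h2
      omega
    · exact h2.symm
  have hMp2 : Sw300.M s w (some (tp2, dp2)) = some (tq2, dq2) := by
    have h1 := hss _ _ hpq'
    rw [ep2, eq2] at h1
    rcases h1.eq_or g Lp2 (Mne _ _ Lp2) Lq2 with h2 | h2
    · obtain ⟨rfl, rfl⟩ := pt_inj.1 h2
      omega
    · exact h2.symm
  have hne1 : (some (tp2, dp2) : Port (ℤ × ℤ)) ≠ some (tp, dp) := by
    rw [← ep, ← ep2]; exact hne.symm
  have hne2 : (some (tp2, dp2) : Port (ℤ × ℤ)) ≠ Sw300.M s w (some (tp, dp)) := by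
    rw [hMp]
    intro h2
    obtain ⟨rfl, rfl⟩ := pt_inj.1 h2
    omega
  obtain ⟨n3, a, ha, n1, n2⟩ := three g Lp (Mne _ _ Lp) Lp2 (Mne _ _ Lp2) hne1 hne2
  -- connections to the outer side
  have c1 : R s (some b) (gl w) (rc (some (tp, dp))) (lc (some (tq, dq))) := by
    have := g.side _ Lp
    rwa [hMp] at this
  have c2 : R s (some b) (gl w) (lc (some (tp, dp))) (rc (some (tq, dq))) := by
    have := g.side _ Lq
    rw [← hMp, g.inv _ Lp, hMp] at this
    exact this.symm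
  have c3 : R s (some b) (gl w) (rc (some (tp2, dp2))) (lc (some (tq2, dq2))) := by
    have := g.side _ Lp2
    rwa [hMp2] at this
  have c4 : R s (some b) (gl w) (lc (some (tp2, dp2))) (rc (some (tq2, dq2))) := by
    have := g.side _ Lq2
    rw [← hMp2, g.inv _ Lp2, hMp2] at this
    exact this.symm
  -- inner corners
  let Cr : Port (ℤ × ℤ) → Prop := fun c => InC K c ∧ δ (fa (0, 0) c) ≤ r ∧
    ∃ o, InC K o ∧ n ≤ δ (fa (0, 0) o) ∧ R s (some b) (gl w) c o
  have ka : Cr a := by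
    rcases ha with rfl | rfl
    · exact ⟨⟨_, _, rfl, kp⟩, ip, _, ⟨_, _, rfl, kq⟩, oq', c2⟩
    · exact ⟨⟨_, _, rfl, kp⟩, ip', _, ⟨_, _, rfl, kq⟩, oq, c1⟩
  have kl : Cr (lc (some (tp2, dp2))) := ⟨⟨_, _, rfl, kp2⟩, ip2, _, ⟨_, _, rfl, kq2⟩, oq2', c4⟩
  have kr : Cr (rc (some (tp2, dp2))) := ⟨⟨_, _, rfl, kp2⟩, ip2', _, ⟨_, _, rfl, kq2⟩, oq2, c3⟩
  have fin : ∀ c c', Cr c → Cr c' → ¬ R s (some b) (gl w) c c' →
      ((fa (0, 0) c).1 + (fa (0, 0) c).2) % 2 = ((fa (0, 0) c').1 + (fa (0, 0) c').2) % 2 →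
      s ∈ Fw814.T3 δ (fun t => t ∈ K.P) r n := by
    rintro c c' ⟨k1, k2, o, k3, k4, k5⟩ ⟨l1, l2, o', l3, l4, l5⟩ hcc hpar
    exact ⟨_, _, _, _, k2, l2, k4, l4, hpar, (fp_iff h hw k1 k3).1 k5, (fp_iff h hw l1 l3).1 l5,
      fun hf => hcc ((fp_iff h hw k1 l1).2 hf)⟩
  have m2 : ∀ x y z : ℤ, x % 2 = y % 2 ∨ x % 2 = z % 2 ∨ y % 2 = z % 2 := by intro x y z; omega
  rcases m2 ((fa (0, 0) a).1 + (fa (0, 0) a).2)
    ((fa (0, 0) (lc (some (tp2, dp2)))).1 + (fa (0, 0) (lc (some (tp2, dp2)))).2)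
    ((fa (0, 0) (rc (some (tp2, dp2)))).1 + (fa (0, 0) (rc (some (tp2, dp2)))).2) with m | m | m
  · exact fin _ _ ka kl n1 m
  · exact fin _ _ ka kr n2 m
  · exact fin _ _ kl kr n3 m

end Crest.Agent.R158.Pj679
end

-- ▼ part R158/Pj2_679
section

/-!
# R158 (helper679): two crossing strands of a half annulus give the (F3) event, part 2

The four walls: `Dr.S` (floor), `Dr.N` (ceiling), `Dr.W` (left wall), `Dr.E` (right wall).
* `Dr.H`, `Dr.rho`, `Dr.dd`, `Dr.ss` : half plane, radius of a tile, distance of a face (helper814),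
  half annulus (helper814)
* `Dr.an` : the half annulus is an annulus in the sense of `Pj1_679`
-/

set_option autoImplicit false

namespace Crest.Agent.R158.Pj679

open Crest.Agent.R158.Sw300 (Port Wd thru)
open Crest.Agent.R158.Gc748 (off off_0 off_1 off_2 off_3 FullAt RW)
open Crest.Agent.R158.Xr249 (Reg full full_h full_v full_P CPath full_SC full_Conn)
open Crest.Agent.R158.Fw814 (dS dN dW dE sS sN sW sE)

/-- directions of a flat wall -/
inductive Dr | S | N | W | E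

namespace Dr

/-- the half plane -/
def H : Dr → ℤ → ℤ → ℤ × ℤ → Prop
  | S, _, Y, t => Y < t.2
  | N, _, Y, t => t.2 ≤ Y
  | W, X, _, t => X < t.1
  | E, X, _, t => t.1 ≤ X

/-- radius of a tile -/
def rho : Dr → ℤ → ℤ → ℤ × ℤ → ℤ
  | S, X, Y, t => max (t.2 - Y) (max (X - t.1 + 1) (t.1 - X))
  | N, X, Y, t => max (Y - t.2 + 1) (max (X - t.1 + 1) (t.1 - X))
  | W, X, Y, t => max (t.1 - X) (max (Y - t.2 + 1) (t.2 - Y))
  | E, X, Y, t => max (X - t.1 + 1) (max (Y - t.2 + 1) (t.2 - Y))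

/-- distance of a face to the gap `(X, Y)` -/
def dd : Dr → ℤ → ℤ → ℤ × ℤ → ℤ
  | S => dS
  | N => dN
  | W => dW
  | E => dE

/-- tiles of the half annulus -/
def ss : Dr → ℤ → ℤ → ℤ → ℤ → ℤ × ℤ → Prop
  | S => sS
  | N => sN
  | W => sW
  | E => sE

theorem ss_iff (D : Dr) (X Y r n : ℤ) (t : ℤ × ℤ) :
    D.ss X Y r n t ↔ D.H X Y t ∧ r < D.rho X Y t ∧ D.rho X Y t ≤ n := by
  cases D <;> simp only [ss, H, rho, sS, sN, sW, sE, lt_max_iff, max_le_iff] <;> omega

open Classical in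
/-- the tiles of the half annulus as a finite set -/
noncomputable def A (D : Dr) (X Y r n : ℤ) : Finset (ℤ × ℤ) :=
  (Finset.Ioc (X - n) (X + n) ×ˢ Finset.Ioc (Y - n) (Y + n)).filter (D.ss X Y r n)

theorem mem_A {D : Dr} {X Y r n : ℤ} {t : ℤ × ℤ} (_hr : 0 ≤ r) : t ∈ D.A X Y r n ↔ D.ss X Y r n t := by
  simp only [A, Finset.mem_filter, Finset.mem_product, Finset.mem_Ioc]
  refine ⟨fun h => h.2, fun h => ⟨?_, h⟩⟩
  rw [ss_iff] at h
  cases D <;> simp only [H, rho, lt_max_iff, max_le_iff] at h <;> omega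

theorem A_full {D : Dr} {X Y r n : ℤ} (hr : 0 ≤ r) (x y : ℤ) : FullAt (full (D.A X Y r n)) x y := by
  refine ⟨fun h h' => ⟨h, h'⟩, fun h h' => ⟨h, h'⟩, fun h h' => ⟨h, h'⟩, fun h h' => ⟨h, h'⟩, ?_, ?_⟩
  · intro h h'
    simp only [full_P, mem_A hr] at h h' ⊢
    cases D <;> simp only [ss, sS, sN, sW, sE] at h h' ⊢ <;> omega
  · intro h h'
    simp only [full_P, mem_A hr] at h h' ⊢
    cases D <;> simp only [ss, sS, sN, sW, sE] at h h' ⊢ <;> omega

theorem A_SC {D : Dr} {X Y r n : ℤ} (hr : 0 ≤ r) : (full (D.A X Y r n)).SC := by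
  refine full_SC ?_
  rintro ⟨x, y⟩ hc
  have hX : ∀ {a b : ℤ}, ¬ D.ss X Y r n (a, b) → (a, b) ∈ {t : ℤ × ℤ | t ∉ D.A X Y r n} :=
    fun h h' => h ((mem_A hr).1 h')
  rw [mem_A hr] at hc
  have top : ∀ t ∈ D.A X Y r n, ∀ d : ℤ, Y + n ≤ d → t.2 ≤ d := by
    rintro ⟨a, b⟩ ht d hd
    have := (mem_A hr).1 ht
    cases D <;> simp only [ss, sS, sN, sW, sE] at this ⊢ <;> omega
  -- go up in a column without tiles above
  have goup : ∀ z v : ℤ, (∀ u, v ≤ u → ¬ D.ss X Y r n (z, u)) →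
      ∃ d, CPath {t | t ∉ D.A X Y r n} (z, v) d ∧ ∀ t ∈ D.A X Y r n, t.2 ≤ d.2 := by
    intro z v hz
    exact ⟨(z, max v (Y + n)), CPath.ver (le_max_left _ _) fun u h1 h2 => hX (hz u h1),
      fun t ht => top t ht _ (le_max_right _ _)⟩
  have right : ∀ x' : ℤ, x ≤ x' → (∀ u, x ≤ u → u ≤ x' → ¬ D.ss X Y r n (u, y)) →
      (∀ u, y ≤ u → ¬ D.ss X Y r n (x', u)) →
      ∃ d, CPath {t | t ∉ D.A X Y r n} (x, y) d ∧ ∀ t ∈ D.A X Y r n, t.2 ≤ d.2 := by
    intro x' h1 h2 h3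
    obtain ⟨d, hd, hd2⟩ := goup x' y h3
    exact ⟨d, (CPath.hor h1 fun u h4 h5 => hX (h2 u h4 h5)).trans hd, hd2⟩
  have left : ∀ x' : ℤ, x' ≤ x → (∀ u, x' ≤ u → u ≤ x → ¬ D.ss X Y r n (u, y)) →
      (∀ u, y ≤ u → ¬ D.ss X Y r n (x', u)) →
      ∃ d, CPath {t | t ∉ D.A X Y r n} (x, y) d ∧ ∀ t ∈ D.A X Y r n, t.2 ≤ d.2 := by
    intro x' h1 h2 h3
    obtain ⟨d, hd, hd2⟩ := goup x' y h3
    exact ⟨d, (CPath.hor h1 fun u h4 h5 => hX (h2 u h4 h5)).symm.trans hd, hd2⟩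
  cases D with
  | E =>
    simp only [ss, sE] at hc
    by_cases h1 : x ≤ X - n ∨ X < x ∨ Y + n < y
    · exact goup x y fun u hu => by simp only [ss, sE]; omega
    · refine right (X + 1) (by omega) (fun u h2 h3 => ?_) fun u h2 => ?_
      · simp only [ss, sE]; omega
      · simp only [ss, sE]; omega
  | W =>
    simp only [ss, sW] at hc
    by_cases h1 : x ≤ X ∨ X + n < x ∨ Y + n < y
    · exact goup x y fun u hu => by simp only [ss, sW]; omega
    · refine left X (by omega) (fun u h2 h3 => ?_) fun u h2 => ?_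
      · simp only [ss, sW]; omega
      · simp only [ss, sW]; omega
  | N =>
    simp only [ss, sN] at hc
    by_cases h1 : y ≤ Y - n
    · by_cases h2 : X + n < x
      · exact goup x y fun u hu => by simp only [ss, sN]; omega
      · refine right (X + n + 1) (by omega) (fun u h2 h3 => ?_) fun u h2 => ?_
        · simp only [ss, sN]; omega
        · simp only [ss, sN]; omega
    · exact goup x y fun u hu => by simp only [ss, sN]; omega
  | S =>
    simp only [ss, sS] at hc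
    by_cases h1 : x ≤ X - n ∨ X + n < x ∨ Y + n < y
    · exact goup x y fun u hu => by simp only [ss, sS]; omega
    · by_cases h2 : y ≤ Y
      · refine right (X + n + 1) (by omega) (fun u h2 h3 => ?_) fun u h2 => ?_
        · simp only [ss, sS]; omega
        · simp only [ss, sS]; omega
      · -- in the hole: go down
        obtain ⟨d, hd, hd2⟩ := goup (X + n + 1) Y fun u hu => by simp only [ss, sS]; omega
        refine ⟨d, ?_, hd2⟩
        refine (CPath.ver (X := {t | t ∉ Dr.S.A X Y r n}) (x := x) (y1 := Y) (y2 := y) (by omega)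
          fun u h3 h4 => hX ?_).symm.trans ((CPath.hor (x1 := x) (x2 := X + n + 1) (by omega)
            fun u h3 h4 => hX ?_).trans hd)
        · simp only [ss, sS]; omega
        · simp only [ss, sS]; omega

theorem A_Conn {D : Dr} {X Y r n : ℤ} (hr : 0 ≤ r) (hrn : r < n) : (full (D.A X Y r n)).Conn := by
  refine full_Conn ?_
  have hX : ∀ {a b : ℤ}, D.ss X Y r n (a, b) → (a, b) ∈ {t : ℤ × ℤ | t ∈ D.A X Y r n} :=
    fun h => (mem_A hr).2 h
  have key : ∃ o : ℤ × ℤ, ∀ a ∈ D.A X Y r n, CPath {t | t ∈ D.A X Y r n} a o := by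
    cases D with
    | E =>
      refine ⟨(X - n + 1, Y), ?_⟩
      rintro ⟨x, y⟩ ha
      rw [mem_A hr] at ha
      simp only [ss, sE] at ha
      refine (CPath.hor (x1 := X - n + 1) (x2 := x) (by omega) fun u h1 h2 => hX ?_).symm.trans ?_
      · simp only [ss, sE]; omega
      · rcases le_total y Y with h3 | h3
        · exact CPath.ver h3 fun u h1 h2 => hX (by simp only [ss, sE]; omega)
        · exact (CPath.ver h3 fun u h1 h2 => hX (by simp only [ss, sE]; omega)).symm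
    | W =>
      refine ⟨(X + n, Y), ?_⟩
      rintro ⟨x, y⟩ ha
      rw [mem_A hr] at ha
      simp only [ss, sW] at ha
      refine (CPath.hor (x1 := x) (x2 := X + n) (by omega) fun u h1 h2 => hX ?_).trans ?_
      · simp only [ss, sW]; omega
      · rcases le_total y Y with h3 | h3
        · exact CPath.ver h3 fun u h1 h2 => hX (by simp only [ss, sW]; omega)
        · exact (CPath.ver h3 fun u h1 h2 => hX (by simp only [ss, sW]; omega)).symm
    | N =>
      refine ⟨(X, Y - n + 1), ?_⟩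
      rintro ⟨x, y⟩ ha
      rw [mem_A hr] at ha
      simp only [ss, sN] at ha
      refine (CPath.ver (y1 := Y - n + 1) (y2 := y) (by omega) fun u h1 h2 => hX ?_).symm.trans ?_
      · simp only [ss, sN]; omega
      · rcases le_total x X with h3 | h3
        · exact CPath.hor h3 fun u h1 h2 => hX (by simp only [ss, sN]; omega)
        · exact (CPath.hor h3 fun u h1 h2 => hX (by simp only [ss, sN]; omega)).symm
    | S =>
      refine ⟨(X, Y + n), ?_⟩
      rintro ⟨x, y⟩ ha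
      rw [mem_A hr] at ha
      simp only [ss, sS] at ha
      refine (CPath.ver (y1 := y) (y2 := Y + n) (by omega) fun u h1 h2 => hX ?_).trans ?_
      · simp only [ss, sS]; omega
      · rcases le_total x X with h3 | h3
        · exact CPath.hor h3 fun u h1 h2 => hX (by simp only [ss, sS]; omega)
        · exact (CPath.hor h3 fun u h1 h2 => hX (by simp only [ss, sS]; omega)).symm
  obtain ⟨o, ho⟩ := key
  exact fun a ha b hb => (ho a ha).trans (ho b hb).symm

/-- **the four half annuli** -/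
theorem an (D : Dr) {X Y r n : ℤ} (hr : 0 ≤ r) (hrn : r < n) :
    An (full (D.A X Y r n)) (D.H X Y) (D.rho X Y) (D.dd X Y) r n where
  full := A_full hr
  sc := A_SC hr
  conn := A_Conn hr hrn
  ne := by
    simp only [full_P, mem_A hr]
    cases D
    · exact ⟨(X, Y + n), by simp only [ss, sS]; omega⟩
    · exact ⟨(X, Y - n + 1), by simp only [ss, sN]; omega⟩
    · exact ⟨(X + n, Y), by simp only [ss, sW]; omega⟩
    · exact ⟨(X - n + 1, Y), by simp only [ss, sE]; omega⟩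
  mem := fun t => by rw [full_P, mem_A hr, ss_iff]
  inn := by
    rintro ⟨x, y⟩ d h1 h2 h3 h4
    have a1 : (0 : ZMod 4) + 1 = 1 := by decide
    have a2 : (1 : ZMod 4) + 1 = 2 := by decide
    have a3 : (2 : ZMod 4) + 1 = 3 := by decide
    have a4 : (3 : ZMod 4) + 1 = 0 := by decide
    rcases Reg.d4 d with rfl | rfl | rfl | rfl <;> cases D <;>
      simp only [H, rho, nbt_0, nbt_1, nbt_2, nbt_3, lt_max_iff, max_le_iff] at h1 h2 h3 h4 <;>
      simp only [dd, dS, dN, dW, dE, a1, a2, a3, a4, off_0, off_1, off_2, off_3, Prod.mk_add_mk,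
        max_le_iff, abs_le] <;> omega
  out := by
    rintro ⟨x, y⟩ d h1 h2 h3 h4
    have a1 : (0 : ZMod 4) + 1 = 1 := by decide
    have a2 : (1 : ZMod 4) + 1 = 2 := by decide
    have a3 : (2 : ZMod 4) + 1 = 3 := by decide
    have a4 : (3 : ZMod 4) + 1 = 0 := by decide
    rcases Reg.d4 d with rfl | rfl | rfl | rfl <;> cases D <;>
      simp only [H, rho, nbt_0, nbt_1, nbt_2, nbt_3, lt_max_iff, max_le_iff] at h1 h2 h3 h4 <;>
      simp only [dd, dS, dN, dW, dE, a1, a2, a3, a4, off_0, off_1, off_2, off_3, Prod.mk_add_mk,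
        le_max_iff, le_abs] <;> omega

end Dr

end Crest.Agent.R158.Pj679
private theorem rz_6f83f77435 : type_of% @_root_.Crest.Agent.R158.Pj679.Dr.H.eq_1 := @_root_.Crest.Agent.R158.Pj679.Dr.H.eq_1 -- L28
private theorem rz_15e46038d5 : type_of% @_root_.Crest.Agent.R158.Pj679.Dr.dd.eq_1 := @_root_.Crest.Agent.R158.Pj679.Dr.dd.eq_1 -- L42
private theorem rz_de413eed5f : type_of% @_root_.Crest.Agent.R158.Pj679.Dr.rho.eq_1 := @_root_.Crest.Agent.R158.Pj679.Dr.rho.eq_1 -- L35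
private theorem rz_c331717cdb : type_of% @_root_.Crest.Agent.R158.Pj679.Dr.ss.eq_1 := @_root_.Crest.Agent.R158.Pj679.Dr.ss.eq_1 -- L49
end

-- ▼ part R158/Pj3_679

/-!
# R158 (helper679): two crossing strands of a half annulus give the (F3) event, part 3

* `Ev D X Y r n` : the (F3) event of the half annulus `(r, n)` at a flat wall; **`ev_prob`**
* **`two_ev`** : two different crossings (general chart form) ⟹ `s ∈ Ev`
* **`one_ev`** : `¬ OneC` ⟹ `s ∈ Ev`
* **`word_ev`** : any region behind the wall, arcs of a word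
* **`stp_ev`, `stp_prob`** : the stepped half annulus of helper748 / helper434
-/

set_option autoImplicit false

namespace Crest.Agent.R158.Pj679

open MeasureTheory
open Crest.Agent.R158.Sw300 (Port Wd thru)
open Crest.Agent.R158.Gc748 (off FullAt RW gl Gp gd_wd M_none M_fix lc rc R Wk bs pt_inj mem_fl stp
  InS mem_stp JoW JoN JoS JlS JlE JlN)
open Crest.Agent.R158.Sl434
open Crest.Agent.R158.Xr249 (Reg full full_P)
open Crest.Agent.R158.Mr679 (TF tau)
open Crest.Agent.R158.Rs689 (hf)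

/-- the (F3) event: two distinct clusters of faces of the same parity cross the half annulus -/
def Ev (D : Dr) (X Y r n : ℤ) : Set TF := Fw814.T3 (D.dd X Y) (D.ss X Y r n) r n

/-- **(F3)** for the four walls -/
theorem ev_prob : ∃ C c : ℝ, 1 ≤ C ∧ 0 < c ∧ c ≤ 1 ∧ ∀ (D : Dr) (X Y r n : ℤ), 1 ≤ r → r ≤ n →
    (tau hf).real (Ev D X Y r n) ≤ C * ((r : ℝ) / n) ^ (1 + c) := by
  obtain ⟨c, hc, hc1, h⟩ := Fw814.f3_slack
  obtain ⟨C, hC, h⟩ := h 0
  refine ⟨C, c, hC, hc, hc1, fun D X Y r n hr hrn => ?_⟩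
  have := h X Y r n hr hrn
  simp only [Nat.cast_zero, add_zero, sub_zero] at this
  cases D
  · exact this.1
  · exact this.2.1
  · exact this.2.2.1
  · exact this.2.2.2

/-- **two different crossings of the half annulus**, general chart form -/
theorem two_ev (D : Dr) {Xc Yc r n : ℤ} (hr : 0 ≤ r) (hrn : r < n) {X : Type*}
    {s : ℤ × ℤ → Bool} {al be : X → X} {O J : Set X} {φ : X → Port (ℤ × ℤ)} {rd : X → ℤ}
    (hl : Loc s al be (Ann O rd r (n + 1)) J φ rd (D.H Xc Yc) (D.rho Xc Yc) r n) {p q p' q' : X}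
    (hp : InP be O J rd r (n + 1) p) (hq : OutP be O J rd r (n + 1) q)
    (hpq : Rl al be (Ann O rd r (n + 1)) (AnnJ be O J rd r (n + 1)) p q)
    (hp' : InP be O J rd r (n + 1) p') (hq' : OutP be O J rd r (n + 1) q')
    (hpq' : Rl al be (Ann O rd r (n + 1)) (AnnJ be O J rd r (n + 1)) p' q')
    (hne : φ p ≠ φ p') : s ∈ Ev D Xc Yc r n := by
  have h := two_t3 (Dr.an D hr hrn) hl hp hq hpq hp' hq' hpq' hne
  have e : (fun t => t ∈ (full (D.A Xc Yc r n)).P) = D.ss Xc Yc r n := by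
    funext t
    rw [full_P, Dr.mem_A hr]
  rwa [e] at h


/-! ### planar systems -/

/-- radius of the tile of a port -/
def prt (ρ : ℤ × ℤ → ℤ) (x : Port (ℤ × ℤ)) : ℤ := x.elim 0 fun y => ρ y.1

@[simp] theorem prt_none (ρ : ℤ × ℤ → ℤ) : prt ρ none = 0 := rfl
@[simp] theorem prt_some (ρ : ℤ × ℤ → ℤ) (t : ℤ × ℤ) (d : ZMod 4) : prt ρ (some (t, d)) = ρ t := rfl

theorem prt_pas (ρ : ℤ × ℤ → ℤ) (s : ℤ × ℤ → Bool) (x : Port (ℤ × ℤ)) :
    prt ρ (pas s x) = prt ρ x := by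
  rcases x with - | ⟨t, d⟩ <;> rfl

/-- planar systems: identity chart -/
theorem loc_plain {H : ℤ × ℤ → Prop} {ρ : ℤ × ℤ → ℤ} {r n : ℤ} (s : ℤ × ℤ → Bool)
    {be : Port (ℤ × ℤ) → Port (ℤ × ℤ)} {O J : Set (Port (ℤ × ℤ))}
    (h1 : ∀ x ∈ Ann O (prt ρ) r (n + 1), ∃ t d, x = some (t, d) ∧ H t)
    (h2 : ∀ x ∈ Ann O (prt ρ) r (n + 1), x ∉ J → be x = x ∨
      ∃ t d, x = some (t, d) ∧ H (nbt t d) ∧ be x = some (nbt t d, d + 2)) :
    Loc s (pas s) be (Ann O (prt ρ) r (n + 1)) J id (prt ρ) H ρ r n where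
  som := by
    intro x hx
    obtain ⟨t, d, rfl, h3⟩ := h1 x hx
    have h4 : r < ρ t := hx.2.1
    have h5 : ρ t < n + 1 := hx.2.2
    exact ⟨t, d, rfl, h3, h4, by omega⟩
  al := fun _ _ _ => rfl
  be := by
    intro x hx hJ
    rcases h2 x hx hJ with h3 | ⟨t, d, h3, h4, h5⟩
    · exact Or.inl h3
    · refine Or.inr ⟨t, d, h3, h4, fun _ => h5, fun h6 => ?_, fun h6 => ?_⟩
      · rw [h5] at h6; exact h6
      · rw [h5] at h6; exact h6

/-- glueings of a region are geometric -/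
theorem gl_geo {K : Reg} {t : ℤ × ℤ} {d : ZMod 4} {q : Port (ℤ × ℤ)} (h : K.gl (some (t, d)) q) :
    t ∈ K.P ∧ nbt t d ∈ K.P ∧ q = some (nbt t d, d + 2) := by
  obtain ⟨x, y⟩ := t
  have a0 : (0 : ZMod 4) + 2 = 2 := by decide
  have a1 : (1 : ZMod 4) + 2 = 3 := by decide
  have a2 : (2 : ZMod 4) + 2 = 0 := by decide
  have a3 : (3 : ZMod 4) + 2 = 1 := by decide
  rcases Reg.d4 d with rfl | rfl | rfl | rfl
  · obtain ⟨h1, h2⟩ := Reg.gl_0.1 h
    have := K.hP _ _ h1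
    rw [sub_add_cancel] at this
    exact ⟨this.2, this.1, by rw [a0]; exact h2⟩
  · obtain ⟨h1, h2⟩ := Reg.gl_1.1 h
    have := K.vP _ _ h1
    exact ⟨this.1, this.2, by rw [a1]; exact h2⟩
  · obtain ⟨h1, h2⟩ := Reg.gl_2.1 h
    have := K.hP _ _ h1
    exact ⟨this.1, this.2, by rw [a2]; exact h2⟩
  · obtain ⟨h1, h2⟩ := Reg.gl_3.1 h
    have := K.vP _ _ h1
    rw [sub_add_cancel] at this
    exact ⟨this.2, this.1, by rw [a3]; exact h2⟩

/-- the radius changes by at most one -/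
theorem Dr.rho_nbt (D : Dr) (X Y : ℤ) (t : ℤ × ℤ) (d : ZMod 4) :
    D.rho X Y (nbt t d) ≤ D.rho X Y t + 1 := by
  obtain ⟨x, y⟩ := t
  rcases Reg.d4 d with rfl | rfl | rfl | rfl <;> cases D <;>
    simp only [Dr.rho, nbt_0, nbt_1, nbt_2, nbt_3] <;> omega

/-- the ports of the tiles of a region -/
def PO (K : Reg) : Set (Port (ℤ × ℤ)) := {x | ∃ t d, x = some (t, d) ∧ t ∈ K.P}

section word

variable {K : Reg} {w : Wd (ℤ × ℤ)} {b : ℤ × ℤ} {s : ℤ × ℤ → Bool}

/-- strands of a word are walks of the system `(pas, be)` -/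
theorem wk_rl (hw : RW K w b) {x y : Port (ℤ × ℤ)} (h : Wk s (gl w) x y) (hx : x ∈ PO K) :
    Rl (pas s) (Sw300.be w) (PO K) ∅ x y := by
  induction h with
  | one t d =>
    have : (Gc748.pt t (thru (s t) d) : Port (ℤ × ℤ)) ∈ PO K := by
      obtain ⟨t', d', h1, h2⟩ := hx
      obtain ⟨rfl, -⟩ := pt_inj.1 h1
      exact ⟨_, _, rfl, h2⟩
    exact ⟨hx, .single ⟨hx, this, Or.inl rfl⟩⟩
  | @step x y z v _ hg _ ih1 ih2 =>
    have h1 := ih1 hx
    have h2 := h1.right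
    have h3 : K.gl y z := hw.gp.1 hg
    have h4 : Sw300.be w y = z := ((hw.be _ _).1 h3).1
    have h5 : z ∈ PO K := by
      obtain ⟨t, d, rfl, -⟩ := h2
      obtain ⟨-, h6, h7⟩ := gl_geo h3
      exact ⟨_, _, h7, h6⟩
    refine h1.trans (Rl.trans ⟨h2, .single ⟨h2, h5, Or.inr ⟨h4.symm, by simp, by simp⟩⟩⟩ (ih2 h5))

/-- the glueing of a word of a region -/
theorem be_geo (hw : RW K w b) {x : Port (ℤ × ℤ)} (hx : x ∈ PO K) : Sw300.be w x = x ∨
    ∃ t d, x = some (t, d) ∧ nbt t d ∈ K.P ∧ Sw300.be w x = some (nbt t d, d + 2) := by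
  by_cases h : Sw300.be w x = x
  · exact Or.inl h
  · right
    have h1 : K.gl x (Sw300.be w x) := (hw.be _ _).2 ⟨rfl, fun e => h e.symm⟩
    obtain ⟨t, d, rfl, -⟩ := hx
    obtain ⟨-, h2, h3⟩ := gl_geo h1
    exact ⟨t, d, rfl, h2, h3⟩

/-- **word form, any region behind the wall**: two different arcs from radius `≤ r` to radius
`> n` -/
theorem word_ev (D : Dr) {X Y r n : ℤ} (hr : 0 ≤ r) (hrn : r < n) (hw : RW K w b)
    (hK : ∀ t ∈ K.P, D.H X Y t) {i j : Port (ℤ × ℤ)} (hi : i ∈ Sw300.L w) (hj : j ∈ Sw300.L w)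
    (hij : i ≠ j) (hM : Sw300.M s w i ≠ j) (ri : prt (D.rho X Y) i ≤ r)
    (rj : prt (D.rho X Y) j ≤ r) (ni : n < prt (D.rho X Y) (Sw300.M s w i))
    (nj : n < prt (D.rho X Y) (Sw300.M s w j)) : s ∈ Ev D X Y r n := by
  have g := hw.gd s
  have hbs : bs w ≠ none := by rw [hw.bas]; simp
  -- ends
  have ends : ∀ k, k ∈ Sw300.L w → n < prt (D.rho X Y) (Sw300.M s w k) →
      prt (D.rho X Y) k ≤ r → k ∈ PO K ∧ Sw300.M s w k ≠ k := by
    intro k hk h1 h2
    have h3 : Sw300.M s w k ≠ k := fun e => by rw [e] at h1; omega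
    refine ⟨?_, h3⟩
    rcases k with - | ⟨t, d⟩
    · exact absurd (M_none s hw.ok hbs) h3
    · exact ⟨t, d, rfl, hw.ts.1 (Gc748.inT_pt.1 (g.inL _ hk))⟩
  obtain ⟨ki, mi⟩ := ends i hi ni ri
  obtain ⟨kj, mj⟩ := ends j hj nj rj
  have wi := wk_rl hw (g.str i hi mi) ki
  have wj := wk_rl hw (g.str j hj mj) kj
  have hbi : Function.Involutive (Sw300.be w) := by
    intro x
    by_cases h : Sw300.be w x = x
    · rw [h, h]
    · have h1 : K.gl x (Sw300.be w x) := (hw.be _ _).2 ⟨rfl, fun e => h e.symm⟩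
      have h2 := (hw.gp.1 (hw.gp.2 h1).symm)
      exact ((hw.be _ _).1 h2).1
  have hρ : ∀ x ∈ PO K, x ∉ (∅ : Set (Port (ℤ × ℤ))) → Sw300.be w x ∈ PO K →
      prt (D.rho X Y) (Sw300.be w x) ≤ prt (D.rho X Y) x + 1 := by
    intro x hx _ _
    rcases be_geo hw hx with h1 | ⟨t, d, rfl, -, h2⟩
    · rw [h1]; omega
    · rw [h2, prt_some, prt_some]; exact D.rho_nbt X Y t d
  obtain ⟨p, q, h1, h2, h3, h4⟩ := wi.cross hbi (r := r) (R := n + 1) (by omega)
    (fun x _ => prt_pas _ s x) hρ ri (by omega)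
  obtain ⟨p', q', h1', h2', h3', h4'⟩ := wj.cross hbi (r := r) (R := n + 1) (by omega)
    (fun x _ => prt_pas _ s x) hρ rj (by omega)
  have hl : Loc s (pas s) (Sw300.be w) (Ann (PO K) (prt (D.rho X Y)) r (n + 1)) ∅ id
      (prt (D.rho X Y)) (D.H X Y) (D.rho X Y) r n := by
    refine loc_plain s (fun x hx => ?_) fun x hx _ => ?_
    · obtain ⟨t, d, h5, h6⟩ := hx.1
      exact ⟨t, d, h5, hK t h6⟩
    · rcases be_geo hw hx.1 with h5 | ⟨t, d, h5, h6, h7⟩
      · exact Or.inl h5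
      · exact Or.inr ⟨t, d, h5, hK _ h6, h7⟩
  refine two_ev D hr hrn hl h1 h2 h4 h1' h2' h4' fun e => ?_
  have e' : p = p' := e
  subst e'
  have hjoin : Rl (pas s) (Sw300.be w) (PO K) ∅ i j := h3.trans (h3'.symm (pas_inv s) hbi)
  have hss : SS s (some b) (gl w) (id i) (id j) := by
    refine rl_sides (φ := id) (fun _ _ _ => rfl) (fun x _ _ _ => ?_) hjoin
    by_cases h : Sw300.be w x = x
    · exact Or.inl h
    · exact Or.inr (hw.gp.2 ((hw.be _ _).2 ⟨rfl, fun e => h e.symm⟩))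
  rcases hss.eq_or g hi mi hj with h5 | h5
  · exact hij h5.symm
  · exact hM h5.symm

end word

/-! ### the stepped half annulus -/

/-- the ends facing the hole -/
noncomputable def Jl (X Y : ℤ) (r e : ℕ) : List (Port (ℤ × ℤ)) := JlS X Y r ++ (JlE X Y r ++ JlN X Y r e)

/-- the outer ends -/
noncomputable def Jo (X Y : ℤ) (n e : ℕ) : List (Port (ℤ × ℤ)) := JoW X Y n ++ (JoN X Y n ++ JoS X Y n e)

theorem jl_rho {X Y : ℤ} {r e : ℕ} (hr : 1 ≤ r) {i : Port (ℤ × ℤ)} (h : i ∈ Jl X Y r e) :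
    prt (Dr.E.rho (X + e) (Y - 1)) i ≤ r + 1 + e := by
  simp only [Jl, JlS, JlE, JlN, List.mem_append, mem_fl] at h
  rcases h with ⟨k, hk, rfl⟩ | ⟨k, hk, rfl⟩ | ⟨k, hk, rfl⟩ <;>
    simp only [prt_some, Dr.rho] <;> omega

theorem jo_rho {X Y : ℤ} {n e : ℕ} (hn : 1 ≤ n) {i : Port (ℤ × ℤ)} (h : i ∈ Jo X Y n e) :
    (n : ℤ) ≤ prt (Dr.E.rho (X + e) (Y - 1)) i := by
  simp only [Jo, JoW, JoN, JoS, List.mem_append, mem_fl] at h
  rcases h with ⟨k, hk, rfl⟩ | ⟨k, hk, rfl⟩ | ⟨k, hk, rfl⟩ <;>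
    simp only [prt_some, Dr.rho] <;> omega

/-- **stepped half annulus, deterministic half**: two different arcs between the hole and the outer
side give the (F3) event of the completed half annulus -/
theorem stp_ev {X Y : ℤ} {r n e : ℕ} (hr : 1 ≤ r) (hn : r + e + 2 < n) {w : Wd (ℤ × ℤ)}
    {b : ℤ × ℤ} (hw : RW (stp X Y r n e) w b) {s : ℤ × ℤ → Bool} {i j : Port (ℤ × ℤ)}
    (hi : i ∈ Sw300.L w) (hj : j ∈ Sw300.L w) (li : i ∈ Jl X Y r e) (lj : j ∈ Jl X Y r e)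
    (hij : i ≠ j) (oi : Sw300.M s w i ∈ Jo X Y n e) (oj : Sw300.M s w j ∈ Jo X Y n e) :
    s ∈ Ev Dr.E (X + e) (Y - 1) (r + 1 + e) (n - 1) := by
  have h1 := jl_rho hr li
  have h2 := jl_rho hr lj
  have h3 := jo_rho (by omega) oi
  have h4 := jo_rho (by omega) oj
  refine word_ev Dr.E (by omega) (by omega) hw (fun t ht => ?_) hi hj hij (fun e' => ?_) h1 h2
    (by omega) (by omega)
  · have := mem_stp.1 ht
    unfold InS at this
    simp only [Dr.H]
    omega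
  · rw [e'] at h3
    omega

theorem stp_arith {C c : ℝ} (hC : 1 ≤ C) (hc : 0 < c) (hc1 : c ≤ 1) {r n e : ℕ} (hr : 1 ≤ r)
    (hrn : r + 1 ≤ n) {x : ℝ} (hx : x ≤ 1)
    (h : r + e + 2 < n → x ≤ C * (((r + 1 + e : ℤ) : ℝ) / ((n - 1 : ℤ) : ℝ)) ^ (1 + c)) :
    x ≤ C * (2 * e + 4) ^ 2 * ((r : ℝ) / n) ^ (1 + c) := by
  have hr' : (1 : ℝ) ≤ r := by exact_mod_cast hr
  have hn' : (r : ℝ) + 1 ≤ n := by exact_mod_cast hrn
  have he : (0 : ℝ) ≤ e := Nat.cast_nonneg e
  have hn0 : (0 : ℝ) < n := by linarith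
  have hK : (1 : ℝ) ≤ 2 * e + 4 := by linarith
  have hpow : (2 * (e : ℝ) + 4) ^ (1 + c) ≤ (2 * e + 4) ^ 2 := by
    have := Real.rpow_le_rpow_of_exponent_le hK (show 1 + c ≤ ((2 : ℕ) : ℝ) by push_cast; linarith)
    rwa [Real.rpow_natCast] at this
  have hq : (0 : ℝ) ≤ (r : ℝ) / n := by positivity
  have hq2 : (0 : ℝ) ≤ ((r : ℝ) / n) ^ (1 + c) := Real.rpow_nonneg hq _
  have key : ∀ y : ℝ, 0 ≤ y → y ≤ (2 * e + 4) * ((r : ℝ) / n) →
      y ^ (1 + c) ≤ (2 * e + 4) ^ 2 * ((r : ℝ) / n) ^ (1 + c) := by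
    intro y hy0 hy
    refine (Real.rpow_le_rpow hy0 hy (by linarith)).trans ?_
    rw [Real.mul_rpow (by linarith) hq]
    exact mul_le_mul_of_nonneg_right hpow hq2
  by_cases h1 : r + e + 2 < n
  · refine (h h1).trans ?_
    have h2 : (r : ℝ) + e + 2 < n := by exact_mod_cast h1
    push_cast
    rw [mul_assoc]
    refine mul_le_mul_of_nonneg_left (key _ (div_nonneg (by linarith) (by linarith)) ?_)
      (by linarith)
    rw [mul_div_assoc', div_le_div_iff₀ (by linarith) hn0]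
    nlinarith [mul_nonneg he (sub_nonneg.2 hr')]
  · have h2 : (n : ℝ) ≤ r + e + 2 := by
      have : n ≤ r + e + 2 := by omega
      exact_mod_cast this
    have h3 := key 1 (by norm_num) (by
      rw [mul_div_assoc', le_div_iff₀ hn0]
      nlinarith [mul_nonneg he (sub_nonneg.2 hr')])
    rw [Real.one_rpow] at h3
    calc x ≤ 1 := hx
      _ ≤ 1 * ((2 * (e : ℝ) + 4) ^ 2 * ((r : ℝ) / n) ^ (1 + c)) := by rw [one_mul]; exact h3
      _ ≤ C * ((2 * (e : ℝ) + 4) ^ 2 * ((r : ℝ) / n) ^ (1 + c)) :=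
        mul_le_mul_of_nonneg_right hC (by positivity)
      _ = _ := by ring

/-- **stepped half annulus, probability**: exponent `1 + c` for two arcs between the hole and the
outer side -/
theorem stp_prob : ∃ c : ℝ, 0 < c ∧ c ≤ 1 ∧ ∀ e : ℕ, ∃ C : ℝ, 1 ≤ C ∧
    ∀ (X Y : ℤ) (r n : ℕ), 1 ≤ r → r + 1 ≤ n → ∀ (w : Wd (ℤ × ℤ)) (b : ℤ × ℤ),
    RW (stp X Y r n e) w b →
    (tau hf).real {s | ∃ i ∈ Sw300.L w, ∃ j ∈ Sw300.L w, i ∈ Jl X Y r e ∧ j ∈ Jl X Y r e ∧ i ≠ j ∧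
      Sw300.M s w i ∈ Jo X Y n e ∧ Sw300.M s w j ∈ Jo X Y n e} ≤
      C * ((r : ℝ) / n) ^ (1 + c) := by
  obtain ⟨C, c, hC, hc, hc1, h⟩ := ev_prob
  refine ⟨c, hc, hc1, fun e => ⟨C * (2 * e + 4) ^ 2, ?_, fun X Y r n hr hrn w b hw => ?_⟩⟩
  · have he : (0 : ℝ) ≤ e := Nat.cast_nonneg e
    nlinarith [sq_nonneg (e : ℝ)]
  · refine stp_arith hC hc hc1 hr hrn measureReal_le_one fun h1 => ?_
    refine (measureReal_mono ?_).trans (h Dr.E (X + e) (Y - 1) (r + 1 + e) (n - 1) (by omega)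
      (by omega))
    rintro s ⟨i, hi, j, hj, li, lj, hij, oi, oj⟩
    exact stp_ev hr h1 hw hi hj li lj hij oi oj

end Crest.Agent.R158.Pj679

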