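import Crest.Agent.R158.Sl9_434
import Crest.Agent.R158.Pj3_679
import Crest.Agent.R158.Wd2_377
import Crest.Agent.R158.Xr12_249
import Crest.Agent.R158.Csh_410
import Crest.Agent.R158.Mg2_949
import Crest.Agent.R158.Xr11_249
import Crest.Agent.R158.Pj4_679

-- ▼ part R158/Sl10_434
section

/-!
# R158, block SL (helper434), file Sl10: the right mouth

* `beD` calculus : `bW`, `bE`, `bN`, `bS`, ..
* **`loc_right`** : the region `(B, beD B p y0 xe)` contains the stepped half annulus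
  `stp xr y0 r n 1` around the right end `(xr, y0)` of the line
* **`eqF_right`** : adding tiles behind the wall inside the ball does not change the far part
-/

set_option autoImplicit false
set_option linter.unusedSectionVars false

noncomputable section

namespace Crest.Agent.R158.Sl434

open Crest.Agent.R158.Sw300 (Port Wd thru tls)
open Crest.Agent.R158.Gc748 (RW stp InS JoW JoN JoS JlS JlE JlN fl mem_fl mem_stp)
open Crest.Agent.R158.Xr249 (Nx rot Reg)
open Crest.Agent.R158.Env664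

/-! ### the glueing `beD` -/

section beD

variable {B : Finset (ℤ × ℤ)} {p y0 xe x y : ℤ}

theorem res_fix {A : Finset (ℤ × ℤ)} {nb : Port (ℤ × ℤ) → Port (ℤ × ℤ)} {x : Port (ℤ × ℤ)}
    (h : ¬ (PortOf A x ∧ PortOf A (nb x))) : res A nb x = x := by
  unfold res; rw [if_neg h]

theorem bW (h : (x, y) ∈ B) (h' : (x - 1, y) ∈ B) :
    beD B p y0 xe (some ((x, y), 0)) = some ((x - 1, y), 2) := by
  unfold beD
  rw [res_of (portOf_some.2 h) (by rw [nbD_W]; exact portOf_some.2 h'), nbD_W]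

theorem bE (h : (x, y) ∈ B) (h' : (x + 1, y) ∈ B) :
    beD B p y0 xe (some ((x, y), 2)) = some ((x + 1, y), 0) := by
  unfold beD
  rw [res_of (portOf_some.2 h) (by rw [nbD_E]; exact portOf_some.2 h'), nbD_E]

theorem bE' (h' : (x + 1, y) ∉ B) :
    beD B p y0 xe (some ((x, y), 2)) = some ((x, y), 2) := by
  unfold beD
  rw [res_fix]
  rintro ⟨-, h2⟩
  rw [nbD_E] at h2
  exact h' (portOf_some.1 h2)

theorem bW' (h' : (x - 1, y) ∉ B) :
    beD B p y0 xe (some ((x, y), 0)) = some ((x, y), 0) := by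
  unfold beD
  rw [res_fix]
  rintro ⟨-, h2⟩
  rw [nbD_W] at h2
  exact h' (portOf_some.1 h2)

theorem bN (hc : ¬ (y = y0 - 1 ∧ p ≤ x ∧ x ≤ xe)) (h : (x, y) ∈ B) (h' : (x, y + 1) ∈ B) :
    beD B p y0 xe (some ((x, y), 1)) = some ((x, y + 1), 3) := by
  unfold beD
  rw [res_of (portOf_some.2 h) (by rw [nbD_N hc]; exact portOf_some.2 h'), nbD_N hc]

theorem bN1 (hc : p ≤ x ∧ x ≤ xe) (h : (x, y0 - 1) ∈ B) (h' : (x + 1, y0) ∈ B) :
    beD B p y0 xe (some ((x, y0 - 1), 1)) = some ((x + 1, y0), 3) := by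
  unfold beD
  rw [res_of (portOf_some.2 h) (by rw [nbD_N1 ⟨rfl, hc⟩]; exact portOf_some.2 h'),
    nbD_N1 ⟨rfl, hc⟩]

theorem bS (hc : ¬ (y = y0 ∧ p ≤ x ∧ x ≤ xe) ∧ ¬ (y = y0 ∧ x = p)) (h : (x, y) ∈ B)
    (h' : (x, y - 1) ∈ B) : beD B p y0 xe (some ((x, y), 3)) = some ((x, y - 1), 1) := by
  unfold beD
  rw [res_of (portOf_some.2 h) (by rw [nbD_S hc]; exact portOf_some.2 h'), nbD_S hc]

theorem bS1 (hc : p < x ∧ x ≤ xe) (h : (x, y0) ∈ B) (h' : (x - 1, y0 - 1) ∈ B) :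
    beD B p y0 xe (some ((x, y0), 3)) = some ((x - 1, y0 - 1), 1) := by
  unfold beD
  rw [res_of (portOf_some.2 h) (by rw [nbD_S1 ⟨rfl, hc⟩]; exact portOf_some.2 h'),
    nbD_S1 ⟨rfl, hc⟩]

/-- the partner of a port is itself or the partner in the lattice -/
theorem beD_cases (B : Finset (ℤ × ℤ)) (p y0 xe : ℤ) (q : Port (ℤ × ℤ)) :
    beD B p y0 xe q = q ∨
      (PortOf B q ∧ PortOf B (nbD p y0 xe q) ∧ beD B p y0 xe q = nbD p y0 xe q) := by
  unfold beD
  by_cases h : PortOf B q ∧ PortOf B (nbD p y0 xe q)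
  · exact Or.inr ⟨h.1, h.2, res_of h.1 h.2⟩
  · exact Or.inl (res_fix h)

end beD

/-! ### the right mouth -/

/-- chart at the right mouth: the lower rows are moved one column to the right -/
def psR (y0 : ℤ) (t : ℤ × ℤ) : ℤ × ℤ := if t.2 < y0 then (t.1 + 1, t.2) else t
/-- inverse chart -/
def phR (y0 : ℤ) (c : ℤ × ℤ) : ℤ × ℤ := if c.2 < y0 then (c.1 - 1, c.2) else c

theorem psR_lo {y0 x y : ℤ} (h : y < y0) : psR y0 (x, y) = (x + 1, y) := if_pos h
theorem psR_up {y0 x y : ℤ} (h : ¬ y < y0) : psR y0 (x, y) = (x, y) := if_neg h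
theorem phR_lo {y0 x y : ℤ} (h : y < y0) : phR y0 (x, y) = (x - 1, y) := if_pos h
theorem phR_up {y0 x y : ℤ} (h : ¬ y < y0) : phR y0 (x, y) = (x, y) := if_neg h

theorem ps_ph (y0 : ℤ) (c : ℤ × ℤ) : psR y0 (phR y0 c) = c := by
  obtain ⟨x, y⟩ := c
  by_cases h : y < y0
  · rw [phR_lo h, psR_lo h, sub_add_cancel]
  · rw [phR_up h, psR_up h]

theorem ph_ps (y0 : ℤ) (c : ℤ × ℤ) : phR y0 (psR y0 c) = c := by
  obtain ⟨x, y⟩ := c
  by_cases h : y < y0
  · rw [psR_lo h, phR_lo h, add_sub_cancel_right]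
  · rw [psR_up h, phR_up h]

/-- annulus tiles at the right mouth -/
def AtR (xr y0 : ℤ) (r n : ℕ) : Set (ℤ × ℤ) := {t | InS xr y0 r n 1 (psR y0 t)}
/-- inner tiles at the right mouth, and the place of the stub -/
def InR (xr y0 k : ℤ) (r : ℕ) : Set (ℤ × ℤ) :=
  {t | y0 - r ≤ t.2 ∧ t.2 < y0 + r ∧ (t.2 < y0 → xr - r - 1 < t.1) ∧ (y0 ≤ t.2 → xr - r < t.1) ∧
    t.1 ≤ xr + k}
/-- far tiles at the right mouth -/
def FtR (xr y0 k : ℤ) (r n : ℕ) : Set (ℤ × ℤ) := {t | t ∉ AtR xr y0 r n ∧ t ∉ InR xr y0 k r}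

/-- the region near the right mouth: the box of radius `n + 1` left of the wall is full, behind the
wall there are at most tiles of the stub -/
structure MouthR (B : Finset (ℤ × ℤ)) (p y0 xr xe k : ℤ) (r n : ℕ) : Prop where
  hr : 1 ≤ r
  hn : r + 1 ≤ n
  hk : 0 ≤ k
  box : ∀ x y, xr - n - 1 ≤ x → x ≤ xr → y0 - n - 1 ≤ y → y ≤ y0 + n → (x, y) ∈ B
  out : ∀ x y, xr < x → x ≤ xr + k + 1 → y0 - n ≤ y → y < y0 + n → (x, y) ∈ B →
    x ≤ xr + k ∧ y0 - r ≤ y ∧ y < y0 + r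
  hp : p ≤ xr - n
  e1 : xr ≤ xe
  e2 : xe ≤ xr + k
  end' : (xe + 1, y0) ∉ B

section right

variable {B : Finset (ℤ × ℤ)} {p y0 xr xe k : ℤ} {r n : ℕ}

theorem mem_AtR {x y : ℤ} : (x, y) ∈ AtR xr y0 r n ↔
    (y < y0 ∧ xr - n < x + 1 ∧ x ≤ xr ∧ y0 - n ≤ y ∧ ¬ (xr - r < x + 1 ∧ y0 - r ≤ y)) ∨
    (y0 ≤ y ∧ xr - n < x ∧ x ≤ xr ∧ y < y0 + n ∧ ¬ (xr - r < x ∧ y < y0 + r)) := by
  show InS xr y0 r n 1 (psR y0 (x, y)) ↔ _
  by_cases h : y < y0
  · rw [psR_lo h]; unfold InS; simp only; omega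
  · rw [psR_up h]; unfold InS; simp only; omega

theorem mem_InR {x y : ℤ} : (x, y) ∈ InR xr y0 k r ↔
    (y0 - r ≤ y ∧ y < y0 + r ∧ (y < y0 → xr - r - 1 < x) ∧ (y0 ≤ y → xr - r < x) ∧ x ≤ xr + k) :=
  Iff.rfl

theorem mem_FtR {x y : ℤ} : (x, y) ∈ FtR xr y0 k r n ↔
    ((x, y) ∉ AtR xr y0 r n ∧ (x, y) ∉ InR xr y0 k r) := Iff.rfl

/-- the ball is closed under the glueing up to the annulus -/
theorem MouthR.closed (h : MouthR B p y0 xr xe k r n) {t : ℤ × ℤ} (ht : t ∈ InR xr y0 k r)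
    (d : ZMod 4) : beD B p y0 xe (some (t, d)) ∈ Ap (InR xr y0 k r) ∪ Ap (AtR xr y0 r n) := by
  obtain ⟨hr, hn, hk, hbox, hout, hp, he1, he2, hend⟩ := h
  obtain ⟨x, y⟩ := t
  rcases beD_cases B p y0 xe (some ((x, y), d)) with h1 | ⟨h1, h2, h3⟩
  · rw [h1]; exact Or.inl (some_Ap.2 ht)
  rw [h3]
  rw [mem_InR] at ht
  have m1 := portOf_some.1 h1
  rcases z4 d with rfl | rfl | rfl | rfl
  · rw [nbD_W] at h2 ⊢
    by_cases hc : (x - 1, y) ∈ InR xr y0 k r
    · exact Or.inl (some_Ap.2 hc)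
    · right
      rw [some_Ap, mem_AtR]
      rw [mem_InR] at hc
      omega
  · by_cases hc : y = y0 - 1 ∧ p ≤ x ∧ x ≤ xe
    · rw [nbD_N1 hc] at h2 ⊢
      have m2 := portOf_some.1 h2
      left
      rw [some_Ap, mem_InR]
      have h4 : x + 1 ≤ xr + k := by
        by_contra hcon
        have := hout (x + 1) y0 (by omega) (by omega) (by omega) (by omega) m2
        omega
      omega
    · rw [nbD_N hc] at h2 ⊢
      have m2 := portOf_some.1 h2
      by_cases hc2 : (x, y + 1) ∈ InR xr y0 k r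
      · exact Or.inl (some_Ap.2 hc2)
      · right
        rw [some_Ap, mem_AtR]
        rw [mem_InR] at hc2
        by_cases hx : x ≤ xr
        · omega
        · exfalso
          by_cases hy : y + 1 < y0 + n
          · have := hout x (y + 1) (by omega) (by omega) (by omega) (by omega) m2
            omega
          · omega
  · rw [nbD_E] at h2 ⊢
    have m2 := portOf_some.1 h2
    by_cases hc : (x + 1, y) ∈ InR xr y0 k r
    · exact Or.inl (some_Ap.2 hc)
    · exfalso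
      rw [mem_InR] at hc
      have h4 : x = xr + k := by omega
      have := hout (x + 1) y (by omega) (by omega) (by omega) (by omega) m2
      omega
  · by_cases hc : y = y0 ∧ x = p
    · exfalso; omega
    by_cases hc2 : y = y0 ∧ p < x ∧ x ≤ xe
    · rw [nbD_S1 hc2] at h2 ⊢
      left
      rw [some_Ap, mem_InR]
      omega
    · rw [nbD_S (by omega)] at h2 ⊢
      have m2 := portOf_some.1 h2
      by_cases hc3 : (x, y - 1) ∈ InR xr y0 k r
      · exact Or.inl (some_Ap.2 hc3)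
      · right
        rw [some_Ap, mem_AtR]
        rw [mem_InR] at hc3
        by_cases hx : x ≤ xr
        · omega
        · exfalso
          by_cases hy : y0 - n ≤ y - 1
          · have := hout x (y - 1) (by omega) (by omega) (by omega) (by omega) m2
            omega
          · omega

theorem MouthR.inv (h : MouthR B p y0 xr xe k r n) : Function.Involutive (beD B p y0 xe) :=
  beD_invol (by have := h.hp; have := h.e1; omega) h.end'

/-- **the right mouth** -/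
theorem MouthR.loc (h : MouthR B p y0 xr xe k r n) :
    Loc (stp xr y0 r n 1) (Gc748.N1 xr y0 r n) (Jls xr y0 r 1) (Gc748.N2 xr y0 r n 1)
      (Jos xr y0 n 1) (beD B p y0 xe) (FtR xr y0 k r n) (AtR xr y0 r n) (psR y0) (phR y0) 0 := by
  have hcl := fun t ht d => h.closed (t := t) ht d
  have hinv := h.inv
  obtain ⟨hr, hn, hk, hbox, hout, hp, he1, he2, hend⟩ := h
  have hms : ∀ c ∈ (stp xr y0 r n 1).P, phR y0 c ∈ AtR xr y0 r n := by
    intro c hc
    show InS xr y0 r n 1 (psR y0 (phR y0 c))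
    rw [ps_ph]; exact mem_stp.1 hc
  refine ⟨fun t ht => ht.1, fun t ht => mem_stp.2 ht, fun t _ => ph_ps y0 t, hms,
    fun c _ => ps_ph y0 c, hinv, ?_, ?_, ?_, ?_, ?_⟩
  · -- glued
    intro a b hab
    rcases a with _ | ⟨⟨x, y⟩, d⟩
    · exact hab.elim
    rcases z4 d with rfl | rfl | rfl | rfl
    · obtain ⟨h1, rfl⟩ := Xr249.Reg.gl_0.1 hab
      rw [Gc748.stp_h] at h1
      unfold InS at h1
      simp only [pm_some, neg_zero, add_zero]
      by_cases hy : y < y0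
      · rw [phR_lo hy, phR_lo hy, bW (hbox _ _ (by omega) (by omega) (by omega) (by omega))
          (hbox _ _ (by omega) (by omega) (by omega) (by omega))]
      · rw [phR_up hy, phR_up hy, bW (hbox _ _ (by omega) (by omega) (by omega) (by omega))
          (hbox _ _ (by omega) (by omega) (by omega) (by omega))]
    · obtain ⟨h1, rfl⟩ := Xr249.Reg.gl_1.1 hab
      rw [Gc748.stp_v] at h1
      unfold InS at h1
      simp only [pm_some, neg_zero, add_zero]
      by_cases hy : y + 1 < y0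
      · rw [phR_lo hy, phR_lo (by omega : y < y0), bN (by omega)
          (hbox _ _ (by omega) (by omega) (by omega) (by omega))
          (hbox _ _ (by omega) (by omega) (by omega) (by omega))]
      by_cases hy2 : y < y0
      · have e : y = y0 - 1 := by omega
        subst e
        rw [phR_lo hy2, phR_up (by omega), bN1 (by omega)
          (hbox _ _ (by omega) (by omega) (by omega) (by omega))
          (hbox _ _ (by omega) (by omega) (by omega) (by omega))]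
        rw [sub_add_cancel, sub_add_cancel]
      · rw [phR_up hy, phR_up hy2, bN (by omega)
          (hbox _ _ (by omega) (by omega) (by omega) (by omega))
          (hbox _ _ (by omega) (by omega) (by omega) (by omega))]
    · obtain ⟨h1, rfl⟩ := Xr249.Reg.gl_2.1 hab
      rw [Gc748.stp_h] at h1
      unfold InS at h1
      simp only [pm_some, neg_zero, add_zero]
      by_cases hy : y < y0
      · rw [phR_lo hy, phR_lo hy, bE (hbox _ _ (by omega) (by omega) (by omega) (by omega))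
          (hbox _ _ (by omega) (by omega) (by omega) (by omega))]
        rw [sub_add_cancel, add_sub_cancel_right]
      · rw [phR_up hy, phR_up hy, bE (hbox _ _ (by omega) (by omega) (by omega) (by omega))
          (hbox _ _ (by omega) (by omega) (by omega) (by omega))]
    · obtain ⟨h1, rfl⟩ := Xr249.Reg.gl_3.1 hab
      rw [Gc748.stp_v] at h1
      unfold InS at h1
      simp only [pm_some, neg_zero, add_zero]
      by_cases hy : y < y0
      · rw [phR_lo hy, phR_lo (by omega : y - 1 < y0), bS (by omega)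
          (hbox _ _ (by omega) (by omega) (by omega) (by omega))
          (hbox _ _ (by omega) (by omega) (by omega) (by omega))]
      by_cases hy2 : y = y0
      · subst hy2
        rw [phR_up hy, phR_lo (by omega), bS1 (by omega)
          (hbox _ _ (by omega) (by omega) (by omega) (by omega))
          (hbox _ _ (by omega) (by omega) (by omega) (by omega))]
      · rw [phR_up hy, phR_up (by omega), bS (by omega)
          (hbox _ _ (by omega) (by omega) (by omega) (by omega))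
          (hbox _ _ (by omega) (by omega) (by omega) (by omega))]
  · -- wall
    intro a ha
    have hw : ∀ y, y0 - n ≤ y → y < y0 + n → ¬ (y0 - r ≤ y ∧ y < y0 + r) → (xr + 1, y) ∉ B := by
      intro y h1 h2 h3 h4
      have := hout (xr + 1) y (by omega) (by omega) h1 h2 h4
      omega
    rcases List.mem_append.1 ha with ha | ha <;> obtain ⟨i, hi, rfl⟩ := mem_fl.1 ha
    · simp only [pm_some, neg_zero, add_zero]
      rw [phR_up (by omega), bE' (hw _ (by omega) (by omega) (by omega))]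
    · simp only [pm_some, neg_zero, add_zero]
      rw [phR_lo (by omega)]
      have e : xr + ((1 : ℕ) : ℤ) - 1 = xr := by push_cast; ring
      rw [e, bE' (hw _ (by omega) (by omega) (by omega))]
  · -- inner
    intro a ha
    have key : ∀ {x y : ℤ} {d : ZMod 4}, (x, y) ∈ InR xr y0 k r →
        (some ((x, y), d) : Port (ℤ × ℤ)) ∉ Fp (FtR xr y0 k r n) ∪ Ap (AtR xr y0 r n) := by
      intro x y d hxy hcon
      rcases hcon with hcon | hcon
      · exact (some_Fp.1 hcon).2 hxy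
      · have h1 := some_Ap.1 hcon
        rw [mem_AtR] at h1
        rw [mem_InR] at hxy
        omega
    unfold Jls at ha
    simp only [List.mem_append] at ha
    rcases ha with (ha | ha) | ha <;> obtain ⟨i, hi, rfl⟩ := mem_fl.1 ha
    · simp only [pm_some, neg_zero, add_zero]
      rw [phR_up (by omega), bS (by omega) (hbox _ _ (by omega) (by omega) (by omega) (by omega))
        (hbox _ _ (by omega) (by omega) (by omega) (by omega))]
      exact key (by rw [mem_InR]; omega)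
    · simp only [pm_some, neg_zero, add_zero]
      by_cases hy : y0 + r - 1 - i < y0
      · rw [phR_lo hy, bE (hbox _ _ (by omega) (by omega) (by omega) (by omega))
          (hbox _ _ (by omega) (by omega) (by omega) (by omega))]
        exact key (by rw [mem_InR]; omega)
      · rw [phR_up hy, bE (hbox _ _ (by omega) (by omega) (by omega) (by omega))
          (hbox _ _ (by omega) (by omega) (by omega) (by omega))]
        exact key (by rw [mem_InR]; omega)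
    · simp only [pm_some, neg_zero, add_zero]
      rw [phR_lo (by omega), bN (by omega) (hbox _ _ (by omega) (by omega) (by omega) (by omega))
        (hbox _ _ (by omega) (by omega) (by omega) (by omega))]
      exact key (by rw [mem_InR]; omega)
  · -- outer
    intro a ha
    have key : ∀ {x y : ℤ} {d : ZMod 4}, (x, y) ∉ InR xr y0 k r → (x, y) ∉ AtR xr y0 r n →
        (some ((x, y), d) : Port (ℤ × ℤ)) ∈ Fp (FtR xr y0 k r n) := by
      intro x y d h1 h2
      exact some_Fp.2 ⟨h2, h1⟩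
    unfold Jos at ha
    simp only [List.mem_append] at ha
    rcases ha with (ha | ha) | ha <;> obtain ⟨i, hi, rfl⟩ := mem_fl.1 ha
    · simp only [pm_some, neg_zero, add_zero]
      rw [phR_lo (by omega), bS (by omega) (hbox _ _ (by omega) (by omega) (by omega) (by omega))
        (hbox _ _ (by omega) (by omega) (by omega) (by omega))]
      exact key (by rw [mem_InR]; omega) (by rw [mem_AtR]; omega)
    · simp only [pm_some, neg_zero, add_zero]
      by_cases hy : y0 - n + i < y0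
      · rw [phR_lo hy, bW (hbox _ _ (by omega) (by omega) (by omega) (by omega))
          (hbox _ _ (by omega) (by omega) (by omega) (by omega))]
        exact key (by rw [mem_InR]; omega) (by rw [mem_AtR]; omega)
      · rw [phR_up hy, bW (hbox _ _ (by omega) (by omega) (by omega) (by omega))
          (hbox _ _ (by omega) (by omega) (by omega) (by omega))]
        exact key (by rw [mem_InR]; omega) (by rw [mem_AtR]; omega)
    · simp only [pm_some, neg_zero, add_zero]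
      rw [phR_up (by omega), bN (by omega) (hbox _ _ (by omega) (by omega) (by omega) (by omega))
        (hbox _ _ (by omega) (by omega) (by omega) (by omega))]
      exact key (by rw [mem_InR]; omega) (by rw [mem_AtR]; omega)
  · -- far
    intro a ha
    by_contra hcon
    rw [Set.mem_union, not_or] at hcon
    have hI : beD B p y0 xe a ∈ Ap (InR xr y0 k r) := by
      rcases hb : beD B p y0 xe a with _ | ⟨t, d⟩
      · rw [hb] at hcon; exact absurd (none_Fp _) hcon.1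
      · rw [hb] at hcon
        rw [some_Ap]
        by_contra h1
        exact hcon.1 (some_Fp.2 ⟨fun h2 => hcon.2 (some_Ap.2 h2), h1⟩)
    obtain ⟨⟨t, d⟩, hb, ht⟩ := hI
    have h2 := hcl t ht d
    rw [← hb, hinv a] at h2
    rcases h2 with ⟨⟨t', d'⟩, rfl, h3⟩ | ⟨⟨t', d'⟩, rfl, h3⟩
    · exact (some_Fp.1 ha).2 h3
    · exact (some_Fp.1 ha).1 h3

/-- **the far part does not change** -/
theorem MouthR.eqF {A B' : Finset (ℤ × ℤ)} {xe' : ℤ} (h : MouthR A p y0 xr xe k r n)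
    (h' : MouthR B' p y0 xr xe' k r n) (hs : A ⊆ B') (hd : ∀ t ∈ B', t ∉ A → t ∈ InR xr y0 k r)
    {a : Port (ℤ × ℤ)} (ha : a ∈ Fp (FtR xr y0 k r n)) :
    beD B' p y0 xe' a = beD A p y0 xe a := by
  have hcl := fun t ht d => h'.closed (t := t) ht d
  have hinv := h'.inv
  have hr := h.hr
  have hn := h.hn
  have hp := h.hp
  have e1 := h.e1
  have e2 := h.e2
  have e1' := h'.e1
  have e2' := h'.e2
  -- the same lattice partner
  have hnb : nbD p y0 xe' a = nbD p y0 xe a := by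
    rcases a with _ | ⟨⟨x, y⟩, d⟩
    · rfl
    have hf := some_Fp.1 ha
    rw [mem_FtR, mem_InR] at hf
    rcases z4 d with rfl | rfl | rfl | rfl
    · rfl
    · by_cases hc : y = y0 - 1 ∧ p ≤ x ∧ x ≤ xe
      · rw [nbD_N1 hc, nbD_N1 (by omega)]
      · rw [nbD_N hc, nbD_N (by omega)]
    · rfl
    · by_cases hc : y = y0 ∧ x = p
      · rw [nbD_Sleg hc, nbD_Sleg hc]
      by_cases hc2 : y = y0 ∧ p < x ∧ x ≤ xe
      · rw [nbD_S1 hc2, nbD_S1 (by omega)]
      · rw [nbD_S (by omega), nbD_S (by omega)]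
  have hpa : PortOf B' a ↔ PortOf A a := by
    rcases a with _ | ⟨t, d⟩
    · exact ⟨fun _ => portOf_none _, fun _ => portOf_none _⟩
    · rw [portOf_some, portOf_some]
      refine ⟨fun h1 => ?_, fun h1 => hs h1⟩
      by_contra h2
      exact (some_Fp.1 ha).2 (hd t h1 h2)
  unfold beD
  by_cases hc : PortOf A a ∧ PortOf A (nbD p y0 xe a)
  · rw [res_of hc.1 hc.2]
    have h2 : PortOf B' (nbD p y0 xe' a) := by
      rw [hnb]
      intro z hz
      exact hs (hc.2 z hz)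
    rw [res_of (hpa.2 hc.1) h2, hnb]
  · rw [res_fix hc]
    by_contra hne
    rcases beD_cases B' p y0 xe' a with h1 | ⟨h1, h2, h3⟩
    · exact hne h1
    · apply hc
      refine ⟨hpa.1 h1, ?_⟩
      rw [hnb] at h2 h3
      rcases hq : nbD p y0 xe a with _ | ⟨t, d⟩
      · exact portOf_none _
      · rw [hq] at h2 h3
        rw [portOf_some] at h2 ⊢
        by_contra h4
        have h5 := hcl t (hd t h2 h4) d
        rw [← h3, hinv a] at h5
        rcases h5 with ⟨⟨t', d'⟩, rfl, h6⟩ | ⟨⟨t', d'⟩, rfl, h6⟩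
        · exact (some_Fp.1 ha).2 h6
        · exact (some_Fp.1 ha).1 h6

end right

end Crest.Agent.R158.Sl434
end
end

-- ▼ part R158/Sl11_434
section

/-!
# R158, block SL (helper434), file Sl11: the left mouth

The chart is the half turn `(x, y) ↦ (-x, -y)`; there is no dislocation at the left wall.
-/

set_option autoImplicit false
set_option linter.unusedSectionVars false

noncomputable section

namespace Crest.Agent.R158.Sl434

open Crest.Agent.R158.Sw300 (Port Wd thru tls)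
open Crest.Agent.R158.Gc748 (RW stp InS JoW JoN JoS JlS JlE JlN fl mem_fl mem_stp)
open Crest.Agent.R158.Xr249 (Nx rot Reg)
open Crest.Agent.R158.Env664

/-- the half turn -/
def ngT (t : ℤ × ℤ) : ℤ × ℤ := (-t.1, -t.2)

theorem ng_ng (t : ℤ × ℤ) : ngT (ngT t) = t := by
  unfold ngT; simp

/-- annulus tiles at the left mouth -/
def AtL (xl y0 : ℤ) (r n : ℕ) : Set (ℤ × ℤ) := {t | InS (-xl) (1 - y0) r n 0 (ngT t)}
/-- inner tiles at the left mouth, and the place of the stub -/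
def InL (xl y0 k : ℤ) (r : ℕ) : Set (ℤ × ℤ) :=
  {t | y0 - r ≤ t.2 ∧ t.2 < y0 + r ∧ t.1 < xl + r ∧ xl - k ≤ t.1}
/-- far tiles at the left mouth -/
def FtL (xl y0 k : ℤ) (r n : ℕ) : Set (ℤ × ℤ) := {t | t ∉ AtL xl y0 r n ∧ t ∉ InL xl y0 k r}

/-- the region near the left mouth -/
structure MouthL (B : Finset (ℤ × ℤ)) (p y0 xl xe k : ℤ) (r n : ℕ) : Prop where
  hr : 1 ≤ r
  hn : r + 1 ≤ n
  hk : 0 ≤ k
  box : ∀ x y, xl ≤ x → x ≤ xl + n → y0 - n - 1 ≤ y → y ≤ y0 + n → (x, y) ∈ B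
  out : ∀ x y, xl - k - 1 ≤ x → x < xl → y0 - n ≤ y → y < y0 + n → (x, y) ∈ B →
    xl - k ≤ x ∧ y0 - r ≤ y ∧ y < y0 + r
  hp : xl + n < p
  hpe : p ≤ xe
  end' : (xe + 1, y0) ∉ B

theorem m02 : (0 : ZMod 4) + -2 = 2 := by decide
theorem m12 : (1 : ZMod 4) + -2 = 3 := by decide
theorem m22 : (2 : ZMod 4) + -2 = 0 := by decide
theorem m32 : (3 : ZMod 4) + -2 = 1 := by decide

section left

variable {B : Finset (ℤ × ℤ)} {p y0 xl xe k : ℤ} {r n : ℕ}

theorem mem_AtL {x y : ℤ} : (x, y) ∈ AtL xl y0 r n ↔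
    (xl ≤ x ∧ x < xl + n ∧ y0 - n ≤ y ∧ y < y0 + n ∧
      ¬ (x < xl + r ∧ y0 - r ≤ y ∧ y < y0 + r)) := by
  show InS (-xl) (1 - y0) r n 0 (-x, -y) ↔ _
  unfold InS
  simp only
  push_cast
  omega

theorem mem_InL {x y : ℤ} : (x, y) ∈ InL xl y0 k r ↔
    (y0 - r ≤ y ∧ y < y0 + r ∧ x < xl + r ∧ xl - k ≤ x) := Iff.rfl

theorem MouthL.closed (h : MouthL B p y0 xl xe k r n) {t : ℤ × ℤ} (ht : t ∈ InL xl y0 k r)
    (d : ZMod 4) : beD B p y0 xe (some (t, d)) ∈ Ap (InL xl y0 k r) ∪ Ap (AtL xl y0 r n) := by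
  obtain ⟨hr, hn, hk, hbox, hout, hp, hpe, hend⟩ := h
  obtain ⟨x, y⟩ := t
  rcases beD_cases B p y0 xe (some ((x, y), d)) with h1 | ⟨h1, h2, h3⟩
  · rw [h1]; exact Or.inl (some_Ap.2 ht)
  rw [h3]
  rw [mem_InL] at ht
  rcases z4 d with rfl | rfl | rfl | rfl
  · rw [nbD_W] at h2 ⊢
    have m2 := portOf_some.1 h2
    by_cases hc : (x - 1, y) ∈ InL xl y0 k r
    · exact Or.inl (some_Ap.2 hc)
    · exfalso
      rw [mem_InL] at hc
      have := hout (x - 1) y (by omega) (by omega) (by omega) (by omega) m2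
      omega
  · rw [nbD_N (by omega)] at h2 ⊢
    have m2 := portOf_some.1 h2
    by_cases hc2 : (x, y + 1) ∈ InL xl y0 k r
    · exact Or.inl (some_Ap.2 hc2)
    · right
      rw [some_Ap, mem_AtL]
      rw [mem_InL] at hc2
      by_cases hx : xl ≤ x
      · omega
      · exfalso
        have := hout x (y + 1) (by omega) (by omega) (by omega) (by omega) m2
        omega
  · rw [nbD_E] at h2 ⊢
    by_cases hc : (x + 1, y) ∈ InL xl y0 k r
    · exact Or.inl (some_Ap.2 hc)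
    · right
      rw [some_Ap, mem_AtL]
      rw [mem_InL] at hc
      omega
  · rw [nbD_S (by omega)] at h2 ⊢
    have m2 := portOf_some.1 h2
    by_cases hc3 : (x, y - 1) ∈ InL xl y0 k r
    · exact Or.inl (some_Ap.2 hc3)
    · right
      rw [some_Ap, mem_AtL]
      rw [mem_InL] at hc3
      by_cases hx : xl ≤ x
      · omega
      · exfalso
        have := hout x (y - 1) (by omega) (by omega) (by omega) (by omega) m2
        omega

theorem MouthL.inv (h : MouthL B p y0 xl xe k r n) : Function.Involutive (beD B p y0 xe) :=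
  beD_invol h.hpe h.end'

/-- **the left mouth** -/
theorem MouthL.loc (h : MouthL B p y0 xl xe k r n) :
    Loc (stp (-xl) (1 - y0) r n 0) (Gc748.N1 (-xl) (1 - y0) r n) (Jls (-xl) (1 - y0) r 0)
      (Gc748.N2 (-xl) (1 - y0) r n 0) (Jos (-xl) (1 - y0) n 0) (beD B p y0 xe)
      (FtL xl y0 k r n) (AtL xl y0 r n) ngT ngT 2 := by
  have hcl := fun t ht d => h.closed (t := t) ht d
  have hinv := h.inv
  obtain ⟨hr, hn, hk, hbox, hout, hp, hpe, hend⟩ := h
  have hms : ∀ c ∈ (stp (-xl) (1 - y0) r n 0).P, ngT c ∈ AtL xl y0 r n := by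
    intro c hc
    show InS (-xl) (1 - y0) r n 0 (ngT (ngT c))
    rw [ng_ng]; exact mem_stp.1 hc
  refine ⟨fun t ht => ht.1, fun t ht => mem_stp.2 ht, fun t _ => ng_ng t, hms,
    fun c _ => ng_ng c, hinv, ?_, ?_, ?_, ?_, ?_⟩
  · -- glued
    intro a b hab
    rcases a with _ | ⟨⟨x, y⟩, d⟩
    · exact hab.elim
    rcases z4 d with rfl | rfl | rfl | rfl
    · obtain ⟨h1, rfl⟩ := Xr249.Reg.gl_0.1 hab
      rw [Gc748.stp_h] at h1
      unfold InS at h1
      simp only [pm_some, m02, m22, ngT]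
      rw [bE (hbox _ _ (by omega) (by omega) (by omega) (by omega))
          (hbox _ _ (by omega) (by omega) (by omega) (by omega))]
      have e : -(x - 1) = -x + 1 := by ring
      rw [e]
    · obtain ⟨h1, rfl⟩ := Xr249.Reg.gl_1.1 hab
      rw [Gc748.stp_v] at h1
      unfold InS at h1
      simp only [pm_some, m12, m32, ngT]
      rw [bS (by omega) (hbox _ _ (by omega) (by omega) (by omega) (by omega))
          (hbox _ _ (by omega) (by omega) (by omega) (by omega))]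
      have e : -(y + 1) = -y - 1 := by ring
      rw [e]
    · obtain ⟨h1, rfl⟩ := Xr249.Reg.gl_2.1 hab
      rw [Gc748.stp_h] at h1
      unfold InS at h1
      simp only [pm_some, m02, m22, ngT]
      rw [bW (hbox _ _ (by omega) (by omega) (by omega) (by omega))
          (hbox _ _ (by omega) (by omega) (by omega) (by omega))]
      have e : -(x + 1) = -x - 1 := by ring
      rw [e]
    · obtain ⟨h1, rfl⟩ := Xr249.Reg.gl_3.1 hab
      rw [Gc748.stp_v] at h1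
      unfold InS at h1
      simp only [pm_some, m12, m32, ngT]
      rw [bN (by omega) (hbox _ _ (by omega) (by omega) (by omega) (by omega))
          (hbox _ _ (by omega) (by omega) (by omega) (by omega))]
      have e : -(y - 1) = -y + 1 := by ring
      rw [e]
  · -- wall
    intro a ha
    have hw : ∀ y, y0 - n ≤ y → y < y0 + n → ¬ (y0 - r ≤ y ∧ y < y0 + r) → (xl - 1, y) ∉ B := by
      intro y h1 h2 h3 h4
      have := hout (xl - 1) y (by omega) (by omega) h1 h2 h4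
      omega
    rcases List.mem_append.1 ha with ha | ha <;> obtain ⟨i, hi, rfl⟩ := mem_fl.1 ha
    · simp only [pm_some, m22, ngT, neg_neg]
      rw [bW' (hw _ (by omega) (by omega) (by omega))]
    · simp only [pm_some, m22, ngT]
      have e : -(-xl + ((0 : ℕ) : ℤ)) = xl := by push_cast; ring
      rw [e, bW' (hw _ (by omega) (by omega) (by omega))]
  · -- inner
    intro a ha
    have key : ∀ {x y : ℤ} {d : ZMod 4}, (x, y) ∈ InL xl y0 k r →
        (some ((x, y), d) : Port (ℤ × ℤ)) ∉ Fp (FtL xl y0 k r n) ∪ Ap (AtL xl y0 r n) := by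
      intro x y d hxy hcon
      rcases hcon with hcon | hcon
      · exact (some_Fp.1 hcon).2 hxy
      · have h1 := some_Ap.1 hcon
        rw [mem_AtL] at h1
        rw [mem_InL] at hxy
        omega
    unfold Jls at ha
    simp only [List.mem_append] at ha
    rcases ha with (ha | ha) | ha <;> obtain ⟨i, hi, rfl⟩ := mem_fl.1 ha
    · simp only [pm_some, m32, ngT]
      rw [bN (by omega) (hbox _ _ (by omega) (by omega) (by omega) (by omega))
        (hbox _ _ (by omega) (by omega) (by omega) (by omega))]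
      exact key (by rw [mem_InL]; omega)
    · simp only [pm_some, m22, ngT]
      rw [bW (hbox _ _ (by omega) (by omega) (by omega) (by omega))
          (hbox _ _ (by omega) (by omega) (by omega) (by omega))]
      exact key (by rw [mem_InL]; omega)
    · simp only [pm_some, m12, ngT]
      rw [bS (by omega) (hbox _ _ (by omega) (by omega) (by omega) (by omega))
        (hbox _ _ (by omega) (by omega) (by omega) (by omega))]
      exact key (by rw [mem_InL]; omega)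
  · -- outer
    intro a ha
    have key : ∀ {x y : ℤ} {d : ZMod 4}, (x, y) ∉ InL xl y0 k r → (x, y) ∉ AtL xl y0 r n →
        (some ((x, y), d) : Port (ℤ × ℤ)) ∈ Fp (FtL xl y0 k r n) := by
      intro x y d h1 h2
      exact some_Fp.2 ⟨h2, h1⟩
    unfold Jos at ha
    simp only [List.mem_append] at ha
    rcases ha with (ha | ha) | ha <;> obtain ⟨i, hi, rfl⟩ := mem_fl.1 ha
    · simp only [pm_some, m32, ngT]
      rw [bN (by omega) (hbox _ _ (by omega) (by omega) (by omega) (by omega))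
        (hbox _ _ (by omega) (by omega) (by omega) (by omega))]
      exact key (by rw [mem_InL]; omega) (by rw [mem_AtL]; omega)
    · simp only [pm_some, m02, ngT]
      rw [bE (hbox _ _ (by omega) (by omega) (by omega) (by omega))
          (hbox _ _ (by omega) (by omega) (by omega) (by omega))]
      exact key (by rw [mem_InL]; omega) (by rw [mem_AtL]; omega)
    · simp only [pm_some, m12, ngT]
      rw [bS (by omega) (hbox _ _ (by omega) (by omega) (by omega) (by omega))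
        (hbox _ _ (by omega) (by omega) (by omega) (by omega))]
      exact key (by rw [mem_InL]; omega) (by rw [mem_AtL]; omega)
  · -- far
    intro a ha
    by_contra hcon
    rw [Set.mem_union, not_or] at hcon
    have hI : beD B p y0 xe a ∈ Ap (InL xl y0 k r) := by
      rcases hb : beD B p y0 xe a with _ | ⟨t, d⟩
      · rw [hb] at hcon; exact absurd (none_Fp _) hcon.1
      · rw [hb] at hcon
        rw [some_Ap]
        by_contra h1
        exact hcon.1 (some_Fp.2 ⟨fun h2 => hcon.2 (some_Ap.2 h2), h1⟩)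
    obtain ⟨⟨t, d⟩, hb, ht⟩ := hI
    have h2 := hcl t ht d
    rw [← hb, hinv a] at h2
    rcases h2 with ⟨⟨t', d'⟩, rfl, h3⟩ | ⟨⟨t', d'⟩, rfl, h3⟩
    · exact (some_Fp.1 ha).2 h3
    · exact (some_Fp.1 ha).1 h3

/-- **the far part does not change** -/
theorem MouthL.eqF {A B' : Finset (ℤ × ℤ)} (h' : MouthL B' p y0 xl xe k r n) (hs : A ⊆ B')
    (hd : ∀ t ∈ B', t ∉ A → t ∈ InL xl y0 k r) {a : Port (ℤ × ℤ)}
    (ha : a ∈ Fp (FtL xl y0 k r n)) : beD B' p y0 xe a = beD A p y0 xe a := by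
  have hcl := fun t ht d => h'.closed (t := t) ht d
  have hinv := h'.inv
  have hpa : PortOf B' a ↔ PortOf A a := by
    rcases a with _ | ⟨t, d⟩
    · exact ⟨fun _ => portOf_none _, fun _ => portOf_none _⟩
    · rw [portOf_some, portOf_some]
      refine ⟨fun h1 => ?_, fun h1 => hs h1⟩
      by_contra h2
      exact (some_Fp.1 ha).2 (hd t h1 h2)
  unfold beD
  by_cases hc : PortOf A a ∧ PortOf A (nbD p y0 xe a)
  · rw [res_of hc.1 hc.2]
    have h2 : PortOf B' (nbD p y0 xe a) := by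
      intro z hz
      exact hs (hc.2 z hz)
    rw [res_of (hpa.2 hc.1) h2]
  · rw [res_fix hc]
    by_contra hne
    rcases beD_cases B' p y0 xe a with h1 | ⟨h1, h2, h3⟩
    · exact hne h1
    · apply hc
      refine ⟨hpa.1 h1, ?_⟩
      rcases hq : nbD p y0 xe a with _ | ⟨t, d⟩
      · exact portOf_none _
      · rw [hq] at h2 h3
        rw [portOf_some] at h2 ⊢
        by_contra h4
        have h5 := hcl t (hd t h2 h4) d
        rw [← h3, hinv a] at h5
        rcases h5 with ⟨⟨t', d'⟩, rfl, h6⟩ | ⟨⟨t', d'⟩, rfl, h6⟩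
        · exact (some_Fp.1 ha).2 h6
        · exact (some_Fp.1 ha).1 h6

end left

end Crest.Agent.R158.Sl434
end
end

-- ▼ part R158/Sl12_434
section

/-!
# R158, block SL (helper434), file Sl12: `D^(z)` against `D^+(z)`

* `mouth_right`, `mouth_left` : the two comparisons
* **`comp_gen`** : `‖HW w - HW w2‖ ≤ 2 P(X2, e = 1) + 2 P(X2, e = 0)` for words of `D^(z)` and `D^+(z)`
-/

set_option autoImplicit false
set_option linter.unusedSectionVars false

noncomputable section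

namespace Crest.Agent.R158.Sl434

open MeasureTheory ProbabilityTheory
open Crest.Agent.R158.Sw300 (Port Wd thru tls)
open Crest.Agent.R158.Gc748 (RW stp InS)
open Crest.Agent.R158.Xr249 (Nx rot Reg full Dp mem_Dp Free rct mem_rct CPath cc_union SC_of_cc
  full_Conn exists_GW exists_GW_Dp)
open Crest.Agent.R158.Env664
open Crest.Agent.R158.Ob664 (Gl GW HV HW HG HA HD rgt)
open Crest.Agent.R158.Rs689 (PB hf)
open Crest.Agent.R158.Wd377 (MK be_eq)

/-- data of a pair from good words -/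
theorem pair_of_gw {K : Reg} {w0 : Wd (ℤ × ℤ)} {N1 Jl N2 Jo : List (Port (ℤ × ℤ))}
    {Ob : ℤ × ℤ → Prop} {a b : Port (ℤ × ℤ)} {w w' : Wd (ℤ × ℤ)} {Ft At : Set (ℤ × ℤ)}
    {ψ φ : ℤ × ℤ → ℤ × ℤ} {δ : ZMod 4} {A A' : Finset (ℤ × ℤ)}
    {bA bA' : Port (ℤ × ℤ) → Port (ℤ × ℤ)} (hc : ChA K w0 N1 Jl N2 Jo Ob a b)
    (hw : GW A bA w) (hw' : GW A' bA' w') (hl : Loc K N1 Jl N2 Jo bA Ft At ψ φ δ)
    (hl' : Loc K N1 Jl N2 Jo bA' Ft At ψ φ δ) (hA : ∀ t ∈ At, t ∈ A) (hA' : ∀ t ∈ At, t ∈ A')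
    (hF : ∀ x ∈ Fp Ft, bA' x = bA x) :
    Pair K w0 N1 Jl N2 Jo Ob a b w w' Ft At ψ φ δ := by
  have e1 := be_eq hw
  have e2 := be_eq hw'
  subst e1
  subst e2
  exact ⟨hc, hw.word.1, hw'.word.1, hw.nx, hw'.nx, hl, hl', fun t ht => (hw.word.2.2.1 t).2 (hA t ht),
    fun t ht => (hw'.word.2.2.1 t).2 (hA' t ht), hF⟩

theorem hth0 (b : Bool) (d : ZMod 4) : thru (xor false b) (d + 0) = thru b d + 0 := by
  revert b d; decide
theorem hth2 (b : Bool) (d : ZMod 4) : thru (xor false b) (d + 2) = thru b d + 2 := by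
  revert b d; decide

/-- probability of two arcs across the stepped half annulus -/
def p2 (X Y : ℤ) (r n e : ℕ) (w : Wd (ℤ × ℤ)) : ℝ :=
  (PB fun _ : ℤ × ℤ => hf).real (X2 w (Jls X Y r e) (Jos X Y n e))

/-- the marks of the second region -/
theorem Pair.marks {T : Type*} [DecidableEq T] {K : Reg} {w0 : Wd (ℤ × ℤ)}
    {N1 Jl N2 Jo : List (Port (ℤ × ℤ))} {Ob : ℤ × ℤ → Prop} {a b : Port (ℤ × ℤ)} {w w' : Wd T}
    {Ft At : Set T} {ψ : T → ℤ × ℤ} {φ : ℤ × ℤ → T} {δ : ZMod 4}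
    (h : Pair K w0 N1 Jl N2 Jo Ob a b w w' Ft At ψ φ δ) {fl : Bool}
    (hth : ∀ (b : Bool) (d : ZMod 4), thru (xor fl b) (d + δ) = thru b d + δ)
    {m1 m2 m3 : Port T} (h1 : m1 ∈ Sw300.L w) (h2 : m2 ∈ Sw300.L w) (h3 : m3 ∈ Sw300.L w)
    (f1 : m1 ∈ Fp Ft) (f2 : m2 ∈ Fp Ft) (f3 : m3 ∈ Fp Ft)
    (hcyc : Sw300.cyc (Sw300.pos w m1) (Sw300.pos w m2) (Sw300.pos w m3)) :
    m1 ∈ Sw300.L w' ∧ m2 ∈ Sw300.L w' ∧ m3 ∈ Sw300.L w' ∧
      Sw300.cyc (Sw300.pos w' m1) (Sw300.pos w' m2) (Sw300.pos w' m3) := by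
  obtain ⟨A, Di, Gi, k1, k2, k3⟩ := h.two hth (fun _ => true)
  set N1T := N1.map (pm φ (-δ))
  set N2T := N2.map (pm φ (-δ))
  have hsub : ∀ p ∈ N1 ++ N2, p ∈ N1 ++ Jl ++ N2 ++ Jo := by
    intro p hp
    simp only [List.mem_append] at hp ⊢
    tauto
  have hA : ∀ {m : Port T}, m ∈ Sw300.L w → m ∈ Fp Ft → m ∈ A := by
    intro m hm hf
    have h4 := k1.mem_iff.1 hm
    simp only [List.mem_append] at h4
    rcases h4 with ((h4 | h4) | h4) | h4
    · exact h4
    · obtain ⟨p, hp, rfl⟩ := List.mem_map.1 h4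
      exact absurd (h.lc.pf (h.ch.port (hsub p (by simp [hp])))).1 (Fp_Ap h.lc.dj hf)
    · exact absurd (Or.inl hf) (k3.Do m h4)
    · obtain ⟨p, hp, rfl⟩ := List.mem_map.1 h4
      exact absurd (h.lc.pf (h.ch.port (hsub p (by simp [hp])))).1 (Fp_Ap h.lc.dj hf)
  have a1 := hA h1 f1
  have a2 := hA h2 f2
  have a3 := hA h3 f3
  have hL' : ∀ {m : Port T}, m ∈ A → m ∈ Sw300.L w' := fun hm => k2.mem_iff.2 (by simp [hm])
  have hnw := Sw300.nodup h.ok
  have hnw' := Sw300.nodup h.ok'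
  have e1 : A ++ N1T ++ Di ++ N2T = A ++ (N1T ++ Di ++ N2T) := by simp
  have e2 : A ++ N1T ++ Gi ++ N2T = A ++ (N1T ++ Gi ++ N2T) := by simp
  refine ⟨hL' a1, hL' a2, hL' a3, ?_⟩
  rw [← cycI_pos (Sw300.sorted w' h.ok') (hL' a1) (hL' a2) (hL' a3),
    ← cycI_rot k2 hnw' (hL' a1) (hL' a2) (hL' a3), e2]
  rw [← cycI_pos (Sw300.sorted w h.ok) h1 h2 h3, ← cycI_rot k1 hnw h1 h2 h3, e1] at hcyc
  refine (cycI_mr ?_ ?_ (Or.inl ⟨a1, rfl⟩) (Or.inl ⟨a2, rfl⟩) (Or.inl ⟨a3, rfl⟩) (Or.inl a1)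
    (Or.inl a2) (Or.inl a3)).1 hcyc
  · rw [← e1]; exact (k1.nodup_iff).1 hnw
  · rw [← e2]; exact (k2.nodup_iff).1 hnw'

theorem mouth_right {A A' : Finset (ℤ × ℤ)} {p y0 xr xe xe' k : ℤ} {r n : ℕ} {w w' w0 : Wd (ℤ × ℤ)}
    (h : MouthR A p y0 xr xe k r n) (h' : MouthR A' p y0 xr xe' k r n) (hs : A ⊆ A')
    (hd : ∀ t ∈ A', t ∉ A → t ∈ InR xr y0 k r) (hw : GW A (beD A p y0 xe) w)
    (hw' : GW A' (beD A' p y0 xe') w') (h0 : SW xr y0 r n 1 w0) {m1 m2 m3 : Port (ℤ × ℤ)}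
    (h1 : m1 ∈ Sw300.L w) (h2 : m2 ∈ Sw300.L w) (h3 : m3 ∈ Sw300.L w)
    (f1 : m1 ∈ Fp (FtR xr y0 k r n)) (f2 : m2 ∈ Fp (FtR xr y0 k r n))
    (f3 : m3 ∈ Fp (FtR xr y0 k r n))
    (hcyc : Sw300.cyc (Sw300.pos w m1) (Sw300.pos w m2) (Sw300.pos w m3)) :
    (m1 ∈ Sw300.L w' ∧ m2 ∈ Sw300.L w' ∧ m3 ∈ Sw300.L w' ∧
      Sw300.cyc (Sw300.pos w' m1) (Sw300.pos w' m2) (Sw300.pos w' m3)) ∧
    ‖HW w m1 m2 m3 - HW w' m1 m2 m3‖ ≤ 2 * p2 xr y0 r n 1 w0 := by
  have hat : ∀ t ∈ AtR xr y0 r n, t ∈ A := by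
    rintro ⟨x, y⟩ ht
    rw [mem_AtR] at ht
    have := h.hr
    have := h.hn
    exact h.box x y (by omega) (by omega) (by omega) (by omega)
  have P := pair_of_gw (chA_stp h.hr h.hn h0) hw hw' h.loc h'.loc hat (fun t ht => hs (hat t ht))
    (fun x hx => h.eqF h' hs hd hx)
  exact ⟨P.marks hth0 h1 h2 h3 f1 f2 f3 hcyc, P.HW_le hth0 h1 h2 h3 f1 f2 f3 hcyc⟩

theorem mouth_left {A A' : Finset (ℤ × ℤ)} {p y0 xl xe k : ℤ} {r n : ℕ} {w w' w0 : Wd (ℤ × ℤ)}
    (h : MouthL A p y0 xl xe k r n) (h' : MouthL A' p y0 xl xe k r n) (hs : A ⊆ A')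
    (hd : ∀ t ∈ A', t ∉ A → t ∈ InL xl y0 k r) (hw : GW A (beD A p y0 xe) w)
    (hw' : GW A' (beD A' p y0 xe) w') (h0 : SW (-xl) (1 - y0) r n 0 w0) {m1 m2 m3 : Port (ℤ × ℤ)}
    (h1 : m1 ∈ Sw300.L w) (h2 : m2 ∈ Sw300.L w) (h3 : m3 ∈ Sw300.L w)
    (f1 : m1 ∈ Fp (FtL xl y0 k r n)) (f2 : m2 ∈ Fp (FtL xl y0 k r n))
    (f3 : m3 ∈ Fp (FtL xl y0 k r n))
    (hcyc : Sw300.cyc (Sw300.pos w m1) (Sw300.pos w m2) (Sw300.pos w m3)) :
    (m1 ∈ Sw300.L w' ∧ m2 ∈ Sw300.L w' ∧ m3 ∈ Sw300.L w' ∧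
      Sw300.cyc (Sw300.pos w' m1) (Sw300.pos w' m2) (Sw300.pos w' m3)) ∧
    ‖HW w m1 m2 m3 - HW w' m1 m2 m3‖ ≤ 2 * p2 (-xl) (1 - y0) r n 0 w0 := by
  have hat : ∀ t ∈ AtL xl y0 r n, t ∈ A := by
    rintro ⟨x, y⟩ ht
    rw [mem_AtL] at ht
    have := h.hr
    have := h.hn
    exact h.box x y (by omega) (by omega) (by omega) (by omega)
  have P := pair_of_gw (chA_stp h.hr h.hn h0) hw hw' h.loc h'.loc hat (fun t ht => hs (hat t ht))
    (fun x hx => h'.eqF hs hd hx)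
  exact ⟨P.marks hth2 h1 h2 h3 f1 f2 f3 hcyc, P.HW_le hth2 h1 h2 h3 f1 f2 f3 hcyc⟩

/-! ### the region with the right stub -/

section stub

variable {A : Finset (ℤ × ℤ)} {xl xr y1 y2 k : ℤ}

/-- the region with the right stub -/
def D1 (A : Finset (ℤ × ℤ)) (xr y1 y2 k : ℤ) : Finset (ℤ × ℤ) := A ∪ rct (xr + 1) (xr + k + 1) y1 y2

theorem mem_D1 {x y : ℤ} : (x, y) ∈ D1 A xr y1 y2 k ↔
    (x, y) ∈ A ∨ ((xr + 1 ≤ x ∧ x < xr + k + 1) ∧ y1 ≤ y ∧ y < y2) := by
  rw [D1, Finset.mem_union, mem_rct]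

theorem D1_cc (hf : Free A xl xr y1 y2 k) (hcc : ∀ a ∉ A, ∀ b ∉ A, CPath {t | t ∉ A} a b) :
    ∀ a ∉ D1 A xr y1 y2 k, ∀ b ∉ D1 A xr y1 y2 k, CPath {t | t ∉ D1 A xr y1 y2 k} a b := by
  have hk := hf.k0
  refine cc_union hcc (xr + k + 1, y1 - 1) ?_
  rintro ⟨x, y⟩ hA hS ⟨x', y'⟩ hs hadj
  rw [mem_rct] at hS hs
  obtain ⟨⟨s1, s2⟩, s3, s4⟩ := hs
  have hX : ∀ {a b : ℤ}, xr < a → a ≤ xr + k + 1 → y1 - 1 ≤ b → b ≤ y2 →
      ¬ ((xr + 1 ≤ a ∧ a < xr + k + 1) ∧ y1 ≤ b ∧ b < y2) →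
      (a, b) ∈ {t : ℤ × ℤ | t ∉ A ∪ rct (xr + 1) (xr + k + 1) y1 y2} := by
    intro a b g1 g2 g3 g4 g5
    simp only [Set.mem_ofPred_eq, Finset.mem_union, not_or, mem_rct]
    exact ⟨hf.right a b g1 g2 g3 g4, g5⟩
  have hx : x ≠ xr ∨ ¬ (y1 ≤ y ∧ y < y2) := by
    by_contra hcon
    push Not at hcon
    obtain ⟨rfl, c2, c3⟩ := hcon
    exact hA (hf.run y c2 c3).2
  unfold Adj4 at hadj
  simp only at hadj
  by_cases e1 : x = xr + k + 1
  · subst e1
    exact (CPath.ver (by omega) fun z g1 g2 => hX (by omega) (by omega) (by omega) (by omega)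
      (by omega)).symm
  · by_cases e2 : y = y1 - 1
    · subst e2
      exact CPath.hor (by omega) fun z g1 g2 => hX (by omega) (by omega) (by omega) (by omega)
        (by omega)
    · have e3 : y = y2 := by omega
      subst e3
      exact (CPath.hor (x2 := xr + k + 1) (by omega) fun z g1 g2 => hX (by omega) (by omega)
        (by omega) (by omega) (by omega)).trans
        (CPath.ver (by omega) fun z g1 g2 => hX (by omega) (by omega) (by omega) (by omega)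
          (by omega)).symm

theorem D1_Conn (hf : Free A xl xr y1 y2 k) (hc : ∀ a ∈ A, ∀ b ∈ A, CPath {t | t ∈ A} a b) :
    (full (D1 A xr y1 y2 k)).Conn := by
  have hsub : {t | t ∈ A} ⊆ {t | t ∈ D1 A xr y1 y2 k} := by
    intro t ht
    exact (mem_D1 (x := t.1) (y := t.2)).2 (Or.inl ht)
  have key : ∀ a ∈ D1 A xr y1 y2 k, ∃ a' ∈ A, CPath {t | t ∈ D1 A xr y1 y2 k} a a' := by
    rintro ⟨x, y⟩ ha
    rcases mem_D1.1 ha with h | ⟨⟨h1, h2⟩, h3, h4⟩
    · exact ⟨_, h, .refl⟩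
    · refine ⟨(xr, y), (hf.run y h3 h4).2, (CPath.hor (by omega) fun z g1 g2 => ?_).symm⟩
      rcases eq_or_lt_of_le g1 with rfl | g3
      · exact hsub (hf.run y h3 h4).2
      · exact mem_D1.2 (Or.inr ⟨⟨by omega, by omega⟩, h3, h4⟩)
  refine full_Conn fun a ha b hb => ?_
  obtain ⟨a', ha', h1⟩ := key a ha
  obtain ⟨b', hb', h2⟩ := key b hb
  exact h1.trans (((hc a' ha' b' hb').mono hsub).trans h2.symm)

theorem exists_GW_D1 (hf : Free A xl xr y1 y2 k) (hcc : ∀ a ∉ A, ∀ b ∉ A, CPath {t | t ∉ A} a b)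
    (hc : ∀ a ∈ A, ∀ b ∈ A, CPath {t | t ∈ A} a b) {p y0 : ℤ}
    (hr1 : ∀ x, xl ≤ x → x ≤ xr → (x, y0 - 1) ∈ A ∧ (x, y0) ∈ A) (h1 : y1 < y0) (h2 : y0 < y2)
    (h3 : xl < p) (h4 : p ≤ xr) :
    ∃ w, GW (D1 A xr y1 y2 k) (beD (D1 A xr y1 y2 k) p y0 (xr + k)) w := by
  have hk := hf.k0
  refine exists_GW (SC_of_cc (D1_cc hf hcc)) (D1_Conn hf hc) (by omega) ?_ ?_ ?_
  · intro x g1 g2
    rcases le_or_gt x xr with g3 | g3
    · exact ⟨mem_D1.2 (Or.inl (hr1 x (by omega) g3).1), mem_D1.2 (Or.inl (hr1 x (by omega) g3).2)⟩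
    · exact ⟨mem_D1.2 (Or.inr ⟨⟨by omega, by omega⟩, by omega, by omega⟩),
        mem_D1.2 (Or.inr ⟨⟨by omega, by omega⟩, by omega, by omega⟩)⟩
  · rw [mem_D1]
    rintro (h | h)
    · exact hf.right _ _ (by omega) (le_refl _) (by omega) (by omega) h
    · omega
  · exact Or.inr ⟨mem_D1.2 (Or.inl (hr1 _ (by omega) (by omega)).1),
      mem_D1.2 (Or.inl (hr1 _ (by omega) (by omega)).2)⟩

end stub

/-- hypotheses of the comparison: rows `y0 - n - 1, .., y0 + n` have the run `xl..xr`, the stubs are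
in the rows `y1, .., y2 - 1` inside the ball of radius `r` -/
structure CG (A : Finset (ℤ × ℤ)) (xl xr y1 y2 k p y0 : ℤ) (r n : ℕ) : Prop where
  fr : Free A xl xr y1 y2 k
  hr : 1 ≤ r
  hn : r + 1 ≤ n
  a1 : y0 - r ≤ y1
  a2 : y1 < y0
  a3 : y0 < y2
  a4 : y2 ≤ y0 + r
  run : ∀ x y, xl ≤ x → x ≤ xr → y0 - n - 1 ≤ y → y ≤ y0 + n → (x, y) ∈ A
  oR : ∀ x y, xr < x → x ≤ xr + k + 1 → y0 - n ≤ y → y < y0 + n → (x, y) ∉ A
  oL : ∀ x y, xl - k - 1 ≤ x → x < xl → y0 - n ≤ y → y < y0 + n → (x, y) ∉ A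
  p1 : xl + n < p
  p2 : p ≤ xr - n

section comp

variable {A : Finset (ℤ × ℤ)} {xl xr y1 y2 k p y0 : ℤ} {r n : ℕ}

theorem CG.mR (h : CG A xl xr y1 y2 k p y0 r n) : MouthR A p y0 xr xr k r n := by
  obtain ⟨fr, hr, hn, a1, a2, a3, a4, run, oR, oL, p1, p2⟩ := h
  have hk := fr.k0
  exact ⟨hr, hn, hk, fun x y g1 g2 g3 g4 => run x y (by omega) g2 g3 g4,
    fun x y g1 g2 g3 g4 g5 => absurd g5 (oR x y g1 g2 g3 g4), p2, le_rfl, by omega,
    oR _ _ (by omega) (by omega) (by omega) (by omega)⟩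

theorem CG.mR1 (h : CG A xl xr y1 y2 k p y0 r n) :
    MouthR (D1 A xr y1 y2 k) p y0 xr (xr + k) k r n := by
  obtain ⟨fr, hr, hn, a1, a2, a3, a4, run, oR, oL, p1, p2⟩ := h
  have hk := fr.k0
  refine ⟨hr, hn, hk, fun x y g1 g2 g3 g4 => mem_D1.2 (Or.inl (run x y (by omega) g2 g3 g4)),
    fun x y g1 g2 g3 g4 g5 => ?_, p2, by omega, le_rfl, fun g5 => ?_⟩
  · rcases mem_D1.1 g5 with g6 | g6
    · exact absurd g6 (oR x y g1 g2 g3 g4)
    · omega
  · rcases mem_D1.1 g5 with g6 | g6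
    · exact absurd g6 (oR _ _ (by omega) (by omega) (by omega) (by omega))
    · omega

theorem CG.mL1 (h : CG A xl xr y1 y2 k p y0 r n) :
    MouthL (D1 A xr y1 y2 k) p y0 xl (xr + k) k r n := by
  have hR := h.mR1.end'
  obtain ⟨fr, hr, hn, a1, a2, a3, a4, run, oR, oL, p1, p2⟩ := h
  have hk := fr.k0
  refine ⟨hr, hn, hk, fun x y g1 g2 g3 g4 => mem_D1.2 (Or.inl (run x y (by omega) (by omega) g3 g4)),
    fun x y g1 g2 g3 g4 g5 => ?_, p1, by omega, hR⟩
  rcases mem_D1.1 g5 with g6 | g6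
  · exact absurd g6 (oL x y g1 g2 g3 g4)
  · omega

theorem CG.mL2 (h : CG A xl xr y1 y2 k p y0 r n) :
    MouthL (Dp A xl xr y1 y2 k) p y0 xl (xr + k) k r n := by
  obtain ⟨fr, hr, hn, a1, a2, a3, a4, run, oR, oL, p1, p2⟩ := h
  have hk := fr.k0
  refine ⟨hr, hn, hk, fun x y g1 g2 g3 g4 => mem_Dp.2 (Or.inl (run x y (by omega) (by omega) g3 g4)),
    fun x y g1 g2 g3 g4 g5 => ?_, p1, by omega, fun g5 => ?_⟩
  · rcases mem_Dp.1 g5 with g6 | g6 | g6
    · exact absurd g6 (oL x y g1 g2 g3 g4)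
    · omega
    · omega
  · rcases mem_Dp.1 g5 with g6 | g6 | g6
    · exact absurd g6 (oR _ _ (by omega) (by omega) (by omega) (by omega))
    · omega
    · omega

/-- **`D^(z)` against `D^+(z)`** -/
theorem comp_gen (h : CG A xl xr y1 y2 k p y0 r n)
    (hcc : ∀ a ∉ A, ∀ b ∉ A, CPath {t | t ∉ A} a b) (hc : ∀ a ∈ A, ∀ b ∈ A, CPath {t | t ∈ A} a b)
    {m1 m2 m3 : Port (ℤ × ℤ)} (hm : MK A (beD A p y0 xr) m1 m2 m3)
    (f1 : m1 ∈ Fp (FtR xr y0 k r n) ∩ Fp (FtL xl y0 k r n))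
    (f2 : m2 ∈ Fp (FtR xr y0 k r n) ∩ Fp (FtL xl y0 k r n))
    (f3 : m3 ∈ Fp (FtR xr y0 k r n) ∩ Fp (FtL xl y0 k r n)) {w1 w0 : Wd (ℤ × ℤ)}
    (h1 : SW xr y0 r n 1 w1) (h0 : SW (-xl) (1 - y0) r n 0 w0) :
    MK (Dp A xl xr y1 y2 k) (beD (Dp A xl xr y1 y2 k) p y0 (xr + k)) m1 m2 m3 ∧
    ‖HG A (beD A p y0 xr) m1 m2 m3 -
      HG (Dp A xl xr y1 y2 k) (beD (Dp A xl xr y1 y2 k) p y0 (xr + k)) m1 m2 m3‖ ≤
      2 * p2 xr y0 r n 1 w1 + 2 * p2 (-xl) (1 - y0) r n 0 w0 := by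
  have mR := h.mR
  have mR1 := h.mR1
  have mL1 := h.mL1
  have mL2 := h.mL2
  obtain ⟨fr, hr, hn, a1, a2, a3, a4, run, oR, oL, q1, q2⟩ := h
  have hk := fr.k0
  have hr1 : ∀ x, xl ≤ x → x ≤ xr → (x, y0 - 1) ∈ A ∧ (x, y0) ∈ A := fun x g1 g2 =>
    ⟨run x _ g1 g2 (by omega) (by omega), run x _ g1 g2 (by omega) (by omega)⟩
  obtain ⟨w, hw, l1, l2, l3, hcyc, e⟩ := hm.spec
  obtain ⟨v1, hv1⟩ := exists_GW_D1 fr hcc hc hr1 a2 a3 (by omega : xl < p) (by omega)
  obtain ⟨v2, hv2⟩ := exists_GW_Dp fr hcc hc hr1 a2 a3 (by omega : xl < p) (by omega)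
  have s1 : A ⊆ D1 A xr y1 y2 k := fun t ht => (mem_D1 (x := t.1) (y := t.2)).2 (Or.inl ht)
  have s2 : D1 A xr y1 y2 k ⊆ Dp A xl xr y1 y2 k := by
    rintro ⟨x, y⟩ ht
    rcases mem_D1.1 ht with g | g
    · exact mem_Dp.2 (Or.inl g)
    · exact mem_Dp.2 (Or.inr (Or.inl g))
  have d1 : ∀ t ∈ D1 A xr y1 y2 k, t ∉ A → t ∈ InR xr y0 k r := by
    rintro ⟨x, y⟩ ht hnt
    rcases mem_D1.1 ht with g | g
    · exact absurd g hnt
    · rw [mem_InR]; omega
  have d2 : ∀ t ∈ Dp A xl xr y1 y2 k, t ∉ D1 A xr y1 y2 k → t ∈ InL xl y0 k r := by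
    rintro ⟨x, y⟩ ht hnt
    rcases mem_Dp.1 ht with g | g | g
    · exact absurd (mem_D1.2 (Or.inl g)) hnt
    · exact absurd (mem_D1.2 (Or.inr g)) hnt
    · rw [mem_InL]; omega
  obtain ⟨⟨b1, b2, b3, b4⟩, b5⟩ := mouth_right mR mR1 s1 d1 hw hv1 h1 l1 l2 l3 f1.1 f2.1 f3.1 hcyc
  obtain ⟨⟨c1, c2, c3, c4⟩, c5⟩ := mouth_left mL1 mL2 s2 d2 hv1 hv2 h0 b1 b2 b3 f1.2 f2.2 f3.2 b4
  refine ⟨⟨v2, hv2, c1, c2, c3, c4⟩, ?_⟩
  rw [e, Wd377.HG_eq hv2 c1 c2 c3 c4]
  have e3 : HW w m1 m2 m3 - HW v2 m1 m2 m3 =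
      (HW w m1 m2 m3 - HW v1 m1 m2 m3) + (HW v1 m1 m2 m3 - HW v2 m1 m2 m3) := by ring
  rw [e3]
  exact (norm_add_le _ _).trans (add_le_add b5 c5)

end comp

end Crest.Agent.R158.Sl434
end
end

-- ▼ part R158/Cq1_410

/-!
# R158, Q1 = assembly (helper410), part 5: the comparison with the stubs

* `mk_word` : the marks of the polygon are in clockwise order in the region cut open at `z`
* `mark_row` : rows of the marks
* `comp_slice` : `‖H_{D^+}(z) - H_D(z)‖ ≤ 2 P(X2, right) + 2 P(X2, left)`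
* **`compP : ∀ P, CompP P`**
-/

set_option autoImplicit false

open Set

namespace Crest.Agent.R158.Cs410

open Crest.Agent.R158.Sw300 (Port Wd Ok pos cyc)
open Crest.Agent.R158.Env664 (Run Band D mark Mac div_iff mem_D beD)
open Crest.Agent.R158.Tj656 (P4)
open Crest.Agent.R158.Xr249 (Dp mem_Dp free_mac)
open Crest.Agent.R158.Mg949 (WD Lz sU nn exists_word mac Lz_pos mark0 markD markC nn_pos)
open Crest.Agent.R158.Wd377 (MK)
open Crest.Agent.R158.Ob664 (HA rgt_run)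
open Crest.Agent.R158.Sl434 (CG p2 SW comp_gen exists_SW Fp FtR FtL mem_FtR mem_AtR mem_InR mem_AtL
  mem_InL X2 Jls Jos)
open Crest.Agent.R158.Rs689 (PB hf)

noncomputable section

/-- the marks of the polygon are in clockwise order -/
theorem mk_word {P : P4} {k : ℕ} {x y xr : ℤ} {q : ℕ} {w : Wd (ℤ × ℤ)}
    (h : WD P k x y xr q w) :
    MK (D P.F (Lz k)) (beD (D P.F (Lz k)) x y xr) (mk P (Lz k) 0) (mk P (Lz k) 1)
      (mk P (Lz k) 2) := by
  have hk := h.hk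
  have hok := h.ok
  have hL := h.hL
  have hq := h.hq
  have e0 : mk P (Lz k) 0 = sU P k (nn P k - 1) := mark0 P hk
  have e1 : mk P (Lz k) 1 = sU P k (P.md * (2 * k) - 1) := markD P hk
  have e2 : mk P (Lz k) 2 = sU P k (P.mc * (2 * k) - 1) := markC P hk
  have hn : nn P k = P.N * (2 * k) := rfl
  have i1 := P.h1
  have i2 := P.h2
  have i3 := P.h3
  have i4 := P.h4
  have i5 : 0 < P.mc := by omega
  have j0 : 0 < P.mc * (2 * k) := by positivity
  have j1 : P.mc * (2 * k) < P.md * (2 * k) := by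
    apply Nat.mul_lt_mul_of_pos_right i3; omega
  have j2 : P.md * (2 * k) < P.N * (2 * k) := by
    apply Nat.mul_lt_mul_of_pos_right i4; omega
  have hD : P.md * (2 * k) - 1 < nn P k := by omega
  have hC : P.mc * (2 * k) - 1 < nn P k := by omega
  have m1 := Mg949.m1_mem hok hL hq
  have mD : sU P k (P.md * (2 * k) - 1) ∈ Sw300.L w :=
    (Mg949.mem_L hok hL hq).2 ⟨_, hD, Or.inl rfl⟩
  have mC : sU P k (P.mc * (2 * k) - 1) ∈ Sw300.L w :=
    (Mg949.mem_L hok hL hq).2 ⟨_, hC, Or.inl rfl⟩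
  refine ⟨w, h.gw, by rw [e0]; exact m1, by rw [e1]; exact mD, by rw [e2]; exact mC, ?_⟩
  rw [e0, e1, e2, Ob664.cyc_idL hok m1 m1 mD mC, Mg949.idL_m1 hok hL hq,
    Mg949.idL_step hok hL hq hD, Mg949.idL_step hok hL hq hC]
  unfold Mg949.pu cyc
  split_ifs <;> omega

/-- rows of the marks -/
theorem mark_row {L r y0 : ℤ} {n : ℕ} (hL : 0 < L) (hev : Even L) (c : ℤ × ℤ) (d : ZMod 4)
    (h : (r * L < y0 - n ∧ y0 + n ≤ r * L + L / 2 - 1) ∨
      (r * L + L / 2 < y0 - n ∧ y0 + n ≤ r * L + L - 1)) :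
    ∀ z ∈ (mark L c d).2, z.1.2 < y0 - n ∨ y0 + n ≤ z.1.2 := by
  obtain ⟨l, hl⟩ := hev
  have hl2 : L / 2 = l := by omega
  have key : c.2 * L ≤ r * L - L ∨ c.2 * L = r * L ∨ r * L + L ≤ c.2 * L := by
    rcases lt_trichotomy c.2 r with g | g | g
    · left; nlinarith
    · right; left; rw [g]
    · right; right; nlinarith
  obtain ⟨u, hu⟩ : ∃ u, u = c.2 * L := ⟨_, rfl⟩
  intro z hz
  unfold mark at hz
  rw [← hu] at hz key
  split_ifs at hz <;> obtain rfl := Option.mem_some_iff.1 hz <;> simp only <;> omega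

/-- a mark is far from the mouths -/
theorem mark_far {L r y0 xl xr k : ℤ} {r' n : ℕ} (hL : 0 < L) (hev : Even L) (hrn : r' ≤ n)
    (c : ℤ × ℤ) (d : ZMod 4)
    (h : (r * L < y0 - n ∧ y0 + n ≤ r * L + L / 2 - 1) ∨
      (r * L + L / 2 < y0 - n ∧ y0 + n ≤ r * L + L - 1)) :
    (mark L c d).2 ∈ Fp (FtR xr y0 k r' n) ∩ Fp (FtL xl y0 k r' n) := by
  have h1 := mark_row hL hev c d h
  constructor
  · rintro ⟨⟨x, y⟩, e⟩ hz
    have h2 := h1 _ hz
    simp only at h2 ⊢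
    rw [mem_FtR, mem_AtR, mem_InR]
    constructor <;> omega
  · rintro ⟨⟨x, y⟩, e⟩ hz
    have h2 := h1 _ hz
    simp only at h2 ⊢
    show (x, y) ∉ Sl434.AtL xl y0 r' n ∧ (x, y) ∉ Sl434.InL xl y0 k r'
    rw [mem_AtL, mem_InL]
    constructor <;> omega

/-- run of the region with stubs -/
theorem run_Dp {A : Finset (ℤ × ℤ)} {xl xr y1 y2 k y0 : ℤ} (h : Run A xl xr y0)
    (hf : Xr249.Free A xl xr y1 y2 k) (h1 : y1 ≤ y0) (h2 : y0 < y2) :
    Run (Dp A xl xr y1 y2 k) (xl - k) (xr + k) y0 := by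
  have hk := hf.k0
  have hle := hf.le
  refine ⟨by omega, fun x g1 g2 => ?_, ?_, ?_⟩
  · rw [mem_Dp]
    rcases lt_or_ge x xl with g | g
    · right; right; omega
    · rcases lt_or_ge xr x with g' | g'
      · right; left; omega
      · left; exact h.mem x g g'
  · rw [mem_Dp]
    have := hf.left (xl - k - 1) y0 (by omega) (by omega) (by omega) (by omega)
    rintro (g | g | g)
    · exact this g
    · omega
    · omega
  · rw [mem_Dp]
    have := hf.right (xr + k + 1) y0 (by omega) (by omega) (by omega) (by omega)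
    rintro (g | g | g)
    · exact this g
    · omega
    · omega

/-- the hypotheses of the comparison for a macroscopic run -/
theorem cg_mac {P : P4} {A B' r L p y0 y1 y2 : ℤ} {r' n : ℕ} (hrun : Run P.F A B' r) (hL : 8 ≤ L)
    (hr : 1 ≤ r') (hn : r' + 1 ≤ n) (a1 : y0 - r' ≤ y1) (a2 : y1 < y0) (a3 : y0 < y2)
    (a4 : y2 ≤ y0 + r') (b1 : r * L < y0 - n) (b2 : y0 + n < r * L + L) (p1 : A * L + n < p)
    (p2 : p ≤ B' * L + L - 1 - n) :
    CG (D P.F L) (A * L) (B' * L + L - 1) y1 y2 (L / 8) p y0 r' n := by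
  have hL0 : 0 < L := by omega
  have hk0 : 0 ≤ L / 8 := by omega
  have hk1 : L / 8 + 1 ≤ L := by omega
  refine ⟨free_mac (mac P) hrun (by omega) (by omega) hk0 (by omega), hr, hn, a1, a2, a3, a4,
    fun x y g1 g2 g3 g4 => (hrun.scale hL0 (by omega) (by omega)).mem x g1 g2, ?_, ?_, p1, p2⟩
  · intro x y g1 g2 g3 g4
    rw [mem_D hL0]
    have e1 : x / L = B' + 1 := (div_iff hL0 _ _).2 ⟨by nlinarith, by nlinarith⟩
    have e2 : y / L = r := (div_iff hL0 _ _).2 ⟨by omega, by omega⟩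
    simp only [e1, e2]
    exact hrun.right
  · intro x y g1 g2 g3 g4
    rw [mem_D hL0]
    have e1 : x / L = A - 1 := (div_iff hL0 _ _).2 ⟨by nlinarith, by nlinarith⟩
    have e2 : y / L = r := (div_iff hL0 _ _).2 ⟨by omega, by omega⟩
    simp only [e1, e2]
    exact hrun.left

/-- **the comparison of one point** -/
theorem comp_slice {P : P4} {A B' r L p y0 : ℤ} {h y : ℝ} {B : Band (D P.F L)}
    (hB : OnB A B' L h y B) {r' n : ℕ} (hrun : Run P.F A B' r) (hL : 8 ≤ L) (hev : Even L)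
    (hr : 1 ≤ r') (hn : r' + 1 ≤ n) (a1 : y0 - r' ≤ B.y1) (a2 : B.y1 < y0) (a3 : y0 < B.y2)
    (a4 : B.y2 ≤ y0 + r')
    (b : (r * L < y0 - n ∧ y0 + n ≤ r * L + L / 2 - 1) ∨
      (r * L + L / 2 < y0 - n ∧ y0 + n ≤ r * L + L - 1)) (p1 : A * L + n < p)
    (p2' : p ≤ B' * L + L - 1 - n) {w1 w0 : Wd (ℤ × ℤ)}
    (h1 : SW (B' * L + L - 1) y0 r' n 1 w1) (h0 : SW (-(A * L)) (1 - y0) r' n 0 w0) :
    ‖HAp P L B p y0 - P.HD L p y0‖ ≤
      2 * p2 (B' * L + L - 1) y0 r' n 1 w1 + 2 * p2 (-(A * L)) (1 - y0) r' n 0 w0 := by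
  have hL0 : 0 < L := by omega
  obtain ⟨l, hl⟩ := id hev
  have b1 : r * L < y0 - n := by
    rcases b with b | b
    · exact b.1
    · omega
  have b2 : y0 + n < r * L + L := by
    rcases b with b | b
    · omega
    · omega
  have G := cg_mac hrun hL hr hn a1 a2 a3 a4 b1 b2 p1 p2'
  have hle : A * L ≤ B' * L + L - 1 := G.fr.le
  have hk : 0 < l.toNat := by omega
  have hLk : Lz l.toNat = L := by
    unfold Mg949.Lz; push_cast; omega
  have r0 : Run (D P.F L) (A * L) (B' * L + L - 1) y0 := hrun.scale hL0 (by omega) (by omega)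
  have r1 : Run (D P.F L) (A * L) (B' * L + L - 1) (y0 - 1) := hrun.scale hL0 (by omega) (by omega)
  have hMK : MK (D P.F L) (beD (D P.F L) p y0 (B' * L + L - 1)) (mk P L 0) (mk P L 1)
      (mk P L 2) := by
    obtain ⟨q, w, hw⟩ := exists_word P hk (x := p) (xl := A * L) (xr := B' * L + L - 1) (y := y0)
      (by rw [hLk]; exact r0) (by rw [hLk]; exact r1) (by omega) (by omega)
    have := mk_word hw
    rw [hLk] at this
    exact this
  have hcc : ∀ a ∉ D P.F L, ∀ b ∉ D P.F L, Xr249.CPath {t | t ∉ D P.F L} a b :=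
    fun a ha b hb => Xr249.D_cpath (mac P) hL0 ha hb
  have hc : ∀ a ∈ D P.F L, ∀ b ∈ D P.F L, Xr249.CPath {t | t ∈ D P.F L} a b :=
    fun a ha b hb => Xr249.D_cpath_in (mac P) hL0 ha hb
  have hmain := (comp_gen G hcc hc hMK (mark_far hL0 hev (by omega) _ _ b)
    (mark_far hL0 hev (by omega) _ _ b) (mark_far hL0 hev (by omega) _ _ b) h1 h0).2
  have e1 : P.HD L p y0 = Ob664.HG (D P.F L) (beD (D P.F L) p y0 (B' * L + L - 1)) (mk P L 0)
      (mk P L 1) (mk P L 2) := by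
    show Ob664.HG (D P.F L) (beD (D P.F L) p y0 (Ob664.rgt (D P.F L) p y0)) _ _ _ = _
    rw [rgt_run r0 (by omega) (by omega)]
    rfl
  have e2 : HAp P L B p y0 = Ob664.HG (Dp (D P.F L) (A * L) (B' * L + L - 1) B.y1 B.y2 (L / 8))
      (beD (Dp (D P.F L) (A * L) (B' * L + L - 1) B.y1 B.y2 (L / 8)) p y0
        (B' * L + L - 1 + L / 8)) (mk P L 0) (mk P L 1) (mk P L 2) := by
    unfold HAp HA
    rw [hB.xl, hB.xr, rgt_run (run_Dp r0 G.fr (by omega) (by omega)) (by omega) (by omega)]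
  rw [e1, e2, norm_sub_rev]
  exact hmain

/-- numbers -/
theorem comp_num {h L y ρ : ℝ} {y0 y1 y2 : ℤ} {r' n : ℕ} (hh : 0 < h) (hhL : 3 ≤ h * L)
    (hρ : 6 * h ≤ ρ) (hr' : r' = ⌊5 * h * L⌋₊) (hn : n = ⌊ρ * L⌋₊)
    (hy1 : y1 = ⌊(y - 3 * h) * L⌋) (hy2 : y2 = ⌊(y + 3 * h) * L⌋) (hL : 0 < L)
    (g1 : (y - h) * L ≤ y0) (g2 : (y0 : ℝ) ≤ (y + h) * L) :
    1 ≤ r' ∧ r' + 1 ≤ n ∧ y0 - r' ≤ y1 ∧ y1 < y0 ∧ y0 < y2 ∧ y2 ≤ y0 + r' ∧
      (r' : ℝ) / n ≤ 10 / ρ * h ∧ (n : ℝ) ≤ ρ * L := by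
  have f1 : (r' : ℝ) ≤ 5 * h * L := by rw [hr']; exact Nat.floor_le (by positivity)
  have f2 : 5 * h * L < r' + 1 := by rw [hr']; exact Nat.lt_floor_add_one _
  have hρ0 : 0 < ρ := by linarith
  have f3 : (n : ℝ) ≤ ρ * L := by rw [hn]; exact Nat.floor_le (by positivity)
  have f4 : ρ * L < n + 1 := by rw [hn]; exact Nat.lt_floor_add_one _
  have f5 : (y1 : ℝ) ≤ (y - 3 * h) * L := by rw [hy1]; exact Int.floor_le _
  have f6 : (y - 3 * h) * L < y1 + 1 := by rw [hy1]; exact Int.lt_floor_add_one _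
  have f7 : (y2 : ℝ) ≤ (y + 3 * h) * L := by rw [hy2]; exact Int.floor_le _
  have f8 : (y + 3 * h) * L < y2 + 1 := by rw [hy2]; exact Int.lt_floor_add_one _
  have f9 : 6 * (h * L) ≤ ρ * L := by nlinarith
  have n0 : (0 : ℝ) < n := by nlinarith
  refine ⟨?_, ?_, ?_, ?_, ?_, ?_, ?_, f3⟩
  · have : (1 : ℝ) ≤ r' := by nlinarith
    exact_mod_cast this
  · have : ((r' + 1 : ℕ) : ℝ) ≤ n := by push_cast; nlinarith
    exact_mod_cast this
  · have : ((y0 - r' : ℤ) : ℝ) ≤ y1 := by push_cast; nlinarith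
    exact_mod_cast this
  · have : (y1 : ℝ) < y0 := by nlinarith
    exact_mod_cast this
  · have : (y0 : ℝ) < y2 := by nlinarith
    exact_mod_cast this
  · have : (y2 : ℝ) ≤ ((y0 + r' : ℤ) : ℝ) := by push_cast; nlinarith
    exact_mod_cast this
  · rw [div_le_iff₀ n0]
    have e : 10 / ρ * h * n = (10 * h * n) / ρ := by ring
    rw [e, le_div_iff₀ hρ0]
    have k1 : (r' : ℝ) * ρ ≤ 5 * h * L * ρ := by nlinarith
    have k2 : L * ρ ≤ 2 * n := by nlinarith
    nlinarith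

/-- the probability of the stepped half annulus -/
theorem p2_le : ∃ c C : ℝ, 0 < c ∧ 1 ≤ C ∧ ∀ (e : ℕ) (X Y : ℤ) (r n : ℕ) (w : Wd (ℤ × ℤ)),
    (e = 0 ∨ e = 1) → 1 ≤ r → r + 1 ≤ n → SW X Y r n e w →
    p2 X Y r n e w ≤ C * ((r : ℝ) / n) ^ (1 + c) := by
  obtain ⟨c, hc, hc1, hP⟩ := Pj679.stp_prob''
  obtain ⟨C0, hC0, h0⟩ := hP 0
  obtain ⟨C1, hC1, h1⟩ := hP 1
  have key : ∀ (e : ℕ) (X Y : ℤ) (r n : ℕ) (w : Wd (ℤ × ℤ)),
      p2 X Y r n e w ≤ (PB fun _ : ℤ × ℤ => hf).real {s | ∃ i j, i ∈ Pj679.Jl X Y r e ∧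
        j ∈ Pj679.Jl X Y r e ∧ i ≠ j ∧
        Sw300.M s w i ∈ Pj679.Jo X Y n e ∧ Sw300.M s w j ∈ Pj679.Jo X Y n e} := by
    intro e X Y r n w
    refine MeasureTheory.measureReal_mono ?_
    rintro s ⟨i, hi, j, hj, h6, h7, h8⟩
    refine ⟨i, j, ?_, ?_, h6, ?_, ?_⟩
    · simpa only [Pj679.Jl, Jls, List.mem_append, or_assoc] using hi
    · simpa only [Pj679.Jl, Jls, List.mem_append, or_assoc] using hj
    · simp only [Pj679.Jo, Jos, List.mem_append] at h7 ⊢; tauto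
    · simp only [Pj679.Jo, Jos, List.mem_append] at h8 ⊢; tauto
  refine ⟨c, max C0 C1, hc, hC0.trans (le_max_left _ _), ?_⟩
  rintro e X Y r n w (rfl | rfl) hr hn hw
  · refine (key _ _ _ _ _ _).trans ((h0 X Y r n hr hn w _ hw.rw).trans ?_)
    gcongr
    exact le_max_left _ _
  · refine (key _ _ _ _ _ _).trans ((h1 X Y r n hr hn w _ hw.rw).trans ?_)
    gcongr
    exact le_max_right _ _

/-- **the comparison** -/
theorem compP (P : P4) : CompP P := by
  obtain ⟨c, C, hc, hC, hp2⟩ := p2_le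
  intro A B' r hrun a b c1 e1 hA hab hB hce hhalf
  obtain ⟨m, hm0, hm, -, -⟩ := hhalf.margin hce
  set ρ : ℝ := min (m / 2) (min ((a - A) / 2) ((B' + 1 - b) / 2)) with hρ
  have hρ0 : 0 < ρ := lt_min (by linarith) (lt_min (by linarith) (by linarith))
  have ρ1 : ρ ≤ m / 2 := min_le_left _ _
  have ρ2 : ρ ≤ (a - A) / 2 := (min_le_right _ _).trans (min_le_left _ _)
  have ρ3 : ρ ≤ (B' + 1 - b) / 2 := (min_le_right _ _).trans (min_le_right _ _)
  refine ⟨ρ / 6, 4 * (C * (10 / ρ) ^ (1 + c)), c, by positivity, by positivity, hc, ?_⟩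
  intro h y hh hlt hy1 hy2
  refine ⟨⌈3 / h⌉ + ⌈8 / ρ⌉ + 9, fun L hL hev B hB0 p y0 g1 g2 g3 g4 => ?_⟩
  have k1 := Int.le_ceil (3 / h)
  have k2 := Int.le_ceil (8 / ρ)
  have k3 : (0 : ℝ) < 3 / h := by positivity
  have k4 : (0 : ℝ) < 8 / ρ := by positivity
  have hL' : ((⌈3 / h⌉ + ⌈8 / ρ⌉ + 9 : ℤ) : ℝ) ≤ L := by exact_mod_cast hL
  push_cast at hL'
  have hLr : (0 : ℝ) < L := by linarith
  have hL8 : 8 ≤ L := by
    have : ((8 : ℤ) : ℝ) ≤ L := by push_cast; linarith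
    exact_mod_cast this
  have hhL : 3 ≤ h * L := by
    have : 3 / h ≤ L := by linarith
    rw [div_le_iff₀ hh] at this; linarith
  have hρL : 8 ≤ ρ * L := by
    have : 8 / ρ ≤ L := by linarith
    rw [div_le_iff₀ hρ0] at this; linarith
  have i3 : (y - h) * L ≤ y0 := by rwa [le_div_iff₀ hLr] at g3
  have i4 : (y0 : ℝ) ≤ (y + h) * L := by rwa [div_le_iff₀ hLr] at g4
  have i1 : a * L ≤ p := by rwa [le_div_iff₀ hLr] at g1
  have i2 : (p : ℝ) ≤ b * L := by rwa [div_le_iff₀ hLr] at g2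
  obtain ⟨n1, n2, n3, n4, n5, n6, n7, n8⟩ := comp_num (y := y) (ρ := ρ) (y0 := y0) hh hhL
    (by linarith) rfl rfl rfl rfl hLr i3 i4
  set r' := ⌊5 * h * L⌋₊
  set n := ⌊ρ * L⌋₊
  obtain ⟨l, hl⟩ := id hev
  have hl2 : L / 2 = l := by omega
  have hlr : (L : ℝ) = l + l := by rw [hl]; push_cast; ring
  have hrow : (r * L < y0 - n ∧ y0 + n ≤ r * L + L / 2 - 1) ∨
      (r * L + L / 2 < y0 - n ∧ y0 + n ≤ r * L + L - 1) := by
    rw [hl2]
    have u1 : (c1 - m) * L ≤ (y - h - ρ) * L := mul_le_mul_of_nonneg_right (by linarith) hLr.le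
    have u2 : (y + h + ρ) * L + 3 ≤ (e1 + m) * L := by
      have : (y + h + ρ + h) * L ≤ (e1 + m) * L :=
        mul_le_mul_of_nonneg_right (by linarith) hLr.le
      linarith
    rcases hm with ⟨q1, q2⟩ | ⟨q1, q2⟩
    · left
      have v1 : (r : ℝ) * L < (c1 - m) * L := mul_lt_mul_of_pos_right q1 hLr
      have v2 : (e1 + m) * L < ((r : ℝ) + 1 / 2) * L := mul_lt_mul_of_pos_right q2 hLr
      constructor
      · have : ((r * L : ℤ) : ℝ) < ((y0 - n : ℤ) : ℝ) := by push_cast; linarith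
        exact_mod_cast this
      · have : ((y0 + n : ℤ) : ℝ) ≤ ((r * L + l - 1 : ℤ) : ℝ) := by push_cast; linarith
        exact_mod_cast this
    · right
      have v1 : ((r : ℝ) + 1 / 2) * L < (c1 - m) * L := mul_lt_mul_of_pos_right q1 hLr
      have v2 : (e1 + m) * L < ((r : ℝ) + 1) * L := mul_lt_mul_of_pos_right q2 hLr
      constructor
      · have : ((r * L + l : ℤ) : ℝ) < ((y0 - n : ℤ) : ℝ) := by push_cast; linarith
        exact_mod_cast this
      · have : ((y0 + n : ℤ) : ℝ) ≤ ((r * L + L - 1 : ℤ) : ℝ) := by push_cast; linarith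
        exact_mod_cast this
  have hp1 : A * L + n < p := by
    have v1 : (A + ρ + ρ) * L ≤ a * L := mul_le_mul_of_nonneg_right (by linarith) hLr.le
    have : ((A * L + n : ℤ) : ℝ) < p := by push_cast; linarith
    exact_mod_cast this
  have hp2' : p ≤ B' * L + L - 1 - n := by
    have v1 : (b + ρ + ρ) * L ≤ (B' + 1) * L := mul_le_mul_of_nonneg_right (by linarith) hLr.le
    have : (p : ℝ) ≤ ((B' * L + L - 1 - n : ℤ) : ℝ) := by push_cast; linarith
    exact_mod_cast this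
  obtain ⟨w1, hw1⟩ := exists_SW (B' * L + L - 1) y0 r' n 1 n1 n2
  obtain ⟨w0, hw0⟩ := exists_SW (-(A * L)) (1 - y0) r' n 0 n1 n2
  have t := comp_slice hB0 hrun hL8 hev n1 n2 (by rw [hB0.y1]; exact n3) (by rw [hB0.y1]; exact n4)
    (by rw [hB0.y2]; exact n5) (by rw [hB0.y2]; exact n6) hrow hp1 hp2' hw1 hw0
  have t1 := hp2 1 _ _ r' n w1 (Or.inr rfl) n1 n2 hw1
  have t0 := hp2 0 _ _ r' n w0 (Or.inl rfl) n1 n2 hw0
  have t2 : ((r' : ℝ) / n) ^ (1 + c) ≤ (10 / ρ) ^ (1 + c) * h ^ (1 + c) := by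
    rw [← Real.mul_rpow (by positivity) hh.le]
    exact Real.rpow_le_rpow (by positivity) n7 (by linarith)
  have t3 : C * ((r' : ℝ) / n) ^ (1 + c) ≤ C * ((10 / ρ) ^ (1 + c) * h ^ (1 + c)) :=
    mul_le_mul_of_nonneg_left t2 (by linarith)
  calc ‖HAp P L B p y0 - P.HD L p y0‖ ≤ _ := t
    _ ≤ 4 * (C * ((10 / ρ) ^ (1 + c) * h ^ (1 + c))) := by linarith
    _ = 4 * (C * (10 / ρ) ^ (1 + c)) * h ^ (1 + c) := by ring

/-- **`Q1m false` from norms, evaluation and the boundary** -/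
theorem Q1m_of_three {fz : FZ} (hN : ∀ P, NormP fz P) (hE : ∀ P, EvalP fz P)
    (ho : ∀ P : P4, OscM P) : Tj656.Q1m false :=
  Q1m_of_inputs hN hE compP ho

end

end Crest.Agent.R158.Cs410
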