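import Crest.Agent.R158.Gc7_748
import Crest.Agent.R158.Xr8_249
import Crest.Agent.R158.Sl4_434
import Crest.Agent.R158.Cb5_771
import Crest.Agent.R158.Sl9_434

-- ▼ part R158/Gc8_748
section

/-!
# R158 block GC, part 8: sector annuli (request of helper161)

Centre face `(X, Y)` (NE corner of the tile `(X, Y)`), radii `1 ≤ r < n`.
* `QA` (`InQ`) : quarter annulus, tiles `X < x ≤ X+n`, `Y < y ≤ Y+n`, not (`x ≤ X+r`, `y ≤ Y+r`)
* `TA` (`InT`) : three quarter annulus, tiles of the box of radius `n`, not in the box of radius `r`,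
  not in the quadrant `x > X`, `y > Y`
* **`word_of_chain`** : an explicit `Nx`-chain from the base `W` port is the ring of a word
* **`qa_word`**, **`ta_word`**
-/

set_option autoImplicit false
set_option linter.unusedVariables false

namespace Crest.Agent.R158.Gc748

open Crest.Agent.R158.Xr249 (Reg Nx CPath)
open Crest.Agent.R158.Sw300 (Port Wd)

/-- **an explicit boundary list is the ring** -/
theorem word_of_chain {K : Reg} (hsc : K.SC) (hc : K.Conn) {a0 b0 t0 : ℤ}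
    (hr0 : K.IsRun a0 b0 t0) {e : List (Port (ℤ × ℤ))}
    (hch : List.IsChain (Nx K.gl) (some ((a0, t0), 0) :: (e ++ [some ((a0, t0), 0)])))
    (hne : some ((a0, t0), (0 : ZMod 4)) ∉ e) :
    ∃ w : Wd (ℤ × ℤ), RW K w (a0, t0) ∧ Sw300.Fc w ∧
      Sw300.L w = none :: some ((a0, t0), 0) :: e := by
  obtain ⟨w, l, h1, h2, h3, h4, _, h6, h7, h8, _, h10⟩ := Reg.ok hsc hc hr0
  refine ⟨w, ⟨h1, by rw [← bas_eq]; exact h3, h4, h6⟩, h2, ?_⟩
  have hdet : ∀ a b c, Nx K.gl a b → Nx K.gl a c → b = c := fun a b c => Nx.det K.gl_glue.fn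
  rw [h7] at h8
  have hn' := (List.nodup_cons.1 (List.nodup_cons.1 h8).2).1
  rw [h7, chain_det hdet h10 hch hn' hne]


variable {X Y : ℤ} {r n : ℕ}

/-! ### quarter annulus -/

/-- tiles of the quarter annulus -/
def InQ (X Y : ℤ) (r n : ℕ) (p : ℤ × ℤ) : Prop :=
  X < p.1 ∧ p.1 ≤ X + n ∧ Y < p.2 ∧ p.2 ≤ Y + n ∧ ¬ (p.1 ≤ X + r ∧ p.2 ≤ Y + r)

open Classical in
/-- the quarter annulus -/
noncomputable def QA (X Y : ℤ) (r n : ℕ) : Finset (ℤ × ℤ) :=
  ((Finset.Icc X (X + n)) ×ˢ (Finset.Icc Y (Y + n))).filter (InQ X Y r n)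

theorem mem_QA {t : ℤ × ℤ} : t ∈ QA X Y r n ↔ InQ X Y r n t := by
  simp only [QA, Finset.mem_filter, Finset.mem_product, Finset.mem_Icc]
  refine ⟨fun h => h.2, fun h => ⟨?_, h⟩⟩
  unfold InQ at h; omega


theorem qa_sc : (Xr249.full (QA X Y r n)).SC := by
  refine Xr249.full_SC ?_
  rintro ⟨x, y⟩ hc
  have hX : ∀ {a b : ℤ}, ¬ InQ X Y r n (a, b) → (a, b) ∈ {t : ℤ × ℤ | t ∉ QA X Y r n} :=
    fun h h' => h (mem_QA.1 h')
  rw [mem_QA] at hc
  have top : ∀ d : ℤ, Y + n ≤ d → ∀ t ∈ QA X Y r n, t.2 ≤ d := by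
    intro d hd t ht
    have := mem_QA.1 ht
    unfold InQ at this; omega
  have up : ∀ x y : ℤ, (x ≤ X ∨ X + n < x) → ∃ d, CPath {t | t ∉ QA X Y r n} (x, y) d ∧
      ∀ t ∈ QA X Y r n, t.2 ≤ d.2 := by
    intro x y hx
    refine ⟨(x, max y (Y + n)), CPath.ver (le_max_left _ _) fun z _ _ => hX ?_,
      top _ (le_max_right _ _)⟩
    unfold InQ; simp only; omega
  have left : ∀ x y : ℤ, (∀ a, X ≤ a → a ≤ x → ¬ InQ X Y r n (a, y)) → X ≤ x →
      ∃ d, CPath {t | t ∉ QA X Y r n} (x, y) d ∧ ∀ t ∈ QA X Y r n, t.2 ≤ d.2 := by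
    intro x y h hx
    obtain ⟨d, h1, h2⟩ := up X y (Or.inl le_rfl)
    exact ⟨d, (CPath.hor hx fun z h3 h4 => hX (h z h3 h4)).symm.trans h1, h2⟩
  by_cases h1 : x ≤ X ∨ X + n < x
  · exact up x y h1
  by_cases h2 : Y + n < y
  · exact ⟨(x, y), .refl, top _ h2.le⟩
  refine left x y (fun a h3 h4 => ?_) (by omega)
  unfold InQ at hc ⊢
  simp only at hc ⊢
  omega

theorem qa_conn (hn : r + 1 ≤ n) : (Xr249.full (QA X Y r n)).Conn := by
  refine Xr249.full_Conn ?_
  have hX : ∀ {a b : ℤ}, InQ X Y r n (a, b) → (a, b) ∈ {t : ℤ × ℤ | t ∈ QA X Y r n} :=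
    fun h => mem_QA.2 h
  have hub : ∀ a ∈ QA X Y r n, CPath {t | t ∈ QA X Y r n} a (X + n, Y + n) := by
    rintro ⟨x, y⟩ ha
    have h := mem_QA.1 ha
    unfold InQ at h
    simp only at h
    refine (CPath.hor (x2 := X + n) (by omega) fun z h1 h2 => hX ?_).trans
      (CPath.ver (y2 := Y + n) (by omega) fun z h1 h2 => hX ?_)
    · unfold InQ; simp only; omega
    · unfold InQ; simp only; omega
  intro a ha b hb
  exact (hub a ha).trans (hub b hb).symm

theorem qa_run (hr : 1 ≤ r) (hn : r + 1 ≤ n) :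
    (Xr249.full (QA X Y r n)).IsRun (X + r + 1) (X + n) (Y + 1) := by
  refine ⟨by omega, ?_, fun x h1 h2 => ?_, ?_, ?_⟩
  · rw [Xr249.full_P, mem_QA]; unfold InQ; simp only; omega
  · rw [Xr249.full_h, mem_QA, mem_QA]; unfold InQ; simp only; omega
  · rw [Xr249.full_h, mem_QA, mem_QA]; unfold InQ; simp only; omega
  · rw [Xr249.full_h, mem_QA, mem_QA]; unfold InQ; simp only; omega

/-- inner side, right part, up -/
def QjW (X Y : ℤ) (r n : ℕ) : List (Port (ℤ × ℤ)) :=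
  fl (fun i => some ((X + r + 1, Y + 1 + i), 0)) (r - 1)

/-- inner side, upper part, to the left -/
def QjS (X Y : ℤ) (r n : ℕ) : List (Port (ℤ × ℤ)) :=
  fl (fun i => some ((X + r - i, Y + r + 1), 3)) (r - 1)

/-- wall on the left, up -/
def QnW (X Y : ℤ) (r n : ℕ) : List (Port (ℤ × ℤ)) :=
  fl (fun i => some ((X + 1, Y + r + 1 + i), 0)) (n - r - 1)

/-- outer side, to the right -/
def QoN (X Y : ℤ) (r n : ℕ) : List (Port (ℤ × ℤ)) :=
  fl (fun i => some ((X + 1 + i, Y + n), 1)) (n - 1)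

/-- outer side, down -/
def QoE (X Y : ℤ) (r n : ℕ) : List (Port (ℤ × ℤ)) :=
  fl (fun i => some ((X + n, Y + n - i), 2)) (n - 1)

/-- wall below, to the left -/
def QnS (X Y : ℤ) (r n : ℕ) : List (Port (ℤ × ℤ)) :=
  fl (fun i => some ((X + n - i, Y + 1), 3)) (n - r - 1)

theorem qa_chain (hr : 1 ≤ r) (hn : r + 1 ≤ n) : List.IsChain (Nx (Xr249.full (QA X Y r n)).gl)
    (QjW X Y r n ++ (QjS X Y r n ++ (QnW X Y r n ++ (QoN X Y r n ++ (QoE X Y r n ++ (QnS X Y r n ++ [some ((X + r + 1, Y + 1), 0)])))))) := by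
  refine fl_fl_chain (fun i hi => ?_) ?_ ?_
  · refine nx_eq ((nx_straight (x := X + r + 1) (y := Y + 1 + i)).1 ?_ ?_) rfl
      (pe (by omega) (by omega))
    · rw [Xr249.full_v, mem_QA, mem_QA]; unfold InQ; simp only; omega
    · rw [Xr249.full_h, mem_QA, mem_QA]; unfold InQ; simp only; omega
  · refine nx_eq ((nx_reflex (x := X + r + 1) (y := Y + r)).1 ?_ ?_ ?_)
      (pe (by omega) (by omega)) (pe (by omega) (by omega))
    · rw [Xr249.full_v, mem_QA, mem_QA]; unfold InQ; simp only; omega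
    · rw [Xr249.full_h, mem_QA, mem_QA]; unfold InQ; simp only; omega
    · rw [Xr249.full_v, mem_QA, mem_QA]; unfold InQ; simp only; omega
  refine fl_fl_chain (fun i hi => ?_) ?_ ?_
  · refine nx_eq ((nx_straight (x := X + r - i) (y := Y + r + 1)).2.2.2 ?_ ?_) rfl
      (pe (by omega) (by omega))
    · rw [Xr249.full_h, mem_QA, mem_QA]; unfold InQ; simp only; omega
    · rw [Xr249.full_v, mem_QA, mem_QA]; unfold InQ; simp only; omega
  · refine nx_eq ((nx4 (x := X + 1) (y := Y + r + 1)).2.2.2 ?_) (pe (by omega) (by omega))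
      (pe (by omega) (by omega))
    rw [Xr249.full_h, mem_QA, mem_QA]; unfold InQ; simp only; omega
  refine fl_fl_chain (fun i hi => ?_) ?_ ?_
  · refine nx_eq ((nx_straight (x := X + 1) (y := Y + r + 1 + i)).1 ?_ ?_) rfl
      (pe (by omega) (by omega))
    · rw [Xr249.full_v, mem_QA, mem_QA]; unfold InQ; simp only; omega
    · rw [Xr249.full_h, mem_QA, mem_QA]; unfold InQ; simp only; omega
  · refine nx_eq ((nx4 (x := X + 1) (y := Y + n)).1 ?_) (pe (by omega) (by omega))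
      (pe (by omega) (by omega))
    rw [Xr249.full_v, mem_QA, mem_QA]; unfold InQ; simp only; omega
  refine fl_fl_chain (fun i hi => ?_) ?_ ?_
  · refine nx_eq ((nx_straight (x := X + 1 + i) (y := Y + n)).2.1 ?_ ?_) rfl
      (pe (by omega) (by omega))
    · rw [Xr249.full_h, mem_QA, mem_QA]; unfold InQ; simp only; omega
    · rw [Xr249.full_v, mem_QA, mem_QA]; unfold InQ; simp only; omega
  · refine nx_eq ((nx4 (x := X + n) (y := Y + n)).2.1 ?_) (pe (by omega) (by omega))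
      (pe (by omega) (by omega))
    rw [Xr249.full_h, mem_QA, mem_QA]; unfold InQ; simp only; omega
  refine fl_fl_chain (fun i hi => ?_) ?_ ?_
  · refine nx_eq ((nx_straight (x := X + n) (y := Y + n - i)).2.2.1 ?_ ?_) rfl
      (pe (by omega) (by omega))
    · rw [Xr249.full_v, mem_QA, mem_QA]; unfold InQ; simp only; omega
    · rw [Xr249.full_h, mem_QA, mem_QA]; unfold InQ; simp only; omega
  · refine nx_eq ((nx4 (x := X + n) (y := Y + 1)).2.2.1 ?_) (pe (by omega) (by omega))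
      (pe (by omega) (by omega))
    rw [Xr249.full_v, mem_QA, mem_QA]; unfold InQ; simp only; omega
  refine fl_app_chain (fun i hi => ?_) ?_ (by simp)
  · refine nx_eq ((nx_straight (x := X + n - i) (y := Y + 1)).2.2.2 ?_ ?_) rfl
      (pe (by omega) (by omega))
    · rw [Xr249.full_h, mem_QA, mem_QA]; unfold InQ; simp only; omega
    · rw [Xr249.full_v, mem_QA, mem_QA]; unfold InQ; simp only; omega
  · refine nx_eq ((nx4 (x := X + r + 1) (y := Y + 1)).2.2.2 ?_) (pe (by omega) (by omega))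
      rfl
    rw [Xr249.full_h, mem_QA, mem_QA]; unfold InQ; simp only; omega

/-- **the word of the region `QA`** -/
theorem qa_word (X Y : ℤ) (r n : ℕ) (hr : 1 ≤ r) (hn : r + 1 ≤ n) :
    ∃ w : Wd (ℤ × ℤ), RW (Xr249.full (QA X Y r n)) w (X + r + 1, Y + 1) ∧ Sw300.Fc w ∧
    Sw300.L w = none :: (QjW X Y r n ++ (QjS X Y r n ++ (QnW X Y r n ++ (QoN X Y r n ++ (QoE X Y r n ++ (QnS X Y r n)))))) := by
  have hw0 : ∃ l, QjW X Y r n = some ((X + r + 1, Y + 1), 0) :: l := by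
    obtain ⟨l, hl⟩ := fl_cons (fun i : ℕ => (some ((X + r + 1, Y + 1 + i), 0) : Port (ℤ × ℤ)))
      (r - 1)
    exact ⟨l, by unfold QjW; rw [hl]; simp⟩
  obtain ⟨l', hl'⟩ := hw0
  have hch := qa_chain (X := X) (Y := Y) hr hn
  rw [hl'] at hch
  have hch' : List.IsChain (Nx (Xr249.full (QA X Y r n)).gl) (some ((X + r + 1, Y + 1), 0) ::
      ((l' ++ (QjS X Y r n ++ (QnW X Y r n ++ (QoN X Y r n ++ (QoE X Y r n ++ (QnS X Y r n)))))) ++
        [some ((X + r + 1, Y + 1), 0)])) := by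
    simpa [List.append_assoc] using hch
  have hne : some ((X + r + 1, Y + 1), (0 : ZMod 4)) ∉ l' ++ (QjS X Y r n ++ (QnW X Y r n ++ (QoN X Y r n ++ (QoE X Y r n ++ (QnS X Y r n))))) := by
    have k1 : some ((X + r + 1, Y + 1), (0 : ZMod 4)) ∉ l' := by
      have hw : wS ((X + r + 1, Y + 1).1) ((X + r + 1, Y + 1).2) (r - 1) = QjW X Y r n := rfl
      exact nodup_head (hw.trans hl')
    simp only [List.mem_append, not_or]
    refine ⟨k1, ?_, ?_, ?_, ?_, ?_⟩
    all_goals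
      intro hm
      obtain ⟨i, hi', hi⟩ := mem_fl.1 hm
      simp only [Option.some.injEq, Prod.mk.injEq] at hi
      first
        | exact absurd hi.2 (by decide)
        | omega
  obtain ⟨w, h1, h2, h3⟩ := word_of_chain qa_sc (qa_conn hn) (qa_run hr hn) hch' hne
  exact ⟨w, h1, h2, by rw [h3, hl']; simp⟩

/-! ### three quarter annulus -/

/-- tiles of the three quarter annulus -/
def InT (X Y : ℤ) (r n : ℕ) (p : ℤ × ℤ) : Prop :=
  X - n < p.1 ∧ p.1 ≤ X + n ∧ Y - n < p.2 ∧ p.2 ≤ Y + n ∧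
    ¬ (X - r < p.1 ∧ p.1 ≤ X + r ∧ Y - r < p.2 ∧ p.2 ≤ Y + r) ∧ ¬ (X < p.1 ∧ Y < p.2)

open Classical in
/-- the three quarter annulus -/
noncomputable def TA (X Y : ℤ) (r n : ℕ) : Finset (ℤ × ℤ) :=
  ((Finset.Icc (X - n) (X + n)) ×ˢ (Finset.Icc (Y - n) (Y + n))).filter (InT X Y r n)

theorem mem_TA {t : ℤ × ℤ} : t ∈ TA X Y r n ↔ InT X Y r n t := by
  simp only [TA, Finset.mem_filter, Finset.mem_product, Finset.mem_Icc]
  refine ⟨fun h => h.2, fun h => ⟨?_, h⟩⟩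
  unfold InT at h; omega


theorem ta_sc (hr : 1 ≤ r) : (Xr249.full (TA X Y r n)).SC := by
  refine Xr249.full_SC ?_
  rintro ⟨x, y⟩ hc
  have hX : ∀ {a b : ℤ}, ¬ InT X Y r n (a, b) → (a, b) ∈ {t : ℤ × ℤ | t ∉ TA X Y r n} :=
    fun h h' => h (mem_TA.1 h')
  rw [mem_TA] at hc
  have top : ∀ d : ℤ, Y + n ≤ d → ∀ t ∈ TA X Y r n, t.2 ≤ d := by
    intro d hd t ht
    have := mem_TA.1 ht
    unfold InT at this; omega
  have up : ∀ x y : ℤ, (x ≤ X - n ∨ X + n < x ∨ (X < x ∧ Y < y)) →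
      ∃ d, CPath {t | t ∉ TA X Y r n} (x, y) d ∧ ∀ t ∈ TA X Y r n, t.2 ≤ d.2 := by
    intro x y hx
    refine ⟨(x, max y (Y + n)), CPath.ver (le_max_left _ _) fun z hz _ => hX ?_,
      top _ (le_max_right _ _)⟩
    unfold InT; simp only; omega
  by_cases h1 : x ≤ X - n ∨ X + n < x ∨ (X < x ∧ Y < y)
  · exact up x y h1
  by_cases h2 : Y + n < y
  · exact ⟨(x, y), .refl, top _ h2.le⟩
  by_cases h3 : y ≤ Y - n
  · obtain ⟨d, h4, h5⟩ := up (X - n) y (Or.inl le_rfl)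
    refine ⟨d, (CPath.hor (x1 := X - n) (x2 := x) (by omega) fun z h6 h7 => hX ?_).symm.trans h4, h5⟩
    unfold InT; simp only; omega
  -- the inner box
  have h4 : X - r < x ∧ x ≤ X + r ∧ Y - r < y ∧ y ≤ Y + r := by
    unfold InT at hc; simp only at hc; omega
  have v1 : CPath {t | t ∉ TA X Y r n} (x, y) (x, Y + r) :=
    CPath.ver h4.2.2.2 fun z h6 h7 => hX (by unfold InT; simp only; omega)
  by_cases h5 : X < x
  · obtain ⟨d, h6, h7⟩ := up x (Y + r) (Or.inr (Or.inr ⟨h5, by omega⟩))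
    exact ⟨d, v1.trans h6, h7⟩
  · obtain ⟨d, h6, h7⟩ := up (X + 1) (Y + r) (Or.inr (Or.inr ⟨by omega, by omega⟩))
    refine ⟨d, (v1.trans (CPath.hor (x2 := X + 1) (by omega) fun z h8 h9 => hX ?_)).trans h6, h7⟩
    unfold InT; simp only; omega

theorem ta_conn (hn : r + 1 ≤ n) : (Xr249.full (TA X Y r n)).Conn := by
  refine Xr249.full_Conn ?_
  have hX : ∀ {a b : ℤ}, InT X Y r n (a, b) → (a, b) ∈ {t : ℤ × ℤ | t ∈ TA X Y r n} :=
    fun h => mem_TA.2 h
  have left : ∀ x y : ℤ, InT X Y r n (x, y) → (y ≤ Y - r ∨ x ≤ X - r ∨ (Y + r < y ∧ x ≤ X)) →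
      CPath {t | t ∈ TA X Y r n} (X - n + 1, Y - n + 1) (x, y) := by
    intro x y h hcase
    unfold InT at h
    simp only at h
    refine (CPath.ver (y2 := y) (by omega) fun z h1 h2 => hX ?_).trans
      (CPath.hor (by omega) fun z h1 h2 => hX ?_)
    · unfold InT; simp only; omega
    · unfold InT; simp only; omega
  have hub : ∀ a ∈ TA X Y r n, CPath {t | t ∈ TA X Y r n} (X - n + 1, Y - n + 1) a := by
    rintro ⟨x, y⟩ ha
    have h := mem_TA.1 ha
    by_cases hcase : y ≤ Y - r ∨ x ≤ X - r ∨ (Y + r < y ∧ x ≤ X)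
    · exact left x y h hcase
    · unfold InT at h
      simp only at h
      refine (left x (Y - r) ?_ (Or.inl le_rfl)).trans
        (CPath.ver (y1 := Y - r) (by omega) fun z h1 h2 => hX ?_)
      · unfold InT; simp only; omega
      · unfold InT; simp only; omega
  intro a ha b hb
  exact (hub a ha).symm.trans (hub b hb)

theorem ta_run (hr : 1 ≤ r) (hn : r + 1 ≤ n) :
    (Xr249.full (TA X Y r n)).IsRun (X - n + 1) (X + n) (Y - n + 1) := by
  refine ⟨by omega, ?_, fun x h1 h2 => ?_, ?_, ?_⟩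
  · rw [Xr249.full_P, mem_TA]; unfold InT; simp only; omega
  · rw [Xr249.full_h, mem_TA, mem_TA]; unfold InT; simp only; omega
  · rw [Xr249.full_h, mem_TA, mem_TA]; unfold InT; simp only; omega
  · rw [Xr249.full_h, mem_TA, mem_TA]; unfold InT; simp only; omega

/-- outer side, left, up -/
def ToW (X Y : ℤ) (r n : ℕ) : List (Port (ℤ × ℤ)) :=
  fl (fun i => some ((X - n + 1, Y - n + 1 + i), 0)) (2 * n - 1)

/-- outer side, top, to the right -/
def ToN (X Y : ℤ) (r n : ℕ) : List (Port (ℤ × ℤ)) :=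
  fl (fun i => some ((X - n + 1 + i, Y + n), 1)) (n - 1)

/-- vertical wall, down -/
def TnE (X Y : ℤ) (r n : ℕ) : List (Port (ℤ × ℤ)) :=
  fl (fun i => some ((X, Y + n - i), 2)) (n - r - 1)

/-- inner side, top, to the left -/
def TjS (X Y : ℤ) (r n : ℕ) : List (Port (ℤ × ℤ)) :=
  fl (fun i => some ((X - i, Y + r + 1), 3)) (r - 1)

/-- inner side, left, down -/
def TjE (X Y : ℤ) (r n : ℕ) : List (Port (ℤ × ℤ)) :=
  fl (fun i => some ((X - r, Y + r - i), 2)) (2 * r - 1)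

/-- inner side, bottom, to the right -/
def TjN (X Y : ℤ) (r n : ℕ) : List (Port (ℤ × ℤ)) :=
  fl (fun i => some ((X - r + 1 + i, Y - r), 1)) (2 * r - 1)

/-- inner side, right, up -/
def TjW (X Y : ℤ) (r n : ℕ) : List (Port (ℤ × ℤ)) :=
  fl (fun i => some ((X + r + 1, Y - r + 1 + i), 0)) (r - 1)

/-- horizontal wall, to the right -/
def TnN (X Y : ℤ) (r n : ℕ) : List (Port (ℤ × ℤ)) :=
  fl (fun i => some ((X + r + 1 + i, Y), 1)) (n - r - 1)

/-- outer side, right, down -/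
def ToE (X Y : ℤ) (r n : ℕ) : List (Port (ℤ × ℤ)) :=
  fl (fun i => some ((X + n, Y - i), 2)) (n - 1)

/-- outer side, bottom, to the left -/
def ToS (X Y : ℤ) (r n : ℕ) : List (Port (ℤ × ℤ)) :=
  fl (fun i => some ((X + n - i, Y - n + 1), 3)) (2 * n - 1)

theorem ta_chain (hr : 1 ≤ r) (hn : r + 1 ≤ n) : List.IsChain (Nx (Xr249.full (TA X Y r n)).gl)
    (ToW X Y r n ++ (ToN X Y r n ++ (TnE X Y r n ++ (TjS X Y r n ++ (TjE X Y r n ++ (TjN X Y r n ++ (TjW X Y r n ++ (TnN X Y r n ++ (ToE X Y r n ++ (ToS X Y r n ++ [some ((X - n + 1, Y - n + 1), 0)])))))))))) := by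
  refine fl_fl_chain (fun i hi => ?_) ?_ ?_
  · refine nx_eq ((nx_straight (x := X - n + 1) (y := Y - n + 1 + i)).1 ?_ ?_) rfl
      (pe (by omega) (by omega))
    · rw [Xr249.full_v, mem_TA, mem_TA]; unfold InT; simp only; omega
    · rw [Xr249.full_h, mem_TA, mem_TA]; unfold InT; simp only; omega
  · refine nx_eq ((nx4 (x := X - n + 1) (y := Y + n)).1 ?_) (pe (by omega) (by omega))
      (pe (by omega) (by omega))
    rw [Xr249.full_v, mem_TA, mem_TA]; unfold InT; simp only; omega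
  refine fl_fl_chain (fun i hi => ?_) ?_ ?_
  · refine nx_eq ((nx_straight (x := X - n + 1 + i) (y := Y + n)).2.1 ?_ ?_) rfl
      (pe (by omega) (by omega))
    · rw [Xr249.full_h, mem_TA, mem_TA]; unfold InT; simp only; omega
    · rw [Xr249.full_v, mem_TA, mem_TA]; unfold InT; simp only; omega
  · refine nx_eq ((nx4 (x := X) (y := Y + n)).2.1 ?_) (pe (by omega) (by omega))
      (pe (by omega) (by omega))
    rw [Xr249.full_h, mem_TA, mem_TA]; unfold InT; simp only; omega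
  refine fl_fl_chain (fun i hi => ?_) ?_ ?_
  · refine nx_eq ((nx_straight (x := X) (y := Y + n - i)).2.2.1 ?_ ?_) rfl
      (pe (by omega) (by omega))
    · rw [Xr249.full_v, mem_TA, mem_TA]; unfold InT; simp only; omega
    · rw [Xr249.full_h, mem_TA, mem_TA]; unfold InT; simp only; omega
  · refine nx_eq ((nx4 (x := X) (y := Y + r + 1)).2.2.1 ?_) (pe (by omega) (by omega))
      (pe (by omega) (by omega))
    rw [Xr249.full_v, mem_TA, mem_TA]; unfold InT; simp only; omega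
  refine fl_fl_chain (fun i hi => ?_) ?_ ?_
  · refine nx_eq ((nx_straight (x := X - i) (y := Y + r + 1)).2.2.2 ?_ ?_) rfl
      (pe (by omega) (by omega))
    · rw [Xr249.full_h, mem_TA, mem_TA]; unfold InT; simp only; omega
    · rw [Xr249.full_v, mem_TA, mem_TA]; unfold InT; simp only; omega
  · refine nx_eq ((nx_reflex (x := X - r + 1) (y := Y + r + 1)).2.2.2 ?_ ?_ ?_)
      (pe (by omega) (by omega)) (pe (by omega) (by omega))
    · rw [Xr249.full_h, mem_TA, mem_TA]; unfold InT; simp only; omega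
    · rw [Xr249.full_v, mem_TA, mem_TA]; unfold InT; simp only; omega
    · rw [Xr249.full_h, mem_TA, mem_TA]; unfold InT; simp only; omega
  refine fl_fl_chain (fun i hi => ?_) ?_ ?_
  · refine nx_eq ((nx_straight (x := X - r) (y := Y + r - i)).2.2.1 ?_ ?_) rfl
      (pe (by omega) (by omega))
    · rw [Xr249.full_v, mem_TA, mem_TA]; unfold InT; simp only; omega
    · rw [Xr249.full_h, mem_TA, mem_TA]; unfold InT; simp only; omega
  · refine nx_eq ((nx_reflex (x := X - r) (y := Y - r + 1)).2.2.1 ?_ ?_ ?_)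
      (pe (by omega) (by omega)) (pe (by omega) (by omega))
    · rw [Xr249.full_v, mem_TA, mem_TA]; unfold InT; simp only; omega
    · rw [Xr249.full_h, mem_TA, mem_TA]; unfold InT; simp only; omega
    · rw [Xr249.full_v, mem_TA, mem_TA]; unfold InT; simp only; omega
  refine fl_fl_chain (fun i hi => ?_) ?_ ?_
  · refine nx_eq ((nx_straight (x := X - r + 1 + i) (y := Y - r)).2.1 ?_ ?_) rfl
      (pe (by omega) (by omega))
    · rw [Xr249.full_h, mem_TA, mem_TA]; unfold InT; simp only; omega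
    · rw [Xr249.full_v, mem_TA, mem_TA]; unfold InT; simp only; omega
  · refine nx_eq ((nx_reflex (x := X + r) (y := Y - r)).2.1 ?_ ?_ ?_)
      (pe (by omega) (by omega)) (pe (by omega) (by omega))
    · rw [Xr249.full_h, mem_TA, mem_TA]; unfold InT; simp only; omega
    · rw [Xr249.full_v, mem_TA, mem_TA]; unfold InT; simp only; omega
    · rw [Xr249.full_h, mem_TA, mem_TA]; unfold InT; simp only; omega
  refine fl_fl_chain (fun i hi => ?_) ?_ ?_
  · refine nx_eq ((nx_straight (x := X + r + 1) (y := Y - r + 1 + i)).1 ?_ ?_) rfl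
      (pe (by omega) (by omega))
    · rw [Xr249.full_v, mem_TA, mem_TA]; unfold InT; simp only; omega
    · rw [Xr249.full_h, mem_TA, mem_TA]; unfold InT; simp only; omega
  · refine nx_eq ((nx4 (x := X + r + 1) (y := Y)).1 ?_) (pe (by omega) (by omega))
      (pe (by omega) (by omega))
    rw [Xr249.full_v, mem_TA, mem_TA]; unfold InT; simp only; omega
  refine fl_fl_chain (fun i hi => ?_) ?_ ?_
  · refine nx_eq ((nx_straight (x := X + r + 1 + i) (y := Y)).2.1 ?_ ?_) rfl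
      (pe (by omega) (by omega))
    · rw [Xr249.full_h, mem_TA, mem_TA]; unfold InT; simp only; omega
    · rw [Xr249.full_v, mem_TA, mem_TA]; unfold InT; simp only; omega
  · refine nx_eq ((nx4 (x := X + n) (y := Y)).2.1 ?_) (pe (by omega) (by omega))
      (pe (by omega) (by omega))
    rw [Xr249.full_h, mem_TA, mem_TA]; unfold InT; simp only; omega
  refine fl_fl_chain (fun i hi => ?_) ?_ ?_
  · refine nx_eq ((nx_straight (x := X + n) (y := Y - i)).2.2.1 ?_ ?_) rfl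
      (pe (by omega) (by omega))
    · rw [Xr249.full_v, mem_TA, mem_TA]; unfold InT; simp only; omega
    · rw [Xr249.full_h, mem_TA, mem_TA]; unfold InT; simp only; omega
  · refine nx_eq ((nx4 (x := X + n) (y := Y - n + 1)).2.2.1 ?_) (pe (by omega) (by omega))
      (pe (by omega) (by omega))
    rw [Xr249.full_v, mem_TA, mem_TA]; unfold InT; simp only; omega
  refine fl_app_chain (fun i hi => ?_) ?_ (by simp)
  · refine nx_eq ((nx_straight (x := X + n - i) (y := Y - n + 1)).2.2.2 ?_ ?_) rfl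
      (pe (by omega) (by omega))
    · rw [Xr249.full_h, mem_TA, mem_TA]; unfold InT; simp only; omega
    · rw [Xr249.full_v, mem_TA, mem_TA]; unfold InT; simp only; omega
  · refine nx_eq ((nx4 (x := X - n + 1) (y := Y - n + 1)).2.2.2 ?_) (pe (by omega) (by omega))
      rfl
    rw [Xr249.full_h, mem_TA, mem_TA]; unfold InT; simp only; omega

/-- **the word of the region `TA`** -/
theorem ta_word (X Y : ℤ) (r n : ℕ) (hr : 1 ≤ r) (hn : r + 1 ≤ n) :
    ∃ w : Wd (ℤ × ℤ), RW (Xr249.full (TA X Y r n)) w (X - n + 1, Y - n + 1) ∧ Sw300.Fc w ∧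
    Sw300.L w = none :: (ToW X Y r n ++ (ToN X Y r n ++ (TnE X Y r n ++ (TjS X Y r n ++ (TjE X Y r n ++ (TjN X Y r n ++ (TjW X Y r n ++ (TnN X Y r n ++ (ToE X Y r n ++ (ToS X Y r n)))))))))) := by
  have hw0 : ∃ l, ToW X Y r n = some ((X - n + 1, Y - n + 1), 0) :: l := by
    obtain ⟨l, hl⟩ := fl_cons (fun i : ℕ => (some ((X - n + 1, Y - n + 1 + i), 0) : Port (ℤ × ℤ)))
      (2 * n - 1)
    exact ⟨l, by unfold ToW; rw [hl]; simp⟩
  obtain ⟨l', hl'⟩ := hw0
  have hch := ta_chain (X := X) (Y := Y) hr hn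
  rw [hl'] at hch
  have hch' : List.IsChain (Nx (Xr249.full (TA X Y r n)).gl) (some ((X - n + 1, Y - n + 1), 0) ::
      ((l' ++ (ToN X Y r n ++ (TnE X Y r n ++ (TjS X Y r n ++ (TjE X Y r n ++ (TjN X Y r n ++ (TjW X Y r n ++ (TnN X Y r n ++ (ToE X Y r n ++ (ToS X Y r n)))))))))) ++
        [some ((X - n + 1, Y - n + 1), 0)])) := by
    simpa [List.append_assoc] using hch
  have hne : some ((X - n + 1, Y - n + 1), (0 : ZMod 4)) ∉ l' ++ (ToN X Y r n ++ (TnE X Y r n ++ (TjS X Y r n ++ (TjE X Y r n ++ (TjN X Y r n ++ (TjW X Y r n ++ (TnN X Y r n ++ (ToE X Y r n ++ (ToS X Y r n))))))))) := by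
    have k1 : some ((X - n + 1, Y - n + 1), (0 : ZMod 4)) ∉ l' := by
      have hw : wS ((X - n + 1, Y - n + 1).1) ((X - n + 1, Y - n + 1).2) (2 * n - 1) = ToW X Y r n := rfl
      exact nodup_head (hw.trans hl')
    simp only [List.mem_append, not_or]
    refine ⟨k1, ?_, ?_, ?_, ?_, ?_, ?_, ?_, ?_, ?_⟩
    all_goals
      intro hm
      obtain ⟨i, hi', hi⟩ := mem_fl.1 hm
      simp only [Option.some.injEq, Prod.mk.injEq] at hi
      first
        | exact absurd hi.2 (by decide)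
        | omega
  obtain ⟨w, h1, h2, h3⟩ := word_of_chain (ta_sc hr) (ta_conn hn) (ta_run hr hn) hch' hne
  exact ⟨w, h1, h2, by rw [h3, hl']; simp⟩

end Crest.Agent.R158.Gc748
end

-- ▼ part R158/Cw1_161
section

/-!
# R158, corner / mark / flat balls (helper161), file Cw1: standard annuli and their images

* `mem_or_be` : every side of a tile of a word is a free end or glued
* `Std K C b0 M0` : a plane annulus `K` (tiles of `ℤ²`, plain glueing) with its ring `C` of free ends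
* `std_of_rw` : from 748's words
* `pm e k` : image of a port under the tile map `e` and `k` quarter turns; `stK` : the state seen
  from the annulus
* `Emb` : the annulus lies in the glued region `b`
* **`annS_of_std`** : 434's annulus state `AnnS` in the region
-/

set_option autoImplicit false
set_option linter.unusedSectionVars false

noncomputable section

namespace Crest.Agent.R158.Cw161

open Crest.Agent.R161.Geo729
open Crest.Agent.R158.Sw300 (Port Wd thru tls)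
open Crest.Agent.R158.Gc748 (RW pt lc rc bs fa be_state Gp)
open Crest.Agent.R158.Cb771 (dir FP FS)
open Crest.Agent.R158.Sl434

variable {T : Type*} [DecidableEq T]


/-! ### standard annuli -/

/-- a plane annulus with tiles `K`, ring of free ends `C`, glueing `b0`, partner map `M0` -/
structure Std (K : Finset P2) (C : List (Port P2)) (b0 : Port P2 → Port P2)
    (M0 : (P2 → Bool) → Port P2 → Port P2) : Prop where
  ring : ∀ s, Ring (al s) b0 C (M0 s)
  inK : ∀ y ∈ C, ∃ t ∈ K, ∃ d, y = some (t, d) ∧ t + dir d ∉ K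
  out : ∀ t ∈ K, ∀ d, some (t, d) ∉ C → t + dir d ∈ K
  be : ∀ t ∈ K, ∀ d, t + dir d ∈ K → b0 (some (t, d)) = some (t + dir d, d + 2)
  fp : ∀ s, ∀ y ∈ C, FP s (fun t => t ∈ K) (fa 0 (rc y)) (fa 0 (lc (M0 s y)))
  dep : ∀ s s', (∀ t ∈ K, s t = s' t) → M0 s = M0 s'

/-- the plain glueing of a set of tiles -/
structure Plain (R : Xr249.Reg) : Prop where
  h : ∀ x y, R.h (x, y) ↔ (x, y) ∈ R.P ∧ (x + 1, y) ∈ R.P
  v : ∀ x y, R.v (x, y) ↔ (x, y) ∈ R.P ∧ (x, y + 1) ∈ R.P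

theorem plain_full (A : Finset P2) : Plain (Xr249.full A) := ⟨fun _ _ => Iff.rfl, fun _ _ => Iff.rfl⟩

theorem plain_gl {R : Xr249.Reg} (hR : Plain R) {t : P2} {d : ZMod 4} {q : Port P2} :
    R.gl (some (t, d)) q ↔ t ∈ R.P ∧ t + dir d ∈ R.P ∧ q = some (t + dir d, d + 2) := by
  obtain ⟨x, y⟩ := t
  have a0 : (0 : ZMod 4) + 2 = 2 := by decide
  have a1 : (1 : ZMod 4) + 2 = 3 := by decide
  have a2 : (2 : ZMod 4) + 2 = 0 := by decide
  have a3 : (3 : ZMod 4) + 2 = 1 := by decide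
  have e0 : dir 0 = (-1, 0) := by decide
  have e1 : dir 1 = (0, 1) := by decide
  have e2 : dir 2 = (1, 0) := by decide
  have e3 : dir 3 = (0, -1) := by decide
  rcases Xr249.Reg.d4 d with rfl | rfl | rfl | rfl
  · rw [Xr249.Reg.gl_0, hR.h, e0, a0]
    have e : ((x, y) : P2) + (-1, 0) = (x - 1, y) := by ext <;> simp; omega
    rw [e, sub_add_cancel]; tauto
  · rw [Xr249.Reg.gl_1, hR.v, e1, a1]
    have e : ((x, y) : P2) + (0, 1) = (x, y + 1) := by ext <;> simp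
    rw [e]; tauto
  · rw [Xr249.Reg.gl_2, hR.h, e2, a2]
    have e : ((x, y) : P2) + (1, 0) = (x + 1, y) := by ext <;> simp
    rw [e]; tauto
  · rw [Xr249.Reg.gl_3, hR.v, e3, a3]
    have e : ((x, y) : P2) + (0, -1) = (x, y - 1) := by ext <;> simp; omega
    rw [e, sub_add_cancel]; tauto



/-! ### embedded annuli -/

/-- odd number of quarter turns -/
def odd4 (k : ZMod 4) : Bool := decide (k = 1 ∨ k = 3)


/-- image of a port under the tile map `e` and `k` quarter turns -/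
def pm (e : P2 → T) (k : ZMod 4) : Port P2 → Port T := Option.map fun x => (e x.1, x.2 + k)


omit [DecidableEq T] in
@[simp] theorem pm_none (e : P2 → T) (k : ZMod 4) : pm e k none = none := rfl
omit [DecidableEq T] in
@[simp] theorem pm_some (e : P2 → T) (k : ZMod 4) (t : P2) (d : ZMod 4) :
    pm e k (some (t, d)) = some (e t, d + k) := rfl


/-- the annulus `K` lies in the glued region `b` -/
structure Emb (b : Port T → Port T) (K : Finset P2) (e : P2 → T) (k : ZMod 4) : Prop where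
  inj : ∀ t ∈ K, ∀ t' ∈ K, e t = e t' → t = t'
  gl : ∀ t ∈ K, ∀ d, t + dir d ∈ K → b (some (e t, d + k)) = some (e (t + dir d), d + 2 + k)

/-- ports of the far tiles, leg included -/
def Fp (F : Set T) : Set (Port T) := {x | ∀ t d, x = some (t, d) → t ∈ F}


/-- the annulus in its surroundings: `F` = far tiles -/
structure Amb (b : Port T → Port T) (K : Finset P2) (e : P2 → T) (k : ZMod 4) (F : Set T)
    (N1 Jl N2 Jo : List (Port P2)) : Prop extends Emb b K e k where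
  dj : ∀ t ∈ K, e t ∉ F
  wall : ∀ y ∈ N1 ++ N2, b (pm e k y) = pm e k y
  outer : ∀ y ∈ Jo, b (pm e k y) ∈ Fp F
  far : ∀ x ∈ Fp F, b x ∈ Fp F ∨ ∃ y ∈ Jo, b x = pm e k y

section

variable {K : Finset P2} {e : P2 → T} {k : ZMod 4}

/-- ports of the plane annulus -/
def K0 (K : Finset P2) : Set (Port P2) := {y | ∃ t ∈ K, ∃ d, y = some (t, d)}


/-- chart of the annulus -/
def ch (K : Finset P2) (e : P2 → T) (k : ZMod 4) : Port T → Port P2 :=
  Function.invFunOn (pm e k) (K0 K)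



variable {C : List (Port P2)} {b0 : Port P2 → Port P2} {M0 : (P2 → Bool) → Port P2 → Port P2}






end

end Crest.Agent.R158.Cw161
end
namespace Crest.Agent.R158.Cw161.Std
end Crest.Agent.R158.Cw161.Std
end

-- ▼ part R158/Cw3_161
section

/-!
# R158, corner / mark / flat balls (helper161), file Cw3: the standard annuli of the corner balls

* `Bx X Y n` : box of radius `n` round the face `(X, Y)`
* `Sh`, `base` : the shapes (quarter, three quarters, half plane, stepped half plane)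
* `AnnD` : annulus between the boxes of radii `r` and `n` in the shape, as 434's chart annulus `ChA`
* **`annD_exists`** : all four shapes (over 748's words)
* **`x1_le`** : `P(an arc crosses) ≤ C (r / n)^a`, all shapes
-/

set_option autoImplicit false
set_option linter.unusedSectionVars false
set_option linter.unusedVariables false
set_option linter.unusedSimpArgs false

noncomputable section

namespace Crest.Agent.R158.Cw161

open MeasureTheory
open Crest.Agent.R158.Sw300 (Port Wd thru tls)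
open Crest.Agent.R158.Gc748 (RW pt lc rc bs fa fl mem_fl mem_stp mem_QA mem_TA InS InQ InT QA TA stp
  QjW QjS QnW QoN QoE QnS ToW ToN TnE TjS TjE TjN TjW TnN ToE ToS qa_word ta_word qa_chain ta_chain)
open Crest.Agent.R158.Cb771 (dir FP FS FArm farm)
open Crest.Agent.R158.Sl434 (ChA Loc X1 V0 V1 V0_E V0_S V0_N V0_W V1_W V1_N V1_E V1_S chA_stp
  exists_SW bs_isLeg Jls Jos Obs)
open Crest.Agent.R158.Rs689 (PB hf)
open Crest.Agent.R158.Mr679 (tau TF)
open Crest.Agent.R158.Xr249 (Nx Reg)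

/-- box of radius `n` round the face `(X, Y)` -/
def Bx (X Y : ℤ) (n : ℕ) (t : ℤ × ℤ) : Prop :=
  X - n < t.1 ∧ t.1 ≤ X + n ∧ Y - n < t.2 ∧ t.2 ≤ Y + n

/-- shapes: quarter, three quarters, half plane, stepped half plane -/
inductive Sh
  | q | t | h0 | h1

/-- tiles of the shape -/
def base (X Y : ℤ) : Sh → ℤ × ℤ → Prop
  | .q, t => X < t.1 ∧ Y < t.2
  | .t, t => ¬ (X < t.1 ∧ Y < t.2)
  | .h0, t => t.1 ≤ X
  | .h1, t => (t.2 ≤ Y → t.1 ≤ X + 1) ∧ (Y < t.2 → t.1 ≤ X)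

theorem dir0 : dir 0 = (-1, 0) := by decide
theorem dir1 : dir 1 = (0, 1) := by decide
theorem dir2 : dir 2 = (1, 0) := by decide
theorem dir3 : dir 3 = (0, -1) := by decide

/-- the annulus of a shape -/
structure AnnD (sh : Sh) (X Y : ℤ) (r n : ℕ) (K : Reg) (w0 : Wd (ℤ × ℤ))
    (N1 Jl N2 Jo : List (Port (ℤ × ℤ))) (Ob : ℤ × ℤ → Prop) (a b : Port (ℤ × ℤ)) : Prop where
  ch : ChA K w0 N1 Jl N2 Jo Ob a b
  pl : Plain K
  mem : ∀ t, t ∈ K.P ↔ base X Y sh t ∧ Bx X Y n t ∧ ¬ Bx X Y r t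
  wl : ∀ c d, some (c, d) ∈ N1 ++ N2 → ¬ base X Y sh (c + dir d)
  jl : ∀ c d, some (c, d) ∈ Jl → base X Y sh (c + dir d) ∧ Bx X Y r (c + dir d)
  jo : ∀ c d, some (c, d) ∈ Jo → base X Y sh (c + dir d) ∧ ¬ Bx X Y n (c + dir d)
  ri : ∀ p ∈ Jl, |(V1 p).1 - X| ≤ r ∧ |(V1 p).2 - Y| ≤ r
  ro : ∀ p ∈ Jo, (n : ℤ) ≤ |(V0 p).1 - X| ∨ (n : ℤ) ≤ |(V0 p).2 - Y|


/-! ### quarter -/

theorem annD_q {X Y : ℤ} {r n : ℕ} (hr : 1 ≤ r) (hn : r + 1 ≤ n) :
    ∃ w, AnnD .q X Y r n (Xr249.full (QA X Y r n)) w (QnS X Y r n) (QjW X Y r n ++ QjS X Y r n)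
      (QnW X Y r n) (QoN X Y r n ++ QoE X Y r n) (fun v => v.1 = X + n ∨ v.2 = Y + n)
      (some ((X + n, Y + 1), 3)) (some ((X + 1, Y + n), 0)) := by
  obtain ⟨w, h1, h2, h3⟩ := qa_word X Y r n hr hn
  refine ⟨w, ⟨⟨_, h1⟩, bs_isLeg w h1.bas, ?_, ?_, ?_, ?_, ?_, ?_, ?_, ?_, ?_⟩, plain_full _, ?_, ?_,
    ?_, ?_, ?_, ?_⟩
  · refine ⟨_, h3, ?_⟩
    have e1 : QjW X Y r n ++ (QjS X Y r n ++ (QnW X Y r n ++ (QoN X Y r n ++ (QoE X Y r n ++
        QnS X Y r n)))) = (QjW X Y r n ++ (QjS X Y r n ++ (QnW X Y r n ++ (QoN X Y r n ++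
        QoE X Y r n)))) ++ QnS X Y r n := by simp
    have e2 : QnS X Y r n ++ (QjW X Y r n ++ QjS X Y r n) ++ QnW X Y r n ++
        (QoN X Y r n ++ QoE X Y r n) = QnS X Y r n ++ (QjW X Y r n ++ (QjS X Y r n ++
        (QnW X Y r n ++ (QoN X Y r n ++ QoE X Y r n)))) := by simp
    rw [e1, e2]
    exact List.isRotated_append
  · exact (qa_chain (X := X) (Y := Y) hr
      hn).right_of_append.right_of_append.right_of_append.right_of_append.right_of_append.left_of_append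
  · exact (qa_chain (X := X) (Y := Y) hr hn).right_of_append.right_of_append.left_of_append
  · obtain ⟨l, hl⟩ := Gc748.fl_cons (fun i : ℕ => (some ((X + n - i, Y + 1), 3) : Port (ℤ × ℤ)))
      (n - r - 1)
    refine ⟨l, ?_⟩
    unfold QnS
    rw [hl]; simp
  · obtain ⟨l, hl⟩ := Gc748.fl_snoc
      (fun i : ℕ => (some ((X + 1, Y + r + 1 + i), 0) : Port (ℤ × ℤ))) (n - r - 1)
    refine ⟨l, ?_⟩
    unfold QnW
    rw [hl]
    have : Y + r + 1 + ((n - r - 1 : ℕ) : ℤ) = Y + n := by omega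
    rw [this]
  · intro p hp
    rcases List.mem_append.1 hp with hp | hp <;> obtain ⟨i, hi, rfl⟩ := mem_fl.1 hp
    · right; rw [V1_N]
    · left; rw [V1_E]
  · right; rw [V1_W]
  · intro p hp
    rcases List.mem_append.1 hp with hp | hp <;> obtain ⟨i, hi, rfl⟩ := mem_fl.1 hp
    · rw [V0_W]; simp only; omega
    · rw [V0_S]; simp only; omega
  · intro p hp
    rcases List.mem_append.1 hp with hp | hp <;> obtain ⟨i, hi, rfl⟩ := mem_fl.1 hp
    · rw [V0_S]
      simp only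
      intro h1
      have : i = 0 := by omega
      subst this
      simp
    · rw [V0_W]
      simp only
      intro h1
      omega
  · intro t
    rw [Xr249.full_P, mem_QA]
    unfold InQ Bx base
    omega
  · intro c d hp
    rcases List.mem_append.1 hp with hp | hp <;> obtain ⟨i, hi, he⟩ := mem_fl.1 hp <;>
      obtain ⟨rfl, rfl⟩ := Gc748.pt_inj.1 he <;> unfold base <;>
      simp only [dir0, dir1, dir2, dir3, Prod.mk_add_mk] <;> omega
  · intro c d hp
    rcases List.mem_append.1 hp with hp | hp <;> obtain ⟨i, hi, he⟩ := mem_fl.1 hp <;>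
      obtain ⟨rfl, rfl⟩ := Gc748.pt_inj.1 he <;> unfold base Bx <;>
      simp only [dir0, dir1, dir2, dir3, Prod.mk_add_mk] <;> omega
  · intro c d hp
    rcases List.mem_append.1 hp with hp | hp <;> obtain ⟨i, hi, he⟩ := mem_fl.1 hp <;>
      obtain ⟨rfl, rfl⟩ := Gc748.pt_inj.1 he <;> unfold base Bx <;>
      simp only [dir0, dir1, dir2, dir3, Prod.mk_add_mk] <;> omega
  · intro p hp
    rcases List.mem_append.1 hp with hp | hp <;> obtain ⟨i, hi, rfl⟩ := mem_fl.1 hp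
    · rw [V1_W, abs_le, abs_le]; simp only; omega
    · rw [V1_S, abs_le, abs_le]; simp only; omega
  · intro p hp
    rcases List.mem_append.1 hp with hp | hp <;> obtain ⟨i, hi, rfl⟩ := mem_fl.1 hp
    · rw [V0_N, le_abs, le_abs]; simp only; omega
    · rw [V0_E, le_abs, le_abs]; simp only; omega

/-! ### three quarters -/

theorem annD_t {X Y : ℤ} {r n : ℕ} (hr : 1 ≤ r) (hn : r + 1 ≤ n) :
    ∃ w, AnnD .t X Y r n (Xr249.full (TA X Y r n)) w (TnE X Y r n)
      (TjS X Y r n ++ TjE X Y r n ++ TjN X Y r n ++ TjW X Y r n)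
      (TnN X Y r n) (ToE X Y r n ++ ToS X Y r n ++ ToW X Y r n ++ ToN X Y r n)
      (fun v => v.1 = X + n ∨ v.1 = X - n ∨ v.2 = Y + n ∨ v.2 = Y - n)
      (some ((X, Y + n), 2)) (some ((X + n, Y), 1)) := by
  obtain ⟨w, h1, h2, h3⟩ := ta_word X Y r n hr hn
  refine ⟨w, ⟨⟨_, h1⟩, bs_isLeg w h1.bas, ?_, ?_, ?_, ?_, ?_, ?_, ?_, ?_, ?_⟩, plain_full _, ?_, ?_,
    ?_, ?_, ?_, ?_⟩
  · refine ⟨_, h3, ?_⟩
    have e1 : ToW X Y r n ++ (ToN X Y r n ++ (TnE X Y r n ++ (TjS X Y r n ++ (TjE X Y r n ++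
        (TjN X Y r n ++ (TjW X Y r n ++ (TnN X Y r n ++ (ToE X Y r n ++ ToS X Y r n)))))))) =
        (ToW X Y r n ++ ToN X Y r n) ++ (TnE X Y r n ++ (TjS X Y r n ++ (TjE X Y r n ++
        (TjN X Y r n ++ (TjW X Y r n ++ (TnN X Y r n ++ (ToE X Y r n ++ ToS X Y r n))))))) := by
      simp
    have e2 : TnE X Y r n ++ (TjS X Y r n ++ TjE X Y r n ++ TjN X Y r n ++ TjW X Y r n) ++
        TnN X Y r n ++ (ToE X Y r n ++ ToS X Y r n ++ ToW X Y r n ++ ToN X Y r n) =
        (TnE X Y r n ++ (TjS X Y r n ++ (TjE X Y r n ++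
        (TjN X Y r n ++ (TjW X Y r n ++ (TnN X Y r n ++ (ToE X Y r n ++ ToS X Y r n))))))) ++
        (ToW X Y r n ++ ToN X Y r n) := by
      simp
    rw [e1, e2]
    exact List.isRotated_append
  · exact (ta_chain (X := X) (Y := Y) hr hn).right_of_append.right_of_append.left_of_append
  · exact (ta_chain (X := X) (Y := Y) hr
      hn).right_of_append.right_of_append.right_of_append.right_of_append.right_of_append.right_of_append.right_of_append.left_of_append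
  · obtain ⟨l, hl⟩ := Gc748.fl_cons (fun i : ℕ => (some ((X, Y + n - i), 2) : Port (ℤ × ℤ)))
      (n - r - 1)
    refine ⟨l, ?_⟩
    unfold TnE
    rw [hl]; simp
  · obtain ⟨l, hl⟩ := Gc748.fl_snoc
      (fun i : ℕ => (some ((X + r + 1 + i, Y), 1) : Port (ℤ × ℤ))) (n - r - 1)
    refine ⟨l, ?_⟩
    unfold TnN
    rw [hl]
    have : X + r + 1 + ((n - r - 1 : ℕ) : ℤ) = X + n := by omega
    rw [this]
  · intro p hp
    simp only [List.mem_append] at hp
    rcases hp with ((hp | hp) | hp) | hp <;> obtain ⟨i, hi, rfl⟩ := mem_fl.1 hp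
    · left; rw [V1_E]
    · right; right; right; rw [V1_S]; simp
    · right; left; rw [V1_W]; simp
    · right; right; left; rw [V1_N]
  · left; rw [V1_N]
  · intro p hp
    simp only [List.mem_append] at hp
    rcases hp with ((hp | hp) | hp) | hp <;> obtain ⟨i, hi, rfl⟩ := mem_fl.1 hp
    · rw [V0_S]; simp only; omega
    · rw [V0_E]; simp only; omega
    · rw [V0_N]; simp only; omega
    · rw [V0_W]; simp only; omega
  · intro p hp
    rcases List.mem_append.1 hp with hp | hp <;> obtain ⟨i, hi, rfl⟩ := mem_fl.1 hp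
    · rw [V0_E]
      simp only
      intro h1
      have : i = 0 := by omega
      subst this
      simp
    · rw [V0_N]
      simp only
      intro h1
      omega
  · intro t
    rw [Xr249.full_P, mem_TA]
    unfold InT Bx base
    omega
  · intro c d hp
    rcases List.mem_append.1 hp with hp | hp <;> obtain ⟨i, hi, he⟩ := mem_fl.1 hp <;>
      obtain ⟨rfl, rfl⟩ := Gc748.pt_inj.1 he <;> unfold base <;>
      simp only [dir0, dir1, dir2, dir3, Prod.mk_add_mk] <;> omega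
  · intro c d hp
    simp only [List.mem_append] at hp
    rcases hp with ((hp | hp) | hp) | hp <;> obtain ⟨i, hi, he⟩ := mem_fl.1 hp <;>
      obtain ⟨rfl, rfl⟩ := Gc748.pt_inj.1 he <;> unfold base Bx <;>
      simp only [dir0, dir1, dir2, dir3, Prod.mk_add_mk] <;> omega
  · intro c d hp
    simp only [List.mem_append] at hp
    rcases hp with ((hp | hp) | hp) | hp <;> obtain ⟨i, hi, he⟩ := mem_fl.1 hp <;>
      obtain ⟨rfl, rfl⟩ := Gc748.pt_inj.1 he <;> unfold base Bx <;>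
      simp only [dir0, dir1, dir2, dir3, Prod.mk_add_mk] <;> omega
  · intro p hp
    simp only [List.mem_append] at hp
    rcases hp with ((hp | hp) | hp) | hp <;> obtain ⟨i, hi, rfl⟩ := mem_fl.1 hp
    · rw [V1_S, abs_le, abs_le]; simp only; omega
    · rw [V1_E, abs_le, abs_le]; simp only; omega
    · rw [V1_N, abs_le, abs_le]; simp only; omega
    · rw [V1_W, abs_le, abs_le]; simp only; omega
  · intro p hp
    simp only [List.mem_append] at hp
    rcases hp with ((hp | hp) | hp) | hp <;> obtain ⟨i, hi, rfl⟩ := mem_fl.1 hp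
    · rw [V0_E, le_abs, le_abs]; simp only; omega
    · rw [V0_S, le_abs, le_abs]; simp only; omega
    · rw [V0_W, le_abs, le_abs]; simp only; omega
    · rw [V0_N, le_abs, le_abs]; simp only; omega

/-! ### half planes -/

theorem plain_stp (X Y : ℤ) (r n e : ℕ) : Plain (stp X Y r n e) :=
  ⟨fun x y => by rw [mem_stp, mem_stp]; exact Gc748.stp_h,
    fun x y => by rw [mem_stp, mem_stp]; exact Gc748.stp_v⟩

/-- shape of the stepped half plane -/
def shS (e : ℕ) : Sh := if e = 0 then .h0 else .h1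

theorem base_stp {X Y : ℤ} {e : ℕ} (he : e ≤ 1) {t : ℤ × ℤ} :
    base X Y (shS e) t ↔ (t.2 ≤ Y → t.1 ≤ X + e) ∧ (Y < t.2 → t.1 ≤ X) := by
  have : e = 0 ∨ e = 1 := by omega
  rcases this with rfl | rfl
  · simp only [shS, if_true, base]
    constructor
    · intro h; constructor <;> intro _ <;> push_cast <;> omega
    · intro h
      by_cases h1 : t.2 ≤ Y
      · have := h.1 h1; push_cast at this; omega
      · exact h.2 (by omega)
  · simp only [shS, base]
    simp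

theorem annD_s {X Y : ℤ} {r n e : ℕ} (he : e ≤ 1) (hr : 1 ≤ r) (hn : r + 1 ≤ n) :
    ∃ w, AnnD (shS e) X Y r n (stp X (Y + 1) r n e) w (Gc748.N1 X (Y + 1) r n)
      (Jls X (Y + 1) r e) (Gc748.N2 X (Y + 1) r n e) (Jos X (Y + 1) n e) (Obs X (Y + 1) n)
      (some ((X, Y + 1 + n - 1), 2)) (some ((X + e, Y + 1 - n), 2)) := by
  obtain ⟨w, hw⟩ := exists_SW X (Y + 1) r n e hr hn
  refine ⟨w, chA_stp hr hn hw, plain_stp _ _ _ _ _, ?_, ?_, ?_, ?_, ?_, ?_⟩
  · intro t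
    rw [mem_stp, base_stp he]
    unfold InS Bx
    omega
  · intro c d hp
    rw [base_stp he]
    rcases List.mem_append.1 hp with hp | hp <;> obtain ⟨i, hi, he⟩ := mem_fl.1 hp <;>
      obtain ⟨rfl, rfl⟩ := Gc748.pt_inj.1 he <;>
      simp only [dir0, dir1, dir2, dir3, Prod.mk_add_mk] <;> omega
  · intro c d hp
    unfold Jls at hp
    simp only [List.mem_append] at hp
    rw [base_stp he]
    rcases hp with (hp | hp) | hp <;> obtain ⟨i, hi, he⟩ := mem_fl.1 hp <;>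
      obtain ⟨rfl, rfl⟩ := Gc748.pt_inj.1 he <;> unfold Bx <;>
      simp only [dir0, dir1, dir2, dir3, Prod.mk_add_mk] <;> omega
  · intro c d hp
    unfold Jos at hp
    simp only [List.mem_append] at hp
    rw [base_stp he]
    rcases hp with (hp | hp) | hp <;> obtain ⟨i, hi, he⟩ := mem_fl.1 hp <;>
      obtain ⟨rfl, rfl⟩ := Gc748.pt_inj.1 he <;> unfold Bx <;>
      simp only [dir0, dir1, dir2, dir3, Prod.mk_add_mk] <;> omega
  · intro p hp
    unfold Jls at hp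
    simp only [List.mem_append] at hp
    rcases hp with (hp | hp) | hp <;> obtain ⟨i, hi, rfl⟩ := mem_fl.1 hp
    · rw [V1_S, abs_le, abs_le]; simp only; omega
    · rw [V1_E, abs_le, abs_le]; simp only; omega
    · rw [V1_N, abs_le, abs_le]; simp only; omega
  · intro p hp
    unfold Jos at hp
    simp only [List.mem_append] at hp
    rcases hp with (hp | hp) | hp <;> obtain ⟨i, hi, rfl⟩ := mem_fl.1 hp
    · rw [V0_S, le_abs, le_abs]; simp only; omega
    · rw [V0_W, le_abs, le_abs]; simp only; omega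
    · rw [V0_N, le_abs, le_abs]; simp only; omega

/-- **the annulus of every shape** -/
theorem annD_exists (sh : Sh) (X Y : ℤ) {r n : ℕ} (hr : 1 ≤ r) (hn : r + 1 ≤ n) :
    ∃ K w0 N1 Jl N2 Jo Ob a b, AnnD sh X Y r n K w0 N1 Jl N2 Jo Ob a b := by
  cases sh with
  | q =>
    obtain ⟨w, h⟩ := annD_q (X := X) (Y := Y) hr hn
    exact ⟨_, _, _, _, _, _, _, _, _, h⟩
  | t =>
    obtain ⟨w, h⟩ := annD_t (X := X) (Y := Y) hr hn
    exact ⟨_, _, _, _, _, _, _, _, _, h⟩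
  | h0 =>
    obtain ⟨w, h⟩ := annD_s (X := X) (Y := Y) (e := 0) (by omega) hr hn
    exact ⟨_, _, _, _, _, _, _, _, _, h⟩
  | h1 =>
    obtain ⟨w, h⟩ := annD_s (X := X) (Y := Y) (e := 1) (by omega) hr hn
    exact ⟨_, _, _, _, _, _, _, _, _, h⟩

/-! ### probability -/

/-- **probability of a crossing arc** -/
theorem x1_le : ∃ C a : ℝ, 0 < C ∧ 0 < a ∧ ∀ {sh : Sh} {X Y : ℤ} {r n : ℕ} {K : Reg}
    {w0 : Wd (ℤ × ℤ)} {N1 Jl N2 Jo : List (Port (ℤ × ℤ))} {Ob : ℤ × ℤ → Prop}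
    {a0 b0 : Port (ℤ × ℤ)}, AnnD sh X Y r n K w0 N1 Jl N2 Jo Ob a0 b0 → 1 ≤ r → r ≤ n →
    (PB fun _ : ℤ × ℤ => hf).real (X1 w0 Jl Jo) ≤ C * ((r : ℝ) / n) ^ a := by
  obtain ⟨C, a, hC, ha, h⟩ := farm
  refine ⟨C, a, hC, ha, ?_⟩
  intro sh X Y r n K w0 N1 Jl N2 Jo Ob a0 b0 hA hr hn
  refine (measureReal_mono ?_).trans (h (X, Y) r n hr hn)
  rintro g ⟨i, hi, hi'⟩
  obtain ⟨b, hb⟩ := hA.ch.rw
  have hiC : i ∈ N1 ++ Jl ++ N2 ++ Jo := by simp [hi]
  have hiL := (hA.ch.mem.1 hiC)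
  have hjC : Sw300.M g w0 i ∈ N1 ++ Jl ++ N2 ++ Jo := by simp [hi']
  have hjL := (hA.ch.mem.1 hjC)
  have h1 := Gc748.side_fp (s := g) hb hiL.1
  have h2 := hA.ri i hi
  have h3 := hA.ro _ hi'
  refine ⟨V1 i, V0 (Sw300.M g w0 i), h2.1, h2.2, h3, ?_⟩
  rcases i with - | ⟨t, d⟩
  · exact absurd rfl hiL.2
  · rcases hm : Sw300.M g w0 (some (t, d)) with - | ⟨t', d'⟩
    · exact absurd hm hjL.2
    · rw [hm] at h1
      exact h1.mono fun _ _ => ⟨trivial, rfl⟩

end Crest.Agent.R158.Cw161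
end
private theorem rz_2dcf004d12 : type_of% @_root_.Crest.Agent.R158.Cw161.base.eq_1 := @_root_.Crest.Agent.R158.Cw161.base.eq_1 -- L43
end

-- ▼ part R158/Cw4_161

/-!
# R158, corner / mark / flat balls (helper161), file Cw4: the ball theorem

* `rk X Y k` : `k` clockwise quarter turns round the face `(X, Y)`
* `pat X Y sh k` : the shape `sh` turned by `-k`
* `Win sh k X Y r n A b` : the region `(A, b)` looks like the shape between the boxes `r` and `n`
* `win_plain` : from the plain glueing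
* **`ball_win`** : two regions with the same window differ by at most `C (r / n)^a`
* `pat_q0` .. `pat_s2` : the patterns in plain coordinates
-/

set_option autoImplicit false
set_option linter.unusedSectionVars false
set_option linter.unusedVariables false
set_option linter.unusedSimpArgs false

noncomputable section

namespace Crest.Agent.R158.Cw161

open MeasureTheory
open Crest.Agent.R158.Sw300 (Port Wd thru tls)
open Crest.Agent.R158.Gc748 (RW pt lc rc bs fa)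
open Crest.Agent.R158.Cb771 (dir)
open Crest.Agent.R158.Sl434 (ChA Loc X1 X2 Pair Mm Cy some_Fp some_Ap none_Fp gl_ne)
open Crest.Agent.R158.Rs689 (PB hf)
open Crest.Agent.R158.Xr249 (Nx Reg)
open Crest.Agent.R158.Ob664 (GW HW Gl)
open Crest.Agent.R158.Env664 (beP nbP res PortOf)

/-! ### quarter turns -/

/-- `k` clockwise quarter turns round the face `(X, Y)` -/
def rk (X Y : ℤ) (k : ZMod 4) (t : ℤ × ℤ) : ℤ × ℤ :=
  if k = 0 then t else if k = 1 then (X - Y + t.2, X + Y + 1 - t.1)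
  else if k = 2 then (2 * X + 1 - t.1, 2 * Y + 1 - t.2) else (X + Y + 1 - t.2, Y - X + t.1)

theorem rk_0 (X Y : ℤ) (t : ℤ × ℤ) : rk X Y 0 t = t := rfl
theorem rk_1 (X Y : ℤ) (t : ℤ × ℤ) : rk X Y 1 t = (X - Y + t.2, X + Y + 1 - t.1) := rfl
theorem rk_2 (X Y : ℤ) (t : ℤ × ℤ) : rk X Y 2 t = (2 * X + 1 - t.1, 2 * Y + 1 - t.2) := rfl
theorem rk_3 (X Y : ℤ) (t : ℤ × ℤ) : rk X Y 3 t = (X + Y + 1 - t.2, Y - X + t.1) := rfl

theorem d4 : ∀ d : ZMod 4, d = 0 ∨ d = 1 ∨ d = 2 ∨ d = 3 := by decide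

theorem rk_neg (X Y : ℤ) (k : ZMod 4) (t : ℤ × ℤ) : rk X Y (-k) (rk X Y k t) = t := by
  have a1 : -(1 : ZMod 4) = 3 := by decide
  have a2 : -(2 : ZMod 4) = 2 := by decide
  have a3 : -(3 : ZMod 4) = 1 := by decide
  have a0 : -(0 : ZMod 4) = 0 := by decide
  obtain ⟨x, y⟩ := t
  rcases d4 k with rfl | rfl | rfl | rfl
  · rw [a0, rk_0, rk_0]
  · rw [a1, rk_1, rk_3]; ext <;> simp <;> ring
  · rw [a2, rk_2, rk_2]; ext <;> simp
  · rw [a3, rk_3, rk_1]; ext <;> simp <;> ring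

theorem rk_neg' (X Y : ℤ) (k : ZMod 4) (t : ℤ × ℤ) : rk X Y k (rk X Y (-k) t) = t := by
  have := rk_neg X Y (-k) t
  rwa [neg_neg] at this

theorem rk_dir (X Y : ℤ) (k : ZMod 4) (t : ℤ × ℤ) (d : ZMod 4) :
    rk X Y k (t + dir d) = rk X Y k t + dir (d + k) := by
  have b1 : (1 : ZMod 4) + 1 = 2 := by decide
  have b2 : (1 : ZMod 4) + 2 = 3 := by decide
  have b3 : (1 : ZMod 4) + 3 = 0 := by decide
  have c1 : (2 : ZMod 4) + 1 = 3 := by decide
  have c2 : (2 : ZMod 4) + 2 = 0 := by decide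
  have c3 : (2 : ZMod 4) + 3 = 1 := by decide
  have e1 : (3 : ZMod 4) + 1 = 0 := by decide
  have e2 : (3 : ZMod 4) + 2 = 1 := by decide
  have e3 : (3 : ZMod 4) + 3 = 2 := by decide
  obtain ⟨x, y⟩ := t
  rcases d4 k with rfl | rfl | rfl | rfl <;> rcases d4 d with rfl | rfl | rfl | rfl <;>
    simp only [rk_0, rk_1, rk_2, rk_3, zero_add, add_zero, b1, b2, b3, c1, c2, c3, e1, e2, e3,
      dir0, dir1, dir2, dir3, Prod.mk_add_mk] <;> ext <;> simp <;> ring

theorem bx_rk {X Y : ℤ} {n : ℕ} {k : ZMod 4} {t : ℤ × ℤ} :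
    Bx X Y n (rk X Y k t) ↔ Bx X Y n t := by
  obtain ⟨x, y⟩ := t
  unfold Bx
  rcases d4 k with rfl | rfl | rfl | rfl
  · rw [rk_0]
  · rw [rk_1]; simp only; omega
  · rw [rk_2]; simp only; omega
  · rw [rk_3]; simp only; omega

/-- the shape `sh`, turned -/
def pat (X Y : ℤ) (sh : Sh) (k : ZMod 4) (t : ℤ × ℤ) : Prop := base X Y sh (rk X Y k t)

/-! ### windows -/

/-- the region looks like the turned shape between the boxes of radii `r` and `n` -/
structure Win (sh : Sh) (k : ZMod 4) (X Y : ℤ) (r n : ℕ) (A : Finset (ℤ × ℤ))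
    (b : Port (ℤ × ℤ) → Port (ℤ × ℤ)) : Prop where
  tile : ∀ t, Bx X Y n t → ¬ Bx X Y r t → pat X Y sh k t → t ∈ A
  glue : ∀ t d, Bx X Y n t → ¬ Bx X Y r t → pat X Y sh k t → pat X Y sh k (t + dir d) →
    b (some (t, d)) = some (t + dir d, d + 2)
  free : ∀ t d, Bx X Y n t → ¬ Bx X Y r t → pat X Y sh k t → ¬ pat X Y sh k (t + dir d) →
    b (some (t, d)) = some (t, d)
  out : ∀ t d, Bx X Y n t → ¬ Bx X Y r t → ¬ pat X Y sh k t → b (some (t, d)) = some (t, d)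
  inner : ∀ t d, Bx X Y r t → ∃ t' d', Bx X Y n t' ∧ b (some (t, d)) = some (t', d')

/-- far tiles -/
def Fr (X Y : ℤ) (n : ℕ) : Set (ℤ × ℤ) := {t | ¬ Bx X Y n t}
/-- annulus tiles -/
def An (X Y : ℤ) (sh : Sh) (k : ZMod 4) (r n : ℕ) : Set (ℤ × ℤ) :=
  {t | pat X Y sh k t ∧ Bx X Y n t ∧ ¬ Bx X Y r t}

theorem dir_back (t : ℤ × ℤ) (d : ZMod 4) : t + dir d + dir (d + 2) = t := by
  have : ∀ d : ZMod 4, dir d + dir (d + 2) = 0 := by decide
  rw [add_assoc, this, add_zero]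


theorem loc_of_win {sh : Sh} {k : ZMod 4} {X Y : ℤ} {r n : ℕ} {K : Reg} {w0 : Wd (ℤ × ℤ)}
    {N1 Jl N2 Jo : List (Port (ℤ × ℤ))} {Ob : ℤ × ℤ → Prop} {a0 b0 : Port (ℤ × ℤ)}
    (hA : AnnD sh X Y r n K w0 N1 Jl N2 Jo Ob a0 b0) (hrn : r ≤ n) {A : Finset (ℤ × ℤ)}
    {b : Port (ℤ × ℤ) → Port (ℤ × ℤ)} (hinv : Function.Involutive b) (h : Win sh k X Y r n A b) :
    Loc K N1 Jl N2 Jo b (Fr X Y n) (An X Y sh k r n) (rk X Y k) (rk X Y (-k)) k := by
  have key : ∀ {c : ℤ × ℤ}, c ∈ K.P → pat X Y sh k (rk X Y (-k) c) ∧ Bx X Y n (rk X Y (-k) c) ∧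
      ¬ Bx X Y r (rk X Y (-k) c) := by
    intro c hc
    obtain ⟨h1, h2, h3⟩ := (hA.mem c).1 hc
    unfold pat
    rw [rk_neg', bx_rk, bx_rk]
    exact ⟨h1, h2, h3⟩
  have hrr : ∀ {t : ℤ × ℤ}, Bx X Y r t → Bx X Y n t := by
    intro t ht
    unfold Bx at ht ⊢
    omega
  have inK : ∀ {c : ℤ × ℤ} {d : ZMod 4}, some (c, d) ∈ N1 ++ Jl ++ N2 ++ Jo → c ∈ K.P := by
    intro c d hc
    exact some_Ap.1 (hA.ch.port hc)
  have step : ∀ (c : ℤ × ℤ) (d : ZMod 4), rk X Y (-k) c + dir (d + -k) = rk X Y (-k) (c + dir d) :=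
    fun c d => (rk_dir X Y (-k) c d).symm
  have hp : ∀ {c : ℤ × ℤ}, pat X Y sh k (rk X Y (-k) c) ↔ base X Y sh c := by
    intro c; unfold pat; rw [rk_neg']
  refine ⟨?_, ?_, ?_, ?_, ?_, hinv, ?_, ?_, ?_, ?_, ?_⟩
  · intro t ht ht'
    exact ht ht'.2.1
  · intro t ht
    rw [hA.mem, bx_rk, bx_rk]
    exact ht
  · intro t _
    exact rk_neg X Y k t
  · intro c hc
    exact key hc
  · intro c _
    exact rk_neg' X Y k c
  · intro p q hpq
    rcases p with - | ⟨c, d⟩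
    · exact hpq.elim
    obtain ⟨h1, h2, rfl⟩ := (plain_gl hA.pl).1 hpq
    have k1 := key h1
    have k2 := key h2
    rw [Sl434.pm_some, Sl434.pm_some]
    have h3 := h.glue _ (d + -k) k1.2.1 k1.2.2 k1.1 (by rw [step]; exact k2.1)
    rw [h3, step, add_right_comm]
  · intro p hpN
    have hpC : p ∈ N1 ++ Jl ++ N2 ++ Jo := by
      simp only [List.mem_append] at hpN ⊢; tauto
    rcases p with - | ⟨c, d⟩
    · exact absurd rfl (hA.ch.mem.1 hpC).2
    have k1 := key (inK hpC)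
    rw [Sl434.pm_some]
    refine h.free _ _ k1.2.1 k1.2.2 k1.1 ?_
    rw [step, hp]
    exact hA.wl c d hpN
  · intro p hpJ
    have hpC : p ∈ N1 ++ Jl ++ N2 ++ Jo := by simp [hpJ]
    rcases p with - | ⟨c, d⟩
    · exact absurd rfl (hA.ch.mem.1 hpC).2
    have k1 := key (inK hpC)
    obtain ⟨j1, j2⟩ := hA.jl c d hpJ
    rw [Sl434.pm_some, h.glue _ _ k1.2.1 k1.2.2 k1.1 (by rw [step, hp]; exact j1), step]
    have j3 : Bx X Y r (rk X Y (-k) (c + dir d)) := bx_rk.2 j2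
    rintro (h4 | h4)
    · exact some_Fp.1 h4 (hrr j3)
    · exact (some_Ap.1 h4).2.2 j3
  · intro p hpJ
    have hpC : p ∈ N1 ++ Jl ++ N2 ++ Jo := by simp [hpJ]
    rcases p with - | ⟨c, d⟩
    · exact absurd rfl (hA.ch.mem.1 hpC).2
    have k1 := key (inK hpC)
    obtain ⟨j1, j2⟩ := hA.jo c d hpJ
    rw [Sl434.pm_some, h.glue _ _ k1.2.1 k1.2.2 k1.1 (by rw [step, hp]; exact j1), step]
    refine some_Fp.2 fun h4 => j2 ?_
    exact bx_rk.1 h4
  · intro x hx
    rcases hbx : b x with - | ⟨t, d⟩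
    · exact Or.inl (none_Fp _)
    by_cases hn : Bx X Y n t
    · right
      have hx' : b (some (t, d)) = x := by rw [← hbx]; exact hinv x
      have hxn : ∀ t' d', x = some (t', d') → ¬ Bx X Y n t' := by
        rintro t' d' rfl
        exact some_Fp.1 hx
      by_cases hr : Bx X Y r t
      · obtain ⟨t', d', h5, h6⟩ := h.inner t d hr
        exact absurd h5 (hxn t' d' (hx'.symm.trans h6))
      · by_cases hpt : pat X Y sh k t
        · exact some_Ap.2 ⟨hpt, hn, hr⟩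
        · have h6 := h.out t d hn hr hpt
          exact absurd hn (hxn t d (hx'.symm.trans h6))
    · exact Or.inl (some_Fp.2 hn)

/-! ### the ball theorem -/

/-- position of a mark and its image -/
def MkB (X Y : ℤ) (r n : ℕ) (w w' : Wd (ℤ × ℤ)) (m y : Port (ℤ × ℤ)) : Prop :=
  m ∈ Sw300.L w ∧ y ∈ Sw300.L w' ∧ ((y = m ∧ ∀ t d, m = some (t, d) → ¬ Bx X Y r t) ∨
    ∃ t d t' d', m = some (t, d) ∧ Bx X Y r t ∧ y = some (t', d') ∧ Bx X Y r t')

/-- the mark is far -/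
def FarM (X Y : ℤ) (n : ℕ) (m : Port (ℤ × ℤ)) : Prop := ∀ t d, m = some (t, d) → ¬ Bx X Y n t

theorem farM_iff {X Y : ℤ} {n : ℕ} {m : Port (ℤ × ℤ)} : FarM X Y n m ↔ m ∈ Sl434.Fp (Fr X Y n) := by
  rcases m with - | ⟨t, d⟩
  · exact ⟨fun _ => none_Fp _, fun _ t d h => absurd h (by simp)⟩
  · rw [some_Fp]
    constructor
    · intro h; exact h t d rfl
    · intro h t' d' e
      obtain ⟨rfl, rfl⟩ := Gc748.pt_inj.1 e
      exact h

theorem be_eq_of_gw {A : Finset (ℤ × ℤ)} {b : Port (ℤ × ℤ) → Port (ℤ × ℤ)} {w : Wd (ℤ × ℤ)}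
    (h : GW A b w) : Sw300.be w = b := funext h.word.2.2.2

theorem cy_of_gw {A : Finset (ℤ × ℤ)} {b : Port (ℤ × ℤ) → Port (ℤ × ℤ)} {w : Wd (ℤ × ℤ)}
    (h : GW A b w) : Cy (Nx (Gl (Sw300.be w))) (Sw300.L w) := by
  rw [be_eq_of_gw h]
  exact h.nx

theorem hth_k (k : ZMod 4) : ∀ (b : Bool) (d : ZMod 4),
    thru (xor (odd4 k) b) (d + k) = thru b d + k := by
  revert k; decide

/-- the pair of words of a window -/
theorem pair_of_win {sh : Sh} {k : ZMod 4} {X Y : ℤ} {r n : ℕ} {K : Reg} {w0 : Wd (ℤ × ℤ)}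
    {N1 Jl N2 Jo : List (Port (ℤ × ℤ))} {Ob : ℤ × ℤ → Prop} {a0 b0 : Port (ℤ × ℤ)}
    (hD : AnnD sh X Y r n K w0 N1 Jl N2 Jo Ob a0 b0) (hrn : r ≤ n) {A A' : Finset (ℤ × ℤ)}
    {b b' : Port (ℤ × ℤ) → Port (ℤ × ℤ)} {w w' : Wd (ℤ × ℤ)} (hw : GW A b w) (hw' : GW A' b' w')
    (h : Win sh k X Y r n A b) (h' : Win sh k X Y r n A' b')
    (hF : ∀ x, FarM X Y n x → b' x = b x) :
    Pair K w0 N1 Jl N2 Jo Ob a0 b0 w w' (Fr X Y n) (An X Y sh k r n) (rk X Y k) (rk X Y (-k)) k := by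
  have e := be_eq_of_gw hw
  have e' := be_eq_of_gw hw'
  have i1 : Function.Involutive b := e ▸ Sl434.be_invol hw.word.1
  have i2 : Function.Involutive b' := e' ▸ Sl434.be_invol hw'.word.1
  refine ⟨hD.ch, hw.word.1, hw'.word.1, cy_of_gw hw, cy_of_gw hw', ?_, ?_, ?_, ?_, ?_⟩
  · rw [e]; exact loc_of_win hD hrn i1 h
  · rw [e']; exact loc_of_win hD hrn i2 h'
  · intro t ht
    exact (hw.word.2.2.1 t).2 (h.tile t ht.2.1 ht.2.2 ht.1)
  · intro t ht
    exact (hw'.word.2.2.1 t).2 (h'.tile t ht.2.1 ht.2.2 ht.1)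
  · intro x hx
    rw [e, e']
    exact hF x (farM_iff.2 hx)

/-- a free end in the annulus is an annulus end -/
theorem mm_of_mkB {sh : Sh} {k : ZMod 4} {X Y : ℤ} {r n : ℕ} {A : Finset (ℤ × ℤ)}
    {b : Port (ℤ × ℤ) → Port (ℤ × ℤ)} {w w' : Wd (ℤ × ℤ)} (hw : GW A b w) (hrn : r ≤ n)
    (hnp : ∀ t, Bx X Y n t → ¬ Bx X Y r t → t ∈ A → pat X Y sh k t) {m y : Port (ℤ × ℤ)}
    (h : MkB X Y r n w w' m y) : Mm (Fr X Y n) (An X Y sh k r n) w w' m y := by
  obtain ⟨h1, h2, h3⟩ := h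
  refine ⟨h1, ?_⟩
  have hrr : ∀ {t : ℤ × ℤ}, Bx X Y r t → Bx X Y n t := by
    intro t ht
    unfold Bx at ht ⊢
    omega
  have hin : ∀ {t : ℤ × ℤ} {d : ZMod 4}, Bx X Y r t →
      (some (t, d) : Port (ℤ × ℤ)) ∉ Sl434.Fp (Fr X Y n) ∪ Sl434.Ap (An X Y sh k r n) := by
    rintro t d ht (h4 | h4)
    · exact some_Fp.1 h4 (hrr ht)
    · exact (some_Ap.1 h4).2.2 ht
  rcases h3 with ⟨rfl, h3⟩ | ⟨t, d, t', d', rfl, h4, rfl, h5⟩
  · left
    refine ⟨?_, rfl⟩
    rcases y with - | ⟨t, d⟩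
    · exact Or.inl (none_Fp _)
    · by_cases hn : Bx X Y n t
      · right
        have ht : t ∈ A := (hw.word.2.2.1 t).1 (Gc748.mem_L_tls hw.word.1 h1)
        exact some_Ap.2 ⟨hnp t hn (h3 t d rfl) ht, hn, h3 t d rfl⟩
      · exact Or.inl (some_Fp.2 hn)
  · right
    exact ⟨hin h4, h2, hin h5⟩

/-- **the ball theorem** -/
theorem ball_win : ∃ C a : ℝ, 0 < C ∧ 0 < a ∧ ∀ (sh : Sh) (k : ZMod 4) (X Y : ℤ) (r n : ℕ),
    1 ≤ r → r + 1 ≤ n → ∀ {A A' : Finset (ℤ × ℤ)} {b b' : Port (ℤ × ℤ) → Port (ℤ × ℤ)}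
    {w w' : Wd (ℤ × ℤ)}, GW A b w → GW A' b' w' → Win sh k X Y r n A b → Win sh k X Y r n A' b' →
    (∀ t, Bx X Y n t → ¬ Bx X Y r t → t ∈ A → pat X Y sh k t) →
    (∀ x, FarM X Y n x → b' x = b x) → ∀ {m1 m2 m3 y1 y2 y3 : Port (ℤ × ℤ)},
    MkB X Y r n w w' m1 y1 → MkB X Y r n w w' m2 y2 → MkB X Y r n w w' m3 y3 →
    (FarM X Y n m1 ∨ FarM X Y n m2) → (FarM X Y n m2 ∨ FarM X Y n m3) →
    (FarM X Y n m3 ∨ FarM X Y n m1) →
    Sw300.cyc (Sw300.pos w m1) (Sw300.pos w m2) (Sw300.pos w m3) →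
    ‖HW w m1 m2 m3 - HW w' y1 y2 y3‖ ≤ C * ((r : ℝ) / n) ^ a := by
  obtain ⟨C, a, hC, ha, hX⟩ := x1_le
  refine ⟨2 * C, a, by positivity, ha, ?_⟩
  intro sh k X Y r n hr hn A A' b b' w w' hw hw' h h' hnp hF m1 m2 m3 y1 y2 y3 h1 h2 h3 f12 f23 f31
    hc
  obtain ⟨K, w0, N1, Jl, N2, Jo, Ob, a0, b0, hD⟩ := annD_exists sh X Y hr hn
  have hP := pair_of_win hD (by omega) hw hw' h h' hF
  have h5 := hP.HW_le0 (hth_k k) (mm_of_mkB hw (by omega) hnp h1) (mm_of_mkB hw (by omega) hnp h2)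
    (mm_of_mkB hw (by omega) hnp h3) (f12.imp farM_iff.1 farM_iff.1)
    (f23.imp farM_iff.1 farM_iff.1) (f31.imp farM_iff.1 farM_iff.1) hc
  have h6 := hX hD hr (by omega)
  linarith

/-! ### plain windows -/

theorem nbP_dir (t : ℤ × ℤ) (d : ZMod 4) : nbP (some (t, d)) = some (t + dir d, d + 2) := by
  obtain ⟨x, y⟩ := t
  have a0 : (0 : ZMod 4) + 2 = 2 := by decide
  have a1 : (1 : ZMod 4) + 2 = 3 := by decide
  have a2 : (2 : ZMod 4) + 2 = 0 := by decide
  have a3 : (3 : ZMod 4) + 2 = 1 := by decide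
  rcases d4 d with rfl | rfl | rfl | rfl
  · rw [Env664.nbP_W, a0, dir0]; simp [sub_eq_add_neg]
  · rw [Env664.nbP_N, a1, dir1]; simp
  · rw [Env664.nbP_E, a2, dir2]; simp
  · rw [Env664.nbP_S, a3, dir3]; simp [sub_eq_add_neg]

theorem portOf_some {A : Finset (ℤ × ℤ)} {t : ℤ × ℤ} {d : ZMod 4} :
    PortOf A (some (t, d)) ↔ t ∈ A := by
  constructor
  · intro h; exact h (t, d) rfl
  · intro h y hy
    simp only [Option.mem_def, Option.some.injEq] at hy
    rw [← hy]; exact h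

theorem beP_in {A : Finset (ℤ × ℤ)} {t : ℤ × ℤ} {d : ZMod 4} (h : t ∈ A) (h' : t + dir d ∈ A) :
    beP A (some (t, d)) = some (t + dir d, d + 2) := by
  unfold beP
  rw [Env664.res_of (portOf_some.2 h) (by rw [nbP_dir]; exact portOf_some.2 h'), nbP_dir]

theorem beP_free {A : Finset (ℤ × ℤ)} {t : ℤ × ℤ} {d : ZMod 4} (h : t ∉ A ∨ t + dir d ∉ A) :
    beP A (some (t, d)) = some (t, d) := by
  unfold beP res
  rw [if_neg]
  rintro ⟨h1, h2⟩
  rw [nbP_dir] at h2
  rcases h with h | h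
  · exact h (portOf_some.1 h1)
  · exact h (portOf_some.1 h2)

theorem bx_dir {X Y : ℤ} {n : ℕ} {t : ℤ × ℤ} (d : ZMod 4) (h : Bx X Y n t) :
    Bx X Y (n + 1) (t + dir d) := by
  obtain ⟨x, y⟩ := t
  unfold Bx at *
  rcases d4 d with rfl | rfl | rfl | rfl
  · rw [dir0]; simp only [Prod.mk_add_mk] at *; push_cast; omega
  · rw [dir1]; simp only [Prod.mk_add_mk] at *; push_cast; omega
  · rw [dir2]; simp only [Prod.mk_add_mk] at *; push_cast; omega
  · rw [dir3]; simp only [Prod.mk_add_mk] at *; push_cast; omega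

/-- **a window of a plainly glued region** -/
theorem win_plain {sh : Sh} {k : ZMod 4} {X Y : ℤ} {r n : ℕ} (hr : 1 ≤ r) (hn : r + 1 ≤ n)
    {A : Finset (ℤ × ℤ)} {b : Port (ℤ × ℤ) → Port (ℤ × ℤ)}
    (hA : ∀ t, Bx X Y (n + 1) t → ¬ Bx X Y (r - 1) t → (t ∈ A ↔ pat X Y sh k t))
    (hb : ∀ t d, Bx X Y n t → b (some (t, d)) = beP A (some (t, d))) : Win sh k X Y r n A b := by
  have up : ∀ {t : ℤ × ℤ}, Bx X Y n t → Bx X Y (n + 1) t := by
    intro t ht; unfold Bx at *; push_cast; omega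
  have dn : ∀ {t : ℤ × ℤ}, ¬ Bx X Y r t → ¬ Bx X Y (r - 1) t := by
    intro t ht h; apply ht; unfold Bx at *; omega
  have dd : ∀ {t : ℤ × ℤ} (d : ZMod 4), ¬ Bx X Y r t → ¬ Bx X Y (r - 1) (t + dir d) := by
    intro t d ht h
    apply ht
    have := bx_dir (d + 2) h
    rw [dir_back] at this
    have e : r - 1 + 1 = r := by omega
    rwa [e] at this
  refine ⟨?_, ?_, ?_, ?_, ?_⟩
  · intro t h1 h2 h3
    exact (hA t (up h1) (dn h2)).2 h3
  · intro t d h1 h2 h3 h4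
    rw [hb t d h1]
    exact beP_in ((hA t (up h1) (dn h2)).2 h3) ((hA _ (bx_dir d h1) (dd d h2)).2 h4)
  · intro t d h1 h2 h3 h4
    rw [hb t d h1]
    exact beP_free (Or.inr fun h => h4 ((hA _ (bx_dir d h1) (dd d h2)).1 h))
  · intro t d h1 h2 h3
    rw [hb t d h1]
    exact beP_free (Or.inl fun h => h3 ((hA t (up h1) (dn h2)).1 h))
  · intro t d h1
    have hn' : Bx X Y n t := by unfold Bx at *; omega
    rw [hb t d hn']
    by_cases h : t ∈ A ∧ t + dir d ∈ A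
    · rw [beP_in h.1 h.2]
      refine ⟨_, _, ?_, rfl⟩
      have := bx_dir d h1
      unfold Bx at *; push_cast at this; omega
    · rw [beP_free (by tauto)]
      exact ⟨_, _, hn', rfl⟩

/-- the tile condition of `ball_win` from the same hypothesis -/
theorem np_plain {sh : Sh} {k : ZMod 4} {X Y : ℤ} {r n : ℕ} {A : Finset (ℤ × ℤ)}
    (hA : ∀ t, Bx X Y (n + 1) t → ¬ Bx X Y (r - 1) t → (t ∈ A ↔ pat X Y sh k t)) :
    ∀ t, Bx X Y n t → ¬ Bx X Y r t → t ∈ A → pat X Y sh k t := by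
  intro t h1 h2 h3
  refine (hA t ?_ ?_).1 h3
  · unfold Bx at *; push_cast; omega
  · intro h; apply h2; unfold Bx at *; omega

/-! ### the patterns in plain coordinates -/

section pats

variable {X Y : ℤ} {t : ℤ × ℤ}

/-- quarters -/
theorem pat_q0 : pat X Y .q 0 t ↔ X < t.1 ∧ Y < t.2 := Iff.rfl
theorem pat_q1 : pat X Y .q 1 t ↔ t.1 ≤ X ∧ Y < t.2 := by
  unfold pat; rw [rk_1]; unfold base; simp only; omega
theorem pat_q2 : pat X Y .q 2 t ↔ t.1 ≤ X ∧ t.2 ≤ Y := by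
  unfold pat; rw [rk_2]; unfold base; simp only; omega
theorem pat_q3 : pat X Y .q 3 t ↔ X < t.1 ∧ t.2 ≤ Y := by
  unfold pat; rw [rk_3]; unfold base; simp only; omega

/-- three quarters -/
theorem pat_t0 : pat X Y .t 0 t ↔ t.1 ≤ X ∨ t.2 ≤ Y := by
  unfold pat; rw [rk_0]; unfold base; omega
theorem pat_t1 : pat X Y .t 1 t ↔ X < t.1 ∨ t.2 ≤ Y := by
  unfold pat; rw [rk_1]; unfold base; simp only; omega
theorem pat_t2 : pat X Y .t 2 t ↔ X < t.1 ∨ Y < t.2 := by
  unfold pat; rw [rk_2]; unfold base; simp only; omega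
theorem pat_t3 : pat X Y .t 3 t ↔ t.1 ≤ X ∨ Y < t.2 := by
  unfold pat; rw [rk_3]; unfold base; simp only; omega

/-- half planes: right wall, ceiling, left wall, floor -/
theorem pat_h0 : pat X Y .h0 0 t ↔ t.1 ≤ X := Iff.rfl
theorem pat_h1 : pat X Y .h0 1 t ↔ t.2 ≤ Y := by
  unfold pat; rw [rk_1]; unfold base; simp only; omega
theorem pat_h2 : pat X Y .h0 2 t ↔ X < t.1 := by
  unfold pat; rw [rk_2]; unfold base; simp only; omega
theorem pat_h3 : pat X Y .h0 3 t ↔ Y < t.2 := by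
  unfold pat; rw [rk_3]; unfold base; simp only; omega

/-- stepped right wall (lower half one column wider) and stepped left wall (upper half wider) -/
theorem pat_s0 : pat X Y .h1 0 t ↔ (t.2 ≤ Y → t.1 ≤ X + 1) ∧ (Y < t.2 → t.1 ≤ X) := Iff.rfl
theorem pat_s2 : pat X Y .h1 2 t ↔ (Y < t.2 → X ≤ t.1) ∧ (t.2 ≤ Y → X < t.1) := by
  unfold pat; rw [rk_2]; unfold base; simp only; omega

end pats

end Crest.Agent.R158.Cw161
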