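import Crest.Agent.R158.Cw4_161

/-!
# R158, corner / mark / slit balls (helper161), file Cw5: the ball theorem in a chart

* `WinC sh X Y r n ψ φ δ A b` : the region `(A, b)` looks like the shape `sh` in the chart `ψ`
  (inverse `φ`, `δ` quarter turns) between the boxes `r` and `n`
* **`ball_chart`** : two regions with the same window differ by at most `C (r / n)^a`
* `WinC.of_weak` : the version with a free glueing of the inner side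
-/

set_option autoImplicit false
set_option linter.unusedSectionVars false
set_option linter.unusedVariables false
set_option linter.unusedSimpArgs false

noncomputable section

namespace Crest.Agent.R158.Cw161

open MeasureTheory
open Crest.Agent.R158.Sw300 (Port Wd thru tls)
open Crest.Agent.R158.Gc748 (RW pt lc rc bs fa)
open Crest.Agent.R158.Cb771 (dir)
open Crest.Agent.R158.Sl434 (ChA Loc X1 X2 Pair Mm Cy some_Fp some_Ap none_Fp gl_ne)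
open Crest.Agent.R158.Rs689 (PB hf)
open Crest.Agent.R158.Xr249 (Nx Reg)
open Crest.Agent.R158.Ob664 (GW HW Gl)

/-- a tile chart -/
structure TCh (ψ φ : ℤ × ℤ → ℤ × ℤ) : Prop where
  l : ∀ t, φ (ψ t) = t
  r : ∀ c, ψ (φ c) = c

/-- the port `(c, d)` of the chart -/
def ptc (φ : ℤ × ℤ → ℤ × ℤ) (δ : ZMod 4) (c : ℤ × ℤ) (d : ZMod 4) : Port (ℤ × ℤ) :=
  some (φ c, d - δ)

/-- the region looks like the shape in the chart -/
structure WinC (sh : Sh) (X Y : ℤ) (r n : ℕ) (ψ φ : ℤ × ℤ → ℤ × ℤ) (δ : ZMod 4)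
    (A : Finset (ℤ × ℤ)) (b : Port (ℤ × ℤ) → Port (ℤ × ℤ)) : Prop where
  mem : ∀ c, Bx X Y n c → ¬ Bx X Y r c → base X Y sh c → φ c ∈ A
  glue : ∀ c d, Bx X Y n c → ¬ Bx X Y r c → base X Y sh c → base X Y sh (c + dir d) →
    b (ptc φ δ c d) = ptc φ δ (c + dir d) (d + 2)
  free : ∀ c d, Bx X Y n c → ¬ Bx X Y r c → base X Y sh c → ¬ base X Y sh (c + dir d) →
    b (ptc φ δ c d) = ptc φ δ c d
  out : ∀ c d, Bx X Y n c → ¬ Bx X Y r c → ¬ base X Y sh c → b (ptc φ δ c d) = ptc φ δ c d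
  inner : ∀ c d, Bx X Y r c → ∃ c' d', Bx X Y n c' ∧ b (ptc φ δ c d) = ptc φ δ c' d'

/-- far tiles -/
def FrC (X Y : ℤ) (n : ℕ) (ψ : ℤ × ℤ → ℤ × ℤ) : Set (ℤ × ℤ) := {t | ¬ Bx X Y n (ψ t)}
/-- annulus tiles -/
def AnC (X Y : ℤ) (sh : Sh) (r n : ℕ) (ψ : ℤ × ℤ → ℤ × ℤ) : Set (ℤ × ℤ) :=
  {t | base X Y sh (ψ t) ∧ Bx X Y n (ψ t) ∧ ¬ Bx X Y r (ψ t)}

theorem loc_of_winC {sh : Sh} {X Y : ℤ} {r n : ℕ} {ψ φ : ℤ × ℤ → ℤ × ℤ} {δ : ZMod 4} {K : Reg}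
    {w0 : Wd (ℤ × ℤ)} {N1 Jl N2 Jo : List (Port (ℤ × ℤ))} {Ob : ℤ × ℤ → Prop}
    {a0 b0 : Port (ℤ × ℤ)} (hA : AnnD sh X Y r n K w0 N1 Jl N2 Jo Ob a0 b0) (hrn : r ≤ n)
    (hc : TCh ψ φ) {A : Finset (ℤ × ℤ)}
    {b : Port (ℤ × ℤ) → Port (ℤ × ℤ)} (hinv : Function.Involutive b)
    (h : WinC sh X Y r n ψ φ δ A b) :
    Loc K N1 Jl N2 Jo b (FrC X Y n ψ) (AnC X Y sh r n ψ) ψ φ δ := by
  have hrr : ∀ {t : ℤ × ℤ}, Bx X Y r t → Bx X Y n t := by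
    intro t ht
    unfold Bx at ht ⊢
    omega
  have inK : ∀ {c : ℤ × ℤ} {d : ZMod 4}, some (c, d) ∈ N1 ++ Jl ++ N2 ++ Jo →
      base X Y sh c ∧ Bx X Y n c ∧ ¬ Bx X Y r c := by
    intro c d hc
    exact (hA.mem c).1 (some_Ap.1 (hA.ch.port hc))
  have ep : ∀ (c : ℤ × ℤ) (d : ZMod 4), Sl434.pm φ (-δ) (some (c, d)) = ptc φ δ c d := by
    intro c d
    rw [Sl434.pm_some]; unfold ptc; rw [sub_eq_add_neg]
  refine ⟨?_, ?_, ?_, ?_, ?_, hinv, ?_, ?_, ?_, ?_, ?_⟩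
  · intro t ht ht'
    exact ht ht'.2.1
  · intro t ht
    rw [hA.mem]
    exact ht
  · intro t _
    exact hc.l t
  · intro c hcK
    show base X Y sh (ψ (φ c)) ∧ Bx X Y n (ψ (φ c)) ∧ ¬ Bx X Y r (ψ (φ c))
    rw [hc.r]
    exact (hA.mem c).1 hcK
  · intro c _
    exact hc.r c
  · intro p q hpq
    rcases p with - | ⟨c, d⟩
    · exact hpq.elim
    obtain ⟨h1, h2, rfl⟩ := (plain_gl hA.pl).1 hpq
    have k1 := (hA.mem _).1 h1
    have k2 := (hA.mem _).1 h2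
    rw [ep, ep]
    exact h.glue c d k1.2.1 k1.2.2 k1.1 k2.1
  · intro p hpN
    have hpC : p ∈ N1 ++ Jl ++ N2 ++ Jo := by
      simp only [List.mem_append] at hpN ⊢; tauto
    rcases p with - | ⟨c, d⟩
    · exact absurd rfl (hA.ch.mem.1 hpC).2
    have k1 := inK hpC
    rw [ep]
    exact h.free c d k1.2.1 k1.2.2 k1.1 (hA.wl c d hpN)
  · intro p hpJ
    have hpC : p ∈ N1 ++ Jl ++ N2 ++ Jo := by simp [hpJ]
    rcases p with - | ⟨c, d⟩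
    · exact absurd rfl (hA.ch.mem.1 hpC).2
    have k1 := inK hpC
    obtain ⟨j1, j2⟩ := hA.jl c d hpJ
    rw [ep, h.glue c d k1.2.1 k1.2.2 k1.1 j1]
    unfold ptc
    rintro (h4 | h4)
    · have := some_Fp.1 h4
      apply this
      rw [hc.r]; exact hrr j2
    · have := (some_Ap.1 h4).2.2
      rw [hc.r] at this
      exact this j2
  · intro p hpJ
    have hpC : p ∈ N1 ++ Jl ++ N2 ++ Jo := by simp [hpJ]
    rcases p with - | ⟨c, d⟩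
    · exact absurd rfl (hA.ch.mem.1 hpC).2
    have k1 := inK hpC
    obtain ⟨j1, j2⟩ := hA.jo c d hpJ
    rw [ep, h.glue c d k1.2.1 k1.2.2 k1.1 j1]
    refine some_Fp.2 fun h4 => j2 ?_
    rwa [hc.r] at h4
  · intro x hx
    rcases hbx : b x with - | ⟨t, d⟩
    · exact Or.inl (none_Fp _)
    by_cases hn : Bx X Y n (ψ t)
    · right
      have hx' : b (some (t, d)) = x := by rw [← hbx]; exact hinv x
      have hxn : ∀ t' d', x = some (t', d') → ¬ Bx X Y n (ψ t') := by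
        rintro t' d' rfl
        exact some_Fp.1 hx
      have et : (some (t, d) : Port (ℤ × ℤ)) = ptc φ δ (ψ t) (d + δ) := by
        unfold ptc; rw [hc.l, add_sub_cancel_right]
      by_cases hr : Bx X Y r (ψ t)
      · obtain ⟨c', d', h5, h6⟩ := h.inner (ψ t) (d + δ) hr
        rw [← et, hx'] at h6
        have := hxn _ _ h6
        rw [hc.r] at this
        exact absurd h5 this
      · by_cases hpt : base X Y sh (ψ t)
        · exact some_Ap.2 ⟨hpt, hn, hr⟩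
        · have h6 := h.out (ψ t) (d + δ) hn hr hpt
          rw [← et, hx'] at h6
          exact absurd hn (hxn t d h6)
    · exact Or.inl (some_Fp.2 hn)

/-- position of a mark and its image -/
def MkC (X Y : ℤ) (r : ℕ) (ψ : ℤ × ℤ → ℤ × ℤ) (w w' : Wd (ℤ × ℤ)) (m y : Port (ℤ × ℤ)) : Prop :=
  m ∈ Sw300.L w ∧ y ∈ Sw300.L w' ∧ ((y = m ∧ ∀ t d, m = some (t, d) → ¬ Bx X Y r (ψ t)) ∨
    ∃ t d t' d', m = some (t, d) ∧ Bx X Y r (ψ t) ∧ y = some (t', d') ∧ Bx X Y r (ψ t'))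

/-- the leg or a port of a far tile -/
def FarC (X Y : ℤ) (n : ℕ) (ψ : ℤ × ℤ → ℤ × ℤ) (m : Port (ℤ × ℤ)) : Prop :=
  ∀ t d, m = some (t, d) → ¬ Bx X Y n (ψ t)

theorem farC_iff {X Y : ℤ} {n : ℕ} {ψ : ℤ × ℤ → ℤ × ℤ} {m : Port (ℤ × ℤ)} :
    FarC X Y n ψ m ↔ m ∈ Sl434.Fp (FrC X Y n ψ) := by
  rcases m with - | ⟨t, d⟩
  · exact ⟨fun _ => none_Fp _, fun _ t d h => absurd h (by simp)⟩
  · rw [some_Fp]
    constructor
    · intro h; exact h t d rfl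
    · intro h t' d' e
      obtain ⟨rfl, rfl⟩ := Gc748.pt_inj.1 e
      exact h

/-- the pair of words of a window -/
theorem pair_of_winC {sh : Sh} {X Y : ℤ} {r n : ℕ} {ψ φ : ℤ × ℤ → ℤ × ℤ} {δ : ZMod 4} {K : Reg}
    {w0 : Wd (ℤ × ℤ)} {N1 Jl N2 Jo : List (Port (ℤ × ℤ))} {Ob : ℤ × ℤ → Prop}
    {a0 b0 : Port (ℤ × ℤ)} (hD : AnnD sh X Y r n K w0 N1 Jl N2 Jo Ob a0 b0) (hrn : r ≤ n)
    (hc : TCh ψ φ) {A A' : Finset (ℤ × ℤ)}
    {b b' : Port (ℤ × ℤ) → Port (ℤ × ℤ)} {w w' : Wd (ℤ × ℤ)} (hw : GW A b w) (hw' : GW A' b' w')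
    (h : WinC sh X Y r n ψ φ δ A b) (h' : WinC sh X Y r n ψ φ δ A' b')
    (hF : ∀ x, FarC X Y n ψ x → b' x = b x) :
    Pair K w0 N1 Jl N2 Jo Ob a0 b0 w w' (FrC X Y n ψ) (AnC X Y sh r n ψ) ψ φ δ := by
  have e := be_eq_of_gw hw
  have e' := be_eq_of_gw hw'
  have i1 : Function.Involutive b := e ▸ Sl434.be_invol hw.word.1
  have i2 : Function.Involutive b' := e' ▸ Sl434.be_invol hw'.word.1
  refine ⟨hD.ch, hw.word.1, hw'.word.1, cy_of_gw hw, cy_of_gw hw', ?_, ?_, ?_, ?_, ?_⟩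
  · rw [e]; exact loc_of_winC hD hrn hc i1 h
  · rw [e']; exact loc_of_winC hD hrn hc i2 h'
  · intro t ht
    have := h.mem (ψ t) ht.2.1 ht.2.2 ht.1
    rw [hc.l] at this
    exact (hw.word.2.2.1 t).2 this
  · intro t ht
    have := h'.mem (ψ t) ht.2.1 ht.2.2 ht.1
    rw [hc.l] at this
    exact (hw'.word.2.2.1 t).2 this
  · intro x hx
    rw [e, e']
    exact hF x (farC_iff.2 hx)

/-- a free end in the annulus is an annulus end -/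
theorem mm_of_mkC {sh : Sh} {X Y : ℤ} {r n : ℕ} {ψ : ℤ × ℤ → ℤ × ℤ} {A : Finset (ℤ × ℤ)}
    {b : Port (ℤ × ℤ) → Port (ℤ × ℤ)} {w w' : Wd (ℤ × ℤ)} (hw : GW A b w) (hrn : r ≤ n)
    (hnp : ∀ t ∈ A, Bx X Y n (ψ t) → ¬ Bx X Y r (ψ t) → base X Y sh (ψ t)) {m y : Port (ℤ × ℤ)}
    (h : MkC X Y r ψ w w' m y) : Mm (FrC X Y n ψ) (AnC X Y sh r n ψ) w w' m y := by
  obtain ⟨h1, h2, h3⟩ := h
  refine ⟨h1, ?_⟩
  have hrr : ∀ {t : ℤ × ℤ}, Bx X Y r t → Bx X Y n t := by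
    intro t ht
    unfold Bx at ht ⊢
    omega
  have hin : ∀ {t : ℤ × ℤ} {d : ZMod 4}, Bx X Y r (ψ t) →
      (some (t, d) : Port (ℤ × ℤ)) ∉ Sl434.Fp (FrC X Y n ψ) ∪ Sl434.Ap (AnC X Y sh r n ψ) := by
    rintro t d ht (h4 | h4)
    · exact some_Fp.1 h4 (hrr ht)
    · exact (some_Ap.1 h4).2.2 ht
  rcases h3 with ⟨rfl, h3⟩ | ⟨t, d, t', d', rfl, h4, rfl, h5⟩
  · left
    refine ⟨?_, rfl⟩
    rcases y with - | ⟨t, d⟩
    · exact Or.inl (none_Fp _)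
    · by_cases hn : Bx X Y n (ψ t)
      · right
        have ht : t ∈ A := (hw.word.2.2.1 t).1 (Gc748.mem_L_tls hw.word.1 h1)
        exact some_Ap.2 ⟨hnp t ht hn (h3 t d rfl), hn, h3 t d rfl⟩
      · exact Or.inl (some_Fp.2 hn)
  · right
    exact ⟨hin h4, h2, hin h5⟩

/-- **the ball theorem in a chart** -/
theorem ball_chart : ∃ C a : ℝ, 0 < C ∧ 0 < a ∧ ∀ (sh : Sh) (X Y : ℤ) (r n : ℕ)
    (ψ φ : ℤ × ℤ → ℤ × ℤ) (δ : ZMod 4), TCh ψ φ → 1 ≤ r → r + 1 ≤ n →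
    ∀ {A A' : Finset (ℤ × ℤ)} {b b' : Port (ℤ × ℤ) → Port (ℤ × ℤ)} {w w' : Wd (ℤ × ℤ)},
    GW A b w → GW A' b' w' → WinC sh X Y r n ψ φ δ A b → WinC sh X Y r n ψ φ δ A' b' →
    (∀ t ∈ A, Bx X Y n (ψ t) → ¬ Bx X Y r (ψ t) → base X Y sh (ψ t)) →
    (∀ x, FarC X Y n ψ x → b' x = b x) → ∀ {m1 m2 m3 y1 y2 y3 : Port (ℤ × ℤ)},
    MkC X Y r ψ w w' m1 y1 → MkC X Y r ψ w w' m2 y2 → MkC X Y r ψ w w' m3 y3 →
    (FarC X Y n ψ m1 ∨ FarC X Y n ψ m2) → (FarC X Y n ψ m2 ∨ FarC X Y n ψ m3) →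
    (FarC X Y n ψ m3 ∨ FarC X Y n ψ m1) →
    Sw300.cyc (Sw300.pos w m1) (Sw300.pos w m2) (Sw300.pos w m3) →
    ‖HW w m1 m2 m3 - HW w' y1 y2 y3‖ ≤ C * ((r : ℝ) / n) ^ a := by
  obtain ⟨C, a, hC, ha, hX⟩ := x1_le
  refine ⟨2 * C, a, by positivity, ha, ?_⟩
  intro sh X Y r n ψ φ δ hch hr hn A A' b b' w w' hw hw' h h' hnp hF m1 m2 m3 y1 y2 y3 h1 h2 h3
    f12 f23 f31 hc
  obtain ⟨K, w0, N1, Jl, N2, Jo, Ob, a0, b0, hD⟩ := annD_exists sh X Y hr hn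
  have hP := pair_of_winC hD (by omega) hch hw hw' h h' hF
  have h5 := hP.HW_le0 (hth_k δ) (mm_of_mkC hw (by omega) hnp h1) (mm_of_mkC hw (by omega) hnp h2)
    (mm_of_mkC hw (by omega) hnp h3) (f12.imp farC_iff.1 farC_iff.1)
    (f23.imp farC_iff.1 farC_iff.1) (f31.imp farC_iff.1 farC_iff.1) hc
  have h6 := hX hD hr (by omega)
  linarith

/-- the version with a free glueing of the inner side -/
structure WinW (sh : Sh) (X Y : ℤ) (r n : ℕ) (ψ φ : ℤ × ℤ → ℤ × ℤ) (δ : ZMod 4)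
    (A : Finset (ℤ × ℤ)) (b : Port (ℤ × ℤ) → Port (ℤ × ℤ)) : Prop where
  mem : ∀ c, Bx X Y n c → ¬ Bx X Y r c → base X Y sh c → φ c ∈ A
  glue : ∀ c d, Bx X Y n c → ¬ Bx X Y r c → base X Y sh c → base X Y sh (c + dir d) →
    ¬ Bx X Y r (c + dir d) → b (ptc φ δ c d) = ptc φ δ (c + dir d) (d + 2)
  free : ∀ c d, Bx X Y n c → ¬ Bx X Y r c → base X Y sh c → ¬ base X Y sh (c + dir d) →
    b (ptc φ δ c d) = ptc φ δ c d
  out : ∀ c d, Bx X Y n c → ¬ Bx X Y r c → ¬ base X Y sh c → b (ptc φ δ c d) = ptc φ δ c d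
  loc : ∀ c d, Bx X Y (r + 1) c → ∃ c' d', Bx X Y (r + 3) c' ∧ b (ptc φ δ c d) = ptc φ δ c' d'


/-- two quarter-turn charts and shears compose -/
theorem TCh.comp {ψ φ ψ' φ' : ℤ × ℤ → ℤ × ℤ} (h : TCh ψ φ) (h' : TCh ψ' φ') :
    TCh (fun t => ψ' (ψ t)) (fun c => φ (φ' c)) :=
  ⟨fun t => by simp only [h'.l, h.l], fun c => by simp only [h.r, h'.r]⟩

theorem TCh.id : TCh (fun t => t) (fun t => t) := ⟨fun _ => rfl, fun _ => rfl⟩

theorem TCh.rk (X Y : ℤ) (k : ZMod 4) : TCh (rk X Y k) (rk X Y (-k)) :=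
  ⟨fun t => rk_neg X Y k t, fun c => rk_neg' X Y k c⟩

/-- the shear: rows from `y0` on move by `s` -/
def shr (y0 s : ℤ) (t : ℤ × ℤ) : ℤ × ℤ := if t.2 < y0 then t else (t.1 + s, t.2)

theorem TCh.shr (y0 s : ℤ) : TCh (shr y0 s) (shr y0 (-s)) := by
  constructor
  · rintro ⟨x, y⟩
    unfold Cw161.shr
    by_cases h : y < y0 <;> simp [h]
  · rintro ⟨x, y⟩
    unfold Cw161.shr
    by_cases h : y < y0 <;> simp [h]

end Crest.Agent.R158.Cw161
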