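import Crest.Agent.R158.Ad4_350
import Crest.Agent.R158.Nm4_211

/-!
# Row 158, Block N, DENT-A (helper570), part 1: arrow reversal and expectations

* `integral_half` : the expectation of a function of finitely many fair splittings is an average
* `Zc A be ch` : the six-vertex sum over the arrows on the ports of `A`
* `Zc_eq` : it is `2^{-|A|}` times the sum of the closed networks
* `Zc_neg` : arrow reversal, `Zc A be (-ch) = Zc A be ch`
-/

set_option autoImplicit false
set_option linter.unusedSectionVars false

noncomputable section

open Finset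

namespace Crest.Agent.R158.Da570

open MeasureTheory ProbabilityTheory unitInterval
open Crest.Agent.R158.Rs689 (PB bern hf)
open Crest.Agent.R158.Nm211 (DepF)
open Crest.Agent.R158.Sw300 (Port thru)
open Crest.Agent.R158.Ad350 hiding gb

/-! ### expectations -/

section

variable {ι : Type*} [DecidableEq ι]








/-- at `1/2` all the splittings can be flipped -/
theorem integral_not {S : Finset ι} {f : (ι → Bool) → ℝ} (h : DepF S f) :
    ∫ z, f (fun e => !z e) ∂(PB fun _ : ι => hf) = ∫ z, f z ∂(PB fun _ : ι => hf) := by
  have h1 := Nm211.integral_transport (ι := ι) (g := id) (Set.injOn_id _) (fun _ => true) h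
  simpa using h1

end

/-! ### arrow reversal -/

section

variable {T : Type*} [DecidableEq T]

/-- the six-vertex sum -/
def Zc (A : Finset T) (be : Port T → Port T) (ch : Port T → ℝ) : ℂ :=
  ∑ B ∈ (ports A).powerset with Ad350.gb be (ports A) B,
    ei (pb ch (ports A) B) * tilesF A (ov (ports A) B fun _ => false)

theorem Zc_eq {A : Finset T} {be : Port T → Port T} (hbe : ∀ p ∈ ports A, be p ∈ ports A)
    (ch : Port T → ℝ) : Zc A be ch =
      (1 / 2) ^ A.card * ∑ S ∈ A.powerset, (tnet A (fun t => decide (t ∈ S)) be ch).z (ports A) := by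
  have h : Ad350.Rep be ch (fun F τ => ∑ B ∈ (ports A).powerset with Ad350.gb be (ports A) B,
      ei (pb ch (ports A) B) * F (ov (ports A) B τ)) (ports A) := ⟨hbe, fun F τ => rfl⟩
  exact h.tiles fun _ => false

theorem Zc_neg {A : Finset T} {be : Port T → Port T} (hbe : ∀ p ∈ ports A, be p ∈ ports A)
    (ch : Port T → ℝ) : Zc A be (fun p => -ch p) = Zc A be ch := by
  unfold Zc
  refine Finset.sum_bij' (fun B _ => ports A \ B) (fun B _ => ports A \ B) ?_ ?_ ?_ ?_ ?_
  · intro B hB
    rw [Finset.mem_filter, Finset.mem_powerset] at hB ⊢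
    refine ⟨Finset.sdiff_subset, fun p hp hne => ?_⟩
    have := hB.2 p hp hne
    rw [Finset.mem_sdiff, Finset.mem_sdiff]
    have h2 := hbe p hp
    tauto
  · intro B hB
    rw [Finset.mem_filter, Finset.mem_powerset] at hB ⊢
    refine ⟨Finset.sdiff_subset, fun p hp hne => ?_⟩
    have := hB.2 p hp hne
    rw [Finset.mem_sdiff, Finset.mem_sdiff]
    have h2 := hbe p hp
    tauto
  · intro B hB
    rw [Finset.mem_filter, Finset.mem_powerset] at hB
    exact Finset.sdiff_sdiff_eq_self hB.1
  · intro B hB
    rw [Finset.mem_filter, Finset.mem_powerset] at hB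
    exact Finset.sdiff_sdiff_eq_self hB.1
  · intro B hB
    rw [Finset.mem_filter, Finset.mem_powerset] at hB
    have h1 : pb (fun p => -ch p) (ports A) B = pb ch (ports A) (ports A \ B) := by
      unfold pb
      refine Finset.sum_congr rfl fun p hp => ?_
      by_cases h : p ∈ B
      · simp [h]
      · simp [h, hp]
    have h2 : tilesF A (ov (ports A) B fun _ => false) =
        tilesF A (ov (ports A) (ports A \ B) fun _ => false) := by
      unfold tilesF
      refine Finset.prod_congr rfl fun t ht => ?_
      rw [← w6_flip]
      congr 1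
      funext d
      have hp : (some (t, d) : Port T) ∈ ports A := mem_ports.2 ht
      unfold ov
      rw [if_pos hp, if_pos hp]
      by_cases h : (some (t, d) : Port T) ∈ B
      · simp [h]
      · simp [h, ht]
    rw [h1, h2]

end

end Crest.Agent.R158.Da570
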