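import Crest.Agent.R158.Rs1_689

/-!
# Row 158 (helper808), resampling / domain Markov property over `PB w`

An exploration is a map `E : (ι → Bool) → Finset ι` with values in the subsets of a finite set `S`
that is *self determined*: if `z' = z` on `E z` then `E z' = E z` (`Ex S E`).  `glue D z z'` is `z` on
`D` and `z'` off `D`.  `Ad E A`: the event `A` depends on the revealed configuration only.

* `map_glue`, `map_swap` : `glue D z z'` has law `PB w`, and exchanging `z`, `z'` off `D` preserves
  `PB w ⊗ PB w`; `Ex.map_glue`, `Ex.map_swap` : the same with `D = E z`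
* `Ex.real_eq` : `P(F) = ∫ P{z' | glue (E z) z z' ∈ F} dP(z)`, `Ex.integral_eq`
* `Ex.reveal_eq`, `Ex.reveal_le`, `Ex.reveal_ge` : domain Markov
* `Ex.fkg`, `Ex.fkg'` : Harris inequality for the fresh edges
-/

set_option autoImplicit false

noncomputable section

namespace Crest.Agent.R158.Rz808

open MeasureTheory unitInterval Rs689

variable {ι : Type*}

open Classical in
/-- `z` on `D`, `z'` off `D` -/
def glue (D : Finset ι) (z z' : ι → Bool) : ι → Bool := fun e => if e ∈ D then z e else z' e

theorem glue_in {D : Finset ι} {z z' : ι → Bool} {e : ι} (h : e ∈ D) : glue D z z' e = z e := by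
  simp [glue, h]

theorem glue_out {D : Finset ι} {z z' : ι → Bool} {e : ι} (h : e ∉ D) : glue D z z' e = z' e := by
  simp [glue, h]

@[simp] theorem glue_self (D : Finset ι) (z : ι → Bool) : glue D z z = z := by
  funext e; simp [glue]

theorem meas_glue (D : Finset ι) :
    Measurable fun q : (ι → Bool) × (ι → Bool) => glue D q.1 q.2 := by
  refine measurable_pi_lambda _ fun e => ?_
  by_cases h : e ∈ D
  · have : (fun q : (ι → Bool) × (ι → Bool) => glue D q.1 q.2 e) = fun q => q.1 e := by
      funext q; exact glue_in h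
    rw [this]
    exact (measurable_pi_apply e).comp measurable_fst
  · have : (fun q : (ι → Bool) × (ι → Bool) => glue D q.1 q.2 e) = fun q => q.2 e := by
      funext q; exact glue_out h
    rw [this]
    exact (measurable_pi_apply e).comp measurable_snd


theorem meas_set (s : Finset ι) (t : ι → Set Bool) : MeasurableSet ((s : Set ι).pi t) :=
  .pi s.countable_toSet fun _ _ => MeasurableSet.of_discrete

/-- gluing two independent copies along a fixed set -/
theorem map_glue (w : ι → I) (D : Finset ι) :
    ((PB w).prod (PB w)).map (fun q => glue D q.1 q.2) = PB w := by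
  classical
  refine Measure.eq_infinitePi _ fun s t ht => ?_
  rw [Measure.map_apply (meas_glue D) (meas_set s t)]
  have h1 : (fun q : (ι → Bool) × (ι → Bool) => glue D q.1 q.2) ⁻¹' ((s : Set ι).pi t) =
      (((s.filter (· ∈ D) : Finset ι) : Set ι).pi t) ×ˢ
        (((s.filter (· ∉ D) : Finset ι) : Set ι).pi t) := by
    ext q
    simp only [Set.mem_preimage, Set.mem_pi, Finset.mem_coe, Set.mem_prod, Finset.mem_filter]
    constructor
    · intro h
      exact ⟨fun e he => by have := h e he.1; rwa [glue_in he.2] at this,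
        fun e he => by have := h e he.1; rwa [glue_out he.2] at this⟩
    · intro h e he
      by_cases hD : e ∈ D
      · rw [glue_in hD]; exact h.1 e ⟨he, hD⟩
      · rw [glue_out hD]; exact h.2 e ⟨he, hD⟩
  rw [h1, Measure.prod_prod]
  unfold PB
  rw [Measure.infinitePi_pi _ (fun _ _ => MeasurableSet.of_discrete),
    Measure.infinitePi_pi _ (fun _ _ => MeasurableSet.of_discrete)]
  exact Finset.prod_filter_mul_prod_filter_not s (· ∈ D) _

/-- exchange off `D` -/
def sw (D : Finset ι) (q : (ι → Bool) × (ι → Bool)) : (ι → Bool) × (ι → Bool) :=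
  (glue D q.1 q.2, glue D q.2 q.1)

theorem meas_sw (D : Finset ι) : Measurable (sw D : (ι → Bool) × (ι → Bool) → _) :=
  (meas_glue D).prodMk ((meas_glue D).comp measurable_swap)


/-- exchanging the two copies off `D` preserves the product law -/
theorem map_swap (w : ι → I) (D : Finset ι) :
    ((PB w).prod (PB w)).map (sw D) = (PB w).prod (PB w) := by
  classical
  -- rectangles of cylinder sets generate
  let C : Set (Set (ι → Bool)) := {A | ∃ (s : Finset ι) (t : ι → Set Bool), A = (s : Set ι).pi t}
  have hgen : (inferInstance : MeasurableSpace (ι → Bool)) = MeasurableSpace.generateFrom C := by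
    refine le_antisymm ?_ (MeasurableSpace.generateFrom_le ?_)
    · refine iSup_le fun e => ?_
      rintro _ ⟨u, -, rfl⟩
      refine MeasurableSpace.measurableSet_generateFrom ⟨{e}, fun _ => u, ?_⟩
      ext z; simp
    · rintro _ ⟨s, t, rfl⟩
      exact meas_set s t
  have hpi : IsPiSystem C := by
    rintro _ ⟨s, t, rfl⟩ _ ⟨s', t', rfl⟩ -
    refine ⟨s ∪ s', fun e => (if e ∈ s then t e else Set.univ) ∩
      (if e ∈ s' then t' e else Set.univ), ?_⟩
    ext z
    simp only [Set.mem_inter_iff, Set.mem_pi, Finset.mem_coe, Finset.mem_union]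
    constructor
    · rintro ⟨h1, h2⟩ e -
      constructor
      · split_ifs with h
        · exact h1 e h
        · trivial
      · split_ifs with h
        · exact h2 e h
        · trivial
    · intro h
      constructor
      · intro e he
        have := (h e (Or.inl he)).1
        rwa [if_pos he] at this
      · intro e he
        have := (h e (Or.inr he)).2
        rwa [if_pos he] at this
  refine (Measure.prod_eq_generateFrom (C := C) (D := C) hgen.symm hgen.symm hpi hpi
    ⟨fun _ => Set.univ, fun _ => ⟨∅, fun _ => Set.univ, by simp⟩, fun _ => measure_lt_top _ _,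
      Set.iUnion_const _⟩
    ⟨fun _ => Set.univ, fun _ => ⟨∅, fun _ => Set.univ, by simp⟩, fun _ => measure_lt_top _ _,
      Set.iUnion_const _⟩ ?_).symm
  rintro _ ⟨s, t, rfl⟩ _ ⟨s', t', rfl⟩
  rw [Measure.map_apply (meas_sw D) ((meas_set s t).prod (meas_set s' t'))]
  have h1 : (sw D) ⁻¹' (((s : Set ι).pi t) ×ˢ ((s' : Set ι).pi t')) =
      ((((s.filter (· ∈ D) : Finset ι) : Set ι).pi t) ∩
        (((s'.filter (· ∉ D) : Finset ι) : Set ι).pi t')) ×ˢ
      ((((s.filter (· ∉ D) : Finset ι) : Set ι).pi t) ∩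
        (((s'.filter (· ∈ D) : Finset ι) : Set ι).pi t')) := by
    ext q
    simp only [Set.mem_preimage, Set.mem_prod, Set.mem_inter_iff, Set.mem_pi, Finset.mem_coe,
      Finset.mem_filter, sw]
    constructor
    · rintro ⟨h, h'⟩
      refine ⟨⟨fun e he => ?_, fun e he => ?_⟩, fun e he => ?_, fun e he => ?_⟩
      · have := h e he.1; rwa [glue_in he.2] at this
      · have := h' e he.1; rwa [glue_out he.2] at this
      · have := h e he.1; rwa [glue_out he.2] at this
      · have := h' e he.1; rwa [glue_in he.2] at this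
    · rintro ⟨⟨h1, h2⟩, h3, h4⟩
      refine ⟨fun e he => ?_, fun e he => ?_⟩
      · by_cases hD : e ∈ D
        · rw [glue_in hD]; exact h1 e ⟨he, hD⟩
        · rw [glue_out hD]; exact h3 e ⟨he, hD⟩
      · by_cases hD : e ∈ D
        · rw [glue_in hD]; exact h4 e ⟨he, hD⟩
        · rw [glue_out hD]; exact h2 e ⟨he, hD⟩
  have hdep : ∀ (s : Finset ι) (t : ι → Set Bool), Dep s ((s : Set ι).pi t) := by
    intro s t z z' h
    simp only [Set.mem_pi, Finset.mem_coe]
    exact forall_congr' fun e => forall_congr' fun he => by rw [h e he]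
  have hsplit : ∀ (s : Finset ι) (t : ι → Set Bool), PB w ((s : Set ι).pi t) =
      PB w (((s.filter (· ∈ D) : Finset ι) : Set ι).pi t) *
        PB w (((s.filter (· ∉ D) : Finset ι) : Set ι).pi t) := by
    intro s t
    unfold PB
    rw [Measure.infinitePi_pi _ (fun _ _ => MeasurableSet.of_discrete),
      Measure.infinitePi_pi _ (fun _ _ => MeasurableSet.of_discrete),
      Measure.infinitePi_pi _ (fun _ _ => MeasurableSet.of_discrete)]
    exact (Finset.prod_filter_mul_prod_filter_not s (· ∈ D) _).symm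
  have hd1 : Disjoint (s.filter (· ∈ D)) (s'.filter (· ∉ D)) :=
    Finset.disjoint_left.2 fun e h h' => (Finset.mem_filter.1 h').2 (Finset.mem_filter.1 h).2
  have hd2 : Disjoint (s.filter (· ∉ D)) (s'.filter (· ∈ D)) :=
    Finset.disjoint_left.2 fun e h h' => (Finset.mem_filter.1 h).2 (Finset.mem_filter.1 h').2
  rw [h1, Measure.prod_prod, PB_indep w hd1 (hdep _ _) (hdep _ _),
    PB_indep w hd2 (hdep _ _) (hdep _ _), hsplit s t, hsplit s' t']
  ring

/-! ### explorations -/

/-- exploration: self determined random set of edges inside `S` -/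
structure Ex (S : Finset ι) (E : (ι → Bool) → Finset ι) : Prop where
  sub : ∀ z, E z ⊆ S
  self : ∀ z z', (∀ e ∈ E z, z e = z' e) → E z' = E z

/-- the event depends on the revealed configuration only -/
def Ad (E : (ι → Bool) → Finset ι) (A : Set (ι → Bool)) : Prop :=
  ∀ z z', (∀ e ∈ E z, z e = z' e) → (z ∈ A ↔ z' ∈ A)

variable {S : Finset ι} {E : (ι → Bool) → Finset ι}

theorem Ex.glue (h : Ex S E) (z z' : ι → Bool) : E (glue (E z) z z') = E z :=
  h.self _ _ fun _ he => (glue_in he).symm

theorem Ex.glue_eq (h : Ex S E) {D : Finset ι} {z z' : ι → Bool} :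
    E (Rz808.glue D z z') = D ↔ E z = D := by
  constructor
  · intro h1
    have := h.self (Rz808.glue D z z') z (fun e he => by rw [h1] at he; exact glue_in he)
    rw [this, h1]
  · rintro rfl
    exact h.glue z z'

theorem Ex.dep_eq (h : Ex S E) (D : Finset ι) : Dep D {z | E z = D} := by
  intro z z' hz
  simp only [Set.mem_ofPred_eq]
  constructor
  · intro h1
    rw [h.self z z' (fun e he => hz e (h1 ▸ he)), h1]
  · intro h1
    rw [h.self z' z (fun e he => (hz e (h1 ▸ he)).symm), h1]

theorem Ex.meas_eq (h : Ex S E) (D : Finset ι) : MeasurableSet {z | E z = D} :=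
  (h.dep_eq D).measurableSet


theorem Ex.dep (h : Ex S E) {A : Set (ι → Bool)} (hA : Ad E A) : Dep S A := fun z z' hz =>
  hA z z' fun e he => hz e (h.sub z he)

theorem Ad.inter {A B : Set (ι → Bool)} (hA : Ad E A) (hB : Ad E B) : Ad E (A ∩ B) :=
  fun z z' h => and_congr (hA z z' h) (hB z z' h)


theorem Ad.compl {A : Set (ι → Bool)} (hA : Ad E A) : Ad E Aᶜ :=
  fun z z' h => not_congr (hA z z' h)



/-- finite partition by the value of the exploration -/
theorem Ex.sum_eq (h : Ex S E) (μ : Measure (ι → Bool)) {A : Set (ι → Bool)}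
    (hA : MeasurableSet A) :
    μ A = ∑ D ∈ S.powerset, μ (A ∩ {z | E z = D}) := by
  classical
  have h1 : A = ⋃ D ∈ S.powerset, (A ∩ {z | E z = D}) := by
    ext z
    simp only [Set.mem_iUnion, Set.mem_inter_iff, Set.mem_ofPred_eq, exists_prop,
      Finset.mem_powerset]
    exact ⟨fun hz => ⟨E z, h.sub z, hz, rfl⟩, fun ⟨D, _, hz, _⟩ => hz⟩
  conv_lhs => rw [h1]
  refine measure_biUnion_finset ?_ fun D _ => hA.inter (h.meas_eq D)
  intro D _ D' _ hne
  refine Set.disjoint_left.2 fun z h2 h3 => hne ?_
  exact h2.2.symm.trans h3.2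

theorem Ex.meas_glue (h : Ex S E) :
    Measurable fun q : (ι → Bool) × (ι → Bool) => Rz808.glue (E q.1) q.1 q.2 := by
  classical
  intro F hF
  have h1 : (fun q : (ι → Bool) × (ι → Bool) => Rz808.glue (E q.1) q.1 q.2) ⁻¹' F =
      ⋃ D ∈ S.powerset, ((Prod.fst ⁻¹' {z | E z = D}) ∩
        ((fun q : (ι → Bool) × (ι → Bool) => Rz808.glue D q.1 q.2) ⁻¹' F)) := by
    ext q
    simp only [Set.mem_iUnion, Set.mem_inter_iff, Set.mem_preimage, Set.mem_ofPred_eq, exists_prop,
      Finset.mem_powerset]
    constructor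
    · intro hq
      exact ⟨E q.1, h.sub _, rfl, hq⟩
    · rintro ⟨D, _, rfl, hq⟩
      exact hq
  rw [h1]
  exact Finset.measurableSet_biUnion _ fun D _ =>
    (measurable_fst (h.meas_eq D)).inter (Rz808.meas_glue D hF)

/-- **resampling**: the glued configuration has law `PB w` -/
theorem Ex.map_glue (h : Ex S E) (w : ι → I) :
    ((PB w).prod (PB w)).map (fun q => Rz808.glue (E q.1) q.1 q.2) = PB w := by
  classical
  ext F hF
  rw [Measure.map_apply h.meas_glue hF, h.sum_eq (PB w) hF]
  have h1 : (fun q : (ι → Bool) × (ι → Bool) => Rz808.glue (E q.1) q.1 q.2) ⁻¹' F =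
      ⋃ D ∈ S.powerset, ((fun q : (ι → Bool) × (ι → Bool) => Rz808.glue D q.1 q.2) ⁻¹'
        (F ∩ {z | E z = D})) := by
    ext q
    simp only [Set.mem_iUnion, Set.mem_inter_iff, Set.mem_preimage, Set.mem_ofPred_eq, exists_prop,
      Finset.mem_powerset, h.glue_eq]
    constructor
    · intro hq
      exact ⟨E q.1, h.sub _, hq, rfl⟩
    · rintro ⟨D, _, hq, rfl⟩
      exact hq
  rw [h1, measure_biUnion_finset]
  · refine Finset.sum_congr rfl fun D _ => ?_
    rw [← Measure.map_apply (Rz808.meas_glue D) (hF.inter (h.meas_eq D)), Rz808.map_glue]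
  · intro D _ D' _ hne
    refine Set.disjoint_left.2 fun q h2 h3 => hne ?_
    exact (h.glue_eq.1 h2.2).symm.trans (h.glue_eq.1 h3.2)
  · intro D _
    exact Rz808.meas_glue D (hF.inter (h.meas_eq D))

theorem Ex.meas_sw (h : Ex S E) :
    Measurable fun q : (ι → Bool) × (ι → Bool) => sw (E q.1) q := by
  refine h.meas_glue.prodMk ?_
  classical
  intro F hF
  have h1 : (fun q : (ι → Bool) × (ι → Bool) => Rz808.glue (E q.1) q.2 q.1) ⁻¹' F =
      ⋃ D ∈ S.powerset, ((Prod.fst ⁻¹' {z | E z = D}) ∩
        ((fun q : (ι → Bool) × (ι → Bool) => Rz808.glue D q.2 q.1) ⁻¹' F)) := by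
    ext q
    simp only [Set.mem_iUnion, Set.mem_inter_iff, Set.mem_preimage, Set.mem_ofPred_eq, exists_prop,
      Finset.mem_powerset]
    constructor
    · intro hq
      exact ⟨E q.1, h.sub _, rfl, hq⟩
    · rintro ⟨D, _, rfl, hq⟩
      exact hq
  rw [h1]
  exact Finset.measurableSet_biUnion _ fun D _ =>
    (measurable_fst (h.meas_eq D)).inter ((Rz808.meas_glue D).comp measurable_swap hF)


/-- **exchange off the revealed set preserves the product law** -/
theorem Ex.map_swap (h : Ex S E) (w : ι → I) :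
    ((PB w).prod (PB w)).map (fun q => sw (E q.1) q) = (PB w).prod (PB w) := by
  classical
  ext F hF
  rw [Measure.map_apply h.meas_sw hF]
  have key : ∀ D, MeasurableSet ((sw D ⁻¹' F) ∩
      (Prod.fst ⁻¹' {z | E z = D} : Set ((ι → Bool) × (ι → Bool)))) := fun D =>
    (Rz808.meas_sw D hF).inter (measurable_fst (h.meas_eq D))
  have h1 : (fun q : (ι → Bool) × (ι → Bool) => sw (E q.1) q) ⁻¹' F =
      ⋃ D ∈ S.powerset, (sw D ⁻¹' (F ∩ (Prod.fst ⁻¹' {z | E z = D}))) := by
    ext q
    simp only [Set.mem_iUnion, Set.mem_inter_iff, Set.mem_preimage, Set.mem_ofPred_eq, exists_prop,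
      Finset.mem_powerset, sw, h.glue_eq]
    constructor
    · intro hq
      exact ⟨E q.1, h.sub _, hq, rfl⟩
    · rintro ⟨D, _, hq, rfl⟩
      exact hq
  have h2 : F = ⋃ D ∈ S.powerset, (F ∩ (Prod.fst ⁻¹' {z | E z = D})) := by
    ext q
    simp only [Set.mem_iUnion, Set.mem_inter_iff, Set.mem_preimage, Set.mem_ofPred_eq, exists_prop,
      Finset.mem_powerset]
    exact ⟨fun hq => ⟨E q.1, h.sub _, hq, rfl⟩, fun ⟨D, _, hq, _⟩ => hq⟩
  rw [h1, measure_biUnion_finset]
  · conv_rhs => rw [h2]
    rw [measure_biUnion_finset]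
    · refine Finset.sum_congr rfl fun D _ => ?_
      rw [← Measure.map_apply (Rz808.meas_sw D) (hF.inter (measurable_fst (h.meas_eq D))),
        Rz808.map_swap]
    · intro D _ D' _ hne
      refine Set.disjoint_left.2 fun q h3 h4 => hne ?_
      exact (h3.2 : E q.1 = D).symm.trans h4.2
    · intro D _
      exact hF.inter (measurable_fst (h.meas_eq D))
  · intro D _ D' _ hne
    refine Set.disjoint_left.2 fun q h3 h4 => hne ?_
    have h5 : E (Rz808.glue D q.1 q.2) = D := h3.2
    have h6 : E (Rz808.glue D' q.1 q.2) = D' := h4.2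
    exact (h.glue_eq.1 h5).symm.trans (h.glue_eq.1 h6)
  · intro D _
    exact Rz808.meas_sw D (hF.inter (measurable_fst (h.meas_eq D)))

/-! ### sections -/











/-! ### domain Markov property -/


theorem Ex.integral_eq (h : Ex S E) (w : ι → I) {G : Type*} [NormedAddCommGroup G]
    [NormedSpace ℝ G] {f : (ι → Bool) → G} (hf : Integrable f (PB w)) :
    ∫ z, f z ∂(PB w) = ∫ z, ∫ z', f (Rz808.glue (E z) z z') ∂(PB w) ∂(PB w) := by
  have h1 : Integrable f (((PB w).prod (PB w)).map fun q => Rz808.glue (E q.1) q.1 q.2) := by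
    rwa [h.map_glue w]
  conv_lhs => rw [← h.map_glue w]
  rw [integral_map h.meas_glue.aemeasurable h1.aestronglyMeasurable]
  exact integral_prod _ (h1.comp_measurable h.meas_glue)










end Crest.Agent.R158.Rz808
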