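import Crest.Agent.R158.Rs6_689
import Mathlib
import Crest.Agent.R158.Rz1_808
import Crest.Agent.R158.Sl4_434
import Crest.Agent.R158.Ob1_664
import Crest.Agent.R158.Gc4_748
import Crest.Agent.R158.Mr4_679

-- ▼ part R158/Dr1_945
section

/-!
# Row 158, BLOCK DR (helper945), part 1: diagonal steps

Faces of the medial lattice `ℤ²` are coded by their lower-left corner, vertices (tiles) by `ℤ × ℤ`.
A diagonal step goes from a face to a diagonal neighbour through the common vertex `mid`; it uses the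
value of a configuration `Y : ℤ × ℤ → Bool` at that vertex.

* `dcross` : a path of one face parity using the value `b` and a path of the other parity using the value
  `!b` cannot cross
* `tau`, `Fc` : dictionary with bond percolation on `ℤ²` (both sublattices of faces)
* `oc_diag` : an open connection gives a path of diagonal steps with value `true`
-/

set_option autoImplicit false

namespace Crest.Agent.R158.Dr945

open Crest.Agent.R161.Geo729 Crest.Agent.R161.Topo374 Crest.Agent.R161.Dual374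
open Crest.Agent.R161.Tas682
open Crest.Agent.R158.Rs689

/-- the common vertex of two diagonal neighbours -/
def mid (f g : P2) : P2 := (max f.1 g.1, max f.2 g.2)

/-- diagonal neighbours -/
def Dg (f g : P2) : Prop :=
  (g.1 = f.1 + 1 ∨ f.1 = g.1 + 1) ∧ (g.2 = f.2 + 1 ∨ f.2 = g.2 + 1)

theorem Dg.symm {f g : P2} (h : Dg f g) : Dg g f := by unfold Dg at *; omega

theorem mid_comm (f g : P2) : mid f g = mid g f := by
  unfold mid; rw [max_comm, max_comm f.2]

/-- diagonal step with the value `b` at the common vertex -/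
def DSt (Y : P2 → Bool) (b : Bool) (f g : P2) : Prop := Dg f g ∧ Y (mid f g) = b

theorem DSt.symm {Y : P2 → Bool} {b : Bool} {f g : P2} (h : DSt Y b f g) : DSt Y b g f :=
  ⟨h.1.symm, by rw [mid_comm]; exact h.2⟩

/-- diagonal connection inside `S` -/
def DC (Y : P2 → Bool) (b : Bool) (S : Set P2) (f g : P2) : Prop :=
  f ∈ S ∧ Relation.ReflTransGen (fun u v => DSt Y b u v ∧ u ∈ S ∧ v ∈ S) f g

theorem DC.left {Y : P2 → Bool} {b : Bool} {S : Set P2} {f g : P2} (h : DC Y b S f g) : f ∈ S := h.1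

theorem DC.right {Y : P2 → Bool} {b : Bool} {S : Set P2} {f g : P2} (h : DC Y b S f g) : g ∈ S := by
  obtain ⟨hf, h⟩ := h
  induction h with
  | refl => exact hf
  | tail _ h _ => exact h.2.2

theorem DC.par {Y : P2 → Bool} {b : Bool} {S : Set P2} {f g : P2} (h : DC Y b S f g) :
    (g.1 + g.2) % 2 = (f.1 + f.2) % 2 := by
  obtain ⟨_, h⟩ := h
  induction h with
  | refl => rfl
  | tail _ h ih =>
    obtain ⟨⟨⟨h1, h2⟩, _⟩, _⟩ := h
    omega

/-- doubled image of a path of parity `s` using the points (odd, even) -/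
def TA (Y : P2 → Bool) (b : Bool) (S : Set P2) (s : ℤ) : Set P2 :=
  {w | (∃ u ∈ S, (u.1 + u.2) % 2 = s ∧ w = (2 * u.1 + 1, 2 * u.2 + 1)) ∨
    ∃ u ∈ S, ∃ v ∈ S, DSt Y b u v ∧
      (w = (2 * u.1 + 1, 2 * (mid u v).2) ∨ w = (2 * (mid u v).1, 2 * (mid u v).2))}

/-- doubled image of a path of parity `s` using the points (even, odd) -/
def TB (Y : P2 → Bool) (b : Bool) (S : Set P2) (s : ℤ) : Set P2 :=
  {w | (∃ u ∈ S, (u.1 + u.2) % 2 = s ∧ w = (2 * u.1 + 1, 2 * u.2 + 1)) ∨
    ∃ u ∈ S, ∃ v ∈ S, DSt Y b u v ∧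
      (w = (2 * (mid u v).1, 2 * u.2 + 1) ∨ w = (2 * (mid u v).1, 2 * (mid u v).2))}

theorem mid_fst {f g : P2} (h : Dg f g) :
    ((mid f g).1 = f.1 ∨ (mid f g).1 = f.1 + 1) ∧ ((mid f g).1 = g.1 ∨ (mid f g).1 = g.1 + 1) := by
  obtain ⟨h1, _⟩ := h
  simp only [mid]
  omega

theorem mid_snd {f g : P2} (h : Dg f g) :
    ((mid f g).2 = f.2 ∨ (mid f g).2 = f.2 + 1) ∧ ((mid f g).2 = g.2 ∨ (mid f g).2 = g.2 + 1) := by
  obtain ⟨_, h2⟩ := h
  simp only [mid]
  omega

theorem nb1 {f g : P2} (h : Dg f g) : Nbr (2 * f.1 + 1, 2 * f.2 + 1) (2 * f.1 + 1, 2 * (mid f g).2) := by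
  have h2 := mid_snd h
  simp only [Nbr, true_and]
  omega

theorem nb2 {f g : P2} (h : Dg f g) :
    Nbr (2 * f.1 + 1, 2 * (mid f g).2) (2 * (mid f g).1, 2 * (mid f g).2) := by
  have h2 := mid_fst h
  simp only [Nbr, true_and]
  omega

theorem nb3 {f g : P2} (h : Dg f g) : Nbr (2 * f.1 + 1, 2 * f.2 + 1) (2 * (mid f g).1, 2 * f.2 + 1) := by
  have h2 := mid_fst h
  simp only [Nbr, true_and]
  omega

theorem nb4 {f g : P2} (h : Dg f g) :
    Nbr (2 * (mid f g).1, 2 * f.2 + 1) (2 * (mid f g).1, 2 * (mid f g).2) := by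
  have h2 := mid_snd h
  simp only [Nbr, true_and]
  omega

theorem dc_walkA {Y : P2 → Bool} {b : Bool} {S : Set P2} {f g : P2} (h : DC Y b S f g) :
    Walk (TA Y b S ((f.1 + f.2) % 2)) (2 * f.1 + 1, 2 * f.2 + 1) (2 * g.1 + 1, 2 * g.2 + 1) := by
  obtain ⟨hf, h⟩ := h
  induction h with
  | refl => exact Walk.refl (Or.inl ⟨f, hf, rfl, rfl⟩)
  | @tail u v h1 h2 ih =>
    refine ih.trans ?_
    obtain ⟨hd, hu, hv⟩ := h2
    have hp := (DC.par (Y := Y) (b := b) ⟨hf, h1⟩)
    have hpv := (DC.par (Y := Y) (b := b) ⟨hf, h1.tail ⟨hd, hu, hv⟩⟩)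
    have e0 : ((2 * u.1 + 1, 2 * u.2 + 1) : P2) ∈ TA Y b S ((f.1 + f.2) % 2) := Or.inl ⟨u, hu, hp, rfl⟩
    have e1 : ((2 * u.1 + 1, 2 * (mid u v).2) : P2) ∈ TA Y b S ((f.1 + f.2) % 2) :=
      Or.inr ⟨u, hu, v, hv, hd, Or.inl rfl⟩
    have e2 : ((2 * (mid u v).1, 2 * (mid u v).2) : P2) ∈ TA Y b S ((f.1 + f.2) % 2) :=
      Or.inr ⟨u, hu, v, hv, hd, Or.inr rfl⟩
    have e3 : ((2 * v.1 + 1, 2 * (mid u v).2) : P2) ∈ TA Y b S ((f.1 + f.2) % 2) :=
      Or.inr ⟨v, hv, u, hu, hd.symm, Or.inl (by rw [mid_comm])⟩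
    have e4 : ((2 * v.1 + 1, 2 * v.2 + 1) : P2) ∈ TA Y b S ((f.1 + f.2) % 2) :=
      Or.inl ⟨v, hv, hpv, rfl⟩
    have hs := hd.1.symm
    exact (Walk.step e0 e1 (nb1 hd.1)).trans ((Walk.step e1 e2 (nb2 hd.1)).trans
      ((Walk.step e2 e3 (by rw [mid_comm]; exact (nb2 hs).symm)).trans
        (Walk.step e3 e4 (by rw [mid_comm]; exact (nb1 hs).symm))))

theorem dc_walkB {Y : P2 → Bool} {b : Bool} {S : Set P2} {f g : P2} (h : DC Y b S f g) :
    Walk (TB Y b S ((f.1 + f.2) % 2)) (2 * f.1 + 1, 2 * f.2 + 1) (2 * g.1 + 1, 2 * g.2 + 1) := by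
  obtain ⟨hf, h⟩ := h
  induction h with
  | refl => exact Walk.refl (Or.inl ⟨f, hf, rfl, rfl⟩)
  | @tail u v h1 h2 ih =>
    refine ih.trans ?_
    obtain ⟨hd, hu, hv⟩ := h2
    have hp := (DC.par (Y := Y) (b := b) ⟨hf, h1⟩)
    have hpv := (DC.par (Y := Y) (b := b) ⟨hf, h1.tail ⟨hd, hu, hv⟩⟩)
    have e0 : ((2 * u.1 + 1, 2 * u.2 + 1) : P2) ∈ TB Y b S ((f.1 + f.2) % 2) := Or.inl ⟨u, hu, hp, rfl⟩
    have e1 : ((2 * (mid u v).1, 2 * u.2 + 1) : P2) ∈ TB Y b S ((f.1 + f.2) % 2) :=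
      Or.inr ⟨u, hu, v, hv, hd, Or.inl rfl⟩
    have e2 : ((2 * (mid u v).1, 2 * (mid u v).2) : P2) ∈ TB Y b S ((f.1 + f.2) % 2) :=
      Or.inr ⟨u, hu, v, hv, hd, Or.inr rfl⟩
    have e3 : ((2 * (mid u v).1, 2 * v.2 + 1) : P2) ∈ TB Y b S ((f.1 + f.2) % 2) :=
      Or.inr ⟨v, hv, u, hu, hd.symm, Or.inl (by rw [mid_comm])⟩
    have e4 : ((2 * v.1 + 1, 2 * v.2 + 1) : P2) ∈ TB Y b S ((f.1 + f.2) % 2) :=
      Or.inl ⟨v, hv, hpv, rfl⟩
    have hs := hd.1.symm
    exact (Walk.step e0 e1 (nb3 hd.1)).trans ((Walk.step e1 e2 (nb4 hd.1)).trans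
      ((Walk.step e2 e3 (by rw [mid_comm]; exact (nb4 hs).symm)).trans
        (Walk.step e3 e4 (by rw [mid_comm]; exact (nb3 hs).symm))))

/-- **Crossing lemma for diagonal paths.** -/
theorem dcross {Y : P2 → Bool} {c : Bool} {S S' : Set P2} {a b p q : P2} (h1 : DC Y c S a b)
    (h2 : DC Y (!c) S' p q) (hpar : (a.1 + a.2) % 2 ≠ (p.1 + p.2) % 2)
    (hy : ∀ w ∈ S, p.2 ≤ w.2 ∧ w.2 ≤ q.2) (hx : ∀ w ∈ S', a.1 ≤ w.1 ∧ w.1 ≤ b.1) : False := by
  have k1 := dc_walkA h1
  have k2 := dc_walkB h2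
  obtain ⟨w, hw1, hw2⟩ := cross k1 k2 (by
      rintro w (⟨u, hu, _, rfl⟩ | ⟨u, hu, v, hv, hd, rfl | rfl⟩)
      · have := hy u hu
        simp only
        omega
      · have h3 := hy u hu
        have h4 := hy v hv
        have h5 := hd.1.2
        simp only [mid]
        omega
      · have h3 := hy u hu
        have h4 := hy v hv
        have h5 := hd.1.2
        simp only [mid]
        omega) (by
      rintro w (⟨u, hu, _, rfl⟩ | ⟨u, hu, v, hv, hd, rfl | rfl⟩)
      · have := hx u hu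
        simp only
        omega
      · have h3 := hx u hu
        have h4 := hx v hv
        have h5 := hd.1.1
        simp only [mid]
        omega
      · have h3 := hx u hu
        have h4 := hx v hv
        have h5 := hd.1.1
        simp only [mid]
        omega)
  rcases hw1 with ⟨u, _, hu2, hw1⟩ | ⟨u, _, v, _, hd, hw1 | hw1⟩ <;>
    rcases hw2 with ⟨u', _, hu2', hw2⟩ | ⟨u', _, v', _, hd', hw2 | hw2⟩ <;>
    rw [hw1] at hw2 <;> simp only [Prod.mk.injEq] at hw2 <;> try omega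
  have e : mid u v = mid u' v' := Prod.ext (by omega) (by omega)
  have h3 := hd.2
  have h4 := hd'.2
  rw [e, h4] at h3
  cases c <;> simp at h3

/-! ### dictionary with bond percolation -/

/-- the vertex of the medial lattice on the edge `e`, shifted by `s` -/
def tau (s : ℤ) (e : Edge) : P2 :=
  (e.1.1 + e.1.2 + 1 + s, e.1.2 - e.1.1 + (if e.2 then 1 else 0))

/-- the face of the point `u`, shifted by `s` -/
def Fc (s : ℤ) (u : P2) : P2 := (u.1 + u.2 + s, u.2 - u.1)

theorem tau_inj (s : ℤ) : Function.Injective (tau s) := by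
  rintro ⟨⟨a, b⟩, c⟩ ⟨⟨a', b'⟩, c'⟩ h
  simp only [tau, Prod.mk.injEq] at h
  cases c <;> cases c' <;> simp at h ⊢ <;> omega

theorem fc_step {s : ℤ} {Y : P2 → Bool} {u v : P2}
    (h : PStep (fun e => (fun e => Y (tau s e)) e = true) u v) : DSt Y true (Fc s u) (Fc s v) := by
  obtain ⟨⟨⟨a, b⟩, c⟩, he, h⟩ := h
  have key : DSt Y true (Fc s (src ((a, b), c))) (Fc s (tgt ((a, b), c))) := by
    cases c
    · have e : mid (Fc s (src ((a, b), false))) (Fc s (tgt ((a, b), false))) = tau s ((a, b), false) := by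
        simp [mid, Fc, tau, src, tgt]
        omega
      refine ⟨?_, by rw [e]; exact he⟩
      simp [Dg, Fc, src, tgt]
      omega
    · have e : mid (Fc s (src ((a, b), true))) (Fc s (tgt ((a, b), true))) = tau s ((a, b), true) := by
        simp [mid, Fc, tau, src, tgt]
        omega
      refine ⟨?_, by rw [e]; exact he⟩
      simp [Dg, Fc, src, tgt]
      omega
  rcases h with ⟨rfl, rfl⟩ | ⟨rfl, rfl⟩
  · exact key
  · exact key.symm

/-- an open connection gives a diagonal connection -/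
theorem oc_diag {s : ℤ} {Y : P2 → Bool} {S T : Set P2} (hST : ∀ u ∈ S, Fc s u ∈ T) {u v : P2}
    (h : OC (fun e => Y (tau s e)) S u v) : DC Y true T (Fc s u) (Fc s v) := by
  obtain ⟨hu, h⟩ := h
  refine ⟨hST u hu, ?_⟩
  induction h with
  | refl => exact .refl
  | @tail b c _ h2 ih => exact ih.tail ⟨fc_step h2.1, hST b h2.2.1, hST c h2.2.2⟩

theorem fc_par (s : ℤ) (u : P2) : ((Fc s u).1 + (Fc s u).2) % 2 = s % 2 := by
  simp only [Fc]
  omega

end Crest.Agent.R158.Dr945
end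

-- ▼ part R158/Dr2_945
section

/-!
# Row 158, BLOCK DR (helper945), part 2: staircases of cells, webs, their probability

* `EvH s m d a b`, `EvV s m d a b` : increasing events for a configuration `Y : ℤ × ℤ → Bool` of the medial
  vertices: a tube of plus events along a diagonal staircase
* `evH_path`, `evV_path` : they give long diagonal paths (value `true`) of the faces of parity `s`
* `Web m` : in each of the four long rectangles around the square annulus of scale `m` both sublattices are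
  crossed the long way; `web_prob`, `web_dep`, `web_inc`
* `noweb_le` : probability that all webs of the scales `8 ^ k * m` fail
-/

set_option autoImplicit false

noncomputable section

namespace Crest.Agent.R158.Dr945

open MeasureTheory ProbabilityTheory unitInterval
open Crest.Agent.R161.Geo729 Crest.Agent.R161.Topo374 Crest.Agent.R161.Dual374
open Crest.Agent.R161.Tas682
open Crest.Agent.R158.Rs689

/-! ### staircases -/

/-- staircase in the direction `(1,1)` -/
def Kh (d a b : ℤ) : Finset P2 :=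
  ((Finset.Icc a b).image fun t => ((t, t + d) : P2)) ∪
    (Finset.Icc a b).image fun t => ((t, t + d + 1) : P2)

/-- staircase in the direction `(-1,1)` -/
def Kv (d a b : ℤ) : Finset P2 :=
  ((Finset.Icc a b).image fun t => ((-t, t + d) : P2)) ∪
    (Finset.Icc a b).image fun t => ((-t, t + d + 1) : P2)

theorem mem_Kh {d a b : ℤ} {k : P2} :
    k ∈ Kh d a b ↔ (a ≤ k.1 ∧ k.1 ≤ b) ∧ (k.2 = k.1 + d ∨ k.2 = k.1 + d + 1) := by
  obtain ⟨x, y⟩ := k
  simp only [Kh, Finset.mem_union, Finset.mem_image, Finset.mem_Icc, Prod.mk.injEq]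
  constructor
  · rintro (⟨t, ht, h1, h2⟩ | ⟨t, ht, h1, h2⟩) <;> omega
  · rintro ⟨h1, h2 | h2⟩
    · exact Or.inl ⟨x, h1, rfl, h2.symm⟩
    · exact Or.inr ⟨x, h1, rfl, h2.symm⟩

theorem mem_Kv {d a b : ℤ} {k : P2} :
    k ∈ Kv d a b ↔ (a ≤ -k.1 ∧ -k.1 ≤ b) ∧ (k.2 = -k.1 + d ∨ k.2 = -k.1 + d + 1) := by
  obtain ⟨x, y⟩ := k
  simp only [Kv, Finset.mem_union, Finset.mem_image, Finset.mem_Icc, Prod.mk.injEq]
  constructor
  · rintro (⟨t, ht, h1, h2⟩ | ⟨t, ht, h1, h2⟩) <;> omega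
  · rintro ⟨h1, h2 | h2⟩
    · exact Or.inl ⟨-x, h1, by omega, by omega⟩
    · exact Or.inr ⟨-x, h1, by omega, by omega⟩

theorem Kh_card (d a b : ℤ) : (Kh d a b).card ≤ 2 * (b + 1 - a).toNat := by
  unfold Kh
  refine (Finset.card_union_le _ _).trans ?_
  have h1 := Finset.card_image_le (s := Finset.Icc a b) (f := fun t => ((t, t + d) : P2))
  have h2 := Finset.card_image_le (s := Finset.Icc a b) (f := fun t => ((t, t + d + 1) : P2))
  rw [Int.card_Icc] at h1 h2
  omega

theorem Kv_card (d a b : ℤ) : (Kv d a b).card ≤ 2 * (b + 1 - a).toNat := by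
  unfold Kv
  refine (Finset.card_union_le _ _).trans ?_
  have h1 := Finset.card_image_le (s := Finset.Icc a b) (f := fun t => ((-t, t + d) : P2))
  have h2 := Finset.card_image_le (s := Finset.Icc a b) (f := fun t => ((-t, t + d + 1) : P2))
  rw [Int.card_Icc] at h1 h2
  omega

theorem Kh_conn (d a : ℤ) (n : ℕ) : CConn (Kh d a (a + n) : Set P2) (a, a + d) (a + n, a + n + d) := by
  have key : ∀ k : ℕ, k ≤ n →
      CConn (Kh d a (a + n) : Set P2) (a, a + d) (a + k, a + k + d) := by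
    intro k
    induction k with
    | zero =>
      intro _
      simp only [Nat.cast_zero, add_zero]
      exact .refl
    | succ k ih =>
      intro hk
      refine ((ih (by omega)).tail (b := (a + k, a + k + d)) (c := (a + k, a + k + d + 1)) ?_).tail ?_
      · refine ⟨Or.inr ⟨rfl, Or.inl rfl⟩, ?_, ?_⟩
        · exact mem_Kh.2 ⟨⟨by simp only; omega, by simp only; omega⟩, Or.inl rfl⟩
        · exact mem_Kh.2 ⟨⟨by simp only; omega, by simp only; omega⟩, Or.inr rfl⟩
      · refine ⟨Or.inl ⟨?_, Or.inl ?_⟩, ?_, ?_⟩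
        · simp only; push_cast; ring
        · simp only; push_cast; ring
        · exact mem_Kh.2 ⟨⟨by simp only; omega, by simp only; omega⟩, Or.inr rfl⟩
        · exact mem_Kh.2 ⟨⟨by simp only; omega, by simp only; omega⟩, Or.inl rfl⟩
  exact key n le_rfl

theorem Kv_conn (d a : ℤ) (n : ℕ) :
    CConn (Kv d a (a + n) : Set P2) (-a, a + d) (-(a + n), a + n + d) := by
  have key : ∀ k : ℕ, k ≤ n →
      CConn (Kv d a (a + n) : Set P2) (-a, a + d) (-(a + k), a + k + d) := by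
    intro k
    induction k with
    | zero =>
      intro _
      simp only [Nat.cast_zero, add_zero]
      exact .refl
    | succ k ih =>
      intro hk
      refine ((ih (by omega)).tail (b := (-(a + k), a + k + d))
        (c := (-(a + k), a + k + d + 1)) ?_).tail ?_
      · refine ⟨Or.inr ⟨rfl, Or.inl rfl⟩, ?_, ?_⟩
        · exact mem_Kv.2 ⟨⟨by simp only; omega, by simp only; omega⟩, Or.inl (by simp only; omega)⟩
        · exact mem_Kv.2 ⟨⟨by simp only; omega, by simp only; omega⟩, Or.inr (by simp only; omega)⟩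
      · refine ⟨Or.inl ⟨?_, Or.inr ?_⟩, ?_, ?_⟩
        · simp only; push_cast; ring
        · simp only; push_cast; ring
        · exact mem_Kv.2 ⟨⟨by simp only; omega, by simp only; omega⟩, Or.inr (by simp only; omega)⟩
        · exact mem_Kv.2 ⟨⟨by simp only; omega, by simp only; omega⟩, Or.inl (by simp only; omega)⟩
  exact key n le_rfl

/-- tube along a staircase of direction `(1,1)`, for the faces of parity `s` -/
def EvH (s : ℤ) (m : ℕ) (d a b : ℤ) : Set (P2 → Bool) :=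
  {Y | (fun e => Y (tau s e)) ∈ tubeX m (Kh d a b)}

/-- tube along a staircase of direction `(-1,1)`, for the faces of parity `s` -/
def EvV (s : ℤ) (m : ℕ) (d a b : ℤ) : Set (P2 → Bool) :=
  {Y | (fun e => Y (tau s e)) ∈ tubeX m (Kv d a b)}

theorem mem_plusR {m : ℕ} {k u : P2} (h : u ∈ plusR m k) :
    (k.2 * m - k.1 * m - 2 * m ≤ u.2 - u.1 ∧ u.2 - u.1 ≤ k.2 * m - k.1 * m + 2 * m) ∧
    (k.1 * m + k.2 * m - m ≤ u.1 + u.2 ∧ u.1 + u.2 ≤ k.1 * m + k.2 * m + 3 * m) := by
  rcases h with h | h <;> simp only [hR, vR, mem_rect] at h <;> omega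

theorem evH_path {s : ℤ} {m : ℕ} {d a : ℤ} {n : ℕ} {Y : P2 → Bool} (h : Y ∈ EvH s m d a (a + n)) :
    ∃ f g : P2, DC Y true {w | d * m - 2 * m ≤ w.2 ∧ w.2 ≤ d * m + 3 * m} f g ∧
      f.1 ≤ 2 * (a * m) + d * m + 3 * m + s ∧
      2 * (a * m) + 2 * (n * m) + d * m - m + s ≤ g.1 ∧ (f.1 + f.2) % 2 = s % 2 := by
  have hz : ∀ k ∈ Kh d a (a + n), (fun e => Y (tau s e)) ∈ cellX m k := by
    have h' := h
    simp only [EvH, Set.mem_ofPred_eq, tubeX, Set.mem_iInter] at h'
    exact h'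
  have k1 : ((a, a + d) : P2) ∈ Kh d a (a + n) :=
    mem_Kh.2 ⟨⟨le_rfl, by simp only; omega⟩, Or.inl rfl⟩
  have k2 : ((a + n, a + n + d) : P2) ∈ Kh d a (a + n) :=
    mem_Kh.2 ⟨⟨by simp only; omega, le_rfl⟩, Or.inl rfl⟩
  obtain ⟨u, hu⟩ := exists_hubH (hz _ k1)
  obtain ⟨v, hv⟩ := exists_hubH (hz _ k2)
  have ho := tube h k1 (Kh_conn d a n) hu hv
  have hd := oc_diag (s := s) (T := {w | d * m - 2 * m ≤ w.2 ∧ w.2 ≤ d * m + 3 * m}) (by
    intro w hw
    simp only [tubeR, Set.mem_iUnion] at hw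
    obtain ⟨k, hk, hw⟩ := hw
    have h1 := mem_plusR hw
    rw [mem_Kh] at hk
    have h2 : k.2 * (m : ℤ) = k.1 * m + d * m ∨ k.2 * (m : ℤ) = k.1 * m + d * m + m := by
      rcases hk.2 with h | h
      · left; rw [h]; ring
      · right; rw [h]; ring
    simp only [Fc, Set.mem_ofPred_eq]
    omega) ho
  refine ⟨Fc s u, Fc s v, hd, ?_, ?_, fc_par s u⟩
  · obtain ⟨_, _, _, _, h1, _⟩ := hu
    have h2 := mem_plusR (Or.inl h1.left)
    simp only [Fc]
    have h3 : (a + d) * (m : ℤ) = a * m + d * m := by ring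
    simp only at h2
    omega
  · obtain ⟨_, _, _, _, h1, _⟩ := hv
    have h2 := mem_plusR (Or.inl h1.left)
    simp only [Fc]
    have h3 : (a + n + d) * (m : ℤ) = a * m + n * m + d * m := by ring
    have h4 : (a + n) * (m : ℤ) = a * m + n * m := by ring
    simp only at h2
    omega

theorem evV_path {s : ℤ} {m : ℕ} {d a : ℤ} {n : ℕ} {Y : P2 → Bool} (h : Y ∈ EvV s m d a (a + n)) :
    ∃ f g : P2, DC Y true {w | d * m - m + s ≤ w.1 ∧ w.1 ≤ d * m + 4 * m + s} f g ∧
      f.2 ≤ 2 * (a * m) + d * m + 2 * m ∧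
      2 * (a * m) + 2 * (n * m) + d * m - 2 * m ≤ g.2 ∧ (f.1 + f.2) % 2 = s % 2 := by
  have hz : ∀ k ∈ Kv d a (a + n), (fun e => Y (tau s e)) ∈ cellX m k := by
    have h' := h
    simp only [EvV, Set.mem_ofPred_eq, tubeX, Set.mem_iInter] at h'
    exact h'
  have k1 : ((-a, a + d) : P2) ∈ Kv d a (a + n) :=
    mem_Kv.2 ⟨⟨by simp only; omega, by simp only; omega⟩, Or.inl (by simp only; omega)⟩
  have k2 : ((-(a + n), a + n + d) : P2) ∈ Kv d a (a + n) :=
    mem_Kv.2 ⟨⟨by simp only; omega, by simp only; omega⟩, Or.inl (by simp only; omega)⟩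
  obtain ⟨u, hu⟩ := exists_hubH (hz _ k1)
  obtain ⟨v, hv⟩ := exists_hubH (hz _ k2)
  have ho := tube h k1 (Kv_conn d a n) hu hv
  have hd := oc_diag (s := s) (T := {w | d * m - m + s ≤ w.1 ∧ w.1 ≤ d * m + 4 * m + s}) (by
    intro w hw
    simp only [tubeR, Set.mem_iUnion] at hw
    obtain ⟨k, hk, hw⟩ := hw
    have h1 := mem_plusR hw
    rw [mem_Kv] at hk
    have h2 : k.2 * (m : ℤ) = -(k.1 * m) + d * m ∨ k.2 * (m : ℤ) = -(k.1 * m) + d * m + m := by
      rcases hk.2 with h | h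
      · left; rw [h]; ring
      · right; rw [h]; ring
    simp only [Fc, Set.mem_ofPred_eq]
    omega) ho
  refine ⟨Fc s u, Fc s v, hd, ?_, ?_, fc_par s u⟩
  · obtain ⟨_, _, _, _, h1, _⟩ := hu
    have h2 := mem_plusR (Or.inl h1.left)
    simp only [Fc]
    have h3 : (a + d) * (m : ℤ) = a * m + d * m := by ring
    have h4 : (-a) * (m : ℤ) = -(a * m) := by ring
    simp only at h2
    omega
  · obtain ⟨_, _, _, _, h1, _⟩ := hv
    have h2 := mem_plusR (Or.inl h1.left)
    simp only [Fc]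
    have h3 : (a + n + d) * (m : ℤ) = a * m + n * m + d * m := by ring
    have h4 : (-(a + n)) * (m : ℤ) = -(a * m) - n * m := by ring
    simp only at h2
    omega

/-! ### supports -/



theorem ev_dep_of {m : ℕ} {K : Finset P2} {s : ℤ} {ch : P2 → P2} {T : Finset P2}
    (hT : ∀ k ∈ K, ∀ e : Edge,
      k.1 * m - m ≤ e.1.1 ∧ k.2 * m - m ≤ e.1.2 ∧ (tgt e).1 ≤ k.1 * m + 2 * m ∧
        (tgt e).2 ≤ k.2 * m + 2 * m → ch (tau s e) ∈ T) :
    Dep T {Y : P2 → Bool | (fun e => Y (ch (tau s e))) ∈ tubeX m K} := by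
  intro z z' h
  refine tubeX_dep m K _ _ fun e he => h _ ?_
  unfold tubeE at he
  rw [Finset.mem_biUnion] at he
  obtain ⟨k, hk, he⟩ := he
  refine hT k hk e ?_
  rw [cellE, mem_rectE, mem_rect, mem_rect] at he
  simp only [src] at he
  exact ⟨by omega, by omega, by omega, by omega⟩

/-! ### webs -/

/-- chart of the part to the right of the dislocation: the lower rows are shifted by one -/
def chR (v : P2) : P2 := if 1 ≤ v.2 then v else (v.1 - 1, v.2)

theorem chR_inj : Function.Injective chR := by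
  rintro ⟨a, b⟩ ⟨c, d⟩ h
  simp only [chR] at h
  split_ifs at h with h1 h2 h2 <;> simp only [Prod.mk.injEq] at h ⊢ <;> omega

/-- probability of a tube event pulled back along an injection -/
theorem pull_prob {ch : P2 → P2} (hch : Function.Injective ch) (s : ℤ) (m : ℕ) (K : Finset P2) :
    xpr hf (3 * m) m ^ (2 * K.card) ≤
      (PB fun _ : P2 => hf).real {Y : P2 → Bool | (fun e => Y (ch (tau s e))) ∈ tubeX m K} := by
  have h := PB_map_inj (hch.comp (tau_inj s)) (fun _ : P2 => hf)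
  have hm : Measurable (fun (z : P2 → Bool) (e : Edge) => z ((ch ∘ tau s) e)) :=
    measurable_pi_lambda _ fun k => measurable_pi_apply _
  have h2 := tube_prob hf m K
  unfold nu at h2
  rw [← h, measureReal_def, Measure.map_apply hm (tubeX_dep m K).measurableSet] at h2
  exact h2

/-- charts of the four rectangles -/
def wch : Fin 4 → P2 → P2 := ![id, id, id, chR]

theorem wch_inj (i : Fin 4) : Function.Injective (wch i) := by
  fin_cases i
  · exact Function.injective_id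
  · exact Function.injective_id
  · exact Function.injective_id
  · exact chR_inj

/-- staircases of the four rectangles (top, bottom, left, right) -/
def wK : Fin 4 → Finset P2 := ![Kh 7 (-12) 4, Kh (-8) (-5) 12, Kv (-9) (-4) 13, Kv 6 (-11) 5]

theorem wK_card (i : Fin 4) : (wK i).card ≤ 36 := by
  fin_cases i
  · exact (Kh_card _ _ _).trans (by decide)
  · exact (Kh_card _ _ _).trans (by decide)
  · exact (Kv_card _ _ _).trans (by decide)
  · exact (Kv_card _ _ _).trans (by decide)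

/-- the crossing event of the rectangle `i` on the faces of parity `s` -/
def wev (m : ℕ) (i : Fin 4) (s : Fin 2) : Set (P2 → Bool) :=
  {Y | (fun e => Y (wch i (tau (s : ℕ) e))) ∈ tubeX m (wK i)}

/-- the web of scale `m` -/
def Web (m : ℕ) : Set (P2 → Bool) := ⋂ k ∈ (Finset.univ : Finset (Fin 4 × Fin 2)), wev m k.1 k.2

/-- the square annulus of scale `m` -/
def Ann (m : ℕ) : Finset P2 :=
  (Finset.Icc (-(22 * (m : ℤ))) (22 * m) ×ˢ Finset.Icc (-(22 * (m : ℤ))) (22 * m)).filter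
    fun v => v.1 ≤ -(3 * (m : ℤ)) ∨ 3 * (m : ℤ) ≤ v.1 ∨ v.2 ≤ -(3 * (m : ℤ)) ∨ 3 * (m : ℤ) ≤ v.2

theorem mem_Ann {m : ℕ} {v : P2} : v ∈ Ann m ↔
    ((-(22 * (m : ℤ)) ≤ v.1 ∧ v.1 ≤ 22 * m) ∧ (-(22 * (m : ℤ)) ≤ v.2 ∧ v.2 ≤ 22 * m)) ∧
    (v.1 ≤ -(3 * (m : ℤ)) ∨ 3 * (m : ℤ) ≤ v.1 ∨ v.2 ≤ -(3 * (m : ℤ)) ∨ 3 * (m : ℤ) ≤ v.2) := by
  simp only [Ann, Finset.mem_filter, Finset.mem_product, Finset.mem_Icc]

theorem ann_disj {m m' : ℕ} (hm : 1 ≤ m) (h : 8 * m ≤ m') : Disjoint (Ann m) (Ann m') := by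
  rw [Finset.disjoint_left]
  intro v hv hv'
  rw [mem_Ann] at hv hv'
  omega

theorem wev_inc (m : ℕ) (i : Fin 4) (s : Fin 2) : Inc (wev m i s) := by
  intro z z' h hz
  exact tubeX_inc m (wK i) _ _ (fun e he => h _ he) hz

theorem Kh_mul {d a b : ℤ} {k : P2} (m : ℕ) (hk : k ∈ Kh d a b) :
    a * m ≤ k.1 * m ∧ k.1 * m ≤ b * m ∧
      (k.2 * (m : ℤ) = k.1 * m + d * m ∨ k.2 * (m : ℤ) = k.1 * m + d * m + m) := by
  rw [mem_Kh] at hk
  refine ⟨mul_le_mul_of_nonneg_right hk.1.1 (by positivity),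
    mul_le_mul_of_nonneg_right hk.1.2 (by positivity), ?_⟩
  rcases hk.2 with h | h
  · left; rw [h]; ring
  · right; rw [h]; ring

theorem Kv_mul {d a b : ℤ} {k : P2} (m : ℕ) (hk : k ∈ Kv d a b) :
    a * m ≤ -(k.1 * m) ∧ -(k.1 * m) ≤ b * m ∧
      (k.2 * (m : ℤ) = -(k.1 * m) + d * m ∨ k.2 * (m : ℤ) = -(k.1 * m) + d * m + m) := by
  rw [mem_Kv] at hk
  have h1 := mul_le_mul_of_nonneg_right hk.1.1 (show (0 : ℤ) ≤ m by positivity)
  have h2 := mul_le_mul_of_nonneg_right hk.1.2 (show (0 : ℤ) ≤ m by positivity)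
  rw [neg_mul] at h1 h2
  refine ⟨h1, h2, ?_⟩
  rcases hk.2 with h | h
  · left; rw [h]; ring
  · right; rw [h]; ring

theorem wev_dep {m : ℕ} (hm : 1 ≤ m) (i : Fin 4) (s : Fin 2) : Dep (Ann m) (wev m i s) := by
  have hs : ((s : ℕ) : ℤ) = 0 ∨ ((s : ℕ) : ℤ) = 1 := by omega
  refine ev_dep_of fun k hk e he => ?_
  obtain ⟨⟨x, y⟩, c⟩ := e
  rw [mem_Ann]
  generalize ((s : ℕ) : ℤ) = s' at *
  have key : (tau s' ((x, y), c)).1 = x + y + 1 + s' ∧
      ((tau s' ((x, y), c)).2 = y - x ∧ (tgt ((x, y), c)).1 = x + 1 ∧ (tgt ((x, y), c)).2 = y ∨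
        (tau s' ((x, y), c)).2 = y - x + 1 ∧ (tgt ((x, y), c)).1 = x ∧
          (tgt ((x, y), c)).2 = y + 1) := by
    cases c <;> simp [tau, tgt]
  simp only at he
  obtain ⟨key1, key2⟩ := key
  have hi : i = 0 ∨ i = 1 ∨ i = 2 ∨ i = 3 := by omega
  rcases hi with rfl | rfl | rfl | rfl
  · have h1 := Kh_mul m (show k ∈ Kh 7 (-12) 4 from hk)
    rw [show wch 0 = id from rfl]
    simp only [id]
    omega
  · have h1 := Kh_mul m (show k ∈ Kh (-8) (-5) 12 from hk)
    rw [show wch 1 = id from rfl]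
    simp only [id]
    omega
  · have h1 := Kv_mul m (show k ∈ Kv (-9) (-4) 13 from hk)
    rw [show wch 2 = id from rfl]
    simp only [id]
    omega
  · have h1 := Kv_mul m (show k ∈ Kv 6 (-11) 5 from hk)
    rw [show wch 3 = chR from rfl]
    simp only [chR]
    split_ifs <;> omega

theorem web_dep {m : ℕ} (hm : 1 ≤ m) : Dep (Ann m) (Web m) :=
  Dep.iInter fun _ => Dep.iInter fun _ => wev_dep hm _ _

/-- **Webs have probability bounded below.** -/
theorem web_prob : ∃ c : ℝ, 0 < c ∧ c < 1 ∧ ∀ m : ℕ, 1 ≤ m → c ≤ (PB fun _ : P2 => hf).real (Web m) := by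
  obtain ⟨c, hc, h⟩ := rsw_long 3
  have hc1 : min c (1 / 2) < 1 := lt_of_le_of_lt (min_le_right _ _) (by norm_num)
  have hc0 : 0 < min c (1 / 2) := lt_min hc (by norm_num)
  refine ⟨((min c (1 / 2)) ^ 72) ^ 8, by positivity, ?_, fun m hm => ?_⟩
  · exact pow_lt_one₀ (by positivity) (pow_lt_one₀ hc0.le hc1 (by norm_num)) (by norm_num)
  have h1 := harris_prod (fun _ : P2 => hf) (Finset.univ : Finset (Fin 4 × Fin 2)) (S := Ann m)
    (A := fun k => wev m k.1 k.2) (fun k _ => wev_dep hm _ _) (fun k _ => wev_inc _ _ _)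
  refine le_trans ?_ h1
  have h2 : ∀ k ∈ (Finset.univ : Finset (Fin 4 × Fin 2)),
      (min c (1 / 2)) ^ 72 ≤ (PB fun _ : P2 => hf).real (wev m k.1 k.2) := by
    intro k _
    refine le_trans ?_ (pull_prob (wch_inj k.1) (k.2 : ℕ) m (wK k.1))
    have h3 := h m hm
    push_cast at h3
    refine le_trans ?_ (pow_le_pow_left₀ hc0.le ((min_le_left _ _).trans h3) _)
    refine pow_le_pow_of_le_one hc0.le hc1.le ?_
    have := wK_card k.1
    omega
  have h3 := Finset.prod_le_prod (s := (Finset.univ : Finset (Fin 4 × Fin 2)))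
    (f := fun _ => (min c (1 / 2)) ^ 72) (fun _ _ => by positivity) h2
  rw [Finset.prod_const] at h3
  refine le_trans (le_of_eq ?_) h3
  congr 1

/-- all webs of the scales `8 ^ k * m`, `k < J`, fail -/
def NoWeb (m J : ℕ) : Set (P2 → Bool) := ⋂ k ∈ Finset.range J, (Web (8 ^ k * m))ᶜ

/-- support of `NoWeb` -/
theorem noweb_dep {m J : ℕ} (hm : 1 ≤ m) {T : Finset P2}
    (hT : ∀ k < J, Ann (8 ^ k * m) ⊆ T) : Dep T (NoWeb m J) := by
  refine Dep.iInter fun k => Dep.iInter fun hk => ?_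
  have h1 : 1 ≤ 8 ^ k * m := Nat.one_le_iff_ne_zero.2 (by positivity)
  exact ((web_dep h1).compl).mono (hT k (Finset.mem_range.1 hk))

theorem noweb_prob : ∃ c : ℝ, 0 < c ∧ c < 1 ∧ ∀ m J : ℕ, 1 ≤ m →
    (PB fun _ : P2 => hf).real (NoWeb m J) ≤ c ^ J := by
  obtain ⟨c, hc0, hc1, h⟩ := web_prob
  refine ⟨1 - c, by linarith, by linarith, fun m J hm => ?_⟩
  have hm' : ∀ k : ℕ, 1 ≤ 8 ^ k * m := fun k => Nat.one_le_iff_ne_zero.2 (by positivity)
  have h1 := PB_indep_prod (fun _ : P2 => hf) (Finset.range J) (fun k => Ann (8 ^ k * m)) (by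
    intro i _ j _ hij
    rcases lt_or_gt_of_ne hij with h | h
    · refine ann_disj (hm' i) ?_
      have : 8 ^ (i + 1) ≤ 8 ^ j := Nat.pow_le_pow_right (by norm_num) h
      calc 8 * (8 ^ i * m) = 8 ^ (i + 1) * m := by ring
        _ ≤ 8 ^ j * m := Nat.mul_le_mul_right _ this
    · refine (ann_disj (hm' j) ?_).symm
      have : 8 ^ (j + 1) ≤ 8 ^ i := Nat.pow_le_pow_right (by norm_num) h
      calc 8 * (8 ^ j * m) = 8 ^ (j + 1) * m := by ring
        _ ≤ 8 ^ i * m := Nat.mul_le_mul_right _ this)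
    (fun k => (Web (8 ^ k * m))ᶜ) (fun k _ => (web_dep (hm' k)).compl)
  unfold NoWeb
  rw [h1]
  calc ∏ k ∈ Finset.range J, (PB fun _ : P2 => hf).real (Web (8 ^ k * m))ᶜ
      ≤ ∏ _k ∈ Finset.range J, (1 - c) := by
        refine Finset.prod_le_prod (fun _ _ => measureReal_nonneg) fun k _ => ?_
        rw [measureReal_compl (web_dep (hm' k)).measurableSet]
        have := h _ (hm' k)
        simp only [probReal_univ]
        linarith
    _ = (1 - c) ^ J := by rw [Finset.prod_const, Finset.card_range]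

end Crest.Agent.R158.Dr945
end
end

-- ▼ part R158/Dr3_945
section

/-!
# Row 158, BLOCK DR (helper945), part 3: the dislocated lattice, the leg, colours

Rows of index `j ≥ 1` (upper) and `j ≤ 0` (lower); a tile is `v = (i, j)`.  The lower column `i` is glued to
the upper column `phi i` (`phi i = i` for `i < 0`, `i + 1` for `i ≥ 0`); the upper column `0` starts at the
point `z` between the rows `0` and `1`: its lowest medial edge `leg0 = ((0,0),true)` ends at `z`.

* medial edges: `(v, false)` to the right of the tile `v`; `(v, true)` above the tile `v` for `v.2 ≠ 0`; the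
  edges `((i,0), true)` between the rows `0` and `1` are indexed by the upper column.
* faces: `v = (i,j)` is the face to the upper right of the tile `v` for `j ≠ 0`; the faces `(i,0)` between
  the rows `0` and `1` are indexed by the upper columns (`(i,0)` to the right of `((i,0),true)`); `(-1,0)`
  and `(0,0)` are the two sides of `leg0` (same face `z`).
* splitting `s v = false` joins the faces NE, SW of `v` (pairs W–N, S–E), `true` joins NW, SE (pairs W–S,
  N–E).
* `Leg B s` : the strand of `leg0` through tiles of `B`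
* `exists_col` : the colouring of the faces which changes exactly across the medial edges not in the leg
* `good` : both sides of the leg have colour `true`
* `delta_path` : another strand gives a path of faces of colour `false` through unvisited tiles whose
  splitting joins faces of colour `false`
-/

set_option autoImplicit false

namespace Crest.Agent.R158.Dr945

/-- upper index of the lower column `i` -/
def phi (i : ℤ) : ℤ := if i < 0 then i else i + 1

def eN (v : ℤ × ℤ) : (ℤ × ℤ) × Bool := if v.2 = 0 then ((phi v.1, 0), true) else (v, true)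
def eS (v : ℤ × ℤ) : (ℤ × ℤ) × Bool := ((v.1, v.2 - 1), true)
def eE (v : ℤ × ℤ) : (ℤ × ℤ) × Bool := (v, false)
def eW (v : ℤ × ℤ) : (ℤ × ℤ) × Bool := ((v.1 - 1, v.2), false)

def fNE (v : ℤ × ℤ) : ℤ × ℤ := if v.2 = 0 then (phi v.1, 0) else v
def fNW (v : ℤ × ℤ) : ℤ × ℤ := if v.2 = 0 then (phi v.1 - 1, 0) else (v.1 - 1, v.2)
def fSW (v : ℤ × ℤ) : ℤ × ℤ := (v.1 - 1, v.2 - 1)
def fSE (v : ℤ × ℤ) : ℤ × ℤ := (v.1, v.2 - 1)

/-- the medial edge at `z` -/
def leg0 : (ℤ × ℤ) × Bool := ((0, 0), true)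

/-- the edges `e`, `e'` are paired at the tile `v` by the splitting `s` -/
def Pr (s : ℤ × ℤ → Bool) (v : ℤ × ℤ) (e e' : (ℤ × ℤ) × Bool) : Prop :=
  (s v = false ∧ ((e = eW v ∧ e' = eN v) ∨ (e = eN v ∧ e' = eW v) ∨ (e = eS v ∧ e' = eE v) ∨
    (e = eE v ∧ e' = eS v))) ∨
  (s v = true ∧ ((e = eW v ∧ e' = eS v) ∨ (e = eS v ∧ e' = eW v) ∨ (e = eN v ∧ e' = eE v) ∨
    (e = eE v ∧ e' = eN v)))

theorem Pr.symm {s : ℤ × ℤ → Bool} {v : ℤ × ℤ} {e e' : (ℤ × ℤ) × Bool} (h : Pr s v e e') :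
    Pr s v e' e := by
  unfold Pr at *; tauto

/-- one step of a strand through a tile of `B` -/
def St (B : Set (ℤ × ℤ)) (s : ℤ × ℤ → Bool) (e e' : (ℤ × ℤ) × Bool) : Prop :=
  ∃ v ∈ B, Pr s v e e'

theorem St.symm {B : Set (ℤ × ℤ)} {s : ℤ × ℤ → Bool} {e e' : (ℤ × ℤ) × Bool} (h : St B s e e') :
    St B s e' e := by
  obtain ⟨v, hv, h⟩ := h
  exact ⟨v, hv, h.symm⟩

/-- the leg inside `B` -/
def Leg (B : Set (ℤ × ℤ)) (s : ℤ × ℤ → Bool) : Set ((ℤ × ℤ) × Bool) :=
  {e | Relation.ReflTransGen (St B s) leg0 e}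

theorem leg0_mem (B : Set (ℤ × ℤ)) (s : ℤ × ℤ → Bool) : leg0 ∈ Leg B s := Relation.ReflTransGen.refl

theorem leg_iff {B : Set (ℤ × ℤ)} {s : ℤ × ℤ → Bool} {v : ℤ × ℤ} (hv : v ∈ B)
    {e e' : (ℤ × ℤ) × Bool} (h : Pr s v e e') : e ∈ Leg B s ↔ e' ∈ Leg B s :=
  ⟨fun h1 => Relation.ReflTransGen.tail h1 ⟨v, hv, h⟩,
    fun h1 => Relation.ReflTransGen.tail h1 ⟨v, hv, h.symm⟩⟩

/-- `G` is a union of strands at the tiles of `B` -/
def Cl (B : Set (ℤ × ℤ)) (s : ℤ × ℤ → Bool) (G : Set ((ℤ × ℤ) × Bool)) : Prop :=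
  ∀ v ∈ B, ∀ e e', Pr s v e e' → (e ∈ G ↔ e' ∈ G)

theorem leg_cl (B : Set (ℤ × ℤ)) (s : ℤ × ℤ → Bool) : Cl B s (Leg B s) :=
  fun _ hv _ _ h => leg_iff hv h

/-- colouring which changes exactly across the edges not in `G` -/
structure Col (G : Set ((ℤ × ℤ) × Bool)) (B : Set (ℤ × ℤ)) (c : ℤ × ℤ → Bool) : Prop where
  z0 : c (0, 0) = true
  z1 : c (-1, 0) = true
  N : ∀ v ∈ B, (c (fNW v) = c (fNE v) ↔ eN v ∈ G)
  S : ∀ v ∈ B, (c (fSW v) = c (fSE v) ↔ eS v ∈ G)
  E : ∀ v ∈ B, (c (fNE v) = c (fSE v) ↔ eE v ∈ G)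
  W : ∀ v ∈ B, (c (fNW v) = c (fSW v) ↔ eW v ∈ G)

/-- the box of radius `R` -/
def Bx (R : ℤ) : Set (ℤ × ℤ) := {v | (-R ≤ v.1 ∧ v.1 ≤ R) ∧ (-R ≤ v.2 ∧ v.2 ≤ R)}

/-- primitive on `ℤ` -/
theorem exists_prim (d : ℤ → Bool) (b : Bool) :
    ∃ r : ℤ → Bool, r 0 = b ∧ ∀ i, r i = xor (r (i - 1)) (d i) := by
  let u : ℕ → Bool := fun n => Nat.rec b (fun k x => xor x (d (k + 1))) n
  let w : ℕ → Bool := fun n => Nat.rec (xor b (d 0)) (fun k x => xor x (d (-(k + 1)))) n
  refine ⟨fun i => if 0 ≤ i then u i.toNat else w (-i - 1).toNat, by simp [u], fun i => ?_⟩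
  rcases lt_trichotomy i 0 with h | rfl | h
  · have h1 : ¬ (0 ≤ i) := by omega
    have h2 : ¬ (0 ≤ i - 1) := by omega
    simp only [h1, h2, if_false]
    obtain ⟨k, hk⟩ : ∃ k : ℕ, (-i - 1).toNat = k := ⟨_, rfl⟩
    have e1 : (-(i - 1) - 1).toNat = k + 1 := by omega
    have e2 : i = -((k : ℤ) + 1) := by omega
    rw [e1, hk]
    show w k = xor (xor (w k) (d (-(k + 1)))) (d i)
    rw [e2]
    cases w k <;> cases d (-((k : ℤ) + 1)) <;> rfl
  · simp only [le_refl, if_true, Int.toNat_zero]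
    have h2 : ¬ ((0 : ℤ) ≤ 0 - 1) := by omega
    simp only [h2, if_false]
    show b = xor (xor b (d 0)) (d 0)
    cases b <;> cases d 0 <;> rfl
  · have h1 : 0 ≤ i := by omega
    have h2 : 0 ≤ i - 1 := by omega
    simp only [h1, h2, if_true]
    obtain ⟨k, hk⟩ : ∃ k : ℕ, (i - 1).toNat = k := ⟨_, rfl⟩
    have e1 : i.toNat = k + 1 := by omega
    have e2 : i = (k : ℤ) + 1 := by omega
    rw [e1, hk]
    show xor (u k) (d (k + 1)) = xor (u k) (d i)
    rw [e2]

open Classical in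
/-- **The colouring exists.** -/
theorem exists_col {R : ℤ} {s : ℤ × ℤ → Bool} {G : Set ((ℤ × ℤ) × Bool)} (hG : Cl (Bx R) s G)
    (h0 : leg0 ∈ G) : ∃ c, Col G (Bx R) c := by
  let h : (ℤ × ℤ) × Bool → Bool := fun e => decide (e ∉ G)
  obtain ⟨r, hr0, hr⟩ := exists_prim (fun i => h ((i, 0), true)) true
  have hl : h ((0, 0), true) = false := by simp [h]; exact h0
  let U : ℤ → ℕ → Bool := fun i n => Nat.rec (r i) (fun k x => xor x (h ((i, k + 1), false))) n
  let L : ℤ → ℕ → Bool := fun i n =>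
    Nat.rec (xor (r (phi i)) (h ((i, 0), false))) (fun k x => xor x (h ((i, -(k + 1)), false))) n
  let c : ℤ × ℤ → Bool := fun f => if 0 ≤ f.2 then U f.1 f.2.toNat else L f.1 (-f.2 - 1).toNat
  have c0 : ∀ i, c (i, 0) = r i := fun i => by simp [c, U]
  -- relation across horizontal edges
  have hE : ∀ v : ℤ × ℤ, c (fNE v) = xor (c (fSE v)) (h (eE v)) := by
    rintro ⟨i, j⟩
    rcases lt_trichotomy j 0 with hj | rfl | hj
    · have h1 : ¬ (0 ≤ j) := by omega
      have h2 : ¬ (0 ≤ j - 1) := by omega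
      have h3 : j ≠ 0 := by omega
      simp only [fNE, fSE, eE, h3, if_false]
      show (if 0 ≤ j then U i j.toNat else L i (-j - 1).toNat) =
        xor (if 0 ≤ j - 1 then U i (j - 1).toNat else L i (-(j - 1) - 1).toNat) (h ((i, j), false))
      rw [if_neg h1, if_neg h2]
      obtain ⟨k, hk⟩ : ∃ k : ℕ, (-j - 1).toNat = k := ⟨_, rfl⟩
      have e1 : (-(j - 1) - 1).toNat = k + 1 := by omega
      have e2 : j = -((k : ℤ) + 1) := by omega
      rw [e1, hk]
      show L i k = xor (xor (L i k) (h ((i, -(k + 1)), false))) (h ((i, j), false))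
      rw [e2]
      cases L i k <;> cases h ((i, -((k : ℤ) + 1)), false) <;> rfl
    · simp only [fNE, fSE, eE, if_true]
      show c (phi i, 0) = xor (xor (r (phi i)) (h ((i, 0), false))) (h ((i, 0), false))
      rw [c0]
      cases r (phi i) <;> cases h ((i, 0), false) <;> rfl
    · have h1 : 0 ≤ j := by omega
      have h2 : 0 ≤ j - 1 := by omega
      have h3 : j ≠ 0 := by omega
      simp only [fNE, fSE, eE, h3, if_false]
      show (if 0 ≤ j then U i j.toNat else L i (-j - 1).toNat) =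
        xor (if 0 ≤ j - 1 then U i (j - 1).toNat else L i (-(j - 1) - 1).toNat) (h ((i, j), false))
      rw [if_pos h1, if_pos h2]
      obtain ⟨k, hk⟩ : ∃ k : ℕ, (j - 1).toNat = k := ⟨_, rfl⟩
      have e1 : j.toNat = k + 1 := by omega
      have e2 : j = (k : ℤ) + 1 := by omega
      rw [e1, hk]
      show xor (U i k) (h ((i, k + 1), false)) = xor (U i k) (h ((i, j), false))
      rw [e2]
  have hW : ∀ v : ℤ × ℤ, c (fNW v) = xor (c (fSW v)) (h (eW v)) := by
    rintro ⟨i, j⟩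
    have h1 := hE (i - 1, j)
    by_cases hj : j = 0
    · subst hj
      simp only [fNE, fSE, eE, if_true] at h1
      simp only [fNW, fSW, eW, if_true]
      rw [← h1, c0, c0]
      by_cases hi : i = 0
      · subst hi
        have := hr 0
        simp only [phi]
        norm_num
        rw [hl] at this
        simpa using this
      · have : phi i - 1 = phi (i - 1) := by
          simp only [phi]; split_ifs <;> omega
        rw [this]
    · simp only [fNE, fSE, eE, hj, if_false] at h1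
      simp only [fNW, fSW, eW, hj, if_false]
      exact h1
  -- parity at the tiles of the box
  have hp : ∀ v ∈ Bx R, xor (xor (h (eN v)) (h (eS v))) (xor (h (eE v)) (h (eW v))) = false := by
    intro v hv
    have key : ∀ e e', Pr s v e e' → h e = h e' := by
      intro e e' hee
      have := hG v hv e e' hee
      simp only [h, this]
    cases hs : s v
    · have k1 := key (eW v) (eN v) (Or.inl ⟨hs, Or.inl ⟨rfl, rfl⟩⟩)
      have k2 := key (eS v) (eE v) (Or.inl ⟨hs, Or.inr (Or.inr (Or.inl ⟨rfl, rfl⟩))⟩)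
      rw [k1, k2]
      cases h (eN v) <;> cases h (eE v) <;> rfl
    · have k1 := key (eW v) (eS v) (Or.inr ⟨hs, Or.inl ⟨rfl, rfl⟩⟩)
      have k2 := key (eN v) (eE v) (Or.inr ⟨hs, Or.inr (Or.inr (Or.inl ⟨rfl, rfl⟩))⟩)
      rw [k1, k2]
      cases h (eS v) <;> cases h (eE v) <;> rfl
  -- north relation from south relation and conversely
  have ns : ∀ v ∈ Bx R, (c (fSE v) = xor (c (fSW v)) (h (eS v)) ↔
      c (fNE v) = xor (c (fNW v)) (h (eN v))) := by
    intro v hv
    have h1 := hE v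
    have h2 := hW v
    have h3 := hp v hv
    rw [h1, h2]
    revert h3
    cases c (fSE v) <;> cases c (fSW v) <;> cases h (eS v) <;> cases h (eN v) <;>
      cases h (eE v) <;> cases h (eW v) <;> decide
  have up : ∀ i j : ℤ, j ≠ 0 → fNE (i, j) = (i, j) ∧ fNW (i, j) = (i - 1, j) ∧
      eN (i, j) = ((i, j), true) := by
    intro i j hj
    simp [fNE, fNW, eN, hj]
  have hrow0 : ∀ i : ℤ, c (i, 0) = xor (c (i - 1, 0)) (h ((i, 0), true)) := by
    intro i
    rw [c0, c0]
    exact hr i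
  -- north relation in the upper rows
  have hNup : ∀ n : ℕ, ∀ i : ℤ, -R ≤ i → i ≤ R → (n : ℤ) ≤ R →
      c (i, (n : ℤ)) = xor (c (i - 1, (n : ℤ))) (h ((i, (n : ℤ)), true)) := by
    intro n
    induction n with
    | zero =>
      intro i _ _ _
      exact_mod_cast hrow0 i
    | succ n ih =>
      intro i h1 h2 h3
      push_cast at h3 ⊢
      have hv : ((i, (n : ℤ) + 1) : ℤ × ℤ) ∈ Bx R := ⟨⟨h1, h2⟩, by simp only; omega, h3⟩
      have k := (ns _ hv).1 (by
        have := ih i h1 h2 (by omega)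
        simp only [fSE, fSW, eS, add_sub_cancel_right]
        exact this)
      obtain ⟨u1, u2, u3⟩ := up i ((n : ℤ) + 1) (by omega)
      rw [u1, u2, u3] at k
      exact k
  have hN : ∀ v ∈ Bx R, c (fNE v) = xor (c (fNW v)) (h (eN v)) := by
    have low : ∀ n : ℕ, ∀ i : ℤ, -R ≤ i → i ≤ R → -R ≤ -(n : ℤ) →
        c (fNE (i, -(n : ℤ))) = xor (c (fNW (i, -(n : ℤ)))) (h (eN (i, -(n : ℤ)))) := by
      intro n
      induction n with
      | zero =>
        intro i _ _ _
        simp only [Nat.cast_zero, neg_zero, fNE, fNW, eN, if_true]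
        exact hrow0 (phi i)
      | succ n ih =>
        intro i h1 h2 h3
        have hv : ((i, -(n : ℤ)) : ℤ × ℤ) ∈ Bx R :=
          ⟨⟨h1, h2⟩, by simp only; push_cast at h3; omega, by simp only; push_cast at h3; omega⟩
        have k := (ns _ hv).2 (ih i h1 h2 (by push_cast at h3; omega))
        obtain ⟨u1, u2, u3⟩ := up i (-((n + 1 : ℕ) : ℤ)) (by push_cast; omega)
        rw [u1, u2, u3]
        simp only [fSE, fSW, eS] at k
        have e : -(n : ℤ) - 1 = -((n + 1 : ℕ) : ℤ) := by push_cast; ring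
        rw [e] at k
        exact k
    rintro ⟨i, j⟩ hv
    obtain ⟨⟨h1, h2⟩, h3, h4⟩ := hv
    simp only at h1 h2 h3 h4
    rcases le_or_gt j 0 with hj | hj
    · obtain ⟨n, hn⟩ : ∃ n : ℕ, j = -(n : ℤ) := ⟨(-j).toNat, by omega⟩
      subst hn
      exact low n i h1 h2 h3
    · obtain ⟨n, hn⟩ : ∃ n : ℕ, j = (n : ℤ) := ⟨j.toNat, by omega⟩
      subst hn
      obtain ⟨u1, u2, u3⟩ := up i (n : ℤ) (by omega)
      rw [u1, u2, u3]
      exact hNup n i h1 h2 h4
  have hS : ∀ v ∈ Bx R, c (fSE v) = xor (c (fSW v)) (h (eS v)) := fun v hv => (ns v hv).2 (hN v hv)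
  have conv : ∀ (a b : Bool) (e : (ℤ × ℤ) × Bool), a = xor b (h e) → ((b = a) ↔ e ∈ G) := by
    intro a b e hab
    by_cases he : e ∈ G
    · have : h e = false := by simp [h, he]
      rw [this] at hab
      simp [hab, he]
    · have : h e = true := by simp [h, he]
      rw [this] at hab
      simp [hab, he]
  refine ⟨c, ⟨?_, ?_, fun v hv => conv _ _ _ (hN v hv), fun v hv => conv _ _ _ (hS v hv),
    fun v hv => ?_, fun v hv => ?_⟩⟩
  · rw [c0, hr0]
  · rw [c0]
    have := hr 0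
    rw [hl, hr0] at this
    simpa using this.symm
  · have := conv _ _ _ (hE v)
    rw [eq_comm]
    exact this
  · have := conv _ _ _ (hW v)
    rw [eq_comm]
    exact this

/-! ### sides -/

/-- left / lower side of a medial edge -/
def sd1 (e : (ℤ × ℤ) × Bool) : ℤ × ℤ := if e.2 then (e.1.1 - 1, e.1.2) else (e.1.1, e.1.2 - 1)

/-- right / upper side of a medial edge -/
def sd2 (e : (ℤ × ℤ) × Bool) : ℤ × ℤ :=
  if e.2 then e.1 else (if e.1.2 = 0 then (phi e.1.1, 0) else e.1)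

/-- the side of colour `false` of an edge not in the leg -/
def zs (c : ℤ × ℤ → Bool) (e : (ℤ × ℤ) × Bool) : ℤ × ℤ := if c (sd1 e) = false then sd1 e else sd2 e

/-- both sides have colour `true` -/
def Good (c : ℤ × ℤ → Bool) (e : (ℤ × ℤ) × Bool) : Prop := c (sd1 e) = true ∧ c (sd2 e) = true

theorem sdN (v : ℤ × ℤ) : sd1 (eN v) = fNW v ∧ sd2 (eN v) = fNE v := by
  by_cases h : v.2 = 0 <;> simp [sd1, sd2, eN, fNW, fNE, h]

theorem sdS (v : ℤ × ℤ) : sd1 (eS v) = fSW v ∧ sd2 (eS v) = fSE v := by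
  simp [sd1, sd2, eS, fSW, fSE]

theorem sdE (v : ℤ × ℤ) : sd1 (eE v) = fSE v ∧ sd2 (eE v) = fNE v := by
  by_cases h : v.2 = 0 <;> simp [sd1, sd2, eE, fSE, fNE, h]

section Colour

variable {G : Set ((ℤ × ℤ) × Bool)} {B : Set (ℤ × ℤ)} {c : ℤ × ℤ → Bool}

theorem sdW (hc : Col G B c) (v : ℤ × ℤ) : sd1 (eW v) = fSW v ∧
    (sd2 (eW v) = fNW v ∨ (c (sd2 (eW v)) = true ∧ c (fNW v) = true)) := by
  refine ⟨by simp [sd1, eW, fSW], ?_⟩
  obtain ⟨i, j⟩ := v
  by_cases h : j = 0
  · subst h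
    by_cases hi : i = 0
    · subst hi
      right
      simp only [sd2, eW, fNW, phi]
      norm_num
      exact ⟨hc.z1, hc.z0⟩
    · left
      simp only [sd2, eW, fNW, phi, if_true, Bool.false_eq_true, if_false, Prod.mk.injEq, and_true]
      split_ifs <;> omega
  · left
    simp [sd2, eW, fNW, h]

theorem goodN (v : ℤ × ℤ) : Good c (eN v) ↔ c (fNW v) = true ∧ c (fNE v) = true := by
  unfold Good; rw [(sdN v).1, (sdN v).2]
theorem goodS (v : ℤ × ℤ) : Good c (eS v) ↔ c (fSW v) = true ∧ c (fSE v) = true := by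
  unfold Good; rw [(sdS v).1, (sdS v).2]
theorem goodE (v : ℤ × ℤ) : Good c (eE v) ↔ c (fSE v) = true ∧ c (fNE v) = true := by
  unfold Good; rw [(sdE v).1, (sdE v).2]
theorem goodW (hc : Col G B c) (v : ℤ × ℤ) : Good c (eW v) ↔ c (fSW v) = true ∧ c (fNW v) = true := by
  unfold Good
  rw [(sdW hc v).1]
  rcases (sdW hc v).2 with h | ⟨h1, h2⟩
  · rw [h]
  · rw [h1, h2]

/-- both sides of the leg have colour `true` -/
theorem good {s : ℤ × ℤ → Bool} (hc : Col (Leg B s) B c) {e : (ℤ × ℤ) × Bool}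
    (he : e ∈ Leg B s) : Good c e := by
  have h0 := he
  unfold Leg at h0
  simp only [Set.mem_ofPred_eq] at h0
  clear he
  induction h0 with
  | refl => exact ⟨hc.z1, hc.z0⟩
  | @tail e e' h1 h2 ih =>
    obtain ⟨v, hv, hp⟩ := h2
    have hG : e ∈ Leg B s := h1
    have hG' : e' ∈ Leg B s := (leg_iff hv hp).1 hG
    rcases hp with ⟨_, ⟨rfl, rfl⟩ | ⟨rfl, rfl⟩ | ⟨rfl, rfl⟩ | ⟨rfl, rfl⟩⟩ |
      ⟨_, ⟨rfl, rfl⟩ | ⟨rfl, rfl⟩ | ⟨rfl, rfl⟩ | ⟨rfl, rfl⟩⟩
    · have k := (hc.N v hv).2 hG'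
      rw [goodW hc] at ih
      rw [goodN]
      exact ⟨ih.2, k ▸ ih.2⟩
    · have k := (hc.W v hv).2 hG'
      rw [goodN] at ih
      rw [goodW hc]
      exact ⟨k ▸ ih.1, ih.1⟩
    · have k := (hc.E v hv).2 hG'
      rw [goodS] at ih
      rw [goodE]
      exact ⟨ih.2, k.trans ih.2⟩
    · have k := (hc.S v hv).2 hG'
      rw [goodE] at ih
      rw [goodS]
      exact ⟨k.trans ih.1, ih.1⟩
    · have k := (hc.S v hv).2 hG'
      rw [goodW hc] at ih
      rw [goodS]
      exact ⟨ih.1, k ▸ ih.1⟩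
    · have k := (hc.W v hv).2 hG'
      rw [goodS] at ih
      rw [goodW hc]
      exact ⟨ih.1, k.trans ih.1⟩
    · have k := (hc.E v hv).2 hG'
      rw [goodN] at ih
      rw [goodE]
      exact ⟨k ▸ ih.2, ih.2⟩
    · have k := (hc.N v hv).2 hG'
      rw [goodE] at ih
      rw [goodN]
      exact ⟨k.trans ih.2, ih.2⟩

/-- diagonal neighbours across the tile `v` -/
def Dv (v f f' : ℤ × ℤ) : Prop :=
  (f = fNE v ∧ f' = fSW v) ∨ (f = fSW v ∧ f' = fNE v) ∨ (f = fNW v ∧ f' = fSE v) ∨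
    (f = fSE v ∧ f' = fNW v)

/-- the tile `v` is visited by `G` -/
def Vis (G : Set ((ℤ × ℤ) × Bool)) (v : ℤ × ℤ) : Prop := eN v ∈ G ∨ eS v ∈ G ∨ eE v ∈ G ∨ eW v ∈ G

theorem zsN (v : ℤ × ℤ) (hv : c (fNW v) ≠ c (fNE v)) :
    (c (fNW v) = false → zs c (eN v) = fNW v) ∧ (c (fNE v) = false → zs c (eN v) = fNE v) := by
  unfold zs
  rw [(sdN v).1, (sdN v).2]
  constructor
  · intro h; rw [if_pos h]
  · intro h
    rw [h] at hv
    rw [if_neg hv]

theorem zsS (v : ℤ × ℤ) (hv : c (fSW v) ≠ c (fSE v)) :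
    (c (fSW v) = false → zs c (eS v) = fSW v) ∧ (c (fSE v) = false → zs c (eS v) = fSE v) := by
  unfold zs
  rw [(sdS v).1, (sdS v).2]
  constructor
  · intro h; rw [if_pos h]
  · intro h
    rw [h] at hv
    rw [if_neg hv]

theorem zsE (v : ℤ × ℤ) (hv : c (fNE v) ≠ c (fSE v)) :
    (c (fSE v) = false → zs c (eE v) = fSE v) ∧ (c (fNE v) = false → zs c (eE v) = fNE v) := by
  unfold zs
  rw [(sdE v).1, (sdE v).2]
  constructor
  · intro h; rw [if_pos h]
  · intro h
    rw [h] at hv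
    rw [if_neg hv.symm]

theorem zsW (hc : Col G B c) (v : ℤ × ℤ) (hv : c (fNW v) ≠ c (fSW v)) :
    (c (fSW v) = false → zs c (eW v) = fSW v) ∧ (c (fNW v) = false → zs c (eW v) = fNW v) := by
  unfold zs
  rw [(sdW hc v).1]
  constructor
  · intro h; rw [if_pos h]
  · intro h
    rw [h] at hv
    rw [if_neg hv.symm]
    rcases (sdW hc v).2 with h1 | ⟨_, h2⟩
    · exact h1
    · rw [h] at h2; exact absurd h2 (by decide)

/-- one step of another strand: its side of colour `false` does not move, or moves across an unvisited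
tile whose splitting joins faces of colour `false` -/
theorem delta_step {s : ℤ × ℤ → Bool} (hc : Col (Leg B s) B c) {v : ℤ × ℤ} (hv : v ∈ B)
    {e e' : (ℤ × ℤ) × Bool} (hp : Pr s v e e') (he : e ∉ Leg B s) :
    zs c e = zs c e' ∨
      (Dv v (zs c e) (zs c e') ∧ ¬ Vis (Leg B s) v ∧ xor (s v) (c (fNE v)) = false) := by
  have he' : e' ∉ Leg B s := fun h => he ((leg_iff hv hp).2 h)
  -- if a face around `v` has colour `false` then the edges at it are not in the leg
  have hN : eN v ∈ Leg B s → c (fNW v) = true ∧ c (fNE v) = true := fun h => (goodN v).1 (good hc h)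
  have hS : eS v ∈ Leg B s → c (fSW v) = true ∧ c (fSE v) = true := fun h => (goodS v).1 (good hc h)
  have hE : eE v ∈ Leg B s → c (fSE v) = true ∧ c (fNE v) = true := fun h => (goodE v).1 (good hc h)
  have hW : eW v ∈ Leg B s → c (fSW v) = true ∧ c (fNW v) = true :=
    fun h => (goodW hc v).1 (good hc h)
  have kN := hc.N v hv
  have kS := hc.S v hv
  have kE := hc.E v hv
  have kW := hc.W v hv
  have zN := zsN (c := c) v
  have zS := zsS (c := c) v
  have zE := zsE (c := c) v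
  have zW := zsW hc v
  unfold Vis Dv
  rcases hp with ⟨hs, ⟨rfl, rfl⟩ | ⟨rfl, rfl⟩ | ⟨rfl, rfl⟩ | ⟨rfl, rfl⟩⟩ |
      ⟨hs, ⟨rfl, rfl⟩ | ⟨rfl, rfl⟩ | ⟨rfl, rfl⟩ | ⟨rfl, rfl⟩⟩ <;>
    rw [hs] <;> cases h1 : c (fNE v) <;> cases h2 : c (fNW v) <;> cases h3 : c (fSE v) <;>
      cases h4 : c (fSW v) <;>
      simp_all

/-- steps of faces across tiles with `X v = false` -/
def DX (X : ℤ × ℤ → Bool) (f f' : ℤ × ℤ) : Prop := ∃ v, Dv v f f' ∧ X v = false

/-- **Another strand gives a `false`-path of faces.** -/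
theorem delta_path {s X : ℤ × ℤ → Bool} (hc : Col (Leg B s) B c)
    (hX : ∀ v ∈ B, ¬ Vis (Leg B s) v → X v = xor (s v) (c (fNE v)))
    {e e' : (ℤ × ℤ) × Bool} (h : Relation.ReflTransGen (St B s) e e') (he : e ∉ Leg B s) :
    e' ∉ Leg B s ∧ Relation.ReflTransGen (DX X) (zs c e) (zs c e') := by
  induction h with
  | refl => exact ⟨he, .refl⟩
  | @tail b d _ h2 ih =>
    obtain ⟨v, hv, hp⟩ := h2
    refine ⟨fun h => ih.1 ((leg_iff hv hp).2 h), ?_⟩
    rcases delta_step hc hv hp ih.1 with h3 | ⟨h3, h4, h5⟩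
    · rw [← h3]; exact ih.2
    · exact ih.2.tail ⟨v, h3, by rw [hX v hv h4]; exact h5⟩

end Colour

end Crest.Agent.R158.Dr945
end

-- ▼ part R158/Dr4_945
section

/-!
# Row 158, BLOCK DR (helper945), part 4: a `false`-path of the dislocated lattice cannot cross a web

`no_delta` : if `X ∈ Web m` then no path of faces across tiles with `X = false` goes from the box of
radius `3 m` around `z` to the outside of the box of radius `12 m`.
-/

set_option autoImplicit false

namespace Crest.Agent.R158.Dr945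

open Crest.Agent.R161.Geo729 Crest.Agent.R161.Topo374 Crest.Agent.R161.Dual374
open Crest.Agent.R161.Tas682
open Crest.Agent.R158.Rs689

/-! ### sequences -/

theorem seq_of {α : Type*} {r : α → α → Prop} {a b : α} (h : Relation.ReflTransGen r a b) :
    ∃ (n : ℕ) (p : ℕ → α), p 0 = a ∧ p n = b ∧ ∀ k < n, r (p k) (p (k + 1)) := by
  induction h with
  | refl => exact ⟨0, fun _ => a, rfl, rfl, fun k hk => absurd hk (by omega)⟩
  | @tail b c _ h2 ih =>
    obtain ⟨n, p, h0, hn, hp⟩ := ih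
    refine ⟨n + 1, fun k => if k ≤ n then p k else c, ?_, ?_, ?_⟩
    · simp [h0]
    · simp
    · intro k hk
      by_cases hkn : k < n
      · have h1 : k ≤ n := by omega
        have h3 : k + 1 ≤ n := by omega
        simp only [h1, h3, if_true]
        exact hp k hkn
      · have h1 : k = n := by omega
        subst h1
        simp only [le_refl, if_true]
        have h3 : ¬ (k + 1 ≤ k) := by omega
        simp only [h3, if_false]
        rw [hn]
        exact h2

/-- a segment of a sequence as a diagonal connection -/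
theorem dc_seg {Y : P2 → Bool} {b : Bool} {S : Set P2} {q : ℕ → P2} {i j : ℕ} (hij : i ≤ j)
    (hS : ∀ k, i ≤ k → k ≤ j → q k ∈ S) (hq : ∀ k, i ≤ k → k < j → DSt Y b (q k) (q (k + 1))) :
    DC Y b S (q i) (q j) := by
  refine ⟨hS i le_rfl hij, ?_⟩
  obtain ⟨n, rfl⟩ := Nat.exists_eq_add_of_le hij
  clear hij
  induction n with
  | zero => exact .refl
  | succ n ih =>
    refine (ih (fun k h1 h2 => hS k h1 (by omega)) (fun k h1 h2 => hq k h1 (by omega))).tail
      ⟨?_, hS _ (by omega) (by omega), hS _ (by omega) (by omega)⟩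
    exact hq (i + n) (by omega) (by omega)

theorem DC.symm {Y : P2 → Bool} {b : Bool} {S : Set P2} {f g : P2} (h : DC Y b S f g) :
    DC Y b S g f := by
  have hr := h.right
  obtain ⟨hf, h⟩ := h
  refine ⟨hr, ?_⟩
  induction h with
  | refl => exact .refl
  | @tail u v h1 h2 ih =>
    exact Relation.ReflTransGen.head ⟨h2.1.symm, h2.2.2, h2.2.1⟩
      (ih (DC.right (Y := Y) (b := b) ⟨hf, h1⟩))

/-- last index before `n` with `In`, first index with `Out` -/
theorem window {In Out : ℕ → Prop} {n : ℕ} (hn : Out n) (h0 : In 0) :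
    ∃ j ≤ n, Out j ∧ (∀ k < j, ¬ Out k) ∧ (Out 0 ∨ ∃ i < j, In i ∧ ∀ k, i < k → k < j → ¬ In k) := by
  classical
  have hex : ∃ j, Out j := ⟨n, hn⟩
  refine ⟨Nat.find hex, Nat.find_min' hex hn, Nat.find_spec hex, fun k hk => Nat.find_min hex hk, ?_⟩
  rcases Nat.eq_zero_or_pos (Nat.find hex) with h | h
  · left
    have := Nat.find_spec hex
    rwa [h] at this
  · right
    obtain ⟨i, hi, hmax⟩ : ∃ i, (i < Nat.find hex ∧ In i) ∧ ∀ k, (k < Nat.find hex ∧ In k) → k ≤ i := by
      have hfin : Set.Finite {k | k < Nat.find hex ∧ In k} :=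
        (Set.finite_lt_nat (Nat.find hex)).subset fun k hk => hk.1
      obtain ⟨i, hi, hmax⟩ := hfin.toFinset.exists_max_image id
        ⟨0, by rw [Set.Finite.mem_toFinset]; exact ⟨h, h0⟩⟩
      rw [Set.Finite.mem_toFinset] at hi
      refine ⟨i, hi, fun k hk => ?_⟩
      exact hmax k (by rw [Set.Finite.mem_toFinset]; exact hk)
    refine ⟨i, hi.1, hi.2, fun k h1 h2 h3 => ?_⟩
    have := hmax k ⟨h2, h3⟩
    omega

/-! ### positions and charts -/

/-- upper position of a face -/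
def xu (f : P2) : ℤ := if 0 ≤ f.2 then f.1 else phi f.1

theorem dx_step {X : P2 → Bool} {f f' : P2} (h : DX X f f') :
    (f'.2 = f.2 + 1 ∨ f.2 = f'.2 + 1) ∧ (xu f - 2 ≤ xu f' ∧ xu f' ≤ xu f + 2) := by
  obtain ⟨⟨i, j⟩, h, _⟩ := h
  unfold Dv fNE fNW fSW fSE at h
  simp only [xu, phi]
  by_cases hj : j = 0
  · subst hj
    simp only [if_true, phi] at h
    rcases h with ⟨rfl, rfl⟩ | ⟨rfl, rfl⟩ | ⟨rfl, rfl⟩ | ⟨rfl, rfl⟩ <;>
      simp only <;> split_ifs <;> omega
  · simp only [hj, if_false] at h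
    rcases h with ⟨rfl, rfl⟩ | ⟨rfl, rfl⟩ | ⟨rfl, rfl⟩ | ⟨rfl, rfl⟩ <;>
      simp only <;> split_ifs <;> omega

theorem step_id {X : P2 → Bool} {f f' : P2} (h : DX X f f')
    (hc : (xu f ≤ -1 ∧ xu f' ≤ -1) ∨ (1 ≤ f.2 ∧ 1 ≤ f'.2) ∨ (f.2 ≤ -1 ∧ f'.2 ≤ -1)) :
    DSt X false f f' := by
  obtain ⟨⟨i, j⟩, h, hX⟩ := h
  have key : Dg f f' ∧ mid f f' = (i, j) := by
    unfold Dv fNE fNW fSW fSE at h
    simp only [xu, phi] at hc
    simp only [Dg, mid, Prod.mk.injEq]
    by_cases hj : j = 0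
    · subst hj
      simp only [if_true, phi] at h
      rcases h with ⟨rfl, rfl⟩ | ⟨rfl, rfl⟩ | ⟨rfl, rfl⟩ | ⟨rfl, rfl⟩ <;>
        simp only at hc ⊢ <;> split_ifs at * <;> omega
    · simp only [hj, if_false] at h
      rcases h with ⟨rfl, rfl⟩ | ⟨rfl, rfl⟩ | ⟨rfl, rfl⟩ | ⟨rfl, rfl⟩ <;>
        simp only at hc ⊢ <;> split_ifs at * <;> omega
  exact ⟨key.1, by rw [key.2]; exact hX⟩

theorem step_R {X : P2 → Bool} {f f' : P2} (h : DX X f f') (h1 : 1 ≤ xu f) (h2 : 1 ≤ xu f') :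
    DSt (fun v => X (chR v)) false (xu f, f.2) (xu f', f'.2) := by
  obtain ⟨⟨i, j⟩, h, hX⟩ := h
  have key : Dg (xu f, f.2) (xu f', f'.2) ∧ chR (mid (xu f, f.2) (xu f', f'.2)) = (i, j) := by
    unfold Dv fNE fNW fSW fSE at h
    simp only [xu, phi] at h1 h2
    simp only [Dg, mid, xu, phi, chR]
    by_cases hj : j = 0
    · subst hj
      simp only [if_true, phi] at h
      rcases h with ⟨rfl, rfl⟩ | ⟨rfl, rfl⟩ | ⟨rfl, rfl⟩ | ⟨rfl, rfl⟩ <;>
        simp only at h1 h2 ⊢ <;> split_ifs at * <;> simp only [Prod.mk.injEq] <;> omega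
    · simp only [hj, if_false] at h
      rcases h with ⟨rfl, rfl⟩ | ⟨rfl, rfl⟩ | ⟨rfl, rfl⟩ | ⟨rfl, rfl⟩ <;>
        simp only at h1 h2 ⊢ <;> split_ifs at * <;> simp only [Prod.mk.injEq] <;> omega
  refine ⟨key.1, ?_⟩
  show X (chR (mid _ _)) = false
  rw [key.2]
  exact hX

theorem xu_fst (f : P2) : f.1 = xu f ∨ (f.1 = xu f - 1 ∧ f.2 < 0) := by
  simp only [xu, phi]
  split_ifs <;> omega

/-! ### the contradiction -/

theorem last_before {In : ℕ → Prop} {j : ℕ} (h0 : In 0) (hj : 0 < j) :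
    ∃ i < j, In i ∧ ∀ k, i < k → k < j → ¬ In k := by
  obtain ⟨j', _, h1, _, h3⟩ := window (In := In) (Out := fun k => k = j) (n := j) rfl h0
  rcases h3 with h3 | ⟨i, hi, h4, h5⟩
  · omega
  · subst h1
    exact ⟨i, hi, h4, h5⟩

theorem web_ev {X : P2 → Bool} {m : ℕ} (hW : X ∈ Web m) (i : Fin 4) (s : Fin 2) : X ∈ wev m i s := by
  unfold Web at hW
  simp only [Set.mem_iInter] at hW
  exact hW (i, s) (Finset.mem_univ _)

theorem pick (t : ℤ) : ∃ s : Fin 2, ((s : ℕ) : ℤ) % 2 ≠ t % 2 ∧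
    (((s : ℕ) : ℤ) = 0 ∨ ((s : ℕ) : ℤ) = 1) := by
  by_cases h : t % 2 = 0
  · exact ⟨1, by rw [h]; decide, Or.inr rfl⟩
  · refine ⟨0, fun h' => h ?_, Or.inl rfl⟩
    rw [← h']; rfl

theorem no_delta {X : P2 → Bool} {m : ℕ} (hm : 2 ≤ m) (hW : X ∈ Web m) {f g : P2}
    (h : Relation.ReflTransGen (DX X) f g)
    (hf : (-(3 * (m : ℤ)) ≤ xu f ∧ xu f ≤ 3 * m) ∧ (-(3 * (m : ℤ)) ≤ f.2 ∧ f.2 ≤ 3 * m))
    (hg : 12 * (m : ℤ) ≤ xu g ∨ xu g ≤ -(12 * (m : ℤ)) ∨ 12 * (m : ℤ) ≤ g.2 ∨
      g.2 ≤ -(12 * (m : ℤ))) : False := by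
  obtain ⟨n, p, p0, pn, hp⟩ := seq_of h
  -- first exit
  let Out : ℕ → Prop := fun k => 12 * (m : ℤ) ≤ xu (p k) ∨ xu (p k) ≤ -(12 * (m : ℤ)) ∨
    12 * (m : ℤ) ≤ (p k).2 ∨ (p k).2 ≤ -(12 * (m : ℤ))
  obtain ⟨j, hjn, hj, hjmin, -⟩ := window (In := fun _ => True) (Out := Out) (n := n)
    (by show _ ∨ _; rw [pn]; exact hg) trivial
  have hj0 : 0 < j := by
    rcases Nat.eq_zero_or_pos j with h0 | h0
    · exfalso
      subst h0
      have hj' : 12 * (m : ℤ) ≤ xu (p 0) ∨ xu (p 0) ≤ -(12 * (m : ℤ)) ∨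
        12 * (m : ℤ) ≤ (p 0).2 ∨ (p 0).2 ≤ -(12 * (m : ℤ)) := hj
      rw [p0] at hj'
      omega
    · exact h0
  have hin : ∀ k < j, ¬ (12 * (m : ℤ) ≤ xu (p k) ∨ xu (p k) ≤ -(12 * (m : ℤ)) ∨
    12 * (m : ℤ) ≤ (p k).2 ∨ (p k).2 ≤ -(12 * (m : ℤ))) := hjmin
  have hst : ∀ k < j, DX X (p k) (p (k + 1)) := fun k hk => hp k (by omega)
  have hbd : ∀ k ≤ j, (-(12 * (m : ℤ)) ≤ (p k).2 ∧ (p k).2 ≤ 12 * m) ∧
      (-(12 * (m : ℤ)) - 1 ≤ xu (p k) ∧ xu (p k) ≤ 12 * m + 1) := by
    intro k hk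
    rcases Nat.lt_or_ge k j with h1 | h1
    · have := hin k h1
      omega
    · have h2 : k = (j - 1) + 1 := by omega
      have h3 := hin (j - 1) (by omega)
      have h4 := dx_step (hst (j - 1) (by omega))
      rw [← h2] at h4
      omega
  have hj' : 12 * (m : ℤ) ≤ xu (p j) ∨ xu (p j) ≤ -(12 * (m : ℤ)) ∨
    12 * (m : ℤ) ≤ (p j).2 ∨ (p j).2 ≤ -(12 * (m : ℤ)) := hj
  rcases hj' with hj' | hj' | hj' | hj'
  · -- right
    obtain ⟨i, hij, hi, hlast⟩ := last_before (In := fun k => xu (p k) ≤ 3 * (m : ℤ)) (j := j)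
      (by show xu (p 0) ≤ _; rw [p0]; exact hf.1.2) hj0
    have hi' : xu (p i) ≤ 3 * (m : ℤ) := hi
    have hgt : ∀ k, i < k → k ≤ j → 3 * (m : ℤ) < xu (p k) := by
      intro k h1 h2
      rcases Nat.lt_or_ge k j with h3 | h3
      · have := hlast k h1 h3
        simpa using this
      · have : k = j := by omega
        rw [this]; omega
    have h4 := dx_step (hst i hij)
    have hseg := dc_seg (Y := fun v => X (chR v)) (b := false)
      (S := {w | -(12 * (m : ℤ)) ≤ w.2 ∧ w.2 ≤ 12 * m})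
      (q := fun k => (xu (p k), (p k).2)) (i := i + 1) (j := j) (by omega)
      (fun k _ h2 => (hbd k h2).1)
      (fun k h1 h2 => step_R (hst k h2) (by have := hgt k (by omega) (by omega); omega)
        (by have := hgt (k + 1) (by omega) (by omega); omega))
    obtain ⟨s, hs, hs01⟩ := pick (xu (p (i + 1)) + (p (i + 1)).2)
    have hw := web_ev hW 3 s
    obtain ⟨a, b, hab, ha, hb, hpar⟩ := evV_path (s := (s : ℕ)) (m := m) (d := 6) (a := -11)
      (n := 16) (Y := fun v => X (chR v)) hw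
    refine dcross hseg hab ?_ ?_ ?_
    · rw [hpar]; exact hs.symm
    · intro w hw
      have h5 : -(12 * (m : ℤ)) ≤ w.2 ∧ w.2 ≤ 12 * m := hw
      push_cast at hb
      omega
    · intro w hw
      have h5 : 6 * (m : ℤ) - m + (s : ℕ) ≤ w.1 ∧ w.1 ≤ 6 * m + 4 * m + (s : ℕ) := hw
      simp only
      omega
  · -- left
    obtain ⟨i, hij, hi, hlast⟩ := last_before (In := fun k => -(3 * (m : ℤ)) ≤ xu (p k)) (j := j)
      (by show _ ≤ xu (p 0); rw [p0]; exact hf.1.1) hj0
    have hi' : -(3 * (m : ℤ)) ≤ xu (p i) := hi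
    have hlt : ∀ k, i < k → k ≤ j → xu (p k) < -(3 * (m : ℤ)) := by
      intro k h1 h2
      rcases Nat.lt_or_ge k j with h3 | h3
      · have := hlast k h1 h3
        simpa using this
      · have : k = j := by omega
        rw [this]; omega
    have h4 := dx_step (hst i hij)
    have hseg := dc_seg (Y := X) (b := false)
      (S := {w | -(12 * (m : ℤ)) ≤ w.2 ∧ w.2 ≤ 12 * m})
      (q := p) (i := i + 1) (j := j) (by omega)
      (fun k _ h2 => (hbd k h2).1)
      (fun k h1 h2 => step_id (hst k h2) (Or.inl ⟨by have := hlt k (by omega) (by omega); omega,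
        by have := hlt (k + 1) (by omega) (by omega); omega⟩))
    obtain ⟨s, hs, hs01⟩ := pick ((p j).1 + (p j).2)
    have hw := web_ev hW 2 s
    obtain ⟨a, b, hab, ha, hb, hpar⟩ := evV_path (s := (s : ℕ)) (m := m) (d := -9) (a := -4)
      (n := 17) (Y := X) hw
    have hx1 := xu_fst (p (i + 1))
    have hxj := xu_fst (p j)
    have hl1 := hlt (i + 1) (by omega) (by omega)
    refine dcross hseg.symm hab ?_ ?_ ?_
    · rw [hpar]; exact hs.symm
    · intro w hw
      have h5 : -(12 * (m : ℤ)) ≤ w.2 ∧ w.2 ≤ 12 * m := hw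
      push_cast at hb
      omega
    · intro w hw
      have h5 : -9 * (m : ℤ) - m + (s : ℕ) ≤ w.1 ∧ w.1 ≤ -9 * m + 4 * m + (s : ℕ) := hw
      have e1 : (p (i + 1)).1 = xu (p (i + 1)) := by
        simp only [xu, phi] at hl1 ⊢
        split_ifs at * <;> omega
      omega
  · -- top
    obtain ⟨i, hij, hi, hlast⟩ := last_before (In := fun k => (p k).2 ≤ 3 * (m : ℤ)) (j := j)
      (by show (p 0).2 ≤ _; rw [p0]; exact hf.2.2) hj0
    have hi' : (p i).2 ≤ 3 * (m : ℤ) := hi
    have hgt : ∀ k, i < k → k ≤ j → 3 * (m : ℤ) < (p k).2 := by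
      intro k h1 h2
      rcases Nat.lt_or_ge k j with h3 | h3
      · have := hlast k h1 h3
        simpa using this
      · have : k = j := by omega
        rw [this]; omega
    have h4 := dx_step (hst i hij)
    have hseg := dc_seg (Y := X) (b := false)
      (S := {w | -(12 * (m : ℤ)) - 1 ≤ w.1 ∧ w.1 ≤ 12 * m + 1})
      (q := p) (i := i + 1) (j := j) (by omega)
      (fun k h1 h2 => by
        have h5 := (hbd k h2).2
        have h6 := hgt k (by omega) h2
        have h7 := xu_fst (p k)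
        show _ ≤ (p k).1 ∧ (p k).1 ≤ _
        omega)
      (fun k h1 h2 => step_id (hst k h2) (Or.inr (Or.inl
        ⟨by have := hgt k (by omega) (by omega); omega,
          by have := hgt (k + 1) (by omega) (by omega); omega⟩)))
    obtain ⟨s, hs, hs01⟩ := pick ((p (i + 1)).1 + (p (i + 1)).2)
    have hw := web_ev hW 0 s
    obtain ⟨a, b, hab, ha, hb, hpar⟩ := evH_path (s := (s : ℕ)) (m := m) (d := 7) (a := -12)
      (n := 16) (Y := X) hw
    refine dcross hab hseg ?_ ?_ ?_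
    · rw [hpar]; exact hs
    · intro w hw
      have h5 : 7 * (m : ℤ) - 2 * m ≤ w.2 ∧ w.2 ≤ 7 * m + 3 * m := hw
      omega
    · intro w hw
      have h5 : -(12 * (m : ℤ)) - 1 ≤ w.1 ∧ w.1 ≤ 12 * m + 1 := hw
      push_cast at hb
      omega
  · -- bottom
    obtain ⟨i, hij, hi, hlast⟩ := last_before (In := fun k => -(3 * (m : ℤ)) ≤ (p k).2) (j := j)
      (by show _ ≤ (p 0).2; rw [p0]; exact hf.2.1) hj0
    have hi' : -(3 * (m : ℤ)) ≤ (p i).2 := hi
    have hlt : ∀ k, i < k → k ≤ j → (p k).2 < -(3 * (m : ℤ)) := by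
      intro k h1 h2
      rcases Nat.lt_or_ge k j with h3 | h3
      · have := hlast k h1 h3
        simpa using this
      · have : k = j := by omega
        rw [this]; omega
    have h4 := dx_step (hst i hij)
    have hseg := dc_seg (Y := X) (b := false)
      (S := {w | -(12 * (m : ℤ)) - 2 ≤ w.1 ∧ w.1 ≤ 12 * m + 1})
      (q := p) (i := i + 1) (j := j) (by omega)
      (fun k h1 h2 => by
        have h5 := (hbd k h2).2
        have h7 := xu_fst (p k)
        show _ ≤ (p k).1 ∧ (p k).1 ≤ _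
        omega)
      (fun k h1 h2 => step_id (hst k h2) (Or.inr (Or.inr
        ⟨by have := hlt k (by omega) (by omega); omega,
          by have := hlt (k + 1) (by omega) (by omega); omega⟩)))
    obtain ⟨s, hs, hs01⟩ := pick ((p j).1 + (p j).2)
    have hw := web_ev hW 1 s
    obtain ⟨a, b, hab, ha, hb, hpar⟩ := evH_path (s := (s : ℕ)) (m := m) (d := -8) (a := -5)
      (n := 17) (Y := X) hw
    refine dcross hab hseg.symm ?_ ?_ ?_
    · rw [hpar]; exact hs
    · intro w hw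
      have h5 : -8 * (m : ℤ) - 2 * m ≤ w.2 ∧ w.2 ≤ -8 * m + 3 * m := hw
      omega
    · intro w hw
      have h5 : -(12 * (m : ℤ)) - 2 ≤ w.1 ∧ w.1 ≤ 12 * m + 1 := hw
      push_cast at hb
      omega

end Crest.Agent.R158.Dr945
end

-- ▼ part R158/Rz2_808
section

/-!
# Row 158 (helper808), resampling, part 2: the fresh field is independent of the revealed
configuration; symmetric flips off the revealed set

* `Ex.fresh` : `P⊗P (z ∈ A, glue (E z) z' z ∈ F) = P(A) P(F)` for `A` depending on the revealed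
  configuration only
* `Ex.fresh_xor` : at `p = 1/2` the same for `z' on E z`, `z xor K z` off `E z`, where the flips `K z`
  depend on the revealed configuration only
* `Ex.xor_eq` : one space form
-/

set_option autoImplicit false

noncomputable section

namespace Crest.Agent.R158.Rz808

open MeasureTheory unitInterval Rs689

variable {ι : Type*} {S : Finset ι} {E : (ι → Bool) → Finset ι}

/-- the fresh field (`z'` on the revealed set, `z` off it) has law `PB w` and is independent of the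
revealed configuration -/
theorem Ex.fresh (h : Ex S E) (w : ι → I) {A F : Set (ι → Bool)} (hA : Ad E A)
    (hF : MeasurableSet F) :
    ((PB w).prod (PB w)) {q | q.1 ∈ A ∧ Rz808.glue (E q.1) q.2 q.1 ∈ F} = PB w A * PB w F := by
  have hAm : MeasurableSet A := (h.dep hA).measurableSet
  have h1 : {q : (ι → Bool) × (ι → Bool) | q.1 ∈ A ∧ Rz808.glue (E q.1) q.2 q.1 ∈ F} =
      (fun q : (ι → Bool) × (ι → Bool) => sw (E q.1) q) ⁻¹' (A ×ˢ F) := by
    ext q
    simp only [Set.mem_ofPred_eq, Set.mem_preimage, Set.mem_prod, sw]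
    have h2 : q.1 ∈ A ↔ Rz808.glue (E q.1) q.1 q.2 ∈ A :=
      hA _ _ fun e he => (glue_in he).symm
    rw [h2]
  rw [h1, ← Measure.map_apply h.meas_sw (hAm.prod hF), h.map_swap, Measure.prod_prod]



/-! ### flips -/

/-- flip by `k` -/
def flp (k z : ι → Bool) : ι → Bool := fun e => xor (z e) (k e)

@[simp] theorem flp_flp (k z : ι → Bool) : flp k (flp k z) = z := by
  funext e; simp [flp]

theorem meas_flp (k : ι → Bool) : Measurable (flp k) := by
  refine measurable_pi_lambda _ fun e => ?_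
  exact (Measurable.of_discrete (f := fun b : Bool => xor b (k e))).comp (measurable_pi_apply e)

/-- symmetric parameters (`w e = 1/2` for every `e`) -/
def Sym (w : ι → I) : Prop := ∀ e, σ (w e) = w e

theorem bern_map_xor {p : I} (hp : σ p = p) (b : Bool) :
    (bern p).map (fun x => xor x b) = bern p := by
  cases b
  · simp
  · have h := bern_map_not p
    rw [hp] at h
    simpa using h

/-- flips preserve the fair product law -/
theorem map_flp {w : ι → I} (hw : Sym w) (k : ι → Bool) : (PB w).map (flp k) = PB w := by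
  unfold PB
  have h := Measure.infinitePi_map_pi (μ := fun e : ι => bern (w e))
    (f := fun e (x : Bool) => xor x (k e)) fun e => Measurable.of_discrete
  refine Eq.trans h ?_
  congr 1
  funext e
  exact bern_map_xor (hw e) (k e)

theorem PB_flp {w : ι → I} (hw : Sym w) (k : ι → Bool) {F : Set (ι → Bool)}
    (hF : MeasurableSet F) : PB w (flp k ⁻¹' F) = PB w F := by
  rw [← Measure.map_apply (meas_flp k) hF, map_flp hw]

/-- functions of the revealed configuration -/
def AdF {α : Type*} (E : (ι → Bool) → Finset ι) (K : (ι → Bool) → α) : Prop :=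
  ∀ z z', (∀ e ∈ E z, z e = z' e) → K z' = K z

theorem AdF.ad {α : Type*} {K : (ι → Bool) → α} (hK : AdF E K) (k : α) : Ad E {z | K z = k} := by
  intro z z' h
  simp only [Set.mem_ofPred_eq]
  rw [hK z z' h]


/-- finite range -/
theorem Ex.range_finite {α : Type*} (h : Ex S E) {K : (ι → Bool) → α} (hK : AdF E K) :
    (Set.range K).Finite := by
  classical
  let g : (S → Bool) → α := fun y => K fun e => if he : e ∈ S then y ⟨e, he⟩ else false
  refine (Set.finite_range g).subset ?_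
  rintro _ ⟨z, rfl⟩
  refine ⟨fun e => z e, ?_⟩
  refine hK z _ fun e he => ?_
  rw [dif_pos (h.sub z he)]

/-- partition by the value of a function of the revealed configuration -/
theorem Ex.sum_range {α : Type*} (h : Ex S E) {K : (ι → Bool) → α} (hK : AdF E K)
    {β : Type*} [MeasurableSpace β] (μ : Measure β) (f : β → (ι → Bool)) (hf : Measurable f)
    {G : Set β} (hG : MeasurableSet G) :
    μ G = ∑ k ∈ (h.range_finite hK).toFinset, μ (G ∩ {b | K (f b) = k}) := by
  classical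
  have h1 : G = ⋃ k ∈ (h.range_finite hK).toFinset, (G ∩ {b | K (f b) = k}) := by
    ext b
    simp only [Set.mem_iUnion, Set.mem_inter_iff, Set.mem_ofPred_eq, exists_prop,
      Set.Finite.mem_toFinset, Set.mem_range]
    exact ⟨fun hb => ⟨K (f b), ⟨f b, rfl⟩, hb, rfl⟩, fun ⟨_, _, hb, _⟩ => hb⟩
  conv_lhs => rw [h1]
  refine measure_biUnion_finset ?_ fun k _ => hG.inter (hf (h.dep (hK.ad k)).measurableSet)
  intro k _ k' _ hne
  refine Set.disjoint_left.2 fun b h2 h3 => hne ?_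
  exact h2.2.symm.trans h3.2

/-- measurability of glued flipped configurations -/
theorem Ex.meas_gflp (h : Ex S E) {K : (ι → Bool) → (ι → Bool)} (hK : AdF E K)
    {F : Set (ι → Bool)} (hF : MeasurableSet F) :
    MeasurableSet {q : (ι → Bool) × (ι → Bool) | Rz808.glue (E q.1) q.2 (flp (K q.1) q.1) ∈ F} := by
  classical
  have h1 : {q : (ι → Bool) × (ι → Bool) | Rz808.glue (E q.1) q.2 (flp (K q.1) q.1) ∈ F} =
      ⋃ D ∈ S.powerset, ⋃ k ∈ (h.range_finite hK).toFinset,
        ((Prod.fst ⁻¹' {z | E z = D}) ∩ (Prod.fst ⁻¹' {z | K z = k}) ∩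
        ((fun q : (ι → Bool) × (ι → Bool) => Rz808.glue D q.2 (flp k q.1)) ⁻¹' F)) := by
    ext q
    simp only [Set.mem_iUnion, Set.mem_inter_iff, Set.mem_preimage, Set.mem_ofPred_eq, exists_prop,
      Finset.mem_powerset, Set.Finite.mem_toFinset, Set.mem_range]
    constructor
    · intro hq
      exact ⟨E q.1, h.sub _, K q.1, ⟨q.1, rfl⟩, ⟨rfl, rfl⟩, hq⟩
    · rintro ⟨D, _, k, _, ⟨h1, h2⟩, hq⟩
      rw [h1, h2]
      exact hq
  rw [h1]
  refine Finset.measurableSet_biUnion _ fun D _ => Finset.measurableSet_biUnion _ fun k _ => ?_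
  refine ((measurable_fst (h.meas_eq D)).inter
    (measurable_fst (h.dep (hK.ad k)).measurableSet)).inter ?_
  exact ((Rz808.meas_glue D).comp
    (measurable_snd.prodMk ((meas_flp k).comp measurable_fst))) hF

/-- **XOR resampling** at `p = 1/2`: fresh bits on the revealed set, flipped configuration off it;
the flips depend on the revealed configuration only.  The resulting field is fair and independent of the
revealed configuration. -/
theorem Ex.fresh_xor (h : Ex S E) {w : ι → I} (hw : Sym w) {K : (ι → Bool) → (ι → Bool)}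
    (hK : AdF E K) {A F : Set (ι → Bool)} (hA : Ad E A) (hF : MeasurableSet F) :
    ((PB w).prod (PB w)) {q | q.1 ∈ A ∧ Rz808.glue (E q.1) q.2 (flp (K q.1) q.1) ∈ F} =
      PB w A * PB w F := by
  classical
  have hAm : MeasurableSet A := (h.dep hA).measurableSet
  have hG : MeasurableSet
      {q : (ι → Bool) × (ι → Bool) | q.1 ∈ A ∧ Rz808.glue (E q.1) q.2 (flp (K q.1) q.1) ∈ F} :=
    (measurable_fst hAm).inter (h.meas_gflp hK hF)
  rw [h.sum_range hK ((PB w).prod (PB w)) Prod.fst measurable_fst hG]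
  have h2 : PB w A = ∑ k ∈ (h.range_finite hK).toFinset, PB w (A ∩ {z | K z = k}) := by
    simpa using h.sum_range hK (PB w) (fun z => z) measurable_id hAm
  rw [h2, Finset.sum_mul]
  refine Finset.sum_congr rfl fun k _ => ?_
  have hAk : Ad E (A ∩ {z | K z = k}) := hA.inter (hK.ad k)
  have h3 : {q : (ι → Bool) × (ι → Bool) | q.1 ∈ A ∧
      Rz808.glue (E q.1) q.2 (flp (K q.1) q.1) ∈ F} ∩ {q | K q.1 = k} =
      (Prod.map id (flp k)) ⁻¹' {q : (ι → Bool) × (ι → Bool) | q.1 ∈ A ∩ {z | K z = k} ∧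
        Rz808.glue (E q.1) q.2 q.1 ∈ flp k ⁻¹' F} := by
    ext q
    simp only [Set.mem_inter_iff, Set.mem_ofPred_eq, Set.mem_preimage, Prod.map_fst, id_eq,
      Prod.map_snd]
    have h4 : flp k (Rz808.glue (E q.1) (flp k q.2) q.1) =
        Rz808.glue (E q.1) q.2 (flp k q.1) := by
      funext e
      by_cases he : e ∈ E q.1
      · simp [flp, Rz808.glue, he]
      · simp [flp, Rz808.glue, he]
    rw [h4]
    constructor
    · rintro ⟨⟨h5, h6⟩, rfl⟩
      exact ⟨⟨h5, rfl⟩, h6⟩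
    · rintro ⟨⟨h5, rfl⟩, h6⟩
      exact ⟨⟨h5, h6⟩, rfl⟩
  have h5 : ((PB w).prod (PB w)).map (Prod.map id (flp k)) = (PB w).prod (PB w) := by
    rw [← Measure.map_prod_map _ _ measurable_id (meas_flp k), map_flp hw, Measure.map_id]
  have h6 : MeasurableSet {q : (ι → Bool) × (ι → Bool) | q.1 ∈ A ∩ {z | K z = k} ∧
        Rz808.glue (E q.1) q.2 q.1 ∈ flp k ⁻¹' F} :=
    (measurable_fst (h.dep hAk).measurableSet).inter
      ((measurable_snd.comp h.meas_sw) (meas_flp k hF))
  rw [h3, ← Measure.map_apply (measurable_id.prodMap (meas_flp k)) h6, h5,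
    h.fresh w hAk (meas_flp k hF), PB_flp hw k hF]

theorem Ex.fresh_xor_real (h : Ex S E) {w : ι → I} (hw : Sym w) {K : (ι → Bool) → (ι → Bool)}
    (hK : AdF E K) {A F : Set (ι → Bool)} (hA : Ad E A) (hF : MeasurableSet F) :
    ((PB w).prod (PB w)).real {q | q.1 ∈ A ∧ Rz808.glue (E q.1) q.2 (flp (K q.1) q.1) ∈ F} =
      (PB w).real A * (PB w).real F := by
  rw [measureReal_def, h.fresh_xor hw hK hA hF, ENNReal.toReal_mul]
  rfl


end Crest.Agent.R158.Rz808
end
end

-- ▼ part R158/Dr5_945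
section

/-!
# Row 158, BLOCK DR (helper945), part 5: no second strand at a dislocation

`T R r ρ` : a strand other than the leg of `z`, inside the box of radius `R`, joins a medial edge at
distance at most `r` from `z` to a medial edge at distance at least `ρ`.

* `T_dep` : finite support
* `T_le_pow` : `P (T R r ρ) ≤ c ^ J` if `12 * 8 ^ (J-1) * (r + 1) < ρ`
* `T_le` : `P (T R r ρ) ≤ C (r / ρ) ^ a`, uniformly in `R`
-/

set_option autoImplicit false

noncomputable section

namespace Crest.Agent.R158.Dr945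

open MeasureTheory ProbabilityTheory unitInterval
open Crest.Agent.R161.Geo729
open Crest.Agent.R158.Rs689
open Crest.Agent.R158.Rz808

/-- the law of the tiles -/
abbrev muT : Measure (P2 → Bool) := PB fun _ : P2 => hf

/-- the box as a finite set -/
def BxF (R : ℤ) : Finset P2 := Finset.Icc (-R) R ×ˢ Finset.Icc (-R) R

theorem mem_BxF {R : ℤ} {v : P2} : v ∈ BxF R ↔ v ∈ Bx R := by
  simp only [BxF, Bx, Finset.mem_product, Finset.mem_Icc, Set.mem_ofPred_eq]

theorem pr_inc {s : P2 → Bool} {v : P2} {e e' : P2 × Bool} (h : Pr s v e e') :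
    e = eN v ∨ e = eS v ∨ e = eE v ∨ e = eW v := by
  unfold Pr at h; tauto

theorem pr_congr {s s' : P2 → Bool} {v : P2} {e e' : P2 × Bool} (hs : s v = s' v)
    (h : Pr s v e e') : Pr s' v e e' := by
  unfold Pr at *; rw [← hs]; exact h

theorem pr_vis {s : P2 → Bool} {v : P2} {e e' : P2 × Bool} {G : Set (P2 × Bool)}
    (h : Pr s v e e') (he : e ∈ G) : Vis G v := by
  unfold Vis
  rcases pr_inc h with rfl | rfl | rfl | rfl
  · exact Or.inl he
  · exact Or.inr (Or.inl he)
  · exact Or.inr (Or.inr (Or.inl he))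
  · exact Or.inr (Or.inr (Or.inr he))

/-- the leg is determined by the tiles it visits -/
theorem leg_self {B : Set P2} {s s' : P2 → Bool} (h : ∀ v ∈ B, Vis (Leg B s) v → s v = s' v) :
    Leg B s' = Leg B s := by
  apply Set.Subset.antisymm
  · intro e he
    unfold Leg at he
    simp only [Set.mem_ofPred_eq] at he
    induction he with
    | refl => exact leg0_mem B s
    | @tail b d _ h2 ih =>
      obtain ⟨v, hv, hp⟩ := h2
      exact (leg_iff hv (pr_congr (h v hv (pr_vis hp ih)).symm hp)).1 ih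
  · intro e he
    have he' := he
    unfold Leg at he'
    simp only [Set.mem_ofPred_eq] at he'
    induction he' with
    | refl => exact leg0_mem B s'
    | @tail b d h1 h2 ih =>
      obtain ⟨v, hv, hp⟩ := h2
      have hb : b ∈ Leg B s := h1
      exact (leg_iff hv (pr_congr (h v hv (pr_vis hp hb)) hp)).1 (ih hb)

open Classical in
/-- the tiles visited by the leg -/
def EV (R : ℤ) (s : P2 → Bool) : Finset P2 := (BxF R).filter fun v => Vis (Leg (Bx R) s) v

theorem mem_EV {R : ℤ} {s : P2 → Bool} {v : P2} : v ∈ EV R s ↔ v ∈ Bx R ∧ Vis (Leg (Bx R) s) v := by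
  simp only [EV, Finset.mem_filter, mem_BxF]

theorem EV_leg {R : ℤ} {s s' : P2 → Bool} (h : ∀ v ∈ EV R s, s v = s' v) :
    Leg (Bx R) s' = Leg (Bx R) s := leg_self fun v hv hV => h v (mem_EV.2 ⟨hv, hV⟩)

theorem ex_EV (R : ℤ) : Ex (BxF R) (EV R) where
  sub := fun s v hv => mem_BxF.2 (mem_EV.1 hv).1
  self := fun s s' h => by
    ext v
    rw [mem_EV, mem_EV, EV_leg h]

open Classical in
/-- the colouring given by the leg -/
def colOf (R : ℤ) (G : Set (P2 × Bool)) : P2 → Bool :=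
  if h : ∃ c, Col G (Bx R) c then h.choose else fun _ => false

theorem col_of (R : ℤ) (s : P2 → Bool) : Col (Leg (Bx R) s) (Bx R) (colOf R (Leg (Bx R) s)) := by
  have h : ∃ c, Col (Leg (Bx R) s) (Bx R) c := exists_col (leg_cl _ _) (leg0_mem _ _)
  unfold colOf
  rw [dif_pos h]
  exact h.choose_spec

/-- the flips -/
def KV (R : ℤ) (s : P2 → Bool) : P2 → Bool := fun v => colOf R (Leg (Bx R) s) (fNE v)

theorem adF_KV (R : ℤ) : AdF (EV R) (KV R) := fun s s' h => by
  unfold KV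
  rw [EV_leg h]

/-- a second strand from distance `r` to distance `ρ` -/
def T (R : ℤ) (r ρ : ℕ) : Set (P2 → Bool) :=
  {s | ∃ e e' : P2 × Bool, Relation.ReflTransGen (St (Bx R) s) e e' ∧ e ∉ Leg (Bx R) s ∧
    ((-(r : ℤ) ≤ e.1.1 ∧ e.1.1 ≤ r) ∧ (-(r : ℤ) ≤ e.1.2 ∧ e.1.2 ≤ r)) ∧
    ((ρ : ℤ) ≤ e'.1.1 ∨ e'.1.1 ≤ -(ρ : ℤ) ∨ (ρ : ℤ) ≤ e'.1.2 ∨ e'.1.2 ≤ -(ρ : ℤ))}

theorem st_congr {R : ℤ} {s s' : P2 → Bool} (h : ∀ v ∈ BxF R, s v = s' v) {e e' : P2 × Bool} :
    St (Bx R) s e e' ↔ St (Bx R) s' e e' := by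
  constructor
  · rintro ⟨v, hv, hp⟩
    exact ⟨v, hv, pr_congr (h v (mem_BxF.2 hv)) hp⟩
  · rintro ⟨v, hv, hp⟩
    exact ⟨v, hv, pr_congr (h v (mem_BxF.2 hv)).symm hp⟩

theorem T_dep (R : ℤ) (r ρ : ℕ) : Dep (BxF R) (T R r ρ) := by
  intro s s' h
  have h1 : St (Bx R) s = St (Bx R) s' := by
    funext e e'
    exact propext (st_congr h)
  have h2 : Leg (Bx R) s = Leg (Bx R) s' := by
    unfold Leg
    rw [h1]
  unfold T
  simp only [Set.mem_ofPred_eq, h1, h2]

theorem zs_cases (c : P2 → Bool) (e : P2 × Bool) : zs c e = sd1 e ∨ zs c e = sd2 e := by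
  unfold zs
  split_ifs
  · exact Or.inl rfl
  · exact Or.inr rfl

theorem zs_near {c : P2 → Bool} {e : P2 × Bool} {r : ℤ}
    (h : (-r ≤ e.1.1 ∧ e.1.1 ≤ r) ∧ (-r ≤ e.1.2 ∧ e.1.2 ≤ r)) :
    (-(r + 2) ≤ xu (zs c e) ∧ xu (zs c e) ≤ r + 2) ∧
      (-(r + 2) ≤ (zs c e).2 ∧ (zs c e).2 ≤ r + 2) := by
  obtain ⟨⟨i, j⟩, b⟩ := e
  simp only at h
  rcases zs_cases c ((i, j), b) with h1 | h1 <;> rw [h1] <;> cases b <;>
    simp only [sd1, sd2, xu, phi, if_true, Bool.false_eq_true, if_false] <;> split_ifs at * <;>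
    omega

theorem zs_far {c : P2 → Bool} {e : P2 × Bool} {ρ : ℤ} (hρ : 2 ≤ ρ)
    (h : ρ ≤ e.1.1 ∨ e.1.1 ≤ -ρ ∨ ρ ≤ e.1.2 ∨ e.1.2 ≤ -ρ) :
    ρ - 1 ≤ xu (zs c e) ∨ xu (zs c e) ≤ -(ρ - 1) ∨ ρ - 1 ≤ (zs c e).2 ∨ (zs c e).2 ≤ -(ρ - 1) := by
  obtain ⟨⟨i, j⟩, b⟩ := e
  simp only at h
  rcases zs_cases c ((i, j), b) with h1 | h1 <;> rw [h1] <;> cases b <;>
    simp only [sd1, sd2, xu, phi, if_true, Bool.false_eq_true, if_false] <;> split_ifs at * <;>
    omega

/-- a second strand is incompatible with the webs of the field `X` -/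
theorem T_noweb {R : ℤ} {r ρ J : ℕ} (hr : 1 ≤ r) (hJ : ∀ k < J, 12 * (8 ^ k * (r + 1)) + 1 ≤ ρ)
    {s s' : P2 → Bool} (h : s ∈ T R r ρ) :
    Rz808.glue (EV R s) s' (flp (KV R s) s) ∈ NoWeb (r + 1) J := by
  set X := Rz808.glue (EV R s) s' (flp (KV R s) s) with hX
  unfold NoWeb
  simp only [Set.mem_iInter, Set.mem_compl_iff]
  intro k hk hW
  rw [Finset.mem_range] at hk
  have hJk := hJ k hk
  obtain ⟨e, e', h1, h2, h3, h4⟩ := h
  have hc := col_of R s
  have hXv : ∀ v ∈ Bx R, ¬ Vis (Leg (Bx R) s) v →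
      X v = xor (s v) (colOf R (Leg (Bx R) s) (fNE v)) := by
    intro v hv hV
    have : v ∉ EV R s := fun h => hV (mem_EV.1 h).2
    rw [hX, glue_out this]
    rfl
  obtain ⟨_, hd⟩ := delta_path hc hXv h1 h2
  have h8 : 1 ≤ 8 ^ k := Nat.one_le_pow _ _ (by norm_num)
  have hm : r + 1 ≤ 8 ^ k * (r + 1) := by nlinarith
  refine no_delta (m := 8 ^ k * (r + 1)) (by omega) hW hd ?_ ?_
  · have := zs_near (c := colOf R (Leg (Bx R) s)) h3
    have e1 : ((r + 1 : ℕ) : ℤ) ≤ ((8 ^ k * (r + 1) : ℕ) : ℤ) := by exact_mod_cast hm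
    push_cast at e1 this ⊢
    omega
  · have hρ : (2 : ℤ) ≤ (ρ : ℤ) := by omega
    have := zs_far (c := colOf R (Leg (Bx R) s)) hρ h4
    have e1 : 12 * ((8 ^ k * (r + 1) : ℕ) : ℤ) + 1 ≤ (ρ : ℤ) := by exact_mod_cast hJk
    omega

theorem sym_hf : Sym (fun _ : P2 => hf) := fun _ => sigma_hf

/-- **Decay.** -/
theorem T_le_pow : ∃ c : ℝ, 0 < c ∧ c < 1 ∧ ∀ (R : ℤ) (r ρ J : ℕ), 1 ≤ r →
    (∀ k < J, 12 * (8 ^ k * (r + 1)) + 1 ≤ ρ) → muT.real (T R r ρ) ≤ c ^ J := by
  obtain ⟨c, hc0, hc1, h⟩ := noweb_prob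
  refine ⟨c, hc0, hc1, fun R r ρ J hr hJ => ?_⟩
  refine le_trans ?_ (h (r + 1) J (by omega))
  have hm : MeasurableSet (NoWeb (r + 1) J) :=
    (noweb_dep (T := (Finset.range J).biUnion fun k => Ann (8 ^ k * (r + 1))) (by omega)
      (fun k hk => Finset.subset_biUnion_of_mem (fun k => Ann (8 ^ k * (r + 1)))
        (Finset.mem_range.2 hk))).measurableSet
  have h1 := (ex_EV R).fresh_xor_real sym_hf (adF_KV R) (A := Set.univ) (F := NoWeb (r + 1) J)
    (fun _ _ _ => by simp) hm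
  rw [probReal_univ, one_mul] at h1
  rw [← h1]
  have h2 : muT.real (T R r ρ) = (muT.prod muT).real (T R r ρ ×ˢ Set.univ) := by
    rw [measureReal_def, measureReal_def, Measure.prod_prod, measure_univ, mul_one]
  rw [h2]
  refine measureReal_mono ?_
  rintro ⟨s, s'⟩ ⟨hs, -⟩
  exact ⟨Set.mem_univ _, T_noweb hr hJ hs⟩

/-- **No second strand at a dislocation.** -/
theorem T_le : ∃ C a : ℝ, 0 < C ∧ 0 < a ∧ ∀ (R : ℤ) (r ρ : ℕ), 1 ≤ r → 1 ≤ ρ →
    muT.real (T R r ρ) ≤ C * ((r : ℝ) / ρ) ^ a := by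
  obtain ⟨q, hq, hq1, h⟩ := T_le_pow
  set a := -Real.log q / Real.log 8 with ha
  have hl8 : 0 < Real.log 8 := Real.log_pos (by norm_num)
  have ha0 : 0 < a := div_pos (neg_pos.2 (Real.log_neg hq hq1)) hl8
  refine ⟨(256 : ℝ) ^ a, a, by positivity, ha0, fun R r ρ hr hρ => ?_⟩
  have hr0 : (0 : ℝ) < r := by exact_mod_cast hr
  have hρ0 : (0 : ℝ) < ρ := by exact_mod_cast hρ
  -- smallest `J` with `ρ < 12 * 8 ^ J * (r + 1) + 1`
  have hex : ∃ J : ℕ, (∀ k < J, 12 * (8 ^ k * (r + 1)) + 1 ≤ ρ) ∧ ρ < 12 * (8 ^ J * (r + 1)) + 1 := by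
    have hlt : ∃ J : ℕ, ρ < 12 * (8 ^ J * (r + 1)) + 1 := by
      refine ⟨ρ, ?_⟩
      have h2 : ρ < 8 ^ ρ := Nat.lt_pow_self (by norm_num)
      nlinarith
    classical
    refine ⟨Nat.find hlt, fun k hk => ?_, Nat.find_spec hlt⟩
    have := Nat.find_min hlt hk
    omega
  obtain ⟨J, hJ1, hJ2⟩ := hex
  refine (h R r ρ J hr hJ1).trans ?_
  have h3 : q ^ J = ((8 : ℝ) ^ J)⁻¹ ^ a := by
    rw [← Real.rpow_natCast 8 J, ← Real.rpow_neg (by norm_num), ← Real.rpow_mul (by norm_num),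
      ← Real.rpow_natCast q J]
    rw [Real.rpow_def_of_pos hq, Real.rpow_def_of_pos (by norm_num : (0 : ℝ) < 8)]
    congr 1
    rw [ha]
    field_simp
  rw [h3, ← Real.mul_rpow (by norm_num) (by positivity)]
  refine Real.rpow_le_rpow (by positivity) ?_ ha0.le
  have h4 : (ρ : ℝ) < 12 * (8 ^ J * (r + 1)) + 1 := by exact_mod_cast hJ2
  have h5 : (1 : ℝ) ≤ 8 ^ J := one_le_pow₀ (by norm_num)
  have h6 : (1 : ℝ) ≤ r := by exact_mod_cast hr
  have h7 : (ρ : ℝ) ≤ 25 * (8 ^ J * r) := by nlinarith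
  rw [inv_le_iff_one_le_mul₀ (by positivity)]
  rw [← mul_div_assoc, div_mul_eq_mul_div, le_div_iff₀ hρ0]
  nlinarith

end Crest.Agent.R158.Dr945
end
end

-- ▼ part R158/Dr6_945

/-!
# Row 158, BLOCK DR (helper945), part 6: comparison of the observable of two regions with different `z`

* `hv_map` : the observable of a word does not change under a relabelling of the tiles
* `rot_of_nx` : two clockwise lists with the same `Nx` are rotations of each other
* `near_T` : in `D^(z)` a strand of a free end, other than the leg, which comes near `z` is a second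
  strand, i.e. the event `T` of part 5
* `dr_core` : the observables of two regions which differ only near `z`
-/

set_option autoImplicit false
set_option linter.unusedSectionVars false
set_option linter.unusedSimpArgs false

noncomputable section

namespace Crest.Agent.R158.Dr945

open MeasureTheory ProbabilityTheory unitInterval
open Crest.Agent.R161.Geo729
open Crest.Agent.R158.Rs689
open Crest.Agent.R158.Sw300 (Port Wd thru tls)
open Crest.Agent.R158.Ob664 (HV HW GW Gl)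
open Crest.Agent.R158.Sl434 (Sp Rl Rf al Sys rf_al rf_be sys_of_word)

/-! ### the observable under a relabelling -/

theorem sep_congr {π π' : ℕ → ℕ} {N k x y z : ℕ} (h : ∀ i, i < N → π i = π' i) :
    Al194.Sep π N k x y z ↔ Al194.Sep π' N k x y z := by
  unfold Al194.Sep Al194.st Al194.ing
  refine exists_congr fun i => ?_
  by_cases hi : i < N
  · rw [h i hi]
  · simp only [hi, false_and]

theorem vc_congr {π π' : ℕ → ℕ} {N k x y z : ℕ} (h : ∀ i, i < N → π i = π' i) :
    Al194.Vc π N k x y z = Al194.Vc π' N k x y z := by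
  unfold Al194.Vc
  rw [sep_congr (x := y) (y := z) (z := x) h, sep_congr (x := x) (y := y) (z := z) h,
    sep_congr (x := z) (y := x) (z := y) h]

theorem rotate_eq_of_head {α : Type*} {l : List α} (hn : l.Nodup) {i j : ℕ}
    (h : (l.rotate i)[0]? = (l.rotate j)[0]?) : l.rotate i = l.rotate j := by
  rcases Nat.eq_zero_or_pos l.length with hl | hl
  · rw [List.length_eq_zero_iff.1 hl]; simp
  rw [List.getElem?_rotate hl, List.getElem?_rotate hl, Nat.zero_add, Nat.zero_add] at h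
  have hi : i % l.length < l.length := Nat.mod_lt _ hl
  have hj : j % l.length < l.length := Nat.mod_lt _ hl
  rw [List.getElem?_eq_getElem hi, List.getElem?_eq_getElem hj, Option.some_inj] at h
  have h2 := (List.Nodup.getElem_inj_iff hn).1 h
  rw [← List.rotate_mod l i, ← List.rotate_mod l j, h2]

theorem rotl_eq {α : Type*} [BEq α] [LawfulBEq α] {l l' : List α} (hn : l.Nodup) (hr : l ~r l') {m : α}
    (hm : m ∈ l) (h : l'[0]? = some m) : Al194.rotl l m = l' := by
  obtain ⟨n, rfl⟩ := hr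
  unfold Al194.rotl
  refine rotate_eq_of_head hn ?_
  have hl : 0 < l.length := List.length_pos_of_mem hm
  have hi := List.idxOf_lt_length_of_mem hm
  rw [h, List.getElem?_rotate hl, Nat.zero_add, Nat.mod_eq_of_lt hi,
    List.getElem?_eq_getElem hi, List.getElem_idxOf hi]

theorem rotl_head {α : Type*} [BEq α] [LawfulBEq α] {l : List α} {m : α} (hm : m ∈ l) :
    (Al194.rotl l m)[0]? = some m := by
  unfold Al194.rotl
  have hl : 0 < l.length := List.length_pos_of_mem hm
  have hi := List.idxOf_lt_length_of_mem hm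
  rw [List.getElem?_rotate hl, Nat.zero_add, Nat.mod_eq_of_lt hi,
    List.getElem?_eq_getElem hi, List.getElem_idxOf hi]

theorem idx_map' {α β : Type*} [BEq α] [LawfulBEq α] [BEq β] [LawfulBEq β] {f : α → β} {l : List α}
    (hinj : ∀ x ∈ l, ∀ y ∈ l, f x = f y → x = y) {a : α} (ha : a ∈ l) :
    (l.map f).idxOf (f a) = l.idxOf a := by
  induction l with
  | nil => simp at ha
  | cons x L ih =>
    rw [List.map_cons]
    by_cases hxa : x = a
    · subst hxa
      rw [List.idxOf_cons_self, List.idxOf_cons_self]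
    · have h1 : f x ≠ f a := fun e => hxa (hinj x (by simp) a ha e)
      rw [List.idxOf_cons_ne _ h1, List.idxOf_cons_ne _ hxa]
      have ha' : a ∈ L := (List.mem_cons.1 ha).resolve_left (fun e => hxa e.symm)
      rw [ih (fun x hx y hy => hinj x (by simp [hx]) y (by simp [hy])) ha']

section map

variable {T T' : Type*} [DecidableEq T] [DecidableEq T']

/-- **relabelling of the ports** -/
theorem hv_map {w : Wd T} {w' : Wd T'} (h : Sw300.Ok w) (h' : Sw300.Ok w')
    {f : Port T' → Port T} (hf : ∀ x ∈ Sw300.L w', ∀ y ∈ Sw300.L w', f x = f y → x = y)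
    (hL : (Sw300.L w').map f ~r Sw300.L w) {s : T → Bool} {s' : T' → Bool}
    (hM : ∀ a ∈ Sw300.L w', Sw300.M s w (f a) = f (Sw300.M s' w' a))
    (hu : Sw300.u s w = f (Sw300.u s' w')) {m1 m2 m3 : Port T'} (h1 : m1 ∈ Sw300.L w')
    (h2 : m2 ∈ Sw300.L w') (h3 : m3 ∈ Sw300.L w') (h12 : m1 ≠ m2) (h13 : m1 ≠ m3)
    (h23 : m2 ≠ m3) : HV w (f m1) (f m2) (f m3) s = HV w' m1 m2 m3 s' := by
  have hmem : ∀ a ∈ Sw300.L w', f a ∈ Sw300.L w := fun a ha =>
    hL.mem_iff.1 (List.mem_map_of_mem ha)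
  have nd := Sw300.nodup h
  have nd' := Sw300.nodup h'
  have I' := Sw300.Ok.inv s' w' h'
  rw [Ob664.HV_eq_VL h (hmem _ h1) (hmem _ h2) (hmem _ h3) (fun e => h12 (hf _ h1 _ h2 e))
    (fun e => h13 (hf _ h1 _ h3 e)) (fun e => h23 (hf _ h2 _ h3 e)),
    Ob664.HV_eq_VL h' h1 h2 h3 h12 h13 h23]
  set l' := Al194.rotl (Sw300.L w') m1 with hl'
  have hml : ∀ x, x ∈ l' ↔ x ∈ Sw300.L w' := fun x => Al194.mem_rotl
  have e1 : Al194.rotl (Sw300.L w) (f m1) = l'.map f := by
    refine rotl_eq nd ?_ (hmem _ h1) ?_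
    · refine hL.symm.trans ?_
      refine ⟨(Sw300.L w').idxOf m1, ?_⟩
      rw [← List.map_rotate]; rfl
    · rw [List.getElem?_map, rotl_head h1]; rfl
  have hlen : (Sw300.L w).length = (Sw300.L w').length := by
    have := hL.perm.length_eq
    rw [List.length_map] at this
    exact this.symm
  have hinj : ∀ x ∈ l', ∀ y ∈ l', f x = f y → x = y := fun x hx y hy =>
    hf x ((hml x).1 hx) y ((hml y).1 hy)
  have idx : ∀ x ∈ l', (l'.map f).idxOf (f x) = l'.idxOf x := fun x hx =>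
    idx_map' hinj hx
  unfold Al194.VL
  rw [e1, hlen, hu, idx _ ((hml _).2 I'.um), idx _ ((hml _).2 h2), idx _ ((hml _).2 h3)]
  refine vc_congr fun i hi => ?_
  unfold Al194.piL
  rw [e1]
  have hi' : i < l'.length := by rw [hl', Al194.rotl_length]; exact hi
  have e2 : (l'.map f).getD i none = f (l'.getD i none) := by
    rw [List.getD_eq_getElem _ _ (by rw [List.length_map]; exact hi'),
      List.getD_eq_getElem _ _ hi', List.getElem_map]
  have hmi : l'.getD i none ∈ l' := by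
    rw [List.getD_eq_getElem _ _ hi']; exact List.getElem_mem _
  rw [e2, hM _ ((hml _).1 hmi), idx _ ((hml _).2 (I'.mem _ ((hml _).1 hmi)))]

/-! ### the clockwise order -/

/-- port map of a tile map -/
def fp {T T' : Type*} (g : T' → T) : Port T' → Port T := Option.map (Prod.map g id)

@[simp] theorem fp_none {T T' : Type*} (g : T' → T) : fp g none = none := rfl
@[simp] theorem fp_some {T T' : Type*} (g : T' → T) (t : T') (d : ZMod 4) :
    fp g (some (t, d)) = some (g t, d) := rfl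

theorem fp_rot {T T' : Type*} (g : T' → T) (x : Port T') :
    fp g (Xr249.rot x) = Xr249.rot (fp g x) := by
  rcases x with _ | ⟨t, d⟩ <;> rfl

theorem nx_map {T T' : Type*} {b : Port T → Port T} {b' : Port T' → Port T'}
    {f : Port T' → Port T} {Bad : Set (Port T')} (P : Port T' → Prop)
    (hf : ∀ x y, P x → P y → f x = f y → x = y)
    (hfr : ∀ x, f (Xr249.rot x) = Xr249.rot (f x)) (hPr : ∀ x, P x → P (Xr249.rot x))
    (hPb : ∀ x, P x → x ∉ Bad → P (b' (Xr249.rot x)))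
    (hb : ∀ x, P x → x ∉ Bad → f (b' (Xr249.rot x)) = b (f (Xr249.rot x)))
    (hbad : ∀ x, P x → b' (Xr249.rot x) ∈ Bad → x ∈ Bad) {p r : Port T'}
    (h : Xr249.Nx (Gl b') p r) (hp : P p) (hpb : p ∉ Bad) : Xr249.Nx (Gl b) (f p) (f r) := by
  induction h with
  | @stop p h =>
    have e : b' (Xr249.rot p) = Xr249.rot p := by
      by_contra hne
      exact h _ ⟨rfl, fun e => hne e.symm⟩
    have e2 := hb p hp hpb
    rw [e] at e2
    rw [hfr]
    refine .stop fun q hq => ?_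
    rw [← hfr] at hq
    exact hq.2 (e2.trans hq.1)
  | @go p q r hg _ ih =>
    have hq : P q := by rw [← hg.1]; exact hPb _ hp hpb
    have hqb : q ∉ Bad := fun h => hpb (hbad p hp (by rw [hg.1]; exact h))
    refine .go (q := f q) ⟨?_, ?_⟩ (ih hq hqb)
    · rw [← hfr, ← hb p hp hpb, hg.1]
    · rw [← hfr]
      intro e
      exact hg.2 (hf _ _ (hPr _ hp) hq e)

theorem chain_map_mem {α β : Type*} {R : α → α → Prop} {S : β → β → Prop} {f : α → β} :
    ∀ {l : List α}, List.IsChain R l → (∀ x ∈ l, ∀ y, R x y → S (f x) (f y)) →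
      List.IsChain S (l.map f)
  | [], _, _ => by simp
  | [x], _, _ => by simp
  | x :: y :: l, h, h1 => by
    simp only [List.map_cons, List.isChain_cons_cons] at h ⊢
    have := chain_map_mem (l := y :: l) h.2 fun z hz => h1 z (by simp [hz])
    rw [List.map_cons] at this
    exact ⟨h1 x (by simp) y h.1, this⟩

theorem rot_of_chain {α : Type*} [BEq α] [LawfulBEq α] {r : α → α → Prop}
    (hr : ∀ a b c, r a b → r a c → b = c) {l l' : List α} (h : Cycle.Chain r (l : Cycle α))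
    (h' : Cycle.Chain r (l' : Cycle α)) (nd : l.Nodup) (nd' : l'.Nodup) {y : α} (hy : y ∈ l)
    (hy' : y ∈ l') : l' ~r l := by
  have key : ∀ {l : List α}, Cycle.Chain r (l : Cycle α) → l.Nodup → y ∈ l →
      ∃ t, l ~r y :: t ∧ List.IsChain r (y :: (t ++ [y])) ∧ y ∉ t := by
    intro l h nd hy
    have h0 := rotl_head hy
    obtain ⟨t, ht⟩ : ∃ t, Al194.rotl l y = y :: t := by
      cases hx : Al194.rotl l y with
      | nil => rw [hx] at h0; simp at h0
      | cons a t => rw [hx] at h0; simp at h0; exact ⟨t, by rw [h0]⟩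
    have hr : l ~r y :: t := ⟨l.idxOf y, ht⟩
    have hc : ((y :: t : List α) : Cycle α) = (l : Cycle α) := (Cycle.coe_eq_coe.2 hr).symm
    rw [← hc, Cycle.chain_coe_cons] at h
    exact ⟨t, hr, h, (List.nodup_cons.1 (hr.nodup_iff.1 nd)).1⟩
  obtain ⟨t, h1, h2, h3⟩ := key h nd hy
  obtain ⟨t', h1', h2', h3'⟩ := key h' nd' hy'
  have e := Gc748.chain_det hr h2 h2' h3 h3'
  subst e
  exact h1'.trans h1.symm

theorem gl_det {b : Port T → Port T} (a c d : Port T) (h : Gl b a c) (h' : Gl b a d) : c = d :=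
  h.1.symm.trans h'.1

theorem gw_chain {A : Finset T} {b : Port T → Port T} {w : Wd T} (h : GW A b w) :
    Cycle.Chain (Xr249.Nx (Gl b)) (Sw300.L w : Cycle (Port T)) := by
  obtain ⟨x, l, h1, h2⟩ := h.nx
  rw [h1, Cycle.chain_coe_cons]
  exact h2

/-! ### the partner maps -/

/-- the port is a port of a tile of `A` -/
def TP (A : Finset T) (x : Port T) : Prop := ∃ t ∈ A, ∃ d, x = some (t, d)


theorem al_TP {A : Finset T'} {s : T → Bool} {g : T' → T} {x : Port T'} (h : TP A x) :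
    TP A (al (s ∘ g) x) ∧ fp g (al (s ∘ g) x) = al s (fp g x) := by
  obtain ⟨t, ht, d, rfl⟩ := h
  exact ⟨⟨t, ht, _, rfl⟩, rfl⟩

/-- walks of the first region, lifted to the second one -/
theorem walk_lift {A : Finset T'} {b : Port T → Port T} {b' : Port T' → Port T'} {g : T' → T}
    {J : Set (Port T')} {s : T → Bool}
    (hb : ∀ x, TP A x → x ∉ J → TP A (b' x) ∧ fp g (b' x) = b (fp g x)) {a' : Port T'}
    (ha' : TP A a') (hJ : ∀ j ∈ J, TP A j → ¬ Rf (al s) b (fp g a') (fp g j)) {y : Port T}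
    (h : Rf (al s) b (fp g a') y) : ∃ y', TP A y' ∧ fp g y' = y ∧ Rf (al (s ∘ g)) b' a' y' := by
  obtain ⟨-, h⟩ := h
  induction h with
  | refl => exact ⟨a', ha', rfl, .refl trivial⟩
  | @tail x z hx hxz ih =>
    obtain ⟨x', h1, h2, h3⟩ := ih
    obtain ⟨-, -, hxz⟩ := hxz
    rcases hxz with rfl | ⟨rfl, -, -⟩
    · obtain ⟨h4, h5⟩ := al_TP (s := s) (g := g) h1
      exact ⟨_, h4, by rw [h5, h2], h3.trans (rf_al x')⟩
    · have hxJ : x' ∉ J := by
        intro hj
        refine hJ x' hj h1 ?_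
        rw [h2]
        exact ⟨trivial, hx⟩
      obtain ⟨h4, h5⟩ := hb x' h1 hxJ
      exact ⟨_, h4, by rw [h5, h2], h3.trans (rf_be x')⟩

/-- the partner maps agree -/
theorem state_same {A : Finset T'} {b : Port T → Port T} {b' : Port T' → Port T'} {g : T' → T}
    {J : Set (Port T')} {s : T → Bool} {l : List (Port T)} {l' : List (Port T')}
    {M : Port T → Port T} {M' : Port T' → Port T'} {u : Port T} {u' : Port T'}
    (D : Sys (al s) b none l M u) (G : Sys (al (s ∘ g)) b' none l' M' u')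
    (hb : ∀ x, TP A x → x ∉ J → TP A (b' x) ∧ fp g (b' x) = b (fp g x))
    (hinj : ∀ x y, TP A x → TP A y → fp g x = fp g y → x = y) (hl : ∀ a ∈ l', TP A a)
    (hll : (l'.map (fp g)) ~r l)
    (hJ : ∀ a ∈ l, a ≠ u → ∀ j ∈ J, TP A j → ¬ Rf (al s) b a (fp g j)) :
    (∀ a ∈ l', M (fp g a) = fp g (M' a)) ∧ u = fp g u' := by
  have hmem : ∀ a ∈ l', fp g a ∈ l := fun a ha => hll.mem_iff.1 (List.mem_map_of_mem ha)
  have hsur : ∀ a ∈ l, ∃ a' ∈ l', fp g a' = a := fun a ha => by
    have := hll.mem_iff.2 ha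
    rwa [List.mem_map] at this
  have hout : ∀ x, TP A x → fp g x ∈ l → x ∈ l' := by
    intro x hx hxl
    obtain ⟨y, hy, hyx⟩ := hsur _ hxl
    rw [hinj x y hx (hl y hy) hyx.symm]
    exact hy
  have key : ∀ a ∈ l', fp g a ≠ u → M (fp g a) = fp g (M' a) := by
    intro a ha hau
    have h1 := D.str _ (hmem a ha)
    obtain ⟨y', h2, h3, h4⟩ := walk_lift hb (hl a ha) (hJ _ (hmem a ha) hau) h1
    have h5 : y' ∈ l' := hout y' h2 (by rw [h3]; exact D.mem _ (hmem a ha))
    rcases G.uni a ha y' h5 h4 with h6 | h6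
    · exfalso
      rw [h6] at h3
      exact hau ((D.fix _ (hmem a ha)).1 h3.symm)
    · rw [← h3, h6]
  have hu : u = fp g u' := by
    obtain ⟨c, hc, hcu⟩ := hsur u D.uL
    by_contra hne
    have h1 : fp g u' ≠ u := fun e => hne e.symm
    have h2 := key u' G.uL h1
    have h3 : M' u' = u' := (G.fix u' G.uL).2 rfl
    rw [h3] at h2
    exact h1 ((D.fix _ (hmem _ G.uL)).1 h2)
  refine ⟨fun a ha => ?_, hu⟩
  by_cases hau : fp g a = u
  · have h1 : a = u' := hinj a u' (hl a ha) (hl u' G.uL) (hau.trans hu)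
    rw [h1, (G.fix u' G.uL).2 rfl, ← hu]
    exact (D.fix u D.uL).2 rfl
  · exact key a ha hau

end map

/-! ### the law of the tiles read through a map -/

section law

variable {κ ι : Type*} [DecidableEq κ]

theorem hv_comp (w : Wd κ) (m1 m2 m3 : Port κ) {g : κ → ι} (hg : Set.InjOn g {t | t ∈ tls w}) :
    Integrable (fun s : ι → Bool => HV w m1 m2 m3 (s ∘ g)) (PB fun _ : ι => hf) ∧
      ∫ s, HV w m1 m2 m3 (s ∘ g) ∂(PB fun _ : ι => hf) = Ob664.HW w m1 m2 m3 := by
  classical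
  let S0 : Finset κ := (tls w).toFinset
  let e : (S0 → Bool) → (κ → Bool) := fun z t => if h : t ∈ S0 then z ⟨t, h⟩ else false
  let G : (S0 → Bool) → ℂ := fun z => HV w m1 m2 m3 (e z)
  have hG : ∀ s' : κ → Bool, HV w m1 m2 m3 s' = G (fun t => s' t) := by
    intro s'
    refine Ob664.HV_congr fun t ht => ?_
    have : t ∈ S0 := List.mem_toFinset.2 ht
    simp only [e, dif_pos this]
  have hGm : ∀ {μ : Measure (S0 → Bool)}, AEStronglyMeasurable G μ := fun {μ} =>
    (measurable_of_finite G).aestronglyMeasurable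
  have j1 : Function.Injective (fun t : S0 => g t) := fun a c hac =>
    Subtype.ext (hg (List.mem_toFinset.1 a.2) (List.mem_toFinset.1 c.2) hac)
  have h1 := PB_map_inj (ι := ι) (κ := S0) j1 (fun _ => hf)
  have h2 := PB_map_inj (ι := κ) (κ := S0) (j := fun t : S0 => (t : κ)) Subtype.val_injective
    (fun _ => hf)
  have m1' : Measurable (fun (z : ι → Bool) (k : S0) => z (g k)) :=
    measurable_pi_lambda _ fun k => measurable_pi_apply _
  have m2' : Measurable (fun (z : κ → Bool) (k : S0) => z k) :=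
    measurable_pi_lambda _ fun k => measurable_pi_apply _
  have e1 : (fun s : ι → Bool => HV w m1 m2 m3 (s ∘ g)) = G ∘ fun (z : ι → Bool) (k : S0) => z (g k) := by
    funext s
    exact hG _
  have e2 : HV w m1 m2 m3 = G ∘ fun (z : κ → Bool) (k : S0) => z k := by
    funext s
    exact hG _
  constructor
  · refine Integrable.of_bound ?_ 1 (Filter.Eventually.of_forall fun _ =>
      Ob664.norm_le_of_Tri Ob664.HV_mem)
    rw [e1]
    exact ((measurable_of_finite G).comp m1').aestronglyMeasurable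
  · unfold Ob664.HW
    rw [e1, e2]
    have i1 := integral_map (μ := PB fun _ : ι => hf) m1'.aemeasurable (f := G) hGm
    have i2 := integral_map (μ := PB fun _ : κ => hf) m2'.aemeasurable (f := G) hGm
    rw [h1] at i1
    rw [h2] at i2
    exact i1.symm.trans i2

end law

/-! ### the chart at `z` -/

/-- Env tile of the tile `v` of the dislocated lattice -/
def ch (p y0 : ℤ) (v : P2) : P2 := (p + v.1, y0 - 1 + v.2)

/-- splitting in the chart (opposite convention) -/
def cs (p y0 : ℤ) (s : P2 → Bool) : P2 → Bool := fun v => !(s (ch p y0 v))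

/-- medial edge of a port -/
def pd (v : P2) (d : ZMod 4) : P2 × Bool :=
  if d = 0 then eW v else if d = 1 then eN v else if d = 2 then eE v else eS v

@[simp] theorem pd0 (v : P2) : pd v 0 = eW v := rfl
@[simp] theorem pd1 (v : P2) : pd v 1 = eN v := rfl
@[simp] theorem pd2 (v : P2) : pd v 2 = eE v := rfl
@[simp] theorem pd3 (v : P2) : pd v 3 = eS v := rfl

/-- the edge is near the center -/
def Near (r : ℕ) (e : P2 × Bool) : Prop :=
  (-(r : ℤ) ≤ e.1.1 ∧ e.1.1 ≤ r) ∧ (-(r : ℤ) ≤ e.1.2 ∧ e.1.2 ≤ r)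

/-- the edge is far from the center -/
def Far (ρ : ℕ) (e : P2 × Bool) : Prop :=
  (ρ : ℤ) ≤ e.1.1 ∨ e.1.1 ≤ -(ρ : ℤ) ∨ (ρ : ℤ) ≤ e.1.2 ∨ e.1.2 ≤ -(ρ : ℤ)

theorem ch_inj (p y0 : ℤ) : Function.Injective (ch p y0) := by
  rintro ⟨a, b⟩ ⟨c, d⟩ h
  simp only [ch, Prod.mk.injEq] at h ⊢
  omega

theorem pr_al {p y0 : ℤ} (s : P2 → Bool) (v : P2) (d : ZMod 4) :
    Pr (cs p y0 s) v (pd v d) (pd v (thru (s (ch p y0 v)) d)) := by
  have h : s (ch p y0 v) = true ∨ s (ch p y0 v) = false := by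
    cases s (ch p y0 v) <;> simp
  unfold Pr cs
  rcases h with h | h <;> rcases Env664.z4 d with rfl | rfl | rfl | rfl <;> rw [h]
  · left; exact ⟨rfl, Or.inl ⟨rfl, rfl⟩⟩
  · left; exact ⟨rfl, Or.inr (Or.inl ⟨rfl, rfl⟩)⟩
  · left; exact ⟨rfl, Or.inr (Or.inr (Or.inr ⟨rfl, rfl⟩))⟩
  · left; exact ⟨rfl, Or.inr (Or.inr (Or.inl ⟨rfl, rfl⟩))⟩
  · right; exact ⟨rfl, Or.inl ⟨rfl, rfl⟩⟩
  · right; exact ⟨rfl, Or.inr (Or.inr (Or.inl ⟨rfl, rfl⟩))⟩
  · right; exact ⟨rfl, Or.inr (Or.inr (Or.inr ⟨rfl, rfl⟩))⟩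
  · right; exact ⟨rfl, Or.inr (Or.inl ⟨rfl, rfl⟩)⟩

theorem pr_port {p y0 : ℤ} {s : P2 → Bool} {v : P2} {e e' : P2 × Bool}
    (h : Pr (cs p y0 s) v e e') : ∃ d, e = pd v d ∧ e' = pd v (thru (s (ch p y0 v)) d) := by
  unfold Pr cs at h
  rcases h with ⟨h0, h⟩ | ⟨h0, h⟩
  · have h1 : s (ch p y0 v) = true := by simpa using h0
    rw [h1]
    rcases h with ⟨rfl, rfl⟩ | ⟨rfl, rfl⟩ | ⟨rfl, rfl⟩ | ⟨rfl, rfl⟩
    · exact ⟨0, rfl, rfl⟩
    · exact ⟨1, rfl, rfl⟩
    · exact ⟨3, rfl, rfl⟩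
    · exact ⟨2, rfl, rfl⟩
  · have h1 : s (ch p y0 v) = false := by simpa using h0
    rw [h1]
    rcases h with ⟨rfl, rfl⟩ | ⟨rfl, rfl⟩ | ⟨rfl, rfl⟩ | ⟨rfl, rfl⟩
    · exact ⟨0, rfl, rfl⟩
    · exact ⟨3, rfl, rfl⟩
    · exact ⟨1, rfl, rfl⟩
    · exact ⟨2, rfl, rfl⟩

section box

open Env664 (beD nbD res_of portOf_some portOf_none nbD_leg nbD_W nbD_E nbD_N1 nbD_N nbD_Sleg nbD_S1
  nbD_S)

variable {A : Finset P2} {p y0 xr : ℤ} {R : ℕ}

/-- the box of radius `R` at `z` is in the region -/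
structure Bxz (A : Finset P2) (p y0 xr : ℤ) (R : ℕ) : Prop where
  pos : 1 ≤ R
  mem : ∀ v ∈ Bx R, ch p y0 v ∈ A
  xr : p + R ≤ xr

theorem be_of {x y : Port P2} (hx : Env664.PortOf A x) (hy : Env664.PortOf A y)
    (h : nbD p y0 xr x = y) : beD A p y0 xr x = y := by
  subst h
  exact res_of hx hy

/-- glueing of a port of the box -/
theorem be_box (hB : Bxz A p y0 xr R) {v : P2} (hv : v ∈ Bx R) (d : ZMod 4) :
    Far R (pd v d) ∨ (beD A p y0 xr (some (ch p y0 v, d)) = none ∧ pd v d = leg0) ∨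
      (∃ v' ∈ Bx R, ∃ d', beD A p y0 xr (some (ch p y0 v, d)) = some (ch p y0 v', d') ∧
        pd v' d' = pd v d ∧ d ≠ d') := by
  obtain ⟨i, j⟩ := v
  have hvA := hB.mem _ hv
  have hR := hB.pos
  have hxr := hB.xr
  have pv : Env664.PortOf A (some (ch p y0 (i, j), d) : Port P2) := portOf_some.2 hvA
  simp only [Bx, Set.mem_ofPred_eq] at hv
  rcases Env664.z4 d with rfl | rfl | rfl | rfl
  · by_cases h1 : i = -R
    · left; unfold Far; simp only [pd0, eW]; omega
    · right; right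
      have hm : ((i - 1, j) : P2) ∈ Bx R := by simp only [Bx, Set.mem_ofPred_eq]; omega
      refine ⟨(i - 1, j), hm, 2, ?_, rfl, by decide⟩
      refine be_of pv (portOf_some.2 (hB.mem _ hm)) ?_
      unfold ch; rw [nbD_W]
      simp only [Option.some.injEq, Prod.mk.injEq, and_true, true_and]; omega
  · by_cases h1 : j = R
    · left; unfold Far; simp only [pd1, eN]
      rw [if_neg (by omega)]; dsimp only; omega
    · by_cases h0 : j = 0
      · by_cases hi : i < 0
        · right; right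
          have hm : ((i, 1) : P2) ∈ Bx R := by simp only [Bx, Set.mem_ofPred_eq]; omega
          refine ⟨(i, 1), hm, 3, ?_, ?_, by decide⟩
          · refine be_of pv (portOf_some.2 (hB.mem _ hm)) ?_
            unfold ch; rw [nbD_N (by omega)]
            simp only [Option.some.injEq, Prod.mk.injEq, and_true, true_and]; omega
          · simp only [pd3, pd1, eS, eN, phi, if_pos h0, if_pos hi]; rfl
        · by_cases h2 : i = R
          · left; unfold Far; simp only [pd1, eN, phi, if_pos h0, if_neg hi]; omega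
          · right; right
            have hm : ((i + 1, 1) : P2) ∈ Bx R := by simp only [Bx, Set.mem_ofPred_eq]; omega
            refine ⟨(i + 1, 1), hm, 3, ?_, ?_, by decide⟩
            · refine be_of pv (portOf_some.2 (hB.mem _ hm)) ?_
              unfold ch; rw [nbD_N1 (by omega)]
              simp only [Option.some.injEq, Prod.mk.injEq, and_true, true_and]; omega
            · simp only [pd3, pd1, eS, eN, phi, if_pos h0, if_neg hi]; rfl
      · right; right
        have hm : ((i, j + 1) : P2) ∈ Bx R := by simp only [Bx, Set.mem_ofPred_eq]; omega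
        refine ⟨(i, j + 1), hm, 3, ?_, ?_, by decide⟩
        · refine be_of pv (portOf_some.2 (hB.mem _ hm)) ?_
          unfold ch; rw [nbD_N (by omega)]
          simp only [Option.some.injEq, Prod.mk.injEq, and_true, true_and]; omega
        · simp only [pd3, pd1, eS, eN, if_neg h0]
          simp
  · by_cases h1 : i = R
    · left; unfold Far; simp only [pd2, eE]; omega
    · right; right
      have hm : ((i + 1, j) : P2) ∈ Bx R := by simp only [Bx, Set.mem_ofPred_eq]; omega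
      refine ⟨(i + 1, j), hm, 0, ?_, ?_, by decide⟩
      · refine be_of pv (portOf_some.2 (hB.mem _ hm)) ?_
        unfold ch; rw [nbD_E]
        simp only [Option.some.injEq, Prod.mk.injEq, and_true, true_and]; omega
      · simp only [pd0, pd2, eW, eE]; simp
  · by_cases h1 : j = -R
    · left; unfold Far; simp only [pd3, eS]; omega
    · by_cases h0 : j = 1
      · subst h0
        by_cases hi : i = 0
        · right; left
          subst hi
          constructor
          · refine be_of pv (portOf_none A) ?_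
            unfold ch; rw [nbD_Sleg (by omega)]
          · rfl
        · by_cases hi' : i < 0
          · right; right
            have hm : ((i, 0) : P2) ∈ Bx R := by simp only [Bx, Set.mem_ofPred_eq]; omega
            refine ⟨(i, 0), hm, 1, ?_, ?_, by decide⟩
            · refine be_of pv (portOf_some.2 (hB.mem _ hm)) ?_
              unfold ch; rw [nbD_S (by omega)]
              simp only [Option.some.injEq, Prod.mk.injEq, and_true, true_and]; omega
            · simp only [pd3, pd1, eS, eN, phi, if_pos hi', if_true]; rfl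
          · right; right
            have hm : ((i - 1, 0) : P2) ∈ Bx R := by simp only [Bx, Set.mem_ofPred_eq]; omega
            refine ⟨(i - 1, 0), hm, 1, ?_, ?_, by decide⟩
            · refine be_of pv (portOf_some.2 (hB.mem _ hm)) ?_
              unfold ch; rw [nbD_S1 (by omega)]
              simp only [Option.some.injEq, Prod.mk.injEq, and_true, true_and]; omega
            · simp only [pd3, pd1, eS, eN, phi, if_true]
              rw [if_neg (by omega)]; simp
      · right; right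
        have hm : ((i, j - 1) : P2) ∈ Bx R := by simp only [Bx, Set.mem_ofPred_eq]; omega
        refine ⟨(i, j - 1), hm, 1, ?_, ?_, by decide⟩
        · refine be_of pv (portOf_some.2 (hB.mem _ hm)) ?_
          unfold ch; rw [nbD_S (by omega)]
          simp only [Option.some.injEq, Prod.mk.injEq, and_true, true_and]; omega
        · simp only [pd3, pd1, eS, eN]
          rw [if_neg (by omega)]

/-- two ports of the box with the same medial edge are equal or glued -/
theorem same_edge (hB : Bxz A p y0 xr R) {v v' : P2} (hv : v ∈ Bx R) (hv' : v' ∈ Bx R)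
    {d d' : ZMod 4} (h : pd v d = pd v' d') :
    (v = v' ∧ d = d') ∨ beD A p y0 xr (some (ch p y0 v, d)) = some (ch p y0 v', d') := by
  obtain ⟨i, j⟩ := v
  obtain ⟨i', j'⟩ := v'
  have pv : Env664.PortOf A (some (ch p y0 (i, j), d) : Port P2) := portOf_some.2 (hB.mem _ hv)
  have pv' : Env664.PortOf A (some (ch p y0 (i', j'), d') : Port P2) :=
    portOf_some.2 (hB.mem _ hv')
  have hR := hB.pos
  have hxr := hB.xr
  simp only [Bx, Set.mem_ofPred_eq] at hv hv'
  rcases Env664.z4 d with rfl | rfl | rfl | rfl <;>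
    rcases Env664.z4 d' with rfl | rfl | rfl | rfl <;>
    simp only [pd0, pd1, pd2, pd3, eW, eE, eS, eN, phi] at h
  · left; simp only [Prod.mk.injEq, and_true, true_and] at h ⊢; omega
  · exfalso; split_ifs at h <;> simp at h
  · right
    simp only [Prod.mk.injEq, and_true, true_and] at h
    refine be_of pv pv' ?_
    unfold ch; rw [nbD_W]
    simp only [Option.some.injEq, Prod.mk.injEq, and_true, true_and]; omega
  · exfalso; simp at h
  · exfalso; split_ifs at h <;> simp at h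
  · left
    refine ⟨?_, rfl⟩
    split_ifs at h <;> simp only [Prod.mk.injEq, and_true, true_and] at h ⊢ <;> omega
  · exfalso; split_ifs at h <;> simp at h
  · right
    refine be_of pv pv' ?_
    unfold ch
    by_cases hj : j = 0
    · by_cases hi : i < 0
      · rw [if_pos hj, if_pos hi] at h
        simp only [Prod.mk.injEq, and_true, true_and] at h
        rw [nbD_N (by omega)]
        simp only [Option.some.injEq, Prod.mk.injEq, and_true, true_and]; omega
      · rw [if_pos hj, if_neg hi] at h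
        simp only [Prod.mk.injEq, and_true, true_and] at h
        rw [nbD_N1 (by omega)]
        simp only [Option.some.injEq, Prod.mk.injEq, and_true, true_and]; omega
    · rw [if_neg hj] at h
      simp only [Prod.mk.injEq, and_true, true_and] at h
      rw [nbD_N (by omega)]
      simp only [Option.some.injEq, Prod.mk.injEq, and_true, true_and]; omega
  · right
    simp only [Prod.mk.injEq, and_true, true_and] at h
    refine be_of pv pv' ?_
    unfold ch; rw [nbD_E]
    simp only [Option.some.injEq, Prod.mk.injEq, and_true, true_and]; omega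
  · exfalso; split_ifs at h <;> simp at h
  · left; simp only [Prod.mk.injEq, and_true, true_and] at h ⊢; omega
  · exfalso; simp at h
  · exfalso; simp at h
  · right
    refine be_of pv pv' ?_
    unfold ch
    by_cases hj : j' = 0
    · by_cases hi : i' < 0
      · rw [if_pos hj, if_pos hi] at h
        simp only [Prod.mk.injEq, and_true, true_and] at h
        rw [nbD_S (by omega)]
        simp only [Option.some.injEq, Prod.mk.injEq, and_true, true_and]; omega
      · rw [if_pos hj, if_neg hi] at h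
        simp only [Prod.mk.injEq, and_true, true_and] at h
        rw [nbD_S1 (by omega)]
        simp only [Option.some.injEq, Prod.mk.injEq, and_true, true_and]; omega
    · rw [if_neg hj] at h
      simp only [Prod.mk.injEq, and_true, true_and] at h
      rw [nbD_S (by omega)]
      simp only [Option.some.injEq, Prod.mk.injEq, and_true, true_and]; omega
  · exfalso; simp at h
  · left; simp only [Prod.mk.injEq, and_true, true_and] at h ⊢; omega

/-- the port of the box with the medial edge `leg0` -/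
theorem leg_port (hB : Bxz A p y0 xr R) {v : P2} (hv : v ∈ Bx R) {d : ZMod 4}
    (h : pd v d = leg0) : beD A p y0 xr none = some (ch p y0 v, d) := by
  obtain ⟨i, j⟩ := v
  have pv : Env664.PortOf A (some (ch p y0 (i, j), d) : Port P2) := portOf_some.2 (hB.mem _ hv)
  refine be_of (portOf_none A) pv ?_
  rw [nbD_leg]
  unfold leg0 at h
  rcases Env664.z4 d with rfl | rfl | rfl | rfl <;>
    simp only [pd0, pd1, pd2, pd3, eW, eE, eS, eN, phi] at h
  · simp at h
  · exfalso; split_ifs at h <;> simp only [Prod.mk.injEq, and_true, true_and] at h <;> omega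
  · simp at h
  · simp only [Prod.mk.injEq, and_true, true_and] at h
    unfold ch
    simp only [Option.some.injEq, Prod.mk.injEq, and_true, true_and]; omega

/-- a medial edge of the leg inside the box is on the strand of the leg -/
theorem leg_rf (hB : Bxz A p y0 xr R) {s : P2 → Bool} {e : P2 × Bool}
    (he : e ∈ Leg (Bx R) (cs p y0 s)) : ∀ v ∈ Bx R, ∀ d, pd v d = e →
      Rf (al s) (beD A p y0 xr) none (some (ch p y0 v, d)) := by
  induction he with
  | refl =>
    intro v hv d hd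
    rw [← leg_port hB hv hd]
    exact rf_be none
  | @tail e e' _ hst ih =>
    intro v' hv' d' hd'
    obtain ⟨v, hv, hp⟩ := hst
    obtain ⟨d, rfl, h2⟩ := pr_port hp
    have h1 := ih v hv d rfl
    have h3 : Rf (al s) (beD A p y0 xr) none (some (ch p y0 v, thru (s (ch p y0 v)) d)) :=
      h1.trans (rf_al _)
    rcases same_edge hB hv hv' (h2.symm.trans hd'.symm) with ⟨rfl, rfl⟩ | h4
    · exact h3
    · refine h3.trans ?_
      rw [← h4]
      exact rf_be _

/-- **a strand of a free end which comes near `z` is a second strand** -/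
theorem near_T (hB : Bxz A p y0 xr R) {s : P2 → Bool} {a : Port P2} {r : ℕ}
    (hfree : beD A p y0 xr a = a) (ha : a ≠ none) (hal : Function.Involutive (al s))
    (hbe : Function.Involutive (beD A p y0 xr)) (hno : ¬ Rf (al s) (beD A p y0 xr) none a)
    {v0 : P2} (hv0 : v0 ∈ Bx R) {d0 : ZMod 4} (hn : Near r (pd v0 d0))
    (h : Rf (al s) (beD A p y0 xr) a (some (ch p y0 v0, d0))) :
    cs p y0 s ∈ T R r R := by
  have hleg : ∀ {e : P2 × Bool}, e = pd v0 d0 → e ∉ Leg (Bx R) (cs p y0 s) := by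
    rintro e rfl he
    exact hno ((leg_rf hB he v0 hv0 d0 rfl).trans (h.symm hal hbe))
  have hsy : ∀ {e e' : P2 × Bool}, Relation.ReflTransGen (St (Bx R) (cs p y0 s)) e e' →
      Relation.ReflTransGen (St (Bx R) (cs p y0 s)) e' e := by
    intro e e' h
    induction h with
    | refl => exact .refl
    | tail _ h ih => exact .head h.symm ih
  have key : ∀ y, Rf (al s) (beD A p y0 xr) (some (ch p y0 v0, d0)) y →
      (∃ e', Relation.ReflTransGen (St (Bx R) (cs p y0 s)) (pd v0 d0) e' ∧ Far R e') ∨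
      (∃ v ∈ Bx R, ∃ d, y = some (ch p y0 v, d) ∧
        Relation.ReflTransGen (St (Bx R) (cs p y0 s)) (pd v0 d0) (pd v d)) := by
    rintro y ⟨-, hy⟩
    induction hy with
    | refl => exact Or.inr ⟨v0, hv0, d0, rfl, .refl⟩
    | @tail x z _ hxz ih =>
      rcases ih with ih | ⟨v, hv, d, rfl, ih⟩
      · exact Or.inl ih
      obtain ⟨-, -, hxz⟩ := hxz
      rcases hxz with rfl | ⟨rfl, -, -⟩
      · exact Or.inr ⟨v, hv, _, rfl, ih.tail ⟨v, hv, pr_al s v d⟩⟩
      · rcases be_box hB hv d with h1 | ⟨-, h1⟩ | ⟨v', hv', d', h1, h2, -⟩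
        · exact Or.inl ⟨_, ih, h1⟩
        · exfalso
          rw [h1] at ih
          exact hleg rfl (hsy ih)
        · refine Or.inr ⟨v', hv', d', h1, ?_⟩
          rw [h2]; exact ih
  have hfin : ∃ e', Relation.ReflTransGen (St (Bx R) (cs p y0 s)) (pd v0 d0) e' ∧ Far R e' := by
    rcases key a (h.symm hal hbe) with h1 | ⟨v, hv, d, rfl, h1⟩
    · exact h1
    rcases be_box hB hv d with h2 | ⟨h2, -⟩ | ⟨v', hv', d', h2, -, h4⟩
    · exact ⟨_, h1, h2⟩
    · rw [hfree] at h2; exact absurd h2 ha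
    · rw [hfree] at h2
      simp only [Option.some.injEq, Prod.mk.injEq] at h2
      exact absurd h2.2 h4
  obtain ⟨e', h1, h2⟩ := hfin
  exact ⟨pd v0 d0, e', h1, hleg rfl, hn, h2⟩

end box

/-! ### the probability of the event in the chart -/

theorem cs_map (p y0 : ℤ) : (muT).map (cs p y0) = muT := by
  have h1 := PB_map_inj (ι := P2) (κ := P2) (ch_inj p y0) (fun _ => hf)
  have h2 := PB_map_not (fun _ : P2 => hf)
  have m1 : Measurable (fun (z : P2 → Bool) (k : P2) => z (ch p y0 k)) :=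
    measurable_pi_lambda _ fun k => measurable_pi_apply _
  have m2 : Measurable (fun (z : P2 → Bool) (k : P2) => !z k) :=
    measurable_pi_lambda _ fun k => (measurable_of_finite not).comp (measurable_pi_apply k)
  have e : cs p y0 = (fun (z : P2 → Bool) (k : P2) => !z k) ∘
      fun (z : P2 → Bool) (k : P2) => z (ch p y0 k) := rfl
  rw [e, ← Measure.map_map m2 m1, h1, h2]
  simp only [sigma_hf]

theorem cs_meas (p y0 : ℤ) : Measurable (cs p y0) :=
  measurable_pi_lambda _ fun k => (measurable_of_finite not).comp (measurable_pi_apply (ch p y0 k))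

theorem cs_real (p y0 : ℤ) (R : ℤ) (r ρ : ℕ) :
    (muT).real {s | cs p y0 s ∈ T R r ρ} = (muT).real (T R r ρ) := by
  have hm := (T_dep R r ρ).measurableSet
  have h : (Measure.map (cs p y0) muT).real (T R r ρ) = (muT).real {s | cs p y0 s ∈ T R r ρ} := by
    rw [measureReal_def, measureReal_def, Measure.map_apply (cs_meas p y0) hm]
    rfl
  rw [← h, cs_map]

/-! ### comparison of two regions -/

section core

open Env664 (beD)

/-- Two regions which differ only near `z = (p, y0)`: `(A, beD A p y0 xr)` and `(A', b')`.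
`g` relabels the tiles of `A'`; `J` = ports of `A'` near `z` where the glueings may differ;
`Bad` = vertex states (port and next port, clockwise) around `J`. -/
structure Cmp (A A' : Finset P2) (p y0 xr : ℤ) (b' : Port P2 → Port P2) (g : P2 → P2)
    (J Bad : Set (Port P2)) (r R : ℕ) : Prop where
  box : Bxz A p y0 xr R
  inj : Set.InjOn g A'
  leg : b' none ≠ none
  near : ∀ t d, some (t, d) ∈ J → t ∈ A' → ∃ v ∈ Bx R, g t = ch p y0 v ∧ Near r (pd v d)
  agr : ∀ x, TP A' x → x ∉ J → TP A' (b' x) ∧ fp g (b' x) = beD A p y0 xr (fp g x)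
  badJ : ∀ x, TP A' x → Xr249.rot x ∈ J → x ∈ Bad
  back : ∀ x, TP A' x → b' (Xr249.rot x) ∈ Bad → x ∈ Bad
  free : ∀ x, TP A' x → b' x = x → x ∉ Bad

variable {A A' : Finset P2} {p y0 xr : ℤ} {b' : Port P2 → Port P2} {g : P2 → P2}
  {J Bad : Set (Port P2)} {r R : ℕ} {w w' : Wd P2}

theorem TP.rot {A : Finset P2} {x : Port P2} (h : TP A x) : TP A (Xr249.rot x) := by
  obtain ⟨t, ht, d, rfl⟩ := h
  exact ⟨t, ht, _, rfl⟩

theorem fp_inj (hg : Set.InjOn g A') {x y : Port P2} (hx : TP A' x) (hy : TP A' y)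
    (h : fp g x = fp g y) : x = y := by
  obtain ⟨t, ht, d, rfl⟩ := hx
  obtain ⟨t', ht', d', rfl⟩ := hy
  simp only [fp_some, Option.some.injEq, Prod.mk.injEq] at h
  rw [hg ht ht' h.1, h.2]

/-- members of the list of a good word -/
theorem gw_mem {A : Finset P2} {b : Port P2 → Port P2} {w : Wd P2} (h : GW A b w)
    (hl : b none ≠ none) {x : Port P2} (hx : x ∈ Sw300.L w) : TP A x ∧ b x = x := by
  have hb := (Gc748.be_state h.word.1).free x hx
  rw [h.word.2.2.2 x] at hb
  rcases x with _ | ⟨t, d⟩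
  · exact absurd hb hl
  · exact ⟨⟨t, (h.word.2.2.1 t).1 (Gc748.mem_L_tls h.word.1 hx), d, rfl⟩, hb⟩

theorem gw_be {A : Finset P2} {b : Port P2 → Port P2} {w : Wd P2} (h : GW A b w) :
    Sw300.be w = b := funext h.word.2.2.2

theorem Cmp.legA (hC : Cmp A A' p y0 xr b' g J Bad r R) : beD A p y0 xr none ≠ none := by
  have h1 : (((0 : ℤ), (1 : ℤ)) : P2) ∈ Bx (R : ℤ) := by
    have := hC.box.pos
    simp only [Bx, Set.mem_ofPred_eq]; omega
  rw [leg_port hC.box h1 (d := 3) rfl]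
  simp

/-- the clockwise lists agree -/
theorem Cmp.list (hC : Cmp A A' p y0 xr b' g J Bad r R) (hw : GW A (beD A p y0 xr) w)
    (hw' : GW A' b' w') {m : Port P2} (hm : m ∈ Sw300.L w') (hm' : fp g m ∈ Sw300.L w) :
    (Sw300.L w').map (fp g) ~r Sw300.L w := by
  have hmem : ∀ x ∈ Sw300.L w', TP A' x ∧ b' x = x := fun x hx => gw_mem hw' hC.leg hx
  have hnx : ∀ x ∈ Sw300.L w', ∀ y, Xr249.Nx (Gl b') x y →
      Xr249.Nx (Gl (beD A p y0 xr)) (fp g x) (fp g y) := by
    intro x hx y hxy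
    obtain ⟨h1, h2⟩ := hmem x hx
    refine nx_map (Bad := Bad) (TP A') (fun x y hx hy h => fp_inj hC.inj hx hy h) (fp_rot g)
      (fun x h => h.rot) ?_ ?_ hC.back hxy h1 (hC.free x h1 h2)
    · intro x hx hxb
      exact (hC.agr _ hx.rot fun h => hxb (hC.badJ x hx h)).1
    · intro x hx hxb
      exact (hC.agr _ hx.rot fun h => hxb (hC.badJ x hx h)).2
  have c' : Cycle.Chain (Xr249.Nx (Gl (beD A p y0 xr)))
      (((Sw300.L w').map (fp g) : List (Port P2)) : Cycle (Port P2)) := by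
    obtain ⟨x, l, h1, h2⟩ := hw'.nx
    rw [h1] at hnx
    rw [h1, List.map_cons, Cycle.chain_coe_cons]
    have h3 := chain_map_mem (f := fp g) (l := x :: (l ++ [x])) h2
      (S := Xr249.Nx (Gl (beD A p y0 xr))) fun z hz y => by
        refine hnx z ?_ y
        simp only [List.mem_cons, List.mem_append, List.mem_nil_iff, or_false] at hz ⊢
        tauto
    rw [List.map_cons, List.map_append, List.map_cons, List.map_nil] at h3
    exact h3
  have nd' : ((Sw300.L w').map (fp g)).Nodup := by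
    refine List.Nodup.map_on ?_ (Sw300.nodup hw'.word.1)
    intro x hx y hy h
    exact fp_inj hC.inj (hmem x hx).1 (hmem y hy).1 h
  exact rot_of_chain (r := Xr249.Nx (Gl (beD A p y0 xr)))
    (fun a b c => Xr249.Nx.det (fun a c d => gl_det a c d)) (gw_chain hw) c'
    (Sw300.nodup hw.word.1) nd' hm' (List.mem_map_of_mem hm)

/-- the observables agree off the event -/
theorem Cmp.hv (hC : Cmp A A' p y0 xr b' g J Bad r R) (hw : GW A (beD A p y0 xr) w)
    (hw' : GW A' b' w') {m1 m2 m3 : Port P2} (h1 : m1 ∈ Sw300.L w') (h2 : m2 ∈ Sw300.L w')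
    (h3 : m3 ∈ Sw300.L w') (h12 : m1 ≠ m2) (h13 : m1 ≠ m3) (h23 : m2 ≠ m3)
    (h1' : fp g m1 ∈ Sw300.L w) {s : P2 → Bool} (hs : cs p y0 s ∉ T R r R) :
    HV w (fp g m1) (fp g m2) (fp g m3) s = HV w' m1 m2 m3 (s ∘ g) := by
  have hmem : ∀ x ∈ Sw300.L w', TP A' x ∧ b' x = x := fun x hx => gw_mem hw' hC.leg hx
  have hL := hC.list hw hw' h1 h1'
  have D := sys_of_word hw.word.1 s
  rw [gw_be hw] at D
  have G := sys_of_word hw'.word.1 (s ∘ g)
  rw [gw_be hw'] at G
  obtain ⟨hM, hu⟩ := state_same (A := A') (J := J) D G hC.agr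
    (fun x y hx hy h => fp_inj hC.inj hx hy h) (fun a ha => (hmem a ha).1) hL (by
      intro a ha hau j hj hjT hR
      obtain ⟨t, ht, d, rfl⟩ := hjT
      obtain ⟨v, hv, hv1, hv2⟩ := hC.near t d hj ht
      rw [fp_some, hv1] at hR
      obtain ⟨ha1, ha2⟩ := gw_mem hw hC.legA ha
      refine hs (near_T hC.box ha2 ?_ D.ali D.bei ?_ hv hv2 hR)
      · rintro rfl
        obtain ⟨t, -, d, h⟩ := ha1
        simp at h
      · intro h
        exact hau ((D.leg a ha).1 h))
  exact hv_map hw.word.1 hw'.word.1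
    (fun x hx y hy h => fp_inj hC.inj (hmem x hx).1 (hmem y hy).1 h) hL hM hu h1 h2 h3 h12 h13 h23

/-- **comparison of the observables of two regions which differ only near `z`** -/
theorem dr_core (hC : Cmp A A' p y0 xr b' g J Bad r R) (hw : GW A (beD A p y0 xr) w)
    (hw' : GW A' b' w') {m1 m2 m3 : Port P2} (h1 : m1 ∈ Sw300.L w') (h2 : m2 ∈ Sw300.L w')
    (h3 : m3 ∈ Sw300.L w') (h12 : m1 ≠ m2) (h13 : m1 ≠ m3) (h23 : m2 ≠ m3)
    (h1' : fp g m1 ∈ Sw300.L w) :
    ‖Ob664.HW w (fp g m1) (fp g m2) (fp g m3) - Ob664.HW w' m1 m2 m3‖ ≤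
      2 * (muT).real (T R r R) := by
  classical
  have hg : Set.InjOn g {t | t ∈ tls w'} := fun t ht t' ht' h =>
    hC.inj ((hw'.word.2.2.1 t).1 ht) ((hw'.word.2.2.1 t').1 ht') h
  obtain ⟨i2, e2⟩ := hv_comp w' m1 m2 m3 hg
  have i1 := Ob664.integrable_HV w (fp g m1) (fp g m2) (fp g m3)
  set Ev : Set (P2 → Bool) := {s | cs p y0 s ∈ T R r R} with hEv
  have hEm : MeasurableSet Ev := cs_meas p y0 (T_dep R r R).measurableSet
  have e1 : Ob664.HW w (fp g m1) (fp g m2) (fp g m3) - Ob664.HW w' m1 m2 m3 =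
      ∫ s, (HV w (fp g m1) (fp g m2) (fp g m3) s - HV w' m1 m2 m3 (s ∘ g)) ∂muT := by
    rw [integral_sub i1 i2, e2]
    rfl
  rw [e1]
  refine (norm_integral_le_integral_norm _).trans ?_
  have hle : ∀ s, ‖HV w (fp g m1) (fp g m2) (fp g m3) s - HV w' m1 m2 m3 (s ∘ g)‖ ≤
      Ev.indicator (fun _ => (2 : ℝ)) s := by
    intro s
    by_cases hs : s ∈ Ev
    · rw [Set.indicator_of_mem hs]
      refine (norm_sub_le _ _).trans ?_
      have a1 : ‖HV w (fp g m1) (fp g m2) (fp g m3) s‖ ≤ 1 := Ob664.norm_le_of_Tri Ob664.HV_mem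
      have a2 : ‖HV w' m1 m2 m3 (s ∘ g)‖ ≤ 1 := Ob664.norm_le_of_Tri Ob664.HV_mem
      linarith
    · rw [Set.indicator_of_notMem hs, hC.hv hw hw' h1 h2 h3 h12 h13 h23 h1' hs, sub_self,
        norm_zero]
  have hint : Integrable (Ev.indicator fun _ => (2 : ℝ)) muT :=
    (integrable_const _).indicator hEm
  refine (integral_mono_of_nonneg (Filter.Eventually.of_forall fun _ => norm_nonneg _) hint
    (Filter.Eventually.of_forall hle)).trans ?_
  rw [integral_indicator hEm, setIntegral_const, smul_eq_mul, hEv, cs_real]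
  linarith

/-- the same with the decay -/
theorem dr_core_le : ∃ C a : ℝ, 0 < C ∧ 0 < a ∧ ∀ {A A' : Finset P2} {p y0 xr : ℤ}
    {b' : Port P2 → Port P2} {g : P2 → P2} {J Bad : Set (Port P2)} {r R : ℕ} {w w' : Wd P2},
    1 ≤ r → Cmp A A' p y0 xr b' g J Bad r R → GW A (beD A p y0 xr) w → GW A' b' w' →
    ∀ {m1 m2 m3 : Port P2}, m1 ∈ Sw300.L w' → m2 ∈ Sw300.L w' → m3 ∈ Sw300.L w' → m1 ≠ m2 →
      m1 ≠ m3 → m2 ≠ m3 → fp g m1 ∈ Sw300.L w →
      ‖Ob664.HW w (fp g m1) (fp g m2) (fp g m3) - Ob664.HW w' m1 m2 m3‖ ≤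
        C * ((r : ℝ) / R) ^ a := by
  obtain ⟨C, a, hC0, ha0, h⟩ := T_le
  refine ⟨2 * C, a, by positivity, ha0, ?_⟩
  intro A A' p y0 xr b' g J Bad r R w w' hr hC hw hw' m1 m2 m3 h1 h2 h3 h12 h13 h23 h1'
  refine (dr_core hC hw hw' h1 h2 h3 h12 h13 h23 h1').trans ?_
  have := h R r R hr hC.box.pos
  nlinarith

end core

end Crest.Agent.R158.Dr945
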