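import Crest.Agent.R158.Pt4_266

/-!
# R158, Q1c part 1: words with an arbitrary seam (helper405)

`σ : Port T → ℤ` = seam value (in quarter turns) of the passage through a glued port, antisymmetric
on glued pairs.  `psi σ w` = lifted directions of the ports with the seam `σ`, `FlW σ w` = every
contraction of the word closes with the seam value `σ`.

* `walkS` : turning + seam of the strand between two matched ends, in terms of `tau`
* `legS` : the strand of the leg
* `loopS` : closed strands have turning + seam `± 4`
-/

set_option autoImplicit false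
set_option linter.unusedVariables false
set_option linter.unusedSectionVars false
set_option linter.unusedSimpArgs false

namespace Crest.Agent.R158.Qc405

open Crest.Agent.R158.Sw300
open Crest.Agent.R158.Gc748 (gl bs ts gd_wd pt Cyc)
open Crest.Agent.R158.Xr249 (rot rot_some rot_none)
open Crest.Agent.R158.Pt266

variable {T : Type*} [DecidableEq T]

/-- lifted directions with the seam `σ` -/
def psi (σ : Port T → ℤ) : Wd T → Port T → ℤ
  | .leg, _ => 1
  | .tile _, x => x.elim (-1) fun y => (y.2.val : ℤ)
  | .att w p t d, x =>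
      if x = some (t, d + 1) then psi σ w p + σ p - 1
      else if x = some (t, d + 2) then psi σ w p + σ p
      else if x = some (t, d + 3) then psi σ w p + σ p + 1
      else psi σ w x
  | .con w _ _, x => psi σ w x

/-- every contraction closes with the seam value -/
def FlW (σ : Port T → ℤ) : Wd T → Prop
  | .leg => True
  | .tile _ => True
  | .att w _ _ _ => FlW σ w
  | .con w p q => FlW σ w ∧ psi σ w q = psi σ w p - 2 + σ p

/-- antisymmetric seam -/
def An (σ : Port T → ℤ) (w : Wd T) : Prop := ∀ x y, (x, y) ∈ gl w → σ y = - σ x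

/-- difference of the two lifts -/
def de (σ : Port T → ℤ) (w : Wd T) (x : Port T) : ℤ := psi σ w x - phi w x

/-- seam sum of a strand given by its entered ports -/
def sm (σ : Port T → ℤ) (l : List (T × ZMod 4)) : ℤ := (l.tail.map fun r => - σ (some r)).sum

/-- seam sum of a closed strand -/
def sc (σ : Port T → ℤ) (l : List (T × ZMod 4)) : ℤ := (l.map fun r => - σ (some r)).sum

@[simp] lemma sm_one (σ : Port T → ℤ) (x : T × ZMod 4) : sm σ [x] = 0 := rfl

lemma sm_cons (σ : Port T → ℤ) (x r : T × ZMod 4) (l : List (T × ZMod 4)) :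
    sm σ (x :: r :: l) = - σ (some r) + sm σ (r :: l) := by
  simp [sm]

lemma sm_app (σ : Port T → ℤ) {l : List (T × ZMod 4)} (hl : l ≠ []) (r : T × ZMod 4)
    (m : List (T × ZMod 4)) : sm σ (l ++ r :: m) = sm σ l - σ (some r) + sm σ (r :: m) := by
  cases l with
  | nil => exact absurd rfl hl
  | cons x l =>
    simp [sm]
    ring

lemma sc_cons (σ : Port T → ℤ) (x : T × ZMod 4) (l : List (T × ZMod 4)) :
    sc σ (x :: l) = - σ (some x) + sm σ (x :: l) := by
  simp [sc, sm]


lemma An.att {σ : Port T → ℤ} {w : Wd T} {p : Port T} {t : T} {d : ZMod 4}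
    (h : An σ (.att w p t d)) : An σ w ∧ σ (some (t, d)) = - σ p :=
  ⟨fun x y hxy => h x y (by simp [gl, hxy]), h _ _ (by simp [gl])⟩

lemma An.con {σ : Port T → ℤ} {w : Wd T} {p q : Port T}
    (h : An σ (.con w p q)) : An σ w ∧ σ q = - σ p :=
  ⟨fun x y hxy => h x y (by simp [gl, hxy]), h _ _ (by simp [gl])⟩

lemma de_new (σ : Port T → ℤ) (w : Wd T) (p : Port T) (t : T) {d e : ZMod 4} (he : e ≠ d) :
    de σ (.att w p t d) (some (t, e)) = de σ w p + σ p := by
  obtain ⟨e1, e2, e3, e4, e5, e6, -, -, -⟩ := Xr249.z4 d
  unfold de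
  rcases z4_three d e he with rfl | rfl | rfl
  · simp [psi, phi]; ring
  · simp [psi, phi, e4.symm]; ring
  · simp [psi, phi, e5.symm, e6.symm]; ring

lemma de_old (σ : Port T → ℤ) (w : Wd T) (p : Port T) (t : T) (d : ZMod 4) {x : Port T}
    (hx : tl x ≠ some t) : de σ (.att w p t d) x = de σ w x := by
  have h : ∀ e, x ≠ some (t, e) := by rintro e rfl; exact hx rfl
  unfold de
  simp [psi, phi, h]

lemma tl_ne_att {w : Wd T} {t : T} (hw : Ok w) (ht : t ∉ tls w) {x : Port T} (hx : x ∈ L w) :
    tl x ≠ some t := by
  rcases x with - | ⟨t', e⟩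
  · simp
  · simp only [tl_some, ne_eq, Option.some.injEq]
    rintro rfl
    exact ht (tl_mem hw hx)

/-- **turning and seam of the strands of a word** -/
theorem walkS (s : T → Bool) (σ : Port T → ℤ) : ∀ {w : Wd T}, Ok w → An σ w → FlW σ w →
    ∀ {x : Port T}, x ∈ L w → M s w x ≠ x → ∃ a b l, x = some a ∧ M s w x = some b ∧
      Wk s (Gw w) a b l ∧ tt s l + sm σ l = tau s w x + (de σ w (M s w x) - de σ w x)
  | .leg, _, _, _, x, hx, hm => by simp [M] at hm
  | .tile t, _, _, _, x, hx, hm => by
    rcases x with - | ⟨t', d⟩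
    · simp [M] at hm
    · have ht : t' = t := by
        simp only [L, List.mem_cons, reduceCtorEq, Option.some.injEq, Prod.mk.injEq, false_or,
          List.not_mem_nil, or_false] at hx
        rcases hx with h | h | h | h <;> exact h.1
      subst ht
      refine ⟨(t', d), (t', thru (s t') d), [(t', d)], rfl, ?_, .one, ?_⟩
      · simp [M]
      · simp [tau, de, psi, phi]
  | .att w p t d, hok, hA, hF, x, hx, hm => by
    obtain ⟨hw, hp, ht, hnone⟩ := hok
    obtain ⟨hA1, hA2⟩ := hA.att
    have hpt : ∀ e, p ≠ some (t, e) := fun e he => ht (tl_mem hw (he ▸ hp))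
    rw [mem_L_att] at hx
    rcases hx with ⟨-, hx⟩ | ⟨hx, hx2⟩
    · -- a side of the new tile
      obtain ⟨e, rfl, he⟩ : ∃ e, x = some (t, e) ∧ e ≠ d := by
        rcases hx with rfl | rfl | rfl
        · exact ⟨_, rfl, (z4_ne d).1⟩
        · exact ⟨_, rfl, (z4_ne d).2.1⟩
        · exact ⟨_, rfl, (z4_ne d).2.2⟩
      by_cases h1 : e = thru (s t) d
      · subst h1
        have h2 : M s (.att w p t d) (some (t, thru (s t) d)) =
            if M s w p = p then some (t, thru (s t) d) else M s w p := by
          simp [M]
        rw [h2] at hm ⊢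
        have h3 : M s w p ≠ p := by
          intro h3
          rw [if_pos h3] at hm
          exact hm rfl
        rw [if_neg h3]
        obtain ⟨a, b, l, ha, hb, hl, hf⟩ := walkS s σ hw hA1 hF hp h3
        refine ⟨(t, thru (s t) d), b, (t, thru (s t) d) :: l, rfl, hb, ?_, ?_⟩
        · refine Wk.cons ?_ (hl.mono fun _ _ => Gw_mono_att)
          have : Pt266.pass s (t, thru (s t) d) = (t, d) := by
            simp only [Pt266.pass, thru_thru]
          rw [this]
          right
          rw [← ha]
          simp [gl]
        · obtain ⟨m, rfl⟩ := hl.exists_cons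
          have hM : M s w p ∈ L w := (Ok.inv s w hw).mem _ hp
          have h4 : de σ (.att w p t d) (M s w p) = de σ w (M s w p) :=
            de_old σ w p t d (tl_ne_att hw ht hM)
          rw [tt_cons, sm_cons, h4, de_new σ w p t he, ← ha]
          have h5 : tau s (.att w p t d) (some (t, thru (s t) d)) =
              tn (s t) (thru (s t) d) + tau s w p := by simp [tau]
          rw [h5]
          linarith
      · have h2 : M s (.att w p t d) (some (t, e)) = some (t, thru (s t) e) := by
          simp [M, h1]
        have h6 : thru (s t) e ≠ d := by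
          intro h
          exact h1 (by rw [← h, thru_thru])
        refine ⟨(t, e), (t, thru (s t) e), [(t, e)], rfl, h2, .one, ?_⟩
        rw [h2, de_new σ w p t h6, de_new σ w p t he]
        simp [tau, h1]
    · have hxt : tl x ≠ some t := tl_ne_att hw ht hx
      have hMx : M s w x ∈ L w := (Ok.inv s w hw).mem _ hx
      by_cases h1 : M s w x = p
      · have h2 : M s (.att w p t d) x = some (t, thru (s t) d) := by
          simp [M, hxt, h1]
        obtain ⟨a, b, l, ha, hb, hl, hf⟩ := walkS s σ hw hA1 hF hx
          (by rw [h1]; exact fun h => hx2 h.symm)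
        refine ⟨a, (t, thru (s t) d), l ++ [(t, d)], ha, h2, ?_, ?_⟩
        · refine (hl.mono fun _ _ => Gw_mono_att).snoc (r := (t, d)) ?_
          left
          rw [← hb, h1]
          simp [gl]
        · rw [h2, tt_append, tt_cons, tt_nil, sm_app σ hl.ne_nil, sm_one, hA2,
            de_new σ w p t (thru_ne _ _), de_old σ w p t d hxt]
          have h5 : tau s (.att w p t d) x = tau s w x + tn (s t) d := by simp [tau, hxt, h1]
          rw [h5]
          rw [h1] at hf
          simp only
          linarith
      · have h2 : M s (.att w p t d) x = M s w x := by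
          simp [M, hxt, h1]
        rw [h2] at hm ⊢
        obtain ⟨a, b, l, ha, hb, hl, hf⟩ := walkS s σ hw hA1 hF hx hm
        refine ⟨a, b, l, ha, hb, hl.mono fun _ _ => Gw_mono_att, ?_⟩
        rw [hf, de_old σ w p t d hxt, de_old σ w p t d (tl_ne_att hw ht hMx)]
        simp [tau, hxt, h1]
  | .con w p q, hok, hA, hF, x, hx, hm => by
    obtain ⟨hw, hpn, hqn, hpq, hadj⟩ := hok
    obtain ⟨hA1, hA2⟩ := hA.con
    obtain ⟨hp, hq⟩ := adj_mem hadj
    have hde : ∀ y, de σ (.con w p q) y = de σ w y := fun y => rfl
    have hF2 := hF.2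
    rw [mem_L_con] at hx
    obtain ⟨hx, hxp, hxq⟩ := hx
    by_cases h1 : M s w x = p
    · have h2 : M s (.con w p q) x = if M s w q = q then x else M s w q := by
        simp [M, h1]
      rw [h2] at hm ⊢
      have h3 : M s w q ≠ q := by
        intro h3
        rw [if_pos h3] at hm
        exact hm rfl
      rw [if_neg h3]
      obtain ⟨a, b, l, ha, hb, hl, hf⟩ := walkS s σ hw hA1 hF.1 hx
        (by rw [h1]; exact fun h => hxp h.symm)
      obtain ⟨a', b', l', ha', hb', hl', hf'⟩ := walkS s σ hw hA1 hF.1 hq h3
      refine ⟨a, b', l ++ l', ha, hb', ?_, ?_⟩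
      · refine (hl.mono fun _ _ => Gw_mono_con).trans ?_ (hl'.mono fun _ _ => Gw_mono_con)
        left
        rw [← hb, ← ha', h1]
        simp [gl]
      · obtain ⟨m, rfl⟩ := hl'.exists_cons
        rw [tt_append, sm_app σ hl.ne_nil, hde, hde, ← ha', hA2]
        have h5 : tau s (.con w p q) x = tau s w x + (phi w q - phi w p + 2) + tau s w q := by
          simp only [tau, if_pos h1]
        rw [h5]
        rw [h1] at hf
        unfold de at *
        linarith
    · by_cases h1' : M s w x = q
      · have h2 : M s (.con w p q) x = if M s w p = p then x else M s w p := by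
          simp [M, h1, h1', hpq.symm]
        rw [h2] at hm ⊢
        have h3 : M s w p ≠ p := by
          intro h3
          rw [if_pos h3] at hm
          exact hm rfl
        rw [if_neg h3]
        obtain ⟨a, b, l, ha, hb, hl, hf⟩ := walkS s σ hw hA1 hF.1 hx
          (by rw [h1']; exact fun h => hxq h.symm)
        obtain ⟨a', b', l', ha', hb', hl', hf'⟩ := walkS s σ hw hA1 hF.1 hp h3
        refine ⟨a, b', l ++ l', ha, hb', ?_, ?_⟩
        · refine (hl.mono fun _ _ => Gw_mono_con).trans ?_ (hl'.mono fun _ _ => Gw_mono_con)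
          right
          rw [← hb, ← ha', h1']
          simp [gl]
        · obtain ⟨m, rfl⟩ := hl'.exists_cons
          rw [tt_append, sm_app σ hl.ne_nil, hde, hde, ← ha']
          have h5 : tau s (.con w p q) x = tau s w x - (phi w q - phi w p + 2) + tau s w p := by
            simp only [tau, if_neg h1, if_pos h1']
          rw [h5]
          rw [h1'] at hf
          unfold de at *
          linarith
      · have h2 : M s (.con w p q) x = M s w x := by
          simp [M, h1, h1']
        rw [h2] at hm ⊢
        obtain ⟨a, b, l, ha, hb, hl, hf⟩ := walkS s σ hw hA1 hF.1 hx hm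
        refine ⟨a, b, l, ha, hb, hl.mono fun _ _ => Gw_mono_con, ?_⟩
        rw [hf, hde, hde]
        simp only [tau, if_neg h1, if_neg h1']

/-- **the strand of the leg** -/
theorem legS (s : T → Bool) (σ : Port T → ℤ) : ∀ {w : Wd T}, Ok w → isLeg w → w ≠ .leg → An σ w →
    FlW σ w → ∃ a b l, u s w = some a ∧ Gs w (some b) none ∧ Wk s (Gw w) a b l ∧
      tt s l + sm σ l + σ (some b) = tau s w (u s w) - de σ w (u s w)
  | .leg, _, _, h, _, _ => absurd rfl h
  | .tile t, _, h, _, _, _ => h.elim
  | .att w p t d, hok, hleg, hne, hA, hF => by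
    obtain ⟨hw, hp, ht, hnone⟩ := hok
    obtain ⟨hA1, hA2⟩ := hA.att
    by_cases hwl : w = .leg
    · subst hwl
      have hp0 : p = none := by simpa [L] using hp
      subst hp0
      have hu : u s (.att .leg none t d) = some (t, thru (s t) d) := by simp [u]
      refine ⟨(t, thru (s t) d), (t, d), [(t, thru (s t) d)], hu, ?_, ?_, ?_⟩
      · right; simp [gl]
      · have := Wk.one (s := s) (G := Gw (.att .leg none t d)) (x := (t, thru (s t) d))
        rwa [show Pt266.pass s (t, thru (s t) d) = (t, d) by simp only [Pt266.pass, thru_thru]] at this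
      · rw [hu, de_new σ _ _ t (thru_ne _ _), hA2]
        simp [tau, de, psi, phi, tt]
        ring
    · have hpn : p ≠ none := fun h => hwl (hnone h)
      obtain ⟨a, b, l, ha, hb, hl, hf⟩ := legS s σ hw hleg hwl hA1 hF
      have hun : u s w ≠ none := by rw [ha]; simp
      have hmu : u s w ∈ L w := (Ok.inv s w hw).um
      by_cases h1 : u s w = p
      · have hu : u s (.att w p t d) = some (t, thru (s t) d) := by simp [u, h1]
        refine ⟨(t, thru (s t) d), b, (t, thru (s t) d) :: l, hu, ?_, ?_, ?_⟩
        · exact (addP_att _ _).2 (Or.inl hb)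
        · refine Wk.cons ?_ (hl.mono fun _ _ => Gw_mono_att)
          have : Pt266.pass s (t, thru (s t) d) = (t, d) := by
            simp only [Pt266.pass, thru_thru]
          rw [this]
          right
          rw [← ha, h1]
          simp [gl]
        · obtain ⟨m, rfl⟩ := hl.exists_cons
          rw [hu, tt_cons, sm_cons, de_new σ w p t (thru_ne _ _), ← ha, h1]
          have h5 : tau s (.att w p t d) (some (t, thru (s t) d)) =
              tn (s t) (thru (s t) d) + tau s w p := by simp [tau]
          rw [h5]
          rw [h1] at hf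
          linarith
      · have hu : u s (.att w p t d) = u s w := by simp [u, h1]
        have hut : tl (u s w) ≠ some t := tl_ne_att hw ht hmu
        have hMu : M s w (u s w) = u s w := (Ok.inv s w hw).uf
        refine ⟨a, b, l, by rw [hu, ha], (addP_att _ _).2 (Or.inl hb),
          hl.mono fun _ _ => Gw_mono_att, ?_⟩
        rw [hu, de_old σ w p t d hut, hf]
        simp only [tau, if_neg hut, hMu, if_neg h1]
  | .con w p q, hok, hleg, hne, hA, hF => by
    obtain ⟨hw, hpn, hqn, hpq, hadj⟩ := hok
    obtain ⟨hA1, hA2⟩ := hA.con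
    obtain ⟨hp, hq⟩ := adj_mem hadj
    have hde : ∀ y, de σ (.con w p q) y = de σ w y := fun y => rfl
    have hF2 := hF.2
    have I := Ok.inv s w hw
    have hwl : w ≠ .leg := by
      rintro rfl
      have h1 : p = none := by simpa [L] using hp
      exact hpn h1
    obtain ⟨a, b, l, ha, hb, hl, hf⟩ := legS s σ hw hleg hwl hA1 hF.1
    by_cases h1 : u s w = p
    · have hu : u s (.con w p q) = M s w q := by simp [u, h1]
      have hMq : M s w q ≠ q := fun h => hpq (by rw [← h1, I.fix _ hq h])
      have hMMq : M s w (M s w q) = q := I.inv _ hq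
      have hMqL := I.mem _ hq
      obtain ⟨a', b', l', ha', hb', hl', hf'⟩ := walkS s σ hw hA1 hF.1 hMqL
        (by rw [hMMq]; exact hMq.symm)
      rw [hMMq] at hb' hf'
      refine ⟨a', b, l' ++ l, by rw [hu, ha'], (addP_con _ _).2 (Or.inl hb), ?_, ?_⟩
      · refine (hl'.mono fun _ _ => Gw_mono_con).trans ?_ (hl.mono fun _ _ => Gw_mono_con)
        right
        rw [← hb', ← ha, h1]
        simp [gl]
      · obtain ⟨m, rfl⟩ := hl.exists_cons
        rw [hu, tt_append, sm_app σ hl'.ne_nil, hde, ← ha, h1]
        have h6 : M s w (M s w q) ≠ p := by rw [hMMq]; exact hpq.symm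
        have h5 : tau s (.con w p q) (M s w q) =
            tau s w (M s w q) - (phi w q - phi w p + 2) + tau s w p := by
          simp only [tau, if_neg h6, if_pos hMMq]
        rw [h5]
        rw [h1] at hf
        unfold de at *
        linarith
    · by_cases h1' : u s w = q
      · have hu : u s (.con w p q) = M s w p := by simp [u, h1', h1, hpq.symm]
        have hMp : M s w p ≠ p := fun h => h1 (I.fix _ hp h).symm
        have hMMp : M s w (M s w p) = p := I.inv _ hp
        have hMpL := I.mem _ hp
        obtain ⟨a', b', l', ha', hb', hl', hf'⟩ := walkS s σ hw hA1 hF.1 hMpL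
          (by rw [hMMp]; exact hMp.symm)
        rw [hMMp] at hb' hf'
        refine ⟨a', b, l' ++ l, by rw [hu, ha'], (addP_con _ _).2 (Or.inl hb), ?_, ?_⟩
        · refine (hl'.mono fun _ _ => Gw_mono_con).trans ?_ (hl.mono fun _ _ => Gw_mono_con)
          left
          rw [← hb', ← ha, h1']
          simp [gl]
        · obtain ⟨m, rfl⟩ := hl.exists_cons
          rw [hu, tt_append, sm_app σ hl'.ne_nil, hde, ← ha, h1', hA2]
          have h5 : tau s (.con w p q) (M s w p) =
              tau s w (M s w p) + (phi w q - phi w p + 2) + tau s w q := by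
            simp only [tau, if_pos hMMp]
          rw [h5]
          rw [h1'] at hf
          unfold de at *
          linarith
      · have hu : u s (.con w p q) = u s w := by simp [u, h1, h1']
        have hMu : M s w (u s w) = u s w := I.uf
        refine ⟨a, b, l, by rw [hu, ha], (addP_con _ _).2 (Or.inl hb),
          hl.mono fun _ _ => Gw_mono_con, ?_⟩
        rw [hu, hde, hf]
        simp only [tau, hMu, if_neg h1, if_neg h1']

end Crest.Agent.R158.Qc405
private theorem rz_996d37fb49 : type_of% @_root_.Crest.Agent.R158.Qc405.psi.eq_def := @_root_.Crest.Agent.R158.Qc405.psi.eq_def -- L30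
private theorem rz_827f637a78 : type_of% @_root_.Crest.Agent.R158.Qc405.psi.eq_1 := @_root_.Crest.Agent.R158.Qc405.psi.eq_1 -- L30
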