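import Crest.Agent.R158.Hw1_949

/-!
# Row 158 (helper949), BLOCK BL: words and marks of a polygon, 2

* `dir d` : step across the side `d`
* `mtl_cell`, `mtl_nb` : the tile of a mark lies in its cell, the tile in front of it in the neighbour cell
* **`mkS_out`** : in the region `shD F H L δ ∪ S` the carried mark is a tile, the tile in front is not
* **`mkS_free`** : it is a free port of `beD`; `gw_mem` : free ports of a good word; **`mkS_mem`**
-/

set_option autoImplicit false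
set_option linter.unusedVariables false

noncomputable section

namespace Crest.Agent.R158.Hw949

open Crest.Agent.R158.Sw300 (Port Wd L Ok pos cyc)
open Crest.Agent.R158.Env664
open Crest.Agent.R158.Ob664 (Gl GW HW HG)
open Crest.Agent.R158.Sp896 (V Adj Cyc Con lc rc)
open Crest.Agent.R158.Tj656
open Crest.Agent.R158.Hb656

/-- neighbouring tile across the side `d` -/
def nt (m : V × ZMod 4) : V := nbc m.1 m.2

theorem nt_0 (t : V) : nt (t, 0) = (t.1 - 1, t.2) := rfl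
theorem nt_1 (t : V) : nt (t, 1) = (t.1, t.2 + 1) := by
  unfold nt nbc; rw [if_neg n10, if_pos rfl]
theorem nt_2 (t : V) : nt (t, 2) = (t.1 + 1, t.2) := by
  unfold nt nbc; rw [if_neg n20, if_neg n21, if_pos rfl]
theorem nt_3 (t : V) : nt (t, 3) = (t.1, t.2 - 1) := by
  unfold nt nbc; rw [if_neg n30, if_neg n31, if_neg n32]

theorem memD' {F : Finset V} {L : ℤ} (hL : 0 < L) {x y a b : ℤ} (h1 : a * L ≤ x) (h2 : x < a * L + L)
    (h3 : b * L ≤ y) (h4 : y < b * L + L) : ((x, y) : V) ∈ D F L ↔ ((a, b) : V) ∈ F := by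
  rw [mem_D hL]
  simp only
  rw [(div_iff hL _ _).2 ⟨h1, h2⟩, (div_iff hL _ _).2 ⟨h3, h4⟩]


/-! ### free ports -/

theorem mkS_row (H : Finset V) (L δ : ℤ) (S : Finset V) (m : V × ZMod 4) :
    (mkS H L δ S m).1.2 = m.1.2 := by
  unfold mkS
  split_ifs <;> rfl


theorem mkS_col (H : Finset V) {L δ : ℤ} (d0 : -1 ≤ δ) (d1 : δ ≤ 1) (S : Finset V)
    (m : V × ZMod 4) : |(mkS H L δ S m).1.1 - m.1.1| ≤ 2 := by
  unfold mkS
  rw [abs_le]
  split_ifs
  · simp only; omega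
  · simp only; omega
  · simp only; omega
  · omega

/-- partner of a port away from the two lines of the slit -/
theorem nbD_nt {x y xr : ℤ} {m : V × ZMod 4} (h1 : m.2 = 1 → m.1.2 ≠ y - 1)
    (h3 : m.2 = 3 → m.1.2 ≠ y) : nbD x y xr (some m) = some (nt m, m.2 + 2) := by
  obtain ⟨⟨a, b⟩, d⟩ := m
  simp only at h1 h3
  rcases z4 d with rfl | rfl | rfl | rfl
  · rw [nbD_W, nt_0]; rfl
  · rw [nbD_N (fun h => h1 rfl h.1), nt_1]; rfl
  · rw [nbD_E, nt_2]; rfl
  · rw [nbD_S ⟨fun h => h3 rfl h.1, fun h => h3 rfl h.1⟩, nt_3]; rfl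

/-- free port -/
theorem beD_free {A : Finset V} {x y xr : ℤ} {m : V × ZMod 4} (h1 : m.2 = 1 → m.1.2 ≠ y - 1)
    (h3 : m.2 = 3 → m.1.2 ≠ y) (hn : nt m ∉ A) : beD A x y xr (some m) = some m := by
  unfold beD res
  rw [if_neg]
  rintro ⟨-, h⟩
  rw [nbD_nt h1 h3, portOf_some] at h
  exact hn h

/-- the ends of a good word are the free ports -/
theorem gw_mem {A : Finset V} {b : Port V → Port V} {w : Wd V} (h : GW A b w) (m : V × ZMod 4) :
    some m ∈ L w ↔ m.1 ∈ A ∧ b (some m) = some m := by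
  obtain ⟨t, d⟩ := m
  obtain ⟨hok, -, ht, hbe⟩ := h.word
  have hs := Gc748.be_state hok
  rw [Pt266.mem_L hok (t, d), ht, ← hbe]
  constructor
  · rintro ⟨h1, h2⟩
    refine ⟨h1, ?_⟩
    by_contra hc
    exact h2 ⟨_, (hs.gl _ _).2 ⟨rfl, fun e => hc e.symm⟩⟩
  · rintro ⟨h1, h2⟩
    refine ⟨h1, ?_⟩
    rintro ⟨y, hy⟩
    obtain ⟨h3, h4⟩ := (hs.gl _ _).1 hy
    exact h4 (h2.symm.trans h3)

theorem free_mem {A : Finset V} {x y xr : ℤ} {w : Wd V} (h : GW A (beD A x y xr) w)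
    {m : V × ZMod 4} (h1 : m.2 = 1 → m.1.2 ≠ y - 1) (h3 : m.2 = 3 → m.1.2 ≠ y) (hm : m.1 ∈ A)
    (hn : nt m ∉ A) : some m ∈ L w :=
  (gw_mem h m).2 ⟨hm, beD_free h1 h3 hn⟩

/-- rows of the marks on horizontal sides -/
theorem mtl_row {L : ℤ} {c : V} {d : ZMod 4} {y : ℤ} (hy : ¬ L ∣ y) :
    (d = 1 → (mtl L c d).1.2 ≠ y - 1) ∧ (d = 3 → (mtl L c d).1.2 ≠ y) := by
  constructor
  · rintro rfl h
    rw [mtl_1] at h
    simp only at h
    exact hy ⟨c.2 + 1, by linarith⟩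
  · rintro rfl h
    rw [mtl_3] at h
    simp only at h
    exact hy ⟨c.2, by linarith⟩


section P

variable {P : P4} {H : Finset V} {L δ : ℤ} {S A : Finset V} {x y xr : ℤ} {w : Wd V}



/-- distance of the carried marks -/
theorem mkS_dist (hL : 8 ≤ L) (hev : Even L) (d0 : -1 ≤ δ) (d1 : δ ≤ 1) {i j : Fin 3} (h : i ≠ j) :
    L / 2 - 4 ≤ |(mkS H L δ S (mt P L i)).1.1 - (mkS H L δ S (mt P L j)).1.1| ∨
      L / 2 ≤ |(mkS H L δ S (mt P L i)).1.2 - (mkS H L δ S (mt P L j)).1.2| := by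
  rcases mt_dist P (by omega : 2 ≤ L) hev h with h1 | h1
  · left
    have h2 := mkS_col H (L := L) d0 d1 S (mt P L i)
    have h3 := mkS_col H (L := L) d0 d1 S (mt P L j)
    rw [abs_le] at h2 h3
    rw [le_abs] at h1 ⊢
    omega
  · right
    rw [mkS_row, mkS_row]
    exact h1



theorem mt_ne (hL : 2 ≤ L) (hev : Even L) {i j : Fin 3} (h : i ≠ j) : mt P L i ≠ mt P L j := by
  intro e
  rcases mt_dist P hL hev h with h1 | h1
  · rw [e, sub_self, abs_zero] at h1; omega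
  · rw [e, sub_self, abs_zero] at h1; omega

/-- the marks in `D P.F L` -/
theorem mt_out (hL : 2 ≤ L) (hev : Even L) (i : Fin 3) :
    (mt P L i).1 ∈ D P.F L ∧ nt (mt P L i) ∉ D P.F L := by
  obtain ⟨h1, h2⟩ := ci_spec P i
  unfold mt
  obtain ⟨m, rfl⟩ := hev
  have e2 : (m + m) / 2 = m := by omega
  have hL0 : 0 < m + m := by omega
  generalize P.cc i = q at *
  obtain ⟨⟨a, b⟩, d⟩ := q
  have ea : (a - 1) * (m + m) = a * (m + m) - (m + m) := by ring
  have eb : (b - 1) * (m + m) = b * (m + m) - (m + m) := by ring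
  have fa : (a + 1) * (m + m) = a * (m + m) + (m + m) := by ring
  have fb : (b + 1) * (m + m) = b * (m + m) + (m + m) := by ring
  rcases z4 d with rfl | rfl | rfl | rfl
  · have h2' : ((a - 1, b) : V) ∉ P.F := h2
    rw [mtl_0, nt_0, e2]
    dsimp only at h1 ⊢
    refine ⟨(memD' hL0 (by omega) (by omega) (by omega) (by omega)).2 h1, fun h => h2' ?_⟩
    exact (memD' hL0 (by omega) (by omega) (by omega) (by omega)).1 h
  · have h2' : ((a, b + 1) : V) ∉ P.F := h2
    rw [mtl_1, nt_1, e2]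
    dsimp only at h1 ⊢
    refine ⟨(memD' hL0 (by omega) (by omega) (by omega) (by omega)).2 h1, fun h => h2' ?_⟩
    exact (memD' hL0 (by omega) (by omega) (by omega) (by omega)).1 h
  · have h2' : ((a + 1, b) : V) ∉ P.F := h2
    rw [mtl_2, nt_2, e2]
    dsimp only at h1 ⊢
    refine ⟨(memD' hL0 (by omega) (by omega) (by omega) (by omega)).2 h1, fun h => h2' ?_⟩
    exact (memD' hL0 (by omega) (by omega) (by omega) (by omega)).1 h
  · have h2' : ((a, b - 1) : V) ∉ P.F := h2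
    rw [mtl_3, nt_3, e2]
    dsimp only at h1 ⊢
    refine ⟨(memD' hL0 (by omega) (by omega) (by omega) (by omega)).2 h1, fun h => h2' ?_⟩
    exact (memD' hL0 (by omega) (by omega) (by omega) (by omega)).1 h

/-- the marks are ends of every good word of a region `A ⊆ D` containing their tiles -/
theorem mt_mem (hL : 2 ≤ L) (hev : Even L) (hA : A ⊆ D P.F L) (hy : ¬ L ∣ y)
    (h : GW A (beD A x y xr) w) {i : Fin 3} (hm : (mt P L i).1 ∈ A) :
    some (mt P L i) ∈ Sw300.L w := by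
  obtain ⟨h1, h2⟩ := mt_out (P := P) hL hev i
  obtain ⟨r1, r3⟩ := mtl_row (L := L) (c := (P.cc i).1) (d := (P.cc i).2) hy
  have e : (mt P L i).2 = (P.cc i).2 := mtl_snd _ _ _
  refine free_mem h ?_ ?_ hm fun h => h2 (hA h)
  · rw [e]; exact r1
  · rw [e]; exact r3

end P

end Crest.Agent.R158.Hw949
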