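import Crest.Agent.R158.Qc7_405
import Crest.Agent.R158.Pc4_194
import Crest.Agent.R158.Fm1_857
import Crest.Agent.R158.Ad9_350
import Crest.Agent.R158.Xr13_249

/-!
# R158, the network of `Dp` and its phases (helper300)

`B : Band A`, `Dp` = `A` with the two near stubs of length `k`; `z = (p, y0)`.

* `beC` : glueing of `Dp`, the leg port is a cut end
* `Art` : artificial ends (cut in `Dp`, glued to a port outside the image in `G^(z)`)
* `chN`, **`ND`** : phases and network of `Dp` for the splitting `s ∘ eD`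
* **`emb_ND`** : `Ad350.Net.Emb ND netN (pm eD)`
* **`embW`** : `Pc194.Emb` for every word `w` of `Dp`
* `chN_seam` : phases of glued pairs = seam `sgD` and tile gauge `gS`
-/

set_option autoImplicit false
set_option linter.unusedVariables false
set_option linter.unusedSectionVars false

noncomputable section

open Finset

namespace Crest.Agent.R158.Qd300

open Crest.Agent.R158.Sw300 (Port Wd tls L isLeg)
open Crest.Agent.R158.Bd932 (e3)
open Crest.Agent.R158.Env664 (TG Band nbD beD res res_of PortOf portOf_some portOf_none z4 nbD_leg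
  nbD_W nbD_E nbD_N1 nbD_N nbD_Sleg nbD_S1 nbD_S IsWord)
open Crest.Agent.R158.Xr249 (Dp mem_Dp Free pm pm_some pm_none eD eD_A eD_r eD_l Dp_cases eD_glue
  pm_inj pm_portOf wd_cases gb bas)
open Crest.Agent.R158.Ad350 (Net ports tnet tnet_ok mem_ports mem_ports' none_ports netN netN_ok
  legP_mem)
open Crest.Agent.R158.Ao857 (legP seamG chG)
open Crest.Agent.R158.Ob664 (GW)
open Crest.Agent.R158.Qc405 (sgD psT TabH GD psi beD_of isLeg_of_bas none_notin_L sgD_east sgD_W sgD_N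
  sgD_E sgD_S psi_tab)
open Crest.Agent.R158.Pt266 (Gw Gs be_iff)

variable {A : Finset (ℤ × ℤ)} (B : Band A)

/-- the region with near stubs -/
abbrev DB (k : ℤ) : Finset (ℤ × ℤ) := Dp A B.xl B.xr B.y1 B.y2 k

/-- glueing of `Dp`, the leg port is a cut end -/
def beC (p y0 k : ℤ) (x : Port (ℤ × ℤ)) : Port (ℤ × ℤ) :=
  if x = some ((p, y0), 3) then x else beD (DB B k) p y0 (B.xr + k) x

/-- image of the ports of `Dp` in `G^(z)` -/
def imP (y0 k : ℤ) : Finset (Port TG) := (ports (DB B k)).image (pm (eD B y0 k))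

/-- artificial ends : cut in `Dp`, glued in `G^(z)` -/
def Art (p y0 k : ℤ) (x : Port (ℤ × ℤ)) : Prop :=
  Ao857.beL B p y0 (pm (eD B y0 k) x) ∉ imP B y0 k

instance (p y0 k : ℤ) (x : Port (ℤ × ℤ)) : Decidable (Art B p y0 k x) := by
  unfold Art; infer_instance

/-- phases of the network of `Dp` -/
def chN (p y0 k : ℤ) (c c' : ℝ) (φ : Port TG → ℝ) (pT : Port (ℤ × ℤ) → ℤ)
    (x : Port (ℤ × ℤ)) : ℝ :=
  if Art B p y0 k x then Real.pi / 12 * (pT x : ℝ)
  else -Ao857.chL B p y0 c c' φ (pm (eD B y0 k) x)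

/-- **the network of `Dp`** -/
def ND (p y0 k : ℤ) (c c' : ℝ) (φ : Port TG → ℝ) (pT : Port (ℤ × ℤ) → ℤ) (s : TG → Bool) :
    Net (Port (ℤ × ℤ)) :=
  tnet (DB B k) (s ∘ eD B y0 k) (beC B p y0 k) (chN B p y0 k c c' φ pT)

/-- tile gauge: the left stub -/
def gS (k : ℤ) (c : ℝ) (t : ℤ × ℤ) : ℝ :=
  if (B.xl - k ≤ t.1 ∧ t.1 < B.xl) ∧ B.y1 ≤ t.2 ∧ t.2 < B.y2 then c else 0

/-- charges of the cut ends of `Dp` -/
def CN (p y0 k : ℤ) (c : ℝ) (q : Port TG → ℝ) : Port (ℤ × ℤ) → ℝ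
  | none => 0
  | some a => (if Art B p y0 k (some a) then 0 else q (pm (eD B y0 k) (some a))) +
      3 / Real.pi * gS B k c a.1

variable {B} {p y0 k : ℤ}

section geom

variable (hf : Free A B.xl B.xr B.y1 B.y2 k) (hR : 2 * k < B.R) (hz : B.At p y0)

/-- the leg port -/
abbrev lp (p y0 : ℤ) : Port (ℤ × ℤ) := some ((p, y0), 3)

include hz in
lemma leg_mem : (p, y0) ∈ A :=
  (B.run y0 hz.hy1.le hz.hy2).mem p hz.hp1.le hz.hp2

include hz in
lemma lp_mem : lp p y0 ∈ ports (DB B k) := mem_ports.2 (mem_Dp.2 (Or.inl (leg_mem hz)))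

include hf hz in
lemma pm_lp : pm (eD B y0 k) (lp p y0) = legP p y0 := by
  rw [pm_some, eD_A hf (leg_mem hz)]; rfl

lemma portOf_of {x : Port (ℤ × ℤ)} (hx : x ∈ ports (DB B k)) : PortOf (DB B k) x := by
  obtain ⟨t, d, rfl, ht⟩ := mem_ports' hx
  exact portOf_some.2 ht

lemma ports_of {x : Port (ℤ × ℤ)} (hx : PortOf (DB B k) x) (hn : x ≠ none) :
    x ∈ ports (DB B k) := by
  rcases x with - | ⟨t, d⟩
  · exact absurd rfl hn
  · exact mem_ports.2 (portOf_some.1 hx)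

lemma nbD_none {p y0 xr : ℤ} {x : Port (ℤ × ℤ)} (h : nbD p y0 xr x = none) : x = lp p y0 := by
  rcases x with - | ⟨⟨x, y⟩, d⟩
  · rw [nbD_leg] at h; simp at h
  · rcases z4 d with rfl | rfl | rfl | rfl
    · rw [nbD_W] at h; simp at h
    · by_cases hc : y = y0 - 1 ∧ p ≤ x ∧ x ≤ xr
      · rw [nbD_N1 hc] at h; simp at h
      · rw [nbD_N hc] at h; simp at h
    · rw [nbD_E] at h; simp at h
    · by_cases hc : y = y0 ∧ x = p
      · rw [hc.1, hc.2]
      by_cases hc2 : y = y0 ∧ p < x ∧ x ≤ xr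
      · rw [nbD_S1 hc2] at h; simp at h
      · rw [nbD_S (by omega)] at h; simp at h

lemma beD_none {x : Port (ℤ × ℤ)} (h : beD (DB B k) p y0 (B.xr + k) x = none) (hx : x ≠ none) :
    x = lp p y0 :=
  nbD_none (beD_of h hx).1

include hz in
lemma beD_lp : beD (DB B k) p y0 (B.xr + k) (lp p y0) = none := by
  have h1 : nbD p y0 (B.xr + k) (lp p y0) = none := nbD_Sleg ⟨rfl, rfl⟩
  unfold beD
  rw [res_of (portOf_of (lp_mem hz)) (by rw [h1]; exact portOf_none _), h1]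

include hf hz in
lemma out_r : (B.xr + k + 1, y0) ∉ DB B k := by
  have := hf.k0
  have := hf.le
  have := hz.hy1
  have := hz.hy2
  rw [mem_Dp]
  rintro (h | h | h)
  · exact hf.right _ _ (by omega) le_rfl (by omega) (by omega) h
  · omega
  · omega

include hf hz in
lemma beD_inv (x : Port (ℤ × ℤ)) :
    beD (DB B k) p y0 (B.xr + k) (beD (DB B k) p y0 (B.xr + k) x) = x :=
  Env664.beD_invol (by have := hf.k0; have := hz.hp2; omega) (out_r hf hz) x

lemma beC_ne {x : Port (ℤ × ℤ)} (h : x ≠ lp p y0) :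
    beC B p y0 k x = beD (DB B k) p y0 (B.xr + k) x := if_neg h

@[simp] lemma beC_lp : beC B p y0 k (lp p y0) = lp p y0 := if_pos rfl

include hf hz in
/-- `beC` preserves the ports -/
lemma beC_ports {x : Port (ℤ × ℤ)} (hx : x ∈ ports (DB B k)) : beC B p y0 k x ∈ ports (DB B k) := by
  by_cases h1 : x = lp p y0
  · rw [h1, beC_lp, ← h1]; exact hx
  · rw [beC_ne h1]
    by_cases h2 : beD (DB B k) p y0 (B.xr + k) x = x
    · rw [h2]; exact hx
    · have h3 := beD_of (rfl : beD (DB B k) p y0 (B.xr + k) x = _) (Ne.symm h2)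
      refine ports_of h3.2.2 fun h4 => h1 (beD_none h4 ?_)
      rintro rfl
      exact none_ports hx

include hf hz in
/-- `beC` is an involution -/
lemma beC_inv {x : Port (ℤ × ℤ)} (hx : x ∈ ports (DB B k)) : beC B p y0 k (beC B p y0 k x) = x := by
  by_cases h1 : x = lp p y0
  · rw [h1, beC_lp, beC_lp]
  · rw [beC_ne h1, beC_ne, beD_inv hf hz]
    intro h2
    have h3 := beD_inv hf hz x
    rw [h2, beD_lp hz] at h3
    exact none_ports (h3 ▸ hx)

variable (B) in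
include hf hz in
/-- the network of `Dp` is well formed -/
theorem ND_ok (c c' : ℝ) (φ : Port TG → ℝ) (pT : Port (ℤ × ℤ) → ℤ) (s : TG → Bool) :
    (ND B p y0 k c c' φ pT s).Ok :=
  tnet_ok (fun _ hx => beC_ports hf hz hx) fun _ hx => beC_inv hf hz hx

include hf hR hz in
lemma pm_ne_leg {x : Port (ℤ × ℤ)} (hx : x ∈ ports (DB B k)) (h : x ≠ lp p y0) :
    pm (eD B y0 k) x ≠ legP p y0 := by
  rw [← pm_lp hf hz]
  exact fun h' => h (pm_inj hf hR (portOf_of hx) (portOf_of (lp_mem hz)) h')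

lemma pm_mem_imP {x : Port (ℤ × ℤ)} (hx : x ∈ ports (DB B k)) : pm (eD B y0 k) x ∈ imP B y0 k :=
  mem_image_of_mem _ hx

include hf hR hz in
/-- inside the image the two glueings are the same -/
lemma beL_pm {x : Port (ℤ × ℤ)} (hx : x ∈ ports (DB B k))
    (h : Ao857.beL B p y0 (pm (eD B y0 k) x) ∈ imP B y0 k) :
    Ao857.beL B p y0 (pm (eD B y0 k) x) = pm (eD B y0 k) (beC B p y0 k x) := by
  by_cases h1 : x = lp p y0
  · rw [h1, beC_lp, pm_lp hf hz, Ao857.beL_leg]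
  have h2 := pm_ne_leg hf hR hz hx h1
  rw [beC_ne h1]
  obtain ⟨y, hy, e⟩ := mem_image.1 h
  rw [Ao857.beL_ne B h2] at e ⊢
  have glu := fun z (hz' : PortOf (DB B k) z) => eD_glue hf hR hz (portOf_of hx) hz'
  by_cases h3 : beD (DB B k) p y0 (B.xr + k) x = x
  · rw [h3]
    by_contra h4
    have h5 : gb (B.beG p y0) (pm (eD B y0 k) x) (pm (eD B y0 k) y) :=
      ⟨e.symm, fun h6 => h4 (by rw [← e, ← h6])⟩
    have h7 := (glu y (portOf_of hy)).2 h5
    exact h7.2 (h3 ▸ h7.1)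
  · have h4 := beD_of (rfl : beD (DB B k) p y0 (B.xr + k) x = _) (Ne.symm h3)
    exact ((glu _ h4.2.2).1 ⟨rfl, Ne.symm h3⟩).1

include hf hR hz in
/-- glued ports are glued in `G^(z)` -/
lemma glue_G {a b : (ℤ × ℤ) × ZMod 4} (ha : a.1 ∈ DB B k)
    (h : beD (DB B k) p y0 (B.xr + k) (some a) = some b) (hne : a ≠ b) :
    b.1 ∈ DB B k ∧ (some a : Port (ℤ × ℤ)) ≠ lp p y0 ∧
      B.beG p y0 (pm (eD B y0 k) (some a)) = pm (eD B y0 k) (some b) ∧
      B.beG p y0 (pm (eD B y0 k) (some a)) ≠ pm (eD B y0 k) (some a) := by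
  have h1 := beD_of h fun e => hne (Option.some.inj e)
  have h2 := (eD_glue hf hR hz h1.2.1 h1.2.2).1 ⟨h, fun e => hne (Option.some.inj e)⟩
  refine ⟨portOf_some.1 h1.2.2, ?_, h2.1, ?_⟩
  · intro e
    rw [e, beD_lp hz] at h
    simp at h
  · rw [h2.1]
    exact h2.2.symm

include hf hR hz in
/-- artificial ends are cut ends -/
lemma Art.cut {x : Port (ℤ × ℤ)} (hx : x ∈ ports (DB B k)) (h : Art B p y0 k x) :
    beC B p y0 k x = x := by
  by_cases h1 : x = lp p y0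
  · rw [h1, beC_lp]
  rw [beC_ne h1]
  by_contra h3
  have h4 := beD_of (rfl : beD (DB B k) p y0 (B.xr + k) x = _) (Ne.symm h3)
  have h5 := ((eD_glue hf hR hz (portOf_of hx) h4.2.2).1 ⟨rfl, Ne.symm h3⟩).1
  apply h
  rw [Ao857.beL_ne B (pm_ne_leg hf hR hz hx h1), h5]
  refine pm_mem_imP (ports_of h4.2.2 fun h6 => h1 (beD_none h6 ?_))
  rintro rfl
  exact none_ports hx

include hf hz in
/-- the leg port is not artificial -/
lemma not_art_lp : ¬ Art B p y0 k (lp p y0) := by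
  unfold Art
  rw [pm_lp hf hz, Ao857.beL_leg, ← pm_lp hf hz, not_not]
  exact pm_mem_imP (lp_mem hz)

include hf hR hz in
/-- natural cut ends are cut in `G^(z)` -/
lemma nat_cut {x : Port (ℤ × ℤ)} (hx : x ∈ ports (DB B k)) (h : ¬ Art B p y0 k x)
    (hb : beC B p y0 k x = x) (hl : x ≠ lp p y0) :
    B.beG p y0 (pm (eD B y0 k) x) = pm (eD B y0 k) x := by
  have h1 := beL_pm hf hR hz hx (not_not.1 h)
  rwa [hb, Ao857.beL_ne B (pm_ne_leg hf hR hz hx hl)] at h1

include hf hR hz in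
/-- **artificial ends** : the cut ends of `Dp` that are glued in `G^(z)`, the leg excepted -/
theorem art_iff {x : Port (ℤ × ℤ)} (hx : x ∈ ports (DB B k)) : Art B p y0 k x ↔
    x ≠ lp p y0 ∧ beC B p y0 k x = x ∧ B.beG p y0 (pm (eD B y0 k) x) ≠ pm (eD B y0 k) x := by
  constructor
  · intro h
    have hl : x ≠ lp p y0 := by
      rintro rfl
      exact not_art_lp hf hz h
    refine ⟨hl, h.cut hf hR hz hx, fun h3 => h ?_⟩
    rw [Ao857.beL_ne B (pm_ne_leg hf hR hz hx hl), h3]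
    exact pm_mem_imP hx
  · rintro ⟨h1, h2, h3⟩
    by_contra h
    exact h3 (nat_cut hf hR hz hx h h2 h1)


variable {w : Wd (ℤ × ℤ)}

/-- **`Pc194.Emb`** -/
theorem embW (hw : IsWord w (DB B k) (beD (DB B k) p y0 (B.xr + k))) (hz : B.At p y0) :
    Pc194.Emb (DB B k) (beC B p y0 k) w id := by
  refine Pc194.Emb.of_word hw fun a ha => ?_
  by_cases h : (some a : Port (ℤ × ℤ)) = lp p y0
  · rw [h, beC_lp, beD_lp hz, if_pos rfl]
  · rw [beC_ne h, if_neg fun h' => h (beD_none h' (by simp))]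

/-! ### phases -/

include hf hz in
/-- seam phases on the image -/
lemma seam_pm (c c' : ℝ) {x y : ℤ} {d : ZMod 4} (h : (x, y) ∈ DB B k) :
    seamG B p y0 c c' (pm (eD B y0 k) (some ((x, y), d))) =
      if d = 0 ∧ x = B.xl ∧ B.y1 ≤ y ∧ y < B.y2 then (if y < y0 then c else c')
      else if d = 1 ∧ y = y0 - 1 ∧ B.xl ≤ x ∧ x < p then -e3 else 0 := by
  have hle := hf.le
  have hk := hf.k0
  have h1 := hz.hp1
  have h2 := hz.hp2
  rw [pm_some]
  rcases Dp_cases hf h with ⟨g1, g2, g3⟩ | ⟨-, g2⟩ | ⟨-, g2⟩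
  · rw [eD_A hf g1]; rfl
  · rw [eD_r g2, if_neg (by omega), if_neg (by omega)]; rfl
  · rw [eD_l hle g2, if_neg (by omega), if_neg (by omega)]; rfl

include hf hR hz in
/-- phases of glued ports -/
lemma chN_glued (c c' : ℝ) (φ : Port TG → ℝ) (pT : Port (ℤ × ℤ) → ℤ) {a b : (ℤ × ℤ) × ZMod 4}
    (ha : a.1 ∈ DB B k) (h : beD (DB B k) p y0 (B.xr + k) (some a) = some b) (hne : a ≠ b) :
    chN B p y0 k c c' φ pT (some a) = -seamG B p y0 c c' (pm (eD B y0 k) (some a)) := by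
  obtain ⟨h1, h2, h3, h4⟩ := glue_G hf hR hz ha h hne
  have hx : (some a : Port (ℤ × ℤ)) ∈ ports (DB B k) := mem_ports.2 ha
  have h5 := pm_ne_leg hf hR hz hx h2
  have h6 : ¬ Art B p y0 k (some a) := by
    unfold Art
    rw [not_not, Ao857.beL_ne B h5, h3]
    exact pm_mem_imP (mem_ports.2 h1)
  unfold chN
  rw [if_neg h6, Ao857.chL_ne B h5]
  unfold chG
  rw [if_neg h4]

include hf hR hz in
/-- phases of natural cut ends -/
lemma chN_nat (c c' : ℝ) (φ : Port TG → ℝ) (pT : Port (ℤ × ℤ) → ℤ) {x : Port (ℤ × ℤ)}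
    (hx : x ∈ ports (DB B k)) (h : ¬ Art B p y0 k x) (hb : beC B p y0 k x = x)
    (hl : x ≠ lp p y0) : chN B p y0 k c c' φ pT x = -φ (pm (eD B y0 k) x) := by
  unfold chN
  rw [if_neg h, Ao857.chL_ne B (pm_ne_leg hf hR hz hx hl)]
  unfold chG
  rw [if_pos (nat_cut hf hR hz hx h hb hl)]

include hf hz in
/-- phase of the leg -/
lemma chN_lp (c c' : ℝ) (φ : Port TG → ℝ) (pT : Port (ℤ × ℤ) → ℤ) :
    chN B p y0 k c c' φ pT (lp p y0) = 0 := by
  unfold chN
  rw [if_neg (not_art_lp hf hz), pm_lp hf hz, Ao857.chL_leg, neg_zero]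

lemma seam4 {P1 P2 : Prop} [Decidable P1] [Decidable P2] (c c' : ℝ) :
    ((if (0 : ZMod 4) = 0 ∧ P1 then c else if (0 : ZMod 4) = 1 ∧ P2 then c' else 0) =
      if P1 then c else 0) ∧
    ((if (1 : ZMod 4) = 0 ∧ P1 then c else if (1 : ZMod 4) = 1 ∧ P2 then c' else 0) =
      if P2 then c' else 0) ∧
    ((if (2 : ZMod 4) = 0 ∧ P1 then c else if (2 : ZMod 4) = 1 ∧ P2 then c' else 0) = 0) ∧
    ((if (3 : ZMod 4) = 0 ∧ P1 then c else if (3 : ZMod 4) = 1 ∧ P2 then c' else 0) = 0) := by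
  have h1 : (1 : ZMod 4) ≠ 0 := by decide
  have h2 : (0 : ZMod 4) ≠ 1 := by decide
  have h3 : (2 : ZMod 4) ≠ 0 := by decide
  have h4 : (2 : ZMod 4) ≠ 1 := by decide
  have h5 : (3 : ZMod 4) ≠ 0 := by decide
  have h6 : (3 : ZMod 4) ≠ 1 := by decide
  simp [h1, h2, h3, h4, h5, h6]

include hf hR hz in
/-- **phases of glued pairs = seam and tile gauge** -/
theorem chN_seam (c : ℝ) (φ : Port TG → ℝ) (pT : Port (ℤ × ℤ) → ℤ) {a b : (ℤ × ℤ) × ZMod 4}
    (ha : a.1 ∈ DB B k) (h : beD (DB B k) p y0 (B.xr + k) (some a) = some b) (hne : a ≠ b) :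
    chN B p y0 k c (c + e3) φ pT (some a) - chN B p y0 k c (c + e3) φ pT (some b) =
      -(Real.pi / 12) * (sgD B.xl p y0 B.y2 (some a) : ℝ) + gS B k c a.1 - gS B k c b.1 := by
  have hb := (glue_G hf hR hz ha h hne).1
  have h' : beD (DB B k) p y0 (B.xr + k) (some b) = some a := by
    rw [← h, beD_inv hf hz]
  rw [chN_glued hf hR hz c (c + e3) φ pT ha h hne,
    chN_glued hf hR hz c (c + e3) φ pT hb h' hne.symm]
  have hn := (beD_of h fun e => hne (Option.some.inj e)).1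
  obtain ⟨⟨x, y⟩, d⟩ := a
  obtain ⟨⟨x', y'⟩, d'⟩ := b
  simp only at ha hb
  rw [seam_pm hf hz c (c + e3) ha, seam_pm hf hz c (c + e3) hb]
  have hle := hf.le
  have hk := hf.k0
  obtain ⟨z1, z2, z3, z4'⟩ := hz
  have e3' : e3 = Real.pi / 12 * 4 := by unfold e3; ring
  -- band rows
  have hl : ∀ u v : ℤ, (u, v) ∈ DB B k → u < B.xl ∧ B.xl - k - 1 ≤ u ∧ B.y1 - 1 ≤ v ∧ v ≤ B.y2 →
      B.xl - k ≤ u ∧ B.y1 ≤ v ∧ v < B.y2 := by
    rintro u v g5 ⟨g1, g2, g3, g4⟩
    rcases mem_Dp.1 g5 with g | g | g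
    · exact absurd g (hf.left u v g1 g2 g3 g4)
    · omega
    · omega
  have q1 := hl x y ha
  have q2 := hl x' y' hb
  clear hl
  simp only [gS]
  rcases z4 d with rfl | rfl | rfl | rfl
  · rw [nbD_W] at hn
    simp only [Option.some.injEq, Prod.mk.injEq] at hn
    obtain ⟨⟨rfl, rfl⟩, rfl⟩ := hn
    rw [sgD_W, (seam4 _ _).1, (seam4 _ _).2.2.1]
    clear h h' ha hb hne
    split_ifs <;> first | (exfalso; omega) | (push_cast; ring1) | (rw [e3']; push_cast; ring1)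
  · by_cases hc : y = y0 - 1 ∧ p ≤ x ∧ x ≤ B.xr + k
    · rw [nbD_N1 hc] at hn
      simp only [Option.some.injEq, Prod.mk.injEq] at hn
      obtain ⟨⟨rfl, rfl⟩, rfl⟩ := hn
      rw [sgD_N, (seam4 _ _).2.1, (seam4 _ _).2.2.2]
      clear h h' ha hb hne
      split_ifs <;> first | (exfalso; omega) | (push_cast; ring1)
    · rw [nbD_N hc] at hn
      simp only [Option.some.injEq, Prod.mk.injEq] at hn
      obtain ⟨⟨rfl, rfl⟩, rfl⟩ := hn
      rw [sgD_N, (seam4 _ _).2.1, (seam4 _ _).2.2.2]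
      clear h h' ha hb hne
      split_ifs <;> first | (exfalso; omega) | (push_cast; ring1) | (rw [e3']; push_cast; ring1)
  · rw [nbD_E] at hn
    simp only [Option.some.injEq, Prod.mk.injEq] at hn
    obtain ⟨⟨rfl, rfl⟩, rfl⟩ := hn
    rw [sgD_E, (seam4 _ _).1, (seam4 _ _).2.2.1]
    clear h h' ha hb hne
    split_ifs <;> first | (exfalso; omega) | (push_cast; ring1) | (rw [e3']; push_cast; ring1)
  · by_cases hc : y = y0 ∧ x = p
    · rw [nbD_Sleg hc] at hn; simp at hn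
    by_cases hc2 : y = y0 ∧ p < x ∧ x ≤ B.xr + k
    · rw [nbD_S1 hc2] at hn
      simp only [Option.some.injEq, Prod.mk.injEq] at hn
      obtain ⟨⟨rfl, rfl⟩, rfl⟩ := hn
      rw [sgD_S, (seam4 _ _).2.1, (seam4 _ _).2.2.2]
      clear h h' ha hb hne
      split_ifs <;> first | (exfalso; omega) | (push_cast; ring1)
    · rw [nbD_S (by omega)] at hn
      simp only [Option.some.injEq, Prod.mk.injEq] at hn
      obtain ⟨⟨rfl, rfl⟩, rfl⟩ := hn
      rw [sgD_S, (seam4 _ _).2.1, (seam4 _ _).2.2.2]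
      clear h h' ha hb hne
      split_ifs <;> first | (exfalso; omega) | (push_cast; ring1) | (rw [e3']; push_cast; ring1)

end geom

end Crest.Agent.R158.Qd300
end
private theorem rz_9cd003fc6c : type_of% @_root_.Crest.Agent.R158.Qd300.CN.eq_1 := @_root_.Crest.Agent.R158.Qd300.CN.eq_1 -- L79
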