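import Crest.Agent.R158.Qc7_405
import Crest.Agent.R158.Al6_194
import Crest.Agent.R158.Fm1_857
import Crest.Agent.R158.Qd1_300

-- ▼ part R158/Oc1_194
section

/-!
# R158, order of the ends of the region with stubs, part 1 (helper194): the successor table

`Suc A xl xr y1 y2 k y0 a b` : `b` is the free end of `Dp A xl xr y1 y2 k` (glueing
`beD .. p y0 (xr + k)`) which follows `a` clockwise (explicit table, any `z = (p, y0)`)

* **`suc_D`** : consecutive free ends are in the table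
-/

set_option autoImplicit false
set_option linter.unusedVariables false
set_option linter.unusedSectionVars false
set_option linter.unusedSimpArgs false

namespace Crest.Agent.R158.Oc194

open Crest.Agent.R158.Sw300
open Crest.Agent.R158.Gc748 (gl bs ts gd_wd pt)
open Crest.Agent.R158.Xr249 (rot rot_some rot_none Dp mem_Dp Free full full_h full_v Reg)
open Crest.Agent.R158.Pt266
open Crest.Agent.R158.Env664 (nbD beD res PortOf portOf_some portOf_none nbD_leg nbD_W nbD_E nbD_N1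
  nbD_N nbD_Sleg nbD_S1 nbD_S)
open Crest.Agent.R158.Qc405

section

variable (A : Finset (ℤ × ℤ)) (xl xr y1 y2 k y0 : ℤ)

/-- **the successor table** -/
inductive Suc : Port (ℤ × ℤ) → Port (ℤ × ℤ) → Prop
  | r1 {y : ℤ} : y = y2 - 1 ∨ y = y0 - 1 → Suc (some ((xr + k, y), 1)) (some ((xr + k, y), 2))
  | r2 {x : ℤ} : xr < x → x < xr + k → Suc (some ((x, y2 - 1), 1)) (some ((x + 1, y2 - 1), 1))
  | r3 : Suc (some ((xr + k, y1), 2)) (some ((xr + k, y1), 3))
  | r4 : Suc (some ((xr + k, y0), 2)) (some ((xr + k, y0 - 1), 1))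
  | r5 {y : ℤ} : y1 < y → y < y2 → y ≠ y0 →
      Suc (some ((xr + k, y), 2)) (some ((xr + k, y - 1), 2))
  | r6 : Suc (some ((xr + 1, y1), 3)) (some ((xr, y1 - 1), 2))
  | r7 {x : ℤ} : xr + 1 < x → x ≤ xr + k → Suc (some ((x, y1), 3)) (some ((x - 1, y1), 3))
  | l1 : Suc (some ((xl - k, y2 - 1), 0)) (some ((xl - k, y2 - 1), 1))
  | l2 {y : ℤ} : y1 ≤ y → y < y2 - 1 → Suc (some ((xl - k, y), 0)) (some ((xl - k, y + 1), 0))
  | l3 : Suc (some ((xl - 1, y2 - 1), 1)) (some ((xl, y2), 0))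
  | l4 {x : ℤ} : xl - k ≤ x → x < xl - 1 → Suc (some ((x, y2 - 1), 1)) (some ((x + 1, y2 - 1), 1))
  | l5 : Suc (some ((xl - k, y1), 3)) (some ((xl - k, y1), 0))
  | l6 {x : ℤ} : xl - k < x → x < xl → Suc (some ((x, y1), 3)) (some ((x - 1, y1), 3))
  | a1 : Suc (some ((xl, y1 - 1), 0)) (some ((xl - 1, y1), 3))
  | a2 : Suc (some ((xr, y2), 2)) (some ((xr + 1, y2 - 1), 1))
  | a3 {a b : (ℤ × ℤ) × ZMod 4} {κ : ℤ} : RFree (full A) a → RFree (full A) b →
      NxT (full A).gl (some a) (some b) κ → b ≠ ((xl, y1), 0) →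
      (∀ y, y1 ≤ y → y < y2 → a ≠ ((xr, y), 2)) → (∀ y, y1 ≤ y → y < y2 → a ≠ ((xl, y), 0)) →
      Suc (some a) (some b)

end

variable {A : Finset (ℤ × ℤ)} {xl xr y1 y2 k p y0 : ℤ} {ψ : (ℤ × ℤ) × ZMod 4 → ℤ}

lemma Suc.cast {a b a' b' : Port (ℤ × ℤ)} (h : Suc A xl xr y1 y2 k y0 a b) (e1 : a = a')
    (e2 : b = b') : Suc A xl xr y1 y2 k y0 a' b' := e1 ▸ e2 ▸ h

variable (H : TabH A xl xr y1 y2 k p y0 ψ)

include H

/-- the right stub -/
lemma suc_R {x y : ℤ} {d : ZMod 4} (hR : (xr + 1 ≤ x ∧ x < xr + k + 1) ∧ y1 ≤ y ∧ y < y2)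
    (hfree : ∀ q, ¬ GD A xl xr y1 y2 k p y0 (some ((x, y), d)) q) {b : Port (ℤ × ℤ)} {κ : ℤ}
    (h : NxS (sgD xl p y0 y2) (GD A xl xr y1 y2 k p y0) (some ((x, y), d)) b κ) :
    Suc A xl xr y1 y2 k y0 (some ((x, y), d)) b := by
  have hk := H.hk
  have h1 := H.hy1
  have h2 := H.hy2
  have h3 := H.hp1
  have h4 := H.hp2
  have hle := H.hf.le
  have hD : (x, y) ∈ Dp A xl xr y1 y2 k := H.band (by omega) (by omega) hR.2.1 hR.2.2
  have hxA : (x, y) ∉ A := H.nr (by omega) (by omega) (by omega) (by omega)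
  have det : ∀ {b0 κ0}, NxS (sgD xl p y0 y2) (GD A xl xr y1 y2 k p y0) (some ((x, y), d)) b0 κ0 →
      Suc A xl xr y1 y2 k y0 (some ((x, y), d)) b0 →
      Suc A xl xr y1 y2 k y0 (some ((x, y), d)) b := by
    intro b0 κ0 h5 h6
    obtain ⟨rfl, rfl⟩ := NxS.det (fun a b c => GD_fn a b c) h h5
    exact h6
  rcases Env664.z4 d with rfl | rfl | rfl | rfl
  · exact absurd (GD_of (pD hD) nbD_W (pD (H.band (by omega) (by omega) (by omega) (by omega))))
      (hfree _)
  · -- `N`
    have hy : y = y2 - 1 ∨ y = y0 - 1 ∧ x = xr + k := by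
      by_contra hc
      rw [not_or] at hc
      by_cases c3 : y = y0 - 1
      · exact hfree _ (GD_of (pD hD) (nbD_N1 (by omega))
          (pD (H.band (by omega) (by omega) (by omega) (by omega))))
      · exact hfree _ (GD_of (pD hD) (nbD_N (by omega))
          (pD (H.band (by omega) (by omega) (by omega) (by omega))))
    by_cases c1 : x = xr + k
    · have o1 : (x + 1, y) ∉ Dp A xl xr y1 y2 k :=
        H.out (H.nr (by omega) (by omega) (by omega) (by omega)) (by omega)
      refine det (stp (rN x y) (by rw [nbD_E]; exact pD' o1)) ?_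
      subst c1
      exact .r1 (by omega)
    · have c2 : y = y2 - 1 := by omega
      have d1 : (x + 1, y) ∈ Dp A xl xr y1 y2 k :=
        H.band (by omega) (by omega) (by omega) (by omega)
      have o1 : (x + 1, y + 1) ∉ Dp A xl xr y1 y2 k :=
        H.out (H.nr (by omega) (by omega) (by omega) (by omega)) (by omega)
      have hN := gop (y0 := y0) (p := p) (σ := sgD xl p y0 y2) (rN x y) (pD hD) nbD_E (pD d1)
        (stp (rW (x + 1) y) (by rw [nbD_N (by omega)]; exact pD' o1))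
      refine det hN ?_
      subst c2
      exact .r2 (by omega) (by omega)
  · -- `E`
    by_cases c1 : x = xr + k
    · by_cases c2 : y = y1
      · have o1 : (x, y - 1) ∉ Dp A xl xr y1 y2 k :=
          H.out (H.nr (by omega) (by omega) (by omega) (by omega)) (by omega)
        refine det (stp (rE x y) (by rw [nbD_S (by omega)]; exact pD' o1)) ?_
        subst c1 c2
        exact .r3
      by_cases c3 : y = y0
      · have d1 : (x - 1, y0 - 1) ∈ Dp A xl xr y1 y2 k :=
          H.band (by omega) (by omega) (by omega) (by omega)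
        have d2 : (x - 1 + 1, y0 - 1) ∈ Dp A xl xr y1 y2 k :=
          H.band (by omega) (by omega) (by omega) (by omega)
        have o1 : (x - 1 + 1 + 1, y0) ∉ Dp A xl xr y1 y2 k :=
          H.out (H.nr (by omega) (by omega) (by omega) (by omega)) (by omega)
        have hN := gop (y0 := y0) (p := p) (σ := sgD xl p y0 y2) (rE x y) (pD hD)
          (nbD_S1 (by omega)) (pD d1)
          (gop (rN (x - 1) (y0 - 1)) (pD d1) nbD_E (pD d2)
            (stp (rW (x - 1 + 1) (y0 - 1)) (by rw [nbD_N1 (by omega)]; exact pD' o1)))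
        refine det hN ?_
        subst c3 c1
        exact Suc.r4.cast rfl (by rw [sub_add_cancel])
      · have d1 : (x, y - 1) ∈ Dp A xl xr y1 y2 k :=
          H.band (by omega) (by omega) (by omega) (by omega)
        have o1 : (x + 1, y - 1) ∉ Dp A xl xr y1 y2 k :=
          H.out (H.nr (by omega) (by omega) (by omega) (by omega)) (by omega)
        have hN := gop (y0 := y0) (p := p) (σ := sgD xl p y0 y2) (rE x y) (pD hD)
          (nbD_S (by omega)) (pD d1)
          (stp (rN x (y - 1)) (by rw [nbD_E]; exact pD' o1))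
        refine det hN ?_
        subst c1
        exact .r5 (by omega) (by omega) c3
    · exact absurd (GD_of (pD hD) nbD_E
        (pD (H.band (by omega) (by omega) (by omega) (by omega)))) (hfree _)
  · -- `S`
    by_cases c1 : y = y1
    · by_cases c2 : x = xr + 1
      · have d1 : (x - 1, y) ∈ Dp A xl xr y1 y2 k :=
          H.band (by omega) (by omega) (by omega) (by omega)
        have e1 : ((x - 1, y - 1) : ℤ × ℤ) = (xr, y1 - 1) := by
          rw [c1, c2]; simp
        have d2 : (x - 1, y - 1) ∈ Dp A xl xr y1 y2 k := H.sub (by rw [e1]; exact H.c2)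
        have o1 : (x - 1 + 1, y - 1) ∉ Dp A xl xr y1 y2 k :=
          H.out (H.nr (by omega) (by omega) (by omega) (by omega)) (by omega)
        have hN := gop (y0 := y0) (p := p) (σ := sgD xl p y0 y2) (rS x y) (pD hD)
          nbD_W (pD d1)
          (gop (rE (x - 1) y) (pD d1) (nbD_S (by omega)) (pD d2)
            (stp (rN (x - 1) (y - 1)) (by rw [nbD_E]; exact pD' o1)))
        refine det hN ?_
        rw [e1]
        subst c1 c2
        exact .r6
      · have d1 : (x - 1, y) ∈ Dp A xl xr y1 y2 k :=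
          H.band (by omega) (by omega) (by omega) (by omega)
        have o1 : (x - 1, y - 1) ∉ Dp A xl xr y1 y2 k :=
          H.out (H.nr (by omega) (by omega) (by omega) (by omega)) (by omega)
        have hN := gop (y0 := y0) (p := p) (σ := sgD xl p y0 y2) (rS x y) (pD hD)
          nbD_W (pD d1)
          (stp (rE (x - 1) y) (by rw [nbD_S (by omega)]; exact pD' o1))
        refine det hN ?_
        subst c1
        exact .r7 (by omega) (by omega)
    · exfalso
      by_cases c3 : y = y0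
      · exact hfree _ (GD_of (pD hD) (nbD_S1 (by omega))
          (pD (H.band (by omega) (by omega) (by omega) (by omega))))
      · exact hfree _ (GD_of (pD hD) (nbD_S (by omega))
          (pD (H.band (by omega) (by omega) (by omega) (by omega))))

/-- the left stub -/
lemma suc_L {x y : ℤ} {d : ZMod 4} (hR : (xl - k ≤ x ∧ x < xl) ∧ y1 ≤ y ∧ y < y2)
    (hfree : ∀ q, ¬ GD A xl xr y1 y2 k p y0 (some ((x, y), d)) q) {b : Port (ℤ × ℤ)} {κ : ℤ}
    (h : NxS (sgD xl p y0 y2) (GD A xl xr y1 y2 k p y0) (some ((x, y), d)) b κ) :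
    Suc A xl xr y1 y2 k y0 (some ((x, y), d)) b := by
  have hk := H.hk
  have h1 := H.hy1
  have h2 := H.hy2
  have h3 := H.hp1
  have h4 := H.hp2
  have hle := H.hf.le
  have hD : (x, y) ∈ Dp A xl xr y1 y2 k := H.band (by omega) (by omega) hR.2.1 hR.2.2
  have hxA : (x, y) ∉ A := H.nl (by omega) (by omega) (by omega) (by omega)
  have det : ∀ {b0 κ0}, NxS (sgD xl p y0 y2) (GD A xl xr y1 y2 k p y0) (some ((x, y), d)) b0 κ0 →
      Suc A xl xr y1 y2 k y0 (some ((x, y), d)) b0 →
      Suc A xl xr y1 y2 k y0 (some ((x, y), d)) b := by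
    intro b0 κ0 h5 h6
    obtain ⟨rfl, rfl⟩ := NxS.det (fun a b c => GD_fn a b c) h h5
    exact h6
  rcases Env664.z4 d with rfl | rfl | rfl | rfl
  · -- `W`
    by_cases c1 : x = xl - k
    · by_cases c2 : y = y2 - 1
      · have o1 : (x, y + 1) ∉ Dp A xl xr y1 y2 k :=
          H.out (H.nl (by omega) (by omega) (by omega) (by omega)) (by omega)
        refine det (stp (rW x y) (by rw [nbD_N (by omega)]; exact pD' o1)) ?_
        subst c1 c2
        exact .l1
      · have d1 : (x, y + 1) ∈ Dp A xl xr y1 y2 k :=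
          H.band (by omega) (by omega) (by omega) (by omega)
        have o1 : (x - 1, y + 1) ∉ Dp A xl xr y1 y2 k :=
          H.out (H.nl (by omega) (by omega) (by omega) (by omega)) (by omega)
        have hN := gop (y0 := y0) (p := p) (σ := sgD xl p y0 y2) (rW x y) (pD hD)
          (nbD_N (by omega)) (pD d1)
          (stp (rS x (y + 1)) (by rw [nbD_W]; exact pD' o1))
        refine det hN ?_
        subst c1
        exact .l2 (by omega) (by omega)
    · exact absurd (GD_of (pD hD) nbD_W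
        (pD (H.band (by omega) (by omega) (by omega) (by omega)))) (hfree _)
  · -- `N`
    by_cases c2 : y = y2 - 1
    · by_cases c1 : x = xl - 1
      · have d1 : (x + 1, y) ∈ Dp A xl xr y1 y2 k :=
          H.band (by omega) (by omega) (by omega) (by omega)
        have e1 : ((x + 1, y + 1) : ℤ × ℤ) = (xl, y2) := by rw [c1, c2]; simp
        have d2 : (x + 1, y + 1) ∈ Dp A xl xr y1 y2 k := H.sub (by rw [e1]; exact H.c3)
        have o1 : (x + 1 - 1, y + 1) ∉ Dp A xl xr y1 y2 k :=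
          H.out (H.nl (by omega) (by omega) (by omega) (by omega)) (by omega)
        have hN := gop (y0 := y0) (p := p) (σ := sgD xl p y0 y2) (rN x y) (pD hD)
          nbD_E (pD d1)
          (gop (rW (x + 1) y) (pD d1) (nbD_N (by omega)) (pD d2)
            (stp (rS (x + 1) (y + 1)) (by rw [nbD_W]; exact pD' o1)))
        refine det hN ?_
        rw [e1]
        subst c1 c2
        exact .l3
      · have d1 : (x + 1, y) ∈ Dp A xl xr y1 y2 k :=
          H.band (by omega) (by omega) (by omega) (by omega)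
        have o1 : (x + 1, y + 1) ∉ Dp A xl xr y1 y2 k :=
          H.out (H.nl (by omega) (by omega) (by omega) (by omega)) (by omega)
        have hN := gop (y0 := y0) (p := p) (σ := sgD xl p y0 y2) (rN x y) (pD hD)
          nbD_E (pD d1)
          (stp (rW (x + 1) y) (by rw [nbD_N (by omega)]; exact pD' o1))
        refine det hN ?_
        subst c2
        exact .l4 (by omega) (by omega)
    · exact absurd (GD_of (pD hD) (nbD_N (by omega))
        (pD (H.band (by omega) (by omega) (by omega) (by omega)))) (hfree _)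
  · -- `E`
    exact absurd (GD_of (pD hD) nbD_E
        (pD (H.band (by omega) (by omega) (by omega) (by omega)))) (hfree _)
  · -- `S`
    by_cases c1 : y = y1
    · by_cases c2 : x = xl - k
      · have o1 : (x - 1, y) ∉ Dp A xl xr y1 y2 k :=
          H.out (H.nl (by omega) (by omega) (by omega) (by omega)) (by omega)
        refine det (stp (rS x y) (by rw [nbD_W]; exact pD' o1)) ?_
        subst c1 c2
        exact .l5
      · have d1 : (x - 1, y) ∈ Dp A xl xr y1 y2 k :=
          H.band (by omega) (by omega) (by omega) (by omega)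
        have o1 : (x - 1, y - 1) ∉ Dp A xl xr y1 y2 k :=
          H.out (H.nl (by omega) (by omega) (by omega) (by omega)) (by omega)
        have hN := gop (y0 := y0) (p := p) (σ := sgD xl p y0 y2) (rS x y) (pD hD)
          nbD_W (pD d1)
          (stp (rE (x - 1) y) (by rw [nbD_S (by omega)]; exact pD' o1))
        refine det hN ?_
        subst c1
        exact .l6 (by omega) (by omega)
    · exact absurd (GD_of (pD hD) (nbD_S (by omega))
        (pD (H.band (by omega) (by omega) (by omega) (by omega)))) (hfree _)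

/-- the region itself -/
lemma suc_A {x y : ℤ} {d : ZMod 4} (hA : (x, y) ∈ A)
    (hfree : ∀ q, ¬ GD A xl xr y1 y2 k p y0 (some ((x, y), d)) q) {b : Port (ℤ × ℤ)} {κ : ℤ}
    (h : NxS (sgD xl p y0 y2) (GD A xl xr y1 y2 k p y0) (some ((x, y), d)) b κ) :
    Suc A xl xr y1 y2 k y0 (some ((x, y), d)) b := by
  have hk := H.hk
  have h1 := H.hy1
  have h2 := H.hy2
  have h3 := H.hp1
  have h4 := H.hp2
  have hle := H.hf.le
  have hD : (x, y) ∈ Dp A xl xr y1 y2 k := H.sub hA
  have mr : ¬ (xr < x ∧ x ≤ xr + k + 1 ∧ y1 - 1 ≤ y ∧ y ≤ y2) := fun hc =>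
    H.nr hc.1 hc.2.1 hc.2.2.1 hc.2.2.2 hA
  have ml : ¬ (x < xl ∧ xl - k - 1 ≤ x ∧ y1 - 1 ≤ y ∧ y ≤ y2) := fun hc =>
    H.nl hc.1 hc.2.1 hc.2.2.1 hc.2.2.2 hA
  have det : ∀ {b0 κ0}, NxS (sgD xl p y0 y2) (GD A xl xr y1 y2 k p y0) (some ((x, y), d)) b0 κ0 →
      Suc A xl xr y1 y2 k y0 (some ((x, y), d)) b0 →
      Suc A xl xr y1 y2 k y0 (some ((x, y), d)) b := by
    intro b0 κ0 h5 h6
    obtain ⟨rfl, rfl⟩ := NxS.det (fun a b c => GD_fn a b c) h h5
    exact h6
  have hm2 : ∀ y', y1 ≤ y' → y' < y2 → (((x, y), d) : (ℤ × ℤ) × ZMod 4) ≠ ((xr, y'), 2) := by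
    rintro y' g1 g2 e
    simp only [Prod.mk.injEq] at e
    obtain ⟨⟨rfl, rfl⟩, rfl⟩ := e
    exact hfree _ (GD_of (pD hD) nbD_E
      (pD (H.band (by omega) (by omega) (by omega) (by omega))))
  have hm0 : ∀ y', y1 ≤ y' → y' < y2 → (((x, y), d) : (ℤ × ℤ) × ZMod 4) ≠ ((xl, y'), 0) := by
    rintro y' g1 g2 e
    simp only [Prod.mk.injEq] at e
    obtain ⟨⟨rfl, rfl⟩, rfl⟩ := e
    exact hfree _ (GD_of (pD hD) nbD_W
      (pD (H.band (by omega) (by omega) (by omega) (by omega))))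
  -- good corners
  have good : ∀ X Y, cor ((x, y), d) = (X, Y) → GoodC A xl xr y1 y2 k y0 X Y →
      (∀ q, (full A).gl (some ((x, y), d)) q → ∃ u v e, nbD p y0 (xr + k) (some ((x, y), d)) =
        some ((u, v), e) ∧ (u, v) ∈ A) →
      Suc A xl xr y1 y2 k y0 (some ((x, y), d)) b := by
    intro X Y hc hg hnb
    obtain ⟨b', rfl, hb', hfr, hN, hq⟩ := far_step h3 h4 hk hg h (x, y) d rfl hA hc
    have hra : RFree (full A) ((x, y), d) := by
      refine ⟨hA, fun q hq' => ?_⟩
      obtain ⟨u, v, e, h5, h6⟩ := hnb _ hq'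
      exact hfree _ (GD_of (pD hD) h5 (pD (H.sub h6)))
    have hbase : b' ≠ ((xl, y1), 0) := by
      rintro rfl
      exact hq _ (GD_of (pD (H.band (by omega) (by omega) (by omega) (by omega))) nbD_W
        (pD (H.band (by omega) (by omega) (by omega) (by omega))))
    exact .a3 hra hfr hN hbase hm2 hm0
  rcases Env664.z4 d with rfl | rfl | rfl | rfl
  · -- `W`
    by_cases s1 : y1 ≤ y ∧ y < y2 ∧ xl ≤ x ∧ x ≤ xr
    · exact absurd (GD_of (pD hD) nbD_W
        (pD (H.band (by omega) (by omega) (by omega) (by omega)))) (hfree _)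
    by_cases s2 : x = xl ∧ y = y1 - 1
    · obtain ⟨rfl, rfl⟩ := s2
      have d1 : (x, y1 - 1 + 1) ∈ Dp A x xr y1 y2 k :=
        H.band (by omega) (by omega) (by omega) (by omega)
      have d2 : (x - 1, y1 - 1 + 1) ∈ Dp A x xr y1 y2 k :=
        H.band (by omega) (by omega) (by omega) (by omega)
      have o1 : (x - 1, y1 - 1 + 1 - 1) ∉ Dp A x xr y1 y2 k :=
        H.out (H.nl (by omega) (by omega) (by omega) (by omega)) (by omega)
      have hN := gop (y0 := y0) (p := p) (σ := sgD x p y0 y2) (rW x (y1 - 1)) (pD hD)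
        (nbD_N (by omega)) (pD d1)
        (gop (rS x (y1 - 1 + 1)) (pD d1) nbD_W (pD d2)
          (stp (rE (x - 1) (y1 - 1 + 1)) (by rw [nbD_S (by omega)]; exact pD' o1)))
      refine det hN ?_
      exact Suc.a1.cast rfl (by rw [sub_add_cancel])
    · refine good x (y + 1) rfl ⟨?_, by omega, by omega⟩ ?_
      · intro u v hu hv hm
        rw [mem_Dp] at hm
        rcases hm with hm | hm | hm
        · exact hm
        · exfalso; omega
        · exfalso; omega
      · intro q hq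
        have h5 := (full_h.1 (Reg.gl_0.1 hq).1).1
        exact ⟨_, _, _, nbD_W, h5⟩
  · -- `N`
    by_cases s1 : y1 ≤ y ∧ y + 1 < y2 ∧ xl ≤ x ∧ x ≤ xr
    · exfalso
      by_cases c3 : y = y0 - 1 ∧ p ≤ x
      · exact hfree _ (GD_of (pD hD) (nbD_N1 (by omega))
          (pD (H.band (by omega) (by omega) (by omega) (by omega))))
      · exact hfree _ (GD_of (pD hD) (nbD_N (by omega))
          (pD (H.band (by omega) (by omega) (by omega) (by omega))))
    by_cases s2 : x = xr ∧ y = y1 - 1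
    · exfalso
      exact hfree _ (GD_of (pD hD) (nbD_N (by omega))
        (pD (H.band (by omega) (by omega) (by omega) (by omega))))
    by_cases s3 : x = xr ∧ y = y2 - 1
    · exfalso
      refine hfree _ (GD_of (pD hD) (nbD_N (by omega)) (pD (H.sub ?_)))
      rw [s3.1, s3.2, sub_add_cancel]
      exact H.c4
    · refine good (x + 1) (y + 1) rfl ⟨?_, by omega, by omega⟩ ?_
      · intro u v hu hv hm
        rw [mem_Dp] at hm
        rcases hm with hm | hm | hm
        · exact hm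
        · exfalso; omega
        · exfalso; omega
      · intro q hq
        have h5 := (full_v.1 (Reg.gl_1.1 hq).1).2
        exact ⟨_, _, _, nbD_N (by omega), h5⟩
  · -- `E`
    by_cases s1 : y1 ≤ y ∧ y < y2 ∧ xl ≤ x ∧ x ≤ xr
    · exact absurd (GD_of (pD hD) nbD_E
        (pD (H.band (by omega) (by omega) (by omega) (by omega)))) (hfree _)
    by_cases s2 : x = xr ∧ y = y2
    · obtain ⟨rfl, rfl⟩ := s2
      have d1 : (x, y - 1) ∈ Dp A xl x y1 y k :=
        H.band (by omega) (by omega) (by omega) (by omega)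
      have d2 : (x + 1, y - 1) ∈ Dp A xl x y1 y k :=
        H.band (by omega) (by omega) (by omega) (by omega)
      have o1 : (x + 1, y - 1 + 1) ∉ Dp A xl x y1 y k :=
        H.out (H.nr (by omega) (by omega) (by omega) (by omega)) (by omega)
      have hN := gop (y0 := y0) (p := p) (σ := sgD xl p y0 y) (rE x y) (pD hD)
        (nbD_S (by omega)) (pD d1)
        (gop (rN x (y - 1)) (pD d1) nbD_E (pD d2)
          (stp (rW (x + 1) (y - 1)) (by rw [nbD_N (by omega)]; exact pD' o1)))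
      refine det hN ?_
      exact .a2
    · refine good (x + 1) y rfl ⟨?_, by omega, by omega⟩ ?_
      · intro u v hu hv hm
        rw [mem_Dp] at hm
        rcases hm with hm | hm | hm
        · exact hm
        · exfalso; omega
        · exfalso; omega
      · intro q hq
        have h5 := (full_h.1 (Reg.gl_2.1 hq).1).2
        exact ⟨_, _, _, nbD_E, h5⟩
  · -- `S`
    by_cases s1 : y1 < y ∧ y < y2 ∧ xl ≤ x ∧ x ≤ xr
    · exfalso
      by_cases c3 : y = y0 ∧ x = p
      · exact hfree _ (GD_of (pD hD) (nbD_Sleg c3) (portOf_none _))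
      by_cases c4 : y = y0 ∧ p < x
      · exact hfree _ (GD_of (pD hD) (nbD_S1 (by omega))
          (pD (H.band (by omega) (by omega) (by omega) (by omega))))
      · exact hfree _ (GD_of (pD hD) (nbD_S (by omega))
          (pD (H.band (by omega) (by omega) (by omega) (by omega))))
    by_cases s2 : x = xl ∧ y = y1
    · exfalso
      refine hfree _ (GD_of (pD hD) (nbD_S (by omega)) (pD (H.sub ?_)))
      rw [s2.1, s2.2]
      exact H.c1
    by_cases s3 : x = xl ∧ y = y2
    · exfalso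
      exact hfree _ (GD_of (pD hD) (nbD_S (by omega))
        (pD (H.band (by omega) (by omega) (by omega) (by omega))))
    · refine good x y rfl ⟨?_, by omega, by omega⟩ ?_
      · intro u v hu hv hm
        rw [mem_Dp] at hm
        rcases hm with hm | hm | hm
        · exact hm
        · exfalso; omega
        · exfalso; omega
      · intro q hq
        have h5 := (full_v.1 (Reg.gl_3.1 hq).1).1
        exact ⟨_, _, _, nbD_S (by omega), h5⟩

/-- **consecutive free ends are in the table** -/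
theorem suc_D {a b : Port (ℤ × ℤ)} {κ : ℤ} {t : ℤ × ℤ} {d : ZMod 4} (ha : a = some (t, d))
    (ht : t ∈ Dp A xl xr y1 y2 k) (hfree : ∀ q, ¬ GD A xl xr y1 y2 k p y0 a q)
    (h : NxS (sgD xl p y0 y2) (GD A xl xr y1 y2 k p y0) a b κ) :
    Suc A xl xr y1 y2 k y0 a b := by
  subst ha
  obtain ⟨x, y⟩ := t
  rcases mem_Dp.1 ht with h1 | h1 | h1
  · exact suc_A H h1 hfree h
  · exact suc_R H h1 hfree h
  · exact suc_L H h1 hfree h

end Crest.Agent.R158.Oc194
end

-- ▼ part R158/Oc2_194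
section

/-!
# R158, order of the ends, part 2 (helper194): charges of the marks in any cyclic order

`K : Port T → β` (linear order) which increases along the cyclic list `L w`, except at the port `b0`.

* `srt` : the comparison of `K` = the comparison of the indices read from `b0`
* `cK`, `kK` : the cumulated charges and the constant in the order `K`
* **`cM_cK`, `cS_cK`** : `cM = kK + cK`, `cS = kK + cK`
* **`hL_cM`, `hL_cS`** : `hL s w cM = v2 ^ kK * hL s w cK`
* **`HV_K`** : the observable in the order `K`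
-/

set_option autoImplicit false
set_option linter.unusedVariables false
set_option linter.unusedSectionVars false
set_option linter.unusedSimpArgs false

namespace Crest.Agent.R158.Oc194

open Finset
open Crest.Agent.R158.Sw300
open Crest.Agent.R158.Al194
open Crest.Agent.R158.Vt300 (v2)
open Crest.Agent.R158.Qc405 (Cy)

section lists

variable {α β : Type*} [BEq α] [LawfulBEq α] [LinearOrder β]

lemma rotl_split {l1 l2 : List α} {b : α} (h : b ∉ l1) : rotl (l1 ++ b :: l2) b = b :: l2 ++ l1 := by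
  unfold rotl
  rw [List.idxOf_append_of_notMem h, List.idxOf_cons_self, add_zero, List.rotate_append_length_eq]

/-- the list read from `b0` is sorted by `K` -/
lemma sorted_rotl {l : List α} (hnd : l.Nodup) {r : α → α → Prop} (hcy : Cy r l) {K : α → β}
    {b0 : α} (hb : b0 ∈ l) (hr : ∀ a b, a ∈ l → b ∈ l → r a b → K a < K b ∨ b = b0) :
    (rotl l b0).Pairwise fun a b => K a < K b := by
  obtain ⟨l1, l2, rfl⟩ := List.append_of_mem hb
  have h1 := List.nodup_append.1 hnd
  have hb1 : b0 ∉ l1 := fun hm => h1.2.2 b0 hm b0 (by simp) rfl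
  have hb2 : b0 ∉ l2 := (List.nodup_cons.1 h1.2.1).1
  rw [rotl_split hb1]
  have h2 : Cy r (b0 :: (l2 ++ l1)) := by
    have := Cy.rotn hcy
    simpa using this
  have h3 : List.IsChain r (b0 :: ((l2 ++ l1) ++ [b0])) := h2
  have h4 : List.IsChain r (b0 :: (l2 ++ l1)) := by
    have e : b0 :: ((l2 ++ l1) ++ [b0]) = (b0 :: (l2 ++ l1)) ++ [b0] := by simp
    rw [e] at h3
    exact (List.isChain_append.1 h3).1
  have key : ∀ (m : List α) (x : α), List.IsChain r (x :: m) → b0 ∉ m →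
      (∀ y ∈ x :: m, y ∈ l1 ++ b0 :: l2) → List.IsChain (fun a b => K a < K b) (x :: m) := by
    intro m
    induction m with
    | nil => intro x _ _ _; exact List.isChain_singleton _
    | cons y m ih =>
      intro x hc hn hm
      rw [List.isChain_cons_cons] at hc ⊢
      simp only [List.mem_cons, not_or] at hn
      refine ⟨?_, ih y hc.2 hn.2 fun z hz => hm z (by simp only [List.mem_cons] at hz ⊢; tauto)⟩
      rcases hr x y (hm x (by simp)) (hm y (by simp)) hc.1 with h5 | h5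
      · exact h5
      · exact absurd h5.symm hn.1
  have h5 := key _ _ h4 (by simp [hb1, hb2]) (fun y hy => by
    simp only [List.mem_cons, List.mem_append] at hy ⊢; tauto)
  have h6 := h5.pairwise
  simpa using h6

lemma idx_lt_iff {l : List α} {K : α → β} (h : l.Pairwise fun a b => K a < K b) {x y : α}
    (hx : x ∈ l) (hy : y ∈ l) : K x < K y ↔ l.idxOf x < l.idxOf y := by
  have key : ∀ x y, x ∈ l → y ∈ l → l.idxOf x < l.idxOf y → K x < K y := by
    intro x y hx hy hlt
    have h1 := List.pairwise_iff_getElem.1 h _ _ (List.idxOf_lt_length_of_mem hx)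
      (List.idxOf_lt_length_of_mem hy) hlt
    rwa [List.getElem_idxOf, List.getElem_idxOf] at h1
  refine ⟨fun h1 => ?_, key x y hx hy⟩
  by_contra h2
  rcases lt_or_eq_of_le (not_lt.1 h2) with h3 | h3
  · exact absurd (key y x hy hx h3) (not_lt.2 h1.le)
  · have : x = y := by
      have e1 := List.getElem_idxOf (List.idxOf_lt_length_of_mem hx)
      have e2 := List.getElem_idxOf (List.idxOf_lt_length_of_mem hy)
      rw [← e1, ← e2]
      simp only [h3]
    rw [this] at h1
    exact lt_irrefl _ h1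

lemma idx_le_iff {l : List α} {K : α → β} (h : l.Pairwise fun a b => K a < K b) {x y : α}
    (hx : x ∈ l) (hy : y ∈ l) : K x ≤ K y ↔ l.idxOf x ≤ l.idxOf y := by
  rw [← not_lt, idx_lt_iff h hy hx, not_lt]

/-- the index read from `m` in terms of the index read from `b` -/
lemma idx_rotl_rotl {l : List α} (h : l.Nodup) {b m x : α} (hb : b ∈ l) (hm : m ∈ l) (hx : x ∈ l) :
    (rotl l m).idxOf x = sh l.length ((rotl l b).idxOf m) ((rotl l b).idxOf x) := by
  rw [idxOf_rotl h hm hx, idxOf_rotl h hb hm, idxOf_rotl h hb hx]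
  have h1 := List.idxOf_lt_length_of_mem hb
  have h2 := List.idxOf_lt_length_of_mem hm
  have h3 := List.idxOf_lt_length_of_mem hx
  unfold sh
  split_ifs <;> omega

lemma sh_le_ind {N r i j : ℕ} (hr : r < N) (hi : i < N) (hj : j < N) :
    (if sh N r i ≤ sh N r j then (1 : ℤ) else 0) =
      (if i ≤ j then 1 else 0) - (if r ≤ j then 1 else 0) + (if r ≤ i then 1 else 0) := by
  unfold sh
  split_ifs <;> omega

lemma sh_lt_ind {N r i j : ℕ} (hr : r < N) (hi : i < N) (hj : j < N) :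
    (if sh N r i < sh N r j then (1 : ℤ) else 0) =
      (if i < j then 1 else 0) - (if r ≤ j then 1 else 0) + (if r ≤ i then 1 else 0) := by
  unfold sh
  split_ifs <;> omega

end lists

section charges

variable {T β : Type*} [DecidableEq T] [LinearOrder β] {w : Wd T} {s : T → Bool}

/-- cumulated charge in the order `K` -/
def cK (K : Port T → β) (m1 m2 : Port T) (e : Option (Port T)) (x : Port T) : ℤ :=
  (if K m1 ≤ K x then 1 else 0) + (if K m2 ≤ K x then 1 else 0) -
    match e with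
    | none => 2 * (if K m2 ≤ K x then 1 else 0)
    | some e => (if K e ≤ K x then 1 else 0) + (if K e < K x then 1 else 0)

/-- charge (from `m1`) at the start of the order `K` -/
def kK (K : Port T → β) (m1 m2 : Port T) (e : Option (Port T)) : ℤ :=
  1 + (if K m1 ≤ K m2 then 1 else 0) -
    match e with
    | none => 2 * (if K m1 ≤ K m2 then 1 else 0)
    | some e => 2 * (if K m1 ≤ K e then 1 else 0)

/-- `K` increases along the list of the ends read from `b0` -/
structure Ord (w : Wd T) (K : Port T → β) (b0 : Port T) : Prop where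
  ok : Ok w
  mem : b0 ∈ L w
  srt : (rotl (L w) b0).Pairwise fun a b => K a < K b

variable {K : Port T → β} {b0 : Port T}

lemma Ord.of_cy (h : Ok w) (hb : b0 ∈ L w) {r : Port T → Port T → Prop} (hcy : Cy r (L w))
    (hr : ∀ a b, a ∈ L w → b ∈ L w → r a b → K a < K b ∨ b = b0) : Ord w K b0 :=
  ⟨h, hb, sorted_rotl (nodup h) hcy hb hr⟩

lemma Ord.lt (O : Ord w K b0) {x y : Port T} (hx : x ∈ L w) (hy : y ∈ L w) :
    K x < K y ↔ (rotl (L w) b0).idxOf x < (rotl (L w) b0).idxOf y :=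
  idx_lt_iff O.srt (mem_rotl.2 hx) (mem_rotl.2 hy)

lemma Ord.le (O : Ord w K b0) {x y : Port T} (hx : x ∈ L w) (hy : y ∈ L w) :
    K x ≤ K y ↔ (rotl (L w) b0).idxOf x ≤ (rotl (L w) b0).idxOf y :=
  idx_le_iff O.srt (mem_rotl.2 hx) (mem_rotl.2 hy)

lemma Ord.inj (O : Ord w K b0) {x y : Port T} (hx : x ∈ L w) (hy : y ∈ L w) (h : K x = K y) :
    x = y := by
  have h1 := (O.le hx hy).1 h.le
  have h2 := (O.le hy hx).1 h.ge
  exact idL_inj hx hy (le_antisymm h1 h2)

/-- **the charges, middle phase** -/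
theorem Ord.cM_cK (O : Ord w K b0) {m1 m2 e x : Port T} (h1 : m1 ∈ L w) (h2 : m2 ∈ L w)
    (he : e ∈ L w) (hx : x ∈ L w) :
    cM (L w) m1 m2 (idL (L w) m1 e) x = kK K m1 m2 (some e) + cK K m1 m2 (some e) x := by
  have hnd := nodup O.ok
  have l1 : (rotl (L w) b0).idxOf m1 < (L w).length := idL_lt (m1 := b0) h1
  have l2 : (rotl (L w) b0).idxOf m2 < (L w).length := idL_lt (m1 := b0) h2
  have l3 : (rotl (L w) b0).idxOf e < (L w).length := idL_lt (m1 := b0) he
  have l4 : (rotl (L w) b0).idxOf x < (L w).length := idL_lt (m1 := b0) hx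
  unfold cM idL chm kK cK
  simp only [O.le h1 hx, O.le h2 hx, O.le he hx, O.lt he hx, O.le h1 h2, O.le h1 he]
  rw [idx_rotl_rotl hnd O.mem h1 h2, idx_rotl_rotl hnd O.mem h1 he, idx_rotl_rotl hnd O.mem h1 hx,
    if_pos (Nat.zero_le _), sh_le_ind l1 l2 l4, sh_le_ind l1 l3 l4, sh_lt_ind l1 l3 l4]
  ring

/-- **the charges, sharp mark at `m2`** -/
theorem Ord.cS_cK (O : Ord w K b0) {m1 m2 x : Port T} (h1 : m1 ∈ L w) (h2 : m2 ∈ L w)
    (hx : x ∈ L w) :
    cS (L w) m1 m2 ((rotl (L w) m1).idxOf m2) x = kK K m1 m2 none + cK K m1 m2 none x := by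
  have hnd := nodup O.ok
  have l1 : (rotl (L w) b0).idxOf m1 < (L w).length := idL_lt (m1 := b0) h1
  have l2 : (rotl (L w) b0).idxOf m2 < (L w).length := idL_lt (m1 := b0) h2
  have l4 : (rotl (L w) b0).idxOf x < (L w).length := idL_lt (m1 := b0) hx
  unfold cS chg kK cK
  simp only [O.le h1 hx, O.le h2 hx, O.le h1 h2]
  rw [idx_rotl_rotl hnd O.mem h1 h2, idx_rotl_rotl hnd O.mem h1 hx, if_pos (Nat.zero_le _),
    sh_le_ind l1 l2 l4]
  ring

/-- between the marks -/
theorem Ord.mem_Ico (O : Ord w K b0) {m1 m2 m3 x : Port T} (hM : Mk w m1 m2 m3) (hx : x ∈ L w) :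
    idL (L w) m1 x ∈ Ico ((rotl (L w) m1).idxOf m2) ((rotl (L w) m1).idxOf m3) ↔
      (x = m2 ∨ (K m2 < K x ∧ K x < K m3) ∨ (K x < K m3 ∧ K m3 < K m2) ∨ (K m3 < K m2 ∧ K m2 < K x)) := by
  have hlt := hM.lt O.ok
  obtain ⟨h1, h2, h3, -⟩ := hM
  have hnd := nodup O.ok
  have l1 : (rotl (L w) b0).idxOf m1 < (L w).length := idL_lt (m1 := b0) h1
  have l2 : (rotl (L w) b0).idxOf m2 < (L w).length := idL_lt (m1 := b0) h2
  have l3 : (rotl (L w) b0).idxOf m3 < (L w).length := idL_lt (m1 := b0) h3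
  have l4 : (rotl (L w) b0).idxOf x < (L w).length := idL_lt (m1 := b0) hx
  have hxe : x = m2 ↔ (rotl (L w) b0).idxOf x = (rotl (L w) b0).idxOf m2 :=
    ⟨fun e => by rw [e], fun e => idL_inj hx h2 e⟩
  rw [hxe, O.lt h2 hx, O.lt hx h3, O.lt h3 h2, Finset.mem_Ico]
  unfold idL
  rw [idx_rotl_rotl hnd O.mem h1 h2, idx_rotl_rotl hnd O.mem h1 h3] at hlt ⊢
  rw [idx_rotl_rotl hnd O.mem h1 hx]
  unfold sh at hlt ⊢
  split_ifs at hlt ⊢ <;> omega

/-! ### the weights -/

lemma er_add (a b : ℝ) : er (a + b) = er a * er b := by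
  unfold er
  rw [← Complex.exp_add]
  congr 1
  push_cast
  ring

lemma hL_const (h : Ok w) (a : ℝ) {c c' : Port T → ℝ} (e : ∀ x ∈ L w, c' x = a + c x) :
    hL s w c' = er a * hL s w c := by
  unfold hL
  have hu := (Ok.inv s w h).um
  rw [e _ hu, er_add]
  have : (∏ x ∈ ((L w).toFinset).filter (fun x => x ≠ u s w ∧ S s w x = true),
      wr (c' (M s w x) - c' x)) = ∏ x ∈ ((L w).toFinset).filter
        (fun x => x ≠ u s w ∧ S s w x = true), wr (c (M s w x) - c x) := by
    refine prod_congr rfl fun x hx => ?_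
    rw [mem_filter, List.mem_toFinset] at hx
    rw [e _ ((Ok.inv s w h).mem _ hx.1), e _ hx.1]
    congr 1
    ring
  rw [this]
  ring

theorem Ord.hL_cM (O : Ord w K b0) {m1 m2 e : Port T} (h1 : m1 ∈ L w) (h2 : m2 ∈ L w)
    (he : e ∈ L w) :
    hL s w (fun x => (cM (L w) m1 m2 (idL (L w) m1 e) x : ℝ)) =
      v2 ^ kK K m1 m2 (some e) * hL s w (fun x => (cK K m1 m2 (some e) x : ℝ)) := by
  rw [← er_int]
  refine hL_const O.ok _ fun x hx => ?_
  rw [O.cM_cK h1 h2 he hx]
  push_cast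
  rfl

theorem Ord.hL_cS (O : Ord w K b0) {m1 m2 : Port T} (h1 : m1 ∈ L w) (h2 : m2 ∈ L w) :
    hL s w (fun x => (cS (L w) m1 m2 ((rotl (L w) m1).idxOf m2) x : ℝ)) =
      v2 ^ kK K m1 m2 none * hL s w (fun x => (cK K m1 m2 none x : ℝ)) := by
  rw [← er_int]
  refine hL_const O.ok _ fun x hx => ?_
  rw [O.cS_cK h1 h2 hx]
  push_cast
  rfl


end charges

end Crest.Agent.R158.Oc194
private theorem rz_31a08d5f4b : type_of% @_root_.Crest.Agent.R158.Oc194.cK.eq_1 := @_root_.Crest.Agent.R158.Oc194.cK.eq_1 -- L124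
end

-- ▼ part R158/Oc3_194
section

/-!
# R158, order of the ends, part 3 (helper194): the clockwise order of the region with stubs

`B : Band A`, word `w` of `Dp A B.xl B.xr B.y1 B.y2 k`, glueing `beD .. p y0 (B.xr + k)`.

* `KD B x` : position of the free end `x` (lexicographic pair; blocks of 857's `pG`, the left cut in
  block `2` after the floor, the right cut in block `5` after the ceiling)
* **`ord_D`** : `KD` increases along the list `L w` read from the first end of the right floor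
-/

set_option autoImplicit false
set_option linter.unusedVariables false
set_option linter.unusedSectionVars false
set_option linter.unusedSimpArgs false

noncomputable section

namespace Crest.Agent.R158.Oc194

open Finset
open Crest.Agent.R158.Sw300
open Crest.Agent.R158.Al194
open Crest.Agent.R158.Pt266
open Crest.Agent.R158.Xr249 (rot rot_some rot_none Dp mem_Dp Free full full_h full_v Reg)
open Crest.Agent.R158.Qc405 (Cy NxS NS sgD TabH GD none_notin_L isLeg_of_bas)
open Crest.Agent.R158.Ob664 (GW)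
open Crest.Agent.R158.Env664 (beD TG Band Run)
open Crest.Agent.R158.Fm857 (rD isLow)

variable {A : Finset (ℤ × ℤ)} (B : Band A)

/-- block of a free end of the region with stubs -/
def blkD : Port (ℤ × ℤ) → ℤ
  | none => 6
  | some ((x, y), d) =>
      if (x, y) ∈ A then (if isLow B ((x, y), d) then 1 else 4)
      else if B.xr < x then (if d = 3 then 0 else 5)
      else if d = 3 then 2 else if d = 1 then 3 else 2

/-- position inside the block -/
def innD : Port (ℤ × ℤ) → ℤ
  | none => 0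
  | some ((x, y), d) =>
      if (x, y) ∈ A then rD B ((x, y), d)
      else if B.xr < x then
        (if d = 3 then -(x - B.xr - 1)
         else if y = B.y2 - 1 ∧ d = 1 then x - B.xr - 1
         else B.R + 2 + 2 * (B.y2 - y) - (if d = 1 then 1 else 0))
      else if d = 3 then -(B.R - (B.xl - x))
      else if d = 1 then B.R + 1 - (B.xl - x)
      else 1 + (y - B.y1)

/-- **position in the clockwise order of the region with stubs** -/
def KD (x : Port (ℤ × ℤ)) : ℤ ×ₗ ℤ := toLex (blkD B x, innD B x)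

variable {B} {x y : ℤ} {k p y0 : ℤ} {ψ : (ℤ × ℤ) × ZMod 4 → ℤ}

lemma KD_lt {a b : Port (ℤ × ℤ)} : KD B a < KD B b ↔
    blkD B a < blkD B b ∨ (blkD B a = blkD B b ∧ innD B a < innD B b) := by
  unfold KD; rw [Prod.Lex.toLex_lt_toLex]

lemma K_A {d : ZMod 4} (h : (x, y) ∈ A) :
    blkD B (some ((x, y), d)) = (if isLow B ((x, y), d) then 1 else 4) ∧
      innD B (some ((x, y), d)) = rD B ((x, y), d) := by
  simp only [blkD, innD]; rw [if_pos h, if_pos h]; exact ⟨rfl, rfl⟩

lemma z13 : (1 : ZMod 4) ≠ 3 := by decide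
lemma z23 : (2 : ZMod 4) ≠ 3 := by decide
lemma z21 : (2 : ZMod 4) ≠ 1 := by decide
lemma z03 : (0 : ZMod 4) ≠ 3 := by decide
lemma z01 : (0 : ZMod 4) ≠ 1 := by decide

lemma K_rS (h : (x, y) ∉ A) (hx : B.xr < x) : blkD B (some ((x, y), 3)) = 0 ∧
    innD B (some ((x, y), 3)) = -(x - B.xr - 1) := by
  simp only [blkD, innD]; rw [if_neg h, if_neg h, if_pos hx, if_pos hx]; exact ⟨rfl, rfl⟩

lemma K_rN (h : (x, B.y2 - 1) ∉ A) (hx : B.xr < x) : blkD B (some ((x, B.y2 - 1), 1)) = 5 ∧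
    innD B (some ((x, B.y2 - 1), 1)) = x - B.xr - 1 := by
  simp only [blkD, innD]
  rw [if_neg h, if_neg h, if_pos hx, if_pos hx, if_neg z13, if_neg z13, if_pos ⟨trivial, trivial⟩]
  exact ⟨rfl, rfl⟩

lemma K_rM (h : (x, y) ∉ A) (hx : B.xr < x) (hy : y ≠ B.y2 - 1) :
    blkD B (some ((x, y), 1)) = 5 ∧
      innD B (some ((x, y), 1)) = B.R + 2 + 2 * (B.y2 - y) - 1 := by
  simp only [blkD, innD]
  rw [if_neg h, if_neg h, if_pos hx, if_pos hx, if_neg z13, if_neg z13, if_neg fun e => hy e.1]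
  exact ⟨rfl, rfl⟩

lemma K_rE (h : (x, y) ∉ A) (hx : B.xr < x) : blkD B (some ((x, y), 2)) = 5 ∧
    innD B (some ((x, y), 2)) = B.R + 2 + 2 * (B.y2 - y) := by
  simp only [blkD, innD]
  rw [if_neg h, if_neg h, if_pos hx, if_pos hx, if_neg z23, if_neg z23, if_neg fun e => z21 e.2,
    if_neg z21, sub_zero]
  exact ⟨rfl, rfl⟩

lemma K_lS (h : (x, y) ∉ A) (hx : ¬ B.xr < x) : blkD B (some ((x, y), 3)) = 2 ∧
    innD B (some ((x, y), 3)) = -(B.R - (B.xl - x)) := by
  simp only [blkD, innD]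
  rw [if_neg h, if_neg h, if_neg hx, if_neg hx, if_pos trivial, if_pos trivial]
  exact ⟨rfl, rfl⟩

lemma K_lN (h : (x, y) ∉ A) (hx : ¬ B.xr < x) : blkD B (some ((x, y), 1)) = 3 ∧
    innD B (some ((x, y), 1)) = B.R + 1 - (B.xl - x) := by
  simp only [blkD, innD]
  rw [if_neg h, if_neg h, if_neg hx, if_neg hx, if_neg z13, if_neg z13, if_pos trivial,
    if_pos trivial]
  exact ⟨rfl, rfl⟩

lemma K_lW (h : (x, y) ∉ A) (hx : ¬ B.xr < x) : blkD B (some ((x, y), 0)) = 2 ∧
    innD B (some ((x, y), 0)) = 1 + (y - B.y1) := by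
  simp only [blkD, innD]
  rw [if_neg h, if_neg h, if_neg hx, if_neg hx, if_neg z03, if_neg z03, if_neg z01, if_neg z01]
  exact ⟨rfl, rfl⟩

/-! ### ranks in the list of `D` -/

section ranks

variable {w0 : Wd (ℤ × ℤ)} {l0 : List (Port (ℤ × ℤ))}

lemma rD_next (hB : Psi664.BW (full A) B.xl B.y1 w0 l0) {a b : (ℤ × ℤ) × ZMod 4} {κ : ℤ}
    (ha : RFree (full A) a) (h : NxT (full A).gl (some a) (some b) κ) (hb : b ≠ ((B.xl, B.y1), 0)) :
    rD B b = rD B a + 1 := by
  unfold rD
  rw [Psi664.rk_next hB ha h hb]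
  push_cast
  rfl

lemma rk_last {R : Reg} {a t : ℤ} {w : Wd (ℤ × ℤ)} {l : List (Port (ℤ × ℤ))}
    (h : Psi664.BW R a t w l) {x : (ℤ × ℤ) × ZMod 4} {κ : ℤ} (hx : RFree R x)
    (hxy : NxT R.gl (some x) (some ((a, t), 0)) κ) :
    Psi664.rk R a t x + 1 = (Psi664.ends R a t).length := by
  rcases h.next hx hxy with ⟨h1, -⟩ | ⟨-, ⟨l1, h1⟩, -⟩
  · exact absurd rfl h1
  · have hnd := h.nd
    unfold Psi664.rk
    rw [Psi664.ends_eq h]
    have h2 : some (Psi664.bp a t) :: l = l1 ++ [some x] := h1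
    rw [h2] at hnd ⊢
    have h3 : some x ∉ l1 := fun hm =>
      (List.nodup_append.1 hnd).2.2 _ hm _ (List.mem_singleton.2 rfl) rfl
    rw [List.idxOf_append_of_notMem h3, List.idxOf_cons_self, List.length_append,
      List.length_singleton, add_zero]

variable (H : TabH A B.xl B.xr B.y1 B.y2 k p y0 ψ)

include H

lemma v_mouthL {n : ℤ} (h1 : B.y1 - 1 ≤ n) (h2 : n < B.y2) :
    (full A).v (B.xl, n) ∧ ¬ (full A).h (B.xl - 1, n + 1) := by
  have hk := H.hk
  have hle := H.hf.le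
  have m : ∀ n, B.y1 - 1 ≤ n → n ≤ B.y2 → (B.xl, n) ∈ A := by
    intro n g1 g2
    by_cases g3 : n = B.y1 - 1
    · rw [g3]; exact H.c1
    by_cases g4 : n = B.y2
    · rw [g4]; exact H.c3
    · exact H.run _ _ le_rfl hle (by omega) (by omega)
  refine ⟨full_v.2 ⟨m _ h1 (by omega), m _ (by omega) (by omega)⟩, fun hc => ?_⟩
  exact H.nl (x := B.xl - 1) (by omega) (by omega) (by omega) (by omega) (full_h.1 hc).1

/-- ranks along the left mouth -/
lemma rk_mouthL (hB : Psi664.BW (full A) B.xl B.y1 w0 l0) : ∀ n : ℕ, B.y1 + n ≤ B.y2 →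
    RFree (full A) ((B.xl, B.y1 + n), 0) ∧ Psi664.rk (full A) B.xl B.y1 ((B.xl, B.y1 + n), 0) = n
  | 0, h => by
    simp only [Nat.cast_zero, add_zero]
    exact ⟨hB.bfree, Psi664.rk_base hB⟩
  | n + 1, h => by
    obtain ⟨i1, i2⟩ := rk_mouthL hB n (by push_cast at h; omega)
    obtain ⟨hv, hh⟩ := v_mouthL H (n := B.y1 + n) (by omega) (by push_cast at h; omega)
    have h1 := Psi664.nxt_left hv hh
    have hP := ((full A).vP _ _ hv).2
    have e : ((B.xl, B.y1 + ((n + 1 : ℕ) : ℤ)), (0 : ZMod 4)) = ((B.xl, B.y1 + n + 1), 0) := by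
      push_cast; rw [add_assoc]
    rw [e]
    refine ⟨Psi664.free_left hP hh, ?_⟩
    rw [Psi664.rk_next hB i1 h1 (by
      simp only [Psi664.bp, ne_eq, Prod.mk.injEq, true_and, and_true]; omega), i2]

/-- the last end of the right mouth and the next one -/
lemma mouthR : RFree (full A) ((B.xr, B.y1), 2) ∧ RFree (full A) ((B.xr, B.y1 - 1), 2) ∧
    NxT (full A).gl (some ((B.xr, B.y1), 2)) (some ((B.xr, B.y1 - 1), 2)) 0 := by
  have hk := H.hk
  have hle := H.hf.le
  have h1 := H.hy1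
  have h2 := H.hy2
  have m1 : (B.xr, B.y1) ∈ A := H.run _ _ hle le_rfl le_rfl (by omega)
  have hv : (full A).v (B.xr, B.y1 - 1) := full_v.2 ⟨H.c2, by rwa [sub_add_cancel]⟩
  have hh : ¬ (full A).h (B.xr, B.y1 - 1) := fun hc =>
    H.nr (x := B.xr + 1) (by omega) (by omega) (by omega) (by omega) (full_h.1 hc).2
  have hh' : ¬ (full A).h (B.xr, B.y1) := fun hc =>
    H.nr (x := B.xr + 1) (by omega) (by omega) (by omega) (by omega) (full_h.1 hc).2
  exact ⟨Psi664.free_right m1 hh', Psi664.free_right H.c2 hh, Psi664.nxt_right hv hh⟩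

lemma low_first (hB : Psi664.BW (full A) B.xl B.y1 w0 l0) : isLow B ((B.xr, B.y1 - 1), 2) := by
  obtain ⟨h1, -, h3⟩ := mouthR H
  have := rD_next hB h1 h3 (by
    intro e
    have : (2 : ZMod 4) = 0 := congrArg Prod.snd e
    exact absurd this (by decide))
  unfold isLow
  omega

lemma low_last (hB : Psi664.BW (full A) B.xl B.y1 w0 l0) : isLow B ((B.xl, B.y1 - 1), 0) := by
  have hk := H.hk
  have h1 := H.hy1
  have h2 := H.hy2
  obtain ⟨hv, hh⟩ := v_mouthL H (n := B.y1 - 1) (by omega) (by omega)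
  have hN := Psi664.nxt_left hv hh
  rw [sub_add_cancel] at hN
  have hfr : RFree (full A) ((B.xl, B.y1 - 1), 0) := Psi664.free_left ((full A).vP _ _ hv).1 fun hc =>
    H.nl (x := B.xl - 1) (by omega) (by omega) (by omega) (by omega) (full_h.1 hc).1
  have e1 := rk_last hB hfr hN
  obtain ⟨g1, -, -⟩ := mouthR H
  have e2 := Psi664.rk_lt hB g1
  have e3 : Psi664.rk (full A) B.xl B.y1 ((B.xr, B.y1), 2) ≠
      Psi664.rk (full A) B.xl B.y1 ((B.xl, B.y1 - 1), 0) := by
    intro e
    have : (2 : ZMod 4) = 0 := congrArg Prod.snd (Psi664.rk_inj hB g1 hfr e)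
    exact absurd this (by decide)
  unfold isLow rD
  omega

lemma up_first (hB : Psi664.BW (full A) B.xl B.y1 w0 l0) : ¬ isLow B ((B.xl, B.y2), 0) := by
  have h1 := H.hy1
  have h2 := H.hy2
  obtain ⟨g1, -, -⟩ := mouthR H
  obtain ⟨n, hn⟩ : ∃ n : ℕ, (n : ℤ) = B.y2 - B.y1 := ⟨(B.y2 - B.y1).toNat, by omega⟩
  obtain ⟨f1, f2⟩ := rk_mouthL H hB n (by omega)
  have e : B.y1 + (n : ℤ) = B.y2 := by omega
  rw [e] at f1 f2
  unfold isLow rD
  rw [f2]
  intro hlt
  have hlt' : Psi664.rk (full A) B.xl B.y1 ((B.xr, B.y1), 2) < n := by exact_mod_cast hlt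
  obtain ⟨f3, f4⟩ := rk_mouthL H hB (Psi664.rk (full A) B.xl B.y1 ((B.xr, B.y1), 2)) (by omega)
  have : (0 : ZMod 4) = 2 := congrArg Prod.snd (Psi664.rk_inj hB f3 g1 f4)
  exact absurd this (by decide)

/-- **the order increases along the table** -/
theorem suc_lt (hR : 2 * k < B.R) (hB : Psi664.BW (full A) B.xl B.y1 w0 l0)
    {a b : Port (ℤ × ℤ)} (h : Suc A B.xl B.xr B.y1 B.y2 k y0 a b) :
    KD B a < KD B b ∨ b = some ((B.xr + k, B.y1), 3) := by
  have hk := H.hk
  have h1 := H.hy1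
  have h2 := H.hy2
  have hle := H.hf.le
  have nr : ∀ x y, B.xr < x → x ≤ B.xr + k → B.y1 ≤ y → y < B.y2 → (x, y) ∉ A :=
    fun x y g1 g2 g3 g4 => H.nr g1 (by omega) (by omega) (by omega)
  have nl : ∀ x y, x < B.xl → B.xl - k ≤ x → B.y1 ≤ y → y < B.y2 → (x, y) ∉ A :=
    fun x y g1 g2 g3 g4 => H.nl g1 (by omega) (by omega) (by omega)
  rw [KD_lt]
  rcases h with hy | ⟨g1, g2⟩ | - | - | ⟨g1, g2, g3⟩ | - | ⟨g1, g2⟩ | - | ⟨g1, g2⟩ | - | ⟨g1, g2⟩ |
    - | ⟨g1, g2⟩ | - | - | ⟨ha, hb, hN, hbase, hm2, hm0⟩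
  · -- r1
    rename_i y
    have hn := nr (B.xr + k) y (by omega) (by omega) (by omega) (by omega)
    obtain ⟨e1, e2⟩ := K_rE (B := B) hn (by omega)
    by_cases hy2 : y = B.y2 - 1
    · subst hy2
      obtain ⟨e3, e4⟩ := K_rN (B := B) hn (by omega)
      left; right
      rw [e1, e2, e3, e4]; omega
    · obtain ⟨e3, e4⟩ := K_rM (B := B) hn (by omega) hy2
      left; right
      rw [e1, e2, e3, e4]; omega
  · -- r2
    rename_i x
    obtain ⟨e1, e2⟩ := K_rN (B := B) (nr x (B.y2 - 1) (by omega) (by omega) (by omega) (by omega)) (by omega)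
    obtain ⟨e3, e4⟩ := K_rN (B := B) (nr (x + 1) (B.y2 - 1) (by omega) (by omega) (by omega) (by omega))
      (by omega)
    left; right
    rw [e1, e2, e3, e4]; omega
  · -- r3
    right; rfl
  · -- r4
    obtain ⟨e1, e2⟩ := K_rE (B := B) (nr (B.xr + k) y0 (by omega) (by omega) (by omega) (by omega)) (by omega)
    obtain ⟨e3, e4⟩ := K_rM (B := B) (nr (B.xr + k) (y0 - 1) (by omega) (by omega) (by omega) (by omega))
      (by omega) (by omega)
    left; right
    rw [e1, e2, e3, e4]; omega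
  · -- r5
    rename_i y
    obtain ⟨e1, e2⟩ := K_rE (B := B) (nr (B.xr + k) y (by omega) (by omega) (by omega) (by omega)) (by omega)
    obtain ⟨e3, e4⟩ := K_rE (B := B) (nr (B.xr + k) (y - 1) (by omega) (by omega) (by omega) (by omega))
      (by omega)
    left; right
    rw [e1, e2, e3, e4]; omega
  · -- r6
    obtain ⟨e1, e2⟩ := K_rS (B := B) (nr (B.xr + 1) B.y1 (by omega) (by omega) (by omega) (by omega))
      (by omega)
    obtain ⟨e3, e4⟩ := K_A (B := B) (d := 2) H.c2
    rw [if_pos (low_first H hB)] at e3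
    left; left
    rw [e1, e3]; omega
  · -- r7
    rename_i x
    obtain ⟨e1, e2⟩ := K_rS (B := B) (nr x B.y1 (by omega) (by omega) (by omega) (by omega)) (by omega)
    obtain ⟨e3, e4⟩ := K_rS (B := B) (nr (x - 1) B.y1 (by omega) (by omega) (by omega) (by omega))
      (by omega)
    left; right
    rw [e1, e2, e3, e4]; omega
  · -- l1
    have hn := nl (B.xl - k) (B.y2 - 1) (by omega) (by omega) (by omega) (by omega)
    obtain ⟨e1, e2⟩ := K_lW (B := B) hn (by omega)
    obtain ⟨e3, e4⟩ := K_lN (B := B) hn (by omega)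
    left; left
    rw [e1, e3]; omega
  · -- l2
    rename_i y
    obtain ⟨e1, e2⟩ := K_lW (B := B) (nl (B.xl - k) y (by omega) (by omega) (by omega) (by omega)) (by omega)
    obtain ⟨e3, e4⟩ := K_lW (B := B) (nl (B.xl - k) (y + 1) (by omega) (by omega) (by omega) (by omega))
      (by omega)
    left; right
    rw [e1, e2, e3, e4]; omega
  · -- l3
    obtain ⟨e1, e2⟩ := K_lN (B := B) (nl (B.xl - 1) (B.y2 - 1) (by omega) (by omega) (by omega) (by omega))
      (by omega)
    obtain ⟨e3, e4⟩ := K_A (B := B) (d := 0) H.c3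
    rw [if_neg (up_first H hB)] at e3
    left; left
    rw [e1, e3]; omega
  · -- l4
    rename_i x
    obtain ⟨e1, e2⟩ := K_lN (B := B) (nl x (B.y2 - 1) (by omega) (by omega) (by omega) (by omega)) (by omega)
    obtain ⟨e3, e4⟩ := K_lN (B := B) (nl (x + 1) (B.y2 - 1) (by omega) (by omega) (by omega) (by omega))
      (by omega)
    left; right
    rw [e1, e2, e3, e4]; omega
  · -- l5
    have hn := nl (B.xl - k) B.y1 (by omega) (by omega) (by omega) (by omega)
    obtain ⟨e1, e2⟩ := K_lS (B := B) hn (by omega)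
    obtain ⟨e3, e4⟩ := K_lW (B := B) hn (by omega)
    left; right
    rw [e1, e2, e3, e4]; omega
  · -- l6
    rename_i x
    obtain ⟨e1, e2⟩ := K_lS (B := B) (nl x B.y1 (by omega) (by omega) (by omega) (by omega)) (by omega)
    obtain ⟨e3, e4⟩ := K_lS (B := B) (nl (x - 1) B.y1 (by omega) (by omega) (by omega) (by omega))
      (by omega)
    left; right
    rw [e1, e2, e3, e4]; omega
  · -- a1
    obtain ⟨e1, e2⟩ := K_A (B := B) (d := 0) H.c1
    rw [if_pos (low_last H hB)] at e1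
    obtain ⟨e3, e4⟩ := K_lS (B := B) (nl (B.xl - 1) B.y1 (by omega) (by omega) (by omega) (by omega))
      (by omega)
    left; left
    rw [e1, e3]; omega
  · -- a2
    obtain ⟨e1, e2⟩ := K_A (B := B) (d := 2) H.c4
    obtain ⟨e3, e4⟩ := K_rN (B := B) (nr (B.xr + 1) (B.y2 - 1) (by omega) (by omega) (by omega) (by omega))
      (by omega)
    left; left
    rw [e1, e3]; split_ifs <;> omega
  · -- a3
    rename_i a b κ
    obtain ⟨⟨x, y⟩, d⟩ := a
    obtain ⟨⟨x', y'⟩, d'⟩ := b
    obtain ⟨e1, e2⟩ := K_A (B := B) (d := d) ha.1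
    obtain ⟨e3, e4⟩ := K_A (B := B) (d := d') hb.1
    have e5 := rD_next hB ha hN hbase
    have e6 : rD B ((B.xr, B.y1), 2) ≠ rD B ((x, y), d) := by
      intro e
      unfold rD at e
      exact hm2 B.y1 le_rfl (by omega) (Psi664.rk_inj hB (mouthR H).1 ha (by exact_mod_cast e)).symm
    left
    rw [e1, e2, e3, e4]
    unfold isLow
    split_ifs <;> omega

end ranks

/-! ### the list of the ends of the word -/

lemma Cy.of_map {α β : Type*} {r : β → β → Prop} {f : α → β} : ∀ {l : List α},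
    Cy r (l.map f) → Cy (fun a b => r (f a) (f b)) l
  | [], _ => trivial
  | a :: m, h => by
    have h' : List.IsChain r ((a :: (m ++ [a])).map f) := by
      have : List.IsChain r (f a :: (m.map f ++ [f a])) := h
      simpa using this
    rw [List.isChain_map] at h'
    exact h'

/-- **`KD` increases along the list of the ends** -/
theorem ord_D {w0 : Wd (ℤ × ℤ)} {l0 : List (Port (ℤ × ℤ))}
    (H : TabH A B.xl B.xr B.y1 B.y2 k p y0 ψ) (hR : 2 * k < B.R)
    (hB : Psi664.BW (full A) B.xl B.y1 w0 l0) {w : Wd (ℤ × ℤ)}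
    (hw : GW (Dp A B.xl B.xr B.y1 B.y2 k) (beD (Dp A B.xl B.xr B.y1 B.y2 k) p y0 (B.xr + k)) w) :
    Ord w (KD B) (some ((B.xr + k, B.y1), 3)) := by
  have hk := H.hk
  have h1 := H.hy1
  have h2 := H.hy2
  have h3 := H.hp1
  have h4 := H.hp2
  have hle := H.hf.le
  have hok := hw.word.1
  have hleg := isLeg_of_bas hw.leg
  have hpD : (p, y0) ∈ Dp A B.xl B.xr B.y1 B.y2 k :=
    H.band (by omega) (by omega) (by omega) (by omega)
  have hwl : w ≠ .leg := by
    rintro rfl
    have := (hw.word.2.2.1 (p, y0)).2 hpD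
    simp [tls] at this
  have hnone := none_notin_L hok hleg hwl
  have hcc := (H.flw hw).2.2
  have hmem : some ((B.xr + k, B.y1), (3 : ZMod 4)) ∈ L w := by
    rw [Qc405.GW.memL hw]
    have o1 : (B.xr + k, B.y1 - 1) ∉ Dp A B.xl B.xr B.y1 B.y2 k :=
      H.out (H.nr (by omega) (by omega) (by omega) (by omega)) (by omega)
    refine ⟨H.band (by omega) (by omega) (by omega) (by omega), Qc405.GD_not ?_⟩
    rw [Env664.nbD_S (by omega)]
    exact Qc405.pD' o1
  refine Ord.of_cy (r := fun a b => NS (sgD B.xl p y0 B.y2) (Gs w)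
    (a, Qc405.psi (sgD B.xl p y0 B.y2) w a) (b, Qc405.psi (sgD B.xl p y0 B.y2) w b)) hok hmem
    (Cy.of_map hcc) fun a b ha hb hab => ?_
  rcases a with _ | ⟨t, d⟩
  · exact absurd ha hnone
  · obtain ⟨htD, hfr⟩ := (Qc405.GW.memL hw).1 ha
    have hG : Gs w = GD A B.xl B.xr B.y1 B.y2 k p y0 := by
      funext u v; exact propext (Qc405.GW.gs hw u v)
    have hab' : NxS (sgD B.xl p y0 B.y2) (Gs w) (some (t, d)) b _ := hab
    rw [hG] at hab'
    exact suc_lt H hR hB (suc_D H rfl htD hfr hab')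

end Crest.Agent.R158.Oc194
end
private theorem rz_f8dcf5d596 : type_of% @_root_.Crest.Agent.R158.Oc194.blkD.eq_1 := @_root_.Crest.Agent.R158.Oc194.blkD.eq_1 -- L36
private theorem rz_495be6aa4e : type_of% @_root_.Crest.Agent.R158.Oc194.innD.eq_1 := @_root_.Crest.Agent.R158.Oc194.innD.eq_1 -- L44
end

-- ▼ part R158/Oc4_194

/-!
# R158, order of the ends, part 4 (helper194): natural and artificial ends

* `FC` : the kinds of free ends of `Dp` (`D`, right floor / ceiling / cut / step port, left floor /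
  ceiling / cut); **`fc_of`** : every end of the word is of one of these kinds, **`fc_mem`** the converse
* `Nat` ends : the kinds `D`, floor, ceiling; **`KD_nat`** : `KD B x = pG B b (pm (eD B y0 k) x)`
* **`art_R`, `art_L`, `not_art`** : 300's `Art` on the kinds
-/

set_option autoImplicit false
set_option linter.unusedVariables false
set_option linter.unusedSectionVars false
set_option linter.unusedSimpArgs false

noncomputable section

namespace Crest.Agent.R158.Oc194

open Finset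
open Crest.Agent.R158.Sw300
open Crest.Agent.R158.Al194
open Crest.Agent.R158.Pt266
open Crest.Agent.R158.Xr249 (rot rot_some rot_none Dp mem_Dp Free full full_h full_v Reg pm pm_some
  pm_none eD eD_A eD_r eD_l wd_cases pm_inj)
open Crest.Agent.R158.Qc405 (Cy NxS NS sgD TabH GD none_notin_L isLeg_of_bas GD_of GD_not pD pD')
open Crest.Agent.R158.Ob664 (GW)
open Crest.Agent.R158.Env664 (beD nbD TG Band Run PortOf portOf_some portOf_none nbP nbP_W nbP_N nbP_E
  nbP_S nbD_W nbD_E nbD_N1 nbD_N nbD_Sleg nbD_S1 nbD_S)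
open Crest.Agent.R158.Fm857 (rD isLow pG blkG innG freeG freeD flr cil mem_freeG mem_flr mem_cil mouth)
open Crest.Agent.R158.Ad350 (ports mem_ports mem_ports')
open Crest.Agent.R158.Ao857 (tpm inlE)
open Crest.Agent.R158.Qd300 (Art art_iff DB beC beC_ne)

variable {A : Finset (ℤ × ℤ)} {B : Band A} {k p y0 : ℤ} {ψ : (ℤ × ℤ) × ZMod 4 → ℤ}

/-- the natural free ends in the stubs -/
def NatS (B : Band A) (k : ℤ) (x : Port (ℤ × ℤ)) : Prop :=
  (∃ u, (B.xr < u ∧ u ≤ B.xr + k) ∧ x = some ((u, B.y1), 3)) ∨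
  (∃ u, (B.xr < u ∧ u ≤ B.xr + k) ∧ x = some ((u, B.y2 - 1), 1)) ∨
  (∃ u, (B.xl - k ≤ u ∧ u < B.xl) ∧ x = some ((u, B.y1), 3)) ∨
  (∃ u, (B.xl - k ≤ u ∧ u < B.xl) ∧ x = some ((u, B.y2 - 1), 1))

/-- a free end of `D` outside the mouths -/
def NatD (B : Band A) (x : Port (ℤ × ℤ)) : Prop := x ∈ freeD B

/-- the right cut -/
def CutR (B : Band A) (k y0 : ℤ) (x : Port (ℤ × ℤ)) : Prop :=
  (∃ v, (B.y1 ≤ v ∧ v < B.y2) ∧ x = some ((B.xr + k, v), 2)) ∨ x = some ((B.xr + k, y0 - 1), 1)

/-- the left cut -/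
def CutL (B : Band A) (k : ℤ) (x : Port (ℤ × ℤ)) : Prop :=
  ∃ v, (B.y1 ≤ v ∧ v < B.y2) ∧ x = some ((B.xl - k, v), 0)

section

variable (H : TabH A B.xl B.xr B.y1 B.y2 k p y0 ψ)

include H


lemma freeD_of {x y : ℤ} {d : ZMod 4} (hA : (x, y) ∈ A)
    (hfr : ∀ q, ¬ GD A B.xl B.xr B.y1 B.y2 k p y0 (some ((x, y), d)) q) :
    NatD B (some ((x, y), d)) := by
  have hk := H.hk
  have h1 := H.hy1
  have h2 := H.hy2
  have h3 := H.hp1
  have h4 := H.hp2
  have hle := H.hf.le
  have hD := H.sub hA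
  have mr : ¬ (B.xr < x ∧ x ≤ B.xr + k + 1 ∧ B.y1 - 1 ≤ y ∧ y ≤ B.y2) := fun hc =>
    H.nr hc.1 hc.2.1 hc.2.2.1 hc.2.2.2 hA
  unfold NatD freeD
  rw [Finset.mem_filter]
  refine ⟨mem_ports.2 hA, ?_, ?_⟩
  · intro hn
    rcases Env664.z4 d with rfl | rfl | rfl | rfl
    · rw [nbP_W] at hn
      exact hfr _ (GD_of (pD hD) nbD_W (pD (H.sub (portOf_some.1 hn))))
    · rw [nbP_N] at hn
      by_cases hc : y = y0 - 1 ∧ p ≤ x ∧ x ≤ B.xr + k
      · exact hfr _ (GD_of (pD hD) (nbD_N1 hc)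
          (pD (H.band (by omega) (by omega) (by omega) (by omega))))
      · exact hfr _ (GD_of (pD hD) (nbD_N hc) (pD (H.sub (portOf_some.1 hn))))
    · rw [nbP_E] at hn
      exact hfr _ (GD_of (pD hD) nbD_E (pD (H.sub (portOf_some.1 hn))))
    · rw [nbP_S] at hn
      by_cases hc : y = y0 ∧ x = p
      · exact hfr _ (GD_of (pD hD) (nbD_Sleg hc) (portOf_none _))
      by_cases hc2 : y = y0 ∧ p < x ∧ x ≤ B.xr + k
      · exact hfr _ (GD_of (pD hD) (nbD_S1 hc2)
          (pD (H.band (by omega) (by omega) (by omega) (by omega))))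
      · exact hfr _ (GD_of (pD hD) (nbD_S (by omega)) (pD (H.sub (portOf_some.1 hn))))
  · unfold mouth
    rintro ⟨⟨k1, k2⟩, ⟨rfl, k3⟩ | ⟨rfl, k3⟩⟩
    · exact hfr _ (GD_of (pD hD) nbD_W (pD (H.band (by omega) (by omega) (by omega) (by omega))))
    · exact hfr _ (GD_of (pD hD) nbD_E (pD (H.band (by omega) (by omega) (by omega) (by omega))))

/-- **the ends of the word** -/
theorem fc_of {w : Wd (ℤ × ℤ)}
    (hw : GW (Dp A B.xl B.xr B.y1 B.y2 k) (beD (Dp A B.xl B.xr B.y1 B.y2 k) p y0 (B.xr + k)) w)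
    {x : Port (ℤ × ℤ)} (hx : x ∈ L w) : NatD B x ∨ NatS B k x ∨ CutR B k y0 x ∨ CutL B k x := by
  have hk := H.hk
  have h1 := H.hy1
  have h2 := H.hy2
  have h3 := H.hp1
  have h4 := H.hp2
  have hle := H.hf.le
  have hok := hw.word.1
  have hleg := isLeg_of_bas hw.leg
  have hwl : w ≠ .leg := by
    rintro rfl
    have := (hw.word.2.2.1 (p, y0)).2 (H.band (by omega) (by omega) (by omega) (by omega))
    simp [tls] at this
  rcases x with _ | ⟨⟨x, y⟩, d⟩
  · exact absurd hx (none_notin_L hok hleg hwl)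
  obtain ⟨hD, hfr⟩ := (Qc405.GW.memL hw).1 hx
  rcases mem_Dp.1 hD with hA | hR | hL
  · exact Or.inl (freeD_of H hA hfr)
  · rcases Env664.z4 d with rfl | rfl | rfl | rfl
    · exact absurd (GD_of (pD hD) nbD_W (pD (H.band (by omega) (by omega) (by omega) (by omega))))
        (hfr _)
    · by_cases hy : y = B.y2 - 1
      · exact Or.inr (Or.inl (Or.inr (Or.inl ⟨x, by omega, by rw [hy]⟩)))
      by_cases hy' : y = y0 - 1 ∧ x = B.xr + k
      · exact Or.inr (Or.inr (Or.inl (Or.inr (by rw [hy'.1, hy'.2]))))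
      exfalso
      by_cases c3 : y = y0 - 1
      · exact hfr _ (GD_of (pD hD) (nbD_N1 (by omega))
          (pD (H.band (by omega) (by omega) (by omega) (by omega))))
      · exact hfr _ (GD_of (pD hD) (nbD_N (by omega))
          (pD (H.band (by omega) (by omega) (by omega) (by omega))))
    · by_cases hc : x = B.xr + k
      · exact Or.inr (Or.inr (Or.inl (Or.inl ⟨y, by omega, by rw [hc]⟩)))
      · exact absurd (GD_of (pD hD) nbD_E (pD (H.band (by omega) (by omega) (by omega) (by omega))))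
          (hfr _)
    · by_cases hy : y = B.y1
      · exact Or.inr (Or.inl (Or.inl ⟨x, by omega, by rw [hy]⟩))
      exfalso
      by_cases c3 : y = y0
      · exact hfr _ (GD_of (pD hD) (nbD_S1 (by omega))
          (pD (H.band (by omega) (by omega) (by omega) (by omega))))
      · exact hfr _ (GD_of (pD hD) (nbD_S (by omega))
          (pD (H.band (by omega) (by omega) (by omega) (by omega))))
  · rcases Env664.z4 d with rfl | rfl | rfl | rfl
    · by_cases hc : x = B.xl - k
      · exact Or.inr (Or.inr (Or.inr ⟨y, by omega, by rw [hc]⟩))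
      · exact absurd (GD_of (pD hD) nbD_W (pD (H.band (by omega) (by omega) (by omega) (by omega))))
          (hfr _)
    · by_cases hy : y = B.y2 - 1
      · exact Or.inr (Or.inl (Or.inr (Or.inr (Or.inr ⟨x, by omega, by rw [hy]⟩))))
      · exact absurd (GD_of (pD hD) (nbD_N (by omega))
          (pD (H.band (by omega) (by omega) (by omega) (by omega)))) (hfr _)
    · exact absurd (GD_of (pD hD) nbD_E (pD (H.band (by omega) (by omega) (by omega) (by omega))))
          (hfr _)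
    · by_cases hy : y = B.y1
      · exact Or.inr (Or.inl (Or.inr (Or.inr (Or.inl ⟨x, by omega, by rw [hy]⟩))))
      · exact absurd (GD_of (pD hD) (nbD_S (by omega))
          (pD (H.band (by omega) (by omega) (by omega) (by omega)))) (hfr _)

/-- **the converse for the natural ends of `D`** -/
theorem mem_of_natD {w : Wd (ℤ × ℤ)}
    (hw : GW (Dp A B.xl B.xr B.y1 B.y2 k) (beD (Dp A B.xl B.xr B.y1 B.y2 k) p y0 (B.xr + k)) w)
    {x : Port (ℤ × ℤ)} (hx : NatD B x) : x ∈ L w := by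
  have hk := H.hk
  have h1 := H.hy1
  have h2 := H.hy2
  have h3 := H.hp1
  have h4 := H.hp2
  have hle := H.hf.le
  unfold NatD freeD at hx
  rw [Finset.mem_filter] at hx
  obtain ⟨hp, hn, hm⟩ := hx
  obtain ⟨⟨x, y⟩, d, rfl, hA⟩ := mem_ports' hp
  have mr : ¬ (B.xr < x ∧ x ≤ B.xr + k + 1 ∧ B.y1 - 1 ≤ y ∧ y ≤ B.y2) := fun hc =>
    H.nr hc.1 hc.2.1 hc.2.2.1 hc.2.2.2 hA
  have ml : ¬ (x < B.xl ∧ B.xl - k - 1 ≤ x ∧ B.y1 - 1 ≤ y ∧ y ≤ B.y2) := fun hc =>
    H.nl hc.1 hc.2.1 hc.2.2.1 hc.2.2.2 hA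
  rw [Qc405.GW.memL hw]
  refine ⟨H.sub hA, GD_not ?_⟩
  have hrun : ∀ v, B.y1 ≤ v → v < B.y2 → B.xl ≤ x → x ≤ B.xr → (x, v) ∈ A :=
    fun v g1 g2 g3 g4 => H.run _ _ g3 g4 g1 g2
  unfold mouth at hm
  rcases Env664.z4 d with rfl | rfl | rfl | rfl
  · rw [nbP_W, portOf_some] at hn
    have hm' : ¬ (x = B.xl ∧ B.y1 ≤ y ∧ y < B.y2) := fun h => hm ⟨⟨h.2.1, h.2.2⟩, Or.inl ⟨rfl, h.1⟩⟩
    rw [nbD_W, portOf_some, mem_Dp]
    rintro (h | h | h)
    · exact hn h
    · omega
    · omega
  · rw [nbP_N, portOf_some] at hn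
    by_cases hc : y = y0 - 1 ∧ p ≤ x ∧ x ≤ B.xr + k
    · exact absurd (hrun (y + 1) (by omega) (by omega) (by omega) (by omega)) hn
    rw [nbD_N hc, portOf_some, mem_Dp]
    rintro (h | h | h)
    · exact hn h
    · omega
    · omega
  · rw [nbP_E, portOf_some] at hn
    have hm' : ¬ (x = B.xr ∧ B.y1 ≤ y ∧ y < B.y2) := fun h => hm ⟨⟨h.2.1, h.2.2⟩, Or.inr ⟨rfl, h.1⟩⟩
    rw [nbD_E, portOf_some, mem_Dp]
    rintro (h | h | h)
    · exact hn h
    · omega
    · omega
  · rw [nbP_S, portOf_some] at hn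
    by_cases hc : y = y0 ∧ p ≤ x ∧ x ≤ B.xr + k
    · exact absurd (hrun (y - 1) (by omega) (by omega) (by omega) (by omega)) hn
    rw [nbD_S (by omega), portOf_some, mem_Dp]
    rintro (h | h | h)
    · exact hn h
    · omega
    · omega

/-- **the converse for the natural ends of the stubs** -/
theorem mem_of_natS {w : Wd (ℤ × ℤ)}
    (hw : GW (Dp A B.xl B.xr B.y1 B.y2 k) (beD (Dp A B.xl B.xr B.y1 B.y2 k) p y0 (B.xr + k)) w)
    {x : Port (ℤ × ℤ)} (hx : NatS B k x) : x ∈ L w := by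
  have hk := H.hk
  have h1 := H.hy1
  have h2 := H.hy2
  have h3 := H.hp1
  have h4 := H.hp2
  have hle := H.hf.le
  rcases hx with ⟨u, hu, rfl⟩ | ⟨u, hu, rfl⟩ | ⟨u, hu, rfl⟩ | ⟨u, hu, rfl⟩
  · rw [Qc405.GW.memL hw]
    refine ⟨H.band (by omega) (by omega) (by omega) (by omega), GD_not ?_⟩
    rw [nbD_S (by omega), portOf_some]
    exact H.out (H.nr (by omega) (by omega) (by omega) (by omega)) (by omega)
  · rw [Qc405.GW.memL hw]
    refine ⟨H.band (by omega) (by omega) (by omega) (by omega), GD_not ?_⟩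
    rw [nbD_N (by omega), portOf_some]
    exact H.out (H.nr (by omega) (by omega) (by omega) (by omega)) (by omega)
  · rw [Qc405.GW.memL hw]
    refine ⟨H.band (by omega) (by omega) (by omega) (by omega), GD_not ?_⟩
    rw [nbD_S (by omega), portOf_some]
    exact H.out (H.nl (by omega) (by omega) (by omega) (by omega)) (by omega)
  · rw [Qc405.GW.memL hw]
    refine ⟨H.band (by omega) (by omega) (by omega) (by omega), GD_not ?_⟩
    rw [nbD_N (by omega), portOf_some]
    exact H.out (H.nl (by omega) (by omega) (by omega) (by omega)) (by omega)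

/-! ### images -/

omit H in
lemma natD_some {x : Port (ℤ × ℤ)} (hx : NatD B x) : ∃ t d, x = some (t, d) ∧ t ∈ A := by
  unfold NatD freeD at hx
  exact mem_ports' (Finset.mem_filter.1 hx).1

omit H in
lemma pm_A (hf : Free A B.xl B.xr B.y1 B.y2 k) {t : ℤ × ℤ} {d : ZMod 4} (ht : t ∈ A) :
    pm (eD B y0 k) (some (t, d)) = some (Sum.inl t, d) := by
  obtain ⟨x, y⟩ := t
  rw [pm_some, eD_A hf ht]

lemma pm_r {u v : ℤ} {d : ZMod 4} (hu : B.xr < u ∧ u ≤ B.xr + k) (hv : B.y1 ≤ v ∧ v < B.y2) :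
    pm (eD B y0 k) (some ((u, v), d)) = some (Sum.inr (u - B.xr - 1, v), d) := by
  rw [pm_some, eD_r ⟨hv, hu⟩]

lemma pm_l {u v : ℤ} {d : ZMod 4} (hu : B.xl - k ≤ u ∧ u < B.xl) (hv : B.y1 ≤ v ∧ v < B.y2) :
    pm (eD B y0 k) (some ((u, v), d)) = some (Sum.inr (B.wd y0 v - (B.xl - u), v), d) := by
  rw [pm_some, eD_l H.hf.le ⟨hv, hu⟩]

lemma wd1 : B.wd y0 B.y1 = B.R := by
  have := H.hy1
  rcases wd_cases B y0 B.y1 with h | h <;> omega

lemma wd2 : B.wd y0 (B.y2 - 1) = B.R + 1 := by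
  have := H.hy2
  rcases wd_cases B y0 (B.y2 - 1) with h | h <;> omega

/-- the natural ends are free in `G^(z)` -/
theorem nat_free (hR : 2 * k < B.R) {x : Port (ℤ × ℤ)} (hx : NatD B x ∨ NatS B k x) :
    pm (eD B y0 k) x ∈ freeG B := by
  have hk := H.hk
  have h1 := H.hy1
  have h2 := H.hy2
  unfold Fm857.freeG
  rw [Finset.mem_union, Finset.mem_union, mem_flr, mem_cil, Finset.mem_image]
  rcases hx with hx | ⟨u, hu, rfl⟩ | ⟨u, hu, rfl⟩ | ⟨u, hu, rfl⟩ | ⟨u, hu, rfl⟩
  · left
    refine ⟨x, hx, ?_⟩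
    obtain ⟨t, d, rfl, ht⟩ := natD_some hx
    rw [pm_A H.hf ht]; rfl
  · right; left
    rw [pm_r H hu ⟨le_rfl, by omega⟩]
    exact ⟨_, by omega, by omega, rfl⟩
  · right; right
    rw [pm_r H hu ⟨by omega, by omega⟩]
    exact ⟨_, by omega, by omega, rfl⟩
  · right; left
    rw [pm_l H hu ⟨le_rfl, by omega⟩, wd1 H]
    exact ⟨_, by omega, by omega, rfl⟩
  · right; right
    rw [pm_l H hu ⟨by omega, by omega⟩, wd2 H]
    exact ⟨_, by omega, by omega, rfl⟩

/-- the cuts are glued in `G^(z)` -/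
theorem cut_glued (hR : 2 * k < B.R) {x : Port (ℤ × ℤ)} (hx : CutR B k y0 x ∨ CutL B k x) :
    pm (eD B y0 k) x ∉ freeG B := by
  have hk := H.hk
  have h1 := H.hy1
  have h2 := H.hy2
  have n1 : (2 : ZMod 4) ≠ 3 := by decide
  have n2 : (2 : ZMod 4) ≠ 1 := by decide
  have n3 : (1 : ZMod 4) ≠ 3 := by decide
  have n4 : (0 : ZMod 4) ≠ 3 := by decide
  have n5 : (0 : ZMod 4) ≠ 1 := by decide
  have key : ∀ (a : ℤ × ℤ) (d : ZMod 4), (d = 0 ∨ d = 2 ∨ (d = 1 ∧ a.2 ≠ B.y2 - 1)) →
      (some (Sum.inr a, d) : Port TG) ∉ freeG B := by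
    intro a d hd
    unfold Fm857.freeG
    rw [Finset.mem_union, Finset.mem_union, mem_flr, mem_cil, Finset.mem_image]
    rintro (⟨q, hq, he⟩ | ⟨i, -, -, he⟩ | ⟨i, -, -, he⟩)
    · obtain ⟨t, d', rfl, -⟩ := natD_some hq
      have he' : (some (Sum.inl t, d') : Port TG) = some (Sum.inr a, d) := he
      simp at he'
    · simp only [Option.some.injEq, Prod.mk.injEq, Sum.inr.injEq] at he
      obtain ⟨rfl, rfl⟩ := he
      rcases hd with h | h | ⟨h, -⟩
      · exact n4 h.symm
      · exact n1 h.symm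
      · exact n3 h.symm
    · simp only [Option.some.injEq, Prod.mk.injEq, Sum.inr.injEq] at he
      obtain ⟨rfl, rfl⟩ := he
      rcases hd with h | h | ⟨-, h⟩
      · exact n5 h.symm
      · exact n2 h.symm
      · exact h rfl
  rcases hx with (⟨v, hv, rfl⟩ | rfl) | ⟨v, hv, rfl⟩
  · rw [pm_r H (by omega) hv]
    exact key _ _ (Or.inr (Or.inl rfl))
  · rw [pm_r H (by omega) ⟨by omega, by omega⟩]
    exact key _ _ (Or.inr (Or.inr ⟨rfl, by simp only; omega⟩))
  · rw [pm_l H (by omega) hv]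
    exact key _ _ (Or.inl rfl)

lemma mem_Dp_of {w : Wd (ℤ × ℤ)}
    (hw : GW (Dp A B.xl B.xr B.y1 B.y2 k) (beD (Dp A B.xl B.xr B.y1 B.y2 k) p y0 (B.xr + k)) w)
    {x : Port (ℤ × ℤ)} (hx : x ∈ L w) : x ∈ ports (DB B k) ∧ x ≠ some ((p, y0), 3) ∧
      beC B p y0 k x = x := by
  have hk := H.hk
  have h1 := H.hy1
  have h2 := H.hy2
  have h3 := H.hp1
  have h4 := H.hp2
  have hle := H.hf.le
  have hok := hw.word.1
  have hleg := isLeg_of_bas hw.leg
  have hpD : (p, y0) ∈ Dp A B.xl B.xr B.y1 B.y2 k :=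
    H.band (by omega) (by omega) (by omega) (by omega)
  have hwl : w ≠ .leg := by
    rintro rfl
    have := (hw.word.2.2.1 (p, y0)).2 hpD
    simp [tls] at this
  rcases x with _ | ⟨t, d⟩
  · exact absurd hx (none_notin_L hok hleg hwl)
  obtain ⟨hD, hfr⟩ := (Qc405.GW.memL hw).1 hx
  have hne : (some (t, d) : Port (ℤ × ℤ)) ≠ some ((p, y0), 3) := by
    intro e
    rw [e] at hfr
    exact hfr _ (GD_of (pD hpD) (nbD_Sleg ⟨rfl, rfl⟩) (portOf_none _))
  refine ⟨mem_ports.2 hD, hne, ?_⟩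
  rw [beC_ne hne]
  by_contra hc
  exact hfr _ ⟨rfl, Ne.symm hc⟩

/-- **natural ends are not artificial** -/
theorem not_art (hR : 2 * k < B.R) (hz : B.At p y0) {x : Port (ℤ × ℤ)}
    (hx : NatD B x ∨ NatS B k x) (hp : x ∈ ports (DB B k)) : ¬ Art B p y0 k x := by
  rw [art_iff H.hf hR hz hp]
  rintro ⟨-, -, h⟩
  exact h ((mem_freeG B hz).1 (nat_free H hR hx)).2

/-- **the cut ends are artificial** -/
theorem art_cut (hR : 2 * k < B.R) (hz : B.At p y0) {w : Wd (ℤ × ℤ)}
    (hw : GW (Dp A B.xl B.xr B.y1 B.y2 k) (beD (Dp A B.xl B.xr B.y1 B.y2 k) p y0 (B.xr + k)) w)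
    {x : Port (ℤ × ℤ)} (hx : CutR B k y0 x ∨ CutL B k x) (hp : x ∈ L w) : Art B p y0 k x := by
  obtain ⟨h1, h2, h3⟩ := mem_Dp_of H hw hp
  rw [art_iff H.hf hR hz h1]
  refine ⟨h2, h3, fun h4 => cut_glued H hR hx ((mem_freeG B hz).2 ⟨?_, h4⟩)⟩
  obtain ⟨t, d, rfl, ht⟩ := mem_ports' h1
  exact mem_ports.2 (portOf_some.1 (Xr249.pm_portOf H.hf hR (portOf_some.2 ht)))

/-! ### the order at the natural ends -/

/-- **`KD` is 857's order at the natural ends** -/
theorem KD_nat (hR : 2 * k < B.R) {b : ℤ} (hb : k ≤ b) (hb' : b ≤ B.R - k) {x : Port (ℤ × ℤ)}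
    (hx : NatD B x ∨ NatS B k x) : KD B x = pG B b (pm (eD B y0 k) x) := by
  have hk := H.hk
  have h1 := H.hy1
  have h2 := H.hy2
  have hle := H.hf.le
  unfold KD Fm857.pG
  rcases hx with hx | ⟨u, hu, rfl⟩ | ⟨u, hu, rfl⟩ | ⟨u, hu, rfl⟩ | ⟨u, hu, rfl⟩
  · obtain ⟨⟨x, y⟩, d, rfl, ht⟩ := natD_some hx
    obtain ⟨e1, e2⟩ := K_A (B := B) (d := d) ht
    rw [pm_A H.hf ht, e1, e2]
    rfl
  · obtain ⟨e1, e2⟩ := K_rS (B := B) (H.nr (x := u) (y := B.y1) (by omega) (by omega) (by omega)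
      (by omega)) hu.1
    rw [pm_r H hu ⟨le_rfl, by omega⟩, e1, e2]
    simp only [Fm857.blkG, Fm857.innG]
    rw [if_pos trivial, if_pos (by omega), if_pos trivial]
  · obtain ⟨e1, e2⟩ := K_rN (B := B) (H.nr (x := u) (y := B.y2 - 1) (by omega) (by omega) (by omega)
      (by omega)) hu.1
    rw [pm_r H hu ⟨by omega, by omega⟩, e1, e2]
    simp only [Fm857.blkG, Fm857.innG]
    rw [if_neg z13, if_pos (by omega), if_neg z13]
  · obtain ⟨e1, e2⟩ := K_lS (B := B) (H.nl (x := u) (y := B.y1) (by omega) (by omega) (by omega)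
      (by omega)) (by omega)
    rw [pm_l H hu ⟨le_rfl, by omega⟩, e1, e2, wd1 H]
    simp only [Fm857.blkG, Fm857.innG]
    rw [if_pos trivial, if_neg (by omega), if_pos trivial]
  · obtain ⟨e1, e2⟩ := K_lN (B := B) (H.nl (x := u) (y := B.y2 - 1) (by omega) (by omega) (by omega)
      (by omega)) (by omega)
    rw [pm_l H hu ⟨by omega, by omega⟩, e1, e2, wd2 H]
    simp only [Fm857.blkG, Fm857.innG]
    rw [if_neg z13, if_neg (by omega), if_neg z13]

end

end Crest.Agent.R158.Oc194
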