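import Crest.Agent.R158.Al6_194
import Crest.Agent.R158.Pt4_266
import Crest.Agent.R158.Xr13_249
import Crest.Agent.R158.Zg4_180
import Crest.Agent.R158.Dp1_440
import Crest.Agent.R158.Dr6_945
import Crest.Agent.R158.Zc6_180
import Crest.Agent.R158.Ad14_350
import Crest.Agent.R158.Qd2_300
import Crest.Agent.R158.Oc4_194

-- ▼ part R158/Qe1_249
section

/-!
# R158, Q1c, `V_{D+}` and the deep ends of the stubs (helper249), file Qe1: generic part

* `Cvx P` : convex set of indices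
* **`Sm_zero_of_cvx`** : an end of a block without marks and without the leg, joined to an end of the
  same block, does not contribute
* `filter_cvx` : a convex set of indices is an interval
* **`norm_sum_cvx`** : the contribution of a block is at most `2`
* `GW.chain` : the boundary cycle read from any port
* **`cvx_of_exit`** : a set of free ends with a single exit is a block
* `leg_walk` : the strand of the leg
-/

set_option autoImplicit false
set_option linter.unusedVariables false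
set_option linter.unusedSectionVars false

noncomputable section

namespace Crest.Agent.R158.Qe249

open Crest.Agent.R158.Al194 Crest.Agent.R158.Vt300 Crest.Agent.R158.Sw300 Crest.Agent.R158.Ob664
open Finset
open Crest.Agent.R158.Pt266 (Gw Gs Wk Glu Fr adj_mem walk_word glu_Gw fr_of_mem Gw_mono_att
  Gw_mono_con addP_att addP_con)
open Crest.Agent.R158.Gc748 (gl bs)

section idx

variable {π : ℕ → ℕ} {N k : ℕ}

/-- convex set of indices -/
def Cvx (P : ℕ → Prop) : Prop := ∀ i j l, i ≤ l → l ≤ j → P i → P j → P l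

/-- an end of a block without marks and leg, joined to an end of the same block -/
theorem Sm_zero_of_cvx (h : NCK π N k) {x2 e : ℕ} {P : ℕ → Prop} (hP : Cvx P) (hk : ¬ P k)
    (hx : ¬ P x2) (h2 : x2 ≤ N) (he : e < N) (h1 : P e) (h3 : P (π e)) :
    Sm π N k 0 x2 e = 0 := by
  have hek : e ≠ k := fun h => hk (h ▸ h1)
  obtain ⟨j, hj, hsj, hje, hPj, hPj'⟩ :
      ∃ j, j < N ∧ st π k j ∧ (j = e ∨ π j = e) ∧ P j ∧ P (π j) := by
    by_cases hse : st π k e
    · exact ⟨e, he, hse, Or.inl rfl, h1, h3⟩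
    · refine ⟨π e, h.mem e he, ?_, Or.inr (h.inv e he), h3, by rw [h.inv e he]; exact h1⟩
      have q1 := h.ne e he hek
      have q2 := h.ne_k he hek
      unfold st at hse ⊢
      rw [h.inv e he]; omega
  have hlt : j < π j := by
    by_contra hn
    unfold st at hsj
    have h4 : π j < k ∧ k < j := by omega
    exact hk (hP (π j) j k h4.1.le h4.2.le hPj' hPj)
  have n1 : ¬ ing π 0 j := by unfold ing; rw [if_pos hlt]; omega
  have n2 : ¬ ing π x2 j := by
    unfold ing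
    rw [if_pos hlt]
    rintro ⟨a, b⟩
    exact hx (hP j (π j) x2 a.le b hPj hPj')
  refine h.Sm_zero (Nat.zero_le _) h2 he hj hsj (Or.inl ?_)
  have := h.ig_at hj hsj hje
  rw [ig_zero n1, ig_zero n2]; omega



end idx

section ring

variable {T : Type*} [DecidableEq T] {A : Finset T} {b : Port T → Port T} {w : Wd T}

/-- the boundary cycle read from any port -/
theorem chain_rotl (h : GW A b w) {m1 : Port T} (hm : m1 ∈ L w) :
    ∃ t, rotl (L w) m1 = m1 :: t ∧ List.IsChain (Xr249.Nx (Gl b)) (m1 :: (t ++ [m1])) := by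
  obtain ⟨x, l, hl, hc⟩ := h.nx
  have h1 : Cycle.Chain (Xr249.Nx (Gl b)) (L w : Cycle (Port T)) := by
    rw [hl, Cycle.chain_coe_cons]; exact hc
  have hnd := Sw300.nodup h.word.1
  have hr : (rotl (L w) m1 : List (Port T)) ~r L w := (List.IsRotated.refl _).trans
    ⟨_, rfl⟩ |>.symm
  have h2 : Cycle.Chain (Xr249.Nx (Gl b)) (rotl (L w) m1 : Cycle (Port T)) := by
    rw [Cycle.coe_eq_coe.2 hr]; exact h1
  have h0 : (rotl (L w) m1).idxOf m1 = 0 := idxOf_rotl_self hnd hm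
  have hmem : m1 ∈ rotl (L w) m1 := mem_rotl.2 hm
  cases hrot : rotl (L w) m1 with
  | nil => rw [hrot] at hmem; simp at hmem
  | cons y t =>
    have hy : y = m1 := by
      by_contra hne
      rw [hrot, List.idxOf_cons_ne _ hne] at h0
      omega
    subst hy
    refine ⟨t, rfl, ?_⟩
    rw [hrot, Cycle.chain_coe_cons] at h2
    exact h2

/-- **a set of free ends with a single exit is a block** -/
theorem cvx_of_exit (h : GW A b w) {m1 last : Port T} (hm : m1 ∈ L w) {Q : Port T → Prop}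
    (hQ : ¬ Q m1) (hex : ∀ x ∈ L w, ∀ y ∈ L w, Xr249.Nx (Gl b) x y → Q x → Q y ∨ x = last) :
    Cvx fun i => i < (L w).length ∧ Q (enL (L w) m1 i) := by
  obtain ⟨t, ht, hch⟩ := chain_rotl h hm
  have hok := h.word.1
  have hlen : (L w).length = t.length + 1 := by
    rw [← rotl_length (L w) m1, ht]; simp
  have hstep : ∀ i, i + 1 < (L w).length →
      Xr249.Nx (Gl b) (enL (L w) m1 i) (enL (L w) m1 (i + 1)) := by
    intro i hi
    have h1 : List.IsChain (Xr249.Nx (Gl b)) (m1 :: t) := by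
      have : List.IsChain (Xr249.Nx (Gl b)) ((m1 :: t) ++ [m1]) := by simpa using hch
      exact List.IsChain.left_of_append this
    rw [List.isChain_iff_getElem] at h1
    have h2 := h1 i (by simp only [List.length_cons]; omega)
    unfold enL
    rw [ht, List.getD_eq_getElem _ _ (by simp only [List.length_cons]; omega),
      List.getD_eq_getElem _ _ (by simp only [List.length_cons]; omega)]
    exact h2
  have hlast : Xr249.Nx (Gl b) (enL (L w) m1 ((L w).length - 1)) m1 := by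
    have h1 : List.IsChain (Xr249.Nx (Gl b)) ((m1 :: t) ++ [m1]) := by simpa using hch
    rw [List.isChain_iff_getElem] at h1
    have h2 := h1 t.length (by simp)
    have e1 : ((m1 :: t) ++ [m1])[t.length + 1]'(by simp) = m1 := by
      rw [List.getElem_append_right (by simp)]
      simp
    have e2 : ((m1 :: t) ++ [m1])[t.length]'(by simp) = (m1 :: t)[t.length]'(by simp) := by
      rw [List.getElem_append_left]
    rw [e1, e2] at h2
    unfold enL
    rw [ht, List.getD_eq_getElem _ _ (by simp only [List.length_cons]; omega)]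
    have e3 : (L w).length - 1 = t.length := by omega
    simp only [e3]
    exact h2
  -- going forward
  have fwd : ∀ i n, i ≤ n → n < (L w).length → Q (enL (L w) m1 i) →
      (∀ l, i ≤ l → l ≤ n → Q (enL (L w) m1 l)) ∨ ∃ m, i ≤ m ∧ m < n ∧ enL (L w) m1 m = last := by
    intro i n hin
    induction n, hin using Nat.le_induction with
    | base =>
      intro _ hq
      left
      intro l h1 h2
      rw [show l = i by omega]; exact hq
    | succ n hin ih =>
      intro hn hq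
      rcases ih (by omega) hq with h1 | ⟨m, h1, h2, h3⟩
      · rcases hex _ (enL_mem (by omega)) _ (enL_mem hn) (hstep n hn) (h1 n hin le_rfl) with h4 | h4
        · left
          intro l h5 h6
          rcases Nat.lt_or_ge l (n + 1) with h7 | h7
          · exact h1 l h5 (by omega)
          · rw [show l = n + 1 by omega]; exact h4
        · exact Or.inr ⟨n, hin, by omega, h4⟩
      · exact Or.inr ⟨m, h1, by omega, h3⟩
  have hlst : ∀ j, j < (L w).length → Q (enL (L w) m1 j) →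
      ∃ m, j ≤ m ∧ m < (L w).length ∧ enL (L w) m1 m = last := by
    intro j hj hq
    rcases fwd j ((L w).length - 1) (by omega) (by omega) hq with h1 | ⟨m, h1, h2, h3⟩
    · have h4 := h1 ((L w).length - 1) (by omega) le_rfl
      rcases hex _ (enL_mem (by omega)) _ hm hlast h4 with h5 | h5
      · exact absurd h5 hQ
      · exact ⟨_, by omega, by omega, h5⟩
    · exact ⟨m, h1, by omega, h3⟩
  rintro i j l h1 h2 ⟨h3, h4⟩ ⟨h5, h6⟩
  refine ⟨by omega, ?_⟩
  rcases fwd i l h1 (by omega) h4 with h7 | ⟨m, h8, h9, h10⟩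
  · exact h7 l h1 le_rfl
  · exfalso
    obtain ⟨m', g1, g2, g3⟩ := hlst j h5 h6
    have e : m = m' := by
      have a1 := idL_enL hok (m1 := m1) (i := m) (by omega)
      have a2 := idL_enL hok (m1 := m1) (i := m') g2
      rw [← a1, ← a2, h10, g3]
    omega

end ring

section leg

variable {T : Type*} [DecidableEq T]

/-- **the strand of the leg** -/
theorem leg_walk (s : T → Bool) : ∀ {w : Wd T}, Ok w → isLeg w → w ≠ .leg →
    ∃ a b l, u s w = some a ∧ Gs w (some b) none ∧ Wk s (Gw w) a b l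
  | .leg, _, _, h => absurd rfl h
  | .tile t, _, h, _ => h.elim
  | .att w p t d, hok, hleg, hne => by
    obtain ⟨hw, hp, ht, hnone⟩ := hok
    by_cases hwl : w = .leg
    · subst hwl
      have hp0 : p = none := by simpa [L] using hp
      subst hp0
      have hu : u s (.att .leg none t d) = some (t, thru (s t) d) := by simp [u]
      refine ⟨(t, thru (s t) d), (t, d), [(t, thru (s t) d)], hu, ?_, ?_⟩
      · right; simp [gl]
      · have := Wk.one (s := s) (G := Gw (.att .leg none t d)) (x := (t, thru (s t) d))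
        rwa [show Pt266.pass s (t, thru (s t) d) = (t, d) by simp only [Pt266.pass, thru_thru]]
          at this
    · have hpn : p ≠ none := fun h => hwl (hnone h)
      obtain ⟨a, b, l, ha, hb, hl⟩ := leg_walk s hw hleg hwl
      by_cases h1 : u s w = p
      · have hu : u s (.att w p t d) = some (t, thru (s t) d) := by simp [u, h1]
        refine ⟨(t, thru (s t) d), b, (t, thru (s t) d) :: l, hu, ?_, ?_⟩
        · exact (addP_att _ _).2 (Or.inl hb)
        · refine Wk.cons ?_ (hl.mono fun _ _ => Gw_mono_att)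
          have : Pt266.pass s (t, thru (s t) d) = (t, d) := by
            simp only [Pt266.pass, thru_thru]
          rw [this]
          right
          rw [← ha, h1]
          simp [gl]
      · have hu : u s (.att w p t d) = u s w := by simp [u, h1]
        exact ⟨a, b, l, by rw [hu, ha], (addP_att _ _).2 (Or.inl hb),
          hl.mono fun _ _ => Gw_mono_att⟩
  | .con w p q, hok, hleg, hne => by
    obtain ⟨hw, hpn, hqn, hpq, hadj⟩ := hok
    obtain ⟨hp, hq⟩ := adj_mem hadj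
    have I := Ok.inv s w hw
    have hwl : w ≠ .leg := by
      rintro rfl
      have h1 : p = none := by simpa [L] using hp
      exact hpn h1
    obtain ⟨a, b, l, ha, hb, hl⟩ := leg_walk s hw hleg hwl
    by_cases h1 : u s w = p
    · have hu : u s (.con w p q) = M s w q := by simp [u, h1]
      have hMq : M s w q ≠ q := fun h => hpq (by rw [← h1, I.fix _ hq h])
      have hMMq : M s w (M s w q) = q := I.inv _ hq
      have hMqL := I.mem _ hq
      obtain ⟨a', b', l', ha', hb', hl', -⟩ := walk_word s hw hMqL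
        (by rw [hMMq]; exact hMq.symm)
      rw [hMMq] at hb'
      refine ⟨a', b, l' ++ l, by rw [hu, ha'], (addP_con _ _).2 (Or.inl hb), ?_⟩
      refine (hl'.mono fun _ _ => Gw_mono_con).trans ?_ (hl.mono fun _ _ => Gw_mono_con)
      right
      rw [← hb', ← ha, h1]
      simp [gl]
    · by_cases h1' : u s w = q
      · have hu : u s (.con w p q) = M s w p := by simp [u, h1', h1, hpq.symm]
        have hMp : M s w p ≠ p := fun h => h1 (I.fix _ hp h).symm
        have hMMp : M s w (M s w p) = p := I.inv _ hp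
        have hMpL := I.mem _ hp
        obtain ⟨a', b', l', ha', hb', hl', -⟩ := walk_word s hw hMpL
          (by rw [hMMp]; exact hMp.symm)
        rw [hMMp] at hb'
        refine ⟨a', b, l' ++ l, by rw [hu, ha'], (addP_con _ _).2 (Or.inl hb), ?_⟩
        refine (hl'.mono fun _ _ => Gw_mono_con).trans ?_ (hl.mono fun _ _ => Gw_mono_con)
        left
        rw [← hb', ← ha, h1']
        simp [gl]
      · have hu : u s (.con w p q) = u s w := by simp [u, h1, h1']
        exact ⟨a, b, l, by rw [hu, ha], (addP_con _ _).2 (Or.inl hb),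
          hl.mono fun _ _ => Gw_mono_con⟩

end leg

end Crest.Agent.R158.Qe249
end
end

-- ▼ part R158/Qe2_249
section

/-!
# R158, Q1c, `V_{D+}` and the deep ends of the stubs (helper249), file Qe2: the blocks

`B : Band A`, `Dp` = `A` with its two stubs of length `k`, glueing `beD .. p y0 (B.xr + k)`.

* `deepR B y0 k a` : ports of the tiles of the right stub with undislocated strip column `> a`
* `deepL B k b` : ports of the tiles of the left stub with strip column `≤ b`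
* **`deepR_cvx`, `deepL_cvx`** : both are index intervals of the boundary of every good word
-/

set_option autoImplicit false
set_option linter.unusedVariables false
set_option linter.unusedSectionVars false

noncomputable section

namespace Crest.Agent.R158.Qe249

open Crest.Agent.R158.Al194 Crest.Agent.R158.Vt300 Crest.Agent.R158.Sw300 Crest.Agent.R158.Ob664
open Crest.Agent.R158.Env664 (portOf_some portOf_none PortOf beD Band TG Run nbD nbD_leg res_of)
open Crest.Agent.R158.Xr249 (Dp mem_Dp Free Nx rot rot_some full full_h full_v gb gb_beD Reg)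
open Crest.Agent.R158.Zg180 (uc uc_lt uc_ge)

variable {A : Finset (ℤ × ℤ)} {B : Band A} {p y0 k : ℤ}

/-- ports of the right stub beyond the undislocated strip column `a` -/
def deepR (B : Band A) (y0 k a : ℤ) (q : Port (ℤ × ℤ)) : Prop :=
  ∃ x y d, q = some ((x, y), d) ∧ B.xr < x ∧ x ≤ B.xr + k ∧ B.y1 ≤ y ∧ y < B.y2 ∧
    a < uc y0 (x - B.xr - 1, y)

/-- ports of the left stub up to the strip column `b` -/
def deepL (B : Band A) (k b : ℤ) (q : Port (ℤ × ℤ)) : Prop :=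
  ∃ x y d, q = some ((x, y), d) ∧ B.xl - k ≤ x ∧ x < B.xl ∧ B.y1 ≤ y ∧ y < B.y2 ∧
    B.R - (B.xl - x) ≤ b

lemma deepR_iff {a x y : ℤ} {d : ZMod 4} : deepR B y0 k a (some ((x, y), d)) ↔
    B.xr < x ∧ x ≤ B.xr + k ∧ B.y1 ≤ y ∧ y < B.y2 ∧ a < uc y0 (x - B.xr - 1, y) := by
  constructor
  · rintro ⟨x', y', d', h, h1⟩
    simp only [Option.some.injEq, Prod.mk.injEq] at h
    obtain ⟨⟨rfl, rfl⟩, rfl⟩ := h
    exact h1
  · exact fun h => ⟨x, y, d, rfl, h⟩

lemma deepL_iff {b x y : ℤ} {d : ZMod 4} : deepL B k b (some ((x, y), d)) ↔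
    B.xl - k ≤ x ∧ x < B.xl ∧ B.y1 ≤ y ∧ y < B.y2 ∧ B.R - (B.xl - x) ≤ b := by
  constructor
  · rintro ⟨x', y', d', h, h1⟩
    simp only [Option.some.injEq, Prod.mk.injEq] at h
    obtain ⟨⟨rfl, rfl⟩, rfl⟩ := h
    exact h1
  · exact fun h => ⟨x, y, d, rfl, h⟩

lemma deepR_mono {a a' : ℤ} (h : a' ≤ a) {q : Port (ℤ × ℤ)} (hq : deepR B y0 k a q) :
    deepR B y0 k a' q := by
  obtain ⟨x, y, d, e, h1, h2, h3, h4, h5⟩ := hq
  exact ⟨x, y, d, e, h1, h2, h3, h4, by omega⟩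

lemma deepL_mono {b b' : ℤ} (h : b ≤ b') {q : Port (ℤ × ℤ)} (hq : deepL B k b q) :
    deepL B k b' q := by
  obtain ⟨x, y, d, e, h1, h2, h3, h4, h5⟩ := hq
  exact ⟨x, y, d, e, h1, h2, h3, h4, by omega⟩

section glue

variable (hf : Free A B.xl B.xr B.y1 B.y2 k) (hz : B.At p y0)

/-- tiles of `A` and of the right stub -/
lemma inR (hf : Free A B.xl B.xr B.y1 B.y2 k) {x y : ℤ} (h1 : B.xr ≤ x) (h2 : x ≤ B.xr + k)
    (h3 : B.y1 ≤ y) (h4 : y < B.y2) : (x, y) ∈ Dp A B.xl B.xr B.y1 B.y2 k := by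
  rcases eq_or_lt_of_le h1 with rfl | h5
  · exact mem_Dp.2 (Or.inl (hf.run y h3 h4).2)
  · exact mem_Dp.2 (Or.inr (Or.inl ⟨⟨by omega, by omega⟩, h3, h4⟩))

lemma inL (hf : Free A B.xl B.xr B.y1 B.y2 k) {x y : ℤ} (h1 : B.xl - k ≤ x) (h2 : x ≤ B.xl)
    (h3 : B.y1 ≤ y) (h4 : y < B.y2) : (x, y) ∈ Dp A B.xl B.xr B.y1 B.y2 k := by
  rcases eq_or_lt_of_le h2 with rfl | h5
  · exact mem_Dp.2 (Or.inl (hf.run y h3 h4).1)
  · exact mem_Dp.2 (Or.inr (Or.inr ⟨⟨by omega, by omega⟩, h3, h4⟩))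

/-- places around the right stub -/
lemma outR (hf : Free A B.xl B.xr B.y1 B.y2 k) {x y : ℤ} (h1 : B.xr < x) (h2 : x ≤ B.xr + k + 1)
    (h3 : B.y1 - 1 ≤ y) (h4 : y ≤ B.y2) (h5 : x = B.xr + k + 1 ∨ y = B.y1 - 1 ∨ y = B.y2) :
    (x, y) ∉ Dp A B.xl B.xr B.y1 B.y2 k := by
  have hle := hf.le
  have hk := hf.k0
  rw [mem_Dp]
  rintro (h | h | h)
  · exact hf.right x y h1 h2 h3 h4 h
  · omega
  · omega

lemma outL (hf : Free A B.xl B.xr B.y1 B.y2 k) {x y : ℤ} (h1 : x < B.xl) (h2 : B.xl - k - 1 ≤ x)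
    (h3 : B.y1 - 1 ≤ y) (h4 : y ≤ B.y2) (h5 : x = B.xl - k - 1 ∨ y = B.y1 - 1 ∨ y = B.y2) :
    (x, y) ∉ Dp A B.xl B.xr B.y1 B.y2 k := by
  have hle := hf.le
  have hk := hf.k0
  rw [mem_Dp]
  rintro (h | h | h)
  · exact hf.left x y h1 h2 h3 h4 h
  · omega
  · omega

/-- the glueing in explicit form -/
lemma gl_eq (hf : Free A B.xl B.xr B.y1 B.y2 k) (hz : B.At p y0) :
    Gl (beD (Dp A B.xl B.xr B.y1 B.y2 k) p y0 (B.xr + k)) =
      (full (Dp A B.xl B.xr B.y1 B.y2 k)).glz p y0 (B.xr + k) := by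
  have hk := hf.k0
  obtain ⟨z1, z2, z3, z4⟩ := hz
  have e : Gl (beD (Dp A B.xl B.xr B.y1 B.y2 k) p y0 (B.xr + k)) =
      gb (beD (Dp A B.xl B.xr B.y1 B.y2 k) p y0 (B.xr + k)) := rfl
  rw [e]
  refine gb_beD (by omega) (fun x h1 h2 => ?_) ?_
  · rcases le_or_gt B.xr x with h3 | h3
    · exact ⟨inR hf h3 h2 (by omega) (by omega), inR hf h3 h2 (by omega) (by omega)⟩
    · exact ⟨mem_Dp.2 (Or.inl ((B.run (y0 - 1) (by omega) (by omega)).mem x (by omega) (by omega))),
        mem_Dp.2 (Or.inl ((B.run y0 (by omega) (by omega)).mem x (by omega) (by omega)))⟩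
  · exact outR hf (by omega) (by omega) (by omega) (by omega) (Or.inl rfl)

lemma leg_ne (hf : Free A B.xl B.xr B.y1 B.y2 k) (hz : B.At p y0) :
    beD (Dp A B.xl B.xr B.y1 B.y2 k) p y0 (B.xr + k) none ≠ none := by
  obtain ⟨z1, z2, z3, z4⟩ := hz
  unfold beD
  rw [res_of (portOf_none _)]
  · rw [nbD_leg]; simp
  · rw [nbD_leg, portOf_some]
    exact mem_Dp.2 (Or.inl ((B.run y0 (by omega) (by omega)).mem p (by omega) (by omega)))

/-- free ends of a good word: port of a tile, not glued -/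
lemma free_end (hf : Free A B.xl B.xr B.y1 B.y2 k) (hz : B.At p y0) {w : Wd (ℤ × ℤ)}
    (hW : GW (Dp A B.xl B.xr B.y1 B.y2 k) (beD (Dp A B.xl B.xr B.y1 B.y2 k) p y0 (B.xr + k)) w)
    {x : Port (ℤ × ℤ)} (hx : x ∈ L w) :
    PortOf (Dp A B.xl B.xr B.y1 B.y2 k) x ∧
      ∀ q, ¬ (full (Dp A B.xl B.xr B.y1 B.y2 k)).glz p y0 (B.xr + k) x q := by
  obtain ⟨hok, -, ht, hbe⟩ := hW.word
  rcases x with - | ⟨t, d⟩
  · exfalso
    have hs := Pt266.be_iff hok none (beD (Dp A B.xl B.xr B.y1 B.y2 k) p y0 (B.xr + k) none)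
    refine Pt266.not_glued hok hx (y := beD (Dp A B.xl B.xr B.y1 B.y2 k) p y0 (B.xr + k) none) ?_
    exact hs.2 ⟨hbe none, fun h => leg_ne hf hz h.symm⟩
  · refine ⟨portOf_some.2 ((ht t).1 (Pt266.tl_mem hok hx)), fun q hq => ?_⟩
    rw [← gl_eq hf hz] at hq
    have hs := Pt266.be_iff hok (some (t, d)) q
    exact Pt266.not_glued hok hx (hs.2 ⟨by rw [hbe]; exact hq.1, hq.2⟩)

end glue

section R

/-- one step of the boundary on the right stub -/
lemma stepR (hf : Free A B.xl B.xr B.y1 B.y2 k) (hz : B.At p y0) {a : ℤ} (ha : 0 ≤ a)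
    (hak : a + 2 < k) {x : Port (ℤ × ℤ)} (hq : deepR B y0 k a x)
    (hfree : ∀ q, ¬ (full (Dp A B.xl B.xr B.y1 B.y2 k)).glz p y0 (B.xr + k) x q) :
    ∃ y, Nx ((full (Dp A B.xl B.xr B.y1 B.y2 k)).glz p y0 (B.xr + k)) x y ∧
      (deepR B y0 k a y ∨ x = some ((B.xr + a + 2, B.y1), 3)) := by
  obtain ⟨z1, z2, z3, z4⟩ := id hz
  obtain ⟨X, Y, d, rfl, h1, h2, h3, h4, h5⟩ := hq
  have r0 : ∀ x y : ℤ, rot (some ((x, y), 0) : Port (ℤ × ℤ)) = some ((x, y), 1) := fun x y => by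
    rw [rot_some]; rfl
  have r1 : ∀ x y : ℤ, rot (some ((x, y), 1) : Port (ℤ × ℤ)) = some ((x, y), 2) := fun x y => by
    rw [rot_some]; rfl
  have r2 : ∀ x y : ℤ, rot (some ((x, y), 2) : Port (ℤ × ℤ)) = some ((x, y), 3) := fun x y => by
    rw [rot_some]; rfl
  have r3 : ∀ x y : ℤ, rot (some ((x, y), 3) : Port (ℤ × ℤ)) = some ((x, y), 0) := fun x y => by
    rw [rot_some]; rfl
  have hin := inR hf h1.le h2 h3 h4
  set G := (full (Dp A B.xl B.xr B.y1 B.y2 k)).glz p y0 (B.xr + k) with hG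
  -- free ports
  have fE : ∀ y, B.y1 ≤ y → y < B.y2 → ∀ q, ¬ G (some ((B.xr + k, y), 2)) q := by
    intro y g1 g2 q hq
    exact outR hf (x := B.xr + k + 1) (y := y) (by omega) (by omega) (by omega) (by omega)
      (Or.inl rfl) (full_h.1 (Reg.glz_2.1 hq).1).2
  have fN : ∀ x, B.xr < x → x ≤ B.xr + k → ∀ q, ¬ G (some ((x, B.y2 - 1), 1)) q := by
    intro x g1 g2 q hq
    rcases Reg.glz_1.1 hq with ⟨e, -⟩ | ⟨-, e, -⟩
    · omega
    · have := (full_v.1 e).2
      rw [sub_add_cancel] at this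
      exact outR hf (x := x) (y := B.y2) (by omega) (by omega) (by omega) (by omega)
        (Or.inr (Or.inr rfl)) this
  have fS : ∀ x, B.xr < x → x ≤ B.xr + k → ∀ q, ¬ G (some ((x, B.y1), 3)) q := by
    intro x g1 g2 q hq
    rcases Reg.glz_3.1 hq with ⟨e, -⟩ | ⟨e, -⟩ | ⟨-, e, -⟩
    · omega
    · omega
    · exact outR hf (x := x) (y := B.y1 - 1) (by omega) (by omega) (by omega) (by omega)
        (Or.inr (Or.inl rfl)) (full_v.1 e).1
  have fStep : ∀ q, ¬ G (some ((B.xr + k, y0 - 1), 1)) q := by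
    intro q hq
    rcases Reg.glz_1.1 hq with ⟨-, -, e, -⟩ | ⟨e, -, -⟩
    · omega
    · exact e ⟨rfl, by omega, le_refl _⟩
  rcases Reg.d4 d with rfl | rfl | rfl | rfl
  · -- side W is glued
    exfalso
    refine hfree (some ((X - 1, Y), 2)) (Reg.glz_0.2 ⟨full_h.2 ⟨inR hf (by omega) (by omega) h3 h4,
      ?_⟩, rfl⟩)
    rwa [sub_add_cancel]
  · -- side N
    by_cases hc : Y = y0 - 1
    · -- the step port
      subst hc
      have hX : X = B.xr + k := by
        by_contra hX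
        exact hfree (some ((X + 1, y0), 3)) (Reg.glz_1.2 (Or.inl ⟨rfl, by omega, by omega, rfl⟩))
      subst hX
      refine ⟨some ((B.xr + k, y0 - 1), 2), ?_, Or.inl (deepR_iff.2 ⟨h1, h2, h3, h4, h5⟩)⟩
      have := Nx.stop (G := G) (p := some ((B.xr + k, y0 - 1), 1))
        (by rw [r1]; exact fE _ h3 h4)
      rwa [r1] at this
    · have hY : Y = B.y2 - 1 := by
        by_contra hY
        refine hfree (some ((X, Y + 1), 3)) (Reg.glz_1.2 (Or.inr ⟨fun h => hc h.1, full_v.2 ⟨hin,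
          inR hf (by omega) (by omega) (by omega) (by omega)⟩, rfl⟩))
      subst hY
      have hu : ¬ B.y2 - 1 < y0 := by omega
      rw [uc_ge hu] at h5
      by_cases hX : X = B.xr + k
      · subst hX
        refine ⟨some ((B.xr + k, B.y2 - 1), 2), ?_,
          Or.inl (deepR_iff.2 ⟨h1, h2, h3, h4, by rw [uc_ge hu]; exact h5⟩)⟩
        have := Nx.stop (G := G) (p := some ((B.xr + k, B.y2 - 1), 1))
          (by rw [r1]; exact fE _ h3 h4)
        rwa [r1] at this
      · refine ⟨some ((X + 1, B.y2 - 1), 1), ?_, Or.inl (deepR_iff.2 ⟨by omega, by omega, h3, h4,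
          by rw [uc_ge hu]; omega⟩)⟩
        refine Nx.go (q := some ((X + 1, B.y2 - 1), 0)) ?_ ?_
        · rw [r1]
          exact Reg.glz_2.2 ⟨full_h.2 ⟨hin, inR hf (by omega) (by omega) h3 h4⟩, rfl⟩
        · have := Nx.stop (G := G) (p := some ((X + 1, B.y2 - 1), 0))
            (by rw [r0]; exact fN _ (by omega) (by omega))
          rwa [r0] at this
  · -- side E
    have hX : X = B.xr + k := by
      by_contra hX
      exact hfree (some ((X + 1, Y), 0)) (Reg.glz_2.2 ⟨full_h.2 ⟨hin,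
        inR hf (by omega) (by omega) h3 h4⟩, rfl⟩)
    subst hX
    by_cases hY : Y = B.y1
    · subst hY
      refine ⟨some ((B.xr + k, B.y1), 3), ?_, Or.inl (deepR_iff.2 ⟨h1, h2, h3, h4, h5⟩)⟩
      have := Nx.stop (G := G) (p := some ((B.xr + k, B.y1), 2))
        (by rw [r2]; exact fS _ h1 h2)
      rwa [r2] at this
    · by_cases hY0 : Y = y0
      · subst hY0
        rw [uc_ge (lt_irrefl _)] at h5
        refine ⟨some ((B.xr + k, Y - 1), 1), ?_, Or.inl (deepR_iff.2 ⟨h1, h2, by omega, by omega,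
          by rw [uc_lt (by omega)]; omega⟩)⟩
        refine Nx.go (q := some ((B.xr + k - 1, Y - 1), 1)) ?_ ?_
        · rw [r2]
          exact Reg.glz_3.2 (Or.inr (Or.inl ⟨rfl, by omega, le_refl _, rfl⟩))
        · refine Nx.go (q := some ((B.xr + k, Y - 1), 0)) ?_ ?_
          · rw [r1]
            refine Reg.glz_2.2 ⟨full_h.2 ⟨inR hf (by omega) (by omega) (by omega) (by omega), ?_⟩, ?_⟩
            · rw [sub_add_cancel]
              exact inR hf (by omega) (by omega) (by omega) (by omega)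
            · rw [sub_add_cancel]
          · have := Nx.stop (G := G) (p := some ((B.xr + k, Y - 1), 0))
              (by rw [r0]; exact fStep)
            rwa [r0] at this
      · have hu : uc y0 (B.xr + k - B.xr - 1, Y - 1) = uc y0 (B.xr + k - B.xr - 1, Y) := by
          by_cases hlt : Y < y0
          · rw [uc_lt hlt, uc_lt (by omega)]
          · rw [uc_ge hlt, uc_ge (by omega)]
        refine ⟨some ((B.xr + k, Y - 1), 2), ?_, Or.inl (deepR_iff.2 ⟨h1, h2, by omega, by omega,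
          by rw [hu]; exact h5⟩)⟩
        refine Nx.go (q := some ((B.xr + k, Y - 1), 1)) ?_ ?_
        · rw [r2]
          refine Reg.glz_3.2 (Or.inr (Or.inr ⟨fun h => hY0 h.1, full_v.2 ⟨inR hf (by omega)
            (by omega) (by omega) (by omega), ?_⟩, rfl⟩))
          rw [sub_add_cancel]; exact hin
        · have := Nx.stop (G := G) (p := some ((B.xr + k, Y - 1), 1))
            (by rw [r1]; exact fE _ (by omega) (by omega))
          rwa [r1] at this
  · -- side S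
    have hY : Y = B.y1 := by
      by_contra hY
      by_cases hY0 : Y = y0
      · subst hY0
        exact hfree (some ((X - 1, Y - 1), 1)) (Reg.glz_3.2 (Or.inr (Or.inl ⟨rfl, by omega, h2, rfl⟩)))
      · refine hfree (some ((X, Y - 1), 1)) (Reg.glz_3.2 (Or.inr (Or.inr ⟨fun h => hY0 h.1,
          full_v.2 ⟨inR hf (by omega) (by omega) (by omega) (by omega), ?_⟩, rfl⟩)))
        rw [sub_add_cancel]; exact hin
    subst hY
    rw [uc_lt (by omega)] at h5
    refine ⟨some ((X - 1, B.y1), 3), ?_, ?_⟩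
    · refine Nx.go (q := some ((X - 1, B.y1), 2)) ?_ ?_
      · rw [r3]
        refine Reg.glz_0.2 ⟨full_h.2 ⟨inR hf (by omega) (by omega) h3 h4, ?_⟩, rfl⟩
        rwa [sub_add_cancel]
      · have := Nx.stop (G := G) (p := some ((X - 1, B.y1), 2))
          (by rw [r2]; exact fS _ (by omega) (by omega))
        rwa [r2] at this
    · by_cases hX : X = B.xr + a + 2
      · right; rw [hX]
      · left
        exact deepR_iff.2 ⟨by omega, by omega, h3, h4, by rw [uc_lt (by omega)]; omega⟩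

/-- **the deep right ends are a block** -/
theorem deepR_cvx (hf : Free A B.xl B.xr B.y1 B.y2 k) (hz : B.At p y0) {a : ℤ} (ha : 0 ≤ a)
    (hak : a + 2 < k) {w : Wd (ℤ × ℤ)}
    (hW : GW (Dp A B.xl B.xr B.y1 B.y2 k) (beD (Dp A B.xl B.xr B.y1 B.y2 k) p y0 (B.xr + k)) w)
    {m1 : Port (ℤ × ℤ)} (hm : m1 ∈ L w) (hn : ¬ deepR B y0 k a m1) :
    Cvx fun i => i < (L w).length ∧ deepR B y0 k a (enL (L w) m1 i) := by
  refine cvx_of_exit hW hm (last := some ((B.xr + a + 2, B.y1), 3)) hn ?_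
  intro x hx y hy hxy hq
  rw [gl_eq hf hz] at hxy
  obtain ⟨y', h1, h2⟩ := stepR hf hz ha hak hq (free_end hf hz hW hx).2
  have hdet : y = y' := by
    refine Xr249.Nx.det ?_ hxy h1
    rw [← gl_eq hf hz]
    intro a b c e1 e2
    exact e1.1.symm.trans e2.1
  rw [hdet]
  exact h2

end R

section Lft

/-- one step of the boundary on the left stub -/
lemma stepL (hf : Free A B.xl B.xr B.y1 B.y2 k) (hz : B.At p y0) {b : ℤ} (hb : b + 1 < B.R)
    (hbk : B.R - k ≤ b) {x : Port (ℤ × ℤ)} (hq : deepL B k b x)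
    (hfree : ∀ q, ¬ (full (Dp A B.xl B.xr B.y1 B.y2 k)).glz p y0 (B.xr + k) x q) :
    ∃ y, Nx ((full (Dp A B.xl B.xr B.y1 B.y2 k)).glz p y0 (B.xr + k)) x y ∧
      (deepL B k b y ∨ x = some ((B.xl - (B.R - b), B.y2 - 1), 1)) := by
  obtain ⟨z1, z2, z3, z4⟩ := id hz
  obtain ⟨X, Y, d, rfl, h1, h2, h3, h4, h5⟩ := hq
  have r0 : ∀ x y : ℤ, rot (some ((x, y), 0) : Port (ℤ × ℤ)) = some ((x, y), 1) := fun x y => by
    rw [rot_some]; rfl
  have r1 : ∀ x y : ℤ, rot (some ((x, y), 1) : Port (ℤ × ℤ)) = some ((x, y), 2) := fun x y => by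
    rw [rot_some]; rfl
  have r2 : ∀ x y : ℤ, rot (some ((x, y), 2) : Port (ℤ × ℤ)) = some ((x, y), 3) := fun x y => by
    rw [rot_some]; rfl
  have r3 : ∀ x y : ℤ, rot (some ((x, y), 3) : Port (ℤ × ℤ)) = some ((x, y), 0) := fun x y => by
    rw [rot_some]; rfl
  have hin := inL hf h1 h2.le h3 h4
  set G := (full (Dp A B.xl B.xr B.y1 B.y2 k)).glz p y0 (B.xr + k) with hG
  -- free ports
  have fW : ∀ y, B.y1 ≤ y → y < B.y2 → ∀ q, ¬ G (some ((B.xl - k, y), 0)) q := by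
    intro y g1 g2 q hq
    exact outL hf (x := B.xl - k - 1) (y := y) (by omega) (by omega) (by omega) (by omega)
      (Or.inl rfl) (full_h.1 (Reg.glz_0.1 hq).1).1
  have fN : ∀ x, B.xl - k ≤ x → x < B.xl → ∀ q, ¬ G (some ((x, B.y2 - 1), 1)) q := by
    intro x g1 g2 q hq
    rcases Reg.glz_1.1 hq with ⟨e, -⟩ | ⟨-, e, -⟩
    · omega
    · have := (full_v.1 e).2
      rw [sub_add_cancel] at this
      exact outL hf (x := x) (y := B.y2) (by omega) (by omega) (by omega) (by omega)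
        (Or.inr (Or.inr rfl)) this
  have fS : ∀ x, B.xl - k ≤ x → x < B.xl → ∀ q, ¬ G (some ((x, B.y1), 3)) q := by
    intro x g1 g2 q hq
    rcases Reg.glz_3.1 hq with ⟨e, -⟩ | ⟨e, -⟩ | ⟨-, e, -⟩
    · omega
    · omega
    · exact outL hf (x := x) (y := B.y1 - 1) (by omega) (by omega) (by omega) (by omega)
        (Or.inr (Or.inl rfl)) (full_v.1 e).1
  rcases Reg.d4 d with rfl | rfl | rfl | rfl
  · -- side W
    have hX : X = B.xl - k := by
      by_contra hX
      refine hfree (some ((X - 1, Y), 2)) (Reg.glz_0.2 ⟨full_h.2 ⟨inL hf (by omega) (by omega) h3 h4,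
        ?_⟩, rfl⟩)
      rwa [sub_add_cancel]
    subst hX
    by_cases hY : Y = B.y2 - 1
    · subst hY
      refine ⟨some ((B.xl - k, B.y2 - 1), 1), ?_, Or.inl (deepL_iff.2 ⟨h1, h2, h3, h4, h5⟩)⟩
      have := Nx.stop (G := G) (p := some ((B.xl - k, B.y2 - 1), 0))
        (by rw [r0]; exact fN _ h1 h2)
      rwa [r0] at this
    · refine ⟨some ((B.xl - k, Y + 1), 0), ?_, Or.inl (deepL_iff.2 ⟨h1, h2, by omega, by omega,
        h5⟩)⟩
      refine Nx.go (q := some ((B.xl - k, Y + 1), 3)) ?_ ?_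
      · rw [r0]
        exact Reg.glz_1.2 (Or.inr ⟨by omega, full_v.2 ⟨hin, inL hf h1 h2.le (by omega) (by omega)⟩,
          rfl⟩)
      · have := Nx.stop (G := G) (p := some ((B.xl - k, Y + 1), 3))
          (by rw [r3]; exact fW _ (by omega) (by omega))
        rwa [r3] at this
  · -- side N
    have hY : Y = B.y2 - 1 := by
      by_contra hY
      exact hfree (some ((X, Y + 1), 3)) (Reg.glz_1.2 (Or.inr ⟨by omega, full_v.2 ⟨hin,
        inL hf h1 h2.le (by omega) (by omega)⟩, rfl⟩))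
    subst hY
    by_cases hX : X = B.xl - (B.R - b)
    · -- the exit: its successor exists anyway
      by_cases hX1 : X + 1 < B.xl
      · refine ⟨some ((X + 1, B.y2 - 1), 1), ?_, Or.inr (by rw [hX])⟩
        refine Nx.go (q := some ((X + 1, B.y2 - 1), 0)) ?_ ?_
        · rw [r1]
          exact Reg.glz_2.2 ⟨full_h.2 ⟨hin, inL hf (by omega) (by omega) h3 h4⟩, rfl⟩
        · have := Nx.stop (G := G) (p := some ((X + 1, B.y2 - 1), 0))
            (by rw [r0]; exact fN _ (by omega) (by omega))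
          rwa [r0] at this
      · exfalso
        omega
    · refine ⟨some ((X + 1, B.y2 - 1), 1), ?_, Or.inl (deepL_iff.2 ⟨by omega, by omega, h3, h4,
        by omega⟩)⟩
      refine Nx.go (q := some ((X + 1, B.y2 - 1), 0)) ?_ ?_
      · rw [r1]
        exact Reg.glz_2.2 ⟨full_h.2 ⟨hin, inL hf (by omega) (by omega) h3 h4⟩, rfl⟩
      · have := Nx.stop (G := G) (p := some ((X + 1, B.y2 - 1), 0))
          (by rw [r0]; exact fN _ (by omega) (by omega))
        rwa [r0] at this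
  · -- side E is glued
    exfalso
    exact hfree (some ((X + 1, Y), 0)) (Reg.glz_2.2 ⟨full_h.2 ⟨hin,
      inL hf (by omega) (by omega) h3 h4⟩, rfl⟩)
  · -- side S
    have hY : Y = B.y1 := by
      by_contra hY
      refine hfree (some ((X, Y - 1), 1)) (Reg.glz_3.2 (Or.inr (Or.inr ⟨by omega,
        full_v.2 ⟨inL hf h1 h2.le (by omega) (by omega), ?_⟩, rfl⟩)))
      rw [sub_add_cancel]; exact hin
    subst hY
    by_cases hX : X = B.xl - k
    · subst hX
      refine ⟨some ((B.xl - k, B.y1), 0), ?_, Or.inl (deepL_iff.2 ⟨h1, h2, h3, h4, h5⟩)⟩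
      have := Nx.stop (G := G) (p := some ((B.xl - k, B.y1), 3))
        (by rw [r3]; exact fW _ h3 h4)
      rwa [r3] at this
    · refine ⟨some ((X - 1, B.y1), 3), ?_, Or.inl (deepL_iff.2 ⟨by omega, by omega, h3, h4,
        by omega⟩)⟩
      refine Nx.go (q := some ((X - 1, B.y1), 2)) ?_ ?_
      · rw [r3]
        refine Reg.glz_0.2 ⟨full_h.2 ⟨inL hf (by omega) (by omega) h3 h4, ?_⟩, rfl⟩
        rwa [sub_add_cancel]
      · have := Nx.stop (G := G) (p := some ((X - 1, B.y1), 2))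
          (by rw [r2]; exact fS _ (by omega) (by omega))
        rwa [r2] at this

/-- **the deep left ends are a block** -/
theorem deepL_cvx (hf : Free A B.xl B.xr B.y1 B.y2 k) (hz : B.At p y0) {b : ℤ} (hb : b + 1 < B.R)
    (hbk : B.R - k ≤ b) {w : Wd (ℤ × ℤ)}
    (hW : GW (Dp A B.xl B.xr B.y1 B.y2 k) (beD (Dp A B.xl B.xr B.y1 B.y2 k) p y0 (B.xr + k)) w)
    {m1 : Port (ℤ × ℤ)} (hm : m1 ∈ L w) (hn : ¬ deepL B k b m1) :
    Cvx fun i => i < (L w).length ∧ deepL B k b (enL (L w) m1 i) := by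
  refine cvx_of_exit hW hm (last := some ((B.xl - (B.R - b), B.y2 - 1), 1)) hn ?_
  intro x hx y hy hxy hq
  rw [gl_eq hf hz] at hxy
  obtain ⟨y', h1, h2⟩ := stepL hf hz hb hbk hq (free_end hf hz hW hx).2
  have hdet : y = y' := by
    refine Xr249.Nx.det ?_ hxy h1
    rw [← gl_eq hf hz]
    intro a b c e1 e2
    exact e1.1.symm.trans e2.1
  rw [hdet]
  exact h2

end Lft

end Crest.Agent.R158.Qe249
end
end

-- ▼ part R158/Qe3_249
section

/-!
# R158, Q1c, `V_{D+}` and the deep ends of the stubs (helper249), file Qe3: gates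

`s : TG → Bool` splitting of `G^(z)`, `s' = sD B y0 k s = s ∘ eD B y0 k` splitting of `Dp`.

* `wk_map` : a strand of `Dp` is a strand of `G^(z)`
* `Gates4` : the four gates `(0, a']`, `(a', a0]`, `(b1, b']`, `(b', R - 2]` are closed
* **`leg_deep`** : the end of the leg is not deep
* **`stayR`, `stayL`** : the partner of a deep end is in the same stub, beyond the first gate
-/

set_option autoImplicit false
set_option linter.unusedVariables false
set_option linter.unusedSectionVars false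

noncomputable section

namespace Crest.Agent.R158.Qe249

open Crest.Agent.R158.Al194 Crest.Agent.R158.Vt300 Crest.Agent.R158.Sw300 Crest.Agent.R158.Ob664
open Crest.Agent.R158.Env664 (portOf_some portOf_none PortOf beD Band TG Run nbD nbD_leg res_of)
open Crest.Agent.R158.Xr249 (Dp mem_Dp Free Nx rot rot_some full full_h full_v gb gb_beD Reg eD eD_r
  eD_l eD_A eD_glue pm pm_some pm_none)
open Crest.Agent.R158.Zg180 (uc uc_lt uc_ge Gq gates gate Near Far adj_rr)
open Crest.Agent.R158.Pt266 (Gw Gs Wk Fr walk_word be_iff isLeg_iff)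

variable {A : Finset (ℤ × ℤ)} {B : Band A} {p y0 k : ℤ}

/-- splitting of `Dp` -/
def sD (B : Band A) (y0 k : ℤ) (s : TG → Bool) : ℤ × ℤ → Bool := fun t => s (eD B y0 k t)

/-- image of a port of a tile -/
def ED (B : Band A) (y0 k : ℤ) (q : (ℤ × ℤ) × ZMod 4) : TG × ZMod 4 := (eD B y0 k q.1, q.2)

lemma bs_bas {T : Type*} : ∀ w : Wd T, Gc748.bs w = Xr249.bas w
  | .leg => rfl
  | .tile _ => rfl
  | .att w _ _ _ => bs_bas w
  | .con w _ _ => bs_bas w

section

variable {w : Wd (ℤ × ℤ)}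

lemma tls_of_gw (hok : Ok w) {a b : (ℤ × ℤ) × ZMod 4} (h : Gw w a b) : a.1 ∈ tls w ∧ b.1 ∈ tls w := by
  rcases a with ⟨t, d⟩
  rcases b with ⟨t', d'⟩
  exact ⟨Pt266.gl_mem hok h, Pt266.gl_mem hok h.symm⟩

lemma gw_map (hf : Free A B.xl B.xr B.y1 B.y2 k) (hR : 2 * k < B.R) (hz : B.At p y0)
    (hW : GW (Dp A B.xl B.xr B.y1 B.y2 k) (beD (Dp A B.xl B.xr B.y1 B.y2 k) p y0 (B.xr + k)) w)
    {a b : (ℤ × ℤ) × ZMod 4} (h : Gw w a b) :
    Gq (B.beG p y0) (ED B y0 k a) (ED B y0 k b) := by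
  obtain ⟨hok, -, ht, hbe⟩ := hW.word
  obtain ⟨h1, h2⟩ := tls_of_gw hok h
  have h3 := (be_iff hok (some a) (some b)).1 h
  rw [hbe] at h3
  have h4 : gb (beD (Dp A B.xl B.xr B.y1 B.y2 k) p y0 (B.xr + k)) (some a) (some b) := h3
  rw [eD_glue hf hR hz (portOf_some (t := a.1) (d := a.2).2 ((ht _).1 h1))
    (portOf_some (t := b.1) (d := b.2).2 ((ht _).1 h2))] at h4
  refine ⟨h4.1, fun h => h4.2 ?_⟩
  show (some (ED B y0 k a) : Port TG) = some (ED B y0 k b)
  rw [h]

/-- a strand of `Dp` is a strand of `G^(z)` -/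
theorem wk_map (hf : Free A B.xl B.xr B.y1 B.y2 k) (hR : 2 * k < B.R) (hz : B.At p y0)
    (hW : GW (Dp A B.xl B.xr B.y1 B.y2 k) (beD (Dp A B.xl B.xr B.y1 B.y2 k) p y0 (B.xr + k)) w)
    {s : TG → Bool} {x y : (ℤ × ℤ) × ZMod 4} {l : List ((ℤ × ℤ) × ZMod 4)}
    (h : Wk (sD B y0 k s) (Gw w) x y l) :
    Wk s (Gq (B.beG p y0)) (ED B y0 k x) (ED B y0 k y) (l.map (ED B y0 k)) := by
  induction h with
  | one =>
    exact Wk.one
  | @snoc q r l h1 h2 ih =>
    rw [List.map_append]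
    exact ih.snoc (gw_map hf hR hz hW h2)

/-- the two definitions of strands -/
lemma wk_conv {T : Type*} {s : T → Bool} {G : T × ZMod 4 → T × ZMod 4 → Prop} {x y : T × ZMod 4}
    {l : List (T × ZMod 4)} (h : Wk s G x y l) : Ka470.Wk s G x y l := by
  induction h with
  | one => exact Ka470.Wk.one
  | snoc h1 h2 ih => exact ih.snoc h2

lemma wk_all {T : Type*} {s : T → Bool} {G : T × ZMod 4 → T × ZMod 4 → Prop} {P : T → Prop}
    {N : T × ZMod 4 → Prop} (hst : ∀ q r, G q r → P q.1 → N r → P r.1) {x y : T × ZMod 4}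
    {l : List (T × ZMod 4)} (h : Wk s G x y l) (hx : P x.1) (hN : ∀ r ∈ l, N r) :
    ∀ r ∈ l, P r.1 := by
  induction h with
  | one =>
    intro r hr
    rw [List.mem_singleton] at hr
    rw [hr]; exact hx
  | @snoc q r l h1 h2 ih =>
    have h3 := ih fun r hr => hN r (by simp [hr])
    intro r' hr'
    rcases List.mem_append.1 hr' with h4 | h4
    · exact h3 r' h4
    · rw [List.mem_singleton] at h4
      rw [h4]
      have h5 : P q.1 := h3 (Pt266.pass s q) h1.mem_right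
      exact hst q r h2 h5 (hN r (by simp))

end

/-- the four gates are closed -/
structure Gates4 (B : Band A) (p y0 k a' a0 b1 b' : ℤ) (hz : B.At p y0) (s : TG → Bool) : Prop where
  kR : 2 * k < B.R
  h0 : 0 < a'
  h1 : a' < a0
  h2 : a0 + 2 < k
  h3 : B.R - k ≤ b1
  h4 : b1 < b'
  h5 : b' < B.R - 2
  R1 : (gate hz (le_refl 0) h0 (by omega)).Closed s
  R2 : (gate hz h0.le h1 (by omega)).Closed s
  L1 : (gate hz (by omega) h4 (by omega)).Closed s
  L2 : (gate hz (by omega) h5 (by omega)).Closed s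

section main

variable {w : Wd (ℤ × ℤ)} {s : TG → Bool} {a' a0 b1 b' : ℤ} {hz : B.At p y0}

/-- kinds of tiles of `Dp`, as a disjunction on the tile -/
lemma tile_cases (hf : Free A B.xl B.xr B.y1 B.y2 k) {t : ℤ × ℤ}
    (h : t ∈ Dp A B.xl B.xr B.y1 B.y2 k) :
    (t ∈ A ∧ eD B y0 k t = Sum.inl t) ∨
    ((B.y1 ≤ t.2 ∧ t.2 < B.y2 ∧ B.xr < t.1 ∧ t.1 ≤ B.xr + k) ∧
      eD B y0 k t = Sum.inr (t.1 - B.xr - 1, t.2)) ∨
    ((B.y1 ≤ t.2 ∧ t.2 < B.y2 ∧ B.xl - k ≤ t.1 ∧ t.1 < B.xl) ∧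
      eD B y0 k t = Sum.inr (B.wd y0 t.2 - (B.xl - t.1), t.2)) := by
  obtain ⟨x, y⟩ := t
  rcases Xr249.Dp_cases hf h with ⟨h1, -, -⟩ | ⟨-, h2⟩ | ⟨-, h2⟩
  · exact Or.inl ⟨h1, eD_A hf h1⟩
  · exact Or.inr (Or.inl ⟨⟨h2.1.1, h2.1.2, h2.2.1, h2.2.2⟩, eD_r h2⟩)
  · exact Or.inr (Or.inr ⟨⟨h2.1.1, h2.1.2, h2.2.1, h2.2.2⟩, eD_l hf.le h2⟩)

lemma uc_left (y : ℤ) {x : ℤ} : uc y0 (B.wd y0 y - (B.xl - x), y) = B.R - (B.xl - x) := by
  rcases Xr249.wd_cases B y0 y with ⟨h1, h2⟩ | ⟨h1, h2⟩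
  · rw [uc_lt h1, h2]
  · rw [uc_ge (by omega), h2]; ring

/-- column bounds of the right stub -/
lemma uc_right {x y : ℤ} (h1 : B.xr < x) (h2 : x ≤ B.xr + k) :
    -1 ≤ uc y0 (x - B.xr - 1, y) ∧ uc y0 (x - B.xr - 1, y) ≤ k - 1 := by
  by_cases h : y < y0
  · rw [uc_lt h]; omega
  · rw [uc_ge h]; omega

/-- the strand of the leg is near -/
theorem leg_near (hf : Free A B.xl B.xr B.y1 B.y2 k)
    (hW : GW (Dp A B.xl B.xr B.y1 B.y2 k) (beD (Dp A B.xl B.xr B.y1 B.y2 k) p y0 (B.xr + k)) w)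
    (g : Gates4 B p y0 k a' a0 b1 b' hz s) :
    ∃ a, u (sD B y0 k s) w = some a ∧ eD B y0 k a.1 ∉ Far y0 a' b' := by
  obtain ⟨hok, -, ht, hbe⟩ := hW.word
  have hleg : isLeg w := isLeg_iff.2 (by rw [bs_bas]; exact hW.leg)
  have hpA : (p, y0) ∈ A := (B.run y0 hz.hy1.le hz.hy2).mem p hz.hp1.le hz.hp2
  have hwl : w ≠ .leg := by
    rintro rfl
    have := (ht (p, y0)).2 (mem_Dp.2 (Or.inl hpA))
    simp [tls] at this
  obtain ⟨a, b, l, h1, h2, h3⟩ := leg_walk (sD B y0 k s) hok hleg hwl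
  refine ⟨a, h1, fun hfar => ?_⟩
  -- the port of the leg
  have h4 := (be_iff hok (some b) none).1 h2
  have h5 : be w none = some b := by
    have h6 : Gs w none (some b) := h2.symm
    exact ((be_iff hok none (some b)).1 h6).1
  have h6 : b = ((p, y0), 3) := by
    rw [hbe] at h5
    have h7 : beD (Dp A B.xl B.xr B.y1 B.y2 k) p y0 (B.xr + k) none = some ((p, y0), 3) := by
      unfold beD
      rw [res_of (portOf_none _)]
      · exact nbD_leg
      · rw [nbD_leg, portOf_some]; exact mem_Dp.2 (Or.inl hpA)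
    rw [h7] at h5
    exact (Option.some.inj h5).symm
  have hw' := wk_conv (wk_map hf g.kR hz hW h3)
  obtain ⟨e0, e1, e2, e3, e4, e5, e6, c1, c2, c3, c4⟩ := g
  refine gates hz (le_refl 0) e1 (by omega) e6 (by omega) c1 c4 hw' ⟨?_, ?_⟩
  · refine ⟨_, List.mem_map_of_mem (f := ED B y0 k) h3.mem_right, Or.inl ⟨(p, y0), ?_⟩⟩
    rw [h6]
    exact eD_A hf hpA
  · exact ⟨_, List.mem_map_of_mem (f := ED B y0 k) h3.mem_left, hfar⟩

/-- **the end of the leg is not deep** -/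
theorem leg_deep (hf : Free A B.xl B.xr B.y1 B.y2 k)
    (hW : GW (Dp A B.xl B.xr B.y1 B.y2 k) (beD (Dp A B.xl B.xr B.y1 B.y2 k) p y0 (B.xr + k)) w)
    (g : Gates4 B p y0 k a' a0 b1 b' hz s) :
    ¬ deepR B y0 k a' (u (sD B y0 k s) w) ∧ ¬ deepL B k b' (u (sD B y0 k s) w) := by
  obtain ⟨a, h1, h2⟩ := leg_near hf hW g
  obtain ⟨e0, e1, e2, e3, e4, e5, e6, -, -, -, -⟩ := g
  rw [h1]
  refine ⟨?_, ?_⟩
  · rintro ⟨x, y, d, h3, h4, h5, h6, h7, h8⟩
    obtain rfl := Option.some.inj h3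
    refine h2 ?_
    have := uc_right (y := y) (y0 := y0) h4 h5
    simp only
    rw [eD_r ⟨⟨h6, h7⟩, h4, h5⟩]
    exact ⟨_, rfl, h8, by omega⟩
  · rintro ⟨x, y, d, h3, h4, h5, h6, h7, h8⟩
    obtain rfl := Option.some.inj h3
    refine h2 ?_
    simp only
    rw [eD_l hf.le ⟨⟨h6, h7⟩, h4, h5⟩]
    refine ⟨_, rfl, ?_, ?_⟩
    · rw [uc_left]; omega
    · rw [uc_left]; exact h8

/-- tile of the right stub beyond the column `a'` -/
def PR (B : Band A) (y0 k a' : ℤ) (t : ℤ × ℤ) : Prop :=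
  (B.y1 ≤ t.2 ∧ t.2 < B.y2 ∧ B.xr < t.1 ∧ t.1 ≤ B.xr + k) ∧ a' < uc y0 (t.1 - B.xr - 1, t.2)

/-- tile of the left stub up to the column `b'` -/
def PL (B : Band A) (k b' : ℤ) (t : ℤ × ℤ) : Prop :=
  (B.y1 ≤ t.2 ∧ t.2 < B.y2 ∧ B.xl - k ≤ t.1 ∧ t.1 < B.xl) ∧ B.R - (B.xl - t.1) ≤ b'

/-- partner of a deep right end -/
theorem stayR (hf : Free A B.xl B.xr B.y1 B.y2 k)
    (hW : GW (Dp A B.xl B.xr B.y1 B.y2 k) (beD (Dp A B.xl B.xr B.y1 B.y2 k) p y0 (B.xr + k)) w)
    (g : Gates4 B p y0 k a' a0 b1 b' hz s) {x : Port (ℤ × ℤ)} (hx : x ∈ L w)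
    (hd : deepR B y0 k a0 x) : deepR B y0 k a' (M (sD B y0 k s) w x) := by
  obtain ⟨hok, -, ht, hbe⟩ := hW.word
  have I := Ok.inv (sD B y0 k s) w hok
  have hu := (leg_deep hf hW g).1
  have hM : M (sD B y0 k s) w x ≠ x := fun h =>
    hu (I.fix _ hx h ▸ deepR_mono g.h1.le hd)
  obtain ⟨q, r, l, rfl, hr, hw, -⟩ := walk_word (sD B y0 k s) hok hx hM
  have hw' := wk_conv (wk_map hf g.kR hz hW hw)
  obtain ⟨e0, e1, e2, e3, e4, e5, e6, c1, c2, c3, c4⟩ := g
  obtain ⟨X, Y, d, h3, h4, h5, h6, h7, h8⟩ := hd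
  obtain rfl := Option.some.inj h3
  have hu1 := uc_right (y := Y) (y0 := y0) h4 h5
  -- the strand is never near
  have hfar : ∀ r ∈ l, eD B y0 k r.1 ∉ Near y0 a' b' := by
    intro r hr hN
    refine gates hz e1.le e2 (by omega) e5 (by omega) c2 c3 hw' ⟨⟨_, List.mem_map_of_mem
      (f := ED B y0 k) hr, hN⟩, ⟨_, List.mem_map_of_mem (f := ED B y0 k) hw.mem_left, ?_⟩⟩
    show eD B y0 k (X, Y) ∈ Far y0 a0 b1
    rw [eD_r ⟨⟨h6, h7⟩, h4, h5⟩]
    exact ⟨_, rfl, h8, by omega⟩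
  have hall := wk_all (P := PR B y0 k a') (N := fun r => eD B y0 k r.1 ∉ Near y0 a' b') ?_ hw
    ⟨⟨h6, h7, h4, h5⟩, by simp only; omega⟩ hfar
  · have h9 : PR B y0 k a' r.1 := hall (Pt266.pass _ r) hw.mem_right
    rw [hr]
    rcases r with ⟨⟨x1, y1'⟩, d1⟩
    exact ⟨x1, y1', d1, rfl, h9.1.2.2.1, h9.1.2.2.2, h9.1.1, h9.1.2.1, h9.2⟩
  · rintro ⟨t1, d1⟩ ⟨t2, d2⟩ hG ⟨⟨g1, g2, g3, g4⟩, g5⟩ hN
    obtain ⟨m1, m2⟩ := tls_of_gw hok hG
    have hmap := gw_map hf e0 hz hW hG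
    simp only [ED] at hmap g1 g2 g3 g4 g5 hN m2 ⊢
    have et1 : eD B y0 k t1 = Sum.inr (t1.1 - B.xr - 1, t1.2) := eD_r ⟨⟨g1, g2⟩, g3, g4⟩
    have hu2 := uc_right (y := t1.2) (y0 := y0) g3 g4
    rcases tile_cases (y0 := y0) hf ((ht _).1 m2) with ⟨-, e⟩ | ⟨f1, e⟩ | ⟨f1, e⟩
    · exact absurd (Or.inl ⟨_, e⟩) hN
    · refine ⟨f1, ?_⟩
      by_contra hcon
      exact hN (Or.inr ⟨_, e, Or.inl (by omega)⟩)
    · exfalso
      rw [et1, e] at hmap
      have h9 := adj_rr hmap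
      rw [uc_left] at h9
      omega

/-- partner of a deep left end -/
theorem stayL (hf : Free A B.xl B.xr B.y1 B.y2 k)
    (hW : GW (Dp A B.xl B.xr B.y1 B.y2 k) (beD (Dp A B.xl B.xr B.y1 B.y2 k) p y0 (B.xr + k)) w)
    (g : Gates4 B p y0 k a' a0 b1 b' hz s) {x : Port (ℤ × ℤ)} (hx : x ∈ L w)
    (hd : deepL B k b1 x) : deepL B k b' (M (sD B y0 k s) w x) := by
  obtain ⟨hok, -, ht, hbe⟩ := hW.word
  have I := Ok.inv (sD B y0 k s) w hok
  have hu := (leg_deep hf hW g).2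
  have hM : M (sD B y0 k s) w x ≠ x := fun h =>
    hu (I.fix _ hx h ▸ deepL_mono g.h4.le hd)
  obtain ⟨q, r, l, rfl, hr, hw, -⟩ := walk_word (sD B y0 k s) hok hx hM
  have hw' := wk_conv (wk_map hf g.kR hz hW hw)
  obtain ⟨e0, e1, e2, e3, e4, e5, e6, c1, c2, c3, c4⟩ := g
  obtain ⟨X, Y, d, h3, h4, h5, h6, h7, h8⟩ := hd
  obtain rfl := Option.some.inj h3
  -- the strand is never near
  have hfar : ∀ r ∈ l, eD B y0 k r.1 ∉ Near y0 a' b' := by
    intro r hr hN
    refine gates hz e1.le e2 (by omega) e5 (by omega) c2 c3 hw' ⟨⟨_, List.mem_map_of_mem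
      (f := ED B y0 k) hr, hN⟩, ⟨_, List.mem_map_of_mem (f := ED B y0 k) hw.mem_left, ?_⟩⟩
    show eD B y0 k (X, Y) ∈ Far y0 a0 b1
    rw [eD_l hf.le ⟨⟨h6, h7⟩, h4, h5⟩]
    exact ⟨_, rfl, by rw [uc_left]; omega, by rw [uc_left]; omega⟩
  have hall := wk_all (P := PL B k b') (N := fun r => eD B y0 k r.1 ∉ Near y0 a' b') ?_ hw
    ⟨⟨h6, h7, h4, h5⟩, by simp only; omega⟩ hfar
  · have h9 : PL B k b' r.1 := hall (Pt266.pass _ r) hw.mem_right
    rw [hr]
    rcases r with ⟨⟨x1, y1'⟩, d1⟩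
    exact ⟨x1, y1', d1, rfl, h9.1.2.2.1, h9.1.2.2.2, h9.1.1, h9.1.2.1, h9.2⟩
  · rintro ⟨t1, d1⟩ ⟨t2, d2⟩ hG ⟨⟨g1, g2, g3, g4⟩, g5⟩ hN
    obtain ⟨m1, m2⟩ := tls_of_gw hok hG
    have hmap := gw_map hf e0 hz hW hG
    simp only [ED] at hmap g1 g2 g3 g4 g5 hN m2 ⊢
    have et1 : eD B y0 k t1 = Sum.inr (B.wd y0 t1.2 - (B.xl - t1.1), t1.2) :=
      eD_l hf.le ⟨⟨g1, g2⟩, g3, g4⟩
    rcases tile_cases (y0 := y0) hf ((ht _).1 m2) with ⟨-, e⟩ | ⟨f1, e⟩ | ⟨f1, e⟩
    · exact absurd (Or.inl ⟨_, e⟩) hN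
    · exfalso
      rw [et1, e] at hmap
      have h9 := adj_rr hmap
      rw [uc_left] at h9
      have hu2 := uc_right (y := t2.2) (y0 := y0) f1.2.2.1 f1.2.2.2
      omega
    · refine ⟨f1, ?_⟩
      by_contra hcon
      exact hN (Or.inr ⟨_, e, Or.inr (by rw [uc_left]; omega)⟩)

end main

end Crest.Agent.R158.Qe249
end
end

-- ▼ part R158/Qe4_249
section

/-!
# R158, Q1c, `V_{D+}` and the deep ends of the stubs (helper249), file Qe4

* `Deep` : deep ends of both stubs; `not_deep` : ports of tiles of `A` are not deep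
* **`deep_zero`** : gates closed ⟹ the deep ends do not contribute (`Sm = 0`)
* `VJ` : the observable without the deep ends; **`HV_gate`** : gates closed ⟹ `HV = VJ`;
  **`norm_HV_sub_VJ`** : always `≤ 7/2`
* `Pm`, `gateS` : the set of splittings with the four gates closed, `gateS_dep`, **`gateS_prob`**
* **`HW_gate`** : `‖HW w m1 m2 m3 - ∫ VJ (sD s)‖ ≤ 7/2 · P(gates open)`
* `badD` : the same event for splittings of `Dp`; **`badD_law`**, **`badD_zero`**
-/

set_option autoImplicit false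
set_option linter.unusedVariables false
set_option linter.unusedSectionVars false

noncomputable section

namespace Crest.Agent.R158.Qe249

open Crest.Agent.R158.Al194 Crest.Agent.R158.Vt300 Crest.Agent.R158.Sw300 Crest.Agent.R158.Ob664
open Crest.Agent.R158.Env664 (portOf_some portOf_none PortOf beD Band TG Run nbD nbD_leg res_of)
open Crest.Agent.R158.Xr249 (Dp mem_Dp Free Nx rot rot_some full full_h full_v gb gb_beD Reg eD eD_r
  eD_l eD_A eD_inj eD_glue pm pm_some pm_none)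
open Crest.Agent.R158.Zg180 (uc uc_lt uc_ge Gq gates gate Near Far adj_rr se gate_prob closed_dep)
open Crest.Agent.R158.Zc180 (Cf gate_dep)
open Crest.Agent.R158.Rs689 (PB hf Dep)
open Crest.Agent.R158.Nm211 (DepF)
open MeasureTheory Finset

variable {A : Finset (ℤ × ℤ)} {B : Band A} {p y0 k : ℤ}

/-- deep ends of both stubs -/
def Deep (B : Band A) (y0 k a b : ℤ) (x : Port (ℤ × ℤ)) : Prop :=
  deepR B y0 k a x ∨ deepL B k b x

/-- ports of tiles of `A` are not deep -/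
theorem not_deep (hf : Free A B.xl B.xr B.y1 B.y2 k) {a b : ℤ} {t : ℤ × ℤ} (ht : t ∈ A)
    (d : ZMod 4) : ¬ Deep B y0 k a b (some (t, d)) := by
  rintro (⟨x, y, d', h1, h2, h3, h4, h5, -⟩ | ⟨x, y, d', h1, h2, h3, h4, h5, -⟩)
  · obtain ⟨rfl, -⟩ := Prod.mk.inj (Option.some.inj h1)
    exact hf.right x y h2 (by omega) (by omega) (by omega) ht
  · obtain ⟨rfl, -⟩ := Prod.mk.inj (Option.some.inj h1)
    exact hf.left x y h3 (by omega) (by omega) (by omega) ht

section gen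

variable {T : Type*} [DecidableEq T] {w : Wd T} {s : T → Bool}

/-- the term of the mark sum at the end with index `j` -/
def SmP (w : Wd T) (s : T → Bool) (m1 m2 : Port T) (j : ℕ) : ℂ :=
  Sm (piL (L w) (M s w) m1) (L w).length ((rotl (L w) m1).idxOf (u s w)) 0
    ((rotl (L w) m1).idxOf m2) j

lemma SmP_hL (h : Ok w) {m1 : Port T} (m2 : Port T) (hm : m1 ∈ L w) (j : ℕ) :
    SmP w s m1 m2 j = hL s w (fun x => (cM (L w) m1 m2 j x : ℝ)) := Sm_port h hm

/-- an end of a block (without marks and leg) joined to an end of the block does not contribute -/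
theorem SmP_zero (h : Ok w) {m1 m2 : Port T} (hm1 : m1 ∈ L w) (hm2 : m2 ∈ L w) {P : Port T → Prop}
    (hc : Cvx fun i => i < (L w).length ∧ P (enL (L w) m1 i)) (hu : ¬ P (u s w)) (h2 : ¬ P m2)
    {j : ℕ} (hj : j < (L w).length) (hP : P (enL (L w) m1 j)) (hM : P (M s w (enL (L w) m1 j))) :
    SmP w s m1 m2 j = 0 := by
  have hN := nckL s h hm1
  have e2 : enL (L w) m1 ((rotl (L w) m1).idxOf m2) = m2 := enL_idL (m1 := m1) hm2
  have eu : enL (L w) m1 ((rotl (L w) m1).idxOf (u s w)) = u s w := enL_ku h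
  have l2 : (rotl (L w) m1).idxOf m2 < (L w).length := idL_lt (m1 := m1) hm2
  refine Sm_zero_of_cvx (P := fun i => i < (L w).length ∧ P (enL (L w) m1 i)) hN hc ?_ ?_ l2.le hj
    ⟨hj, hP⟩ ⟨hN.mem j hj, ?_⟩
  · rintro ⟨-, h'⟩
    rw [eu] at h'
    exact hu h'
  · rintro ⟨-, h'⟩
    rw [e2] at h'
    exact h2 h'
  · rw [enL_piL h hj]
    exact hM

end gen

section main

variable {w : Wd (ℤ × ℤ)} {s : TG → Bool} {a' a0 b1 b' : ℤ} {hz : B.At p y0}

/-- **deep ends do not contribute** -/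
theorem deep_zero (hf : Free A B.xl B.xr B.y1 B.y2 k)
    (hW : GW (Dp A B.xl B.xr B.y1 B.y2 k) (beD (Dp A B.xl B.xr B.y1 B.y2 k) p y0 (B.xr + k)) w)
    (g : Gates4 B p y0 k a' a0 b1 b' hz s) {m1 m2 : Port (ℤ × ℤ)} (hm1 : m1 ∈ L w)
    (hm2 : m2 ∈ L w) (hn1 : ¬ Deep B y0 k a' b' m1) (hn2 : ¬ Deep B y0 k a' b' m2) {j : ℕ}
    (hj : j < (L w).length) (hd : Deep B y0 k a0 b1 (enL (L w) m1 j)) :
    SmP w (sD B y0 k s) m1 m2 j = 0 := by
  have hok := hW.word.1
  have hu := leg_deep hf hW g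
  have hmem : enL (L w) m1 j ∈ L w := enL_mem hj
  obtain ⟨c0, c1, c2, c3, c4, c5, c6, -, -, -, -⟩ := id g
  rcases hd with hd | hd
  · exact SmP_zero hok hm1 hm2 (P := deepR B y0 k a')
      (deepR_cvx hf hz c1.le (by omega) hW hm1 fun h => hn1 (Or.inl h)) hu.1
      (fun h => hn2 (Or.inl h)) hj (deepR_mono c2.le hd) (stayR hf hW g hmem hd)
  · exact SmP_zero hok hm1 hm2 (P := deepL B k b')
      (deepL_cvx hf hz (by omega) (by omega) hW hm1 fun h => hn1 (Or.inr h)) hu.2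
      (fun h => hn2 (Or.inr h)) hj (deepL_mono c5.le hd) (stayL hf hW g hmem hd)


end main

section obs

variable {T : Type*} [DecidableEq T] {w : Wd T} {s : T → Bool}

open Classical in
/-- the observable with the ends in `P` dropped -/
def VJ (w : Wd T) (m1 m2 m3 : Port T) (P : Port T → Prop) (s : T → Bool) : ℂ :=
  (∑ j ∈ (Ico ((rotl (L w) m1).idxOf m2) ((rotl (L w) m1).idxOf m3)).filter
      (fun j => ¬ P (enL (L w) m1 j)), hL s w (fun x => (cM (L w) m1 m2 j x : ℝ))) / 2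
    + hL s w (fun x => (cS (L w) m1 m2 ((rotl (L w) m1).idxOf m2) x : ℝ)) / 2

open Classical in
lemma HV_eq_VJ (h : Ok w) {m1 m2 m3 : Port T} (hM : Mk w m1 m2 m3) (P : Port T → Prop)
    (s : T → Bool) : HV w m1 m2 m3 s = VJ w m1 m2 m3 P s +
      (∑ j ∈ (Ico ((rotl (L w) m1).idxOf m2) ((rotl (L w) m1).idxOf m3)).filter
        (fun j => P (enL (L w) m1 j)), hL s w (fun x => (cM (L w) m1 m2 j x : ℝ))) / 2 := by
  rw [HV_mid h hM s, VJ, ← Finset.sum_filter_add_sum_filter_not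
    (Ico ((rotl (L w) m1).idxOf m2) ((rotl (L w) m1).idxOf m3)) (fun j => P (enL (L w) m1 j))]
  ring

/-- **dropping ends costs at most `7/2`** -/
theorem norm_HV_sub_VJ (h : Ok w) {m1 m2 m3 : Port T} (hM : Mk w m1 m2 m3) (P : Port T → Prop)
    (s : T → Bool) : ‖HV w m1 m2 m3 s - VJ w m1 m2 m3 P s‖ ≤ 7 / 2 := by
  classical
  rw [HV_eq_VJ h hM P s, add_sub_cancel_left, norm_div]
  have hN := nckL s h hM.1
  have h3 : (rotl (L w) m1).idxOf m3 < (L w).length := idL_lt (m1 := m1) hM.2.2.1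
  have h2 := hM.lt h
  have key := hN.norm_drop (x1 := 0) (x2 := (rotl (L w) m1).idxOf m2) (Nat.zero_le _) (by omega)
    ((Ico ((rotl (L w) m1).idxOf m2) ((rotl (L w) m1).idxOf m3)).filter
        (fun j => P (enL (L w) m1 j))) (fun e he => by
      rw [mem_filter, mem_Ico] at he; omega)
  have e : ∀ j, Sm (piL (L w) (M s w) m1) (L w).length ((rotl (L w) m1).idxOf (u s w)) 0
      ((rotl (L w) m1).idxOf m2) j = hL s w (fun x => (cM (L w) m1 m2 j x : ℝ)) := fun j =>
    Sm_port h hM.1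
  simp only [e] at key
  have e2 : ‖(2 : ℂ)‖ = 2 := by simp
  rw [e2]
  linarith


theorem measurable_VJ (w : Wd T) (m1 m2 m3 : Port T) (P : Port T → Prop) :
    Measurable (VJ w m1 m2 m3 P) := by
  unfold VJ
  exact ((Finset.measurable_sum _ fun j _ => measurable_hL w _).div_const 2).add
    ((measurable_hL w _).div_const 2)

theorem integrable_VJ (w : Wd T) (m1 m2 m3 : Port T) (P : Port T → Prop) :
    Integrable (VJ w m1 m2 m3 P) (PB fun _ : T => hf) := by
  unfold VJ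
  exact ((integrable_finsetSum _ fun j _ => integrable_hL w _).div_const 2).add
    ((integrable_hL w _).div_const 2)

end obs


/-! ### the event -/

/-- parameters of the four gates -/
structure Pm (B : Band A) (k a' a0 b1 b' : ℤ) : Prop where
  kR : 2 * k < B.R
  h0 : 0 < a'
  h1 : a' < a0
  h2 : a0 + 2 < k
  h3 : B.R - k ≤ b1
  h4 : b1 < b'
  h5 : b' < B.R - 2

section event

variable {a' a0 b1 b' : ℤ}

/-- the four gates are closed -/
def gateS (hz : B.At p y0) (P : Pm B k a' a0 b1 b') : Set (TG → Bool) :=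
  ({s | (gate hz (a0 := 0) (a1 := a') (le_refl 0) P.h0
      (by have := P.kR; have := P.h0; have := P.h1; have := P.h2; omega)).Closed s} ∩
   {s | (gate hz (a0 := a') (a1 := a0) P.h0.le P.h1
      (by have := P.kR; have := P.h0; have := P.h1; have := P.h2; omega)).Closed s}) ∩
  ({s | (gate hz (a0 := b1) (a1 := b')
      (by have := P.kR; have := P.h3; have := P.h0; have := P.h1; have := P.h2; omega) P.h4
      (by have := P.h5; omega)).Closed s} ∩
   {s | (gate hz (a0 := b') (a1 := B.R - 2)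
      (by have := P.kR; have := P.h3; have := P.h4; have := P.h0; have := P.h1; have := P.h2
          omega) P.h5 (by omega)).Closed s})

theorem gateS_iff {hz : B.At p y0} {P : Pm B k a' a0 b1 b'} {s : TG → Bool} :
    s ∈ gateS hz P ↔ Gates4 B p y0 k a' a0 b1 b' hz s := by
  constructor
  · rintro ⟨⟨h1, h2⟩, h3, h4⟩
    exact ⟨P.kR, P.h0, P.h1, P.h2, P.h3, P.h4, P.h5, h1, h2, h3, h4⟩
  · intro g
    exact ⟨⟨g.R1, g.R2⟩, g.L1, g.L2⟩

theorem gateS_dep (hz : B.At p y0) (P : Pm B k a' a0 b1 b') :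
    Dep ((Cf B y0 0 a' ∪ Cf B y0 a' a0) ∪ (Cf B y0 b1 b' ∪ Cf B y0 b' (B.R - 2)))
      (gateS hz P) := by
  refine Dep.inter ((Dep.inter ((gate_dep hz _ _ _).mono subset_union_left)
    ((gate_dep hz _ _ _).mono subset_union_right)).mono subset_union_left)
    ((Dep.inter ((gate_dep hz _ _ _).mono subset_union_left)
    ((gate_dep hz _ _ _).mono subset_union_right)).mono subset_union_right)

theorem gateS_meas (hz : B.At p y0) (P : Pm B k a' a0 b1 b') : MeasurableSet (gateS hz P) :=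
  (gateS_dep hz P).measurableSet

/-- **the gates are closed with high probability** -/
theorem gateS_prob : ∃ q : ℝ, 0 < q ∧ q < 1 ∧ ∀ (A : Finset (ℤ × ℤ)) (B : Band A)
    (p y0 k a' a0 b1 b' : ℤ) (hz : B.At p y0) (P : Pm B k a' a0 b1 b') (h N : ℕ), 1 ≤ h →
    B.y2 = B.y1 + h → (N : ℤ) * h ≤ a' → (N : ℤ) * h ≤ a0 - a' → (N : ℤ) * h ≤ b' - b1 →
    (N : ℤ) * h ≤ B.R - 2 - b' →
    (PB fun _ : TG => hf).real (gateS hz P)ᶜ ≤ 4 * q ^ N := by
  obtain ⟨q, hq, hq1, hg⟩ := gate_prob.{0}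
  refine ⟨q, hq, hq1, fun A B p y0 k a' a0 b1 b' hz P h N hh hy e1 e2 e3 e4 => ?_⟩
  have g0 := P.kR
  have g1 := P.h0
  have g2 := P.h1
  have g3 := P.h2
  have g4 := P.h3
  have g5 := P.h4
  have g6 := P.h5
  have key : ∀ (c0 c1 : ℤ) (h0 : 0 ≤ c0) (h01 : c0 < c1) (h1 : c1 + 1 < B.R),
      (N : ℤ) * h ≤ c1 - c0 →
      (PB fun _ : TG => hf).real {s | (gate hz h0 h01 h1).Closed s}ᶜ ≤ q ^ N := by
    intro c0 c1 h0 h01 h1 e
    refine hg _ _ (gate hz h0 h01 h1) h N hh ?_ ?_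
    · show B.y2 - 1 = B.y1 - 1 + h
      omega
    · show c0 + N * h ≤ c1
      omega
  have k1 := key 0 a' le_rfl P.h0 (by omega) (by omega)
  have k2 := key a' a0 P.h0.le P.h1 (by omega) (by omega)
  have k3 := key b1 b' (by omega) P.h4 (by omega) (by omega)
  have k4 := key b' (B.R - 2) (by omega) P.h5 (by omega) (by omega)
  unfold gateS
  rw [Set.compl_inter, Set.compl_inter, Set.compl_inter]
  refine (measureReal_union_le _ _).trans ?_
  have a1 := measureReal_union_le (μ := PB fun _ : TG => hf)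
    {s | (gate hz (a0 := 0) (a1 := a') (le_refl 0) P.h0 (by omega)).Closed s}ᶜ
    {s | (gate hz (a0 := a') (a1 := a0) P.h0.le P.h1 (by omega)).Closed s}ᶜ
  have a2 := measureReal_union_le (μ := PB fun _ : TG => hf)
    {s | (gate hz (a0 := b1) (a1 := b') (by omega) P.h4 (by omega)).Closed s}ᶜ
    {s | (gate hz (a0 := b') (a1 := B.R - 2) (by omega) P.h5 (by omega)).Closed s}ᶜ
  linarith

end event

/-! ### the mean -/

section mean

variable {w : Wd (ℤ × ℤ)} {a' a0 b1 b' : ℤ}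




end mean

end Crest.Agent.R158.Qe249
end
end

-- ▼ part R158/Qe5_249
section

/-!
# R158, Q1c, `V_{D+}` and the deep ends of the stubs (helper249), file Qe5: splittings of `Dp`

* `exD s'` : a splitting of `G^(z)` with given splitting `s'` of `Dp`
* `gateD` : the four gates are closed, as an event for splittings of `Dp`; `gateD_iff`,
  **`gateD_law`**, **`gateD_prob`**
* **`gateD_zero`** : on `gateD` the deep ends do not contribute
-/

set_option autoImplicit false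
set_option linter.unusedVariables false
set_option linter.unusedSectionVars false

noncomputable section

namespace Crest.Agent.R158.Qe249

open Crest.Agent.R158.Al194 Crest.Agent.R158.Vt300 Crest.Agent.R158.Sw300 Crest.Agent.R158.Ob664
open Crest.Agent.R158.Env664 (portOf_some portOf_none PortOf beD Band TG Run nbD nbD_leg res_of)
open Crest.Agent.R158.Xr249 (Dp mem_Dp Free Nx rot rot_some full full_h full_v gb gb_beD Reg eD eD_r
  eD_l eD_A eD_inj eD_glue pm pm_some pm_none)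
open Crest.Agent.R158.Zg180 (uc uc_lt uc_ge Gq gates gate Near Far adj_rr se gate_prob closed_dep)
open Crest.Agent.R158.Zc180 (Cf gate_dep)
open Crest.Agent.R158.Mr679 (bxF mem_bxF)
open Crest.Agent.R158.Rs689 (PB Dep)
open Crest.Agent.R158.Nm211 (DepF)
open MeasureTheory Finset

variable {A : Finset (ℤ × ℤ)} {B : Band A} {p y0 k : ℤ}

/-- transport of an event along an injection -/
lemma law_inj {ι κ : Type} {S : Finset κ} {g : κ → ι} (hg : Set.InjOn g S) {E : Set (κ → Bool)}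
    (hE : Dep S E) {F : Set (ι → Bool)} (hF : MeasurableSet F)
    (h : ∀ z : ι → Bool, (fun e => z (g e)) ∈ E ↔ z ∈ F) :
    (PB fun _ : ι => Rs689.hf).real F = (PB fun _ : κ => Rs689.hf).real E := by
  classical
  have hd : DepF S (E.indicator fun _ => (1 : ℝ)) := by
    intro z z' h
    by_cases hz : z ∈ E
    · rw [Set.indicator_of_mem hz, Set.indicator_of_mem ((hE z z' h).1 hz)]
    · rw [Set.indicator_of_notMem hz, Set.indicator_of_notMem fun h' => hz ((hE z z' h).2 h')]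
  have h1 := Crest.Agent.R158.Nm211.integral_transport (ι := ι) (κ := κ) hg (fun _ => false) hd
  rw [integral_indicator_const _ hE.measurableSet] at h1
  have h2 : ∀ z : ι → Bool, (E.indicator fun _ => (1 : ℝ)) (fun e => xor false (z (g e))) =
      (F.indicator fun _ => (1 : ℝ)) z := by
    intro z
    simp only [Bool.false_xor]
    by_cases hz : z ∈ F
    · rw [Set.indicator_of_mem hz, Set.indicator_of_mem ((h z).2 hz)]
    · rw [Set.indicator_of_notMem hz, Set.indicator_of_notMem fun h' => hz ((h z).1 h')]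
  simp only [h2] at h1
  rw [integral_indicator_const _ hF] at h1
  simpa using h1

open Classical in
/-- a splitting of `G^(z)` with given splitting of `Dp` -/
def exD (B : Band A) (y0 k : ℤ) (s' : ℤ × ℤ → Bool) : TG → Bool := fun t =>
  if h : ∃ v, v ∈ Dp A B.xl B.xr B.y1 B.y2 k ∧ eD B y0 k v = t then s' h.choose else false

lemma exD_eD (hf : Free A B.xl B.xr B.y1 B.y2 k) (hR : 2 * k < B.R) (s' : ℤ × ℤ → Bool)
    {v : ℤ × ℤ} (hv : v ∈ Dp A B.xl B.xr B.y1 B.y2 k) : exD B y0 k s' (eD B y0 k v) = s' v := by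
  have h : ∃ v', v' ∈ Dp A B.xl B.xr B.y1 B.y2 k ∧ eD B y0 k v' = eD B y0 k v := ⟨v, hv, rfl⟩
  unfold exD
  rw [dif_pos h]
  have h1 := h.choose_spec
  have h2 : h.choose = v := by
    rcases e : h.choose with ⟨x, y⟩
    rw [e] at h1
    obtain ⟨x', y'⟩ := v
    exact eD_inj hf hR h1.1 hv h1.2
  rw [h2]

section

variable {a' a0 b1 b' : ℤ}

/-- the tiles of the gates lie in `Dp` -/
lemma gate_tiles (hf : Free A B.xl B.xr B.y1 B.y2 k) (P : Pm B k a' a0 b1 b') {t : TG}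
    (h : t ∈ (Cf B y0 0 a' ∪ Cf B y0 a' a0) ∪ (Cf B y0 b1 b' ∪ Cf B y0 b' (B.R - 2))) :
    ∃ v, v ∈ Dp A B.xl B.xr B.y1 B.y2 k ∧ eD B y0 k v = t := by
  have g0 := P.kR
  have g1 := P.h0
  have g2 := P.h1
  have g3 := P.h2
  have g4 := P.h3
  have g5 := P.h4
  have g6 := P.h5
  have hR : ∀ x0 x1 : ℤ, 0 ≤ x0 → x1 ≤ a0 → t ∈ Cf B y0 x0 x1 →
      ∃ v, v ∈ Dp A B.xl B.xr B.y1 B.y2 k ∧ eD B y0 k v = t := by
    intro x0 x1 e0 e1 ht
    obtain ⟨⟨c, y⟩, hv, rfl⟩ := Finset.mem_image.1 ht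
    rw [mem_bxF] at hv
    obtain ⟨v1, v2, v3, v4⟩ := hv
    simp only at v1 v2 v3 v4
    refine ⟨(B.xr + 1 + (if y < y0 then c else c + 1), y), ?_, ?_⟩
    · rw [mem_Dp]
      right; left
      split_ifs <;> omega
    · rw [eD_r ⟨⟨by omega, by omega⟩, by split_ifs <;> omega, by split_ifs <;> omega⟩]
      show (Sum.inr _ : TG) = Sum.inr _
      congr 2
      ring
  have hL : ∀ x0 x1 : ℤ, b1 ≤ x0 → x1 ≤ B.R - 2 → t ∈ Cf B y0 x0 x1 →
      ∃ v, v ∈ Dp A B.xl B.xr B.y1 B.y2 k ∧ eD B y0 k v = t := by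
    intro x0 x1 e0 e1 ht
    obtain ⟨⟨c, y⟩, hv, rfl⟩ := Finset.mem_image.1 ht
    rw [mem_bxF] at hv
    obtain ⟨v1, v2, v3, v4⟩ := hv
    simp only at v1 v2 v3 v4
    refine ⟨(B.xl - (B.R - c), y), ?_, ?_⟩
    · rw [mem_Dp]
      right; right
      omega
    · rw [eD_l hf.le ⟨⟨by omega, by omega⟩, by omega, by omega⟩]
      show (Sum.inr _ : TG) = Sum.inr _
      congr 2
      rcases Xr249.wd_cases B y0 y with ⟨w1, w2⟩ | ⟨w1, w2⟩
      · rw [w2, if_pos w1]; ring
      · rw [w2, if_neg (by omega)]; ring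
  rcases mem_union.1 h with h | h <;> rcases mem_union.1 h with h | h
  · exact hR _ _ le_rfl g2.le h
  · exact hR _ _ g1.le le_rfl h
  · exact hL _ _ le_rfl (by omega) h
  · exact hL _ _ g5.le le_rfl h

/-- the four gates are closed -/
def gateD (hz : B.At p y0) (P : Pm B k a' a0 b1 b') : Set (ℤ × ℤ → Bool) :=
  {s' | exD B y0 k s' ∈ gateS hz P}

theorem gateD_iff (hf : Free A B.xl B.xr B.y1 B.y2 k) (hz : B.At p y0) (P : Pm B k a' a0 b1 b')
    {s : TG → Bool} : sD B y0 k s ∈ gateD hz P ↔ s ∈ gateS hz P := by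
  refine gateS_dep hz P _ _ fun t ht => ?_
  obtain ⟨v, hv, rfl⟩ := gate_tiles hf P ht
  rw [exD_eD hf P.kR _ hv]
  rfl

theorem gateD_dep (hf : Free A B.xl B.xr B.y1 B.y2 k) (hz : B.At p y0)
    (P : Pm B k a' a0 b1 b') : Dep (Dp A B.xl B.xr B.y1 B.y2 k) (gateD hz P) := by
  intro s s' h
  refine gateS_dep hz P _ _ fun t ht => ?_
  obtain ⟨v, hv, rfl⟩ := gate_tiles hf P ht
  rw [exD_eD hf P.kR _ hv, exD_eD hf P.kR _ hv]
  exact h v hv

/-- **law of the gates, seen from `Dp`** -/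
theorem gateD_law (hf : Free A B.xl B.xr B.y1 B.y2 k) (hz : B.At p y0)
    (P : Pm B k a' a0 b1 b') :
    (PB fun _ : ℤ × ℤ => Rs689.hf).real (gateD hz P)ᶜ =
      (PB fun _ : TG => Rs689.hf).real (gateS hz P)ᶜ := by
  refine (law_inj (S := Dp A B.xl B.xr B.y1 B.y2 k) (g := eD B y0 k) ?_ (gateD_dep hf hz P).compl
    (gateS_meas hz P).compl fun z => ?_).symm
  · rintro ⟨x, y⟩ h1 ⟨x', y'⟩ h2 e
    exact eD_inj hf P.kR h1 h2 e
  · rw [Set.mem_compl_iff, Set.mem_compl_iff]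
    exact not_congr (gateD_iff hf hz P)

end

/-- **the gates are closed with high probability** -/
theorem gateD_prob : ∃ q : ℝ, 0 < q ∧ q < 1 ∧ ∀ (A : Finset (ℤ × ℤ)) (B : Band A)
    (p y0 k a' a0 b1 b' : ℤ) (hf : Free A B.xl B.xr B.y1 B.y2 k) (hz : B.At p y0)
    (P : Pm B k a' a0 b1 b') (h N : ℕ), 1 ≤ h →
    B.y2 = B.y1 + h → (N : ℤ) * h ≤ a' → (N : ℤ) * h ≤ a0 - a' → (N : ℤ) * h ≤ b' - b1 →
    (N : ℤ) * h ≤ B.R - 2 - b' →
    (PB fun _ : TG => Rs689.hf).real (gateS hz P)ᶜ ≤ 4 * q ^ N ∧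
    (PB fun _ : ℤ × ℤ => Rs689.hf).real (gateD hz P)ᶜ ≤ 4 * q ^ N := by
  obtain ⟨q, hq, hq1, hg⟩ := gateS_prob
  refine ⟨q, hq, hq1, fun A B p y0 k a' a0 b1 b' hf hz P h N hh hy e1 e2 e3 e4 => ?_⟩
  rw [gateD_law hf hz P]
  exact ⟨hg A B p y0 k a' a0 b1 b' hz P h N hh hy e1 e2 e3 e4,
    hg A B p y0 k a' a0 b1 b' hz P h N hh hy e1 e2 e3 e4⟩

/-- the term of the mark sum only sees the tiles of the word -/
lemma SmP_congr {T : Type*} [DecidableEq T] {w : Wd T} {s s' : T → Bool}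
    (h : ∀ t ∈ tls w, s t = s' t) (m1 m2 : Port T) (j : ℕ) :
    SmP w s m1 m2 j = SmP w s' m1 m2 j := by
  obtain ⟨h1, h2, h3⟩ := state_congr w h
  unfold SmP
  rw [h1, h3]

/-- **on closed gates the deep ends do not contribute** (splittings of `Dp`) -/
theorem gateD_zero {w : Wd (ℤ × ℤ)} {a' a0 b1 b' : ℤ} {hz : B.At p y0}
    {P : Pm B k a' a0 b1 b'} (hf : Free A B.xl B.xr B.y1 B.y2 k)
    (hW : GW (Dp A B.xl B.xr B.y1 B.y2 k) (beD (Dp A B.xl B.xr B.y1 B.y2 k) p y0 (B.xr + k)) w)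
    {s : ℤ × ℤ → Bool} (g : s ∈ gateD hz P) {m1 m2 : Port (ℤ × ℤ)} (hm1 : m1 ∈ L w)
    (hm2 : m2 ∈ L w) (hn1 : ¬ Deep B y0 k a' b' m1) (hn2 : ¬ Deep B y0 k a' b' m2) {j : ℕ}
    (hj : j < (L w).length) (hd : Deep B y0 k a0 b1 (enL (L w) m1 j)) :
    SmP w s m1 m2 j = 0 := by
  rw [← SmP_congr (s := sD B y0 k (exD B y0 k s)) (s' := s) (fun t ht => ?_)]
  · exact deep_zero hf hW (gateS_iff (P := P).1 g) hm1 hm2 hn1 hn2 hj hd
  · exact exD_eD hf P.kR s ((hW.word.2.2.1 _).1 ht)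

end Crest.Agent.R158.Qe249
end
end

-- ▼ part R158/Ad15_350
section

/-!
# Block AD, the pointwise identity on closed gates (helper350)

* `C0_deep` : charges of the deep ends of the stubs
* **`gate_zE`** : closed near gates: `zE = ei (π / 12) * star (hL (s ∘ eD) w C0) * 1[no strand over]`
* `zE_over` : a strand over the far charge in any rectangle of the far columns: `zE = 0`
-/

set_option autoImplicit false
set_option linter.unusedSectionVars false
set_option linter.unusedVariables false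

noncomputable section

open Finset

namespace Crest.Agent.R158.Ad350

open Crest.Agent.R158.Xr249 (rct mem_rct full eS eD Dp mem_Dp pm pm_some Dp_cases eD_in eD_r eD_l
  eD_A wd_cases pm_inj pm_portOf eD_glue)
open Crest.Agent.R158.Sw300 (Port Wd L thru)
open Crest.Agent.R158.Env664 (TG Band PortOf portOf_some portOf_none nbP nbD beD res res_of Run)
open Crest.Agent.R158.Ao857 (legP beL chL beL_ne chL_ne chG beG_fix)
open Crest.Agent.R158.Zg180 (Gq Near Far gate uc se)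
open Crest.Agent.R158.Fm857 (ps psD cb cp clow ctw phi isLS freeG mem_freeG mem_flr mem_cil)
open Crest.Agent.R158.Qd300 (C0 DB beC chN ND NDe inLS Art)
open Crest.Agent.R158.Ob664 (GW)
open Crest.Agent.R158.Qc405 (TabH psT sgD)
open Crest.Agent.R158.Al194 (hL)

variable {A : Finset (ℤ × ℤ)} {B : Band A} {p y0 k b : ℤ} {m1 m2 : Port TG} {s : TG → Bool}
  {w : Wd (ℤ × ℤ)} {e : Option (Port TG)} {a0 b1 : ℤ}

/-- free ends are cut -/
lemma L_cut (hz : B.At p y0) (hw : GW (DB B k) (beD (DB B k) p y0 (B.xr + k)) w)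
    {a : (ℤ × ℤ) × ZMod 4} (ha : (some a : Port (ℤ × ℤ)) ∈ L w) :
    (some a : Port (ℤ × ℤ)) ≠ lpD p y0 ∧ beC B p y0 k (some a) = some a := by
  have h1 := Pt266.fr_of_mem hw.word.1 (a := a) ha
  have hl : (some a : Port (ℤ × ℤ)) ≠ lpD p y0 := by
    intro e
    have h2 : Pt266.Gs w (some a) none := by
      rw [Pt266.be_iff hw.word.1, hw.word.2.2.2, e]
      exact ⟨Qd300.beD_lp hz, by simp [lpD]⟩
    exact ((Pt266.mem_L hw.word.1 a).1 ha).2 ⟨none, h2⟩
  refine ⟨hl, ?_⟩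
  rw [Qd300.beC_ne hl]
  by_contra hne
  have h3 := ((Pt266.mem_L hw.word.1 a).1 ha).2
  apply h3
  refine ⟨beD (DB B k) p y0 (B.xr + k) (some a),
    (Pt266.be_iff hw.word.1 (some a) _).2 ⟨by rw [hw.word.2.2.2], fun h => hne h.symm⟩⟩

/-- **charges of the deep ends** -/
theorem C0_deep (H : TabH A B.xl B.xr B.y1 B.y2 k p y0 (psD B)) (hR : 2 * k < B.R)
    (hkb : k ≤ b) (hbR : b + k ≤ B.R) (hw : GW (DB B k) (beD (DB B k) p y0 (B.xr + k)) w)
    (hm1 : ∃ t d, m1 = some (Sum.inl t, d)) (hm2 : ∃ t d, m2 = some (Sum.inl t, d))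
    (he : EndOk a0 b1 e) (hab : a0 < b - 1) (hbb : b ≤ b1 + 1) {t : ℤ × ℤ} {d : ZMod 4}
    (hx : (some (t, d) : Port (ℤ × ℤ)) ∈ L w) (ht : t ∈ DB B k) (hd : Deep B y0 k a0 b1 t) :
    C0 B p y0 k b m1 m2 e (some (t, d)) = if inLS B k t then clow B b m1 m2 e else 0 := by
  have hz := Qd300.at_of H
  simp only [C0]
  by_cases hA : Art B p y0 k (some (t, d))
  · rw [if_pos hA]
  · rw [if_neg hA]
    obtain ⟨hl, hc⟩ := L_cut hz hw hx
    have hxp : (some (t, d) : Port (ℤ × ℤ)) ∈ ports (DB B k) := mem_ports.2 ht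
    have h1 := Qd300.nat_cut H.hf hR hz hxp hA hc hl
    have hls := Qd300.isLS_pm (y0 := y0) (d := d) H.hf hkb hbR ht
    have hm : pm (eD B y0 k) (some (t, d)) ∈ freeG B := by
      refine (mem_freeG B hz).2 ⟨?_, h1⟩
      exact mem_ports.2 (portOf_some.1 (pm_portOf H.hf hR (Qd300.portOf_of hxp)))
    have hst := hd.stub H.hf ht
    -- the image is a strip end
    have hinr : ∃ v, eD B y0 k t = Sum.inr v := by
      rcases Dp_cases H.hf ht with ⟨g1, g2, g3⟩ | ⟨-, g2⟩ | ⟨-, g2⟩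
      · exact absurd (Or.inl ⟨_, eD_A H.hf g1⟩) hd
      · exact ⟨_, eD_r g2⟩
      · exact ⟨_, eD_l H.hf.le g2⟩
    obtain ⟨⟨i, y⟩, hv⟩ := hinr
    have hcol : a0 < uc y0 (i, y) ∧ uc y0 (i, y) ≤ b1 := by
      by_contra hcon
      apply hd
      rw [hv]
      exact Or.inr ⟨_, rfl, by omega⟩
    rw [pm_some, hv] at hm hls ⊢
    have hcp : cp B b m1 m2 e (some (Sum.inr (i, y), d)) = 0 := by
      refine cp_strip hm1 hm2 he hab hbb ?_
      unfold Fm857.freeG at hm
      rw [mem_union, mem_union] at hm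
      rcases hm with hm | hm | hm
      · exfalso
        obtain ⟨q, hq, e⟩ := mem_image.1 hm
        rcases q with - | ⟨t, d'⟩
        · exact absurd e (by simp [Ao857.tpm])
        · have e' : (some (Sum.inl t, d') : Port TG) = some (Sum.inr (i, y), d) := e
          simp at e'
      · obtain ⟨j, h2, h3, e⟩ := (mem_flr B).1 hm
        simp only [Option.some.injEq, Prod.mk.injEq, Sum.inr.injEq] at e
        obtain ⟨⟨rfl, rfl⟩, rfl⟩ := e
        left
        rw [Zg180.uc_lt (by have := hz.hy1; exact this)] at hcol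
        exact ⟨rfl, hcol.1, hcol.2⟩
      · obtain ⟨j, h2, h3, e⟩ := (mem_cil B).1 hm
        simp only [Option.some.injEq, Prod.mk.injEq, Sum.inr.injEq] at e
        obtain ⟨⟨rfl, rfl⟩, rfl⟩ := e
        right
        rw [Zg180.uc_ge (by have := hz.hy2; omega)] at hcol
        exact ⟨rfl, hcol.1, hcol.2⟩
    have h4 : cb B b m1 m2 e (some (Sum.inr (i, y), d)) =
        if isLS b (some (Sum.inr (i, y), d) : Port TG) then clow B b m1 m2 e else 0 := by
      unfold cp at hcp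
      omega
    rw [h4]
    by_cases h5 : inLS B k t
    · rw [if_pos h5, if_pos (hls.2 h5)]
    · rw [if_neg h5, if_neg fun h => h5 (hls.1 h)]

open Classical in
/-- **the pointwise identity for one member, on closed near gates** -/
theorem gate_zE (H : TabH A B.xl B.xr B.y1 B.y2 k p y0 (psD B)) (hR : 2 * k < B.R)
    (hkb : k ≤ b) (hbR : b + k ≤ B.R) (hw : GW (DB B k) (beD (DB B k) p y0 (B.xr + k)) w)
    (hm1 : ∃ t d, m1 = some (Sum.inl t, d)) (hm2 : ∃ t d, m2 = some (Sum.inl t, d))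
    (he : EndOk a0 b1 e) {a1 b0 : ℤ} (h0 : 0 ≤ a0) (ha : a0 < a1) (hab : a1 < b0) (hb : b0 < b1)
    (hb1 : b1 + 1 < B.R) (ha1 : a1 ≤ k - 2) (hb0 : B.R - 1 - k ≤ b0) (hbb : b ≤ b1 + 1)
    (hz : B.At p y0) (ca : (gate hz h0 ha (by omega : a1 + 1 < B.R)).Closed s)
    (cb : (gate hz (by omega : 0 ≤ b0) hb hb1).Closed s) :
    zE B p y0 b m1 m2 e s = ei (Real.pi / 12) *
        star (hL (s ∘ eD B y0 k) w fun x => (C0 B p y0 k b m1 m2 e x : ℝ)) *
      if OverR B y0 (a0 + 1) (b1 + 1) (b - 1) s then 0 else 1 := by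
  have hP := Qd300.phs_phi H hR hkb hbR hw m1 m2 e
  have hG := Qd300.lg_ND H hw (ctw B b m1 m2 e) (ctw B b m1 m2 e + Bd932.e3) (phi B b m1 m2 e)
    (psT (psD B) A B.xr) (ctw B b m1 m2 e)
  have key := gate_point (s := s) (c := ctw B b m1 m2 e) (c' := ctw B b m1 m2 e + Bd932.e3)
    (φ := phi B b m1 m2 e) H.hf hR hz Qd300.ndBe
    (Qd300.ndCh (ctw B b m1 m2 e) (ctw B b m1 m2 e + Bd932.e3) (phi B b m1 m2 e)
      (psT (psD B) A B.xr)) h0 ha hab hb hb1 ha1 hb0 ca cb
    (phS_phi hz hm1 hm2 he (by omega) hbb)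
    (hB_of (cR := 0) (cL := (clow B b m1 m2 e : ℝ)) H.hf hz Qd300.ndBe hP
      (Qd300.embW hw.word hz) hG (Qd300.ports_ep hw) fun t d hx ht hd => by
        have h1 := C0_deep H hR hkb hbR hw hm1 hm2 he (by omega) hbb hx ht hd
        have h2 := hd.stub H.hf ht
        have h3 := H.hf.le
        constructor
        · intro h4
          show ((C0 B p y0 k b m1 m2 e (some (t, d)) : ℤ) : ℝ) = 0
          rw [h1, if_neg, Int.cast_zero]
          unfold inLS
          omega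
        · intro h4
          show ((C0 B p y0 k b m1 m2 e (some (t, d)) : ℤ) : ℝ) = _
          rw [h1, if_pos]
          unfold inLS
          omega)
  have h5 := Qd300.zvn_phi H hR hkb hbR hw m1 m2 e s
  unfold zE
  rw [key]
  congr 1

/-- **a strand over the far charge kills every member** -/
theorem zE_over (hz : B.At p y0) (hm1 : ∃ t d, m1 = some (Sum.inl t, d))
    (hm2 : ∃ t d, m2 = some (Sum.inl t, d)) (he : EndOk a0 b1 e) (h0 : 0 ≤ a0) (hb1 : b1 + 1 < B.R)
    (hab : a0 < b - 1) (hbb : b ≤ b1 + 1) (h : OverR B y0 (a0 + 1) (b1 + 1) (b - 1) s) :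
    zE B p y0 b m1 m2 e s = 0 := by
  obtain ⟨C, hC, hC0, hS⟩ := over_class (c := ctw B b m1 m2 e)
    (c' := ctw B b m1 m2 e + Bd932.e3) hz h0 hb1 (phS_phi hz hm1 hm2 he hab hbb) h
  unfold zE Net.zvn
  refine mul_eq_zero_of_right _ (Finset.prod_eq_zero (i := C) ?_ hC0)
  refine Finset.mem_erase.2 ⟨?_, hC⟩
  intro e'
  have : legP p y0 ∈ C := by rw [e']; exact Net.self_mem_cls (legP_mem hz)
  obtain ⟨q, -, hq⟩ := hS _ this
  exact pS_leg hq.symm

/-- **no strand over the far charge in the ball** -/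
theorem zE_ball (hz : B.At p y0) (hm1 : ∃ t d, m1 = some (Sum.inl t, d))
    (hm2 : ∃ t d, m2 = some (Sum.inl t, d)) (he : EndOk a0 b1 e) (h0 : 0 ≤ a0) (hb1 : b1 + 1 < B.R)
    {h : ℕ} (hh : B.y2 = B.y1 + h) (h3 : 3 ≤ h) (hbl : a0 + h + 2 ≤ b) (hbr : b + h ≤ b1 + 2)
    (ho : Zc180.Over B p y0 b (Zc180.ballS B y0 b h) s) : zE B p y0 b m1 m2 e s = 0 := by
  have hn := Zc180.nr_le h
  have hn' := Zc180.nr_pos h3
  refine zE_over hz hm1 hm2 he h0 hb1 (by omega) (by omega) ?_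
  rw [overR_iff hz (by omega) (by omega)]
  obtain ⟨i, j, l, hi, hj, w, hl⟩ := ho
  refine ⟨i, j, l, hi, hj, w, fun r hr => ?_⟩
  obtain ⟨⟨u, v⟩, hw, e⟩ := hl r hr
  refine ⟨(u, v), ?_, e⟩
  unfold Gc748.InR at hw
  simp only at hw
  rw [mem_rct]
  omega

/-! ### the integrand of the ring function -/

section val

variable {J : Finset (Port TG)}

lemma endOk_insert (hJ : ∀ q ∈ J, EndOk a0 b1 (some q)) (e : Option (Port TG))
    (he : e ∈ Finset.insertNone J) : EndOk a0 b1 e := by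
  rcases e with _ | q
  · trivial
  · exact hJ q (Finset.some_mem_insertNone.1 he)

/-- the observable of `Dp` of the family -/
def valD (B : Band A) (p y0 k b : ℤ) (m1 m2 : Port TG) (J : Finset (Port TG)) (w : Wd (ℤ × ℤ))
    (s' : ℤ × ℤ → Bool) : ℂ :=
  ∑ e ∈ Finset.insertNone J, Fm857.kap B b m1 m2 e *
    hL s' w fun x => (C0 B p y0 k b m1 m2 e x : ℝ)

open Classical in
/-- **the pointwise identity** -/
theorem valG_gate (H : TabH A B.xl B.xr B.y1 B.y2 k p y0 (psD B)) (hR : 2 * k < B.R)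
    (hkb : k ≤ b) (hbR : b + k ≤ B.R) (hw : GW (DB B k) (beD (DB B k) p y0 (B.xr + k)) w)
    (hm1 : ∃ t d, m1 = some (Sum.inl t, d)) (hm2 : ∃ t d, m2 = some (Sum.inl t, d))
    (hJ : ∀ q ∈ J, EndOk a0 b1 (some q)) {a1 b0 : ℤ} (h0 : 0 ≤ a0) (ha : a0 < a1)
    (hab : a1 < b0) (hb : b0 < b1)
    (hb1 : b1 + 1 < B.R) (ha1 : a1 ≤ k - 2) (hb0 : B.R - 1 - k ≤ b0) (hbb : b ≤ b1 + 1)
    (hz : B.At p y0) (ca : (gate hz h0 ha (by omega : a1 + 1 < B.R)).Closed s)
    (cb : (gate hz (by omega : 0 ≤ b0) hb hb1).Closed s) :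
    valG B p y0 b m1 m2 J s = star (ei (Real.pi / 12)) *
      valD B p y0 k b m1 m2 J w (s ∘ eD B y0 k) *
      if OverR B y0 (a0 + 1) (b1 + 1) (b - 1) s then 0 else 1 := by
  unfold valG valD
  rw [Finset.mul_sum, Finset.sum_mul]
  refine Finset.sum_congr rfl fun e he => ?_
  rw [gate_zE H hR hkb hbR hw hm1 hm2 (endOk_insert hJ e he) h0 ha hab hb hb1 ha1 hb0 hbb hz ca cb]
  rw [star_mul', star_mul', star_star]
  split_ifs
  · simp
  · simp only [star_one, mul_one]
    ring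

theorem valG_ball (hz : B.At p y0) (hm1 : ∃ t d, m1 = some (Sum.inl t, d))
    (hm2 : ∃ t d, m2 = some (Sum.inl t, d)) (hJ : ∀ q ∈ J, EndOk a0 b1 (some q))
    (h0 : 0 ≤ a0) (hb1 : b1 + 1 < B.R)
    {h : ℕ} (hh : B.y2 = B.y1 + h) (h3 : 3 ≤ h) (hbl : a0 + h + 2 ≤ b) (hbr : b + h ≤ b1 + 2)
    (ho : Zc180.Over B p y0 b (Zc180.ballS B y0 b h) s) : valG B p y0 b m1 m2 J s = 0 := by
  unfold valG
  refine Finset.sum_eq_zero fun e he => ?_
  rw [zE_ball hz hm1 hm2 (endOk_insert hJ e he) h0 hb1 hh h3 hbl hbr ho, star_zero, mul_zero]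

end val

end Crest.Agent.R158.Ad350
end
end

-- ▼ part R158/Oc5_194

/-!
# R158, order of the ends, part 5 (helper194): the observable of `Dp` as 857's family

* **`cK_C0`** : `cK (KD B) m1 m2 e x = C0 .. (pm m1) (pm m2) (e.map pm) x` at every end `x` of the word
* **`kK_kch`** : `kK (KD B) m1 m2 e = kch B b (pm m1) (pm m2) (e.map pm)`
* **`inI_iff`** : `idL m1 x ∈ Ico i2 i3 ↔ inI B b (pm m2) (pm m3) (pm x)`
* **`Jd_pre`** : the ends of the family are images of natural ends of the word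
* **`VJ_C0`** : the observable with the ends outside `J` dropped =
  `Σ e ∈ insertNone J, kap e * hL s w (C0 e)`
-/

set_option autoImplicit false
set_option linter.unusedVariables false
set_option linter.unusedSectionVars false
set_option linter.unusedSimpArgs false

noncomputable section

namespace Crest.Agent.R158.Oc194

open Finset
open Crest.Agent.R158.Sw300
open Crest.Agent.R158.Al194
open Crest.Agent.R158.Pt266
open Crest.Agent.R158.Vt300 (v2)
open Crest.Agent.R158.Xr249 (Dp mem_Dp Free full pm pm_some pm_none eD eD_A eD_r eD_l wd_cases pm_inj)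
open Crest.Agent.R158.Qc405 (sgD TabH GD none_notin_L isLeg_of_bas GD_of GD_not pD pD')
open Crest.Agent.R158.Ob664 (GW)
open Crest.Agent.R158.Env664 (beD nbD TG Band Run PortOf portOf_some portOf_none)
open Crest.Agent.R158.Fm857 (rD isLow pG blkG innG freeG freeD flr cil mem_freeG mem_flr mem_cil mouth
  cb clow cp kch kap ge1 gt1 low1 cyc3 inI far Jd mem_Jd)
open Crest.Agent.R158.Ad350 (ports mem_ports mem_ports')
open Crest.Agent.R158.Ao857 (tpm inlE)
open Crest.Agent.R158.Qd300 (Art art_iff DB beC beC_ne C0 inLS)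
open Crest.Agent.R158.Qe249 (VJ)

section generic

variable {T Q β : Type*} [DecidableEq T] [DecidableEq Q] [LinearOrder β] {w : Wd T} {s : T → Bool}
  {K : Port T → β} {b0 : Port T}

/-- **re-indexing of the observable by a family of ends** -/
theorem Ord.VJ_sum (O : Ord w K b0) {m1 m2 m3 : Port T} (hM : Mk w m1 m2 m3) (em : Port T → Q)
    (J : Finset Q) (hinj : ∀ x ∈ L w, ∀ y ∈ L w, em x = em y → x = y)
    (hJ : ∀ q ∈ J, ∃ x ∈ L w, em x = q ∧
      idL (L w) m1 x ∈ Ico (idL (L w) m1 m2) (idL (L w) m1 m3))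
    (kap : Option Q → ℂ) (CC : Option Q → Port T → ℝ)
    (hk : ∀ x ∈ L w, em x ∈ J → kap (some (em x)) = 1 / 2 * v2 ^ kK K m1 m2 (some x))
    (hk0 : kap none = 1 / 2 * v2 ^ kK K m1 m2 none)
    (hC : ∀ x ∈ L w, em x ∈ J → ∀ y ∈ L w, CC (some (em x)) y = (cK K m1 m2 (some x) y : ℝ))
    (hC0 : ∀ y ∈ L w, CC none y = (cK K m1 m2 none y : ℝ)) :
    VJ w m1 m2 m3 (fun x => em x ∉ J) s = ∑ e ∈ Finset.insertNone J, kap e * hL s w (CC e) := by
  classical
  have hlt := hM.lt O.ok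
  have hM' := hM
  obtain ⟨h1, h2, h3, -⟩ := hM
  have l3 : (rotl (L w) m1).idxOf m3 < (L w).length := idL_lt (m1 := m1) h3
  have e0 : hL s w (CC none) = hL s w (fun x => (cK K m1 m2 none x : ℝ)) := by
    have := hL_const (s := s) O.ok 0 (c := fun x => (cK K m1 m2 none x : ℝ)) (c' := CC none)
      (fun x hx => by rw [hC0 x hx, zero_add])
    rw [this]
    have : er 0 = 1 := by
      have := er_int 0
      rw [Int.cast_zero, zpow_zero] at this
      exact this
    rw [this, one_mul]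
  have e1 : ∀ x ∈ L w, em x ∈ J → hL s w (CC (some (em x))) =
      hL s w (fun y => (cK K m1 m2 (some x) y : ℝ)) := by
    intro x hx hxJ
    have := hL_const (s := s) O.ok 0 (c := fun y => (cK K m1 m2 (some x) y : ℝ))
      (c' := CC (some (em x))) (fun y hy => by rw [hC x hx hxJ y hy, zero_add])
    rw [this]
    have : er 0 = 1 := by
      have := er_int 0
      rw [Int.cast_zero, zpow_zero] at this
      exact this
    rw [this, one_mul]
  rw [Finset.sum_insertNone, hk0, e0]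
  unfold VJ
  rw [O.hL_cS h1 h2, Finset.sum_div, add_comm]
  congr 1
  · ring
  · have hsum : ∀ q ∈ J, ∃ x ∈ L w, em x = q ∧
      idL (L w) m1 x ∈ Ico (idL (L w) m1 m2) (idL (L w) m1 m3) := hJ
    refine Finset.sum_bij' (i := fun j _ => em (enL (L w) m1 j))
      (j := fun q hq => idL (L w) m1 (hsum q hq).choose) ?_ ?_ ?_ ?_ ?_
    · intro j hj
      simp only [Finset.mem_filter, not_not] at hj
      exact hj.2
    · intro q hq
      obtain ⟨g1, g2, g3⟩ := (hsum q hq).choose_spec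
      simp only [Finset.mem_filter, not_not]
      refine ⟨g3, ?_⟩
      rw [enL_idL g1, g2]
      exact hq
    · intro j hj
      simp only [Finset.mem_filter, not_not] at hj
      obtain ⟨g1, g2, g3⟩ := (hsum _ hj.2).choose_spec
      have hjl : j < (L w).length := by
        have := (Finset.mem_Ico.1 hj.1).2
        omega
      have : (hsum _ hj.2).choose = enL (L w) m1 j := hinj _ g1 _ (enL_mem hjl) g2
      rw [this, idL_enL O.ok hjl]
    · intro q hq
      obtain ⟨g1, g2, g3⟩ := (hsum q hq).choose_spec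
      show em (enL (L w) m1 (idL (L w) m1 (hsum q hq).choose)) = q
      rw [enL_idL g1, g2]
    · intro j hj
      simp only [Finset.mem_filter, not_not] at hj
      have hjl : j < (L w).length := by
        have := (Finset.mem_Ico.1 hj.1).2
        omega
      have hx := enL_mem (w := w) (m1 := m1) hjl
      have hc := O.hL_cM (s := s) (e := enL (L w) m1 j) h1 h2 hx
      rw [idL_enL O.ok hjl] at hc
      rw [hc, hk _ hx hj.2, e1 _ hx hj.2]
      ring

end generic

variable {A : Finset (ℤ × ℤ)} {B : Band A} {k p y0 b : ℤ} {ψ : (ℤ × ℤ) × ZMod 4 → ℤ}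

section

variable (H : TabH A B.xl B.xr B.y1 B.y2 k p y0 ψ)

include H

/-- blocks of the natural ends -/
lemma nat_blk (hR : 2 * k < B.R) {m : Port (ℤ × ℤ)} (hm : NatD B m ∨ NatS B k m) :
    blkD B m ≤ 5 ∧ (blkD B m = 5 → innD B m < B.R + 2) ∧ (blkD B m = 2 → innD B m ≤ 0) := by
  have hk := H.hk
  have h1 := H.hy1
  have h2 := H.hy2
  have hle := H.hf.le
  rcases hm with hx | ⟨u, hu, rfl⟩ | ⟨u, hu, rfl⟩ | ⟨u, hu, rfl⟩ | ⟨u, hu, rfl⟩
  · obtain ⟨⟨x, y⟩, d, rfl, ht⟩ := natD_some hx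
    obtain ⟨e1, e2⟩ := K_A (B := B) (d := d) ht
    rw [e1]
    split_ifs <;> refine ⟨by omega, by omega, by omega⟩
  · obtain ⟨e1, e2⟩ := K_rS (B := B) (H.nr (x := u) (y := B.y1) (by omega) (by omega) (by omega)
      (by omega)) hu.1
    rw [e1]; refine ⟨by omega, by omega, by omega⟩
  · obtain ⟨e1, e2⟩ := K_rN (B := B) (H.nr (x := u) (y := B.y2 - 1) (by omega) (by omega) (by omega)
      (by omega)) hu.1
    rw [e1, e2]; refine ⟨by omega, fun _ => by omega, by omega⟩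
  · obtain ⟨e1, e2⟩ := K_lS (B := B) (H.nl (x := u) (y := B.y1) (by omega) (by omega) (by omega)
      (by omega)) (by omega)
    rw [e1, e2]; refine ⟨by omega, by omega, fun _ => by omega⟩
  · obtain ⟨e1, e2⟩ := K_lN (B := B) (H.nl (x := u) (y := B.y2 - 1) (by omega) (by omega) (by omega)
      (by omega)) (by omega)
    rw [e1]; refine ⟨by omega, by omega, by omega⟩

/-- the natural ends come before the right cut -/
lemma nat_lt_R (hR : 2 * k < B.R) {m x : Port (ℤ × ℤ)} (hm : NatD B m ∨ NatS B k m)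
    (hx : CutR B k y0 x) : KD B m < KD B x := by
  have hk := H.hk
  have h1 := H.hy1
  have h2 := H.hy2
  obtain ⟨g1, g2, g3⟩ := nat_blk H hR hm
  rw [KD_lt]
  rcases hx with ⟨v, hv, rfl⟩ | rfl
  · obtain ⟨e1, e2⟩ := K_rE (B := B) (H.nr (x := B.xr + k) (y := v) (by omega) (by omega) (by omega)
      (by omega)) (by omega)
    rw [e1, e2]
    omega
  · obtain ⟨e1, e2⟩ := K_rM (B := B) (H.nr (x := B.xr + k) (y := y0 - 1) (by omega) (by omega)
      (by omega) (by omega)) (by omega) (by omega)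
    rw [e1, e2]
    omega

/-- the natural ends before the left cut are those of the blocks `≤ 2` -/
lemma nat_lt_L (hR : 2 * k < B.R) {m x : Port (ℤ × ℤ)} (hm : NatD B m ∨ NatS B k m)
    (hx : CutL B k x) : (KD B m < KD B x ↔ blkD B m ≤ 2) ∧ (KD B m ≤ KD B x ↔ blkD B m ≤ 2) := by
  have hk := H.hk
  have h1 := H.hy1
  have h2 := H.hy2
  have hle := H.hf.le
  obtain ⟨g1, g2, g3⟩ := nat_blk H hR hm
  obtain ⟨v, hv, rfl⟩ := hx
  obtain ⟨e1, e2⟩ := K_lW (B := B) (H.nl (x := B.xl - k) (y := v) (by omega) (by omega) (by omega)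
    (by omega)) (by omega)
  have key : KD B m < KD B (some ((B.xl - k, v), 0)) ↔ blkD B m ≤ 2 := by
    rw [KD_lt, e1, e2]
    omega
  refine ⟨key, ?_⟩
  rw [← key]
  refine ⟨fun h => ?_, le_of_lt⟩
  rcases lt_or_eq_of_le h with h | h
  · exact h
  · exfalso
    have h' : blkD B m = blkD B (some ((B.xl - k, v), 0)) ∧
        innD B m = innD B (some ((B.xl - k, v), 0)) := by
      unfold KD at h
      have := toLex.injective h
      exact ⟨congrArg Prod.fst this, congrArg Prod.snd this⟩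
    rw [e1, e2] at h'
    have := g3 h'.1
    omega

lemma blk_nat (hR : 2 * k < B.R) (hb : k ≤ b) (hb' : b + k ≤ B.R) {m : Port (ℤ × ℤ)}
    (hm : NatD B m ∨ NatS B k m) : blkG B b (pm (eD B y0 k) m) = blkD B m := by
  have := KD_nat H hR hb (by omega) hm
  unfold KD Fm857.pG at this
  exact (congrArg Prod.fst (toLex.injective this)).symm

variable {w : Wd (ℤ × ℤ)}
  (hw : GW (Dp A B.xl B.xr B.y1 B.y2 k) (beD (Dp A B.xl B.xr B.y1 B.y2 k) p y0 (B.xr + k)) w)

include hw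

/-- ends of the word at tiles of `D` are natural -/
lemma natD_of_mem {m : Port (ℤ × ℤ)} (hm : m ∈ L w) {t : ℤ × ℤ} {d : ZMod 4} (e : m = some (t, d))
    (ht : t ∈ A) : NatD B m := by
  subst e
  obtain ⟨x, y⟩ := t
  exact freeD_of H ht ((Qc405.GW.memL hw).1 hm).2

/-- **the charges in 857's gauge** -/
theorem cK_C0 (hR : 2 * k < B.R) (hz : B.At p y0) (hb : k ≤ b) (hb' : b + k ≤ B.R)
    {m1 m2 : Port (ℤ × ℤ)} (h1 : NatD B m1 ∨ NatS B k m1) (h2 : NatD B m2 ∨ NatS B k m2)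
    {e : Option (Port (ℤ × ℤ))} (he : ∀ e' ∈ e, NatD B e' ∨ NatS B k e') {x : Port (ℤ × ℤ)}
    (hx : x ∈ L w) : cK (KD B) m1 m2 e x =
      C0 B p y0 k b (pm (eD B y0 k) m1) (pm (eD B y0 k) m2) (e.map (pm (eD B y0 k))) x := by
  obtain ⟨hxp, hxl, hxc⟩ := mem_Dp_of H hw hx
  have n1 := KD_nat H hR hb (by omega) h1
  have n2 := KD_nat H hR hb (by omega) h2
  have f1 := blk_nat H hR hb hb' h1
  have f2 := blk_nat H hR hb hb' h2
  rcases x with _ | ⟨t, d⟩
  · exact absurd hxp Ad350.none_ports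
  rcases fc_of H hw hx with hN | hN | hN | hN
  all_goals simp only [C0]
  · rw [if_neg (not_art H hR hz (Or.inl hN) hxp)]
    have nx := KD_nat H hR hb (by omega) (Or.inl hN)
    unfold cK cb ge1
    rw [n1, n2, nx]
    rcases e with _ | e
    · rfl
    · have ne := KD_nat H hR hb (by omega) (he e rfl)
      simp only [Option.map_some]
      rw [ne]
      rfl
  · rw [if_neg (not_art H hR hz (Or.inr hN) hxp)]
    have nx := KD_nat H hR hb (by omega) (Or.inr hN)
    unfold cK cb ge1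
    rw [n1, n2, nx]
    rcases e with _ | e
    · rfl
    · have ne := KD_nat H hR hb (by omega) (he e rfl)
      simp only [Option.map_some]
      rw [ne]
      rfl
  · rw [if_pos (art_cut H hR hz hw (Or.inl hN) hx)]
    have hls : ¬ inLS B k t := by
      have hle := H.hf.le
      have hk := H.hk
      rcases hN with ⟨v, hv, e1⟩ | e1
      · simp only [Option.some.injEq, Prod.mk.injEq] at e1
        rw [e1.1]; unfold inLS; simp only; omega
      · simp only [Option.some.injEq, Prod.mk.injEq] at e1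
        rw [e1.1]; unfold inLS; simp only; omega
    rw [if_neg hls]
    unfold cK
    have a1 := nat_lt_R H hR h1 hN
    have a2 := nat_lt_R H hR h2 hN
    rw [if_pos a1.le, if_pos a2.le]
    rcases e with _ | e
    · norm_num
    · have a3 := nat_lt_R H hR (he e rfl) hN
      simp only
      rw [if_pos a3.le, if_pos a3]
      norm_num
  · rw [if_pos (art_cut H hR hz hw (Or.inr hN) hx)]
    have hls : inLS B k t := by
      have hle := H.hf.le
      have hk := H.hk
      obtain ⟨v, hv, e1⟩ := hN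
      simp only [Option.some.injEq, Prod.mk.injEq] at e1
      rw [e1.1]; unfold inLS; simp only; omega
    rw [if_pos hls]
    obtain ⟨-, a1⟩ := nat_lt_L H hR h1 hN
    obtain ⟨-, a2⟩ := nat_lt_L H hR h2 hN
    unfold cK clow low1
    rw [f1, f2, if_congr a1 rfl rfl, if_congr a2 rfl rfl]
    rcases e with _ | e
    · rfl
    · obtain ⟨a3, a4⟩ := nat_lt_L H hR (he e rfl) hN
      have f3 := blk_nat H hR hb hb' (he e rfl)
      simp only [Option.map_some]
      rw [f3, if_congr a3 rfl rfl, if_congr a4 rfl rfl]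
      ring

omit hw in
/-- **the constants** -/
theorem kK_kch (hR : 2 * k < B.R) (hb : k ≤ b) (hb' : b + k ≤ B.R)
    {m1 m2 : Port (ℤ × ℤ)} (h1 : NatD B m1 ∨ NatS B k m1) (h2 : NatD B m2 ∨ NatS B k m2)
    {e : Option (Port (ℤ × ℤ))} (he : ∀ e' ∈ e, NatD B e' ∨ NatS B k e') :
    kK (KD B) m1 m2 e =
      kch B b (pm (eD B y0 k) m1) (pm (eD B y0 k) m2) (e.map (pm (eD B y0 k))) := by
  have n1 := KD_nat H hR hb (by omega) h1
  have n2 := KD_nat H hR hb (by omega) h2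
  unfold kK kch ge1
  rw [n1, n2]
  rcases e with _ | e
  · rfl
  · have ne := KD_nat H hR hb (by omega) (he e rfl)
    simp only [Option.map_some]
    rw [ne]

/-- ends of the word are distinguished by their images -/
lemma pm_injL (hR : 2 * k < B.R) {x y : Port (ℤ × ℤ)} (hx : x ∈ L w) (hy : y ∈ L w)
    (e : pm (eD B y0 k) x = pm (eD B y0 k) y) : x = y := by
  obtain ⟨hxp, -, -⟩ := mem_Dp_of H hw hx
  obtain ⟨hyp, -, -⟩ := mem_Dp_of H hw hy
  exact pm_inj H.hf hR (Qd300.portOf_of hxp) (Qd300.portOf_of hyp) e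

/-- **between the marks** -/
theorem inI_iff (hR : 2 * k < B.R) (hb : k ≤ b) (hb' : b + k ≤ B.R) {b0 : Port (ℤ × ℤ)}
    (O : Ord w (KD B) b0) {m1 m2 m3 : Port (ℤ × ℤ)} (hM : Mk w m1 m2 m3)
    (h2 : NatD B m2 ∨ NatS B k m2) (h3 : NatD B m3 ∨ NatS B k m3) {x : Port (ℤ × ℤ)} (hx : x ∈ L w)
    (hN : NatD B x ∨ NatS B k x) :
    idL (L w) m1 x ∈ Ico (idL (L w) m1 m2) (idL (L w) m1 m3) ↔
      inI B b (pm (eD B y0 k) m2) (pm (eD B y0 k) m3) (pm (eD B y0 k) x) := by
  have n2 := KD_nat H hR hb (by omega) h2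
  have n3 := KD_nat H hR hb (by omega) h3
  have nx := KD_nat H hR hb (by omega) hN
  have e1 : pm (eD B y0 k) x = pm (eD B y0 k) m2 ↔ x = m2 :=
    ⟨fun h => pm_injL H hw hR hx hM.2.1 h, fun h => by rw [h]⟩
  have := O.mem_Ico hM hx
  rw [n2, n3, nx] at this
  unfold inI cyc3
  rw [e1]
  exact this

omit hw in
/-- **the ends of the family come from natural ends of the word** -/
theorem Jd_pre (hR : 2 * k < B.R) {Sp : Finset (ℤ × ℤ)} {Δ a0 b0 : ℤ} (ha : a0 + 2 ≤ k)
    (hb0 : B.R - k ≤ b0 + 1) {q : Port TG} (hq : q ∈ freeG B) (hfar : far B Sp Δ a0 b0 q) :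
    ∃ x, (NatD B x ∨ NatS B k x) ∧ pm (eD B y0 k) x = q := by
  have hk := H.hk
  have h1 := H.hy1
  have h2 := H.hy2
  unfold Fm857.freeG at hq
  rw [Finset.mem_union, Finset.mem_union, mem_flr, mem_cil, Finset.mem_image] at hq
  rcases hq with ⟨x, hx, rfl⟩ | ⟨i, h3, h4, rfl⟩ | ⟨i, h3, h4, rfl⟩
  · refine ⟨x, Or.inl hx, ?_⟩
    obtain ⟨t, d, rfl, ht⟩ := natD_some (B := B) hx
    rw [pm_A H.hf ht]; rfl
  · have hfar' : (Δ ≤ i ∧ i ≤ a0) ∨ (b0 < i ∧ i < B.R - Δ) := by
      have h5 : (Δ ≤ (if (3 : ZMod 4) = 3 then i else i - 1) ∧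
        (if (3 : ZMod 4) = 3 then i else i - 1) ≤ a0) ∨
        (b0 < (if (3 : ZMod 4) = 3 then i else i - 1) ∧
        (if (3 : ZMod 4) = 3 then i else i - 1) < B.R - Δ) := hfar
      rwa [if_pos rfl] at h5
    rcases hfar' with h5 | h5
    · have hu : B.xr < B.xr + 1 + i ∧ B.xr + 1 + i ≤ B.xr + k := by omega
      refine ⟨some ((B.xr + 1 + i, B.y1), 3), Or.inr (Or.inl ⟨_, hu, rfl⟩), ?_⟩
      rw [pm_r H hu ⟨le_rfl, by omega⟩, show B.xr + 1 + i - B.xr - 1 = i by ring]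
    · have hu : B.xl - k ≤ B.xl - (B.R - i) ∧ B.xl - (B.R - i) < B.xl := by omega
      refine ⟨some ((B.xl - (B.R - i), B.y1), 3), Or.inr (Or.inr (Or.inr (Or.inl ⟨_, hu, rfl⟩))), ?_⟩
      rw [pm_l H hu ⟨le_rfl, by omega⟩, wd1 H, show B.R - (B.xl - (B.xl - (B.R - i))) = i by ring]
  · have hfar' : (Δ ≤ i - 1 ∧ i - 1 ≤ a0) ∨ (b0 < i - 1 ∧ i - 1 < B.R - Δ) := by
      have h5 : (Δ ≤ (if (1 : ZMod 4) = 3 then i else i - 1) ∧
        (if (1 : ZMod 4) = 3 then i else i - 1) ≤ a0) ∨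
        (b0 < (if (1 : ZMod 4) = 3 then i else i - 1) ∧
        (if (1 : ZMod 4) = 3 then i else i - 1) < B.R - Δ) := hfar
      rwa [if_neg z13] at h5
    rcases hfar' with h5 | h5
    · have hu : B.xr < B.xr + 1 + i ∧ B.xr + 1 + i ≤ B.xr + k := by omega
      refine ⟨some ((B.xr + 1 + i, B.y2 - 1), 1), Or.inr (Or.inr (Or.inl ⟨_, hu, rfl⟩)), ?_⟩
      rw [pm_r H hu ⟨by omega, by omega⟩, show B.xr + 1 + i - B.xr - 1 = i by ring]
    · have hu : B.xl - k ≤ B.xl - (B.R + 1 - i) ∧ B.xl - (B.R + 1 - i) < B.xl := by omega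
      refine ⟨some ((B.xl - (B.R + 1 - i), B.y2 - 1), 1),
        Or.inr (Or.inr (Or.inr (Or.inr ⟨_, hu, rfl⟩))), ?_⟩
      rw [pm_l H hu ⟨by omega, by omega⟩, wd2 H,
        show B.R + 1 - (B.xl - (B.xl - (B.R + 1 - i))) = i by ring]

/-- **the observable of `Dp` with the ends outside `J` dropped, as 857's family**, any `J` -/
theorem VJ_C0 (hR : 2 * k < B.R) (hz : B.At p y0) (hb : k ≤ b) (hb' : b + k ≤ B.R)
    {b0 : Port (ℤ × ℤ)} (O : Ord w (KD B) b0) {m1 m2 m3 : Port (ℤ × ℤ)} (hM : Mk w m1 m2 m3)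
    (hA : ∀ m, m = m1 ∨ m = m2 ∨ m = m3 → ∃ t d, m = some (t, d) ∧ t ∈ A)
    (J : Finset (Port TG))
    (hJ : ∀ q ∈ J, inI B b (pm (eD B y0 k) m2) (pm (eD B y0 k) m3) q ∧
      ∃ x, (NatD B x ∨ NatS B k x) ∧ pm (eD B y0 k) x = q) (s : ℤ × ℤ → Bool) :
    VJ w m1 m2 m3 (fun x => pm (eD B y0 k) x ∉ J) s =
      ∑ e ∈ Finset.insertNone J, kap B b (pm (eD B y0 k) m1) (pm (eD B y0 k) m2) e *
        hL s w (fun x => (C0 B p y0 k b (pm (eD B y0 k) m1) (pm (eD B y0 k) m2) e x : ℝ)) := by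
  have nat : ∀ m, m = m1 ∨ m = m2 ∨ m = m3 → m ∈ L w → NatD B m ∨ NatS B k m := by
    intro m hm hmL
    obtain ⟨t, d, e, ht⟩ := hA m hm
    exact Or.inl (natD_of_mem H hw hmL e ht)
  have n1 := nat m1 (Or.inl rfl) hM.1
  have n2 := nat m2 (Or.inr (Or.inl rfl)) hM.2.1
  have n3 := nat m3 (Or.inr (Or.inr rfl)) hM.2.2.1
  have hmem : ∀ x, (NatD B x ∨ NatS B k x) → x ∈ L w := by
    rintro x (hx | hx)
    · exact mem_of_natD H hw hx
    · exact mem_of_natS H hw hx
  have hnat : ∀ x ∈ L w, pm (eD B y0 k) x ∈ J → NatD B x ∨ NatS B k x := by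
    intro x hx hxJ
    obtain ⟨-, x', hx', e⟩ := hJ _ hxJ
    rwa [← pm_injL H hw hR (hmem x' hx') hx e]
  refine O.VJ_sum hM (pm (eD B y0 k)) J (fun x hx y hy e => pm_injL H hw hR hx hy e) ?_
    (kap B b (pm (eD B y0 k) m1) (pm (eD B y0 k) m2))
    (fun e x => (C0 B p y0 k b (pm (eD B y0 k) m1) (pm (eD B y0 k) m2) e x : ℝ)) ?_ ?_ ?_ ?_
  · intro q hq
    obtain ⟨h4, x, h5, rfl⟩ := hJ q hq
    exact ⟨x, hmem x h5, rfl, (inI_iff H hw hR hb hb' O hM n2 n3 (hmem x h5) h5).2 h4⟩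
  · intro x hx hxJ
    unfold kap
    rw [kK_kch H hR hb hb' n1 n2 (e := some x) (fun e' h' => by
      obtain rfl := Option.some.inj h'; exact hnat _ hx hxJ)]
    rfl
  · unfold kap
    rw [kK_kch H hR hb hb' n1 n2 (e := none) (fun e' h' => by simp at h')]
    rfl
  · intro x hx hxJ y hy
    have := cK_C0 H hw hR hz hb hb' n1 n2 (e := some x) (fun e' h' => by
      obtain rfl := Option.some.inj h'; exact hnat _ hx hxJ) hy
    rw [this]
    rfl
  · intro y hy
    have := cK_C0 H hw hR hz hb hb' n1 n2 (e := none) (fun e' h' => by simp at h') hy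
    rw [this]
    rfl

end

end Crest.Agent.R158.Oc194
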