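import Crest.Agent.R158.Pt2_266
import Crest.Agent.R158.Xr6_249

/-!
# R158, patches (helper266), file Pt3: boundary turning of a word, flatness of lattice words

* `NxT G p q k` : `q` is the next free port after `p` (clockwise around the gap), the boundary
  direction changes by `k` quarter turns (`1` convex corner, `0` flat, `-1` reflex corner)
* `CC G l` : the list `l` of lifted ports is a clockwise cyclic chain with total turning `4`
* `LAdj` : adjacency of the sides of the tiles of `ℤ × ℤ`
* **`cc_word`** : for an admissible word without leg whose glued pairs are adjacent in the lattice,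
  all seam values vanish (`Flat w`) and `phi` is the turning of the boundary
-/

set_option autoImplicit false
set_option linter.unusedVariables false
set_option linter.unusedSectionVars false
set_option linter.unusedSimpArgs false

namespace Crest.Agent.R158.Pt266

open Crest.Agent.R158.Sw300
open Crest.Agent.R158.Gc748 (gl bs ts gd_wd pt)
open Crest.Agent.R158.Xr249 (rot rot_some rot_none Nx)

section

variable {T : Type*}

/-- next free port, with the turning of the boundary -/
inductive NxT (G : Port T → Port T → Prop) : Port T → Port T → ℤ → Prop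
  | stop {p : Port T} : (∀ q, ¬ G (rot p) q) → NxT G p (rot p) 1
  | go {p q r : Port T} {k : ℤ} : G (rot p) q → NxT G q r k → NxT G p r (k - 1)

lemma NxT.nx {G : Port T → Port T → Prop} {p r : Port T} {k : ℤ} (h : NxT G p r k) : Nx G p r := by
  induction h with
  | stop h => exact .stop h
  | go h _ ih => exact .go h ih


lemma NxT.det {G : Port T → Port T → Prop} (hG : ∀ a b c, G a b → G a c → b = c)
    {p r r' : Port T} {k k' : ℤ} (h : NxT G p r k) (h' : NxT G p r' k') : r = r' ∧ k = k' := by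
  induction h generalizing r' k' with
  | stop h =>
    cases h' with
    | stop _ => exact ⟨rfl, rfl⟩
    | go h1 _ => exact absurd h1 (h _)
  | go h1 h2 ih =>
    cases h' with
    | stop h3 => exact absurd h1 (h3 _)
    | go h3 h4 =>
      rw [hG _ _ _ h1 h3] at ih
      obtain ⟨e1, e2⟩ := ih h4
      exact ⟨e1, by rw [e2]⟩

lemma NxT.cast {G : Port T → Port T → Prop} {p r : Port T} {k k' : ℤ} (h : NxT G p r k)
    (e : k = k') : NxT G p r k' := e ▸ h

/-- `G'` is `G` with one more glued pair -/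
def AddP (G : Port T → Port T → Prop) (p q : Port T) (G' : Port T → Port T → Prop) : Prop :=
  ∀ a b, G' a b ↔ G a b ∨ (a = p ∧ b = q) ∨ (a = q ∧ b = p)

lemma AddP.symm {G G' : Port T → Port T → Prop} {p q : Port T} (h : AddP G p q G') :
    AddP G q p G' := by
  intro a b
  rw [h a b]
  exact ⟨fun h => h.elim Or.inl fun h => Or.inr h.symm,
    fun h => h.elim Or.inl fun h => Or.inr h.symm⟩

lemma NxT.add {G G' : Port T → Port T → Prop} {p0 q0 u w : Port T} {k : ℤ}
    (hA : AddP G p0 q0 G') (h : NxT G u w k) (h1 : w ≠ p0) (h2 : w ≠ q0) : NxT G' u w k := by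
  induction h with
  | stop h =>
    refine .stop fun q hq => ?_
    rcases (hA _ _).1 hq with hq | ⟨hq, _⟩ | ⟨hq, _⟩
    · exact h _ hq
    · exact h1 hq
    · exact h2 hq
  | go h3 _ ih => exact .go ((hA _ _).2 (Or.inl h3)) (ih h1 h2)

lemma NxT.add_left {G G' : Port T → Port T → Prop} {p0 q0 u w : Port T} {k k' : ℤ}
    (hA : AddP G p0 q0 G') (h : NxT G u p0 k) (h1 : NxT G' q0 w k') :
    NxT G' u w (k + k' - 2) := by
  generalize hx : p0 = x at h
  induction h with
  | stop h =>
    subst hx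
    exact (NxT.go ((hA _ _).2 (Or.inr (Or.inl ⟨rfl, rfl⟩))) h1).cast (by ring)
  | go h3 _ ih => exact (NxT.go ((hA _ _).2 (Or.inl h3)) (ih hx)).cast (by ring)

/-- two lifted ports which follow each other -/
def NN (G : Port T → Port T → Prop) (a b : Port T × ℤ) : Prop := NxT G a.1 b.1 (b.2 - a.2)

/-- shift of the lift -/
def sh (c : ℤ) (a : Port T × ℤ) : Port T × ℤ := (a.1, a.2 + c)

lemma NN.sh {G : Port T → Port T → Prop} {a b : Port T × ℤ} (c : ℤ) :
    NN G (sh c a) (Pt266.sh c b) ↔ NN G a b := by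
  unfold NN Pt266.sh
  simp only
  rw [show b.2 + c - (a.2 + c) = b.2 - a.2 by ring]

/-- clockwise cyclic chain of lifted ports, total turning `4` -/
def CC (G : Port T → Port T → Prop) : List (Port T × ℤ) → Prop
  | [] => True
  | a :: m => List.IsChain (NN G) (a :: (m ++ [sh 4 a]))

lemma CC.sh {G : Port T → Port T → Prop} {l : List (Port T × ℤ)} (c : ℤ) (h : CC G l) :
    CC G (l.map (Pt266.sh c)) := by
  cases l with
  | nil => trivial
  | cons a m =>
    show List.IsChain (NN G) (Pt266.sh c a :: (m.map (Pt266.sh c) ++ [Pt266.sh 4 (Pt266.sh c a)]))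
    have e : Pt266.sh c a :: (m.map (Pt266.sh c) ++ [Pt266.sh 4 (Pt266.sh c a)]) =
        (a :: (m ++ [Pt266.sh 4 a])).map (Pt266.sh c) := by
      simp only [List.map_cons, List.map_append, List.map_nil, List.cons.injEq, true_and]
      congr 2
      simp only [Pt266.sh]
      congr 1
      ring
    rw [e, List.isChain_map]
    refine List.IsChain.imp (fun a b hab => ?_) h
    exact (NN.sh c).2 hab

lemma CC.rot1 {G : Port T → Port T → Prop} {a : Port T × ℤ} {m : List (Port T × ℤ)}
    (h : CC G (a :: m)) : CC G (m ++ [Pt266.sh 4 a]) := by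
  cases m with
  | nil =>
    show List.IsChain (NN G) (Pt266.sh 4 a :: ([] ++ [Pt266.sh 4 (Pt266.sh 4 a)]))
    have h' : List.IsChain (NN G) (a :: ([] ++ [Pt266.sh 4 a])) := h
    simp only [List.nil_append, List.isChain_cons_cons, List.isChain_singleton, and_true] at h' ⊢
    exact (NN.sh 4).2 h'
  | cons b m =>
    have h' : List.IsChain (NN G) (a :: (b :: m ++ [Pt266.sh 4 a])) := h
    show List.IsChain (NN G) (b :: (m ++ [Pt266.sh 4 a] ++ [Pt266.sh 4 b]))
    simp only [List.cons_append, List.isChain_cons_cons] at h'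
    obtain ⟨h1, h2⟩ := h'
    have e : b :: (m ++ [Pt266.sh 4 a] ++ [Pt266.sh 4 b]) =
        (b :: (m ++ [Pt266.sh 4 a])) ++ [Pt266.sh 4 b] := by simp
    rw [e, List.isChain_append]
    refine ⟨h2, by simp, ?_⟩
    intro x hx y hy
    simp only [List.head?_cons, Option.mem_def, Option.some.injEq] at hy
    have hx' : x = Pt266.sh 4 a := by
      have : (b :: (m ++ [Pt266.sh 4 a])).getLast? = some (Pt266.sh 4 a) := by
        rw [← List.cons_append, List.getLast?_append]
        simp
      rw [this] at hx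
      simpa using hx.symm
    rw [hx', ← hy]
    exact (NN.sh 4).2 h1

lemma CC.rotn {G : Port T → Port T → Prop} : ∀ {A B : List (Port T × ℤ)}, CC G (A ++ B) →
    CC G (B ++ A.map (Pt266.sh 4))
  | [], B, h => by simpa using h
  | a :: A, B, h => by
    have h1 : CC G (A ++ (B ++ [Pt266.sh 4 a])) := by
      have := CC.rot1 (a := a) (m := A ++ B) h
      simpa using this
    have h2 := CC.rotn h1
    simpa using h2

/-- change of the relation and of the last element of a chain -/
lemma chain_last' {α : Type*} {R R' : α → α → Prop} {p a : α} : ∀ {l : List α},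
    List.IsChain R (l ++ [p]) → (∀ u ∈ l, ∀ w ∈ l, R u w → R' u w) → (∀ u ∈ l, R u p → R' u a) →
    List.IsChain R' (l ++ [a]) := by
  intro l
  induction l with
  | nil => intro _ _ _; simp
  | cons x l ih =>
    intro h h1 h2
    cases l with
    | nil =>
      simp only [List.cons_append, List.nil_append, List.isChain_cons_cons, List.isChain_singleton,
        and_true] at h ⊢
      exact h2 x (by simp) h
    | cons y m =>
      rw [List.cons_append, List.cons_append, List.isChain_cons_cons] at h ⊢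
      refine ⟨h1 x (by simp) y (by simp) h.1, ?_⟩
      have := ih h.2 (fun u hu w hw => h1 u (by simp [hu]) w (by simp [hw]))
        (fun u hu => h2 u (by simp [hu]))
      simpa using this

/-- attaching a tile at the first port -/
lemma CC.att {G G' : Port T → Port T → Prop} {p : Port T} {i : ℤ} {m : List (Port T × ℤ)} {t : T}
    {d : ZMod 4} (hA : AddP G p (some (t, d)) G') (h : CC G ((p, i) :: m))
    (hm : ∀ a ∈ m, a.1 ≠ p ∧ a.1 ≠ some (t, d))
    (hf : ∀ e, e ≠ d → ∀ q, ¬ G' (some (t, e)) q) :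
    CC G' ((some (t, d + 1), i - 1) :: (some (t, d + 2), i) :: (some (t, d + 3), i + 1) :: m) := by
  obtain ⟨e1, e2, e3, -, -, -, e6, e4, e5⟩ := Xr249.z4 d
  have n1 : NxT G' (some (t, d)) (some (t, d + 1)) 1 := by
    have := NxT.stop (G := G') (p := some (t, d)) (by rw [rot_some]; exact hf _ e1)
    rwa [rot_some] at this
  have n2 : NxT G' (some (t, d + 1)) (some (t, d + 2)) 1 := by
    have := NxT.stop (G := G') (p := some (t, d + 1)) (by rw [rot_some, e4]; exact hf _ e2)
    rwa [rot_some, e4] at this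
  have n3 : NxT G' (some (t, d + 2)) (some (t, d + 3)) 1 := by
    have := NxT.stop (G := G') (p := some (t, d + 2)) (by rw [rot_some, e5]; exact hf _ e3)
    rwa [rot_some, e5] at this
  have g1 : G' (rot (some (t, d + 3))) p := by
    rw [rot_some, e6]
    exact (hA _ _).2 (Or.inr (Or.inr ⟨rfl, rfl⟩))
  have h' : List.IsChain (NN G) ((p, i) :: (m ++ [Pt266.sh 4 (p, i)])) := h
  rw [List.isChain_cons] at h'
  obtain ⟨h1, h2⟩ := h'
  show List.IsChain (NN G') ((some (t, d + 1), i - 1) :: ((some (t, d + 2), i) ::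
    (some (t, d + 3), i + 1) :: m ++ [Pt266.sh 4 (some (t, d + 1), i - 1)]))
  simp only [List.cons_append]
  rw [List.isChain_cons_cons, List.isChain_cons_cons, List.isChain_cons]
  refine ⟨?_, ?_, ?_, ?_⟩
  · exact n2.cast (by simp)
  · exact n3.cast (by simp)
  · intro y hy
    cases m with
    | nil =>
      simp only [List.nil_append, List.head?_cons, Option.mem_def, Option.some.injEq] at hy
      subst hy
      have h3 : NN G (p, i) (Pt266.sh 4 (p, i)) := h1 _ (by simp)
      have h4 : NxT G p p 4 := h3.cast (by simp [Pt266.sh])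
      exact (NxT.go g1 (h4.add_left hA n1)).cast (by simp [Pt266.sh]; ring)
    | cons b m =>
      simp only [List.cons_append, List.head?_cons, Option.mem_def, Option.some.injEq] at hy
      subst hy
      have h3 : NN G (p, i) b := h1 _ (by simp)
      have h4 : NxT G' p b.1 (b.2 - i) := NxT.add hA h3 (hm b (by simp)).1 (hm b (by simp)).2
      exact (NxT.go g1 h4).cast (by simp; ring)
  · refine chain_last' h2 (fun u hu w hw h => NxT.add hA h (hm w hw).1 (hm w hw).2)
      (fun u hu h => ?_)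
    have h3 : NxT G u.1 p (i + 4 - u.2) := h.cast (by simp [Pt266.sh])
    exact (h3.add_left hA n1).cast (by simp [Pt266.sh]; ring)

/-- glueing the first two ports -/
lemma CC.con {G G' : Port T → Port T → Prop} {p q : Port T} {i : ℤ} {m : List (Port T × ℤ)}
    (hA : AddP G p q G') (h : CC G ((p, i) :: (q, i - 2) :: m))
    (hm : ∀ a ∈ m, a.1 ≠ p ∧ a.1 ≠ q) : CC G' m := by
  cases m with
  | nil => trivial
  | cons b m =>
    have h' : List.IsChain (NN G) ((p, i) :: (q, i - 2) :: (b :: (m ++ [Pt266.sh 4 (p, i)]))) := h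
    rw [List.isChain_cons_cons, List.isChain_cons_cons] at h'
    obtain ⟨h1, h2, h3⟩ := h'
    have h4 : NxT G' q b.1 (b.2 - (i - 2)) := NxT.add hA h2 (hm b (by simp)).1 (hm b (by simp)).2
    show List.IsChain (NN G') ((b :: m) ++ [Pt266.sh 4 b])
    refine chain_last' (R := NN G) (p := Pt266.sh 4 (p, i)) (by simpa using h3)
      (fun u hu w hw h => NxT.add hA h (hm w hw).1 (hm w hw).2) (fun u hu h => ?_)
    have h5 : NxT G u.1 p (i + 4 - u.2) := h.cast (by simp [Pt266.sh])
    exact (h5.add_left hA h4).cast (by simp [Pt266.sh]; ring)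

/-- attaching a tile, any position -/
lemma CC.att_mid {G G' : Port T → Port T → Prop} {p : Port T} {i : ℤ}
    {l1 l2 : List (Port T × ℤ)} {t : T} {d : ZMod 4} (hA : AddP G p (some (t, d)) G')
    (h : CC G (l1 ++ (p, i) :: l2))
    (hm1 : ∀ a ∈ l1, a.1 ≠ p ∧ a.1 ≠ some (t, d)) (hm2 : ∀ a ∈ l2, a.1 ≠ p ∧ a.1 ≠ some (t, d))
    (hf : ∀ e, e ≠ d → ∀ q, ¬ G' (some (t, e)) q) :
    CC G' (l1 ++ (some (t, d + 1), i - 1) :: (some (t, d + 2), i) :: (some (t, d + 3), i + 1) ::
      l2) := by
  have h1 := CC.rotn h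
  have h2 : CC G ((p, i) :: (l2 ++ l1.map (Pt266.sh 4))) := by simpa using h1
  have h3 := CC.att hA h2 (fun a ha => by
    rw [List.mem_append, List.mem_map] at ha
    rcases ha with ha | ⟨b, hb, rfl⟩
    · exact hm2 a ha
    · exact hm1 b hb) hf
  have h4 : CC G' (((some (t, d + 1), i - 1) :: (some (t, d + 2), i) :: (some (t, d + 3), i + 1) ::
      l2) ++ l1.map (Pt266.sh 4)) := by simpa using h3
  have h5 := (CC.rotn h4).sh (-4)
  rw [List.map_append, List.map_map, List.map_map] at h5
  have e : (Pt266.sh (-4) ∘ Pt266.sh 4 : Port T × ℤ → Port T × ℤ) = id := by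
    funext a
    simp [Pt266.sh]
  rw [e, List.map_id, List.map_id] at h5
  exact h5

lemma CC.con_mid {G G' : Port T → Port T → Prop} {p q : Port T} {i : ℤ}
    {l1 l2 : List (Port T × ℤ)} (hA : AddP G p q G')
    (h : CC G (l1 ++ (p, i) :: (q, i - 2) :: l2))
    (hm1 : ∀ a ∈ l1, a.1 ≠ p ∧ a.1 ≠ q) (hm2 : ∀ a ∈ l2, a.1 ≠ p ∧ a.1 ≠ q) :
    CC G' (l1 ++ l2) := by
  have h1 := CC.rotn h
  have h2 : CC G ((p, i) :: (q, i - 2) :: (l2 ++ l1.map (Pt266.sh 4))) := by simpa using h1
  have h3 := CC.con hA h2 (fun a ha => by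
    rw [List.mem_append, List.mem_map] at ha
    rcases ha with ha | ⟨b, hb, rfl⟩
    · exact hm2 a ha
    · exact hm1 b hb)
  have h5 := (CC.rotn h3).sh (-4)
  rw [List.map_append, List.map_map, List.map_map] at h5
  have e : (Pt266.sh (-4) ∘ Pt266.sh 4 : Port T × ℤ → Port T × ℤ) = id := by
    funext a
    simp [Pt266.sh]
  rw [e, List.map_id, List.map_id] at h5
  exact h5

/-- consecutive elements -/
lemma CC.mid {G : Port T → Port T → Prop} {p q : Port T} {i j : ℤ} {l1 l2 : List (Port T × ℤ)}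
    (h : CC G (l1 ++ (p, i) :: (q, j) :: l2)) : NxT G p q (j - i) := by
  have h1 := CC.rotn h
  have h2 : CC G ((p, i) :: (q, j) :: (l2 ++ l1.map (Pt266.sh 4))) := by simpa using h1
  have h3 : List.IsChain (NN G) ((p, i) :: ((q, j) :: (l2 ++ l1.map (Pt266.sh 4)) ++
    [Pt266.sh 4 (p, i)])) := h2
  simp only [List.cons_append, List.isChain_cons_cons] at h3
  exact h3.1

end

/-! ### lattice words -/

/-- adjacent sides of the tiles of `ℤ × ℤ` -/
def LAdj : Port (ℤ × ℤ) → Port (ℤ × ℤ) → Prop
  | none, _ => False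
  | some (t, d), q =>
      (d = 0 ∧ q = some ((t.1 - 1, t.2), 2)) ∨ (d = 1 ∧ q = some ((t.1, t.2 + 1), 3)) ∨
      (d = 2 ∧ q = some ((t.1 + 1, t.2), 0)) ∨ (d = 3 ∧ q = some ((t.1, t.2 - 1), 1))

lemma ladj_gl {R : Xr249.Reg} {p q : Port (ℤ × ℤ)} (h : R.gl p q) : LAdj p q := by
  rcases p with - | ⟨t, d⟩
  · exact h.elim
  · rcases h with ⟨h1, -, h3⟩ | ⟨h1, -, h3⟩ | ⟨h1, -, h3⟩ | ⟨h1, -, h3⟩
    · exact Or.inl ⟨h1, h3⟩
    · exact Or.inr (Or.inl ⟨h1, h3⟩)
    · exact Or.inr (Or.inr (Or.inl ⟨h1, h3⟩))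
    · exact Or.inr (Or.inr (Or.inr ⟨h1, h3⟩))

/-- the neighbour through the side `d` -/
def dir (d : ZMod 4) : ℤ × ℤ :=
  if d = 0 then (-1, 0) else if d = 1 then (0, 1) else if d = 2 then (1, 0) else (0, -1)

lemma ladj_iff {t : ℤ × ℤ} {d : ZMod 4} {q : Port (ℤ × ℤ)} :
    LAdj (some (t, d)) q ↔ q = some (t + dir d, d + 2) := by
  have h02 : (0 : ZMod 4) + 2 = 2 := by decide
  have h12 : (1 : ZMod 4) + 2 = 3 := by decide
  have h22 : (2 : ZMod 4) + 2 = 0 := by decide
  have h32 : (3 : ZMod 4) + 2 = 1 := by decide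
  have n01 : (0 : ZMod 4) ≠ 1 := by decide
  have n02 : (0 : ZMod 4) ≠ 2 := by decide
  have n03 : (0 : ZMod 4) ≠ 3 := by decide
  have n12 : (1 : ZMod 4) ≠ 2 := by decide
  have n13 : (1 : ZMod 4) ≠ 3 := by decide
  have n23 : (2 : ZMod 4) ≠ 3 := by decide
  rcases t with ⟨x, y⟩
  simp only [LAdj]
  rcases Xr249.Reg.d4 d with rfl | rfl | rfl | rfl
  · simp [dir, h02, n01, n02, n03, Int.sub_eq_add_neg]
  · simp [dir, h12, n01.symm, n12, n13]
  · simp [dir, h22, n02.symm, n12.symm, n23]
  · simp [dir, h32, n03.symm, n13.symm, n23.symm, Int.sub_eq_add_neg]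

lemma dir_ne (d : ZMod 4) : dir d ≠ 0 := by
  rcases Xr249.Reg.d4 d with rfl | rfl | rfl | rfl <;> decide

lemma dir_three (d : ZMod 4) : dir (d + 1) + dir d + dir (d + 3) = dir d := by
  rcases Xr249.Reg.d4 d with rfl | rfl | rfl | rfl <;> decide

lemma NxT.inv {T : Type*} {G : Port T → Port T → Prop} {p q : Port T} {k : ℤ}
    (h : NxT G p q k) : (q = rot p ∧ k = 1) ∨ ∃ p', G (rot p) p' ∧ NxT G p' q (k + 1) := by
  cases h with
  | stop h => exact Or.inl ⟨rfl, rfl⟩
  | go h1 h2 => exact Or.inr ⟨_, h1, h2.cast (by ring)⟩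

lemma zz (d : ZMod 4) : d + 1 + 2 + 1 = d ∧ d + 2 + 1 = d + 3 ∧ d + 3 + 2 + 1 = d + 2 ∧
    d + 1 ≠ d + 2 ∧ d ≠ d + 2 ∧ d + 3 ≠ d + 2 := by
  revert d; decide

/-- **closing a lattice vertex is flat** -/
lemma flat_vertex {G : Port (ℤ × ℤ) → Port (ℤ × ℤ) → Prop} (hG : ∀ a b, G a b → LAdj a b)
    {p q : Port (ℤ × ℤ)} {k : ℤ} (h : NxT G p q k) (hpq : LAdj p q) (hq : ∀ r, ¬ G q r) :
    k = -2 := by
  rcases p with - | ⟨t, d⟩
  · exact hpq.elim
  rw [ladj_iff] at hpq
  obtain ⟨a1, a2, a3, b1, b2, b3⟩ := zz d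
  rcases h.inv with ⟨h1, h2⟩ | ⟨p1, g1, h1⟩
  · rw [hpq, rot_some, Option.some.injEq, Prod.mk.injEq] at h1
    exact absurd h1.2.symm b1
  · have e1 := hG _ _ g1
    rw [rot_some, ladj_iff] at e1
    subst e1
    rcases h1.inv with ⟨h2, -⟩ | ⟨p2, g2, h2⟩
    · rw [hpq, rot_some, a1, Option.some.injEq, Prod.mk.injEq] at h2
      exact absurd h2.2.symm b2
    · have e2 := hG _ _ g2
      rw [rot_some, a1, ladj_iff] at e2
      subst e2
      rcases h2.inv with ⟨h3, -⟩ | ⟨p3, g3, h3⟩
      · rw [hpq, rot_some, a2, Option.some.injEq, Prod.mk.injEq] at h3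
        exact absurd h3.2.symm b3
      · have e3 := hG _ _ g3
        rw [rot_some, a2, ladj_iff] at e3
        subst e3
        rcases h3.inv with ⟨h4, h5⟩ | ⟨p4, g4, h4⟩
        · omega
        · exfalso
          rw [rot_some, a3, add_assoc (t + dir (d + 1)), add_assoc t, ← add_assoc (dir (d + 1)),
            dir_three, ← hpq] at g4
          exact hq _ g4

/-- glued pairs of a word (both directions) -/
def Gs {T : Type*} (w : Wd T) (x y : Port T) : Prop := (x, y) ∈ gl w ∨ (y, x) ∈ gl w

lemma ladj_symm {p q : Port (ℤ × ℤ)} (h : LAdj p q) : LAdj q p := by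
  rcases p with - | ⟨t, d⟩
  · exact h.elim
  · rw [ladj_iff] at h
    subst h
    rw [ladj_iff]
    have e1 : d + 2 + 2 = d := by revert d; decide
    have e2 : dir d + dir (d + 2) = 0 := by
      rcases Xr249.Reg.d4 d with rfl | rfl | rfl | rfl <;> decide
    rw [e1, add_assoc, e2, add_zero]

section

variable {T : Type*} [DecidableEq T]

lemma addP_att {w : Wd T} {p : Port T} {t : T} {d : ZMod 4} :
    AddP (Gs w) p (some (t, d)) (Gs (.att w p t d)) := by
  intro a b
  simp only [Gs, gl, List.mem_cons, Prod.mk.injEq]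
  constructor
  · rintro ((h | h) | (h | h))
    · exact Or.inr (Or.inl h)
    · exact Or.inl (Or.inl h)
    · exact Or.inr (Or.inr h.symm)
    · exact Or.inl (Or.inr h)
  · rintro ((h | h) | (h | h))
    · exact Or.inl (Or.inr h)
    · exact Or.inr (Or.inr h)
    · exact Or.inl (Or.inl h)
    · exact Or.inr (Or.inl h.symm)

lemma addP_con {w : Wd T} {p q : Port T} : AddP (Gs w) p q (Gs (.con w p q)) := by
  intro a b
  simp only [Gs, gl, List.mem_cons, Prod.mk.injEq]
  constructor
  · rintro ((h | h) | (h | h))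
    · exact Or.inr (Or.inl h)
    · exact Or.inl (Or.inl h)
    · exact Or.inr (Or.inr h.symm)
    · exact Or.inl (Or.inr h)
  · rintro ((h | h) | (h | h))
    · exact Or.inl (Or.inr h)
    · exact Or.inr (Or.inr h)
    · exact Or.inl (Or.inl h)
    · exact Or.inr (Or.inl h.symm)

lemma L_att_eq {w : Wd T} {p : Port T} {t : T} {d : ZMod 4} {l1 l2 : List (Port T)}
    (h : L w = l1 ++ p :: l2) (h1 : p ∉ l1) (h2 : p ∉ l2) :
    L (.att w p t d) = l1 ++ some (t, d + 1) :: some (t, d + 2) :: some (t, d + 3) :: l2 := by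
  show ((L w).flatMap fun x =>
    if x = p then [some (t, d + 1), some (t, d + 2), some (t, d + 3)] else [x]) = _
  rw [h, List.flatMap_append, List.flatMap_cons, Gc748.flatMap_not_mem p _ l1 h1,
    Gc748.flatMap_not_mem p _ l2 h2, if_pos rfl]
  rfl

lemma L_con_eq {w : Wd T} {p q : Port T} {l1 l2 : List (Port T)}
    (h : L w = l1 ++ p :: q :: l2) (hnd : (L w).Nodup) : L (.con w p q) = l1 ++ l2 := by
  have filt : ∀ l : List (Port T), p ∉ l → q ∉ l → (l.filter fun x => x ≠ p ∧ x ≠ q) = l := by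
    intro l h1 h2
    rw [List.filter_eq_self]
    intro x hx
    simp only [ne_eq, decide_eq_true_eq]
    exact ⟨fun e => h1 (e ▸ hx), fun e => h2 (e ▸ hx)⟩
  rw [h] at hnd
  have hn := List.nodup_append.1 hnd
  have hp1 : p ∉ l1 := fun hm => hn.2.2 p hm p (by simp) rfl
  have hq1 : q ∉ l1 := fun hm => hn.2.2 q hm q (by simp) rfl
  have hn2 := List.nodup_cons.1 hn.2.1
  have hp2 : p ∉ l2 := fun hm => hn2.1 (List.mem_cons_of_mem _ hm)
  have hq2 : q ∉ l2 := (List.nodup_cons.1 hn2.2).1
  show ((L w).filter fun x => x ≠ p ∧ x ≠ q) = _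
  rw [h, List.filter_append, filt l1 hp1 hq1, List.filter_cons, List.filter_cons,
    filt l2 hp2 hq2]
  simp

end

/-- **boundary turning and flatness of the lattice words** -/
theorem cc_word : ∀ {w : Wd (ℤ × ℤ)}, Ok w → bs w ≠ none →
    (∀ p q, (p, q) ∈ gl w → LAdj p q) → Flat w ∧ ∃ l, L w = none :: l ∧ none ∉ l ∧
      CC (Gs w) (l.map fun x => (x, phi w x))
  | .leg, _, hb, _ => absurd rfl hb
  | .tile t, _, _, _ => by
    refine ⟨trivial, [some (t, 0), some (t, 1), some (t, 2), some (t, 3)], rfl, by simp, ?_⟩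
    have hG : ∀ x y, ¬ Gs (.tile t) x y := fun x y h => by simp [Gs, gl] at h
    have e : ∀ d : ZMod 4, NxT (Gs (.tile t)) (some (t, d)) (some (t, d + 1)) 1 := fun d => by
      have := NxT.stop (G := Gs (.tile t)) (p := some (t, d)) fun q => hG _ _
      rwa [rot_some] at this
    show List.IsChain _ _
    simp only [List.map_cons, List.map_nil, List.cons_append, List.nil_append,
      List.isChain_cons_cons, List.isChain_singleton, and_true, NN, sh, phi, Option.elim_some]
    have v0 : ((0 : ZMod 4).val : ℤ) = 0 := rfl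
    have v1 : ((1 : ZMod 4).val : ℤ) = 1 := rfl
    have v2 : ((2 : ZMod 4).val : ℤ) = 2 := rfl
    have v3 : ((3 : ZMod 4).val : ℤ) = 3 := rfl
    rw [v0, v1, v2, v3]
    exact ⟨e 0, e 1, e 2, e 3⟩
  | .att w p t d, hok, hb, hA => by
    have hok' := hok
    obtain ⟨hw, hp, ht, hnone⟩ := hok
    obtain ⟨hF, l, hL, hn, hcc⟩ := cc_word hw hb fun p q h => hA p q (by simp [gl, h])
    have hpn : p ≠ none := fun h => hb (by rw [hnone h]; rfl)
    have hpt : ∀ e, p ≠ some (t, e) := fun e he => ht (tl_mem hw (he ▸ hp))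
    have hpl : p ∈ l := by
      rw [hL, List.mem_cons] at hp
      exact hp.resolve_left hpn
    obtain ⟨l1, l2, rfl⟩ := List.append_of_mem hpl
    have hnd := (gd_wd (fun _ => true) hw).nodup
    rw [hL, List.nodup_cons] at hnd
    have hnd2 := List.nodup_append.1 hnd.2
    have hp1 : p ∉ l1 := fun hm => hnd2.2.2 p hm p (by simp) rfl
    have hp2 : p ∉ l2 := (List.nodup_cons.1 hnd2.2.1).1
    have hL' : L (.att w p t d) =
        none :: (l1 ++ some (t, d + 1) :: some (t, d + 2) :: some (t, d + 3) :: l2) := by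
      have := L_att_eq (w := w) (p := p) (t := t) (d := d) (l1 := none :: l1) (l2 := l2)
        (by rw [hL]; rfl) (by
          rw [List.mem_cons, not_or]
          exact ⟨hpn, hp1⟩) hp2
      simpa using this
    have hnt1 : ∀ x ∈ l1, ∀ e, x ≠ some (t, e) := fun x hx e he =>
      ht (tl_mem hw (d := e) (by rw [hL, ← he]; simp [hx]))
    have hnt2 : ∀ x ∈ l2, ∀ e, x ≠ some (t, e) := fun x hx e he =>
      ht (tl_mem hw (d := e) (by rw [hL, ← he]; simp [hx]))
    have hphi : ∀ x : Port (ℤ × ℤ), (∀ e, x ≠ some (t, e)) →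
        phi (.att w p t d) x = phi w x := fun x hx => by
      simp [phi, hx]
    refine ⟨hF, _, hL', ?_, ?_⟩
    · simp only [List.mem_append, List.mem_cons, reduceCtorEq, false_or, not_or] at hn ⊢
      exact ⟨hn.1, hn.2.2⟩
    · obtain ⟨e1, e2, e3, e4, e5, e6, -, -, -⟩ := Xr249.z4 d
      rw [List.map_append, List.map_cons] at hcc
      have := CC.att_mid (t := t) (d := d) (G' := Gs (.att w p t d)) addP_att hcc
        (fun a ha => by
          obtain ⟨x, hx, rfl⟩ := List.mem_map.1 ha
          exact ⟨fun h => hp1 (h ▸ hx), hnt1 x hx d⟩)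
        (fun a ha => by
          obtain ⟨x, hx, rfl⟩ := List.mem_map.1 ha
          exact ⟨fun h => hp2 (h ▸ hx), hnt2 x hx d⟩)
        (fun e he q hq => by
          have h3 : (some (t, e) : Port (ℤ × ℤ)) ∈ L (.att w p t d) := by
            rw [hL']
            rcases z4_three d e he with rfl | rfl | rfl <;> simp
          exact not_glued hok' h3 hq)
      rw [List.map_append, List.map_cons, List.map_cons, List.map_cons]
      have c1 : phi (.att w p t d) (some (t, d + 1)) = phi w p - 1 := by simp [phi]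
      have c2 : phi (.att w p t d) (some (t, d + 2)) = phi w p := by simp [phi, e4.symm]
      have c3 : phi (.att w p t d) (some (t, d + 3)) = phi w p + 1 := by
        simp [phi, e5.symm, e6.symm]
      have m1 : (l1.map fun x => (x, phi (.att w p t d) x)) = l1.map fun x => (x, phi w x) :=
        List.map_congr_left fun x hx => by rw [hphi x (hnt1 x hx)]
      have m2 : (l2.map fun x => (x, phi (.att w p t d) x)) = l2.map fun x => (x, phi w x) :=
        List.map_congr_left fun x hx => by rw [hphi x (hnt2 x hx)]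
      rw [c1, c2, c3, m1, m2]
      exact this
  | .con w p q, hok, hb, hA => by
    obtain ⟨hw, hpn, hqn, hpq, hadj⟩ := hok
    obtain ⟨hF, l, hL, hn, hcc⟩ := cc_word hw hb fun p q h => hA p q (by simp [gl, h])
    have hnd := (gd_wd (fun _ => true) hw).nodup
    obtain ⟨l1, l2, hl⟩ : ∃ l1 l2, l = l1 ++ p :: q :: l2 := by
      rw [hL] at hadj
      rcases hadj with ⟨l1, l2, h⟩ | ⟨l1, h⟩
      · cases l1 with
        | nil =>
          simp only [List.nil_append, List.cons.injEq] at h
          exact absurd h.1.symm hpn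
        | cons a l1 =>
          simp only [List.cons_append, List.cons.injEq] at h
          exact ⟨l1, l2, h.2⟩
      · simp only [List.cons_append, List.cons.injEq] at h
        exact absurd h.1.symm hqn
    subst hl
    rw [List.map_append, List.map_cons, List.map_cons] at hcc
    have hq : q ∈ L w := by rw [hL]; simp
    have hk : phi w q - phi w p = -2 := by
      refine flat_vertex (G := Gs w) ?_ (CC.mid hcc) (hA p q (by simp [gl])) ?_
      · rintro a b (h | h)
        · exact hA _ _ (by simp [gl, h])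
        · exact ladj_symm (hA _ _ (by simp [gl, h]))
      · exact fun r hr => not_glued hw hq hr
    have hk' : phi w q = phi w p - 2 := by linarith
    have hL' : L (.con w p q) = none :: (l1 ++ l2) := by
      have := L_con_eq (w := w) (p := p) (q := q) (l1 := none :: l1) (l2 := l2)
        (by rw [hL]; rfl) hnd
      simpa using this
    rw [hL, List.nodup_cons] at hnd
    have hnd2 := List.nodup_append.1 hnd.2
    have hp1 : p ∉ l1 := fun hm => hnd2.2.2 p hm p (by simp) rfl
    have hq1 : q ∉ l1 := fun hm => hnd2.2.2 q hm q (by simp) rfl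
    have hn2 := List.nodup_cons.1 hnd2.2.1
    have hp2 : p ∉ l2 := fun hm => hn2.1 (List.mem_cons_of_mem _ hm)
    have hq2 : q ∉ l2 := (List.nodup_cons.1 hn2.2).1
    refine ⟨⟨hF, hk'⟩, _, hL', ?_, ?_⟩
    · simp only [List.mem_append, List.mem_cons, not_or] at hn ⊢
      exact ⟨hn.1, hn.2.2.2⟩
    · have h0 : CC (Gs w) ((l1.map fun x => (x, phi w x)) ++ (p, phi w p) ::
          (q, phi w p - 2) :: (l2.map fun x => (x, phi w x))) := by
        rw [← hk']; exact hcc
      have := CC.con_mid (G' := Gs (.con w p q)) addP_con h0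
        (fun a ha => by
          obtain ⟨x, hx, rfl⟩ := List.mem_map.1 ha
          exact ⟨fun h => hp1 (h ▸ hx), fun h => hq1 (h ▸ hx)⟩)
        (fun a ha => by
          obtain ⟨x, hx, rfl⟩ := List.mem_map.1 ha
          exact ⟨fun h => hp2 (h ▸ hx), fun h => hq2 (h ▸ hx)⟩)
      rw [List.map_append]
      exact this

end Crest.Agent.R158.Pt266
private theorem rz_63411e7450 : type_of% @_root_.Crest.Agent.R158.Pt266.LAdj.eq_1 := @_root_.Crest.Agent.R158.Pt266.LAdj.eq_1 -- L315
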