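import Crest.Agent.R158.Qc2_405
import Crest.Agent.R158.Pt3_266
import Crest.Agent.R158.Env_664
import Crest.Agent.R158.Xr12_249
import Crest.Agent.R158.Psi_664
import Crest.Agent.R158.Xr14_249
import Crest.Agent.R158.Ob0_664

-- ▼ part R158/Qc3_405
section

/-!
# R158, Q1c part 3: the boundary of a leg word with a seam (helper405)

* `NxS σ G p q k` : `q` is the next free port after `p` (clockwise around the gap), `k` = turning of
  the boundary plus the seams crossed; crossing the leg counts as a full turn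
* `VR σ LG` : vertex rule of the seam for the glueing relation `LG`
* **`flw_word`** : for an admissible leg word with glueings in `LG` all contractions close and
  `psi σ w` obeys the local rule at every gap
-/

set_option autoImplicit false
set_option linter.unusedVariables false
set_option linter.unusedSectionVars false
set_option linter.unusedSimpArgs false

namespace Crest.Agent.R158.Qc405

open Crest.Agent.R158.Sw300
open Crest.Agent.R158.Gc748 (gl bs ts gd_wd pt)
open Crest.Agent.R158.Xr249 (rot rot_some rot_none)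
open Crest.Agent.R158.Pt266

section

variable {T : Type*}

/-- turning at a corner; the corner of the leg counts as a full turn -/
def ro : Port T → ℤ
  | none => 0
  | some _ => 1

@[simp] lemma ro_none : ro (none : Port T) = 0 := rfl
@[simp] lemma ro_some (x : T × ZMod 4) : ro (some x) = 1 := rfl

/-- next free port, with the turning of the boundary and the seams crossed -/
inductive NxS (σ : Port T → ℤ) (G : Port T → Port T → Prop) : Port T → Port T → ℤ → Prop
  | stop {p : Port T} : (∀ q, ¬ G (rot p) q) → NxS σ G p (rot p) (ro p)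
  | go {p q r : Port T} {k : ℤ} : G (rot p) q → NxS σ G q r k →
      NxS σ G p r (ro p - 2 + σ (rot p) + k)

lemma NxS.cast {σ : Port T → ℤ} {G : Port T → Port T → Prop} {p r : Port T} {k k' : ℤ}
    (h : NxS σ G p r k) (e : k = k') : NxS σ G p r k' := e ▸ h

lemma NxS.inv {σ : Port T → ℤ} {G : Port T → Port T → Prop} {p q : Port T} {k : ℤ}
    (h : NxS σ G p q k) : (q = rot p ∧ (∀ r, ¬ G (rot p) r) ∧ k = ro p) ∨
      ∃ p', G (rot p) p' ∧ NxS σ G p' q (k - (ro p - 2 + σ (rot p))) := by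
  cases h with
  | stop h => exact Or.inl ⟨rfl, h, rfl⟩
  | go h1 h2 => exact Or.inr ⟨_, h1, h2.cast (by ring)⟩


lemma NxS.det {σ : Port T → ℤ} {G : Port T → Port T → Prop} (hG : ∀ a b c, G a b → G a c → b = c)
    {p r r' : Port T} {k k' : ℤ} (h : NxS σ G p r k) (h' : NxS σ G p r' k') : r = r' ∧ k = k' := by
  induction h generalizing r' k' with
  | stop h =>
    cases h' with
    | stop _ => exact ⟨rfl, rfl⟩
    | go h1 _ => exact absurd h1 (h _)
  | go h1 h2 ih =>
    cases h' with
    | stop h3 => exact absurd h1 (h3 _)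
    | go h3 h4 =>
      rw [hG _ _ _ h1 h3] at ih
      obtain ⟨e1, e2⟩ := ih h4
      exact ⟨e1, by rw [e2]⟩

lemma NxS.add {σ : Port T → ℤ} {G G' : Port T → Port T → Prop} {p0 q0 u w : Port T} {k : ℤ}
    (hA : AddP G p0 q0 G') (h : NxS σ G u w k) (h1 : w ≠ p0) (h2 : w ≠ q0) : NxS σ G' u w k := by
  induction h with
  | stop h =>
    refine .stop fun q hq => ?_
    rcases (hA _ _).1 hq with hq | ⟨hq, _⟩ | ⟨hq, _⟩
    · exact h _ hq
    · exact h1 hq
    · exact h2 hq
  | go h3 _ ih => exact .go ((hA _ _).2 (Or.inl h3)) (ih h1 h2)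

lemma NxS.add_left {σ : Port T → ℤ} {G G' : Port T → Port T → Prop} {p0 q0 u w : Port T}
    {k k' : ℤ} (hA : AddP G p0 q0 G') (h : NxS σ G u p0 k) (h1 : NxS σ G' q0 w k') :
    NxS σ G' u w (k - 2 + σ p0 + k') := by
  generalize hx : p0 = x at h
  induction h with
  | stop h =>
    subst hx
    exact NxS.go ((hA _ _).2 (Or.inr (Or.inl ⟨rfl, rfl⟩))) h1
  | go h3 _ ih => exact (NxS.go ((hA _ _).2 (Or.inl h3)) (ih hx)).cast (by ring)

/-- two lifted ports which follow each other -/
def NS (σ : Port T → ℤ) (G : Port T → Port T → Prop) (a b : Port T × ℤ) : Prop :=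
  NxS σ G a.1 b.1 (b.2 - a.2)

/-- cyclic chains -/
def Cy {α : Type*} (r : α → α → Prop) : List α → Prop
  | [] => True
  | a :: m => List.IsChain r (a :: (m ++ [a]))

lemma Cy.rot1 {α : Type*} {r : α → α → Prop} {a : α} {m : List α} (h : Cy r (a :: m)) :
    Cy r (m ++ [a]) := by
  cases m with
  | nil => exact h
  | cons b m =>
    have h' : List.IsChain r (a :: (b :: m ++ [a])) := h
    show List.IsChain r (b :: (m ++ [a] ++ [b]))
    simp only [List.cons_append, List.isChain_cons_cons] at h'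
    obtain ⟨h1, h2⟩ := h'
    have e : b :: (m ++ [a] ++ [b]) = (b :: (m ++ [a])) ++ [b] := by simp
    rw [e, List.isChain_append]
    refine ⟨h2, by simp, ?_⟩
    intro x hx y hy
    simp only [List.head?_cons, Option.mem_def, Option.some.injEq] at hy
    have hx' : x = a := by
      have : (b :: (m ++ [a])).getLast? = some a := by
        rw [← List.cons_append, List.getLast?_append]
        simp
      rw [this] at hx
      simpa using hx.symm
    rw [hx', ← hy]
    exact h1

lemma Cy.rotn {α : Type*} {r : α → α → Prop} : ∀ {A B : List α}, Cy r (A ++ B) → Cy r (B ++ A)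
  | [], B, h => by simpa using h
  | a :: A, B, h => by
    have h1 : Cy r (A ++ (B ++ [a])) := by
      have := Cy.rot1 (a := a) (m := A ++ B) h
      simpa using this
    have h2 := Cy.rotn h1
    simpa using h2

lemma Cy.mid {α : Type*} {r : α → α → Prop} {p q : α} {l1 l2 : List α}
    (h : Cy r (l1 ++ p :: q :: l2)) : r p q := by
  have h1 := Cy.rotn h
  have h3 : List.IsChain r (p :: ((q :: (l2 ++ l1)) ++ [p])) := by
    have h2 : Cy r (p :: q :: (l2 ++ l1)) := by simpa using h1
    exact h2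
  simp only [List.cons_append, List.isChain_cons_cons] at h3
  exact h3.1

lemma Cy.last {α : Type*} {r : α → α → Prop} {p q : α} {l : List α}
    (h : Cy r (q :: l ++ [p])) : r p q := by
  have h1 : Cy r ([p] ++ (q :: l)) := Cy.rotn (A := q :: l) (B := [p]) h
  exact Cy.mid (l1 := []) (l2 := l) (by simpa using h1)

lemma Cy.one {α : Type*} {r : α → α → Prop} {p : α} (h : Cy r [p]) : r p p := by
  have h' : List.IsChain r (p :: ([] ++ [p])) := h
  simpa using h'

/-- attaching a tile at the first port -/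
lemma CS_att {σ : Port T → ℤ} {G G' : Port T → Port T → Prop} {p : Port T} {i : ℤ}
    {m : List (Port T × ℤ)} {t : T} {d : ZMod 4} (hA : AddP G p (some (t, d)) G')
    (hσ : σ (some (t, d)) = - σ p) (h : Cy (NS σ G) ((p, i) :: m))
    (hm : ∀ a ∈ m, a.1 ≠ p ∧ a.1 ≠ some (t, d))
    (hf : ∀ e, e ≠ d → ∀ q, ¬ G' (some (t, e)) q) :
    Cy (NS σ G') ((some (t, d + 1), i + σ p - 1) :: (some (t, d + 2), i + σ p) ::
      (some (t, d + 3), i + σ p + 1) :: m) := by
  obtain ⟨e1, e2, e3, -, -, -, e6, e4, e5⟩ := Xr249.z4 d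
  have n1 : NxS σ G' (some (t, d)) (some (t, d + 1)) 1 := by
    have := NxS.stop (σ := σ) (G := G') (p := some (t, d)) (by rw [rot_some]; exact hf _ e1)
    rwa [rot_some] at this
  have n2 : NxS σ G' (some (t, d + 1)) (some (t, d + 2)) 1 := by
    have := NxS.stop (σ := σ) (G := G') (p := some (t, d + 1))
      (by rw [rot_some, e4]; exact hf _ e2)
    rwa [rot_some, e4] at this
  have n3 : NxS σ G' (some (t, d + 2)) (some (t, d + 3)) 1 := by
    have := NxS.stop (σ := σ) (G := G') (p := some (t, d + 2))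
      (by rw [rot_some, e5]; exact hf _ e3)
    rwa [rot_some, e5] at this
  have g1 : G' (rot (some (t, d + 3))) p := by
    rw [rot_some, e6]
    exact (hA _ _).2 (Or.inr (Or.inr ⟨rfl, rfl⟩))
  have s1 : σ (rot (some (t, d + 3))) = - σ p := by rw [rot_some, e6, hσ]
  have h' : List.IsChain (NS σ G) ((p, i) :: (m ++ [(p, i)])) := h
  rw [List.isChain_cons] at h'
  obtain ⟨h1, h2⟩ := h'
  show List.IsChain (NS σ G') ((some (t, d + 1), i + σ p - 1) :: ((some (t, d + 2), i + σ p) ::
    (some (t, d + 3), i + σ p + 1) :: m ++ [(some (t, d + 1), i + σ p - 1)]))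
  simp only [List.cons_append]
  rw [List.isChain_cons_cons, List.isChain_cons_cons, List.isChain_cons]
  refine ⟨?_, ?_, ?_, ?_⟩
  · exact n2.cast (by simp)
  · exact n3.cast (by simp)
  · intro y hy
    cases m with
    | nil =>
      simp only [List.nil_append, List.head?_cons, Option.mem_def, Option.some.injEq] at hy
      subst hy
      have h3 : NS σ G (p, i) (p, i) := h1 _ (by simp)
      have h4 : NxS σ G p p 0 := h3.cast (by simp)
      exact (NxS.go g1 (h4.add_left hA n1)).cast (by rw [s1, ro_some]; simp; ring)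
    | cons b m =>
      simp only [List.cons_append, List.head?_cons, Option.mem_def, Option.some.injEq] at hy
      subst hy
      have h3 : NS σ G (p, i) b := h1 _ (by simp)
      have h4 : NxS σ G' p b.1 (b.2 - i) := NxS.add hA h3 (hm b (by simp)).1 (hm b (by simp)).2
      exact (NxS.go g1 h4).cast (by rw [s1, ro_some]; simp; ring)
  · refine chain_last' h2 (fun u hu w hw h => NxS.add hA h (hm w hw).1 (hm w hw).2)
      (fun u hu h => ?_)
    have h3 : NxS σ G u.1 p (i - u.2) := h
    exact (h3.add_left hA n1).cast (by simp; ring)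

/-- glueing the first two ports -/
lemma CS_con {σ : Port T → ℤ} {G G' : Port T → Port T → Prop} {p q : Port T} {i : ℤ}
    {m : List (Port T × ℤ)} (hA : AddP G p q G')
    (h : Cy (NS σ G) ((p, i) :: (q, i - 2 + σ p) :: m))
    (hm : ∀ a ∈ m, a.1 ≠ p ∧ a.1 ≠ q) : Cy (NS σ G') m := by
  cases m with
  | nil => trivial
  | cons b m =>
    have h' : List.IsChain (NS σ G) ((p, i) :: (q, i - 2 + σ p) :: (b :: (m ++ [(p, i)]))) := h
    rw [List.isChain_cons_cons, List.isChain_cons_cons] at h'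
    obtain ⟨h1, h2, h3⟩ := h'
    have h4 : NxS σ G' q b.1 (b.2 - (i - 2 + σ p)) :=
      NxS.add hA h2 (hm b (by simp)).1 (hm b (by simp)).2
    show List.IsChain (NS σ G') ((b :: m) ++ [b])
    refine chain_last' (R := NS σ G) (p := (p, i)) (by simpa using h3)
      (fun u hu w hw h => NxS.add hA h (hm w hw).1 (hm w hw).2) (fun u hu h => ?_)
    have h5 : NxS σ G u.1 p (i - u.2) := h
    exact (h5.add_left hA h4).cast (by ring)

end

section

variable {T : Type*} [DecidableEq T]

/-- vertex rule of the seam -/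
def VR (σ : Port T → ℤ) (LG : Port T → Port T → Prop) : Prop :=
  ∀ (G : Port T → Port T → Prop), (∀ a b, G a b → LG a b) → (∀ a b, G a b → G b a) →
    ∀ p q k, LG p q → (∀ r, ¬ G p r) → (∀ r, ¬ G q r) → NxS σ G p q k → k = -2 + σ p

lemma gs_symm {w : Wd T} {a b : Port T} (h : Gs w a b) : Gs w b a := h.elim Or.inr Or.inl

/-- **the boundary of a leg word with a seam** -/
theorem flw_word (σ : Port T → ℤ) (LG : Port T → Port T → Prop) (hV : VR σ LG) :
    ∀ {w : Wd T}, Ok w → isLeg w → An σ w → (∀ a b, Gs w a b → LG a b) →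
      FlW σ w ∧ Cy (NS σ (Gs w)) ((L w).map fun x => (x, psi σ w x))
  | .leg, _, _, _, _ => by
    refine ⟨trivial, ?_⟩
    have h1 : NxS σ (Gs (.leg : Wd T)) none none 0 :=
      NxS.stop (p := none) fun q hq => by simp [Gs, gl] at hq
    show List.IsChain _ _
    simpa [NS, psi] using h1
  | .tile t, _, h, _, _ => h.elim
  | .att w p t d, hok, hleg, hAn, hLG => by
    have hok' := hok
    obtain ⟨hw, hp, ht, hnone⟩ := hok
    obtain ⟨hAn1, hAn2⟩ := hAn.att
    obtain ⟨hF, hcc⟩ := flw_word σ LG hV hw hleg hAn1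
      (fun a b h => hLG a b ((addP_att a b).2 (Or.inl h)))
    have hpt : ∀ e, p ≠ some (t, e) := fun e he => ht (tl_mem hw (he ▸ hp))
    obtain ⟨l1, l2, hL⟩ := List.append_of_mem hp
    have hnd := (gd_wd (fun _ => true) hw).nodup
    rw [hL] at hnd
    have hnd2 := List.nodup_append.1 hnd
    have hp1 : p ∉ l1 := fun hm => hnd2.2.2 p hm p (by simp) rfl
    have hp2 : p ∉ l2 := (List.nodup_cons.1 hnd2.2.1).1
    have hL' : L (.att w p t d) =
        l1 ++ some (t, d + 1) :: some (t, d + 2) :: some (t, d + 3) :: l2 :=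
      L_att_eq hL hp1 hp2
    have hnt1 : ∀ x ∈ l1, ∀ e, x ≠ some (t, e) := fun x hx e he =>
      ht (tl_mem hw (d := e) (by rw [hL, ← he]; simp [hx]))
    have hnt2 : ∀ x ∈ l2, ∀ e, x ≠ some (t, e) := fun x hx e he =>
      ht (tl_mem hw (d := e) (by rw [hL, ← he]; simp [hx]))
    have hphi : ∀ x : Port T, (∀ e, x ≠ some (t, e)) →
        psi σ (.att w p t d) x = psi σ w x := fun x hx => by
      simp [psi, hx]
    refine ⟨hF, ?_⟩
    obtain ⟨e1, e2, e3, e4, e5, e6, -, -, -⟩ := Xr249.z4 d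
    rw [hL, List.map_append, List.map_cons] at hcc
    have hcc1 : Cy (NS σ (Gs w)) ((p, psi σ w p) :: ((l2.map fun x => (x, psi σ w x)) ++
        (l1.map fun x => (x, psi σ w x)))) := by
      have := Cy.rotn hcc
      simpa using this
    have := CS_att (t := t) (d := d) (G' := Gs (.att w p t d)) addP_att hAn2 hcc1
      (fun a ha => by
        rw [List.mem_append, List.mem_map, List.mem_map] at ha
        rcases ha with ⟨x, hx, rfl⟩ | ⟨x, hx, rfl⟩
        · exact ⟨fun h => hp2 (h ▸ hx), hnt2 x hx d⟩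
        · exact ⟨fun h => hp1 (h ▸ hx), hnt1 x hx d⟩)
      (fun e he q hq => by
        have h3 : (some (t, e) : Port T) ∈ L (.att w p t d) := by
          rw [hL']
          rcases z4_three d e he with rfl | rfl | rfl <;> simp
        exact not_glued hok' h3 hq)
    rw [hL', List.map_append, List.map_cons, List.map_cons, List.map_cons]
    have c1 : psi σ (.att w p t d) (some (t, d + 1)) = psi σ w p + σ p - 1 := by simp [psi]
    have c2 : psi σ (.att w p t d) (some (t, d + 2)) = psi σ w p + σ p := by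
      simp [psi, e4.symm]
    have c3 : psi σ (.att w p t d) (some (t, d + 3)) = psi σ w p + σ p + 1 := by
      simp [psi, e5.symm, e6.symm]
    have m1 : (l1.map fun x => (x, psi σ (.att w p t d) x)) = l1.map fun x => (x, psi σ w x) :=
      List.map_congr_left fun x hx => by rw [hphi x (hnt1 x hx)]
    have m2 : (l2.map fun x => (x, psi σ (.att w p t d) x)) = l2.map fun x => (x, psi σ w x) :=
      List.map_congr_left fun x hx => by rw [hphi x (hnt2 x hx)]
    rw [c1, c2, c3, m1, m2]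
    refine Cy.rotn ?_
    simpa using this
  | .con w p q, hok, hleg, hAn, hLG => by
    have hok' := hok
    obtain ⟨hw, hpn, hqn, hpq, hadj⟩ := hok
    obtain ⟨hp, hq⟩ := adj_mem hadj
    obtain ⟨hAn1, hAn2⟩ := hAn.con
    obtain ⟨hF, hcc⟩ := flw_word σ LG hV hw hleg hAn1
      (fun a b h => hLG a b ((addP_con a b).2 (Or.inl h)))
    have hnd := (gd_wd (fun _ => true) hw).nodup
    have hGpq : LG p q := hLG p q ((addP_con p q).2 (Or.inr (Or.inl ⟨rfl, rfl⟩)))
    have step : NxS σ (Gs w) p q (psi σ w q - psi σ w p) := by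
      rcases hadj with ⟨l1, l2, hL⟩ | ⟨l1, hL⟩
      · rw [hL, List.map_append, List.map_cons, List.map_cons] at hcc
        exact Cy.mid hcc
      · rw [hL, List.map_append, List.map_cons, List.map_cons, List.map_nil] at hcc
        exact Cy.last hcc
    have hk := hV (Gs w) (fun a b h => hLG a b ((addP_con a b).2 (Or.inl h)))
      (fun a b h => gs_symm h) p q _ hGpq (fun r hr => not_glued hw hp hr)
      (fun r hr => not_glued hw hq hr) step
    have hk' : psi σ w q = psi σ w p - 2 + σ p := by linarith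
    refine ⟨⟨hF, hk'⟩, ?_⟩
    have main : ∀ l1 l2 : List (Port T), (l1 ++ l2).Nodup → p ∉ l1 → q ∉ l1 → p ∉ l2 → q ∉ l2 →
        L (.con w p q) = l1 ++ l2 →
        Cy (NS σ (Gs w)) ((p, psi σ w p) :: (q, psi σ w q) :: ((l2.map fun x => (x, psi σ w x)) ++
          (l1.map fun x => (x, psi σ w x)))) →
        Cy (NS σ (Gs (.con w p q))) ((L (.con w p q)).map fun x => (x, psi σ (.con w p q) x)) := by
      intro l1 l2 hn hp1 hq1 hp2 hq2 hL' h0
      rw [hk'] at h0
      have := CS_con (G' := Gs (.con w p q)) addP_con h0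
        (fun a ha => by
          rw [List.mem_append, List.mem_map, List.mem_map] at ha
          rcases ha with ⟨x, hx, rfl⟩ | ⟨x, hx, rfl⟩
          · exact ⟨fun h => hp2 (h ▸ hx), fun h => hq2 (h ▸ hx)⟩
          · exact ⟨fun h => hp1 (h ▸ hx), fun h => hq1 (h ▸ hx)⟩)
      rw [hL', List.map_append]
      exact Cy.rotn this
    rcases hadj with ⟨l1, l2, hL⟩ | ⟨l1, hL⟩
    · have hL' : L (.con w p q) = l1 ++ l2 := L_con_eq hL hnd
      rw [hL] at hnd
      have hnd2 := List.nodup_append.1 hnd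
      have hp1 : p ∉ l1 := fun hm => hnd2.2.2 p hm p (by simp) rfl
      have hq1 : q ∉ l1 := fun hm => hnd2.2.2 q hm q (by simp) rfl
      have hn2 := List.nodup_cons.1 hnd2.2.1
      have hp2 : p ∉ l2 := fun hm => hn2.1 (List.mem_cons_of_mem _ hm)
      have hq2 : q ∉ l2 := (List.nodup_cons.1 hn2.2).1
      refine main l1 l2 ?_ hp1 hq1 hp2 hq2 hL' ?_
      · have h4 : (l1 ++ l2).Sublist (l1 ++ p :: q :: l2) :=
          List.Sublist.append (List.Sublist.refl _)
            ((List.sublist_cons_self _ _).trans (List.sublist_cons_self _ _))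
        exact hnd.sublist h4
      · rw [hL, List.map_append, List.map_cons, List.map_cons] at hcc
        have := Cy.rotn hcc
        simpa using this
    · have hnd0 := hnd
      rw [hL] at hnd
      have h5 := List.nodup_append.1 hnd
      have hql : q ∉ l1 := (List.nodup_cons.1 h5.1).1
      have hpl : p ∉ l1 := fun hm => h5.2.2 p (List.mem_cons_of_mem _ hm) p (by simp) rfl
      have hL' : L (.con w p q) = l1 ++ [] := by
        show ((L w).filter fun x => x ≠ p ∧ x ≠ q) = _
        have filt : (l1.filter fun x => x ≠ p ∧ x ≠ q) = l1 := by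
          rw [List.filter_eq_self]
          intro x hx
          simp only [ne_eq, decide_eq_true_eq]
          exact ⟨fun e => hpl (e ▸ hx), fun e => hql (e ▸ hx)⟩
        rw [hL, List.filter_append, List.filter_cons, filt]
        simp
      refine main l1 [] ?_ hpl hql (by simp) (by simp) hL' ?_
      · simpa using (List.nodup_cons.1 h5.1).2
      · rw [hL, List.map_append, List.map_cons, List.map_cons, List.map_nil] at hcc
        have := Cy.rotn (A := (q, psi σ w q) :: l1.map fun x => (x, psi σ w x))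
          (B := [(p, psi σ w p)]) hcc
        simpa using this

end

end Crest.Agent.R158.Qc405
end

-- ▼ part R158/Qc4_405
section

/-!
# R158, Q1c part 4: the vertex rule of the seam of `D^(z)` (helper405)

* `vr_list` : the vertex rule from a cycle of ports around the vertex
* `sgD xl p y0 y2` : seam of `D^(z)` in quarter turns: `-4` through `(x, y0-1).N`, `xl ≤ x < p`, and
  `+4` through `(xl, y).W`, `y0 ≤ y < y2` (the other directions opposite)
* **`vr_D`** : the vertex rule for `beD A p y0 xr`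
-/

set_option autoImplicit false
set_option linter.unusedVariables false
set_option linter.unusedSectionVars false
set_option linter.unusedSimpArgs false

namespace Crest.Agent.R158.Qc405

open Crest.Agent.R158.Sw300
open Crest.Agent.R158.Gc748 (gl bs ts gd_wd pt)
open Crest.Agent.R158.Xr249 (rot rot_some rot_none)
open Crest.Agent.R158.Pt266

section

variable {T : Type*}

/-- value of a cycle -/
def vs (σ : Port T → ℤ) (l : List (Port T)) : ℤ := (l.map fun v => ro v - 2 + σ (rot v)).sum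

lemma vs_cons (σ : Port T → ℤ) (u : Port T) (l : List (Port T)) :
    vs σ (u :: l) = (ro u - 2 + σ (rot u)) + vs σ l := by simp [vs]

lemma vs_perm (σ : Port T → ℤ) {l l' : List (Port T)} (h : l.Perm l') : vs σ l = vs σ l' :=
  (h.map _).sum_eq

lemma vr_chain (σ : Port T → ℤ) (nb : Port T → Port T) {G : Port T → Port T → Prop}
    (hG : ∀ x y, G x y → nb x = y) {a b : Port T} (ha : ∀ x, ¬ G x a) (hb : nb b = a) :
    ∀ (m : List (Port T)) (u : Port T) (k : ℤ), NxS σ G u b k →
      List.IsChain (fun x y => nb (rot x) = y) (u :: (m ++ [a])) → a ∉ m →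
      k = vs σ (u :: m) + 2 - σ b ∧ ∀ v ∈ m, ∃ x, G x v
  | [], u, k, h, hc, hm => by
    have h1 : nb (rot u) = a := by simpa using hc
    rcases h.inv with ⟨h2, -, h3⟩ | ⟨p', h2, h3⟩
    · refine ⟨?_, by simp⟩
      rw [h3, h2]
      simp only [vs, List.map_cons, List.map_nil, List.sum_cons, List.sum_nil]
      ring
    · have := hG _ _ h2
      rw [h1] at this
      exact absurd (this ▸ h2) (ha _)
  | v :: m, u, k, h, hc, hm => by
    rw [List.cons_append, List.isChain_cons_cons] at hc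
    obtain ⟨h1, hc'⟩ := hc
    rw [List.mem_cons, not_or] at hm
    rcases h.inv with ⟨h2, -, h3⟩ | ⟨p', h2, h3⟩
    · rw [h2, h1] at hb
      exact absurd hb.symm hm.1
    · have h4 := hG _ _ h2
      rw [h1] at h4
      subst h4
      obtain ⟨h5, h6⟩ := vr_chain σ nb hG ha hb m v _ h3 hc' hm.2
      refine ⟨?_, ?_⟩
      · rw [vs_cons]
        linarith
      · intro w hw
        rw [List.mem_cons] at hw
        rcases hw with rfl | hw
        · exact ⟨_, h2⟩
        · exact h6 w hw

/-- **the vertex rule from a cycle of ports** -/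
lemma vr_list (σ : Port T → ℤ) (nb : Port T → Port T) {G : Port T → Port T → Prop}
    (hG : ∀ x y, G x y → nb x = y) {a b : Port T} (ha : ∀ x, ¬ G x a) (hb : nb b = a) {k : ℤ}
    (h : NxS σ G a b k) {c : List (Port T)} (hc : Cy (fun x y => nb (rot x) = y) c) (hn : c.Nodup)
    (hac : a ∈ c) : k = vs σ c + 2 - σ b ∧ ∀ v ∈ c, v = a ∨ ∃ x, G x v := by
  obtain ⟨l1, l2, rfl⟩ := List.append_of_mem hac
  have h1 : Cy (fun x y => nb (rot x) = y) ((a :: l2) ++ l1) := Cy.rotn hc
  have hp : (l1 ++ a :: l2).Perm ((a :: l2) ++ l1) := List.perm_append_comm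
  have h2 : ((a :: l2) ++ l1).Nodup := hp.nodup_iff.1 hn
  have h3 := List.nodup_cons.1 h2
  obtain ⟨h4, h5⟩ := vr_chain σ nb hG ha hb (l2 ++ l1) a k h h1 h3.1
  refine ⟨by rw [vs_perm σ hp]; exact h4, ?_⟩
  intro v hv
  rw [List.mem_append, List.mem_cons] at hv
  rcases hv with hv | hv | hv
  · exact Or.inr (h5 v (by simp [hv]))
  · exact Or.inl hv
  · exact Or.inr (h5 v (by simp [hv]))

end

open Crest.Agent.R158.Env664 (nbD beD res PortOf portOf_some portOf_none nbD_leg nbD_W nbD_E nbD_N1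
  nbD_N nbD_Sleg nbD_S1 nbD_S)

/-- seam of `D^(z)` in quarter turns -/
def sgD (xl p y0 y2 : ℤ) : Port (ℤ × ℤ) → ℤ
  | none => 0
  | some ((x, y), d) =>
      if d = 0 then (if x = xl ∧ y0 ≤ y ∧ y < y2 then 4 else 0)
      else if d = 1 then (if y = y0 - 1 ∧ xl ≤ x ∧ x < p then -4 else 0)
      else if d = 2 then (if x = xl - 1 ∧ y0 ≤ y ∧ y < y2 then -4 else 0)
      else (if y = y0 ∧ xl ≤ x ∧ x < p then 4 else 0)

section

variable {xl p y0 y2 x y : ℤ}

@[simp] lemma sgD_none : sgD xl p y0 y2 none = 0 := rfl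
lemma sgD_W : sgD xl p y0 y2 (some ((x, y), 0)) = if x = xl ∧ y0 ≤ y ∧ y < y2 then 4 else 0 := rfl
lemma sgD_N : sgD xl p y0 y2 (some ((x, y), 1)) =
    if y = y0 - 1 ∧ xl ≤ x ∧ x < p then -4 else 0 := rfl
lemma sgD_E : sgD xl p y0 y2 (some ((x, y), 2)) =
    if x = xl - 1 ∧ y0 ≤ y ∧ y < y2 then -4 else 0 := rfl
lemma sgD_S : sgD xl p y0 y2 (some ((x, y), 3)) =
    if y = y0 ∧ xl ≤ x ∧ x < p then 4 else 0 := rfl

end

/-- the free plain vertex -/
def c1 (X Y : ℤ) : List (Port (ℤ × ℤ)) :=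
  [some ((X - 1, Y - 1), 1), some ((X, Y - 1), 0), some ((X, Y), 3), some ((X - 1, Y), 2)]

/-- the dislocated vertex -/
def c2 (X y0 : ℤ) : List (Port (ℤ × ℤ)) :=
  [some ((X - 1, y0 - 1), 1), some ((X, y0 - 1), 0), some ((X + 1, y0), 3), some ((X, y0), 2)]

/-- the vertex of the leg -/
def c3 (p y0 : ℤ) : List (Port (ℤ × ℤ)) :=
  [some ((p - 1, y0 - 1), 1), some ((p, y0 - 1), 0), some ((p + 1, y0), 3), some ((p, y0), 2),
    none, some ((p, y0), 3), some ((p - 1, y0), 2)]

lemma z4a : (0 : ZMod 4) + 1 = 1 ∧ (1 : ZMod 4) + 1 = 2 ∧ (2 : ZMod 4) + 1 = 3 ∧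
    (3 : ZMod 4) + 1 = 0 ∧ (0 : ZMod 4) ≠ 1 ∧ (0 : ZMod 4) ≠ 2 ∧ (0 : ZMod 4) ≠ 3 ∧
    (1 : ZMod 4) ≠ 2 ∧ (1 : ZMod 4) ≠ 3 ∧ (2 : ZMod 4) ≠ 3 := by decide

lemma c1_nodup (X Y : ℤ) : (c1 X Y).Nodup := by
  obtain ⟨-, -, -, -, n1, n2, n3, n4, n5, n6⟩ := z4a
  simp [c1, n1.symm, n2, n2.symm, n3, n3.symm, n4, n5, n6.symm]

lemma c2_nodup (X y0 : ℤ) : (c2 X y0).Nodup := by
  obtain ⟨-, -, -, -, n1, n2, n3, n4, n5, n6⟩ := z4a
  simp [c2, n1.symm, n2, n2.symm, n3, n3.symm, n4, n5, n6.symm]

lemma c3_nodup (X y0 : ℤ) : (c3 X y0).Nodup := by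
  obtain ⟨-, -, -, -, n1, n2, n3, n4, n5, n6⟩ := z4a
  simp [c3, n1.symm, n2, n2.symm, n3, n3.symm, n4, n5, n6, n6.symm]
  omega

section

variable {xl p y0 y2 xr : ℤ}

lemma c1_cy {X Y : ℤ} (hpr : p ≤ xr) (h : ¬ (Y = y0 ∧ p ≤ X ∧ X ≤ xr + 1)) :
    Cy (fun x y => nbD p y0 xr (rot x) = y) (c1 X Y) := by
  obtain ⟨a1, a2, a3, a4, -⟩ := z4a
  show List.IsChain _ _
  simp only [c1, List.cons_append, List.nil_append, List.isChain_cons_cons,
    List.isChain_singleton, and_true, rot_some, a1, a2, a3, a4]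
  refine ⟨?_, ?_, ?_, ?_⟩
  · rw [nbD_E, sub_add_cancel]
  · rw [nbD_N (by omega), sub_add_cancel]
  · rw [nbD_W]
  · rw [nbD_S (by omega)]

lemma c2_cy {X : ℤ} (h1 : p < X) (h2 : X ≤ xr) :
    Cy (fun x y => nbD p y0 xr (rot x) = y) (c2 X y0) := by
  obtain ⟨a1, a2, a3, a4, -⟩ := z4a
  show List.IsChain _ _
  simp only [c2, List.cons_append, List.nil_append, List.isChain_cons_cons,
    List.isChain_singleton, and_true, rot_some, a1, a2, a3, a4]
  refine ⟨?_, ?_, ?_, ?_⟩
  · rw [nbD_E, sub_add_cancel]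
  · rw [nbD_N1 (by omega)]
  · rw [nbD_W, add_sub_cancel_right]
  · rw [nbD_S1 (by omega)]

lemma c3_cy (h2 : p ≤ xr) :
    Cy (fun x y => nbD p y0 xr (rot x) = y) (c3 p y0) := by
  obtain ⟨a1, a2, a3, a4, -⟩ := z4a
  show List.IsChain _ _
  simp only [c3, List.cons_append, List.nil_append, List.isChain_cons_cons,
    List.isChain_singleton, and_true, rot_some, rot_none, a1, a2, a3, a4]
  refine ⟨?_, ?_, ?_, ?_, ?_, ?_, ?_⟩
  · rw [nbD_E, sub_add_cancel]
  · rw [nbD_N1 (by omega)]
  · rw [nbD_W, add_sub_cancel_right]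
  · rw [nbD_Sleg ⟨rfl, rfl⟩]
  · rw [nbD_leg]
  · rw [nbD_W]
  · rw [nbD_S (by omega)]

lemma c1_vs {X Y : ℤ} (h : ¬ (Y = y0 ∧ X = p)) (h' : ¬ (Y = y2 ∧ X = xl)) (hp : xl < p)
    (hy : y0 < y2) :
    vs (sgD xl p y0 y2) (c1 X Y) = -4 := by
  obtain ⟨a1, a2, a3, a4, -⟩ := z4a
  simp only [vs, c1, List.map_cons, List.map_nil, List.sum_cons, List.sum_nil, rot_some, a1, a2, a3,
    a4, ro_some, sgD_W, sgD_N, sgD_E, sgD_S]
  split_ifs <;> omega

lemma c2_vs {X : ℤ} (h : p < X) (hp : xl < p) (hy : y0 < y2) :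
    vs (sgD xl p y0 y2) (c2 X y0) = -4 := by
  obtain ⟨a1, a2, a3, a4, -⟩ := z4a
  simp only [vs, c2, List.map_cons, List.map_nil, List.sum_cons, List.sum_nil, rot_some, a1, a2, a3,
    a4, ro_some, sgD_W, sgD_N, sgD_E, sgD_S]
  split_ifs <;> omega

lemma c3_vs (hp : xl < p) (hy : y0 < y2) :
    vs (sgD xl p y0 y2) (c3 p y0) = -4 := by
  obtain ⟨a1, a2, a3, a4, -⟩ := z4a
  simp only [vs, c3, List.map_cons, List.map_nil, List.sum_cons, List.sum_nil, rot_some, rot_none,
    a1, a2, a3, a4, ro_some, ro_none, sgD_W, sgD_N, sgD_E, sgD_S, sgD_none, true_and]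
  split_ifs <;> omega

variable {A : Finset (ℤ × ℤ)}

lemma beD_of {x y : Port (ℤ × ℤ)} (h : beD A p y0 xr x = y) (hne : x ≠ y) :
    nbD p y0 xr x = y ∧ PortOf A x ∧ PortOf A y := by
  unfold beD res at h
  split_ifs at h with h1
  · exact ⟨h, h1.1, h ▸ h1.2⟩
  · exact absurd h hne

lemma sgD_anti (hp : p ≤ xr) (hx : (xr + 1, y0) ∉ A) {x y : Port (ℤ × ℤ)}
    (h : beD A p y0 xr x = y) (hne : x ≠ y) :
    sgD xl p y0 y2 y = - sgD xl p y0 y2 x := by
  obtain ⟨h1, h2, h3⟩ := beD_of h hne
  rcases x with _ | ⟨⟨x, z⟩, d⟩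
  · rw [nbD_leg] at h1
    subst h1
    rw [sgD_S, if_neg (by omega)]
    rfl
  · rcases Env664.z4 d with rfl | rfl | rfl | rfl
    · rw [nbD_W] at h1
      subst h1
      rw [sgD_W, sgD_E]
      split_ifs <;> omega
    · by_cases hc : z = y0 - 1 ∧ p ≤ x ∧ x ≤ xr
      · rw [nbD_N1 hc] at h1
        subst h1
        rw [sgD_N, sgD_S]
        split_ifs <;> omega
      · rw [nbD_N hc] at h1
        subst h1
        rw [sgD_N, sgD_S]
        split_ifs <;> omega
    · rw [nbD_E] at h1
      subst h1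
      rw [sgD_W, sgD_E]
      split_ifs <;> omega
    · by_cases hc : z = y0 ∧ x = p
      · rw [nbD_Sleg hc] at h1
        subst h1
        rw [sgD_S, if_neg (by omega)]
        rfl
      by_cases hc2 : z = y0 ∧ p < x ∧ x ≤ xr
      · rw [nbD_S1 hc2] at h1
        subst h1
        rw [sgD_N, sgD_S]
        split_ifs <;> omega
      · rw [nbD_S (by omega)] at h1
        subst h1
        rw [sgD_N, sgD_S]
        split_ifs <;> omega

/-- **the vertex rule of `D^(z)`** -/
theorem vr_D (hp : xl < p) (hy : y0 < y2) (hpr : p ≤ xr) (hx : (xr + 1, y0) ∉ A)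
    (hx' : (xr + 1, y0 - 1) ∉ A) (hl : (xl - 1, y2) ∉ A) :
    VR (sgD xl p y0 y2) (fun x y => beD A p y0 xr x = y ∧ x ≠ y) := by
  intro G hG hGs a b k hab ha hb hN
  have hG' : ∀ x y, G x y → nbD p y0 xr x = y := fun x y h => (beD_of (hG _ _ h).1 (hG _ _ h).2).1
  have ha' : ∀ x, ¬ G x a := fun x h => ha x (hGs _ _ h)
  obtain ⟨h1, h2, h3⟩ := beD_of hab.1 hab.2
  have hinv : beD A p y0 xr b = a := by
    have := Env664.beD_invol hpr hx a
    rwa [hab.1] at this
  have hba := beD_of hinv hab.2.symm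
  have hsig : sgD xl p y0 y2 b = - sgD xl p y0 y2 a := sgD_anti hpr hx hab.1 hab.2
  -- conclusion from a cycle
  have main : ∀ c : List (Port (ℤ × ℤ)), Cy (fun x y => nbD p y0 xr (rot x) = y) c → c.Nodup →
      a ∈ c → ((∀ v ∈ c, PortOf A v) → vs (sgD xl p y0 y2) c = -4) → k = -2 + sgD xl p y0 y2 a := by
    intro c hc hn hac hv
    obtain ⟨h4, h5⟩ := vr_list (sgD xl p y0 y2) (nbD p y0 xr) hG' ha' hba.1 hN hc hn hac
    have h6 : ∀ v ∈ c, PortOf A v := by
      intro v hv
      rcases h5 v hv with rfl | ⟨x, hx⟩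
      · exact h2
      · exact (beD_of (hG _ _ hx).1 (hG _ _ hx).2).2.2
    rw [h4, hv h6, hsig]
    ring
  have m1 : ∀ X Y : ℤ, ¬ (Y = y0 ∧ p ≤ X ∧ X ≤ xr + 1) → a ∈ c1 X Y →
      k = -2 + sgD xl p y0 y2 a := by
    intro X Y h4 h5
    refine main _ (c1_cy hpr h4) (c1_nodup X Y) h5 fun h6 => ?_
    refine c1_vs (by omega) ?_ hp hy
    rintro ⟨rfl, rfl⟩
    have h7 := h6 (some ((X - 1, Y), 2)) (by simp [c1])
    exact hl (portOf_some.1 h7)
  have m2 : ∀ X : ℤ, p < X → X ≤ xr → a ∈ c2 X y0 → k = -2 + sgD xl p y0 y2 a := by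
    intro X h4 h5 h6
    exact main _ (c2_cy h4 h5) (c2_nodup X y0) h6 fun h7 => c2_vs h4 hp hy
  have m3 : a ∈ c3 p y0 → k = -2 + sgD xl p y0 y2 a := by
    intro h6
    exact main _ (c3_cy hpr) (c3_nodup p y0) h6 fun h7 => c3_vs hp hy
  rcases a with _ | ⟨⟨x, y⟩, d⟩
  · exact m3 (by simp [c3])
  · rcases Env664.z4 d with rfl | rfl | rfl | rfl
    · -- `W`
      by_cases q1 : y + 1 = y0 ∧ p ≤ x ∧ x ≤ xr + 1
      · obtain ⟨q1, q2, q3⟩ := q1
        have e : y = y0 - 1 := by omega
        subst e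
        by_cases q4 : x = p
        · subst q4
          exact m3 (by simp [c3])
        by_cases q5 : x = xr + 1
        · subst q5
          exact absurd (portOf_some.1 h2) hx'
        · exact m2 x (by omega) (by omega) (by simp [c2])
      · refine m1 x (y + 1) q1 ?_
        simp [c1]
    · -- `N`
      by_cases q1 : y + 1 = y0 ∧ p ≤ x + 1 ∧ x + 1 ≤ xr + 1
      · obtain ⟨q1, q2, q3⟩ := q1
        have e : y = y0 - 1 := by omega
        subst e
        by_cases q4 : x + 1 = p
        · have e2 : x = p - 1 := by omega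
          subst e2
          exact m3 (by simp [c3])
        by_cases q5 : x = xr
        · subst q5
          rw [nbD_N1 ⟨rfl, by omega, le_refl _⟩] at h1
          subst h1
          exact absurd (portOf_some.1 h3) hx
        · exact m2 (x + 1) (by omega) (by omega) (by simp [c2])
      · refine m1 (x + 1) (y + 1) q1 ?_
        simp [c1]
    · -- `E`
      by_cases q1 : y = y0 ∧ p ≤ x + 1 ∧ x + 1 ≤ xr + 1
      · obtain ⟨rfl, q2, q3⟩ := q1
        by_cases q4 : x + 1 = p
        · have e2 : x = p - 1 := by omega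
          subst e2
          exact m3 (by simp [c3])
        by_cases q5 : x = p
        · subst q5
          exact m3 (by simp [c3])
        · exact m2 x (by omega) (by omega) (by simp [c2])
      · refine m1 (x + 1) y q1 ?_
        simp [c1]
    · -- `S`
      by_cases q1 : y = y0 ∧ p ≤ x ∧ x ≤ xr + 1
      · obtain ⟨rfl, q2, q3⟩ := q1
        by_cases q4 : x = p
        · subst q4
          exact m3 (by simp [c3])
        by_cases q5 : x = p + 1
        · subst q5
          exact m3 (by simp [c3])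
        · exact m2 (x - 1) (by omega) (by omega) (by simp [c2])
      · refine m1 x y q1 ?_
        simp [c1]

end

end Crest.Agent.R158.Qc405
end

-- ▼ part R158/Qc5_405
section

/-!
# R158, Q1c part 5: the table of lifted directions of the region with stubs (helper405)

* `psT ψ A xr` : the table: `ψ` on the free ends of `A`, floor `3`, right ceiling `1`, left
  ceiling `5`, right cut `2`, left cut `4`
* `TabH` : the hypotheses on `ψ` (664's `psi (full A) xl y1`)
* **`loc_D`** : the table obeys the local rule of the seam `sgD` at every gap of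
  `Dp A xl xr y1 y2 k` with the glueing `beD .. p y0 (xr + k)`, any `z = (p, y0)`
-/

set_option autoImplicit false
set_option linter.unusedVariables false
set_option linter.unusedSectionVars false
set_option linter.unusedSimpArgs false

namespace Crest.Agent.R158.Qc405

open Crest.Agent.R158.Sw300
open Crest.Agent.R158.Gc748 (gl bs ts gd_wd pt)
open Crest.Agent.R158.Xr249 (rot rot_some rot_none Dp mem_Dp Free full full_h full_v Reg)
open Crest.Agent.R158.Pt266
open Crest.Agent.R158.Env664 (nbD beD res PortOf portOf_some portOf_none nbD_leg nbD_W nbD_E nbD_N1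
  nbD_N nbD_Sleg nbD_S1 nbD_S)

/-- the table of lifted directions -/
def psT (ψ : (ℤ × ℤ) × ZMod 4 → ℤ) (A : Finset (ℤ × ℤ)) (xr : ℤ) : Port (ℤ × ℤ) → ℤ
  | none => 1
  | some (t, d) =>
      if t ∈ A then ψ (t, d)
      else if d = 3 then 3
      else if d = 1 then (if xr < t.1 then 1 else 5)
      else if d = 2 then 2
      else 4

/-- hypotheses of the table -/
structure TabH (A : Finset (ℤ × ℤ)) (xl xr y1 y2 k p y0 : ℤ) (ψ : (ℤ × ℤ) × ZMod 4 → ℤ) :
    Prop where
  hf : Free A xl xr y1 y2 k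
  hk : 0 < k
  hy1 : y1 < y0
  hy2 : y0 < y2
  hp1 : xl < p
  hp2 : p ≤ xr
  run : ∀ x y, xl ≤ x → x ≤ xr → y1 ≤ y → y < y2 → (x, y) ∈ A
  c1 : (xl, y1 - 1) ∈ A
  c2 : (xr, y1 - 1) ∈ A
  c3 : (xl, y2) ∈ A
  c4 : (xr, y2) ∈ A
  v1 : ψ ((xl, y1 - 1), 0) = 4
  v2 : ψ ((xr, y1 - 1), 2) = 2
  v3 : ψ ((xl, y2), 0) = 0
  v4 : ψ ((xr, y2), 2) = 2
  loc : ∀ x y κ, RFree (full A) x → RFree (full A) y → NxT (full A).gl (some x) (some y) κ →
    y ≠ ((xl, y1), 0) → ψ y = ψ x + κ

/-- the corner between a side and the next one -/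
def cor (x : (ℤ × ℤ) × ZMod 4) : ℤ × ℤ :=
  if x.2 = 0 then (x.1.1, x.1.2 + 1) else if x.2 = 1 then (x.1.1 + 1, x.1.2 + 1)
  else if x.2 = 2 then (x.1.1 + 1, x.1.2) else (x.1.1, x.1.2)

section

variable {A : Finset (ℤ × ℤ)} {xl xr y1 y2 k p y0 : ℤ} {ψ : (ℤ × ℤ) × ZMod 4 → ℤ}

lemma psT_A {x y : ℤ} {d : ZMod 4} (h : (x, y) ∈ A) :
    psT ψ A xr (some ((x, y), d)) = ψ ((x, y), d) := by
  simp only [psT]; rw [if_pos h]

lemma psT_S {x y : ℤ} (h : (x, y) ∉ A) : psT ψ A xr (some ((x, y), 3)) = 3 := by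
  simp only [psT]; rw [if_neg h, if_pos trivial]

lemma psT_N {x y : ℤ} (h : (x, y) ∉ A) :
    psT ψ A xr (some ((x, y), 1)) = if xr < x then 1 else 5 := by
  simp only [psT]; rw [if_neg h, if_neg (by decide), if_pos trivial]

lemma psT_E {x y : ℤ} (h : (x, y) ∉ A) : psT ψ A xr (some ((x, y), 2)) = 2 := by
  simp only [psT]; rw [if_neg h, if_neg (by decide), if_neg (by decide), if_pos trivial]

lemma psT_W {x y : ℤ} (h : (x, y) ∉ A) : psT ψ A xr (some ((x, y), 0)) = 4 := by
  simp only [psT]; rw [if_neg h, if_neg (by decide), if_neg (by decide), if_neg (by decide)]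

/-- glueing relation of `Dp` -/
def GD (A : Finset (ℤ × ℤ)) (xl xr y1 y2 k p y0 : ℤ) (x y : Port (ℤ × ℤ)) : Prop :=
  beD (Dp A xl xr y1 y2 k) p y0 (xr + k) x = y ∧ x ≠ y

lemma nbD_ne {p y0 xr : ℤ} (x : Port (ℤ × ℤ)) : x ≠ nbD p y0 xr x := by
  rcases x with _ | ⟨⟨x, y⟩, d⟩
  · rw [nbD_leg]; simp
  · have n1 : (1 : ZMod 4) ≠ 3 := by decide
    have n2 : (0 : ZMod 4) ≠ 2 := by decide
    rcases Env664.z4 d with rfl | rfl | rfl | rfl
    · rw [nbD_W]; simp [n2]
    · by_cases hc : y = y0 - 1 ∧ p ≤ x ∧ x ≤ xr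
      · rw [nbD_N1 hc]; simp [n1]
      · rw [nbD_N hc]; simp [n1]
    · rw [nbD_E]; simp [n2.symm]
    · by_cases hc : y = y0 ∧ x = p
      · rw [nbD_Sleg hc]; simp
      by_cases hc2 : y = y0 ∧ p < x ∧ x ≤ xr
      · rw [nbD_S1 hc2]; simp [n1.symm]
      · rw [nbD_S (by omega)]; simp [n1.symm]

lemma GD_of {x y : Port (ℤ × ℤ)} (hx : PortOf (Dp A xl xr y1 y2 k) x)
    (h : nbD p y0 (xr + k) x = y) (hy : PortOf (Dp A xl xr y1 y2 k) y) :
    GD A xl xr y1 y2 k p y0 x y := by
  subst h
  exact ⟨Env664.res_of hx hy, nbD_ne x⟩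

lemma GD_not {x : Port (ℤ × ℤ)} (h : ¬ PortOf (Dp A xl xr y1 y2 k) (nbD p y0 (xr + k) x)) :
    ∀ q, ¬ GD A xl xr y1 y2 k p y0 x q := by
  rintro q ⟨h1, h2⟩
  obtain ⟨h3, -, h5⟩ := beD_of h1 h2
  rw [h3] at h
  exact h h5

lemma GD_fn (a b c : Port (ℤ × ℤ)) (h : GD A xl xr y1 y2 k p y0 a b)
    (h' : GD A xl xr y1 y2 k p y0 a c) : b = c := h.1.symm.trans h'.1

/-- last step -/
lemma stp {σ : Port (ℤ × ℤ) → ℤ} {a b : Port (ℤ × ℤ)} (hb : rot a = b)
    (h : ¬ PortOf (Dp A xl xr y1 y2 k) (nbD p y0 (xr + k) b)) :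
    NxS σ (GD A xl xr y1 y2 k p y0) a b (ro a) := by
  subst hb
  exact .stop (GD_not h)

/-- one step over a glued side -/
lemma gop {σ : Port (ℤ × ℤ) → ℤ} {a c q r : Port (ℤ × ℤ)} {κ : ℤ} (hc : rot a = c)
    (hx : PortOf (Dp A xl xr y1 y2 k) c) (h : nbD p y0 (xr + k) c = q)
    (hy : PortOf (Dp A xl xr y1 y2 k) q) (hN : NxS σ (GD A xl xr y1 y2 k p y0) q r κ) :
    NxS σ (GD A xl xr y1 y2 k p y0) a r (ro a - 2 + σ c + κ) := by
  subst hc
  exact .go (GD_of hx h hy) hN

variable (H : TabH A xl xr y1 y2 k p y0 ψ)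

include H

lemma TabH.band {x y : ℤ} (h1 : xl - k ≤ x) (h2 : x ≤ xr + k) (h3 : y1 ≤ y) (h4 : y < y2) :
    (x, y) ∈ Dp A xl xr y1 y2 k := by
  rw [mem_Dp]
  by_cases h5 : x < xl
  · right; right; omega
  by_cases h6 : xr < x
  · right; left; omega
  · left; exact H.run x y (by omega) (by omega) h3 h4

lemma TabH.sub {t : ℤ × ℤ} (h : t ∈ A) : t ∈ Dp A xl xr y1 y2 k := by
  obtain ⟨x, y⟩ := t
  rw [mem_Dp]; exact Or.inl h

lemma TabH.nr {x y : ℤ} (h1 : xr < x) (h2 : x ≤ xr + k + 1) (h3 : y1 - 1 ≤ y) (h4 : y ≤ y2) :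
    (x, y) ∉ A := H.hf.right x y h1 h2 h3 h4

lemma TabH.nl {x y : ℤ} (h1 : x < xl) (h2 : xl - k - 1 ≤ x) (h3 : y1 - 1 ≤ y) (h4 : y ≤ y2) :
    (x, y) ∉ A := H.hf.left x y h1 h2 h3 h4

/-- tiles just outside `Dp` -/
lemma TabH.out {x y : ℤ} (h1 : (x, y) ∉ A) (h2 : ¬ (y1 ≤ y ∧ y < y2 ∧ xl - k ≤ x ∧ x ≤ xr + k)) :
    (x, y) ∉ Dp A xl xr y1 y2 k := by
  rw [mem_Dp]
  rintro (h | h | h)
  · exact h1 h
  · have := H.hf.le; have := H.hk; omega
  · have := H.hf.le; have := H.hk; omega

/-- a corner away from the stubs, the seam and the dislocation -/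
def GoodC (A : Finset (ℤ × ℤ)) (xl xr y1 y2 k y0 X Y : ℤ) : Prop :=
  (∀ u v, (u = X ∨ u = X - 1) → (v = Y ∨ v = Y - 1) → (u, v) ∈ Dp A xl xr y1 y2 k → (u, v) ∈ A) ∧
  ¬ (Y = y0 ∧ xl ≤ X ∧ X ≤ xr + k + 1) ∧ ¬ (X = xl ∧ y0 ≤ Y ∧ Y ≤ y2)

omit H in
lemma far_step (hp1 : xl < p) (hp2 : p ≤ xr) (hk : 0 < k) {X Y : ℤ} (hg : GoodC A xl xr y1 y2 k y0 X Y)
    {a : Port (ℤ × ℤ)} {b : Port (ℤ × ℤ)} {κ : ℤ}
    (h : NxS (sgD xl p y0 y2) (GD A xl xr y1 y2 k p y0) a b κ) :
    ∀ t : ℤ × ℤ, ∀ d : ZMod 4, a = some (t, d) → t ∈ A → cor (t, d) = (X, Y) →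
      ∃ b', b = some b' ∧ b'.1 ∈ A ∧ RFree (full A) b' ∧
        NxT (full A).gl a b κ ∧ ∀ q, ¬ GD A xl xr y1 y2 k p y0 b q := by
  obtain ⟨g1, g2, g3⟩ := hg
  -- plain step at a good corner
  have key : ∀ (x y : ℤ) (d : ZMod 4), cor ((x, y), d) = (X, Y) → ∃ (u v : ℤ) (e : ZMod 4),
      nbD p y0 (xr + k) (rot (some ((x, y), d))) = some ((u, v), e) ∧ cor ((u, v), e) = (X, Y) ∧
      (u = X ∨ u = X - 1) ∧ (v = Y ∨ v = Y - 1) ∧ sgD xl p y0 y2 (rot (some ((x, y), d))) = 0 ∧
      ((x, y) ∈ A → (u, v) ∈ A → (full A).gl (rot (some ((x, y), d))) (some ((u, v), e))) ∧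
      (∀ q, (full A).gl (rot (some ((x, y), d))) q → (u, v) ∈ A) := by
    intro x y d hc
    rcases Env664.z4 d with rfl | rfl | rfl | rfl
    · -- `W`, next side `N`
      simp only [cor, if_pos, Prod.mk.injEq] at hc
      obtain ⟨rfl, rfl⟩ := hc
      have e1 : rot (some ((x, y), (0 : ZMod 4))) = some ((x, y), 1) := rfl
      rw [e1, nbD_N (by omega)]
      refine ⟨x, y + 1, 3, rfl, rfl, by omega, by omega, ?_, ?_, ?_⟩
      · rw [sgD_N, if_neg (by omega)]
      · intro h1 h2
        exact Reg.gl_1.2 ⟨full_v.2 ⟨h1, h2⟩, rfl⟩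
      · intro q hq
        exact (full_v.1 (Reg.gl_1.1 hq).1).2
    · -- `N`, next side `E`
      have hc' : (x + 1, y + 1) = (X, Y) := hc
      rw [Prod.mk.injEq] at hc'
      obtain ⟨rfl, rfl⟩ := hc'
      have e1 : rot (some ((x, y), (1 : ZMod 4))) = some ((x, y), 2) := rfl
      rw [e1, nbD_E]
      refine ⟨x + 1, y, 0, rfl, rfl, by omega, by omega, ?_, ?_, ?_⟩
      · rw [sgD_E, if_neg (by omega)]
      · intro h1 h2
        exact Reg.gl_2.2 ⟨full_h.2 ⟨h1, h2⟩, rfl⟩
      · intro q hq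
        exact (full_h.1 (Reg.gl_2.1 hq).1).2
    · -- `E`, next side `S`
      have hc' : (x + 1, y) = (X, Y) := hc
      rw [Prod.mk.injEq] at hc'
      obtain ⟨rfl, rfl⟩ := hc'
      have e1 : rot (some ((x, y), (2 : ZMod 4))) = some ((x, y), 3) := rfl
      rw [e1, nbD_S (by omega)]
      refine ⟨x, y - 1, 1, rfl, ?_, by omega, by omega, ?_, ?_, ?_⟩
      · show (x + 1, y - 1 + 1) = (x + 1, y)
        rw [sub_add_cancel]
      · rw [sgD_S, if_neg (by omega)]
      · intro h1 h2
        refine Reg.gl_3.2 ⟨full_v.2 ⟨h2, ?_⟩, rfl⟩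
        rwa [sub_add_cancel]
      · intro q hq
        exact (full_v.1 (Reg.gl_3.1 hq).1).1
    · -- `S`, next side `W`
      have hc' : (x, y) = (X, Y) := hc
      rw [Prod.mk.injEq] at hc'
      obtain ⟨rfl, rfl⟩ := hc'
      have e1 : rot (some ((x, y), (3 : ZMod 4))) = some ((x, y), 0) := rfl
      rw [e1, nbD_W]
      refine ⟨x - 1, y, 2, rfl, ?_, by omega, by omega, ?_, ?_, ?_⟩
      · show (x - 1 + 1, y) = (x, y)
        rw [sub_add_cancel]
      · rw [sgD_W, if_neg (by omega)]
      · intro h1 h2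
        refine Reg.gl_0.2 ⟨full_h.2 ⟨h2, ?_⟩, rfl⟩
        rwa [sub_add_cancel]
      · intro q hq
        exact (full_h.1 (Reg.gl_0.1 hq).1).1
  induction h with
  | @stop a h =>
    rintro ⟨x, y⟩ d rfl ht hc
    obtain ⟨u, v, e, h1, h2, h3, h4, h5, h6, h7⟩ := key x y d hc
    have hno : ∀ q, ¬ (full A).gl (rot (some ((x, y), d))) q := by
      intro q hq
      have h8 := h7 q hq
      have h9 : (u, v) ∈ Dp A xl xr y1 y2 k := mem_Dp.2 (Or.inl h8)
      have h10 : (x, y) ∈ Dp A xl xr y1 y2 k := mem_Dp.2 (Or.inl ht)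
      exact h _ (GD_of (x := rot (some ((x, y), d))) (portOf_some.2 h10) h1 (portOf_some.2 h9))
    refine ⟨((x, y), d + 1), rfl, ht, ⟨ht, fun b hb => hno _ hb⟩, ?_, h⟩
    exact (NxT.stop hno)
  | @go a q r κ h8 h9 ih =>
    rintro ⟨x, y⟩ d rfl ht hc
    obtain ⟨u, v, e, h1, h2, h3, h4, h5, h6, h7⟩ := key x y d hc
    obtain ⟨h10, h11, h12⟩ := beD_of h8.1 h8.2
    rw [h1] at h10
    subst h10
    have h13 : (u, v) ∈ A := g1 u v h3 h4 (portOf_some.1 h12)
    obtain ⟨b', hb, hbA, hfr, hN, hq⟩ := ih (u, v) e rfl h13 h2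
    refine ⟨b', hb, hbA, hfr, ?_, hq⟩
    refine (NxT.go (h6 ht h13) hN).cast ?_
    rw [h5, ro_some]
    ring

end

end Crest.Agent.R158.Qc405
private theorem rz_0556f1331d : type_of% @_root_.Crest.Agent.R158.Qc405.psT.eq_1 := @_root_.Crest.Agent.R158.Qc405.psT.eq_1 -- L30
end

-- ▼ part R158/Qc6_405
section

/-!
# R158, Q1c part 6: the table obeys the local rule (helper405)

* **`loc_D`** : `psT ψ A xr b = psT ψ A xr a + κ` for consecutive free ends `a`, `b` of
  `Dp A xl xr y1 y2 k` (glueing `beD .. p y0 (xr + k)`, seam `sgD xl p y0 y2`)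
-/

set_option autoImplicit false
set_option linter.unusedVariables false
set_option linter.unusedSectionVars false
set_option linter.unusedSimpArgs false

namespace Crest.Agent.R158.Qc405

open Crest.Agent.R158.Sw300
open Crest.Agent.R158.Gc748 (gl bs ts gd_wd pt)
open Crest.Agent.R158.Xr249 (rot rot_some rot_none Dp mem_Dp Free full full_h full_v Reg)
open Crest.Agent.R158.Pt266
open Crest.Agent.R158.Env664 (nbD beD res PortOf portOf_some portOf_none nbD_leg nbD_W nbD_E nbD_N1
  nbD_N nbD_Sleg nbD_S1 nbD_S)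

section

variable {A : Finset (ℤ × ℤ)} {xl xr y1 y2 k p y0 : ℤ} {ψ : (ℤ × ℤ) × ZMod 4 → ℤ}

lemma rW (x y : ℤ) : rot (some ((x, y), (0 : ZMod 4))) = some ((x, y), 1) := rfl
lemma rN (x y : ℤ) : rot (some ((x, y), (1 : ZMod 4))) = some ((x, y), 2) := rfl
lemma rE (x y : ℤ) : rot (some ((x, y), (2 : ZMod 4))) = some ((x, y), 3) := rfl
lemma rS (x y : ℤ) : rot (some ((x, y), (3 : ZMod 4))) = some ((x, y), 0) := rfl

lemma pD {x y : ℤ} {d : ZMod 4} (h : (x, y) ∈ Dp A xl xr y1 y2 k) :
    PortOf (Dp A xl xr y1 y2 k) (some ((x, y), d)) := portOf_some.2 h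

lemma pD' {x y : ℤ} {d : ZMod 4} (h : (x, y) ∉ Dp A xl xr y1 y2 k) :
    ¬ PortOf (Dp A xl xr y1 y2 k) (some ((x, y), d)) := fun h' => h (portOf_some.1 h')

variable (H : TabH A xl xr y1 y2 k p y0 ψ)

include H

/-- the right stub -/
lemma loc_R {x y : ℤ} {d : ZMod 4} (hR : (xr + 1 ≤ x ∧ x < xr + k + 1) ∧ y1 ≤ y ∧ y < y2)
    (hfree : ∀ q, ¬ GD A xl xr y1 y2 k p y0 (some ((x, y), d)) q) {b : Port (ℤ × ℤ)} {κ : ℤ}
    (h : NxS (sgD xl p y0 y2) (GD A xl xr y1 y2 k p y0) (some ((x, y), d)) b κ) :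
    psT ψ A xr b = psT ψ A xr (some ((x, y), d)) + κ := by
  have hk := H.hk
  have h1 := H.hy1
  have h2 := H.hy2
  have h3 := H.hp1
  have h4 := H.hp2
  have hle := H.hf.le
  have hD : (x, y) ∈ Dp A xl xr y1 y2 k := H.band (by omega) (by omega) hR.2.1 hR.2.2
  have hxA : (x, y) ∉ A := H.nr (by omega) (by omega) (by omega) (by omega)
  have det : ∀ {b0 κ0}, NxS (sgD xl p y0 y2) (GD A xl xr y1 y2 k p y0) (some ((x, y), d)) b0 κ0 →
      psT ψ A xr b0 = psT ψ A xr (some ((x, y), d)) + κ0 →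
      psT ψ A xr b = psT ψ A xr (some ((x, y), d)) + κ := by
    intro b0 κ0 h5 h6
    obtain ⟨rfl, rfl⟩ := NxS.det (fun a b c => GD_fn a b c) h h5
    exact h6
  rcases Env664.z4 d with rfl | rfl | rfl | rfl
  · exact absurd (GD_of (pD hD) nbD_W (pD (H.band (by omega) (by omega) (by omega) (by omega))))
      (hfree _)
  · -- `N`
    by_cases c1 : x = xr + k
    · have o1 : (x + 1, y) ∉ Dp A xl xr y1 y2 k :=
        H.out (H.nr (by omega) (by omega) (by omega) (by omega)) (by omega)
      refine det (stp (rN x y) (by rw [nbD_E]; exact pD' o1)) ?_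
      rw [psT_E hxA, psT_N hxA, if_pos (by omega), ro_some]; norm_num
    by_cases c2 : y = y2 - 1
    · have d1 : (x + 1, y) ∈ Dp A xl xr y1 y2 k :=
        H.band (by omega) (by omega) (by omega) (by omega)
      have o1 : (x + 1, y + 1) ∉ Dp A xl xr y1 y2 k :=
        H.out (H.nr (by omega) (by omega) (by omega) (by omega)) (by omega)
      have hN := gop (y0 := y0) (p := p) (σ := sgD xl p y0 y2) (rN x y) (pD hD) nbD_E (pD d1)
        (stp (rW (x + 1) y) (by rw [nbD_N (by omega)]; exact pD' o1))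
      refine det hN ?_
      rw [psT_N hxA, psT_N (H.nr (by omega) (by omega) (by omega) (by omega)),
        if_pos (by omega), if_pos (by omega), sgD_E, if_neg (by omega), ro_some, ro_some]
      norm_num
    · exfalso
      by_cases c3 : y = y0 - 1
      · exact hfree _ (GD_of (pD hD) (nbD_N1 (by omega))
          (pD (H.band (by omega) (by omega) (by omega) (by omega))))
      · exact hfree _ (GD_of (pD hD) (nbD_N (by omega))
          (pD (H.band (by omega) (by omega) (by omega) (by omega))))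
  · -- `E`
    by_cases c1 : x = xr + k
    · by_cases c2 : y = y1
      · have o1 : (x, y - 1) ∉ Dp A xl xr y1 y2 k :=
          H.out (H.nr (by omega) (by omega) (by omega) (by omega)) (by omega)
        refine det (stp (rE x y) (by rw [nbD_S (by omega)]; exact pD' o1)) ?_
        rw [psT_E hxA, psT_S hxA, ro_some]; norm_num
      by_cases c3 : y = y0
      · have d1 : (x - 1, y0 - 1) ∈ Dp A xl xr y1 y2 k :=
          H.band (by omega) (by omega) (by omega) (by omega)
        have d2 : (x - 1 + 1, y0 - 1) ∈ Dp A xl xr y1 y2 k :=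
          H.band (by omega) (by omega) (by omega) (by omega)
        have o1 : (x - 1 + 1 + 1, y0) ∉ Dp A xl xr y1 y2 k :=
          H.out (H.nr (by omega) (by omega) (by omega) (by omega)) (by omega)
        have hN := gop (y0 := y0) (p := p) (σ := sgD xl p y0 y2) (rE x y) (pD hD)
          (nbD_S1 (by omega)) (pD d1)
          (gop (rN (x - 1) (y0 - 1)) (pD d1) nbD_E (pD d2)
            (stp (rW (x - 1 + 1) (y0 - 1)) (by rw [nbD_N1 (by omega)]; exact pD' o1)))
        refine det hN ?_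
        rw [psT_E hxA, psT_N (H.nr (by omega) (by omega) (by omega) (by omega)),
          if_pos (by omega), sgD_E, if_neg (by omega), sgD_S, if_neg (by omega)]
        simp only [ro_some]; norm_num
      · have d1 : (x, y - 1) ∈ Dp A xl xr y1 y2 k :=
          H.band (by omega) (by omega) (by omega) (by omega)
        have o1 : (x + 1, y - 1) ∉ Dp A xl xr y1 y2 k :=
          H.out (H.nr (by omega) (by omega) (by omega) (by omega)) (by omega)
        have hN := gop (y0 := y0) (p := p) (σ := sgD xl p y0 y2) (rE x y) (pD hD)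
          (nbD_S (by omega)) (pD d1)
          (stp (rN x (y - 1)) (by rw [nbD_E]; exact pD' o1))
        refine det hN ?_
        rw [psT_E hxA, psT_E (H.nr (by omega) (by omega) (by omega) (by omega)),
          sgD_S, if_neg (by omega)]
        simp only [ro_some]; norm_num
    · exact absurd (GD_of (pD hD) nbD_E
        (pD (H.band (by omega) (by omega) (by omega) (by omega)))) (hfree _)
  · -- `S`
    by_cases c1 : y = y1
    · by_cases c2 : x = xr + 1
      · have d1 : (x - 1, y) ∈ Dp A xl xr y1 y2 k :=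
          H.band (by omega) (by omega) (by omega) (by omega)
        have e1 : ((x - 1, y - 1) : ℤ × ℤ) = (xr, y1 - 1) := by
          rw [c1, c2]; simp
        have d2 : (x - 1, y - 1) ∈ Dp A xl xr y1 y2 k := H.sub (by rw [e1]; exact H.c2)
        have o1 : (x - 1 + 1, y - 1) ∉ Dp A xl xr y1 y2 k :=
          H.out (H.nr (by omega) (by omega) (by omega) (by omega)) (by omega)
        have hN := gop (y0 := y0) (p := p) (σ := sgD xl p y0 y2) (rS x y) (pD hD)
          nbD_W (pD d1)
          (gop (rE (x - 1) y) (pD d1) (nbD_S (by omega)) (pD d2)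
            (stp (rN (x - 1) (y - 1)) (by rw [nbD_E]; exact pD' o1)))
        refine det hN ?_
        rw [psT_S hxA, e1, psT_A H.c2, H.v2, sgD_W, if_neg (by omega), sgD_S, if_neg (by omega)]
        simp only [ro_some]; norm_num
      · have d1 : (x - 1, y) ∈ Dp A xl xr y1 y2 k :=
          H.band (by omega) (by omega) (by omega) (by omega)
        have o1 : (x - 1, y - 1) ∉ Dp A xl xr y1 y2 k :=
          H.out (H.nr (by omega) (by omega) (by omega) (by omega)) (by omega)
        have hN := gop (y0 := y0) (p := p) (σ := sgD xl p y0 y2) (rS x y) (pD hD)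
          nbD_W (pD d1)
          (stp (rE (x - 1) y) (by rw [nbD_S (by omega)]; exact pD' o1))
        refine det hN ?_
        rw [psT_S hxA, psT_S (H.nr (by omega) (by omega) (by omega) (by omega)),
          sgD_W, if_neg (by omega)]
        simp only [ro_some]; norm_num
    · exfalso
      by_cases c3 : y = y0
      · exact hfree _ (GD_of (pD hD) (nbD_S1 (by omega))
          (pD (H.band (by omega) (by omega) (by omega) (by omega))))
      · exact hfree _ (GD_of (pD hD) (nbD_S (by omega))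
          (pD (H.band (by omega) (by omega) (by omega) (by omega))))

/-- the left stub -/
lemma loc_L {x y : ℤ} {d : ZMod 4} (hR : (xl - k ≤ x ∧ x < xl) ∧ y1 ≤ y ∧ y < y2)
    (hfree : ∀ q, ¬ GD A xl xr y1 y2 k p y0 (some ((x, y), d)) q) {b : Port (ℤ × ℤ)} {κ : ℤ}
    (h : NxS (sgD xl p y0 y2) (GD A xl xr y1 y2 k p y0) (some ((x, y), d)) b κ) :
    psT ψ A xr b = psT ψ A xr (some ((x, y), d)) + κ := by
  have hk := H.hk
  have h1 := H.hy1
  have h2 := H.hy2
  have h3 := H.hp1
  have h4 := H.hp2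
  have hle := H.hf.le
  have hD : (x, y) ∈ Dp A xl xr y1 y2 k := H.band (by omega) (by omega) hR.2.1 hR.2.2
  have hxA : (x, y) ∉ A := H.nl (by omega) (by omega) (by omega) (by omega)
  have det : ∀ {b0 κ0}, NxS (sgD xl p y0 y2) (GD A xl xr y1 y2 k p y0) (some ((x, y), d)) b0 κ0 →
      psT ψ A xr b0 = psT ψ A xr (some ((x, y), d)) + κ0 →
      psT ψ A xr b = psT ψ A xr (some ((x, y), d)) + κ := by
    intro b0 κ0 h5 h6
    obtain ⟨rfl, rfl⟩ := NxS.det (fun a b c => GD_fn a b c) h h5
    exact h6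
  rcases Env664.z4 d with rfl | rfl | rfl | rfl
  · -- `W`
    by_cases c1 : x = xl - k
    · by_cases c2 : y = y2 - 1
      · have o1 : (x, y + 1) ∉ Dp A xl xr y1 y2 k :=
          H.out (H.nl (by omega) (by omega) (by omega) (by omega)) (by omega)
        refine det (stp (rW x y) (by rw [nbD_N (by omega)]; exact pD' o1)) ?_
        rw [psT_W hxA, psT_N hxA, if_neg (by omega), ro_some]; norm_num
      · have d1 : (x, y + 1) ∈ Dp A xl xr y1 y2 k :=
          H.band (by omega) (by omega) (by omega) (by omega)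
        have o1 : (x - 1, y + 1) ∉ Dp A xl xr y1 y2 k :=
          H.out (H.nl (by omega) (by omega) (by omega) (by omega)) (by omega)
        have hN := gop (y0 := y0) (p := p) (σ := sgD xl p y0 y2) (rW x y) (pD hD)
          (nbD_N (by omega)) (pD d1)
          (stp (rS x (y + 1)) (by rw [nbD_W]; exact pD' o1))
        refine det hN ?_
        rw [psT_W hxA, psT_W (H.nl (by omega) (by omega) (by omega) (by omega)),
          sgD_N, if_neg (by omega)]
        simp only [ro_some]; norm_num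
    · exact absurd (GD_of (pD hD) nbD_W
        (pD (H.band (by omega) (by omega) (by omega) (by omega)))) (hfree _)
  · -- `N`
    by_cases c2 : y = y2 - 1
    · by_cases c1 : x = xl - 1
      · have d1 : (x + 1, y) ∈ Dp A xl xr y1 y2 k :=
          H.band (by omega) (by omega) (by omega) (by omega)
        have e1 : ((x + 1, y + 1) : ℤ × ℤ) = (xl, y2) := by rw [c1, c2]; simp
        have d2 : (x + 1, y + 1) ∈ Dp A xl xr y1 y2 k := H.sub (by rw [e1]; exact H.c3)
        have o1 : (x + 1 - 1, y + 1) ∉ Dp A xl xr y1 y2 k :=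
          H.out (H.nl (by omega) (by omega) (by omega) (by omega)) (by omega)
        have hN := gop (y0 := y0) (p := p) (σ := sgD xl p y0 y2) (rN x y) (pD hD)
          nbD_E (pD d1)
          (gop (rW (x + 1) y) (pD d1) (nbD_N (by omega)) (pD d2)
            (stp (rS (x + 1) (y + 1)) (by rw [nbD_W]; exact pD' o1)))
        refine det hN ?_
        rw [psT_N hxA, if_neg (by omega), e1, psT_A H.c3, H.v3, sgD_E, if_pos (by omega), sgD_N,
          if_neg (by omega)]
        simp only [ro_some]; norm_num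
      · have d1 : (x + 1, y) ∈ Dp A xl xr y1 y2 k :=
          H.band (by omega) (by omega) (by omega) (by omega)
        have o1 : (x + 1, y + 1) ∉ Dp A xl xr y1 y2 k :=
          H.out (H.nl (by omega) (by omega) (by omega) (by omega)) (by omega)
        have hN := gop (y0 := y0) (p := p) (σ := sgD xl p y0 y2) (rN x y) (pD hD)
          nbD_E (pD d1)
          (stp (rW (x + 1) y) (by rw [nbD_N (by omega)]; exact pD' o1))
        refine det hN ?_
        rw [psT_N hxA, if_neg (by omega), psT_N (H.nl (by omega) (by omega) (by omega) (by omega)),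
          if_neg (by omega), sgD_E, if_neg (by omega)]
        simp only [ro_some]; norm_num
    · exact absurd (GD_of (pD hD) (nbD_N (by omega))
        (pD (H.band (by omega) (by omega) (by omega) (by omega)))) (hfree _)
  · -- `E`
    exact absurd (GD_of (pD hD) nbD_E
        (pD (H.band (by omega) (by omega) (by omega) (by omega)))) (hfree _)
  · -- `S`
    by_cases c1 : y = y1
    · by_cases c2 : x = xl - k
      · have o1 : (x - 1, y) ∉ Dp A xl xr y1 y2 k :=
          H.out (H.nl (by omega) (by omega) (by omega) (by omega)) (by omega)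
        refine det (stp (rS x y) (by rw [nbD_W]; exact pD' o1)) ?_
        rw [psT_W hxA, psT_S hxA, ro_some]; norm_num
      · have d1 : (x - 1, y) ∈ Dp A xl xr y1 y2 k :=
          H.band (by omega) (by omega) (by omega) (by omega)
        have o1 : (x - 1, y - 1) ∉ Dp A xl xr y1 y2 k :=
          H.out (H.nl (by omega) (by omega) (by omega) (by omega)) (by omega)
        have hN := gop (y0 := y0) (p := p) (σ := sgD xl p y0 y2) (rS x y) (pD hD)
          nbD_W (pD d1)
          (stp (rE (x - 1) y) (by rw [nbD_S (by omega)]; exact pD' o1))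
        refine det hN ?_
        rw [psT_S hxA, psT_S (H.nl (by omega) (by omega) (by omega) (by omega)),
          sgD_W, if_neg (by omega)]
        simp only [ro_some]; norm_num
    · exact absurd (GD_of (pD hD) (nbD_S (by omega))
        (pD (H.band (by omega) (by omega) (by omega) (by omega)))) (hfree _)

/-- the region itself -/
lemma loc_A {x y : ℤ} {d : ZMod 4} (hA : (x, y) ∈ A)
    (hfree : ∀ q, ¬ GD A xl xr y1 y2 k p y0 (some ((x, y), d)) q) {b : Port (ℤ × ℤ)} {κ : ℤ}
    (h : NxS (sgD xl p y0 y2) (GD A xl xr y1 y2 k p y0) (some ((x, y), d)) b κ) :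
    psT ψ A xr b = psT ψ A xr (some ((x, y), d)) + κ := by
  have hk := H.hk
  have h1 := H.hy1
  have h2 := H.hy2
  have h3 := H.hp1
  have h4 := H.hp2
  have hle := H.hf.le
  have hD : (x, y) ∈ Dp A xl xr y1 y2 k := H.sub hA
  have mr : ¬ (xr < x ∧ x ≤ xr + k + 1 ∧ y1 - 1 ≤ y ∧ y ≤ y2) := fun hc =>
    H.nr hc.1 hc.2.1 hc.2.2.1 hc.2.2.2 hA
  have ml : ¬ (x < xl ∧ xl - k - 1 ≤ x ∧ y1 - 1 ≤ y ∧ y ≤ y2) := fun hc =>
    H.nl hc.1 hc.2.1 hc.2.2.1 hc.2.2.2 hA
  have det : ∀ {b0 κ0}, NxS (sgD xl p y0 y2) (GD A xl xr y1 y2 k p y0) (some ((x, y), d)) b0 κ0 →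
      psT ψ A xr b0 = psT ψ A xr (some ((x, y), d)) + κ0 →
      psT ψ A xr b = psT ψ A xr (some ((x, y), d)) + κ := by
    intro b0 κ0 h5 h6
    obtain ⟨rfl, rfl⟩ := NxS.det (fun a b c => GD_fn a b c) h h5
    exact h6
  -- good corners
  have good : ∀ X Y, cor ((x, y), d) = (X, Y) → GoodC A xl xr y1 y2 k y0 X Y →
      (∀ q, (full A).gl (some ((x, y), d)) q → ∃ u v e, nbD p y0 (xr + k) (some ((x, y), d)) =
        some ((u, v), e) ∧ (u, v) ∈ A) →
      psT ψ A xr b = psT ψ A xr (some ((x, y), d)) + κ := by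
    intro X Y hc hg hnb
    obtain ⟨b', rfl, hb', hfr, hN, hq⟩ := far_step h3 h4 hk hg h (x, y) d rfl hA hc
    have hra : RFree (full A) ((x, y), d) := by
      refine ⟨hA, fun q hq' => ?_⟩
      obtain ⟨u, v, e, h5, h6⟩ := hnb _ hq'
      exact hfree _ (GD_of (pD hD) h5 (pD (H.sub h6)))
    have hbase : b' ≠ ((xl, y1), 0) := by
      rintro rfl
      exact hq _ (GD_of (pD (H.band (by omega) (by omega) (by omega) (by omega))) nbD_W
        (pD (H.band (by omega) (by omega) (by omega) (by omega))))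
    have h5 := H.loc _ _ _ hra hfr hN hbase
    obtain ⟨⟨x', y'⟩, d'⟩ := b'
    rw [psT_A hA, psT_A hb', h5]
  rcases Env664.z4 d with rfl | rfl | rfl | rfl
  · -- `W`
    by_cases s1 : y1 ≤ y ∧ y < y2 ∧ xl ≤ x ∧ x ≤ xr
    · exact absurd (GD_of (pD hD) nbD_W
        (pD (H.band (by omega) (by omega) (by omega) (by omega)))) (hfree _)
    by_cases s2 : x = xl ∧ y = y1 - 1
    · obtain ⟨rfl, rfl⟩ := s2
      have d1 : (x, y1 - 1 + 1) ∈ Dp A x xr y1 y2 k :=
        H.band (by omega) (by omega) (by omega) (by omega)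
      have d2 : (x - 1, y1 - 1 + 1) ∈ Dp A x xr y1 y2 k :=
        H.band (by omega) (by omega) (by omega) (by omega)
      have o1 : (x - 1, y1 - 1 + 1 - 1) ∉ Dp A x xr y1 y2 k :=
        H.out (H.nl (by omega) (by omega) (by omega) (by omega)) (by omega)
      have hN := gop (y0 := y0) (p := p) (σ := sgD x p y0 y2) (rW x (y1 - 1)) (pD hD)
        (nbD_N (by omega)) (pD d1)
        (gop (rS x (y1 - 1 + 1)) (pD d1) nbD_W (pD d2)
          (stp (rE (x - 1) (y1 - 1 + 1)) (by rw [nbD_S (by omega)]; exact pD' o1)))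
      refine det hN ?_
      rw [psT_A hA, H.v1, psT_S (H.nl (by omega) (by omega) (by omega) (by omega)), sgD_N,
        if_neg (by omega), sgD_W, if_neg (by omega)]
      simp only [ro_some]; norm_num
    · refine good x (y + 1) rfl ⟨?_, by omega, by omega⟩ ?_
      · intro u v hu hv hm
        rw [mem_Dp] at hm
        rcases hm with hm | hm | hm
        · exact hm
        · exfalso; omega
        · exfalso; omega
      · intro q hq
        have h5 := (full_h.1 (Reg.gl_0.1 hq).1).1
        exact ⟨_, _, _, nbD_W, h5⟩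
  · -- `N`
    by_cases s1 : y1 ≤ y ∧ y + 1 < y2 ∧ xl ≤ x ∧ x ≤ xr
    · exfalso
      by_cases c3 : y = y0 - 1 ∧ p ≤ x
      · exact hfree _ (GD_of (pD hD) (nbD_N1 (by omega))
          (pD (H.band (by omega) (by omega) (by omega) (by omega))))
      · exact hfree _ (GD_of (pD hD) (nbD_N (by omega))
          (pD (H.band (by omega) (by omega) (by omega) (by omega))))
    by_cases s2 : x = xr ∧ y = y1 - 1
    · exfalso
      exact hfree _ (GD_of (pD hD) (nbD_N (by omega))
        (pD (H.band (by omega) (by omega) (by omega) (by omega))))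
    by_cases s3 : x = xr ∧ y = y2 - 1
    · exfalso
      refine hfree _ (GD_of (pD hD) (nbD_N (by omega)) (pD (H.sub ?_)))
      rw [s3.1, s3.2, sub_add_cancel]
      exact H.c4
    · refine good (x + 1) (y + 1) rfl ⟨?_, by omega, by omega⟩ ?_
      · intro u v hu hv hm
        rw [mem_Dp] at hm
        rcases hm with hm | hm | hm
        · exact hm
        · exfalso; omega
        · exfalso; omega
      · intro q hq
        have h5 := (full_v.1 (Reg.gl_1.1 hq).1).2
        exact ⟨_, _, _, nbD_N (by omega), h5⟩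
  · -- `E`
    by_cases s1 : y1 ≤ y ∧ y < y2 ∧ xl ≤ x ∧ x ≤ xr
    · exact absurd (GD_of (pD hD) nbD_E
        (pD (H.band (by omega) (by omega) (by omega) (by omega)))) (hfree _)
    by_cases s2 : x = xr ∧ y = y2
    · obtain ⟨rfl, rfl⟩ := s2
      have d1 : (x, y - 1) ∈ Dp A xl x y1 y k :=
        H.band (by omega) (by omega) (by omega) (by omega)
      have d2 : (x + 1, y - 1) ∈ Dp A xl x y1 y k :=
        H.band (by omega) (by omega) (by omega) (by omega)
      have o1 : (x + 1, y - 1 + 1) ∉ Dp A xl x y1 y k :=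
        H.out (H.nr (by omega) (by omega) (by omega) (by omega)) (by omega)
      have hN := gop (y0 := y0) (p := p) (σ := sgD xl p y0 y) (rE x y) (pD hD)
        (nbD_S (by omega)) (pD d1)
        (gop (rN x (y - 1)) (pD d1) nbD_E (pD d2)
          (stp (rW (x + 1) (y - 1)) (by rw [nbD_N (by omega)]; exact pD' o1)))
      refine det hN ?_
      rw [psT_A hA, H.v4, psT_N (H.nr (by omega) (by omega) (by omega) (by omega)),
        if_pos (by omega), sgD_S, if_neg (by omega), sgD_E, if_neg (by omega)]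
      simp only [ro_some]; norm_num
    · refine good (x + 1) y rfl ⟨?_, by omega, by omega⟩ ?_
      · intro u v hu hv hm
        rw [mem_Dp] at hm
        rcases hm with hm | hm | hm
        · exact hm
        · exfalso; omega
        · exfalso; omega
      · intro q hq
        have h5 := (full_h.1 (Reg.gl_2.1 hq).1).2
        exact ⟨_, _, _, nbD_E, h5⟩
  · -- `S`
    by_cases s1 : y1 < y ∧ y < y2 ∧ xl ≤ x ∧ x ≤ xr
    · exfalso
      by_cases c3 : y = y0 ∧ x = p
      · exact hfree _ (GD_of (pD hD) (nbD_Sleg c3) (portOf_none _))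
      by_cases c4 : y = y0 ∧ p < x
      · exact hfree _ (GD_of (pD hD) (nbD_S1 (by omega))
          (pD (H.band (by omega) (by omega) (by omega) (by omega))))
      · exact hfree _ (GD_of (pD hD) (nbD_S (by omega))
          (pD (H.band (by omega) (by omega) (by omega) (by omega))))
    by_cases s2 : x = xl ∧ y = y1
    · exfalso
      refine hfree _ (GD_of (pD hD) (nbD_S (by omega)) (pD (H.sub ?_)))
      rw [s2.1, s2.2]
      exact H.c1
    by_cases s3 : x = xl ∧ y = y2
    · exfalso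
      exact hfree _ (GD_of (pD hD) (nbD_S (by omega))
        (pD (H.band (by omega) (by omega) (by omega) (by omega))))
    · refine good x y rfl ⟨?_, by omega, by omega⟩ ?_
      · intro u v hu hv hm
        rw [mem_Dp] at hm
        rcases hm with hm | hm | hm
        · exact hm
        · exfalso; omega
        · exfalso; omega
      · intro q hq
        have h5 := (full_v.1 (Reg.gl_3.1 hq).1).1
        exact ⟨_, _, _, nbD_S (by omega), h5⟩

/-- **the table obeys the local rule** -/
theorem loc_D {a b : Port (ℤ × ℤ)} {κ : ℤ} {t : ℤ × ℤ} {d : ZMod 4} (ha : a = some (t, d))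
    (ht : t ∈ Dp A xl xr y1 y2 k) (hfree : ∀ q, ¬ GD A xl xr y1 y2 k p y0 a q)
    (h : NxS (sgD xl p y0 y2) (GD A xl xr y1 y2 k p y0) a b κ) :
    psT ψ A xr b = psT ψ A xr a + κ := by
  subst ha
  obtain ⟨x, y⟩ := t
  rcases mem_Dp.1 ht with h1 | h1 | h1
  · exact loc_A H h1 hfree h
  · exact loc_R H h1 hfree h
  · exact loc_L H h1 hfree h

end

end Crest.Agent.R158.Qc405
end

-- ▼ part R158/Qc7_405

/-!
# R158, Q1c part 7: the lifted directions of the region with stubs (helper405)

* `zz` : the zigzag splitting; `zwalk` : the zigzag strand from the leg along the line `y0`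
* **`psi_tab`** : for every good word `w` of `Dp A xl xr y1 y2 k` with the glueing
  `beD .. p y0 (xr + k)` and every free end `x`: `psi (sgD xl p y0 y2) w x = psT ψ A xr x`
-/

set_option autoImplicit false
set_option linter.unusedVariables false
set_option linter.unusedSectionVars false
set_option linter.unusedSimpArgs false

namespace Crest.Agent.R158.Qc405

open Crest.Agent.R158.Sw300
open Crest.Agent.R158.Gc748 (gl bs ts gd_wd pt)
open Crest.Agent.R158.Xr249 (rot rot_some rot_none Dp mem_Dp Free full full_h full_v Reg bas)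
open Crest.Agent.R158.Pt266
open Crest.Agent.R158.Ob664 (GW)
open Crest.Agent.R158.Env664 (nbD beD res PortOf portOf_some portOf_none nbD_leg nbD_W nbD_E nbD_N1
  nbD_N nbD_Sleg nbD_S1 nbD_S)

section

variable {T : Type*}

/-- a function that does not change along a cyclic chain is constant -/
lemma Cy.const {α β : Type*} {r : α → α → Prop} {f : α → β} (hf : ∀ a b, r a b → f a = f b) :
    ∀ {l : List α}, Cy r l → ∀ a ∈ l, ∀ b ∈ l, f a = f b
  | [], _, a, ha, _, _ => by simp at ha
  | x :: l, h, a, ha, b, hb => by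
    have key : ∀ (m : List α) (y : α), List.IsChain r (y :: m) → ∀ c ∈ y :: m, f y = f c := by
      intro m
      induction m with
      | nil => intro y _ c hc; simp only [List.mem_singleton] at hc; rw [hc]
      | cons z m ih =>
        intro y hch c hc
        rw [List.isChain_cons_cons] at hch
        rw [List.mem_cons] at hc
        rcases hc with rfl | hc
        · rfl
        · rw [hf _ _ hch.1]
          exact ih z hch.2 c hc
    have h' : List.IsChain r (x :: (l ++ [x])) := h
    have h1 := key _ x h' a (by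
      rw [List.mem_cons] at ha ⊢
      rcases ha with rfl | ha
      · exact Or.inl rfl
      · exact Or.inr (by simp [ha]))
    have h2 := key _ x h' b (by
      rw [List.mem_cons] at hb ⊢
      rcases hb with rfl | hb
      · exact Or.inl rfl
      · exact Or.inr (by simp [hb]))
    rw [← h1, h2]

lemma isLeg_of_bas [DecidableEq T] : ∀ {w : Wd T}, bas w = none → isLeg w
  | .leg, _ => trivial
  | .tile t, h => by simp [bas] at h
  | .att w _ _ _, h => isLeg_of_bas (w := w) h
  | .con w _ _, h => isLeg_of_bas (w := w) h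

end

variable {A : Finset (ℤ × ℤ)} {xl xr y1 y2 k p y0 : ℤ} {ψ : (ℤ × ℤ) × ZMod 4 → ℤ}
  {w : Wd (ℤ × ℤ)}

lemma GW.gs (h : GW (Dp A xl xr y1 y2 k) (beD (Dp A xl xr y1 y2 k) p y0 (xr + k)) w)
    (x y : Port (ℤ × ℤ)) : Gs w x y ↔ GD A xl xr y1 y2 k p y0 x y := by
  rw [be_iff h.word.1, h.word.2.2.2 x]
  rfl

lemma GW.memL (h : GW (Dp A xl xr y1 y2 k) (beD (Dp A xl xr y1 y2 k) p y0 (xr + k)) w)
    {t : ℤ × ℤ} {d : ZMod 4} : some (t, d) ∈ L w ↔
      t ∈ Dp A xl xr y1 y2 k ∧ ∀ q, ¬ GD A xl xr y1 y2 k p y0 (some (t, d)) q := by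
  rw [mem_L h.word.1, h.word.2.2.1]
  refine and_congr_right fun _ => ?_
  constructor
  · intro h1 q hq
    exact h1 ⟨q, (GW.gs h _ _).2 hq⟩
  · rintro h1 ⟨q, hq⟩
    exact h1 q ((GW.gs h _ _).1 hq)

lemma none_notin_L {T : Type*} [DecidableEq T] : ∀ {w : Wd T}, Ok w → isLeg w → w ≠ .leg →
    (none : Port T) ∉ L w
  | .leg, _, _, h => absurd rfl h
  | .tile t, _, h, _ => h.elim
  | .att w q t d, hok, hleg, _ => by
    obtain ⟨hw, hp, ht, hnone⟩ := hok
    rw [mem_L_att]
    rintro (⟨-, h⟩ | ⟨h1, h2⟩)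
    · simp at h
    · by_cases hwl : w = .leg
      · subst hwl
        have : q = none := by simpa [L] using hp
        exact h2 this.symm
      · exact none_notin_L hw hleg hwl h1
  | .con w q r, hok, hleg, _ => by
    obtain ⟨hw, hpn, hqn, hpq, hadj⟩ := hok
    obtain ⟨hp, hq⟩ := adj_mem hadj
    rw [mem_L_con]
    rintro ⟨h1, -⟩
    by_cases hwl : w = .leg
    · subst hwl
      exact hpn (by simpa [L] using hp)
    · exact none_notin_L hw hleg hwl h1

/-- the zigzag splitting -/
def zz (p y0 : ℤ) (t : ℤ × ℤ) : Bool :=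
  if t.2 = y0 then decide ((t.1 - p) % 2 = 0) else decide ((t.1 - p) % 2 = 1)

lemma zz_a {p y0 x : ℤ} (h : (x - p) % 2 = 0) : zz p y0 (x, y0) = true := by simp [zz, h]
lemma zz_b {p y0 x : ℤ} (h : (x - p) % 2 = 1) : zz p y0 (x, y0) = false := by simp [zz, h]
lemma zz_c {p y0 x : ℤ} (h : (x - p) % 2 = 0) : zz p y0 (x, y0 - 1) = false := by simp [zz, h]
lemma zz_d {p y0 x : ℤ} (h : (x - p) % 2 = 1) : zz p y0 (x, y0 - 1) = true := by simp [zz, h]

/-- the zigzag strand -/
lemma zwalk (H : TabH A xl xr y1 y2 k p y0 ψ)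
    (hw : GW (Dp A xl xr y1 y2 k) (beD (Dp A xl xr y1 y2 k) p y0 (xr + k)) w) :
    ∀ n : ℕ, p + n ≤ xr + k → ∃ l, (∀ r ∈ l, p ≤ r.1.1) ∧
      (((n : ℤ) % 2 = 0 ∧ Wk (zz p y0) (Gw w) ((p, y0), 3) ((p + n, y0), 2) l ∧
        tt (zz p y0) l = 1) ∨
       ((n : ℤ) % 2 = 1 ∧ Wk (zz p y0) (Gw w) ((p, y0), 3) ((p + n, y0 - 1), 1) l ∧
        tt (zz p y0) l = 0))
  | 0, h => by
    refine ⟨[((p, y0), 3)], by simp, Or.inl ⟨by simp, ?_, ?_⟩⟩
    · have h1 := Wk.one (s := zz p y0) (G := Gw w) (x := ((p, y0), 3))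
      have e : Pt266.pass (zz p y0) ((p, y0), 3) = ((p + ((0 : ℕ) : ℤ), y0), 2) := by
        simp only [Pt266.pass, zz_a (p := p) (y0 := y0) (x := p) (by simp), Nat.cast_zero, add_zero]
        rfl
      rwa [e] at h1
    · simp only [tt_cons, tt_nil, zz_a (p := p) (y0 := y0) (x := p) (by simp)]
      decide
  | n + 1, h => by
    have hk := H.hk
    have h1 := H.hy1
    have h2 := H.hy2
    have h3 := H.hp1
    have h4 := H.hp2
    have h0 : ((n + 1 : ℕ) : ℤ) = (n : ℤ) + 1 := by push_cast; rfl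
    obtain ⟨l, hl, hcase⟩ := zwalk H hw n (by omega)
    have dm : ∀ u v, p ≤ u → u ≤ xr + k → (v = y0 ∨ v = y0 - 1) → (u, v) ∈ Dp A xl xr y1 y2 k :=
      fun u v g1 g2 g3 => H.band (by omega) (by omega) (by omega) (by omega)
    have gg : ∀ {a b : (ℤ × ℤ) × ZMod 4}, a.1 ∈ Dp A xl xr y1 y2 k →
        b.1 ∈ Dp A xl xr y1 y2 k → nbD p y0 (xr + k) (some a) = some b → Gw w a b := by
      intro a b ha hb hab
      exact (GW.gs hw _ _).2 (GD_of (portOf_some.2 ha) hab (portOf_some.2 hb))
    rcases hcase with ⟨he, hW, ht⟩ | ⟨he, hW, ht⟩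
    · -- even to odd
      have ez : ((p + (n : ℤ) + 1) - p) % 2 = 1 := by omega
      have ez' : ((p + (n : ℤ)) - p) % 2 = 0 := by omega
      have s1 : Gw w ((p + n, y0), 2) ((p + n + 1, y0), 0) :=
        gg (dm _ _ (by omega) (by omega) (by omega)) (dm _ _ (by omega) (by omega) (by omega)) nbD_E
      have w1 := hW.snoc s1
      have p1 : Pt266.pass (zz p y0) ((p + n + 1, y0), 0) = ((p + n + 1, y0), 3) := by
        simp only [Pt266.pass, zz_b ez]; rfl
      rw [p1] at w1
      have s2 : Gw w ((p + n + 1, y0), 3) ((p + n, y0 - 1), 1) := by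
        refine gg (dm _ _ (by omega) (by omega) (by omega)) (dm _ _ (by omega) (by omega) (by omega)) ?_
        rw [nbD_S1 (by omega), add_sub_cancel_right]
      have w2 := w1.snoc s2
      have p2 : Pt266.pass (zz p y0) ((p + n, y0 - 1), 1) = ((p + n, y0 - 1), 2) := by
        simp only [Pt266.pass, zz_c ez']; rfl
      rw [p2] at w2
      have s3 : Gw w ((p + n, y0 - 1), 2) ((p + n + 1, y0 - 1), 0) :=
        gg (dm _ _ (by omega) (by omega) (by omega)) (dm _ _ (by omega) (by omega) (by omega)) nbD_E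
      have w3 := w2.snoc s3
      have p3 : Pt266.pass (zz p y0) ((p + n + 1, y0 - 1), 0) = ((p + n + 1, y0 - 1), 1) := by
        simp only [Pt266.pass, zz_d ez]; rfl
      rw [p3] at w3
      refine ⟨l ++ [((p + n + 1, y0), 0)] ++ [((p + n, y0 - 1), 1)] ++ [((p + n + 1, y0 - 1), 0)],
        ?_, Or.inr ⟨by omega, ?_, ?_⟩⟩
      · intro r hr
        simp only [List.append_assoc, List.cons_append, List.nil_append, List.mem_append,
          List.mem_cons, List.not_mem_nil, or_false] at hr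
        rcases hr with hr | rfl | rfl | rfl
        · exact hl r hr
        · simp only; omega
        · simp only; omega
        · simp only; omega
      · have e : (p + ((n + 1 : ℕ) : ℤ)) = p + n + 1 := by push_cast; ring
        rw [e]
        exact w3
      · rw [tt_append, tt_append, tt_append, ht]
        simp only [tt_cons, tt_nil, zz_b ez, zz_c ez', zz_d ez]
        decide
    · -- odd to even
      have ez : ((p + (n : ℤ) + 1) - p) % 2 = 0 := by omega
      have s1 : Gw w ((p + n, y0 - 1), 1) ((p + n + 1, y0), 3) :=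
        gg (dm _ _ (by omega) (by omega) (by omega)) (dm _ _ (by omega) (by omega) (by omega))
          (nbD_N1 (by omega))
      have w1 := hW.snoc s1
      have p1 : Pt266.pass (zz p y0) ((p + n + 1, y0), 3) = ((p + n + 1, y0), 2) := by
        simp only [Pt266.pass, zz_a ez]; rfl
      rw [p1] at w1
      refine ⟨l ++ [((p + n + 1, y0), 3)], ?_, Or.inl ⟨by omega, ?_, ?_⟩⟩
      · intro r hr
        simp only [List.mem_append, List.mem_cons, List.not_mem_nil, or_false] at hr
        rcases hr with hr | rfl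
        · exact hl r hr
        · simp only; omega
      · have e : (p + ((n + 1 : ℕ) : ℤ)) = p + n + 1 := by push_cast; ring
        rw [e]
        exact w1
      · rw [tt_append, ht]
        simp only [tt_cons, tt_nil, zz_a ez]
        decide

lemma sgD_east (hp : xl < p) {x y : ℤ} {d : ZMod 4} (h : p ≤ x) :
    sgD xl p y0 y2 (some ((x, y), d)) = 0 := by
  rcases Env664.z4 d with rfl | rfl | rfl | rfl
  · rw [sgD_W, if_neg (by omega)]
  · rw [sgD_N, if_neg (by omega)]
  · rw [sgD_E, if_neg (by omega)]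
  · rw [sgD_S, if_neg (by omega)]

lemma TabH.flw (H : TabH A xl xr y1 y2 k p y0 ψ)
    (hw : GW (Dp A xl xr y1 y2 k) (beD (Dp A xl xr y1 y2 k) p y0 (xr + k)) w) :
    An (sgD xl p y0 y2) w ∧ FlW (sgD xl p y0 y2) w ∧
      Cy (NS (sgD xl p y0 y2) (Gs w)) ((L w).map fun x => (x, psi (sgD xl p y0 y2) w x)) := by
  have hk := H.hk
  have h1 := H.hy1
  have h2 := H.hy2
  have h3 := H.hp1
  have h4 := H.hp2
  have hle := H.hf.le
  have o1 : (xr + k + 1, y0) ∉ Dp A xl xr y1 y2 k :=
    H.out (H.nr (by omega) (by omega) (by omega) (by omega)) (by omega)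
  have o2 : (xr + k + 1, y0 - 1) ∉ Dp A xl xr y1 y2 k :=
    H.out (H.nr (by omega) (by omega) (by omega) (by omega)) (by omega)
  have o3 : (xl - 1, y2) ∉ Dp A xl xr y1 y2 k :=
    H.out (H.nl (by omega) (by omega) (by omega) (by omega)) (by omega)
  have hLG : ∀ a b, Gs w a b → beD (Dp A xl xr y1 y2 k) p y0 (xr + k) a = b ∧ a ≠ b :=
    fun a b h => (GW.gs hw a b).1 h
  have hAn : An (sgD xl p y0 y2) w := by
    intro x y hxy
    obtain ⟨e1, e2⟩ := hLG x y (Or.inl hxy)
    exact sgD_anti (by omega) o1 e1 e2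
  have := flw_word (sgD xl p y0 y2) _ (vr_D (A := Dp A xl xr y1 y2 k) h3 h2 (by omega) o1 o2 o3)
    hw.word.1 (isLeg_of_bas hw.leg) hAn hLG
  exact ⟨hAn, this.1, this.2⟩

/-- **the lifted directions of the region with stubs** -/
theorem psi_tab (H : TabH A xl xr y1 y2 k p y0 ψ)
    (hw : GW (Dp A xl xr y1 y2 k) (beD (Dp A xl xr y1 y2 k) p y0 (xr + k)) w) :
    ∀ x ∈ L w, psi (sgD xl p y0 y2) w x = psT ψ A xr x := by
  have hk := H.hk
  have h1 := H.hy1
  have h2 := H.hy2
  have h3 := H.hp1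
  have h4 := H.hp2
  have hle := H.hf.le
  have hok := hw.word.1
  have hleg := isLeg_of_bas hw.leg
  obtain ⟨hAn, hF, hcc⟩ := H.flw hw
  have hpD : (p, y0) ∈ Dp A xl xr y1 y2 k := H.band (by omega) (by omega) (by omega) (by omega)
  have hwl : w ≠ .leg := by
    rintro rfl
    have := (hw.word.2.2.1 (p, y0)).2 hpD
    simp [tls] at this
  have hnone := none_notin_L hok hleg hwl
  -- the difference is constant
  have hconst : ∀ x ∈ L w, ∀ y ∈ L w, psi (sgD xl p y0 y2) w x - psT ψ A xr x =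
      psi (sgD xl p y0 y2) w y - psT ψ A xr y := by
    have key : Cy (fun x y : Port (ℤ × ℤ) => x ∈ L w ∧ NxS (sgD xl p y0 y2) (Gs w) x y
        (psi (sgD xl p y0 y2) w y - psi (sgD xl p y0 y2) w x)) (L w) := by
      have hall : ∀ l : List (Port (ℤ × ℤ)), (∀ x ∈ l, x ∈ L w) →
          Cy (NS (sgD xl p y0 y2) (Gs w)) (l.map fun x => (x, psi (sgD xl p y0 y2) w x)) →
          Cy (fun x y : Port (ℤ × ℤ) => x ∈ L w ∧ NxS (sgD xl p y0 y2) (Gs w) x y
            (psi (sgD xl p y0 y2) w y - psi (sgD xl p y0 y2) w x)) l := by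
        intro l hl hc
        cases l with
        | nil => trivial
        | cons a m =>
          have hc' : List.IsChain (NS (sgD xl p y0 y2) (Gs w))
              ((a :: (m ++ [a])).map fun x => (x, psi (sgD xl p y0 y2) w x)) := by
            have : List.IsChain (NS (sgD xl p y0 y2) (Gs w)) ((a, psi (sgD xl p y0 y2) w a) ::
              ((m.map fun x => (x, psi (sgD xl p y0 y2) w x)) ++
                [(a, psi (sgD xl p y0 y2) w a)])) := hc
            simpa using this
          rw [List.isChain_map] at hc'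
          show List.IsChain _ (a :: (m ++ [a]))
          have hmem : ∀ x ∈ a :: (m ++ [a]), x ∈ L w := by
            intro x hx
            simp only [List.mem_cons, List.mem_append, List.not_mem_nil, or_false] at hx
            rcases hx with rfl | hx | rfl
            · exact hl _ (by simp)
            · exact hl _ (by simp [hx])
            · exact hl _ (by simp)
          clear hc hl
          generalize a :: (m ++ [a]) = L0 at hc' hmem
          induction L0 with
          | nil => exact List.isChain_nil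
          | cons u L0 ih =>
            cases L0 with
            | nil => simp
            | cons v L0 =>
              rw [List.isChain_cons_cons] at hc' ⊢
              exact ⟨⟨hmem u (by simp), hc'.1⟩, ih hc'.2 fun x hx => hmem x (by simp [hx])⟩
      exact hall (L w) (fun x hx => hx) hcc
    intro x hx y hy
    refine Cy.const (f := fun x => psi (sgD xl p y0 y2) w x - psT ψ A xr x) ?_ key x hx y hy
    rintro a b ⟨ha, hab⟩
    rcases a with _ | ⟨t, d⟩
    · exact absurd ha hnone
    · obtain ⟨htD, hfr⟩ := (GW.memL hw).1 ha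
      have hG : Gs w = GD A xl xr y1 y2 k p y0 := by
        funext u v; exact propext (GW.gs hw u v)
      rw [hG] at hab
      have := loc_D H rfl htD hfr hab
      linarith
  -- one value
  obtain ⟨n, hn⟩ : ∃ n : ℕ, (n : ℤ) = xr + k - p := ⟨(xr + k - p).toNat, by omega⟩
  obtain ⟨l, hl, hcase⟩ := zwalk H hw n (by omega)
  have hsym := (glu_Gw hok).sym
  have hval : ∀ (e0 : (ℤ × ℤ) × ZMod 4) (c : ℤ), p ≤ e0.1.1 → some e0 ∈ L w →
      Wk (zz p y0) (Gw w) ((p, y0), 3) e0 l → tt (zz p y0) l = c →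
      psi (sgD xl p y0 y2) w (some e0) = 1 + c := by
    intro e0 c he0 heL hW htt
    have hlegp : Gs w (some ((p, y0), 3)) none := by
      refine (GW.gs hw _ _).2 (GD_of (portOf_some.2 hpD) (nbD_Sleg ⟨rfl, rfl⟩) (portOf_none _))
    have fleg : Fr (Gw w) ((p, y0), 3) := fr_leg hok hlegp
    have hWr := hW.reverse hsym
    have hu : u (zz p y0) w = some e0 := by
      by_contra hne
      have hM : M (zz p y0) w (some e0) ≠ some e0 := fun h =>
        hne ((Ok.inv (zz p y0) w hok).fix _ heL h).symm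
      obtain ⟨a, b, l', ha, hb, hw', -⟩ := walkS (zz p y0) (sgD xl p y0 y2) hok hAn hF heL hM
      obtain rfl := Option.some.inj ha
      have hbL : some b ∈ L w := by
        rw [← hb]; exact (Ok.inv (zz p y0) w hok).mem _ heL
      have fb : Fr (Gw w) b := fr_of_mem hok hbL
      obtain ⟨e1, -⟩ := hw'.det (glu_Gw hok).fn fb hWr fleg
      subst e1
      exact not_glued hok hbL hlegp
    obtain ⟨a, b, l', ha, hb, hw', hval⟩ := legS (zz p y0) (sgD xl p y0 y2) hok hleg hwl hAn hF
    rw [hu] at ha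
    obtain rfl := Option.some.inj ha
    have hbp : b = ((p, y0), 3) := by
      have h5 := (be_iff hok _ _).1 (gs_symm hb)
      have h6 := (be_iff hok _ _).1 (gs_symm hlegp)
      exact Option.some.inj (h5.1.symm.trans h6.1)
    subst hbp
    obtain ⟨-, e2⟩ := hw'.det (glu_Gw hok).fn fleg hWr fleg
    subst e2
    have hsm : sm (sgD xl p y0 y2) (rv (zz p y0) l) = 0 := by
      unfold sm
      have : ∀ r ∈ (rv (zz p y0) l).tail, - sgD xl p y0 y2 (some r) = 0 := by
        intro r hr
        have h5 : r ∈ rv (zz p y0) l := List.mem_of_mem_tail hr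
        rw [rv, List.mem_reverse, List.mem_map] at h5
        obtain ⟨r', hr', rfl⟩ := h5
        have h6 := hl r' hr'
        obtain ⟨⟨x', y'⟩, d'⟩ := r'
        rw [show Pt266.pass (zz p y0) ((x', y'), d') = ((x', y'), thru (zz p y0 (x', y')) d') from rfl,
          sgD_east h3 h6, neg_zero]
      rw [List.map_congr_left (g := fun _ => (0 : ℤ)) this]
      simp
    have htau := (Ok.tau (zz p y0) w hok).leg hleg
    rw [tt_rv, hsm, htt, sgD_east h3 (le_refl p), hu] at hval
    rw [hu] at htau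
    unfold de at hval
    linarith
  obtain ⟨e0, heL, heq⟩ : ∃ e0, e0 ∈ L w ∧ psi (sgD xl p y0 y2) w e0 = psT ψ A xr e0 := by
    have o1 : (xr + k + 1, y0) ∉ Dp A xl xr y1 y2 k :=
      H.out (H.nr (by omega) (by omega) (by omega) (by omega)) (by omega)
    have en : p + (n : ℤ) = xr + k := by omega
    rw [en] at hcase
    rcases hcase with ⟨-, hW, ht⟩ | ⟨-, hW, ht⟩
    · have heL : some ((xr + k, y0), (2 : ZMod 4)) ∈ L w := by
        rw [GW.memL hw]
        refine ⟨H.band (by omega) (by omega) (by omega) (by omega), GD_not ?_⟩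
        rw [nbD_E]
        exact pD' o1
      refine ⟨_, heL, ?_⟩
      rw [hval _ 1 (by simp only; omega) heL hW ht,
        psT_E (H.nr (by omega) (by omega) (by omega) (by omega))]
      norm_num
    · have heL : some ((xr + k, y0 - 1), (1 : ZMod 4)) ∈ L w := by
        rw [GW.memL hw]
        refine ⟨H.band (by omega) (by omega) (by omega) (by omega), GD_not ?_⟩
        rw [nbD_N1 (by omega)]
        exact pD' o1
      refine ⟨_, heL, ?_⟩
      rw [hval _ 0 (by simp only; omega) heL hW ht,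
        psT_N (H.nr (by omega) (by omega) (by omega) (by omega)), if_pos (by omega)]
      norm_num
  intro x hx
  have := hconst x hx e0 heL
  linarith

/-! ### the table hypotheses for 664's `psi` -/

open Crest.Agent.R158.Env664 (Run Mac D) in
/-- 664's `psi (full A) xl y1` satisfies the hypotheses of the table; the run is maximal in the rows
`Y1 ≤ y < Y2` with `Y1 < y1`, `y2 + 1 < Y2` -/
theorem tabH_psi {A : Finset (ℤ × ℤ)} (hsc : (full A).SC) (hc : (full A).Conn)
    {xl xr y1 y2 k p y0 Y1 Y2 : ℤ} (hr : ∀ y, Y1 ≤ y → y < Y2 → Run A xl xr y)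
    (h1 : Y1 < y1) (h2 : y2 < Y2) (hf : Free A xl xr y1 y2 k) (hk : 0 < k)
    (hy1 : y1 < y0) (hy2 : y0 < y2) (hp1 : xl < p) (hp2 : p ≤ xr) :
    TabH A xl xr y1 y2 k p y0 (Psi664.psi (full A) xl y1) := by
  have hle := hf.le
  obtain ⟨w, l, hw, hb, hB⟩ := Xr249.exists_BW hsc hc
    ((hr y1 (by omega) (by omega)).mem _ (le_refl _) hle) (hr y1 (by omega) (by omega)).left
  refine ⟨hf, hk, hy1, hy2, hp1, hp2, ?_, ?_, ?_, ?_, ?_, ?_, ?_, ?_, ?_, ?_⟩
  · intro x y g1 g2 g3 g4
    exact (hr y (by omega) (by omega)).mem x g1 g2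
  · exact (hr (y1 - 1) (by omega) (by omega)).mem _ (le_refl _) hle
  · exact (hr (y1 - 1) (by omega) (by omega)).mem _ hle (le_refl _)
  · exact (hr y2 (by omega) (by omega)).mem _ (le_refl _) hle
  · exact (hr y2 (by omega) (by omega)).mem _ hle (le_refl _)
  · rw [(Xr249.psi_left hsc hc hr (t0 := y1) (by omega) (by omega) (y := y1 - 1) (by omega)
      (by omega)).1, if_neg (by omega)]
  · exact (Xr249.psi_right hsc hc hr (t0 := y1) (by omega) (by omega) (y := y1 - 1) (by omega)
      (by omega)).1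
  · rw [(Xr249.psi_left hsc hc hr (t0 := y1) (by omega) (by omega) (y := y2) (by omega)
      (by omega)).1, if_pos (by omega)]
  · exact (Xr249.psi_right hsc hc hr (t0 := y1) (by omega) (by omega) (y := y2) (by omega)
      (by omega)).1
  · intro x y κ hx hy hxy hne
    exact Psi664.psi_next hB hx hy hxy hne

open Crest.Agent.R158.Env664 (Run Mac D) in
/-- the same for a macroscopic polyomino -/
theorem tabH_mac (M : Mac) {L a b c : ℤ} (hr : Run M.F a b c) {y1 y2 k p y0 : ℤ}
    (h1 : c * L < y1) (h2 : y2 < c * L + L) (hk : 0 < k) (hkL : k < L)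
    (hy1 : y1 < y0) (hy2 : y0 < y2) (hp1 : a * L < p) (hp2 : p ≤ b * L + L - 1) :
    TabH (D M.F L) (a * L) (b * L + L - 1) y1 y2 k p y0
      (Psi664.psi (full (D M.F L)) (a * L) y1) := by
  have hL : 0 < L := by omega
  exact tabH_psi (Xr249.D_SC M hL) (Xr249.D_Conn M hL)
    (fun y g1 g2 => hr.scale hL g1 g2) h1 h2 (Xr249.free_mac M hr h1 h2 hk.le hkL) hk hy1 hy2 hp1 hp2

end Crest.Agent.R158.Qc405
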