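import Crest.Agent.R158.Csh_410
import Crest.Agent.R158.Zc6_180
import Crest.Agent.R158.Al6_194
import Crest.Agent.R158.Xr11_249

/-!
# R158, Q1c = evaluation (helper405), assembly 1: the slice data and the two halves of `EvalP`

* `qpow_le` : `q ^ N ≤ C h ^ 4` if `1 ≤ 250 h (N + 1)`
* `Sl` : data of one slice at one scale; `Sl.at`, `Sl.par`, `Sl.free`, `Sl.word`, `Sl.hap`
* `MkP` : the marks are in clockwise order in the region with stubs
* `EvA`, `EvB` : the two halves (amplitude = value of the family on the word; value = observable)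
* `evalP_of : MkP → EvA → EvB → EvalP`
-/

set_option autoImplicit false

noncomputable section

namespace Crest.Agent.R158.Qf405

open Crest.Agent.R158.Cs410
open Crest.Agent.R158.Sw300 (Port Wd L)
open Crest.Agent.R158.Env664 (Run Band TG D beD)
open Crest.Agent.R158.Tj656 (P4)
open Crest.Agent.R158.Xr249 (Dp Free free_mac exists_GW_Dp)
open Crest.Agent.R158.Ob664 (GW HW HG HA HG_spec rgt)
open Crest.Agent.R158.Zc180 (Par)
open Crest.Agent.R158.Sp896 (V Adj Con)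
open Crest.Agent.R158.Al194 (Mk)

/-! ### the polyomino -/

/-- the polyomino of a polygon -/
def mcP (P : P4) : Env664.Mac where
  F := P.F
  ne := ⟨_, P.cyc.left 0⟩
  conn := fun a ha b hb => by
    have h := P.con a ha b hb
    clear hb
    induction h with
    | refl => exact .refl
    | tail h1 h2 ih =>
      exact .tail ih ⟨by have := h2.1; unfold Adj at this; unfold Env664.Adj4; omega,
        Sp896.Con.mem h1 ha, h2.2⟩
  cconn := fun a ha b hb => by
    have h := P.con' a ha b hb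
    clear hb
    induction h with
    | refl => exact .refl
    | tail h1 h2 ih =>
      exact .tail ih ⟨by have := h2.1; unfold Adj at this; unfold Env664.Adj4; omega,
        Sp896.Con.mem (S := (↑P.F : Set V)ᶜ) h1 ha, h2.2⟩

/-! ### powers of the gate constant -/

lemma exp_neg_le {x : ℝ} (hx : 0 < x) : Real.exp (-x) ≤ 24 / x ^ 4 := by
  have h1 : x ^ 4 / 24 ≤ Real.exp x := by
    have := Real.pow_div_factorial_le_exp x hx.le 4
    have e : ((Nat.factorial 4 : ℕ) : ℝ) = 24 := by norm_num [Nat.factorial]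
    rwa [e] at this
  rw [Real.exp_neg, inv_le_comm₀ (Real.exp_pos _) (by positivity)]
  rw [inv_div]
  exact h1

/-- powers of the gate constant in terms of the height of the slice -/
theorem qpow_le {q : ℝ} (hq : 0 < q) (hq1 : q < 1) : ∃ C : ℝ, 0 ≤ C ∧ ∀ (h : ℝ) (N : ℕ), 0 < h →
    1 ≤ 250 * h * (N + 1) → q ^ N ≤ C * h ^ 4 := by
  set c : ℝ := -Real.log q with hc
  have hc0 : 0 < c := by
    rw [hc]; exact neg_pos.2 (Real.log_neg hq hq1)
  refine ⟨q⁻¹ * (24 / (c / 250) ^ 4), by positivity, fun h N hh hN => ?_⟩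
  have e1 : q ^ N = q⁻¹ * Real.exp (-(c * (N + 1))) := by
    have : Real.exp (-(c * (N + 1))) = q ^ (N + 1) := by
      rw [hc, show -(-Real.log q * ((N : ℝ) + 1)) = ((N + 1 : ℕ) : ℝ) * Real.log q by
        push_cast; ring, Real.exp_nat_mul, Real.exp_log hq]
    rw [this, pow_succ]
    field_simp
  have hN1 : 1 / (250 * h) ≤ (N : ℝ) + 1 := by
    rw [div_le_iff₀ (by positivity)]; linarith
  have e2 : Real.exp (-(c * (N + 1))) ≤ Real.exp (-(c * (1 / (250 * h)))) := by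
    apply Real.exp_le_exp.2
    have := mul_le_mul_of_nonneg_left hN1 hc0.le
    linarith
  have e3 := exp_neg_le (x := c * (1 / (250 * h))) (by positivity)
  have e4 : 24 / (c * (1 / (250 * h))) ^ 4 = 24 / (c / 250) ^ 4 * h ^ 4 := by
    field_simp
  rw [e1, mul_assoc]
  refine mul_le_mul_of_nonneg_left ?_ (by positivity)
  linarith

/-! ### the slice -/

/-- data of one slice at one scale -/
structure Sl (P : P4) (A' B' r : ℤ) (h y : ℝ) (L : ℤ) (B : Band (D P.F L)) (p y0 : ℤ) : Prop where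
  run : Run P.F A' B' r
  ev : Even L
  onB : OnB A' B' L h y B
  h0 : 0 < h
  h1 : h < 1 / 100
  m1 : (r : ℝ) + h < y - 3 * h
  m2 : y + 3 * h < r + 1 - h
  p1 : (A' : ℝ) * L < p
  p2 : (p : ℝ) < (B' + 1) * L
  y1 : y - h ≤ (y0 : ℝ) / L
  y2 : (y0 : ℝ) / L ≤ y + h
  big : 1000 ≤ h * L

namespace Sl

variable {P : P4} {A' B' r : ℤ} {h y : ℝ} {L : ℤ} {B : Band (D P.F L)} {p y0 : ℤ}

lemma Lr (S : Sl P A' B' r h y L B p y0) : (100000 : ℝ) < L := by
  have h0 := S.h0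
  have h1 := S.h1
  have h2 := S.big
  have hL : (0 : ℝ) < L := by
    by_contra hc
    push Not at hc
    nlinarith
  nlinarith

lemma L0 (S : Sl P A' B' r h y L B p y0) : (100000 : ℤ) < L := by
  have := S.Lr
  exact_mod_cast this

lemma y1l (S : Sl P A' B' r h y L B p y0) : (B.y1 : ℝ) ≤ (y - 3 * h) * L := by
  rw [S.onB.y1]; exact Int.floor_le _

lemma y1r (S : Sl P A' B' r h y L B p y0) : (y - 3 * h) * L < B.y1 + 1 := by
  rw [S.onB.y1]; exact Int.lt_floor_add_one _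

lemma y2l (S : Sl P A' B' r h y L B p y0) : (B.y2 : ℝ) ≤ (y + 3 * h) * L := by
  rw [S.onB.y2]; exact Int.floor_le _

lemma y2r (S : Sl P A' B' r h y L B p y0) : (y + 3 * h) * L < B.y2 + 1 := by
  rw [S.onB.y2]; exact Int.lt_floor_add_one _

lemma z1 (S : Sl P A' B' r h y L B p y0) : (y - h) * L ≤ y0 := by
  have h1 := S.y1
  rwa [le_div_iff₀ (by have := S.Lr; linarith)] at h1

lemma z2 (S : Sl P A' B' r h y L B p y0) : (y0 : ℝ) ≤ (y + h) * L := by
  have h1 := S.y2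
  rwa [div_le_iff₀ (by have := S.Lr; linarith)] at h1

lemma lt1 (S : Sl P A' B' r h y L B p y0) : r * L < B.y1 := by
  have h1 := S.m1
  have h2 := S.y1r
  have h3 := S.Lr
  have h4 := S.big
  have h5 : ((r * L : ℤ) : ℝ) < B.y1 := by
    push_cast
    nlinarith
  exact_mod_cast h5

lemma lt2 (S : Sl P A' B' r h y L B p y0) : B.y2 < r * L + L := by
  have h1 := S.m2
  have h2 := S.y2l
  have h3 := S.Lr
  have h4 := S.big
  have h5 : (B.y2 : ℝ) < ((r * L + L : ℤ) : ℝ) := by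
    push_cast
    nlinarith
  exact_mod_cast h5

lemma at' (S : Sl P A' B' r h y L B p y0) : B.At p y0 := by
  have h3 := S.Lr
  have h4 := S.big
  have h5 := S.h0
  refine ⟨?_, ?_, ?_, ?_⟩
  · have h1 := S.y1l
    have h2 := S.z1
    have : (B.y1 : ℝ) < y0 := by nlinarith
    exact_mod_cast this
  · have h1 := S.y2r
    have h2 := S.z2
    have : (y0 : ℝ) < B.y2 := by nlinarith
    exact_mod_cast this
  · rw [S.onB.xl]
    have : ((A' * L : ℤ) : ℝ) < p := by push_cast; exact S.p1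
    exact_mod_cast this
  · rw [S.onB.xr]
    have : (p : ℝ) < ((B' * L + L : ℤ) : ℝ) := by push_cast; nlinarith [S.p2]
    have : p < B' * L + L := by exact_mod_cast this
    omega

/-- height of the band -/
def ht {T : Finset (ℤ × ℤ)} (B : Band T) : ℕ := (B.y2 - B.y1).toNat

lemma ht_cast (S : Sl P A' B' r h y L B p y0) : (ht B : ℤ) = B.y2 - B.y1 := by
  have := S.at'.hy1
  have := S.at'.hy2
  unfold ht
  omega

lemma ht1 (S : Sl P A' B' r h y L B p y0) : 6 * h * L - 1 ≤ ht B := by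
  have e : ((ht B : ℕ) : ℝ) = B.y2 - B.y1 := by
    have := S.ht_cast
    have h1 : (((ht B : ℕ) : ℤ) : ℝ) = ((B.y2 - B.y1 : ℤ) : ℝ) := by rw [this]
    simpa using h1
  rw [e]
  have := S.y1l
  have := S.y2r
  linarith

lemma ht2 (S : Sl P A' B' r h y L B p y0) : (ht B : ℝ) ≤ 6 * h * L + 1 := by
  have e : ((ht B : ℕ) : ℝ) = B.y2 - B.y1 := by
    have := S.ht_cast
    have h1 : (((ht B : ℕ) : ℤ) : ℝ) = ((B.y2 - B.y1 : ℤ) : ℝ) := by rw [this]
    simpa using h1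
  rw [e]
  have := S.y1r
  have := S.y2l
  linarith

lemma ht_pos (S : Sl P A' B' r h y L B p y0) : 3 ≤ ht B := by
  have h1 := S.ht1
  have h2 := S.big
  have : (3 : ℝ) ≤ ht B := by linarith
  exact_mod_cast this

lemma ht_le (S : Sl P A' B' r h y L B p y0) : (ht B : ℤ) * 16 ≤ L := by
  have h1 := S.ht2
  have h2 := S.h1
  have h3 := S.Lr
  have : (ht B : ℝ) * 16 ≤ L := by nlinarith
  have h4 : (((ht B : ℤ) * 16 : ℤ) : ℝ) ≤ ((L : ℤ) : ℝ) := by push_cast; exact this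
  exact_mod_cast h4

/-- number of squares that fit into a width `m` -/
def nsq {T : Finset (ℤ × ℤ)} (B : Band T) (m : ℤ) : ℕ := (m / ht B).toNat

lemma nsq_mul (S : Sl P A' B' r h y L B p y0) {m : ℤ} (hm : 0 ≤ m) : (nsq B m : ℤ) * ht B ≤ m := by
  have h3 := S.ht_pos
  have h4 : (0 : ℤ) < ht B := by omega
  unfold nsq
  rw [Int.toNat_of_nonneg (Int.ediv_nonneg hm h4.le)]
  exact Int.ediv_mul_le m (by omega)

/-- `1 ≤ 250 h (nsq + 1)` as soon as the width is at least `L / 32 - 2` -/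
lemma nsq_ge (S : Sl P A' B' r h y L B p y0) {m : ℤ} (hm : L / 32 - 2 ≤ m) :
    1 ≤ 250 * h * (nsq B m + 1) := by
  have h0 := S.h0
  have h3 := S.ht_pos
  have hL := S.Lr
  have hL0 := S.L0
  have h4 : (0 : ℤ) < ht B := by omega
  have hm0 : 0 ≤ m := by omega
  have h5 : m < (nsq B m + 1 : ℤ) * ht B := by
    unfold nsq
    rw [Int.toNat_of_nonneg (Int.ediv_nonneg hm0 h4.le)]
    have := Int.lt_ediv_add_one_mul_self m h4
    exact this
  have h6 : (m : ℝ) < ((nsq B m : ℝ) + 1) * ht B := by exact_mod_cast h5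
  have h7 : (L : ℝ) / 32 - 3 ≤ m := by
    have : (L : ℤ) ≤ 32 * (m + 3) := by omega
    have h8 : ((L : ℤ) : ℝ) ≤ ((32 * (m + 3) : ℤ) : ℝ) := by exact_mod_cast this
    push_cast at h8
    linarith
  have h8 := S.ht2
  have h9 : (0 : ℝ) < (nsq B m : ℝ) + 1 := by positivity
  have h10 := S.big
  have h11 : (L : ℝ) / 32 - 3 < ((nsq B m : ℝ) + 1) * (6 * h * L + 1) :=
    lt_of_le_of_lt h7 (h6.trans_le (mul_le_mul_of_nonneg_left h8 h9.le))
  have h12 : (6 * h * L + 1 : ℝ) ≤ 6.01 * (h * L) := by nlinarith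
  have h13 : (L : ℝ) / 32 - 3 < ((nsq B m : ℝ) + 1) * (6.01 * (h * L)) :=
    h11.trans_le (mul_le_mul_of_nonneg_left h12 h9.le)
  have h14 : 0.03 * (L : ℝ) ≤ L / 32 - 3 := by linarith
  by_contra hc
  push Not at hc
  have h15 : ((nsq B m : ℝ) + 1) * (6.01 * (h * L)) < 0.02404 * L + 0 := by
    have : ((nsq B m : ℝ) + 1) * (6.01 * (h * L)) =
        (250 * h * ((nsq B m : ℝ) + 1)) * (0.02404 * L) := by ring
    rw [this]
    nlinarith
  linarith


/-- conditions of the decoupling -/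
theorem par' (S : Sl P A' B' r h y L B p y0) {N : ℕ} (hN : (N : ℤ) * ht B ≤ L / 8 - 2) :
    Par B (L / 8) (L / 2) (ht B) N := by
  have h0 := S.L0
  have h1 := S.ht_le
  have h2 := S.ht_cast
  have h3 := S.ht_pos
  have h4 := S.onB.R
  have h5 := S.ev
  obtain ⟨m, hm⟩ := h5
  refine ⟨by omega, h3, by omega, hN, by omega, by omega⟩

theorem par (S : Sl P A' B' r h y L B p y0) :
    Par B (L / 8) (L / 2) (ht B) (nsq B (L / 8 - 2)) :=
  S.par' (S.nsq_mul (by have := S.L0; omega))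

/-- the stubs fit -/
theorem free (S : Sl P A' B' r h y L B p y0) {k : ℤ} (hk0 : 0 ≤ k) (hk : k < L) :
    Free (D P.F L) B.xl B.xr B.y1 B.y2 k := by
  have h1 := free_mac (mcP P) (L := L) S.run (y1 := B.y1) (y2 := B.y2) (k := k) S.lt1 S.lt2 hk0 hk
  rw [S.onB.xl, S.onB.xr]
  exact h1

/-- good words -/
theorem word (S : Sl P A' B' r h y L B p y0) {k : ℤ} (hk0 : 0 ≤ k) (hk : k < L) :
    ∃ w, GW (Dp (D P.F L) B.xl B.xr B.y1 B.y2 k)
      (beD (Dp (D P.F L) B.xl B.xr B.y1 B.y2 k) p y0 (B.xr + k)) w := by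
  have hL : 0 < L := by have := S.L0; omega
  have hz := S.at'
  refine exists_GW_Dp (S.free hk0 hk) (fun a ha b hb => Xr249.D_cpath (mcP P) hL ha hb)
    (fun a ha b hb => Xr249.D_cpath_in (mcP P) hL ha hb) ?_ hz.hy1 hz.hy2 hz.hp1 hz.hp2
  intro x g1 g2
  have r1 := B.run (y0 - 1) (by have := hz.hy1; omega) (by have := hz.hy2; omega)
  have r2 := B.run y0 hz.hy1.le hz.hy2
  exact ⟨r1.mem x g1 g2, r2.mem x g1 g2⟩

/-- right end of the row in the region with stubs -/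
theorem rgt_eq (S : Sl P A' B' r h y L B p y0) {k : ℤ} (hk0 : 0 ≤ k) (hk : k < L) :
    rgt (Dp (D P.F L) B.xl B.xr B.y1 B.y2 k) p y0 = B.xr + k := by
  have hz := S.at'
  have hf := S.free hk0 hk
  have r2 := B.run y0 hz.hy1.le hz.hy2
  have h1 := hz.hy1
  have h2 := hz.hy2
  have h3 := hz.hp1
  have h4 := hz.hp2
  have hrun : Run (Dp (D P.F L) B.xl B.xr B.y1 B.y2 k) (B.xl - k) (B.xr + k) y0 := by
    refine ⟨by omega, ?_, ?_, ?_⟩
    · intro x g1 g2
      rw [Xr249.mem_Dp]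
      rcases lt_or_ge x B.xl with g3 | g3
      · right; right; exact ⟨⟨by omega, g3⟩, h1.le, h2⟩
      · rcases le_or_gt x B.xr with g4 | g4
        · left; exact r2.mem x g3 g4
        · right; left; exact ⟨⟨by omega, by omega⟩, h1.le, h2⟩
    · rw [Xr249.mem_Dp]
      rintro (g | g | g)
      · exact hf.left _ _ (by omega) (by omega) (by omega) (by omega) g
      · omega
      · omega
    · rw [Xr249.mem_Dp]
      rintro (g | g | g)
      · exact hf.right _ _ (by omega) (by omega) (by omega) (by omega) g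
      · omega
      · omega
  exact Ob664.rgt_run hrun (by omega) (by omega)

/-- the observable is the value of a good word -/
theorem hap (S : Sl P A' B' r h y L B p y0) :
    ∃ w, GW (Dp (D P.F L) B.xl B.xr B.y1 B.y2 (L / 8))
      (beD (Dp (D P.F L) B.xl B.xr B.y1 B.y2 (L / 8)) p y0 (B.xr + L / 8)) w ∧
      HAp P L B p y0 = HW w (Cs410.mk P L 0) (Cs410.mk P L 1) (Cs410.mk P L 2) := by
  have h0 := S.L0
  have h1 := S.rgt_eq (k := L / 8) (by omega) (by omega)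
  obtain ⟨w, hw, e⟩ := HG_spec (S.word (k := L / 8) (by omega) (by omega)) (Cs410.mk P L 0) (Cs410.mk P L 1)
    (Cs410.mk P L 2)
  refine ⟨w, hw, ?_⟩
  unfold HAp HA
  rw [h1, e]

end Sl

/-! ### the two halves -/

/-- value of a family on a word -/
abbrev VT : Type := ∀ (P : P4) (L : ℤ) (_δ : ℝ) (_B : Band (D P.F L)) (_p _y0 : ℤ)
  (_w : Wd (ℤ × ℤ)), ℂ

/-- **marks** of the region with stubs -/
def MkP (P : P4) : Prop :=
  ∀ A' B' r : ℤ, Run P.F A' B' r → ∀ a b c e : ℝ, (A' : ℝ) < a → a ≤ b → b < B' + 1 → c ≤ e →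
    InHalf r c e → ∃ h0 : ℝ, 0 < h0 ∧ ∀ h y : ℝ, 0 < h → h < h0 → c ≤ y → y ≤ e →
      ∃ L0 : ℤ, ∀ L : ℤ, L0 ≤ L → ∀ (B : Band (D P.F L)) (p y0 : ℤ),
        Sl P A' B' r h y L B p y0 → a * L ≤ p → (p : ℝ) ≤ b * L →
        ∀ w, GW (Dp (D P.F L) B.xl B.xr B.y1 B.y2 (L / 8))
          (beD (Dp (D P.F L) B.xl B.xr B.y1 B.y2 (L / 8)) p y0 (B.xr + L / 8)) w →
        Mk w (mk P L 0) (mk P L 1) (mk P L 2)

/-- **amplitude = value of the family on the word** -/
def EvA (fz : FZ) (VI : VT) (P : P4) : Prop :=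
  ∀ A' B' r : ℤ, Run P.F A' B' r → ∀ a b c e : ℝ, (A' : ℝ) < a → a ≤ b → b < B' + 1 → c ≤ e →
    InHalf r c e → ∃ h0 C : ℝ, 0 < h0 ∧ 0 ≤ C ∧
      ∀ h y : ℝ, 0 < h → h < h0 → c ≤ y → y ≤ e → ∀ δ : ℝ, 0 < δ → δ ≤ h / 100 →
        ∃ L0 : ℤ, ∀ L : ℤ, L0 ≤ L → ∀ (B : Band (D P.F L)) (p y0 : ℤ),
          Sl P A' B' r h y L B p y0 → a * L ≤ p → (p : ℝ) ≤ b * L →
          ∀ w, GW (Dp (D P.F L) B.xl B.xr B.y1 B.y2 (L / 8))
            (beD (Dp (D P.F L) B.xl B.xr B.y1 B.y2 (L / 8)) p y0 (B.xr + L / 8)) w →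
          Mk w (mk P L 0) (mk P L 1) (mk P L 2) →
          ‖(fz P L δ B).amp p y0 / (fz P L δ B).Z - VI P L δ B p y0 w‖ ≤ C * h ^ 2

/-- **value of the family on the word = observable** -/
def EvB (VI : VT) (P : P4) : Prop :=
  ∀ A' B' r : ℤ, Run P.F A' B' r → ∀ a b c e : ℝ, (A' : ℝ) < a → a ≤ b → b < B' + 1 → c ≤ e →
    InHalf r c e → ∃ h0 C : ℝ, 0 < h0 ∧ 0 ≤ C ∧
      ∀ h y : ℝ, 0 < h → h < h0 → c ≤ y → y ≤ e → ∃ δ : ℝ, 0 < δ ∧ δ ≤ h / 100 ∧
        ∃ L0 : ℤ, ∀ L : ℤ, L0 ≤ L → ∀ (B : Band (D P.F L)) (p y0 : ℤ),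
          Sl P A' B' r h y L B p y0 → a * L ≤ p → (p : ℝ) ≤ b * L →
          ∀ w, GW (Dp (D P.F L) B.xl B.xr B.y1 B.y2 (L / 8))
            (beD (Dp (D P.F L) B.xl B.xr B.y1 B.y2 (L / 8)) p y0 (B.xr + L / 8)) w →
          Mk w (mk P L 0) (mk P L 1) (mk P L 2) →
          ‖VI P L δ B p y0 w - HW w (mk P L 0) (mk P L 1) (mk P L 2)‖ ≤ C * h ^ 2

/-- **`EvalP` from the two halves** -/
theorem evalP_of {fz : FZ} {VI : VT} {P : P4} (hM : MkP P) (hA : EvA fz VI P) (hB : EvB VI P) :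
    EvalP fz P := by
  intro A' B' r hrun a b c e hAa hab hbB hce hc
  obtain ⟨h1, C1, hh1, hC1, hA⟩ := hA A' B' r hrun a b c e hAa hab hbB hce hc
  obtain ⟨h2, C2, hh2, hC2, hB⟩ := hB A' B' r hrun a b c e hAa hab hbB hce hc
  obtain ⟨h3, hh3, hM⟩ := hM A' B' r hrun a b c e hAa hab hbB hce hc
  obtain ⟨m, hm0, hm, hm1, hm2⟩ := hc.margin hce
  refine ⟨min (min h1 h2) (min h3 (min (m / 4) (1 / 100))), C1 + C2, 1,
    lt_min (lt_min hh1 hh2) (lt_min hh3 (lt_min (by linarith) (by norm_num))), by linarith,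
    one_pos, fun h y hh hlt hy1 hy2 => ?_⟩
  have l1 : h < h1 := hlt.trans_le ((min_le_left _ _).trans (min_le_left _ _))
  have l2 : h < h2 := hlt.trans_le ((min_le_left _ _).trans (min_le_right _ _))
  have l0 : h < h3 := hlt.trans_le ((min_le_right _ _).trans (min_le_left _ _))
  have l3 : h < m / 4 := hlt.trans_le ((min_le_right _ _).trans ((min_le_right _ _).trans
    (min_le_left _ _)))
  have l4 : h < 1 / 100 := hlt.trans_le ((min_le_right _ _).trans ((min_le_right _ _).trans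
    (min_le_right _ _)))
  obtain ⟨δ, hδ0, hδ1, L2, hB⟩ := hB h y hh l2 hy1 hy2
  obtain ⟨L1, hA⟩ := hA h y hh l1 hy1 hy2 δ hδ0 hδ1
  obtain ⟨L3, hM⟩ := hM h y hh l0 hy1 hy2
  refine ⟨δ, hδ0, hδ1, max (max L1 L2) (max L3 ⌈1000 / h⌉), fun L hL hev B hBd p y0 g1 g2 g3 g4 => ?_⟩
  have k1 : L1 ≤ L := (le_max_left _ _).trans ((le_max_left _ _).trans hL)
  have k2 : L2 ≤ L := (le_max_right _ _).trans ((le_max_left _ _).trans hL)
  have k3 : L3 ≤ L := (le_max_left _ _).trans ((le_max_right _ _).trans hL)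
  have k4 : ⌈1000 / h⌉ ≤ L := (le_max_right _ _).trans ((le_max_right _ _).trans hL)
  have hLr : 1000 / h ≤ L := by
    have h5 := Int.le_ceil (1000 / h)
    have : ((⌈1000 / h⌉ : ℤ) : ℝ) ≤ L := by exact_mod_cast k4
    linarith
  have hL0 : (0 : ℝ) < L := lt_of_lt_of_le (by positivity) hLr
  have hbig : 1000 ≤ h * L := by
    rw [div_le_iff₀ hh] at hLr
    linarith
  have i1 : a * L ≤ p := by rwa [le_div_iff₀ hL0] at g1
  have i2 : (p : ℝ) ≤ b * L := by rwa [div_le_iff₀ hL0] at g2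
  have S : Sl P A' B' r h y L B p y0 :=
    { run := hrun
      ev := hev
      onB := hBd
      h0 := hh
      h1 := l4
      m1 := by linarith
      m2 := by linarith
      p1 := lt_of_lt_of_le (mul_lt_mul_of_pos_right hAa hL0) i1
      p2 := lt_of_le_of_lt i2 (mul_lt_mul_of_pos_right hbB hL0)
      y1 := g3
      y2 := g4
      big := hbig }
  obtain ⟨w, hw, e1⟩ := S.hap
  have hMw := hM L k3 B p y0 S i1 i2 w hw
  have e2 := hA L k1 B p y0 S i1 i2 w hw hMw
  have e3 := hB L k2 B p y0 S i1 i2 w hw hMw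
  rw [e1]
  have e4 : (fz P L δ B).amp p y0 / (fz P L δ B).Z - HW w (mk P L 0) (mk P L 1) (mk P L 2) =
      ((fz P L δ B).amp p y0 / (fz P L δ B).Z - VI P L δ B p y0 w) +
        (VI P L δ B p y0 w - HW w (mk P L 0) (mk P L 1) (mk P L 2)) := by ring
  rw [e4]
  refine (norm_add_le _ _).trans ((add_le_add e2 e3).trans (le_of_eq ?_))
  rw [show (1 : ℝ) + 1 = ((2 : ℕ) : ℝ) by norm_num, Real.rpow_natCast]
  ring

end Crest.Agent.R158.Qf405
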