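import Crest.Agent.R158.Oc5_194_Mg
import Crest.Agent.R158.Ad8_350
import Crest.Agent.R158.Fm1_857
import Crest.Agent.R158.Zc2_180
import Crest.Agent.R158.Ad14_350
import Crest.Agent.R158.Qd2_300
import Crest.Agent.R158.Dp1_440
import Crest.Agent.R158.Oc4_194

-- ▼ part R158/Ad16_350
section

/-!
# Block AD, the ring function and the strip (helper350)

* `freeG_odd`, `norm3` : `√3 ^ mG = 3 ^ ((#freeG - 1) / 4)`
* **`HGr_int`** : the ring function with the normalisation of helper857 = `ei (π/12) ∫ valG / Zs`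
* `valD_dep`, `valD_int`
* **`ring_strip`** : decoupling of the strip for the ring function
-/

set_option autoImplicit false
set_option linter.unusedSectionVars false
set_option linter.unusedVariables false

noncomputable section

open Finset MeasureTheory

namespace Crest.Agent.R158.Ad350

open Crest.Agent.R158.Rs689 (PB hf Dep)
open Crest.Agent.R158.Mr679 (mem_bxF InB)
open Crest.Agent.R158.Nm211 (DepF)
open Crest.Agent.R158.Xr249 (rct mem_rct full eS eD Dp mem_Dp pm pm_some Dp_cases eD_in eD_r eD_l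
  eD_A wd_cases pm_inj pm_portOf eD_glue)
open Crest.Agent.R158.Sw300 (Port Wd L thru)
open Crest.Agent.R158.Env664 (TG Band Adj4 PortOf portOf_some portOf_none nbP nbD beD res res_of Run)
open Crest.Agent.R158.Ao857 (legP beL chL beL_ne chL_ne chG beG_fix Split)
open Crest.Agent.R158.Zg180 (Gq Near Far gate uc se)
open Crest.Agent.R158.Zc180 (Par Cf farG farS ballS Over Zs Sf Wf)
open Crest.Agent.R158.Zb180 (Pf)
open Crest.Agent.R158.Fm857 (ps psD cb cp clow ctw phi isLS freeG mem_freeG mem_flr mem_cil HGr kap)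
open Crest.Agent.R158.Qd300 (C0 DB beC chN ND NDe inLS Art)
open Crest.Agent.R158.Ob664 (GW)
open Crest.Agent.R158.Qc405 (TabH psT sgD)
open Crest.Agent.R158.Al194 (hL)

variable {A : Finset (ℤ × ℤ)} {B : Band A} {p y0 k b : ℤ} {m1 m2 : Port TG} {s : TG → Bool}
  {w : Wd (ℤ × ℤ)} {e : Option (Port TG)} {a0 b1 : ℤ}

/-! ### the power of three -/

/-- the number of free ends is odd -/
lemma freeG_odd (hz : B.At p y0) : (freeG B).card + 1 = 2 * (mG B + 1) := by
  have h1 := card_ends_G hz 0 0 (fun _ => 0) fun _ => false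
  have hN := netN_ok hz 0 0 (fun _ => 0) fun _ => false
  have h2 := Net.two_mul_arcs hN hN.clV
  unfold mG
  omega

/-- the exponent of three -/
lemma norm3 (hz : B.At p y0) : ((Real.sqrt 3 : ℝ) : ℂ) ^ mG B =
    (((3 : ℝ) ^ ((((freeG B).card : ℝ) - 1) / 4) : ℝ) : ℂ) := by
  have h1 := freeG_odd hz
  have h2 : ((freeG B).card : ℝ) + 1 = 2 * (mG B + 1) := by exact_mod_cast h1
  rw [← Complex.ofReal_pow]
  congr 1
  rw [Real.sqrt_eq_rpow, ← Real.rpow_natCast, ← Real.rpow_mul (by norm_num)]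
  congr 1
  linarith

lemma ei_mul_star (x : ℝ) : ei x * star (ei x) = 1 := by
  show ei x * (starRingEnd ℂ) (ei x) = 1
  rw [Complex.mul_conj]
  have : ‖ei x‖ = 1 := by
    unfold ei
    exact Complex.norm_exp_ofReal_mul_I x
  rw [Complex.normSq_eq_norm_sq, this]
  norm_num

/-- **the ring function with its normalisation** -/
theorem HGr_int (hz : B.At p y0) {Al Au : Finset (ℤ × ℤ)} (hs : Split B Al Au)
    (hadj : ∀ s ∈ Al, ∀ t ∈ Au, ¬ Adj4 s t) (J : Finset (Port TG)) (Z : ℝ) :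
    HGr B Al Au b m1 m2 J (star (Complex.exp (Complex.I * (Real.pi / 12))) *
        ((((3 : ℝ) ^ ((((freeG B).card : ℝ) - 1) / 4) * Z : ℝ)) : ℂ)) p y0 =
      (∫ s, ei (Real.pi / 12) * valG B p y0 b m1 m2 J s ∂(PB fun _ : TG => hf)) / (Z : ℂ) := by
  rw [HGr_eq hz hs hadj, norm3 hz, integral_const_mul]
  have e1 : Complex.exp (Complex.I * (Real.pi / 12)) = ei (Real.pi / 12) := by
    unfold ei
    congr 1
    push_cast
    ring
  have e2 := ei_mul_star (Real.pi / 12)
  have e3 : star (ei (Real.pi / 12)) ≠ 0 := right_ne_zero_of_mul_eq_one e2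
  have e4 : (((3 : ℝ) ^ ((((freeG B).card : ℝ) - 1) / 4) : ℝ) : ℂ) ≠ 0 := by
    rw [Ne, Complex.ofReal_eq_zero]
    positivity
  rw [e1]
  by_cases hZ : (Z : ℂ) = 0
  · rw [Complex.ofReal_mul, hZ]
    simp
  · rw [Complex.ofReal_mul, div_eq_div_iff (mul_ne_zero e3 (mul_ne_zero e4 hZ)) hZ]
    generalize ∫ s, valG B p y0 b m1 m2 J s ∂(PB fun _ : TG => hf) = I
    generalize (Z : ℂ) = Z'
    generalize (((3 : ℝ) ^ ((((freeG B).card : ℝ) - 1) / 4) : ℝ) : ℂ) = q
    linear_combination (-(q * I * Z')) * e2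

/-! ### the observable of the region with stubs -/

section obs

variable {J : Finset (Port TG)}

lemma valD_dep {s s' : ℤ × ℤ → Bool} (hw : GW (DB B k) (beD (DB B k) p y0 (B.xr + k)) w)
    (h : ∀ t ∈ DB B k, s t = s' t) :
    valD B p y0 k b m1 m2 J w s = valD B p y0 k b m1 m2 J w s' := by
  unfold valD
  refine Finset.sum_congr rfl fun e _ => ?_
  obtain ⟨h1, h2, h3⟩ := Ob664.state_congr w fun t ht => h t ((hw.word.2.2.1 t).1 ht)
  congr 1
  unfold Al194.hL
  rw [h1, h2, h3]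

end obs

/-! ### the strip -/

open Classical in
/-- **decoupling of the strip for the ring function** -/
theorem ring_strip : ∃ c q : ℝ, 0 < c ∧ 0 < q ∧ q < 1 ∧
    ∀ (A : Finset (ℤ × ℤ)) (B : Band A) (p y0 k b : ℤ) (h N : ℕ) (hz : B.At p y0)
      (hP : Par B k b h N), 2 * q ^ N ≤ 1 / 2 →
      c * Pf (Zc180.nr h) ≤ Zs B k b h ∧ 0 < Zs B k b h ∧
      ∀ (_ : TabH A B.xl B.xr B.y1 B.y2 k p y0 (psD B)) (w : Wd (ℤ × ℤ))
        (_ : GW (DB B k) (beD (DB B k) p y0 (B.xr + k)) w) (m1 m2 : Port TG)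
        (_ : ∃ t d, m1 = some (Sum.inl t, d)) (_ : ∃ t d, m2 = some (Sum.inl t, d))
        (J : Finset (Port TG)) (a0 b1 : ℤ) (_ : ∀ q ∈ J, EndOk a0 b1 (some q)) (_ : 0 ≤ a0)
        (_ : (N : ℤ) * h ≤ k - 2 - a0) (_ : B.R - 1 - k < b1) (_ : (N : ℤ) * h ≤ b1 - (B.R - 1 - k))
        (_ : b1 + 1 < B.R) (_ : a0 < k - 2)
        (Al Au : Finset (ℤ × ℤ)) (_ : Split B Al Au) (_ : ∀ s ∈ Al, ∀ t ∈ Au, ¬ Adj4 s t)
        (v : ℝ) (_ : 0 ≤ v) (_ : ∀ s', ‖valD B p y0 k b m1 m2 J w s'‖ ≤ v)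
        (Y : (TG → Bool) → ℝ) (C : ℝ) (U : Finset TG) (_ : Disjoint (Wf B y0 b h) U)
        (_ : DepF U Y) (_ : ∀ s, 0 ≤ Y s) (_ : 0 ≤ C)
        (_ : ∫ s, Y s ^ 2 ∂(PB fun _ : TG => hf) ≤ C ^ 2)
        (_ : ∀ s, ‖valG B p y0 b m1 m2 J s‖ ≤ Y s),
        ‖HGr B Al Au b m1 m2 J (star (Complex.exp (Complex.I * (Real.pi / 12))) *
          ((((3 : ℝ) ^ ((((freeG B).card : ℝ) - 1) / 4) * Zs B k b h : ℝ)) : ℂ)) p y0 -
          ∫ s, valD B p y0 k b m1 m2 J w (s ∘ eD B y0 k) ∂(PB fun _ : TG => hf)‖ ≤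
          v * (2 * q ^ N) + C / c * Real.sqrt (4 * q ^ N) := by
  obtain ⟨c, q, hc, hq, hq1, hgate, hmain⟩ := Zc180.strip_main
  refine ⟨c, q, hc, hq, hq1, ?_⟩
  intro A B p y0 k b h N hz hP hN
  obtain ⟨g1, g2, g3⟩ := hmain A B p y0 k b h N hz hP hN
  refine ⟨g1, g2, ?_⟩
  intro H w hw m1 m2 hm1 hm2 J a0 b1 hJ h0 hN1 hb0 hN2 hb1 ha0 Al Au hs hadj v hv hv' Y C U hU hY
    hY0 hC hC2 hval
  have hh := hP.hh
  have h3 := hP.h3
  have hk2 := hP.k2
  have hkN := hP.kN
  have hbl := hP.bl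
  have hbr := hP.br
  have hNN : (0 : ℤ) ≤ (N : ℤ) * h := by positivity
  -- the near gates
  set G : Set (TG → Bool) :=
    {s | (gate hz h0 ha0 (by omega : k - 2 + 1 < B.R)).Closed s} ∩
    {s | (gate hz (by omega : 0 ≤ B.R - 1 - k) hb0 hb1).Closed s} with hG
  have hdep : Dep (Cf B y0 a0 (k - 2) ∪ Cf B y0 (B.R - 1 - k) b1) G :=
    Dep.inter ((Zc180.gate_dep hz _ _ _).mono subset_union_left)
      ((Zc180.gate_dep hz _ _ _).mono subset_union_right)
  have hdisj : Disjoint (Sf B y0 k) (Cf B y0 a0 (k - 2) ∪ Cf B y0 (B.R - 1 - k) b1) := by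
    rw [Finset.disjoint_union_right]
    exact ⟨Zc180.Cf_disj (Or.inr (by omega)), Zc180.Cf_disj (Or.inl le_rfl)⟩
  have hGp : (PB fun _ : TG => hf).real Gᶜ ≤ 2 * q ^ N := by
    have a1 := hgate A B p y0 hz h N a0 (k - 2) h0 ha0 (by omega) (by omega) hh (by omega)
    have a2 := hgate A B p y0 hz h N (B.R - 1 - k) b1 (by omega) hb0 hb1 (by omega) hh (by omega)
    have hsub : Gᶜ ⊆
        {s : TG → Bool | ¬ (gate hz h0 ha0 (by omega : k - 2 + 1 < B.R)).Closed s} ∪
        {s : TG → Bool | ¬ (gate hz (by omega : 0 ≤ B.R - 1 - k) hb0 hb1).Closed s} := by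
      intro s hs
      by_contra hcon
      simp only [Set.mem_union, not_or, Set.mem_ofPred_eq, not_not] at hcon
      exact hs hcon
    have a3 := (measureReal_mono (μ := PB fun _ : TG => hf) hsub).trans (measureReal_union_le _ _)
    linarith
  -- the observable
  have hT : Disjoint (Sf B y0 k) ((DB B k).image (eD B y0 k)) := by
    rw [Finset.disjoint_left]
    intro t ht ht'
    obtain ⟨v', hv1, rfl⟩ := Finset.mem_image.1 ht'
    obtain ⟨⟨x, y⟩, hx, e⟩ := Finset.mem_image.1 ht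
    rw [mem_bxF] at hx
    unfold InB at hx
    simp only at hx
    obtain ⟨x', y'⟩ := v'
    have hw' := wd_cases B y0 y'
    rcases Dp_cases H.hf hv1 with ⟨k1, k2, k3⟩ | ⟨-, k2⟩ | ⟨-, k2⟩
    · rw [eD_A H.hf k1] at e
      exact absurd e (by unfold Zg180.se; simp)
    · rw [eD_r k2] at e
      unfold Zg180.se at e
      simp only [Sum.inr.injEq, Prod.mk.injEq] at e
      split_ifs at e <;> omega
    · rw [eD_l H.hf.le k2] at e
      unfold Zg180.se at e
      simp only [Sum.inr.injEq, Prod.mk.injEq] at e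
      split_ifs at e <;> omega
  have hgate' : ∀ s ∈ G, s ∈ farG hz hP →
      (Over B p y0 b (farS B y0 k h) s → ei (Real.pi / 12) * valG B p y0 b m1 m2 J s = 0) ∧
      (¬ Over B p y0 b (farS B y0 k h) s → ei (Real.pi / 12) * valG B p y0 b m1 m2 J s =
        valD B p y0 k b m1 m2 J w (s ∘ eD B y0 k)) := by
    intro s hs hf
    have key := valG_gate (s := s) (b := b) (a1 := k - 2) (b0 := B.R - 1 - k) H (by omega) (by omega) (by omega) hw hm1 hm2 hJ h0 ha0
      (by omega) hb0 hb1 le_rfl le_rfl (by omega) hz hs.1 hs.2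
    have ho := over_far_iff (a0 := a0) (b1 := b1) hz hP hf h0 hb1 (by omega) (by omega)
    constructor
    · intro h1
      rw [key, if_pos (ho.2 h1)]
      simp
    · intro h1
      rw [key, if_neg fun h2 => h1 (ho.1 h2), mul_one, ← mul_assoc, ei_mul_star, one_mul]
  have := g3 G _ (2 * q ^ N) hdep hdisj hGp
    (fun s => ei (Real.pi / 12) * valG B p y0 b m1 m2 J s)
    (fun s => valD B p y0 k b m1 m2 J w (s ∘ eD B y0 k)) Y C v ((DB B k).image (eD B y0 k)) U hT
    (fun s s' hss => valD_dep hw fun t ht => hss _ (Finset.mem_image_of_mem _ ht)) hv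
    (fun s => hv' _) hU hY hY0 hC hC2 ((valG_int hz J).const_mul _)
    (fun s hs hf h1 => (hgate' s hs hf).1 h1) (fun s hs hf h1 => (hgate' s hs hf).2 h1)
    (fun s h1 => by
      rw [valG_ball hz hm1 hm2 hJ h0 hb1 hh h3 (by omega) (by omega) h1, mul_zero])
    (fun s => by
      have : ‖ei (Real.pi / 12)‖ = 1 := by
        unfold ei
        exact Complex.norm_exp_ofReal_mul_I _
      rw [norm_mul, this, one_mul]
      exact hval s)
  rw [HGr_int hz hs hadj J]
  have e : 2 * q ^ N + 2 * q ^ N = 4 * q ^ N := by ring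
  rw [e] at this
  exact this

end Crest.Agent.R158.Ad350
end
end

-- ▼ part R158/Ab1_664
section

/-!
# R158, S0237 (helper664): the phases of the arcs modulo `π / 3`

A purely algebraic bound, valid for every splitting and every topological type of the strands.

* `pd` : side of a port
* `wl_mod` : phase of a walk `x → y` : `ch y - ch x + π/12 m` with `m = pd x - pd y + 2` mod `4`
* `cos_arc` : `|2 cos (π/12 M)| ≤ √3` for `M = 2` mod `4`
* **`arc_mod`** : every arc that does not contain the leg has `‖zn‖ ≤ 1`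
* `zn_le` : `‖zn c‖ ≤ 1` (arcs), `≤ 2` (loops)
* **`norm_prod_zn`** : the product over the classes is `≤ 2 ^ (number of bad loops)`
* `psi_cast` : the lifted direction of a free end of a region, modulo `4`
* **`netN_arc`** : the network `G^(z)` with the phases of the family `Fm1_857`
-/

set_option autoImplicit false

noncomputable section

open Finset

namespace Crest.Agent.R158.Ab664

open Crest.Agent.R158.Ad350
open Crest.Agent.R158.Sw300 (Port thru)

/-- side of a port -/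
def pd {T : Type*} (q : Port T) : ZMod 4 := q.elim 0 Prod.snd

@[simp] lemma pd_some {T : Type*} (t : T) (d : ZMod 4) : pd (some (t, d)) = d := rfl

lemma tq_cast (b : Bool) (d : ZMod 4) : ∃ k : ℤ, tq b d = k ∧ (k : ZMod 4) = d + 2 - thru b d := by
  have h : ∀ (b : Bool) (d : ZMod 4), (thru b d = d + 1 ∧ ((1 : ℤ) : ZMod 4) = d + 2 - thru b d) ∨
      (thru b d ≠ d + 1 ∧ ((-1 : ℤ) : ZMod 4) = d + 2 - thru b d) := by decide
  rcases h b d with ⟨h1, h2⟩ | ⟨h1, h2⟩
  · exact ⟨1, by unfold tq; rw [if_pos h1]; norm_num, h2⟩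
  · exact ⟨-1, by unfold tq; rw [if_neg h1]; norm_num, h2⟩

section net

variable {T : Type*} [DecidableEq T] {A : Finset T} {s : T → Bool} {be : Port T → Port T}
  {ch : Port T → ℝ}

/-- one passage through a tile -/
lemma step_om {q : Port T} (hq : q ∈ ports A) : ∃ k : ℤ,
    (tnet A s be ch).om ((ts A s).m q) - (tnet A s be ch).om q =
      ch ((ts A s).m q) - ch q + Real.pi / 12 * k ∧
    (k : ZMod 4) = pd q + 2 - pd ((ts A s).m q) := by
  obtain ⟨t, d, rfl, ht⟩ := mem_ports' hq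
  obtain ⟨k, h1, h2⟩ := tq_cast (s t) d
  refine ⟨k, ?_, ?_⟩
  · simp only [tnet]
    rw [ths_al, ths]
    simp only [Option.elim_some]
    rw [h1]
    ring
  · rw [h2]
    simp [ts, pd]

/-- **phase of a walk modulo `π / 3`** -/
theorem wl_mod (hb : ∀ p ∈ ports A, be p ∈ ports A)
    (hd : ∀ p ∈ ports A, be p ≠ p → pd (be p) = pd p + 2)
    (hg : ∀ p ∈ ports A, be p ≠ p → ∃ n : ℤ, ch (be p) - ch p = Real.pi / 12 * (4 * n : ℤ))
    {x y : Port T} {l : List (Port T)} (hx : x ∈ ports A) (w : (tnet A s be ch).Wa x y l) :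
    y ∈ ports A ∧ ∃ m : ℤ, (tnet A s be ch).wl l = ch y - ch x + Real.pi / 12 * m ∧
      (m : ZMod 4) = pd x - pd y + 2 := by
  induction w with
  | one =>
    refine ⟨(ts_ok A s).mem x hx, ?_⟩
    obtain ⟨k, h1, h2⟩ := step_om (s := s) (be := be) (ch := ch) hx
    refine ⟨k, ?_, ?_⟩
    · simp only [Net.wl, List.map_cons, List.map_nil, List.sum_cons, List.sum_nil, add_zero]
      exact h1
    · rw [h2]
      show _ = pd x - pd ((ts A s).m x) + 2
      ring
  | @snoc q l w hne ih =>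
    obtain ⟨hq, m, ih1, ih2⟩ := ih
    have hne' : be q ≠ q := hne
    have hbq : be q ∈ ports A := hb q hq
    refine ⟨(ts_ok A s).mem _ hbq, ?_⟩
    obtain ⟨k, h1, h2⟩ := step_om (s := s) (be := be) (ch := ch) hbq
    obtain ⟨n, hn⟩ := hg q hq hne'
    refine ⟨m - 4 * n + k, ?_, ?_⟩
    · have e2 : (tnet A s be ch).wl (l ++ [be q]) = (tnet A s be ch).wl l +
        ((tnet A s be ch).om ((ts A s).m (be q)) - (tnet A s be ch).om (be q)) := by
        simp [Net.wl, tnet]
      show (tnet A s be ch).wl (l ++ [be q]) = ch ((ts A s).m (be q)) - ch x + _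
      rw [e2, ih1, h1]
      have : ch (be q) = ch q + Real.pi / 12 * (4 * n : ℤ) := by linarith
      rw [this]
      push_cast
      ring
    · push_cast
      have h4 : (4 : ZMod 4) = 0 := by decide
      rw [ih2, h2, hd q hq hne', h4]
      show _ = pd x - pd ((ts A s).m (be q)) + 2
      have h5 : pd q + 2 + 2 = pd q + 4 := by ring
      rw [h5, h4]
      ring

end net

/-! ### the values -/

/-- values of the arcs -/
lemma cos_arc (M : ℤ) (h : (M : ZMod 4) = 2) : |2 * Real.cos (Real.pi / 12 * M)| ≤ Real.sqrt 3 := by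
  have hd : (4 : ℤ) ∣ M - 2 := by
    have := (ZMod.intCast_zmod_eq_zero_iff_dvd (M - 2) 4).1 (by push_cast; rw [h]; ring)
    exact_mod_cast this
  obtain ⟨j, hj⟩ := hd
  obtain ⟨k, r, hr0, hr3, hjk⟩ : ∃ k r : ℤ, 0 ≤ r ∧ r < 3 ∧ j = 3 * k + r :=
    ⟨j / 3, j % 3, Int.emod_nonneg _ (by norm_num), Int.emod_lt_of_pos _ (by norm_num), by omega⟩
  have e : Real.pi / 12 * (M : ℝ) = (Real.pi / 6 + (r : ℝ) * (Real.pi / 3)) + k * Real.pi := by
    have hM : M = 4 * (3 * k + r) + 2 := by omega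
    rw [hM]
    push_cast
    ring
  rw [e, Real.cos_add_int_mul_pi, abs_mul, abs_mul]
  have h1 : |(-1 : ℝ) ^ k| = 1 := by
    rw [abs_zpow, abs_neg, abs_one, one_zpow]
  rw [h1, one_mul, abs_two]
  have h3 : 0 ≤ Real.sqrt 3 := Real.sqrt_nonneg _
  have hr : r = 0 ∨ r = 1 ∨ r = 2 := by omega
  rcases hr with rfl | rfl | rfl
  · have : Real.pi / 6 + ((0 : ℤ) : ℝ) * (Real.pi / 3) = Real.pi / 6 := by push_cast; ring
    rw [this, Real.cos_pi_div_six, abs_of_nonneg (by positivity)]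
    linarith
  · have : Real.pi / 6 + ((1 : ℤ) : ℝ) * (Real.pi / 3) = Real.pi / 2 := by push_cast; ring
    rw [this, Real.cos_pi_div_two, abs_zero, mul_zero]
    exact h3
  · have : Real.pi / 6 + ((2 : ℤ) : ℝ) * (Real.pi / 3) = Real.pi - Real.pi / 6 := by push_cast; ring
    rw [this, Real.cos_pi_sub, abs_neg, Real.cos_pi_div_six, abs_of_nonneg (by positivity)]
    linarith

section net

variable {T : Type*} [DecidableEq T] {A : Finset T} {s : T → Bool} {be : Port T → Port T}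
  {ch : Port T → ℝ}

/-- phases of the cut ends and of the glued ports modulo `π / 3`; `x₀` = the leg -/
structure Mod4 (A : Finset T) (be : Port T → Port T) (ch : Port T → ℝ) (x₀ : Port T) : Prop where
  mem : ∀ p ∈ ports A, be p ∈ ports A
  inv : ∀ p ∈ ports A, be (be p) = p
  dir : ∀ p ∈ ports A, be p ≠ p → pd (be p) = pd p + 2
  glue : ∀ p ∈ ports A, be p ≠ p → ∃ n : ℤ, ch (be p) - ch p = Real.pi / 12 * (4 * n : ℤ)
  free : ∀ p ∈ ports A, be p = p → p ≠ x₀ → ∃ a : ℤ, ch p = Real.pi / 12 * a ∧ (a : ZMod 4) = pd p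

lemma Mod4.ok {x₀ : Port T} (h : Mod4 A be ch x₀) : (tnet A s be ch).Ok := tnet_ok h.mem h.inv

/-- **every arc without the leg has `‖z‖ ≤ √3`** -/
theorem arc_mod {x₀ : Port T} (h : Mod4 A be ch x₀) {c : Finset (Port T)}
    (hc : c ∈ (tnet A s be ch).classes (ports A)) (hl : x₀ ∉ c)
    (he : ((tnet A s be ch).ends c).Nonempty) : ‖(tnet A s be ch).zn c‖ ≤ 1 := by
  set N := tnet A s be ch with hN
  have hok : N.Ok := h.ok
  obtain ⟨p, hp, rfl⟩ := Finset.mem_image.1 hc
  obtain ⟨x, hx⟩ := he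
  obtain ⟨hx1, hx2⟩ := Finset.mem_filter.1 hx
  have hxV : x ∈ N.V := (Net.mem_cls.1 hx1).1
  have hpV : p ∈ N.V := hp
  have ecl : N.cls x = N.cls p := Net.cls_eq_of_mem hok hpV hx1
  rw [← ecl] at hl ⊢
  -- the walk from `x`
  have hex := Net.exists_fail hok hxV hx2
  classical
  have hs : N.Strand x (Nat.find hex) :=
    ⟨fun j hj => Nat.find_min hex hj, Or.inl ⟨hx2, Nat.find_spec hex⟩⟩
  have hw := Net.Wa.of_it (N := N) (x := x) (Nat.find hex) hs.1
  have hy2 : N.be (N.al (N.g^[Nat.find hex] x)) = N.al (N.g^[Nat.find hex] x) := Nat.find_spec hex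
  obtain ⟨-, -, hz⟩ := Net.z_arc hok hxV hw hx2 hy2
  obtain ⟨hyV, m, hm1, hm2⟩ := wl_mod (s := s) h.mem h.dir h.glue hxV hw
  -- the ends are not the leg
  have hxl : x ≠ x₀ := fun e => hl (by rw [← e]; exact Net.self_mem_cls hxV)
  have hyc : N.al (N.g^[Nat.find hex] x) ∈ N.cls x := by
    have : N.al (N.g^[Nat.find hex] x) ∈ N.ends (N.cls x) := by
      rw [hs.ends_arc hok hxV hx2]
      simp
    exact (Finset.mem_filter.1 this).1
  have hyl : N.al (N.g^[Nat.find hex] x) ≠ x₀ := fun e => hl (by rw [← e]; exact hyc)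
  obtain ⟨a, ha1, ha2⟩ := h.free x hxV hx2 hxl
  obtain ⟨b, hb1, hb2⟩ := h.free _ hyV hy2 hyl
  have hwl : N.wl ((List.range (Nat.find hex + 1)).map fun i => N.g^[i] x) =
      Real.pi / 12 * ((b - a + m : ℤ) : ℝ) := by
    rw [hm1, ha1, hb1]
    push_cast
    ring
  have hcos := cos_arc (b - a + m) (by push_cast; rw [ha2, hb2, hm2]; ring)
  have hne : (N.ends (N.cls x)).Nonempty := ⟨x, Finset.mem_filter.2 ⟨Net.self_mem_cls hxV, hx2⟩⟩
  unfold Net.zn
  rw [if_pos hne, hz, hwl, norm_div]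
  have e1 : ‖(2 : ℂ) * ((Real.cos (Real.pi / 12 * ((b - a + m : ℤ) : ℝ)) : ℝ) : ℂ)‖ =
      |2 * Real.cos (Real.pi / 12 * ((b - a + m : ℤ) : ℝ))| := by
    rw [norm_mul, Complex.norm_real, Real.norm_eq_abs, abs_mul, abs_two]
    norm_num
  have e2 : ‖((Real.sqrt 3 : ℝ) : ℂ)‖ = Real.sqrt 3 := by
    rw [Complex.norm_real, Real.norm_eq_abs, abs_of_nonneg (Real.sqrt_nonneg _)]
  rw [e1, e2]
  exact div_le_one_of_le₀ hcos (Real.sqrt_nonneg _)

/-- **arcs `≤ 1`, loops `≤ 2`** -/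
theorem zn_le {x₀ : Port T} (h : Mod4 A be ch x₀) {c : Finset (Port T)}
    (hc : c ∈ (tnet A s be ch).classes (ports A)) (hl : x₀ ∉ c) :
    ‖(tnet A s be ch).zn c‖ ≤ if ((tnet A s be ch).ends c).Nonempty then 1 else 2 := by
  split_ifs with he
  · exact arc_mod h hc hl he
  · obtain ⟨p, hp, rfl⟩ := Finset.mem_image.1 hc
    unfold Net.zn
    rw [if_neg he]
    exact Net.norm_cls_le h.ok hp

/-- **the product over the classes** : `Bad` contains all loops with `‖z‖ > 1` -/
theorem norm_prod_zn {x₀ : Port T} (h : Mod4 A be ch x₀) {S : Finset (Finset (Port T))}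
    (hS : ∀ c ∈ S, c ∈ (tnet A s be ch).classes (ports A) ∧ x₀ ∉ c)
    {Bad : Finset (Finset (Port T))}
    (hB : ∀ c ∈ S, c ∉ Bad → ¬ ((tnet A s be ch).ends c).Nonempty → ‖(tnet A s be ch).z c‖ ≤ 1) :
    ‖∏ c ∈ S, (tnet A s be ch).zn c‖ ≤ 2 ^ (S ∩ Bad).card := by
  rw [norm_prod]
  have h1 : ∀ c ∈ S, ‖(tnet A s be ch).zn c‖ ≤ if c ∈ Bad then (2 : ℝ) else 1 := by
    intro c hc
    obtain ⟨h2, h3⟩ := hS c hc
    have h4 := zn_le h h2 h3
    by_cases hb : c ∈ Bad
    · rw [if_pos hb]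
      split_ifs at h4 <;> linarith
    · rw [if_neg hb]
      by_cases he : ((tnet A s be ch).ends c).Nonempty
      · rwa [if_pos he] at h4
      · have := hB c hc hb he
        unfold Net.zn
        rw [if_neg he]
        exact this
  refine (Finset.prod_le_prod (fun c _ => norm_nonneg _) h1).trans ?_
  rw [Finset.prod_ite, Finset.prod_const, Finset.prod_const_one, mul_one, Finset.filter_mem_eq_inter]

end net

/-! ### the lifted direction modulo `4` -/

open Crest.Agent.R158.Pt266 (NxT RFree NN CC sh)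
open Crest.Agent.R158.Psi664 (BW psi bp psi_eq)
open Crest.Agent.R158.Xr249 (rot rot_some Reg)

lemma nxT_cast {G : Port (ℤ × ℤ) → Port (ℤ × ℤ) → Prop}
    (hG : ∀ p q, G p q → p ≠ none ∧ q ≠ none ∧ pd q = pd p + 2) {p r : Port (ℤ × ℤ)} {k : ℤ}
    (h : NxT G p r k) (hp : p ≠ none) : r ≠ none ∧ pd r = pd p + k := by
  induction h with
  | @stop p hs =>
    rcases p with - | ⟨t, d⟩
    · exact absurd rfl hp
    · rw [rot_some]
      refine ⟨by simp, ?_⟩
      simp [pd]
  | @go p q r k hg _ ih =>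
    rcases p with - | ⟨t, d⟩
    · exact absurd rfl hp
    · rw [rot_some] at hg
      obtain ⟨-, h2, h3⟩ := hG _ _ hg
      obtain ⟨h4, h5⟩ := ih h2
      refine ⟨h4, ?_⟩
      rw [h5, h3]
      simp only [pd_some]
      push_cast
      have h6 : (2 : ZMod 4) = -2 := by decide
      linear_combination h6

lemma gl_dir {R : Reg} {p q : Port (ℤ × ℤ)} (h : R.gl p q) : p ≠ none ∧ q ≠ none ∧
    pd q = pd p + 2 := by
  have h1 := Crest.Agent.R158.Pt266.ladj_gl h
  rcases p with - | ⟨t, d⟩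
  · exact h1.elim
  · rcases h1 with ⟨rfl, rfl⟩ | ⟨rfl, rfl⟩ | ⟨rfl, rfl⟩ | ⟨rfl, rfl⟩ <;>
      exact ⟨by simp, by simp, by simp only [pd_some]; decide⟩

lemma chain_cast {G : Port (ℤ × ℤ) → Port (ℤ × ℤ) → Prop}
    (hG : ∀ p q, G p q → p ≠ none ∧ q ≠ none ∧ pd q = pd p + 2) :
    ∀ (l : List (Port (ℤ × ℤ) × ℤ)) (a : Port (ℤ × ℤ) × ℤ), List.IsChain (NN G) (a :: l) →
      a.1 ≠ none → (a.2 : ZMod 4) = pd a.1 → ∀ b ∈ a :: l, (b.2 : ZMod 4) = pd b.1
  | [], a, _, _, h, b, hb => by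
    rw [List.mem_singleton] at hb
    rw [hb]; exact h
  | c :: l, a, hc, ha, h, b, hb => by
    rw [List.isChain_cons_cons] at hc
    rcases List.mem_cons.1 hb with rfl | hb
    · exact h
    · obtain ⟨h1, h2⟩ := nxT_cast hG hc.1 ha
      refine chain_cast hG l c hc.2 h1 ?_ b hb
      rw [h2, ← h]
      push_cast
      ring

/-- **the lifted direction is the side modulo `4`** -/
theorem psi_cast {R : Reg} {a t : ℤ} {w : Crest.Agent.R158.Sw300.Wd (ℤ × ℤ)}
    {l : List (Port (ℤ × ℤ))} (h : BW R a t w l) {x : (ℤ × ℤ) × ZMod 4} (hx : RFree R x) :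
    ((psi R a t x : ℤ) : ZMod 4) = x.2 := by
  rw [psi_eq h hx]
  have hx' := (h.mem x).2 hx
  have hcc : List.IsChain (NN R.gl) ((some (bp a t), (0 : ℤ)) ::
      (l.map (fun x => (x, Crest.Agent.R158.Sw300.phi w x)) ++ [(some (bp a t), (4 : ℤ))])) := by
    have : List.IsChain (NN R.gl) ((some (bp a t), Crest.Agent.R158.Sw300.phi w (some (bp a t))) ::
      (l.map (fun x => (x, Crest.Agent.R158.Sw300.phi w x)) ++
        [sh 4 (some (bp a t), Crest.Agent.R158.Sw300.phi w (some (bp a t)))])) := h.cc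
    simpa [sh, h.base] using this
  have key := chain_cast (fun p q h => gl_dir h) _ _ hcc (by simp) (by simp [pd])
  have hm : (some x, Crest.Agent.R158.Sw300.phi w (some x)) ∈ (some (bp a t), (0 : ℤ)) ::
      (l.map (fun x => (x, Crest.Agent.R158.Sw300.phi w x)) ++ [(some (bp a t), (4 : ℤ))]) := by
    rcases List.mem_cons.1 hx' with e | e
    · rw [e, h.base]
      exact List.mem_cons_self
    · refine List.mem_cons_of_mem _ (List.mem_append_left _ ?_)
      exact List.mem_map.2 ⟨some x, e, rfl⟩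
  exact key _ hm

/-! ### the network `G^(z)` -/

open Crest.Agent.R158.Env664 (TG Band PortOf portOf_some portOf_none nbP res res_of z4 nbP_W
  nbP_N nbP_E nbP_S)
open Crest.Agent.R158.Ao857 (beL chL legP chG seamG beL_ne chL_ne beL_ports beL_invol tpm inlE)
open Crest.Agent.R158.Fm857 (freeG freeD mem_freeG mem_flr mem_cil ps psD phi cp ctw mouth)
open Crest.Agent.R158.Bd932 (e3)

variable {A : Finset (ℤ × ℤ)} {B : Band A}

lemma pd_aux : ((2 : ZMod 4) = 0 + 2) ∧ ((3 : ZMod 4) = 1 + 2) ∧ ((0 : ZMod 4) = 2 + 2) ∧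
    ((1 : ZMod 4) = 3 + 2) := by decide

lemma nbG_dir {p y0 : ℤ} {q : Port TG} (hq : q ≠ none) (hl : q ≠ legP p y0) :
    pd (B.nbG p y0 q) = pd q + 2 := by
  obtain ⟨a0, a1, a2, a3⟩ := pd_aux
  rcases q with _ | ⟨⟨x, y⟩ | ⟨i, y⟩, d⟩
  · exact absurd rfl hq
  · rcases z4 d with rfl | rfl | rfl | rfl
    · simp only [Band.nbG]
      rw [if_pos trivial]
      split_ifs <;> exact a0
    · simp only [Band.nbG]
      rw [if_neg (by decide), if_pos trivial]
      split_ifs <;> exact a1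
    · simp only [Band.nbG]
      rw [if_neg (by decide), if_neg (by decide), if_pos trivial]
      split_ifs <;> exact a2
    · have hne : ¬ (y = y0 ∧ x = p) := by
        rintro ⟨rfl, rfl⟩
        exact hl rfl
      simp only [Band.nbG]
      rw [if_neg (by decide), if_neg (by decide), if_neg (by decide), if_neg hne]
      split_ifs <;> exact a3
  · rcases z4 d with rfl | rfl | rfl | rfl
    · simp only [Band.nbG]
      rw [if_pos trivial]
      split_ifs <;> exact a0
    · simp only [Band.nbG]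
      rw [if_neg (by decide), if_pos trivial]
      split_ifs <;> exact a1
    · simp only [Band.nbG]
      rw [if_neg (by decide), if_neg (by decide), if_pos trivial]
      split_ifs <;> exact a2
    · simp only [Band.nbG]
      rw [if_neg (by decide), if_neg (by decide), if_neg (by decide)]
      split_ifs <;> exact a3

lemma beG_or (p y0 : ℤ) (q : Port TG) : B.beG p y0 q = q ∨ B.beG p y0 q = B.nbG p y0 q := by
  unfold Band.beG res
  split_ifs
  · exact Or.inr rfl
  · exact Or.inl rfl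

/-- the seams are multiples of `π / 3` -/
lemma seamG_mul {p y0 n n' : ℤ} (q : Port TG) : ∃ k : ℤ,
    seamG B p y0 (e3 * n) (e3 * n') q = e3 * k := by
  rcases q with _ | ⟨⟨x, y⟩ | ⟨i, y⟩, d⟩
  · exact ⟨0, by simp [seamG]⟩
  · simp only [seamG]
    split_ifs
    · exact ⟨n, rfl⟩
    · exact ⟨n', rfl⟩
    · exact ⟨-1, by push_cast; ring⟩
    · exact ⟨0, by simp⟩
  · exact ⟨0, by simp [seamG]⟩

/-- **the phases of the family modulo `π / 3`** -/
theorem mod4_netN (hW : ∃ w l, BW (Xr249.full A) B.xl B.y1 w l) {p y0 : ℤ} (h : B.At p y0)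
    (n n' b : ℤ) (m1 m2 : Port TG) (e : Option (Port TG)) :
    Mod4 (B.tG y0) (beL B p y0)
      (fun q => -Ao857.chL B p y0 (e3 * n) (e3 * n') (phi B b m1 m2 e) q) (legP p y0) := by
  have hnn : ∀ q ∈ ports (B.tG y0), q ≠ none := fun q hq e => none_ports (e ▸ hq)
  refine ⟨fun q hq => beL_ports B h hq, fun q hq => beL_invol B h (hnn q hq), ?_, ?_, ?_⟩
  · intro q hq hne
    have hl : q ≠ legP p y0 := fun e => hne (by rw [e, Ao857.beL_leg])
    rw [beL_ne B hl] at hne ⊢
    rcases beG_or (B := B) p y0 q with h1 | h1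
    · exact absurd h1 hne
    · rw [h1]
      exact nbG_dir (hnn q hq) hl
  · intro q hq hne
    have hl : q ≠ legP p y0 := fun e => hne (by rw [e, Ao857.beL_leg])
    have hbq : beL B p y0 q ∈ ports (B.tG y0) := beL_ports B h hq
    have hl' : beL B p y0 q ≠ legP p y0 := by
      intro e
      have h1 := beL_invol B h (hnn q hq)
      rw [e, Ao857.beL_leg] at h1
      exact hl h1.symm
    have h2 : B.beG p y0 (beL B p y0 q) ≠ beL B p y0 q := by
      rw [← beL_ne B hl', beL_invol B h (hnn q hq)]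
      exact fun e => hne e.symm
    have h3 : B.beG p y0 q ≠ q := by rw [← beL_ne B hl]; exact hne
    rw [chL_ne B hl, chL_ne B hl', chG, chG, if_neg h2, if_neg h3]
    obtain ⟨k, hk⟩ := seamG_mul (B := B) (p := p) (y0 := y0) (n := n) (n' := n') q
    obtain ⟨k', hk'⟩ := seamG_mul (B := B) (p := p) (y0 := y0) (n := n) (n' := n') (beL B p y0 q)
    rw [hk, hk']
    refine ⟨k - k', ?_⟩
    unfold e3
    push_cast
    ring
  · intro q hq hbe hl
    rw [beL_ne B hl] at hbe
    have hf : q ∈ freeG B := (mem_freeG B h).2 ⟨hq, hbe⟩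
    have hps : ((ps B b q : ℤ) : ZMod 4) = pd q := by
      unfold freeG at hf
      rw [Finset.mem_union, Finset.mem_union, mem_flr, mem_cil, Finset.mem_image] at hf
      rcases hf with ⟨a, ha, rfl⟩ | ⟨i, -, -, rfl⟩ | ⟨i, -, -, rfl⟩
      · unfold freeD at ha
        rw [Finset.mem_filter] at ha
        obtain ⟨t, d, rfl, ht⟩ := mem_ports' ha.1
        obtain ⟨w, l, hw⟩ := hW
        have hr : RFree (Xr249.full A) (t, d) := by
          refine ⟨ht, fun c hc => ?_⟩
          have h1 := ha.2.1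
          have h2 : (Xr249.full A).gl (some (t, d)) (some c) := hc
          obtain ⟨x, y⟩ := t
          apply h1
          rcases h2 with ⟨h3, h4, h5⟩ | ⟨h3, h4, h5⟩ | ⟨h3, h4, h5⟩ | ⟨h3, h4, h5⟩
          · subst h3
            rw [nbP_W, portOf_some]
            exact h4.1
          · subst h3
            rw [nbP_N, portOf_some]
            exact h4.2
          · subst h3
            rw [nbP_E, portOf_some]
            exact h4.2
          · subst h3
            rw [nbP_S, portOf_some]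
            exact h4.1
        exact psi_cast hw hr
      · have e1 : ps B b (some (Sum.inr (i, B.y1), 3)) = 3 := by
          simp only [ps]
          rw [if_pos trivial]
        rw [e1]; rfl
      · have e1 : ps B b (some (Sum.inr (i, B.y2 - 1), 1)) = if i < b then 1 else 5 := by
          simp only [ps]
          rw [if_neg (by decide)]
        rw [e1, pd_some]
        split_ifs
        · decide
        · decide
    refine ⟨ps B b q - 4 * cp B b m1 m2 e q, ?_, ?_⟩
    · show -Ao857.chL B p y0 (e3 * n) (e3 * n') (phi B b m1 m2 e) q = _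
      rw [chL_ne B hl, chG, if_pos hbe]
      unfold phi e3
      push_cast
      ring
    · push_cast
      have h4 : (4 : ZMod 4) = 0 := by decide
      rw [hps, h4]
      ring

/-- the twists of the family -/
lemma ctw_eq (b : ℤ) (m1 m2 : Port TG) (e : Option (Port TG)) : ∃ n : ℤ,
    ctw B b m1 m2 e = e3 * n ∧ ctw B b m1 m2 e + e3 = e3 * (n + 1 : ℤ) :=
  ⟨Fm857.clow B b m1 m2 e, rfl, by unfold ctw; push_cast; ring⟩

section final

variable {p y0 b : ℤ} {m1 m2 : Port TG} {e : Option (Port TG)} {s : TG → Bool}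

/-- **the network of the member `e` of the family** -/
abbrev netE (B : Band A) (p y0 b : ℤ) (m1 m2 : Port TG) (e : Option (Port TG)) (s : TG → Bool) :
    Net (Port TG) :=
  netN B p y0 (ctw B b m1 m2 e) (ctw B b m1 m2 e + e3) (phi B b m1 m2 e) s

theorem mod4_netE (hW : ∃ w l, BW (Xr249.full A) B.xl B.y1 w l) (h : B.At p y0) (b : ℤ)
    (m1 m2 : Port TG) (e : Option (Port TG)) : Mod4 (B.tG y0) (beL B p y0)
      (fun q => -Ao857.chL B p y0 (ctw B b m1 m2 e) (ctw B b m1 m2 e + e3) (phi B b m1 m2 e) q)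
      (legP p y0) := by
  obtain ⟨n, h1, h2⟩ := ctw_eq (B := B) b m1 m2 e
  rw [h2, h1]
  exact mod4_netN hW h n (n + 1) b m1 m2 e



end final

end Crest.Agent.R158.Ab664
end
end

-- ▼ part R158/Zc3_180
section

/-!
# Row 158 (helper180): strands over the far charge, 3: passages of the stubs

Right section = columns `a0 + 1 .. a`, left section = columns `c0 .. c1` of the chart of the strip,
`0 ≤ a0 < a`, `a + 1 < c0 ≤ c1 ≤ R - 2`.

* `Pass B y0 a0 a c0 c1 s` : number of strands that enter a section from the far side and cross it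
* `pass_moment` : exponential moments;  `pass_dep` : dependence
* `pass_walk` : a strand from the far strip to the near side contains such an entry state
* **`pass_count`** : a family of disjoint classes which contain strands visiting both sides has at
  most `Pass` members
-/

set_option autoImplicit false

noncomputable section

namespace Crest.Agent.R158.Zc180

open MeasureTheory ProbabilityTheory unitInterval
open Crest.Agent.R161.Geo729
open Crest.Agent.R158.Sw300 (Port Wd thru)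
open Crest.Agent.R158.Rs689 hiding se sc
open Crest.Agent.R158.Mr679
open Crest.Agent.R158.Nm211 (Dir dx dy trn St mv nx6 rd KK Hit DepF chart_moment gen_dep nx6_inj)
open Crest.Agent.R158.Ka470 (Ch en ex sg thru_sg ex_inj en_inj Free)
open Crest.Agent.R158.Pt266 (Wk rv)
open Crest.Agent.R158.Env664
open Crest.Agent.R158.Zg180 (Gq se uc gate Gate gq_nb)

variable {A : Finset (ℤ × ℤ)} (B : Band A)

/-- walk in the chart of the strip -/
def fs (y0 : ℤ) (s : TG → Bool) : St ℤ → St ℤ := nx6 (Zm180.sc fun v => s (se y0 v))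

/-- states in the sections (`true` : right section) -/
def Ds (a0 a c0 c1 : ℤ) (g : Bool) : Set (St ℤ) :=
  {c | (if g then a0 + 1 ≤ c.1.1 ∧ c.1.1 ≤ a else c0 ≤ c.1.1 ∧ c.1.1 ≤ c1) ∧
    B.y1 ≤ c.1.2 ∧ c.1.2 < B.y2}

/-- states behind the sections -/
def Ys (a0 c1 : ℤ) (g : Bool) : Set (St ℤ) := {c | if g then c.1.1 ≤ a0 else c1 + 1 ≤ c.1.1}

/-- states entering the sections from the far side -/
def Xs (a c0 : ℤ) (g : Bool) : Finset (St ℤ) :=
  (Finset.Ico B.y1 B.y2).image fun y => if g then ((a, y), 3) else ((c0, y), 1)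

/-- number of passages of the sections -/
def Pass (y0 a0 a c0 c1 : ℤ) (s : TG → Bool) : ℕ :=
  ∑ g : Bool, KK (fs y0 s) (Ds B a0 a c0 c1 g) (Ys a0 c1 g) (Xs B a c0 g)

variable {B}

theorem mem_Xs {a c0 : ℤ} {g : Bool} {c : St ℤ} (h : c ∈ Xs B a c0 g) :
    B.y1 ≤ c.1.2 ∧ c.1.2 < B.y2 ∧ (if g then c.1.1 = a ∧ c.2 = 3 else c.1.1 = c0 ∧ c.2 = 1) := by
  obtain ⟨y, hy, rfl⟩ := Finset.mem_image.1 h
  rw [Finset.mem_Ico] at hy
  cases g <;> simp <;> omega

/-- **exponential moments of the number of passages** -/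
theorem pass_moment (t : ℝ) (ht : 1 ≤ t) : ∃ C : ℝ, 1 ≤ C ∧
    ∀ (A : Finset (ℤ × ℤ)) (B : Band A) (y0 a0 a c0 c1 : ℤ) (h : ℕ), B.y2 = B.y1 + h → 1 ≤ h →
      a0 + h ≤ a → c0 + h ≤ c1 + 1 →
      ∫ s, t ^ Pass B y0 a0 a c0 c1 s ∂(PB fun _ : TG => hf) ≤ C := by
  obtain ⟨C, hC, hm⟩ := chart_moment.{0} t ht 2 1
  refine ⟨C, hC, fun A B y0 a0 a c0 c1 h hy h1 ha hc => ?_⟩
  let e : Fin 2 → Bool := fun i => decide (i = 0)
  refine hm h h1 TG (fun _ => se y0) (fun _ _ => true)
    (fun i => if e i then (a, B.y1) else (c0, B.y1))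
    (fun i => Ds B a0 a c0 c1 (e i)) (fun i => Ys a0 c1 (e i)) (fun i => Xs B a c0 (e i))
    (fun i => (if e i then Finset.Icc (a0 + 1) a else Finset.Icc c0 c1) ×ˢ Finset.Ico B.y1 B.y2)
    ?_ ?_ ?_ ?_ ?_ (Pass B y0 a0 a c0 c1) ?_
  · intro i v _ w _ hvw
    exact Zg180.se_inj hvw
  · intro i c hc'
    obtain ⟨h2, h3, h4⟩ := hc'
    rw [Finset.mem_product, Finset.mem_Ico]
    refine ⟨?_, h3, h4⟩
    cases hi : e i
    · rw [hi] at h2
      simpa using h2
    · rw [hi] at h2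
      simpa using h2
  · intro i c hc' s hX
    obtain ⟨h2, h3, h4⟩ := hc'
    have h5 := (mem_Xs hX).2.2
    cases hi : e i
    · rw [hi] at h2 h5
      simp only [Bool.false_eq_true, if_false] at h2 h5
      have h6 : (nx6 s c).1 = mv c.1 (nx6 s c).2 := rfl
      rw [h6, h5.2] at h5
      simp only [mv, dx, Int.cast_one] at h5
      omega
    · rw [hi] at h2 h5
      simp only [if_true] at h2 h5
      have h6 : (nx6 s c).1 = mv c.1 (nx6 s c).2 := rfl
      rw [h6, h5.2] at h5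
      simp only [mv, dx, Int.cast_neg, Int.cast_one] at h5
      omega
  · intro i c hc'
    have h5 := mem_Xs hc'
    cases hi : e i
    · rw [hi] at h5
      simp only [Bool.false_eq_true, if_false] at h5 ⊢
      rw [abs_le, abs_le]
      push_cast
      omega
    · rw [hi] at h5
      simp only [if_true] at h5 ⊢
      rw [abs_le, abs_le]
      push_cast
      omega
  · intro i c hc' c' hY
    have h5 := mem_Xs hc'
    unfold Crest.Agent.R158.Nm211.Far
    left
    cases hi : e i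
    · rw [hi] at h5
      have hY' : (if e i = true then c'.1.1 ≤ a0 else c1 + 1 ≤ c'.1.1) := hY
      rw [hi] at hY'
      simp only [Bool.false_eq_true, if_false] at h5 hY'
      rw [le_abs]
      left
      omega
    · rw [hi] at h5
      have hY' : (if e i = true then c'.1.1 ≤ a0 else c1 + 1 ≤ c'.1.1) := hY
      rw [hi] at hY'
      simp only [if_true] at h5 hY'
      rw [le_abs]
      right
      omega
  · intro s
    have e1 : fs y0 s = nx6 (rd (se y0) (fun _ => true) s) := by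
      unfold fs
      congr 1
      funext v
      simp [rd, Zm180.sc]
    unfold Pass
    rw [e1, Fin.sum_univ_two, Fintype.sum_bool]
    exact le_refl _

/-- dependence -/
theorem pass_dep {y0 a0 a c0 c1 : ℤ} {s s' : TG → Bool}
    (h : ∀ t ∈ (bxF a0 a (B.y1 - 1) (B.y2 - 1)).image (se y0) ∪
      (bxF (c0 - 1) c1 (B.y1 - 1) (B.y2 - 1)).image (se y0), s t = s' t) :
    Pass B y0 a0 a c0 c1 s = Pass B y0 a0 a c0 c1 s' := by
  unfold Pass
  refine Finset.sum_congr rfl fun g _ => ?_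
  refine gen_dep fun c hc => ?_
  obtain ⟨h2, h3, h4⟩ := hc
  have : s (se y0 c.1) = s' (se y0 c.1) := by
    refine h _ ?_
    rw [Finset.mem_union, Finset.mem_image, Finset.mem_image]
    cases g
    · refine Or.inr ⟨c.1, ?_, rfl⟩
      rw [mem_bxF]
      unfold InB
      simp only [Bool.false_eq_true, if_false] at h2
      omega
    · refine Or.inl ⟨c.1, ?_, rfl⟩
      rw [mem_bxF]
      unfold InB
      simp only [if_true] at h2
      omega
  simp only [Zm180.sc, this]

section walks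

variable {p y0 a0 a c0 c1 : ℤ} {s : TG → Bool}

/-- one step of a strand in the columns `1 .. R - 2` -/
theorem stepS (hz : B.At p y0) {v : ℤ × ℤ} (h1 : 1 ≤ v.1) (h2 : v.1 ≤ B.R - 2) {d : Dir}
    {r : TG × ZMod 4} (hg : Gq (B.beG p y0) (se y0 v, ex d) r) :
    B.y1 ≤ v.2 ∧ v.2 < B.y2 ∧ B.y1 ≤ (mv v d).2 ∧ (mv v d).2 < B.y2 ∧
      r = (se y0 (mv v d), en d) := by
  obtain ⟨-, h3, -⟩ := gq_nb hg
  have h4 : B.y1 ≤ v.2 ∧ v.2 < B.y2 := by
    unfold se at h3
    have := (B.inr_mem).1 h3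
    omega
  have hR : 2 < B.R := by
    by_contra hcon
    omega
  have hv : v ∈ (SC hz hR).C.R := by
    rw [mem_SC]
    omega
  have hm : mv v d ∈ (SC hz hR).C.R := by
    by_contra hcon
    have hfr := (SC hz hR).fr v hv (show (0 : ℤ) < v.1 by omega) (show v.1 ≤ B.R - 2 from h2) d
      hcon
    exact hfr r hg
  have hm' := hm
  rw [mem_SC] at hm'
  refine ⟨h4.1, h4.2, hm'.2.2.1, hm'.2.2.2, ?_⟩
  have hgl := Zg180.se_glue (y0 := y0) (p := p) (d := d) (show 0 ≤ v.1 by omega) (show v.1 < B.R by omega)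
    h4.1 h4.2 hm'.1 (show (mv v d).1 < B.R by omega) hm'.2.2.1 hm'.2.2.2
  have h5 := hg.1
  rw [hgl] at h5
  exact (Option.some_injective _ h5).symm

theorem ex_surj (e : ZMod 4) : ∃ d : Dir, ex d = e := by
  rcases z4 e with rfl | rfl | rfl | rfl
  · exact ⟨3, rfl⟩
  · exact ⟨0, rfl⟩
  · exact ⟨1, rfl⟩
  · exact ⟨2, rfl⟩

theorem pass_fs (c : St ℤ) : Pt266.pass s (se y0 c.1, en c.2) = (se y0 c.1, ex (fs y0 s c).2) := by
  unfold Pt266.pass
  rw [Zm180.thru_en]
  rfl


/-- the near side -/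
def NearS (y0 a0 c1 : ℤ) : Set TG :=
  {t | (∃ v, t = Sum.inl v) ∨ ∃ v : ℤ × ℤ, t = se y0 v ∧ (v.1 ≤ a0 ∨ c1 < v.1)}

/-- the far side -/
def FarS (y0 a c0 : ℤ) : Set TG := {t | ∃ v : ℤ × ℤ, t = se y0 v ∧ a < v.1 ∧ v.1 < c0}

/-- **a strand from the far side to the near side passes a stub** -/
theorem pass_walk (hz : B.At p y0) (h0 : 0 ≤ a0) (ha : a0 < a) (hac : a + 1 < c0) (hc : c0 ≤ c1)
    (hc1 : c1 ≤ B.R - 2)
    {x y : TG × ZMod 4} {l : List (TG × ZMod 4)} (hx : x.1 ∈ FarS y0 a c0)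
    (hw : Wk s (Gq (B.beG p y0)) x y l) (hl : ∃ r ∈ l, r.1 ∈ NearS y0 a0 c1) :
    ∃ g, ∃ c ∈ Xs B a c0 g, Hit (fs y0 s) (Ds B a0 a c0 c1 g) (Ys a0 c1 g) c ∧ (se y0 c.1, en c.2) ∈ l := by
  -- the invariant
  have key : (∃ g, ∃ c ∈ Xs B a c0 g, Hit (fs y0 s) (Ds B a0 a c0 c1 g) (Ys a0 c1 g) c ∧
        (se y0 c.1, en c.2) ∈ l) ∨
      ((∀ r ∈ l, r.1 ∉ NearS y0 a0 c1) ∧
        (y.1 ∈ FarS y0 a c0 ∨ ∃ g, ∃ c ∈ Xs B a c0 g, (se y0 c.1, en c.2) ∈ l ∧
          ∃ m, (∀ j ≤ m, (fs y0 s)^[j] c ∈ Ds B a0 a c0 c1 g) ∧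
            y = (se y0 ((fs y0 s)^[m] c).1, ex ((fs y0 s)^[m + 1] c).2))) := by
    clear hl
    have farnear : ∀ t : TG, t ∈ FarS y0 a c0 → t ∉ NearS y0 a0 c1 := by
      rintro t ⟨v, rfl, h1, h2⟩ (⟨w, hw'⟩ | ⟨w, hw', h3⟩)
      · simp [se] at hw'
      · have := Zg180.se_inj hw'
        subst this
        omega
    have stubnear : ∀ v : ℤ × ℤ, a0 < v.1 → v.1 ≤ c1 → se y0 v ∉ NearS y0 a0 c1 := by
      rintro v h1 h2 (⟨w, hw'⟩ | ⟨w, hw', h3⟩)
      · simp [se] at hw'
      · have := Zg180.se_inj hw'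
        subst this
        omega
    induction hw with
    | one =>
      right
      refine ⟨?_, Or.inl hx⟩
      intro r hr
      rw [List.mem_singleton] at hr
      subst hr
      exact farnear _ hx
    | @snoc q r l hw hg ih =>
      rcases ih with ⟨g, c, h1, h2, h3⟩ | ⟨hno, hq⟩
      · exact Or.inl ⟨g, c, h1, h2, List.mem_append_left _ h3⟩
      rcases hq with ⟨v, hv, hv1, hv2⟩ | ⟨g, c, h1, h3, m, h4, h5⟩
      · -- from the far side
        obtain ⟨d, hd⟩ := ex_surj q.2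
        have hq' : q = (se y0 v, ex d) := by
          rw [hd, ← hv]
        rw [hq'] at hg
        obtain ⟨g1, g2, g3, g4, g5⟩ := stepS hz (by omega) (by omega) hg
        right
        have hdx : -1 ≤ dx d ∧ dx d ≤ 1 := Crest.Agent.R158.Nm211.dx_abs d
        have hm1 : (mv v d).1 = v.1 + dx d := by simp [mv]
        refine ⟨?_, ?_⟩
        · intro r' hr'
          rw [List.mem_append, List.mem_singleton] at hr'
          rcases hr' with hr' | rfl
          · exact hno _ hr'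
          · rw [g5]
            exact stubnear _ (by omega) (by omega)
        by_cases hfar : a < (mv v d).1 ∧ (mv v d).1 < c0
        · left
          rw [g5]
          exact ⟨mv v d, rfl, hfar.1, hfar.2⟩
        · right
          by_cases hr : (mv v d).1 ≤ a
          · -- right stub
            have hd3 : d = 3 := by
              have : dx d = -1 := by omega
              fin_cases d <;> simp [dx] at this ⊢
            subst hd3
            refine ⟨true, (mv v 3, 3), ?_, ?_, 0, ?_, ?_⟩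
            · refine Finset.mem_image.2 ⟨(mv v 3).2, Finset.mem_Ico.2 ⟨g3, g4⟩, ?_⟩
              simp only [if_true]
              have : (mv v 3).1 = a := by
                have h7 : dx 3 = -1 := rfl
                omega
              ext <;> simp [this]
            · rw [g5]; simp
            · intro j hj
              have : j = 0 := by omega
              subst this
              refine ⟨?_, g3, g4⟩
              simp only [if_true, Function.iterate_zero, id]
              have h7 : dx 3 = -1 := rfl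
              omega
            · rw [g5]
              exact pass_fs (mv v 3, 3)
          · have hl : c0 ≤ (mv v d).1 := by omega
            have hd1 : d = 1 := by
              have : dx d = 1 := by omega
              fin_cases d <;> simp [dx] at this ⊢
            subst hd1
            refine ⟨false, (mv v 1, 1), ?_, ?_, 0, ?_, ?_⟩
            · refine Finset.mem_image.2 ⟨(mv v 1).2, Finset.mem_Ico.2 ⟨g3, g4⟩, ?_⟩
              simp only [Bool.false_eq_true, if_false]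
              have : (mv v 1).1 = c0 := by
                have h7 : dx 1 = 1 := rfl
                omega
              ext <;> simp [this]
            · rw [g5]; simp
            · intro j hj
              have : j = 0 := by omega
              subst this
              refine ⟨?_, g3, g4⟩
              simp only [Bool.false_eq_true, if_false, Function.iterate_zero, id]
              have h7 : dx 1 = 1 := rfl
              omega
            · rw [g5]
              exact pass_fs (mv v 1, 1)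
      · -- inside a stub
        subst h5
        have h6 := h4 m le_rfl
        obtain ⟨h7, h8, h9⟩ := h6
        have hcol : 1 ≤ ((fs y0 s)^[m] c).1.1 ∧ ((fs y0 s)^[m] c).1.1 ≤ B.R - 2 := by
          cases g
          · simp only [Bool.false_eq_true, if_false] at h7
            omega
          · simp only [if_true] at h7
            omega
        obtain ⟨g1, g2, g3, g4, g5⟩ := stepS hz hcol.1 hcol.2 hg
        have hnx : ((fs y0 s)^[m + 1] c).1 =
            mv ((fs y0 s)^[m] c).1 ((fs y0 s)^[m + 1] c).2 := by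
          rw [Function.iterate_succ_apply']
          rfl
        rw [← hnx] at g3 g4 g5
        have hdx : -1 ≤ dx ((fs y0 s)^[m + 1] c).2 ∧ dx ((fs y0 s)^[m + 1] c).2 ≤ 1 :=
          Crest.Agent.R158.Nm211.dx_abs _
        have hm1 : ((fs y0 s)^[m + 1] c).1.1 = ((fs y0 s)^[m] c).1.1 +
            dx ((fs y0 s)^[m + 1] c).2 := by
          rw [hnx]; simp [mv]
        have hyp : Pt266.pass s r = (se y0 ((fs y0 s)^[m + 1] c).1, ex ((fs y0 s)^[m + 2] c).2) := by
          rw [g5, pass_fs, ← Function.iterate_succ_apply' (fs y0 s)]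
        by_cases hD : (fs y0 s)^[m + 1] c ∈ Ds B a0 a c0 c1 g
        · right
          refine ⟨?_, Or.inr ⟨g, c, h1, List.mem_append_left _ h3, m + 1, ?_, hyp⟩⟩
          · intro r' hr'
            rw [List.mem_append, List.mem_singleton] at hr'
            rcases hr' with hr' | rfl
            · exact hno _ hr'
            · rw [g5]
              obtain ⟨h10, _, _⟩ := hD
              refine stubnear _ ?_ ?_ <;> cases g
              · simp only [Bool.false_eq_true, if_false] at h10; omega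
              · simp only [if_true] at h10; omega
              · simp only [Bool.false_eq_true, if_false] at h10; omega
              · simp only [if_true] at h10; omega
          · intro j hj
            rcases Nat.lt_or_ge m j with h | h
            · have : j = m + 1 := by omega
              rw [this]; exact hD
            · exact h4 j h
        by_cases hY : (fs y0 s)^[m + 1] c ∈ Ys a0 c1 g
        · left
          refine ⟨g, c, h1, ⟨m + 1, fun j hj => h4 j (by omega), hY⟩, List.mem_append_left _ h3⟩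
        · -- back to the far side
          right
          have hfar : a < ((fs y0 s)^[m + 1] c).1.1 ∧ ((fs y0 s)^[m + 1] c).1.1 < c0 := by
            have hD' : ¬ ((if g = true then a0 + 1 ≤ ((fs y0 s)^[m + 1] c).1.1 ∧
                ((fs y0 s)^[m + 1] c).1.1 ≤ a else c0 ≤ ((fs y0 s)^[m + 1] c).1.1 ∧
                ((fs y0 s)^[m + 1] c).1.1 ≤ c1) ∧
                B.y1 ≤ ((fs y0 s)^[m + 1] c).1.2 ∧ ((fs y0 s)^[m + 1] c).1.2 < B.y2) := hD
            have hY' : ¬ (if g = true then ((fs y0 s)^[m + 1] c).1.1 ≤ a0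
                else c1 + 1 ≤ ((fs y0 s)^[m + 1] c).1.1) := hY
            cases g
            · simp only [Bool.false_eq_true, if_false] at hD' hY' h7
              omega
            · simp only [if_true] at hD' hY' h7
              omega
          refine ⟨?_, Or.inl ?_⟩
          · intro r' hr'
            rw [List.mem_append, List.mem_singleton] at hr'
            rcases hr' with hr' | rfl
            · exact hno _ hr'
            · rw [g5]
              exact stubnear _ (by omega) (by omega)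
          · rw [hyp]
            exact ⟨_, rfl, hfar.1, hfar.2⟩
  rcases key with h | ⟨h1, _⟩
  · exact h
  · obtain ⟨r, hr, hr'⟩ := hl
    exact absurd hr' (h1 r hr)

/-- the same for a strand that visits both sides in any order -/
theorem pass_both (hz : B.At p y0) (h0 : 0 ≤ a0) (ha : a0 < a) (hac : a + 1 < c0) (hc : c0 ≤ c1)
    (hc1 : c1 ≤ B.R - 2)
    {x y : TG × ZMod 4} {l : List (TG × ZMod 4)}
    (hw : Wk s (Gq (B.beG p y0)) x y l) (hn : ∃ q ∈ l, q.1 ∈ NearS y0 a0 c1)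
    (hf : ∃ r ∈ l, r.1 ∈ FarS y0 a c0) :
    ∃ g, ∃ c ∈ Xs B a c0 g, Hit (fs y0 s) (Ds B a0 a c0 c1 g) (Ys a0 c1 g) c ∧
      ((se y0 c.1, en c.2) ∈ l ∨ ∃ r ∈ l, Pt266.pass s r = (se y0 c.1, en c.2)) := by
  obtain ⟨q, hq, hqn⟩ := hn
  obtain ⟨r, hr, hrf⟩ := hf
  obtain ⟨l1, l2, rfl⟩ := List.append_of_mem hr
  by_cases hq2 : q ∈ r :: l2
  · obtain ⟨g, c, h1, h2, h3⟩ := pass_walk hz h0 ha hac hc hc1 hrf hw.right_of_append ⟨q, hq2, hqn⟩
    exact ⟨g, c, h1, h2, Or.inl (List.mem_append_right _ h3)⟩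
  · have hq1 : q ∈ l1 := by
      rw [List.mem_append] at hq
      exact hq.resolve_right hq2
    have hS := Zg180.Gq.symm (be := B.beG p y0) (Band.beG_invol B hz)
    have hr' := Wk.reverse hS hw
    have e : rv s (l1 ++ r :: l2) = rv s l2 ++ Pt266.pass s r :: rv s l1 := by
      simp [rv, List.append_assoc]
    rw [e] at hr'
    have hq' : Pt266.pass s q ∈ Pt266.pass s r :: rv s l1 := by
      refine List.mem_cons_of_mem _ ?_
      unfold rv
      rw [List.mem_reverse]
      exact List.mem_map_of_mem hq1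
    obtain ⟨g, c, h1, h2, h3⟩ := pass_walk hz h0 ha hac hc hc1 (show (Pt266.pass s r).1 ∈ _ from hrf)
      hr'.right_of_append ⟨_, hq', hqn⟩
    refine ⟨g, c, h1, h2, Or.inr ?_⟩
    rw [List.mem_cons] at h3
    rcases h3 with h3 | h3
    · exact ⟨r, by simp, h3.symm⟩
    · unfold rv at h3
      rw [List.mem_reverse, List.mem_map] at h3
      obtain ⟨r0, h4, h5⟩ := h3
      exact ⟨r0, List.mem_append_left _ h4, h5⟩

/-- **the number of strands that visit both sides is at most the number of passages** -/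
theorem pass_count {κ : Type*} (hz : B.At p y0) (h0 : 0 ≤ a0) (ha : a0 < a) (hac : a + 1 < c0)
    (hc : c0 ≤ c1) (hc1 : c1 ≤ B.R - 2) (F : Finset κ) (P : κ → Set (TG × ZMod 4))
    (hdis : ∀ i ∈ F, ∀ j ∈ F, i ≠ j → Disjoint (P i) (P j))
    (hF : ∀ i ∈ F, ∃ x y l, Wk s (Gq (B.beG p y0)) x y l ∧
      (∀ r ∈ l, r ∈ P i ∧ Pt266.pass s r ∈ P i) ∧ (∃ q ∈ l, q.1 ∈ NearS y0 a0 c1) ∧
      ∃ r ∈ l, r.1 ∈ FarS y0 a c0) : F.card ≤ Pass B y0 a0 a c0 c1 s := by
  classical
  rcases F.eq_empty_or_nonempty with rfl | ⟨i0, hi0⟩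
  · simp
  have h1 : ∀ i ∈ F, ∃ gc : Bool × St ℤ, gc.2 ∈ Xs B a c0 gc.1 ∧
      Hit (fs y0 s) (Ds B a0 a c0 c1 gc.1) (Ys a0 c1 gc.1) gc.2 ∧ (se y0 gc.2.1, en gc.2.2) ∈ P i := by
    intro i hi
    obtain ⟨x, y, l, hw, hP, hn, hf⟩ := hF i hi
    obtain ⟨g, c, h2, h3, h4⟩ := pass_both hz h0 ha hac hc hc1 hw hn hf
    refine ⟨(g, c), h2, h3, ?_⟩
    rcases h4 with h4 | ⟨r, hr, h4⟩
    · exact (hP _ h4).1
    · show (se y0 c.1, en c.2) ∈ P i
      rw [← h4]
      exact (hP _ hr).2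
  have : Nonempty (Bool × St ℤ) := ⟨(h1 i0 hi0).choose⟩
  choose! f hf using h1
  have h2 : F.card ≤ (Finset.univ.sigma fun g : Bool =>
      (Xs B a c0 g).filter fun c => Hit (fs y0 s) (Ds B a0 a c0 c1 g) (Ys a0 c1 g) c).card := by
    refine Finset.card_le_card_of_injOn (fun i => ⟨(f i).1, (f i).2⟩) ?_ ?_
    · intro i hi
      have := hf i hi
      simp only [Finset.coe_sigma, Set.mem_sigma_iff, Finset.coe_univ, Set.mem_univ, true_and,
        Finset.coe_filter]
      exact ⟨this.1, this.2.1⟩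
    · intro i hi j hj hij
      by_contra hne
      have hij' : (f i).2 = (f j).2 := by
        have := congrArg (fun z : (_ : Bool) × St ℤ => z.2) hij
        exact this
      have h3 := (hf i hi).2.2
      have h4 := (hf j hj).2.2
      rw [hij'] at h3
      exact Set.disjoint_left.1 (hdis i hi j hj hne) h3 h4
  rw [Finset.card_sigma] at h2
  refine h2.trans (le_of_eq ?_)
  unfold Pass
  refine Finset.sum_congr rfl fun g _ => ?_
  unfold KK
  congr

end walks

end Crest.Agent.R158.Zc180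
end
end

-- ▼ part R158/Yc2_180
section

/-!
# Row 158 (helper180): the majorant of the mark sum, 2: classes that visit both sides

* `Both y0 a0 a c0 c1 C` : the class visits the near side and the far side of the stub sections
* `card_both` : at most `Pass` classes
* `near_class` : a class that does not visit the far side is a class of the network of `Dp`
* `prod_le` : the product over the classes without the leg is at most `2 ^ Pass`
* `far_ends` : at most `2 Pass` near ends have a class which visits the far side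
-/

set_option autoImplicit false
set_option linter.unusedSectionVars false
set_option linter.unusedVariables false

noncomputable section

open Finset

namespace Crest.Agent.R158.Yc180

open Crest.Agent.R158.Sw300 (Port Wd thru L isLeg)
open Crest.Agent.R158.Bd932 (e3)
open Crest.Agent.R158.Env664 (TG Band beD PortOf portOf_some)
open Crest.Agent.R158.Xr249 (Dp mem_Dp Free pm pm_some eD rct mem_rct full)
open Crest.Agent.R158.Ad350
open Crest.Agent.R158.Ao857 (legP beL chL)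
open Crest.Agent.R158.Zg180 (Gq Near Far uc se se_uc uc_se)
open Crest.Agent.R158.Zc180 (Pass NearS FarS pass_count)
open Crest.Agent.R158.Ab664 (netE Mod4 norm_prod_zn mod4_netE)
open Crest.Agent.R158.Qd300 (DB beC chN NDe ndBe ndCh ND_eq at_of)
open Crest.Agent.R158.Fm857 (ctw phi freeG mem_freeG psD)
open Crest.Agent.R158.Ob664 (GW)
open Crest.Agent.R158.Qc405 (TabH psT)

variable {A : Finset (ℤ × ℤ)} {B : Band A} {p y0 : ℤ} {c c' : ℝ} {φ : Port TG → ℝ}
  {s : TG → Bool} {a0 a c0 c1 k : ℤ}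

/-- walks of `netN` are strands -/
lemma Wa_P (hz : B.At p y0) {x y : Port TG} {l : List (Port TG)}
    (hx : x ∈ (netN B p y0 c c' φ s).V) (w : (netN B p y0 c c' φ s).Wa x y l) :
    ∃ x' y' k, x = some x' ∧ y = some y' ∧ l = k.map some ∧
      Pt266.Wk s (Gq (B.beG p y0)) x' y' k := by
  have hok := netN_ok hz c c' φ s
  induction w with
  | one =>
    obtain ⟨t, d, rfl, ht⟩ := mem_ports' hx
    exact ⟨(t, d), (t, thru (s t) d), [(t, d)], rfl, rfl, rfl, Pt266.Wk.one⟩
  | @snoc q l w hb ih =>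
    obtain ⟨x', y', k, rfl, rfl, rfl, h3⟩ := ih
    have hqV := (Net.Wa.memV hok hx w).2.1
    have hrV := hok.beV _ hqV
    obtain ⟨t, d, er, ht⟩ := mem_ports' hrV
    have hne : (some y' : Port TG) ≠ legP p y0 := by
      intro e
      apply hb
      show beL B p y0 (some y') = some y'
      rw [e, Ao857.beL_leg]
    have hbe : B.beG p y0 (some y') = some (t, d) := by
      rw [← Ao857.beL_ne B hne]
      exact er
    have hg : Gq (B.beG p y0) y' (t, d) := by
      refine ⟨hbe, ?_⟩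
      intro e
      apply hb
      rw [er, e]
    refine ⟨x', (t, thru (s t) d), k ++ [(t, d)], rfl, ?_, ?_, h3.snoc hg⟩
    · rw [er]; rfl
    · rw [er, List.map_append]; rfl

/-- the class visits both sides of the stub sections -/
def Both (y0 a0 a c0 c1 : ℤ) (C : Finset (Port TG)) : Prop :=
  Net.Vis (TQ (Near y0 a0 c1)) C ∧ Net.Vis (TQ (Far y0 a (c0 - 1))) C

lemma near_nearS {t : TG} (h : t ∈ Near y0 a0 c1) : t ∈ NearS y0 a0 c1 := by
  rcases h with ⟨v, rfl⟩ | ⟨v, rfl, h⟩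
  · exact Or.inl ⟨v, rfl⟩
  · exact Or.inr ⟨(uc y0 v, v.2), (se_uc y0 v).symm, h⟩

lemma far_farS {t : TG} (h : t ∈ Far y0 a (c0 - 1)) : t ∈ FarS y0 a c0 := by
  obtain ⟨v, rfl, h1, h2⟩ := h
  exact ⟨(uc y0 v, v.2), (se_uc y0 v).symm, h1, show uc y0 v < c0 by omega⟩

open Classical in
/-- **at most `Pass` classes visit both sides** -/
theorem card_both (hz : B.At p y0) (h0 : 0 ≤ a0) (ha : a0 < a) (hac : a + 1 < c0) (hc : c0 ≤ c1)
    (hc1 : c1 ≤ B.R - 2) :
    (((netN B p y0 c c' φ s).classes (netN B p y0 c c' φ s).V).filter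
      (Both y0 a0 a c0 c1)).card ≤ Pass B y0 a0 a c0 c1 s := by
  have hok := netN_ok hz c c' φ s
  refine pass_count (p := p) hz h0 ha hac hc hc1 _ (fun C => {r | some r ∈ C}) ?_ ?_
  · intro C hC D hD hne
    obtain ⟨q, hq, rfl⟩ := Finset.mem_image.1 (Finset.mem_filter.1 hC).1
    obtain ⟨r, hr, rfl⟩ := Finset.mem_image.1 (Finset.mem_filter.1 hD).1
    have := Net.cls_disj hok hq hr hne
    rw [Set.disjoint_left]
    intro t h1 h2
    exact Finset.disjoint_left.1 this h1 h2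
  · intro C hC
    obtain ⟨hC1, hn, hf⟩ := Finset.mem_filter.1 hC
    obtain ⟨z, hzV, rfl⟩ := Finset.mem_image.1 hC1
    obtain ⟨x, hx, y, l, w, -, e, e', -⟩ := Net.class_walk hok hzV
    obtain ⟨x', y', k, rfl, rfl, rfl, hw⟩ := Wa_P hz hx w
    rw [e, e'] at hn hf
    refine ⟨x', y', k, hw, ?_, ?_, ?_⟩
    · intro r hr
      have h1 : (some r : Port TG) ∈ (netN B p y0 c c' φ s).cls z := by
        rw [e, e']
        exact Finset.mem_union_left _ (List.mem_toFinset.2 (List.mem_map_of_mem hr))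
      refine ⟨h1, ?_⟩
      exact (Net.cls_cl hok z).al _ h1
    · obtain ⟨q, hq, hq'⟩ := vis_walk hn
      exact ⟨q, hq, near_nearS hq'⟩
    · obtain ⟨q, hq, hq'⟩ := vis_walk hf
      exact ⟨q, hq, far_farS hq'⟩

/-- a class that does not visit the far side lies over the tiles of `Dp` -/
lemma near_img (hf : Free A B.xl B.xr B.y1 B.y2 k) (hR : 2 * k < B.R) {z : Port TG}
    (h : ¬ Net.Vis (TQ (Far y0 (k - 2) (B.R - k - 1))) ((netN B p y0 c c' φ s).cls z)) :
    (netN B p y0 c c' φ s).cls z ⊆ (ports (DB B k)).image (pm (eD B y0 k)) := by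
  intro q hq
  have hqV := (Net.mem_cls.1 hq).1
  obtain ⟨t, d, rfl, ht⟩ := mem_ports' hqV
  have h5 : ∀ v, t = Sum.inr v → uc y0 v ≤ k - 2 ∨ B.R - 1 - k < uc y0 v := by
    rintro v rfl
    by_contra hcon
    push Not at hcon
    exact h ⟨_, hq, _, _, rfl, v, rfl, by omega, by omega⟩
  obtain ⟨v, hv, e⟩ := im_eD hf hR ht h5
  refine Finset.mem_image.2 ⟨some (v, d), mem_ports.2 hv, ?_⟩
  rw [Xr249.pm_some, e]

section member

variable {b : ℤ} {m1 m2 : Port TG} {e : Option (Port TG)} {w : Wd (ℤ × ℤ)}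

/-- the embedding of the network of `Dp` -/
lemma embE (H : TabH A B.xl B.xr B.y1 B.y2 k p y0 (psD B)) (hR : 2 * k < B.R) (b : ℤ)
    (m1 m2 : Port TG) (e : Option (Port TG)) (s : TG → Bool) :
    Net.Emb (NDe B p y0 k b m1 m2 e s) (netE B p y0 b m1 m2 e s) (pm (eD B y0 k)) :=
  nd_emb (s := s) H.hf hR (at_of H) ndBe (ndCh _ _ _ _)

lemma leg_pm (H : TabH A B.xl B.xr B.y1 B.y2 k p y0 (psD B)) :
    pm (eD B y0 k) (Qd300.lp p y0) = legP p y0 := Ad350.pm_lp H.hf (at_of H)

/-- **a class (not the leg) over `Dp` is a class of the network of `Dp`** -/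
theorem near_class (H : TabH A B.xl B.xr B.y1 B.y2 k p y0 (psD B)) (hR : 2 * k < B.R)
    {C : Finset (Port TG)}
    (hC : C ∈ ((netE B p y0 b m1 m2 e s).classes (netE B p y0 b m1 m2 e s).V).erase
      ((netE B p y0 b m1 m2 e s).cls (legP p y0)))
    (h : C ⊆ (ports (DB B k)).image (pm (eD B y0 k))) :
    ∃ x ∈ ports (DB B k), C = ((NDe B p y0 k b m1 m2 e s).cls x).image (pm (eD B y0 k)) ∧
      Net.Tr (NDe B p y0 k b m1 m2 e s) (netE B p y0 b m1 m2 e s) (pm (eD B y0 k))
        ((NDe B p y0 k b m1 m2 e s).cls x) ∧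
      (NDe B p y0 k b m1 m2 e s).cls x ∈ ((NDe B p y0 k b m1 m2 e s).classes
        (NDe B p y0 k b m1 m2 e s).V).erase ((NDe B p y0 k b m1 m2 e s).cls (Qd300.lp p y0)) := by
  have E := embE H hR b m1 m2 e s
  obtain ⟨hne, hC⟩ := Finset.mem_erase.1 hC
  obtain ⟨z, hz, rfl⟩ := Finset.mem_image.1 hC
  have hzz := Net.self_mem_cls hz
  obtain ⟨x, hx, rfl⟩ := Finset.mem_image.1 (h hzz)
  obtain ⟨h1, h2⟩ := E.cls_image hx h
  refine ⟨x, hx, h1, h2, Finset.mem_erase.2 ⟨fun heq => ?_, Finset.mem_image_of_mem _ hx⟩⟩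
  apply hne
  have hlp : Qd300.lp p y0 ∈ (NDe B p y0 k b m1 m2 e s).V := lp_mem (at_of H)
  have h3 : Qd300.lp p y0 ∈ (NDe B p y0 k b m1 m2 e s).cls x := by
    rw [heq]; exact Net.self_mem_cls hlp
  have h4 : legP p y0 ∈ (netE B p y0 b m1 m2 e s).cls (pm (eD B y0 k) x) := by
    rw [h1, ← leg_pm H]
    exact Finset.mem_image_of_mem _ h3
  exact (Net.cls_eq_of_mem E.ok (E.mem x hx) h4).symm

/-- a loop over `Dp` has value one -/
theorem near_loop (H : TabH A B.xl B.xr B.y1 B.y2 k p y0 (psD B)) (hR : 2 * k < B.R)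
    (hkb : k ≤ b) (hbR : b + k ≤ B.R)
    (hw : GW (DB B k) (beD (DB B k) p y0 (B.xr + k)) w) {C : Finset (Port TG)}
    (hC : C ∈ ((netE B p y0 b m1 m2 e s).classes (netE B p y0 b m1 m2 e s).V).erase
      ((netE B p y0 b m1 m2 e s).cls (legP p y0)))
    (h : C ⊆ (ports (DB B k)).image (pm (eD B y0 k)))
    (he : ¬ ((netE B p y0 b m1 m2 e s).ends C).Nonempty) :
    (netE B p y0 b m1 m2 e s).zn C = 1 := by
  obtain ⟨x, hx, rfl, h2, h3⟩ := near_class H hR hC h
  rw [h2.zn]
  rw [h2.ends, Finset.image_nonempty] at he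
  rcases Qd300.zn_phi H hR hkb hbR hw m1 m2 e s h3 with h4 | ⟨y, -, -, -, h5, -⟩
  · exact h4.2
  · exact absurd ⟨y, by rw [h5]; simp⟩ he

/-- a loop of the strip has value one -/
theorem strip_loop (hz : B.At p y0) {a0 c1 : ℤ} (h0 : 0 ≤ a0) (h1 : c1 + 1 < B.R)
    {C : Finset (Port TG)}
    (hC : C ∈ (netN B p y0 c c' φ s).classes (netN B p y0 c c' φ s).V)
    (hS : ∀ z ∈ C, ∃ q : (ℤ × ℤ) × ZMod 4, q.1 ∈ rct (a0 + 1) (c1 + 1) B.y1 B.y2 ∧
      z = pS y0 q)
    (he : ¬ ((netN B p y0 c c' φ s).ends C).Nonempty) : (netN B p y0 c c' φ s).zn C = 1 := by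
  have hok := netN_ok hz c c' φ s
  obtain ⟨z, hzV, rfl⟩ := Finset.mem_image.1 hC
  obtain ⟨x, hx, y, l, w, hl, e, e', hcase⟩ := Net.class_walk hok hzV
  rw [e] at hS ⊢ he
  have hlC : ∀ z ∈ l, z ∈ (netN B p y0 c c' φ s).cls x := fun z hz' => by
    rw [e']
    exact Finset.mem_union_left _ (List.mem_toFinset.2 hz')
  obtain ⟨x', y', k, rfl, rfl, rfl, hk, hyS, w'⟩ := pull c c' φ s (by omega : 0 ≤ a0 + 1)
    (by omega : c1 + 1 ≤ B.R) w fun z hz' => hS z (hlC z hz')
  have hxS := hk _ w'.mem_left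
  rcases hcase with ⟨k1, -⟩ | k1
  · exact absurd ⟨_, Finset.mem_filter.2 ⟨Net.self_mem_cls hx, k1⟩⟩ he
  · have hkN : k.Nodup := hl.of_map _
    refine zn_loop hz h0 h1 hxS hkN w' ?_
    refine (be_strip (p := p) (y0 := y0) (by omega : 0 ≤ a0 + 1) (by omega : c1 + 1 ≤ B.R)
      hyS hxS).2 ⟨k1, ?_⟩
    exact fun h => (Net.Wa.memV hok hx w).2.2 h

/-- parameters of the stub sections -/
structure Sec (B : Band A) (k b a0 c1 : ℤ) : Prop where
  h0 : 0 ≤ a0
  ha : a0 < k - 2
  hR : 2 * k < B.R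
  hc : B.R - k ≤ c1
  hc1 : c1 ≤ B.R - 2
  kb : k ≤ b
  bR : b + k ≤ B.R

/-- passages of the stub sections -/
abbrev PassD (B : Band A) (y0 k a0 c1 : ℤ) (s : TG → Bool) : ℕ :=
  Pass B y0 a0 (k - 2) (B.R - k) c1 s

/-- **loops with value `> 1` visit both sides** -/
theorem bad_loop (H : TabH A B.xl B.xr B.y1 B.y2 k p y0 (psD B)) {a0 c1 : ℤ}
    (S : Sec B k b a0 c1) (hw : GW (DB B k) (beD (DB B k) p y0 (B.xr + k)) w)
    {C : Finset (Port TG)}
    (hC : C ∈ ((netE B p y0 b m1 m2 e s).classes (netE B p y0 b m1 m2 e s).V).erase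
      ((netE B p y0 b m1 m2 e s).cls (legP p y0)))
    (hB : ¬ Both y0 a0 (k - 2) (B.R - k) c1 C)
    (he : ¬ ((netE B p y0 b m1 m2 e s).ends C).Nonempty) :
    ‖(netE B p y0 b m1 m2 e s).z C‖ ≤ 1 := by
  have hzn : (netE B p y0 b m1 m2 e s).zn C = (netE B p y0 b m1 m2 e s).z C := by
    unfold Net.zn
    rw [if_neg he]
  rw [← hzn]
  have hC' := Finset.mem_of_mem_erase hC
  by_cases hn : Net.Vis (TQ (Near y0 a0 c1)) C
  · have hf : ¬ Net.Vis (TQ (Far y0 (k - 2) (B.R - k - 1))) C := fun hf => hB ⟨hn, hf⟩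
    obtain ⟨z, hz, rfl⟩ := Finset.mem_image.1 hC'
    rw [near_loop H S.hR S.kb S.bR hw hC (near_img H.hf S.hR hf) he]
    simp
  · have hR := S.hR
    have hc1 := S.hc1
    rw [strip_loop (at_of H) S.h0 (by omega : c1 + 1 < B.R) hC' (in_strip (at_of H) hC' hn) he]
    simp

open Classical in
/-- **the normalised value is at most `2 ^ Pass`** -/
theorem zE_le (H : TabH A B.xl B.xr B.y1 B.y2 k p y0 (psD B))
    (hW : ∃ w l, Psi664.BW (full A) B.xl B.y1 w l) {a0 c1 : ℤ}
    (S : Sec B k b a0 c1) (hw : GW (DB B k) (beD (DB B k) p y0 (B.xr + k)) w)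
    (m1 m2 : Port TG) (e : Option (Port TG)) (s : TG → Bool) :
    ‖zE B p y0 b m1 m2 e s‖ ≤ 2 ^ PassD B y0 k a0 c1 s := by
  have hz := at_of H
  have hok : (netE B p y0 b m1 m2 e s).Ok := netN_ok hz _ _ _ _
  have hx : legP p y0 ∈ (netE B p y0 b m1 m2 e s).V := legP_mem hz
  have h1 : zE B p y0 b m1 m2 e s = (netE B p y0 b m1 m2 e s).zv
      ((netE B p y0 b m1 m2 e s).cls (legP p y0)) (legP p y0) false *
      ∏ c ∈ ((netE B p y0 b m1 m2 e s).classes (netE B p y0 b m1 m2 e s).V).erase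
        ((netE B p y0 b m1 m2 e s).cls (legP p y0)), (netE B p y0 b m1 m2 e s).zn c := rfl
  rw [h1, norm_mul]
  have h2 := Net.norm_zv_cls_le hok hx false
  have h3 := norm_prod_zn (mod4_netE hW hz b m1 m2 e) (s := s)
    (S := ((netE B p y0 b m1 m2 e s).classes (netE B p y0 b m1 m2 e s).V).erase
        ((netE B p y0 b m1 m2 e s).cls (legP p y0)))
    (Bad := ((netE B p y0 b m1 m2 e s).classes (netE B p y0 b m1 m2 e s).V).filter
      (Both y0 a0 (k - 2) (B.R - k) c1)) ?_ ?_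
  · refine (mul_le_mul h2 h3 (norm_nonneg _) zero_le_one).trans ?_
    rw [one_mul]
    refine pow_le_pow_right₀ one_le_two ?_
    refine (Finset.card_le_card Finset.inter_subset_right).trans ?_
    have hk := S.hR
    exact card_both hz S.h0 S.ha (by have := S.hR; omega) S.hc S.hc1
  · intro c hc
    have hc' := Finset.mem_of_mem_erase hc
    refine ⟨hc', fun hl => ?_⟩
    obtain ⟨q, hq, rfl⟩ := Finset.mem_image.1 hc'
    exact (Finset.mem_erase.1 hc).1 (Net.cls_eq_of_mem hok hq hl).symm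
  · intro c hc hb he
    refine bad_loop H S hw hc (fun hB => hb ?_) he
    exact Finset.mem_filter.2 ⟨Finset.mem_of_mem_erase hc, hB⟩

end member

/-! ### the ends whose class visits the far side -/

/-- reference network (the classes do not depend on the phases) -/
abbrev net0 (B : Band A) (p y0 : ℤ) (s : TG → Bool) : Net (Port TG) := netN B p y0 0 0 0 s


open Classical in
/-- **few near ends have a class which visits the far side** -/
theorem far_ends (hz : B.At p y0) (h0 : 0 ≤ a0) (ha : a0 < a) (hac : a + 1 < c0) (hc : c0 ≤ c1)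
    (hc1 : c1 ≤ B.R - 2) {J : Finset (Port TG)}
    (hJ : ∀ e ∈ J, e ∈ freeG B ∧ TQ (Near y0 a0 c1) e) :
    (J.filter fun e => Net.Vis (TQ (Far y0 a (c0 - 1))) ((net0 B p y0 s).cls e)).card ≤
      2 * Pass B y0 a0 a c0 c1 s := by
  have hok := netN_ok hz 0 0 0 s
  have hend : ∀ e ∈ J, e ∈ (net0 B p y0 s).V ∧ (net0 B p y0 s).be e = e := by
    intro e he
    obtain ⟨h1, h2⟩ := (mem_freeG B hz).1 (hJ e he).1
    refine ⟨h1, ?_⟩
    show beL B p y0 e = e
    by_cases hl : e = legP p y0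
    · rw [hl, Ao857.beL_leg]
    · rw [Ao857.beL_ne B hl, h2]
  set F := J.filter fun e => Net.Vis (TQ (Far y0 a (c0 - 1))) ((net0 B p y0 s).cls e) with hF
  have h1 : F.card ≤ 2 * (F.image (net0 B p y0 s).cls).card := by
    refine Finset.card_le_mul_card_image F 2 ?_
    intro C hC
    obtain ⟨e, he, rfl⟩ := Finset.mem_image.1 hC
    obtain ⟨g1, g2⟩ := hend e (Finset.mem_filter.1 he).1
    have h2 := Net.card_ends_cls hok g1
    have h3 : (F.filter fun x => (net0 B p y0 s).cls x = (net0 B p y0 s).cls e) ⊆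
        (net0 B p y0 s).ends ((net0 B p y0 s).cls e) := by
      intro x hx
      obtain ⟨hx1, hx2⟩ := Finset.mem_filter.1 hx
      obtain ⟨k1, k2⟩ := hend x (Finset.mem_filter.1 hx1).1
      refine Finset.mem_filter.2 ⟨?_, k2⟩
      rw [← hx2]
      exact Net.self_mem_cls k1
    refine (Finset.card_le_card h3).trans ?_
    rw [h2]
    split_ifs <;> omega
  refine h1.trans (Nat.mul_le_mul_left 2 ?_)
  refine le_trans (Finset.card_le_card ?_) (card_both (p := p) (c := 0) (c' := 0) (φ := 0) hz h0 ha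
    hac hc hc1)
  intro C hC
  obtain ⟨e, he, rfl⟩ := Finset.mem_image.1 hC
  obtain ⟨he1, he2⟩ := Finset.mem_filter.1 he
  obtain ⟨g1, g2⟩ := hend e he1
  exact Finset.mem_filter.2 ⟨Finset.mem_image_of_mem _ g1,
    ⟨e, Net.self_mem_cls g1, (hJ e he1).2⟩, he2⟩

end Crest.Agent.R158.Yc180
end
end

-- ▼ part R158/Yc1_180
section

/-!
# Row 158 (helper180): the majorant of the mark sum, 1: partial matchings

Only the arcs whose start satisfies `Q` (exact arcs) are used.

* `Gd π N k x1 x2 Q e` : no exact arc kills the middle phase at `e`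
* `NCK.ty_injQ`, `NCK.card_Gd` : at most 7 ends of exact arcs satisfy `Gd`
-/

set_option autoImplicit false

namespace Crest.Agent.R158.Al194

open Crest.Agent.R158.Vt300 Finset

variable {π : ℕ → ℕ} {N k : ℕ}

/-- no arc of `Q` has charge `-1` or `2` when the middle phase is at `e` -/
def Gd (π : ℕ → ℕ) (N k x1 x2 : ℕ) (Q : ℕ → Prop) (e : ℕ) : Prop :=
  ∀ i, i < N → st π k i → Q i → ig π x1 i + ig π x2 i - ig π e i - ig π (e + 1) i ≠ -1 ∧
    ig π x1 i + ig π x2 i - ig π e i - ig π (e + 1) i ≠ 2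

theorem NCK.ty_injQ (h : NCK π N k) {x1 x2 : ℕ} (h1 : x1 ≤ N) (h2 : x2 ≤ N) {Q : ℕ → Prop}
    {e e' : ℕ} (he : e < N) (he' : e' < N) (hS : Gd π N k x1 x2 Q e) (hS' : Gd π N k x1 x2 Q e')
    (hQ : e ≠ k → Q (ar π k e)) (hQ' : e' ≠ k → Q (ar π k e'))
    (ht : ty π k x1 x2 e = ty π k x1 x2 e') : e = e' := by
  unfold ty at ht
  by_cases hek : e = k
  · by_cases hek' : e' = k
    · rw [hek, hek']
    · rw [if_pos hek, if_neg hek'] at ht
      have := congrArg Prod.fst ht
      rcases ig_cases (π := π) x1 (ar π k e') with a | a <;> simp only [a] at this <;> omega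
  by_cases hek' : e' = k
  · rw [if_neg hek, if_pos hek'] at ht
    have := congrArg Prod.fst ht
    rcases ig_cases (π := π) x1 (ar π k e) with a | a <;> simp only [a] at this <;> omega
  rw [if_neg hek, if_neg hek'] at ht
  obtain ⟨i1, i2, i3⟩ := h.ar_spec he hek
  obtain ⟨j1, j2, j3⟩ := h.ar_spec he' hek'
  simp only [Prod.mk.injEq] at ht
  obtain ⟨t1, t2, t3⟩ := ht
  have own : ig π x1 (ar π k e) + ig π x2 (ar π k e) ≠ 0 := by
    intro hz
    have := h.ig_at i1 i2 (e := e) (by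
      rcases i3 with r | r
      · exact Or.inl r.symm
      · exact Or.inr r.symm)
    exact (hS _ i1 i2 (hQ hek)).1 (by omega)
  by_cases hij : ar π k e = ar π k e'
  · -- the same arc: the same end
    have hse : st π k e ↔ st π k e' := by
      by_cases a : st π k e <;> by_cases b : st π k e' <;> simp [a, b] at t3 ⊢
    unfold ar at hij
    by_cases a : st π k e
    · rw [if_pos a, if_pos (hse.1 a)] at hij; exact hij
    · rw [if_neg a, if_neg fun b => a (hse.2 b)] at hij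
      rw [← h.inv e he, hij, h.inv e' he']
  exfalso
  -- a common gap
  have hx : ∃ x, x ≤ N ∧ ing π x (ar π k e) ∧ ing π x (ar π k e') := by
    rcases ig_cases (π := π) x1 (ar π k e) with a | a
    · have b : ig π x2 (ar π k e) = 1 := by
        rcases ig_cases (π := π) x2 (ar π k e) with b | b
        · omega
        · exact b
      refine ⟨x2, h2, ?_, ?_⟩
      · by_contra hc; rw [ig_zero hc] at b; omega
      · by_contra hc; rw [ig_zero hc] at t2; omega
    · refine ⟨x1, h1, ?_, ?_⟩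
      · by_contra hc; rw [ig_zero hc] at a; omega
      · by_contra hc; rw [ig_zero hc] at t1; omega
  obtain ⟨x, hx, hx1, hx2⟩ := hx
  have g1 := ig_cases (π := π) x1 (ar π k e)
  have g2 := ig_cases (π := π) x2 (ar π k e)
  rcases h.nested i1 j1 i2 j2 hij hx hx1 hx2 with ⟨n1, n2⟩ | ⟨n1, n2⟩
  · -- the arc of `e` is inside the arc of `e'`
    obtain ⟨u1, u2⟩ := n1 e i3
    obtain ⟨v1, v2⟩ := n2 e' j3
    by_cases hb : ig π x1 (ar π k e) = 1 ∧ ig π x2 (ar π k e) = 1
    · refine (hS' _ i1 i2 (hQ hek)).2 ?_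
      rw [ig_zero v1, ig_zero v2]; omega
    · refine (hS _ j1 j2 (hQ' hek')).1 ?_
      rw [ig_one u1, ig_one u2]; omega
  · obtain ⟨u1, u2⟩ := n1 e' j3
    obtain ⟨v1, v2⟩ := n2 e i3
    by_cases hb : ig π x1 (ar π k e) = 1 ∧ ig π x2 (ar π k e) = 1
    · refine (hS _ j1 j2 (hQ' hek')).2 ?_
      rw [ig_zero v1, ig_zero v2]; omega
    · refine (hS' _ i1 i2 (hQ hek)).1 ?_
      rw [ig_one u1, ig_one u2]; omega

/-- **at most 7 ends of exact arcs carry a middle phase** -/
theorem NCK.card_Gd (h : NCK π N k) {x1 x2 : ℕ} (h1 : x1 ≤ N) (h2 : x2 ≤ N) {Q : ℕ → Prop}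
    (A : Finset ℕ) (hA : ∀ e ∈ A, e < N ∧ Gd π N k x1 x2 Q e ∧ (e ≠ k → Q (ar π k e))) :
    A.card ≤ 7 := by
  set S : Finset (ℤ × ℤ × ℕ) := {(2, 0, 0), (0, 1, 0), (0, 1, 1), (1, 0, 0), (1, 0, 1), (1, 1, 0),
    (1, 1, 1)} with hSdef
  have hS : S.card ≤ 7 := by rw [hSdef]; rfl
  refine le_trans (Finset.card_le_card_of_injOn (ty π k x1 x2) ?_ ?_) hS
  · intro e he
    obtain ⟨he, hne, hQ⟩ := hA e he
    rw [Finset.mem_coe]
    unfold ty
    by_cases hek : e = k
    · rw [if_pos hek, hSdef]; simp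
    · rw [if_neg hek]
      obtain ⟨i1, i2, i3⟩ := h.ar_spec he hek
      have own : ig π x1 (ar π k e) + ig π x2 (ar π k e) ≠ 0 := by
        intro hz
        have := h.ig_at i1 i2 (e := e) (by
          rcases i3 with r | r
          · exact Or.inl r.symm
          · exact Or.inr r.symm)
        exact (hne _ i1 i2 (hQ hek)).1 (by omega)
      rcases ig_cases (π := π) x1 (ar π k e) with a | a <;>
        rcases ig_cases (π := π) x2 (ar π k e) with b | b <;>
        by_cases c : st π k e <;> simp [a, b, c, hSdef] at own ⊢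
  · intro e he e' he' ht
    obtain ⟨he1, he2, he3⟩ := hA e he
    obtain ⟨he1', he2', he3'⟩ := hA e' he'
    exact h.ty_injQ h1 h2 he1 he1' he2 he2' he3 he3' ht

end Crest.Agent.R158.Al194
end

-- ▼ part R158/Yc3_180
section

/-!
# Row 158 (helper180): the majorant of the mark sum, 3: at most 7 members on exact arcs

* `card_gen` : on a word, at most 7 ends of exact arcs survive
* `exact_nat` : the ends of an exact class are natural
* `exact_zn` : value of an exact arc for the member `e`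
* **`card_exact`** : at most 7 members whose end lies on an exact class have `zE ≠ 0`
-/

set_option autoImplicit false
set_option linter.unusedSectionVars false
set_option linter.unusedVariables false

noncomputable section

open Finset

namespace Crest.Agent.R158.Yc180

open Crest.Agent.R158.Sw300 (Port Wd thru L isLeg M S u Ok)
open Crest.Agent.R158.Al194 (idL enL piL rotl cM chm NCK Gd st ar ig nckL stL_iff enL_mem enL_idL
  idL_enL enL_piL enL_ku idL_lt wr wr_int)
open Crest.Agent.R158.Vt300 (wz)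
open Crest.Agent.R158.Oc194 (Ord cK kK KD NatD NatS KD_nat fc_of cut_glued not_art nat_free
  mem_Dp_of ord_D mem_of_natD mem_of_natS)

section gen

variable {T β : Type*} [DecidableEq T] [LinearOrder β] {w : Wd T} {s : T → Bool} {m1 m2 : Port T}

/-- **at most 7 ends of exact arcs survive** -/
theorem card_gen (h : Ok w) (hm1 : m1 ∈ L w) (hm2 : m2 ∈ L w) {Q : Port T → Prop}
    (hQM : ∀ x ∈ L w, x ≠ u s w → Q x → Q (M s w x)) (X : Finset (Port T))
    (hX : ∀ e ∈ X, e ∈ L w ∧ Q e ∧ ∀ x ∈ L w, x ≠ u s w → S s w x = true → Q x →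
      cM (L w) m1 m2 (idL (L w) m1 e) (M s w x) - cM (L w) m1 m2 (idL (L w) m1 e) x ≠ -1 ∧
      cM (L w) m1 m2 (idL (L w) m1 e) (M s w x) - cM (L w) m1 m2 (idL (L w) m1 e) x ≠ 2) :
    X.card ≤ 7 := by
  classical
  have hN := nckL s h hm1
  have h2 : (rotl (L w) m1).idxOf m2 ≤ (L w).length := (idL_lt (m1 := m1) hm2).le
  have hcard : (X.image (idL (L w) m1)).card = X.card := by
    refine Finset.card_image_of_injOn fun a ha b hb e => ?_
    rw [← enL_idL (m1 := m1) (hX a ha).1, ← enL_idL (m1 := m1) (hX b hb).1, e]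
  rw [← hcard]
  refine hN.card_Gd (x1 := 0) (x2 := (rotl (L w) m1).idxOf m2) (Nat.zero_le _) h2
    (Q := fun i => Q (enL (L w) m1 i)) _ fun j hj => ?_
  obtain ⟨e, he, rfl⟩ := Finset.mem_image.1 hj
  obtain ⟨he1, he2, he3⟩ := hX e he
  have hj := idL_lt (m1 := m1) he1
  refine ⟨hj, ?_, ?_⟩
  · intro i hi hst hQ
    have hik : i ≠ (rotl (L w) m1).idxOf (u s w) := by
      rintro rfl; exact Al194.not_st_fix hN hst
    have hxu : enL (L w) m1 i ≠ u s w := by
      intro hh
      apply hik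
      rw [← idL_enL h (m1 := m1) hi, hh]
      rfl
    have hS := (stL_iff h hm1 hi hik).1 hst
    have h3 := he3 _ (enL_mem hi) hxu hS hQ
    have e1 : cM (L w) m1 m2 (idL (L w) m1 e) (enL (L w) m1 i) =
        chm 0 ((rotl (L w) m1).idxOf m2) (idL (L w) m1 e) i := by
      unfold cM
      rw [show (rotl (L w) m1).idxOf (enL (L w) m1 i) = i from idL_enL h hi]
    have e2 : cM (L w) m1 m2 (idL (L w) m1 e) (M s w (enL (L w) m1 i)) =
        chm 0 ((rotl (L w) m1).idxOf m2) (idL (L w) m1 e) (piL (L w) (M s w) m1 i) := by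
      unfold cM
      rfl
    rw [e1, e2, hN.chm_ig hi hst (Nat.zero_le _) h2 hj] at h3
    exact h3
  · intro hk
    have heu : e ≠ u s w := by
      rintro rfl
      exact hk rfl
    unfold ar
    split_ifs
    · show Q (enL (L w) m1 (idL (L w) m1 e))
      rw [enL_idL he1]; exact he2
    · show Q (enL (L w) m1 (piL (L w) (M s w) m1 (idL (L w) m1 e)))
      rw [enL_piL h hj, enL_idL he1]
      exact hQM _ he1 heu he2

end gen

open Crest.Agent.R158.Bd932 (e3)
open Crest.Agent.R158.Env664 (TG Band beD PortOf portOf_some)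
open Crest.Agent.R158.Xr249 (Dp mem_Dp Free pm pm_some eD rct mem_rct full)
open Crest.Agent.R158.Ad350
open Crest.Agent.R158.Ao857 (legP beL chL)
open Crest.Agent.R158.Zg180 (Gq Near Far uc se se_uc uc_se)
open Crest.Agent.R158.Zc180 (Pass)
open Crest.Agent.R158.Ab664 (netE Mod4 norm_prod_zn mod4_netE)
open Crest.Agent.R158.Qd300 (DB beC chN NDe ndBe ndCh ND_eq at_of C0 Art)
open Crest.Agent.R158.Fm857 (ctw phi freeG mem_freeG psD cb pG ge1 gt1)
open Crest.Agent.R158.Ob664 (GW)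
open Crest.Agent.R158.Qc405 (TabH psT)

variable {A : Finset (ℤ × ℤ)} {B : Band A} {p y0 k b a0 c1 : ℤ} {s : TG → Bool}
  {w : Wd (ℤ × ℤ)} {m1 m2 : Port (ℤ × ℤ)}

/-- exact ends: the class in `G^(z)` lies over `Dp` -/
def Exc (B : Band A) (p y0 k : ℤ) (s : TG → Bool) (x : Port (ℤ × ℤ)) : Prop :=
  (net0 B p y0 s).cls (pm (eD B y0 k) x) ⊆ (ports (DB B k)).image (pm (eD B y0 k))

/-- ports of the word are ports of `Dp` -/
lemma L_ports (hw : GW (DB B k) (beD (DB B k) p y0 (B.xr + k)) w)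
    (H : TabH A B.xl B.xr B.y1 B.y2 k p y0 (psD B)) {x : Port (ℤ × ℤ)} (hx : x ∈ L w) :
    x ∈ ports (DB B k) ∧ x ≠ Qd300.lp p y0 ∧ beC B p y0 k x = x :=
  mem_Dp_of H hw hx

/-- an exact end is a cut end of `G^(z)` -/
lemma exact_be (H : TabH A B.xl B.xr B.y1 B.y2 k p y0 (psD B)) (hR : 2 * k < B.R)
    (hw : GW (DB B k) (beD (DB B k) p y0 (B.xr + k)) w) {x : Port (ℤ × ℤ)} (hx : x ∈ L w)
    (hE : Exc B p y0 k s x) : beL B p y0 (pm (eD B y0 k) x) = pm (eD B y0 k) x := by
  obtain ⟨h1, h2, h3⟩ := L_ports hw H hx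
  have E := embE H hR 0 none none none s
  have h4 : beL B p y0 (pm (eD B y0 k) x) ∈ (ports (DB B k)).image (pm (eD B y0 k)) := by
    refine hE ?_
    exact (Net.cls_cl (netN_ok (at_of H) 0 0 0 s) _).be _ (Net.self_mem_cls (E.mem x h1))
  have h5 := E.be x h1 h4
  have h6 : (NDe B p y0 k 0 none none none s).be x = x := h3
  rw [h6] at h5
  exact h5

/-- **the ends of an exact class are natural** -/
theorem exact_nat (H : TabH A B.xl B.xr B.y1 B.y2 k p y0 (psD B)) (hR : 2 * k < B.R)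
    (hw : GW (DB B k) (beD (DB B k) p y0 (B.xr + k)) w) {x : Port (ℤ × ℤ)} (hx : x ∈ L w)
    (hE : Exc B p y0 k s x) : NatD B x ∨ NatS B k x := by
  have hz := at_of H
  obtain ⟨h1, h2, h3⟩ := L_ports hw H hx
  have h4 := exact_be H hR hw hx hE
  have h5 : pm (eD B y0 k) x ≠ legP p y0 := Qd300.pm_ne_leg H.hf hR hz h1 h2
  rw [Ao857.beL_ne B h5] at h4
  have h6 : pm (eD B y0 k) x ∈ freeG B := by
    refine (mem_freeG B hz).2 ⟨?_, h4⟩
    obtain ⟨t, d, rfl, ht⟩ := mem_ports' h1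
    exact mem_ports.2 (portOf_some.1 (Xr249.pm_portOf H.hf hR (portOf_some.2 ht)))
  rcases fc_of H hw hx with h | h | h | h
  · exact Or.inl h
  · exact Or.inr h
  · exact absurd h6 (cut_glued H hR (Or.inl h))
  · exact absurd h6 (cut_glued H hR (Or.inr h))

/-- charges at the natural ends -/
theorem C0_cK (H : TabH A B.xl B.xr B.y1 B.y2 k p y0 (psD B)) (hR : 2 * k < B.R) (hkb : k ≤ b)
    (hbR : b + k ≤ B.R) (hw : GW (DB B k) (beD (DB B k) p y0 (B.xr + k)) w)
    (hm1 : NatD B m1) (hm2 : NatD B m2) {e x : Port (ℤ × ℤ)} (he : NatD B e ∨ NatS B k e)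
    (hx : NatD B x ∨ NatS B k x) (hxL : x ∈ L w) :
    C0 B p y0 k b (pm (eD B y0 k) m1) (pm (eD B y0 k) m2) (some (pm (eD B y0 k) e)) x =
      cK (KD B) m1 m2 (some e) x := by
  have hz := at_of H
  have hb' : b ≤ B.R - k := by omega
  obtain ⟨h1, -, -⟩ := L_ports hw H hxL
  have h2 := not_art H hR hz hx h1
  have k1 := KD_nat H hR hkb hb' (Or.inl hm1 : NatD B m1 ∨ NatS B k m1)
  have k2 := KD_nat H hR hkb hb' (Or.inl hm2 : NatD B m2 ∨ NatS B k m2)
  have k3 := KD_nat H hR hkb hb' he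
  have k4 := KD_nat H hR hkb hb' hx
  obtain ⟨t, d, rfl, ht⟩ := mem_ports' h1
  simp only [C0]
  rw [if_neg h2]
  simp only [cb, cK, ge1, gt1]
  rw [k1, k2, k3, k4]

/-- the network of `Dp` at a start of an arc -/
theorem exact_zn (H : TabH A B.xl B.xr B.y1 B.y2 k p y0 (psD B)) (hR : 2 * k < B.R) (hkb : k ≤ b)
    (hbR : b + k ≤ B.R) (hw : GW (DB B k) (beD (DB B k) p y0 (B.xr + k)) w) (n1 n2 : Port TG)
    (e : Option (Port TG)) {x : Port (ℤ × ℤ)} (hx : x ∈ L w) (hxu : x ≠ u (s ∘ eD B y0 k) w)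
    (hS : S (s ∘ eD B y0 k) w x = true) (hE : Exc B p y0 k s x) :
    (netE B p y0 b n1 n2 e s).cls (pm (eD B y0 k) x) ∈
      ((netE B p y0 b n1 n2 e s).classes (netE B p y0 b n1 n2 e s).V).erase
        ((netE B p y0 b n1 n2 e s).cls (legP p y0)) ∧
    (netE B p y0 b n1 n2 e s).zn ((netE B p y0 b n1 n2 e s).cls (pm (eD B y0 k) x)) =
      ((wr ((C0 B p y0 k b n1 n2 e (M (s ∘ eD B y0 k) w x) : ℝ) -
        (C0 B p y0 k b n1 n2 e x : ℝ)) : ℝ) : ℂ) := by
  have hz := at_of H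
  obtain ⟨h1, h2, h3⟩ := L_ports hw H hx
  have E := embE H hR b n1 n2 e s
  obtain ⟨g1, g2⟩ := E.cls_image h1 hE
  have P := Qd300.phs_phi H hR hkb hbR hw n1 n2 e
  have E' := Qd300.embW hw.word hz
  have G := Qd300.lg_ND H hw (ctw B b n1 n2 e) (ctw B b n1 n2 e + e3) (phi B b n1 n2 e)
    (psT (psD B) A B.xr) (ctw B b n1 n2 e)
  have hN : (NDe B p y0 k b n1 n2 e s).Ok := E.ok'
  have hCe := Qd300.ports_ep hw
  have hpo : Pc194.po id x = x := by cases x <;> rfl
  have hst : x ∈ Pc194.stC (s ∘ eD B y0 k) w id (NDe B p y0 k b n1 n2 e s).V := by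
    refine Pc194.mem_stC.2 ⟨hx, hxu, hS, ?_⟩
    rw [hpo]; exact h1
  have hlp : Qd300.lp p y0 ∈ (NDe B p y0 k b n1 n2 e s).V := lp_mem hz
  have hnl : x ∉ (NDe B p y0 k b n1 n2 e s).cls (Qd300.lp p y0) := by
    have h4 := Pc194.stC_sdiff (s := s ∘ eD B y0 k) P E' G hN hN.clV hCe hlp
    have h5 := hst
    rw [← h4] at h5
    have h6 := (Pc194.mem_stC.1 h5).2.2.2
    rw [hpo] at h6
    exact (Finset.mem_sdiff.1 h6).2
  constructor
  · refine Finset.mem_erase.2 ⟨fun heq => hnl ?_, Finset.mem_image_of_mem _ (E.mem x h1)⟩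
    have hleg : legP p y0 ∈ (netE B p y0 b n1 n2 e s).V := legP_mem hz
    have h7 : legP p y0 ∈ (netE B p y0 b n1 n2 e s).cls (pm (eD B y0 k) x) := by
      rw [heq]; exact Net.self_mem_cls hleg
    rw [g1] at h7
    obtain ⟨q, hq, eq⟩ := Finset.mem_image.1 h7
    have hqV := (Net.mem_cls.1 hq).1
    have : q = Qd300.lp p y0 := E.inj hqV hlp (eq.trans (leg_pm H).symm)
    rw [this] at hq
    have h11 := Net.cls_eq_of_mem hN h1 hq
    rw [h11]
    exact Net.self_mem_cls h1
  · rw [g1, g2.zn]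
    have h8 := Pc194.z_arc_word (s := s ∘ eD B y0 k) P E' hN hN.clV hCe hst
    rw [hpo] at h8
    have h9 : ((NDe B p y0 k b n1 n2 e s).ends ((NDe B p y0 k b n1 n2 e s).cls x)).Nonempty :=
      ⟨x, Finset.mem_filter.2 ⟨Net.self_mem_cls h1, h3⟩⟩
    unfold Net.zn
    rw [if_pos h9]
    have h10 : (NDe B p y0 k b n1 n2 e s).z ((NDe B p y0 k b n1 n2 e s).cls x) = _ := h8
    rw [h10, Complex.ofReal_mul, mul_div_cancel_left₀ _ Net.sqrt3_ne]
    rfl

/-- the partner of an exact end is exact -/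
theorem exact_M (H : TabH A B.xl B.xr B.y1 B.y2 k p y0 (psD B)) (S : Sec B k b a0 c1)
    (hw : GW (DB B k) (beD (DB B k) p y0 (B.xr + k)) w) {x : Port (ℤ × ℤ)} (hx : x ∈ L w)
    (hxu : x ≠ u (s ∘ eD B y0 k) w) (hE : Exc B p y0 k s x) :
    Exc B p y0 k s (M (s ∘ eD B y0 k) w x) := by
  have hz := at_of H
  obtain ⟨h1, h2, h3⟩ := L_ports hw H hx
  have E := embE H S.hR b none none none s
  have P := Qd300.phs_phi H S.hR S.kb S.bR hw none none none
  have E' := Qd300.embW hw.word hz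
  obtain ⟨a, a', l, rfl, h4, h5, -⟩ := P.arc (s := s ∘ eD B y0 k) E' hx hxu
  have h6 : (NDe B p y0 k b none none none s).Cn (some a) (some a') := Pc194.Wa_cn h5
  have h7 := E.cn h1 h6
  have h8 : (some a' : Port (ℤ × ℤ)) ∈ (NDe B p y0 k b none none none s).V :=
    Net.Cn.mem E.ok'.clV h1 h6
  have h9 : pm (eD B y0 k) (some a') ∈
      (netE B p y0 b none none none s).cls (pm (eD B y0 k) (some a)) :=
    Net.mem_cls.2 ⟨E.mem _ h8, h7⟩
  have h10 := Net.cls_eq_of_mem E.ok (E.mem _ h1) h9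
  unfold Exc at hE ⊢
  have h11 : M (s ∘ eD B y0 k) w (some a) = some a' := h4
  rw [h11]
  have h12 : (net0 B p y0 s).cls (pm (eD B y0 k) (some a')) =
      (net0 B p y0 s).cls (pm (eD B y0 k) (some a)) := h10
  rw [h12]
  exact hE

/-- an exact free end of `G^(z)` comes from an end of the word -/
theorem exact_end (H : TabH A B.xl B.xr B.y1 B.y2 k p y0 (psD B)) (hR : 2 * k < B.R)
    (hw : GW (DB B k) (beD (DB B k) p y0 (B.xr + k)) w) {x : Port (ℤ × ℤ)}
    (hx : x ∈ ports (DB B k)) (hf : pm (eD B y0 k) x ∈ freeG B) (hE : Exc B p y0 k s x) :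
    x ∈ L w := by
  have hz := at_of H
  have E := embE H hR 0 none none none s
  have E' := Qd300.embW hw.word hz
  have G := Qd300.lg_ND H hw (ctw B 0 none none none) (ctw B 0 none none none + e3)
    (phi B 0 none none none) (psT (psD B) A B.xr) (ctw B 0 none none none)
  obtain ⟨h1, h2⟩ := (mem_freeG B hz).1 hf
  have hne : pm (eD B y0 k) x ≠ legP p y0 := by
    intro e
    rw [e] at h2
    have h3 : B.beG p y0 (legP p y0) = none := by
      have h4 : B.nbG p y0 (legP p y0) = none := B.nbG_Sleg ⟨rfl, rfl⟩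
      unfold Band.beG
      rw [Env664.res_of (portOf_ports (legP_mem hz)) (by rw [h4]; exact Env664.portOf_none _), h4]
    rw [h3] at h2
    exact absurd h2 (by unfold legP; simp)
  have hbe : beL B p y0 (pm (eD B y0 k) x) = pm (eD B y0 k) x := by
    rw [Ao857.beL_ne B hne, h2]
  have h3 : beL B p y0 (pm (eD B y0 k) x) ∈ (ports (DB B k)).image (pm (eD B y0 k)) := by
    rw [hbe]; exact Finset.mem_image_of_mem _ hx
  have h4 := E.be x hx h3
  have h5 : pm (eD B y0 k) ((NDe B p y0 k 0 none none none s).be x) = pm (eD B y0 k) x :=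
    h4.symm.trans hbe
  have h6 : (NDe B p y0 k 0 none none none s).be x = x := E.inj (E.ok'.beV _ hx) hx h5
  obtain ⟨t, d, rfl, ht⟩ := mem_ports' hx
  refine E'.mem_L_of_cut ((hw.word.2.2.1 t).2 ht) h6 fun b hb hab => ?_
  subst hab
  apply hne
  rw [← leg_pm H]
  have h7 := (G.eq _ hb).1
  rw [h7]
  rfl

open Classical in
/-- **at most 7 members on exact classes** -/
theorem card_exact (H : TabH A B.xl B.xr B.y1 B.y2 k p y0 (psD B))
    {w0 : Wd (ℤ × ℤ)} {l0 : List (Port (ℤ × ℤ))} (hW : Psi664.BW (full A) B.xl B.y1 w0 l0)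
    {a0 c1 : ℤ} (S : Sec B k b a0 c1) (hw : GW (DB B k) (beD (DB B k) p y0 (B.xr + k)) w)
    (hm1 : NatD B m1) (hm2 : NatD B m2) {J : Finset (Port TG)} (hJ : ∀ e ∈ J, e ∈ freeG B) :
    (J.filter fun e => ¬ Net.Vis (TQ (Far y0 (k - 2) (B.R - k - 1))) ((net0 B p y0 s).cls e) ∧
      zE B p y0 b (pm (eD B y0 k) m1) (pm (eD B y0 k) m2) (some e) s ≠ 0).card ≤ 7 := by
  have hz := at_of H
  have hR := S.hR
  have hok := hw.word.1
  set F := J.filter fun e => ¬ Net.Vis (TQ (Far y0 (k - 2) (B.R - k - 1)))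
    ((net0 B p y0 s).cls e) ∧
      zE B p y0 b (pm (eD B y0 k) m1) (pm (eD B y0 k) m2) (some e) s ≠ 0 with hF
  have hL1 := mem_of_natD H hw hm1
  have hL2 := mem_of_natD H hw hm2
  have O := ord_D H hR hW hw
  -- the ends in the word
  have hx : ∀ e ∈ F, ∃ x ∈ L w, pm (eD B y0 k) x = e ∧ Exc B p y0 k s x := by
    intro e he
    obtain ⟨he1, he2, -⟩ := Finset.mem_filter.1 he
    have h1 : (net0 B p y0 s).cls e ⊆ _ := near_img H.hf hR he2
    obtain ⟨g1, -⟩ := (mem_freeG B hz).1 (hJ e he1)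
    have h2 : e ∈ (net0 B p y0 s).cls e := Net.self_mem_cls g1
    obtain ⟨x, hx, rfl⟩ := Finset.mem_image.1 (h1 h2)
    exact ⟨x, exact_end H hR hw hx (hJ _ he1) h1, rfl, h1⟩
  set X := ((L w).toFinset).filter fun x => pm (eD B y0 k) x ∈ F ∧ Exc B p y0 k s x with hX
  have hsub : F ⊆ X.image (pm (eD B y0 k)) := by
    intro e he
    obtain ⟨x, h1, h2, h3⟩ := hx e he
    refine Finset.mem_image.2 ⟨x, Finset.mem_filter.2 ⟨List.mem_toFinset.2 h1, ?_, h3⟩, h2⟩
    rw [h2]; exact he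
  refine (Finset.card_le_card hsub).trans (Finset.card_image_le.trans ?_)
  refine card_gen (s := s ∘ eD B y0 k) hok hL1 hL2 (Q := Exc B p y0 k s)
    (fun x h1 h2 h3 => exact_M H S hw h1 h2 h3) X fun x hxX => ?_
  obtain ⟨h1, h2, h3⟩ := Finset.mem_filter.1 hxX
  have h1 := List.mem_toFinset.1 h1
  refine ⟨h1, h3, fun y hy hyu hyS hyE => ?_⟩
  obtain ⟨he1, he2, he3⟩ := Finset.mem_filter.1 h2
  have hyM := (Ok.inv (s ∘ eD B y0 k) w hok).mem _ hy
  have hyE' := exact_M H S hw hy hyu hyE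
  have nx := exact_nat H hR hw h1 h3
  have ny := exact_nat H hR hw hy hyE
  have ny' := exact_nat H hR hw hyM hyE'
  obtain ⟨k1, k2⟩ := exact_zn H hR S.kb S.bR hw (pm (eD B y0 k) m1) (pm (eD B y0 k) m2)
    (some (pm (eD B y0 k) x)) hy hyu hyS hyE
  have c1 := C0_cK H hR S.kb S.bR hw hm1 hm2 nx ny hy
  have c2 := C0_cK H hR S.kb S.bR hw hm1 hm2 nx ny' hyM
  have hzn : (netE B p y0 b (pm (eD B y0 k) m1) (pm (eD B y0 k) m2)
      (some (pm (eD B y0 k) x)) s).zn ((netE B p y0 b (pm (eD B y0 k) m1) (pm (eD B y0 k) m2)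
      (some (pm (eD B y0 k) x)) s).cls (pm (eD B y0 k) y)) ≠ 0 := by
    intro h0
    apply he3
    show _ * _ = _
    rw [Finset.prod_eq_zero k1 h0, mul_zero]
  rw [k2, c1, c2] at hzn
  have e1 := O.cM_cK hL1 hL2 h1 hy
  have e2 := O.cM_cK hL1 hL2 h1 hyM
  rw [e1, e2]
  have e3 : kK (KD B) m1 m2 (some x) + cK (KD B) m1 m2 (some x) (M (s ∘ eD B y0 k) w y) -
      (kK (KD B) m1 m2 (some x) + cK (KD B) m1 m2 (some x) y) =
      cK (KD B) m1 m2 (some x) (M (s ∘ eD B y0 k) w y) - cK (KD B) m1 m2 (some x) y := by ring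
  rw [e3]
  rw [← Int.cast_sub] at hzn
  generalize cK (KD B) m1 m2 (some x) (M (s ∘ eD B y0 k) w y) - cK (KD B) m1 m2 (some x) y = q
    at hzn ⊢
  constructor
  · rintro rfl
    apply hzn
    rw [wr_int (by norm_num)]
    simp [wz]
  · rintro rfl
    apply hzn
    rw [wr_int (by norm_num)]
    simp [wz]

end Crest.Agent.R158.Yc180
end
end

-- ▼ part R158/Yc4_180

/-!
# Row 158 (helper180): the majorant of the mark sum, 4: the majorant

* `Ym B y0 k a0 c1 s = 4 * 4 ^ PassD`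
* **`valG_le`** : `‖valG‖ ≤ Ym` pointwise; `valG_le_Jd` : for helper857's family `Jd`
* `Ym_dep`, `Ym_disj`, **`Ym_sq`** : dependence, disjointness from the ball, `∫ Ym ^ 2 ≤ C ^ 2`
* **`valG_ball`** : an arc over the far charge in the ball kills every member
* `sec_L` : the literal parameters `k = L / 8`, `b = L / 2`, `a0 = L / 16`, `c1 = L - 1 - L / 16`
-/

set_option autoImplicit false
set_option linter.unusedSectionVars false
set_option linter.unusedVariables false

noncomputable section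

open Finset MeasureTheory

namespace Crest.Agent.R158.Yc180

open Crest.Agent.R158.Sw300 (Port Wd L)
open Crest.Agent.R158.Oc194 (NatD)
open Crest.Agent.R158.Env664 (TG Band beD)
open Crest.Agent.R158.Xr249 (Free pm pm_some eD full rct mem_rct eS)
open Crest.Agent.R158.Ad350
open Crest.Agent.R158.Ao857 (legP beL chL tpm inlE)
open Crest.Agent.R158.Zg180 (Near Far uc se se_uc uc_se)
open Crest.Agent.R158.Zc180 (Pass pass_moment pass_dep Cf Wf ballS Over Par)
open Crest.Agent.R158.Qd300 (DB at_of)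
open Crest.Agent.R158.Fm857 (ctw phi freeG mem_freeG psD kap Jd mem_Jd far)
open Crest.Agent.R158.Ob664 (GW)
open Crest.Agent.R158.Qc405 (TabH)
open Crest.Agent.R158.Rs689 (PB hf)
open Crest.Agent.R158.Nm211 (DepF)
open Crest.Agent.R158.Mr679 (bxF mem_bxF InB)

variable {A : Finset (ℤ × ℤ)} {B : Band A} {p y0 k b a0 c1 : ℤ} {s : TG → Bool}
  {w : Wd (ℤ × ℤ)} {m1 m2 : Port (ℤ × ℤ)}

/-- **the majorant** -/
def Ym (B : Band A) (y0 k a0 c1 : ℤ) (s : TG → Bool) : ℝ := 4 * 4 ^ PassD B y0 k a0 c1 s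

lemma Ym_nonneg (y0 k a0 c1 : ℤ) (s : TG → Bool) : 0 ≤ Ym B y0 k a0 c1 s := by
  unfold Ym; positivity

lemma norm_kap' (b : ℤ) (n1 n2 : Port TG) (e : Option (Port TG)) :
    ‖kap B b n1 n2 e‖ = 1 / 2 := by
  unfold Fm857.kap
  rw [norm_mul, norm_zpow, Al194.norm_v2, one_zpow, mul_one]
  norm_num

lemma pow_bound (P : ℕ) : (4 + (P : ℝ)) * 2 ^ P ≤ 4 * 4 ^ P := by
  have h1 : ((P : ℝ)) + 1 ≤ 2 ^ P := by
    have h2 : P + 1 ≤ 2 ^ P := P.lt_two_pow_self
    exact_mod_cast h2
  have h3 : (4 : ℝ) ^ P = 2 ^ P * 2 ^ P := by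
    rw [← mul_pow]; norm_num
  have h4 : (0 : ℝ) < 2 ^ P := by positivity
  rw [h3]
  nlinarith

open Classical in
/-- **pointwise bound of the mark sum** -/
theorem valG_le (H : TabH A B.xl B.xr B.y1 B.y2 k p y0 (psD B))
    {w0 : Wd (ℤ × ℤ)} {l0 : List (Port (ℤ × ℤ))} (hW : Psi664.BW (full A) B.xl B.y1 w0 l0)
    (S : Sec B k b a0 c1) (hw : GW (DB B k) (beD (DB B k) p y0 (B.xr + k)) w)
    (hm1 : NatD B m1) (hm2 : NatD B m2) {J : Finset (Port TG)}
    (hJ : ∀ e ∈ J, e ∈ freeG B ∧ TQ (Near y0 a0 c1) e) (s : TG → Bool) :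
    ‖valG B p y0 b (pm (eD B y0 k) m1) (pm (eD B y0 k) m2) J s‖ ≤ Ym B y0 k a0 c1 s := by
  have hz := at_of H
  set n1 := pm (eD B y0 k) m1 with hn1
  set n2 := pm (eD B y0 k) m2 with hn2
  set P := PassD B y0 k a0 c1 s with hP
  have hle : ∀ e, ‖zE B p y0 b n1 n2 e s‖ ≤ 2 ^ P := fun e => zE_le H ⟨w0, l0, hW⟩ S hw n1 n2 e s
  have h1 : ‖valG B p y0 b n1 n2 J s‖ ≤ ∑ e ∈ insertNone J, 1 / 2 * ‖zE B p y0 b n1 n2 e s‖ := by
    unfold valG
    refine (norm_sum_le _ _).trans (le_of_eq (Finset.sum_congr rfl fun e _ => ?_))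
    rw [norm_mul, norm_kap', norm_star]
  refine h1.trans ?_
  rw [← Finset.mul_sum, Finset.sum_insertNone]
  -- the members that do not vanish
  set F1 := J.filter fun e => Net.Vis (TQ (Far y0 (k - 2) (B.R - k - 1)))
    ((net0 B p y0 s).cls e) with hF1
  set F2 := J.filter fun e => ¬ Net.Vis (TQ (Far y0 (k - 2) (B.R - k - 1)))
    ((net0 B p y0 s).cls e) ∧ zE B p y0 b n1 n2 (some e) s ≠ 0 with hF2
  have c1' : F1.card ≤ 2 * P := by
    have hR := S.hR
    have h := far_ends (p := p) (s := s) hz S.h0 S.ha (by omega : (k - 2) + 1 < B.R - k) S.hc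
      S.hc1 hJ
    refine le_trans (le_of_eq ?_) h
    rw [hF1]
  have c2' : F2.card ≤ 7 := card_exact H hW S hw hm1 hm2 fun e he => (hJ e he).1
  have h2 : ∑ e ∈ J, ‖zE B p y0 b n1 n2 (some e) s‖ ≤ ((2 * P + 7 : ℕ) : ℝ) * 2 ^ P := by
    have h3 : ∑ e ∈ J, ‖zE B p y0 b n1 n2 (some e) s‖ ≤
        ∑ e ∈ F1 ∪ F2, ‖zE B p y0 b n1 n2 (some e) s‖ := by
      have hsub : F1 ∪ F2 ⊆ J :=
        Finset.union_subset (Finset.filter_subset _ _) (Finset.filter_subset _ _)
      rw [← Finset.sum_subset hsub]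
      intro e he hne
      rw [Finset.mem_union, not_or] at hne
      by_contra h0
      have h5 : ¬ Net.Vis (TQ (Far y0 (k - 2) (B.R - k - 1))) ((net0 B p y0 s).cls e) :=
        fun h => hne.1 (Finset.mem_filter.2 ⟨he, h⟩)
      refine hne.2 (Finset.mem_filter.2 ⟨he, h5, fun h6 => h0 ?_⟩)
      rw [h6, norm_zero]
    refine h3.trans ?_
    refine (Finset.sum_le_card_nsmul _ _ _ fun e _ => hle (some e)).trans ?_
    rw [nsmul_eq_mul]
    refine mul_le_mul_of_nonneg_right ?_ (by positivity)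
    have h7 := Finset.card_union_le F1 F2
    exact_mod_cast (by omega : (F1 ∪ F2).card ≤ 2 * P + 7)
  have h3 := hle none
  have h4 := pow_bound P
  unfold Ym
  push_cast at h2
  have h5 : (0 : ℝ) < 2 ^ P := by positivity
  have h6 : 1 / 2 * (‖zE B p y0 b n1 n2 none s‖ + ∑ e ∈ J, ‖zE B p y0 b n1 n2 (some e) s‖) ≤
      (4 + (P : ℝ)) * 2 ^ P := by
    nlinarith
  exact h6.trans h4

/-- the ends of the family are near ends -/
theorem far_near (hz : B.At p y0) {Sp : Finset (ℤ × ℤ)} {Δ : ℤ} {e : Port TG}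
    (he : e ∈ freeG B) (h : far B Sp Δ a0 c1 e) :
    TQ (Near y0 a0 c1) e ∧ EndOk a0 c1 (some e) := by
  have h1 := hz.hy1
  have h2 := hz.hy2
  unfold Fm857.freeG at he
  rw [Finset.mem_union, Finset.mem_union, Fm857.mem_flr, Fm857.mem_cil, Finset.mem_image] at he
  have n13 : (1 : ZMod 4) ≠ 3 := by decide
  rcases he with ⟨q, hq, rfl⟩ | ⟨i, hi, hi', rfl⟩ | ⟨i, hi, hi', rfl⟩
  · unfold Fm857.freeD at hq
    obtain ⟨t, d, rfl, ht⟩ := mem_ports' (Finset.mem_filter.1 hq).1
    exact ⟨⟨Sum.inl t, d, rfl, Or.inl ⟨t, rfl⟩⟩, trivial⟩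
  · have h' : (Δ ≤ (if (3 : ZMod 4) = 3 then i else i - 1) ∧
        (if (3 : ZMod 4) = 3 then i else i - 1) ≤ a0) ∨
        (c1 < (if (3 : ZMod 4) = 3 then i else i - 1) ∧
        (if (3 : ZMod 4) = 3 then i else i - 1) < B.R - Δ) := h
    rw [if_pos rfl] at h'
    have hu : uc y0 (i, B.y1) = i := Zg180.uc_lt h1
    refine ⟨⟨_, _, rfl, Or.inr ⟨_, rfl, ?_⟩⟩, Or.inl ⟨rfl, ?_⟩⟩
    · rw [hu]; omega
    · omega
  · have h' : (Δ ≤ (if (1 : ZMod 4) = 3 then i else i - 1) ∧
        (if (1 : ZMod 4) = 3 then i else i - 1) ≤ a0) ∨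
        (c1 < (if (1 : ZMod 4) = 3 then i else i - 1) ∧
        (if (1 : ZMod 4) = 3 then i else i - 1) < B.R - Δ) := h
    rw [if_neg n13] at h'
    have hu : uc y0 (i, B.y2 - 1) = i - 1 := Zg180.uc_ge (by omega)
    refine ⟨⟨_, _, rfl, Or.inr ⟨_, rfl, ?_⟩⟩, Or.inr ⟨rfl, ?_⟩⟩
    · rw [hu]; omega
    · omega

lemma pm_nat (H : TabH A B.xl B.xr B.y1 B.y2 k p y0 (psD B)) (hm : NatD B m1) :
    pm (eD B y0 k) m1 = tpm inlE m1 := by
  obtain ⟨t, d, rfl, ht⟩ := Oc194.natD_some hm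
  rw [Oc194.pm_A H.hf ht]
  rfl

/-- **the majorant of the family of helper857** -/
theorem valG_le_Jd (H : TabH A B.xl B.xr B.y1 B.y2 k p y0 (psD B))
    {w0 : Wd (ℤ × ℤ)} {l0 : List (Port (ℤ × ℤ))} (hW : Psi664.BW (full A) B.xl B.y1 w0 l0)
    (S : Sec B k b a0 c1) (hw : GW (DB B k) (beD (DB B k) p y0 (B.xr + k)) w)
    (hm1 : NatD B m1) (hm2 : NatD B m2) (Sp : Finset (ℤ × ℤ)) (Δ : ℤ) (n2 n3 : Port TG)
    (s : TG → Bool) :
    ‖valG B p y0 b (tpm inlE m1) (tpm inlE m2) (Jd B b Sp Δ a0 c1 n2 n3) s‖ ≤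
      Ym B y0 k a0 c1 s := by
  rw [← pm_nat H hm1, ← pm_nat H hm2]
  refine valG_le H hW S hw hm1 hm2 (fun e he => ?_) s
  obtain ⟨h1, -, h3⟩ := (mem_Jd B).1 he
  exact ⟨h1, (far_near (at_of H) h1 h3).1⟩

/-- tiles of the stub sections -/
def Yt (B : Band A) (y0 k a0 c1 : ℤ) : Finset TG :=
  Cf B y0 a0 (k - 2) ∪ Cf B y0 (B.R - k - 1) c1

theorem Ym_dep : DepF (Yt B y0 k a0 c1) (Ym B y0 k a0 c1) := by
  intro z z' h
  unfold Ym
  congr 2
  exact pass_dep fun t ht => h t ht

theorem Ym_disj {h N : ℕ} (hP : Par B k b h N) (ha : 0 ≤ a0) :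
    Disjoint (Wf B y0 b h) (Yt B y0 k a0 c1) := by
  have h1 := hP.k2
  have hbl := hP.bl
  have hbr := hP.br
  refine Finset.disjoint_of_subset_left (Zc180.Wf_sub hP) ?_
  unfold Yt
  rw [Finset.disjoint_union_right]
  exact ⟨Zc180.Cf_disj (by omega), Zc180.Cf_disj (by omega)⟩

/-- **second moment of the majorant** -/
theorem Ym_sq : ∃ C : ℝ, 1 ≤ C ∧ ∀ (A : Finset (ℤ × ℤ)) (B : Band A) (y0 k a0 c1 : ℤ) (h : ℕ),
    B.y2 = B.y1 + h → 1 ≤ h → a0 + h ≤ k - 2 → B.R - k + h ≤ c1 + 1 →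
      ∫ s, Ym B y0 k a0 c1 s ^ 2 ∂(PB fun _ : TG => hf) ≤ C ^ 2 := by
  obtain ⟨C, hC, hm⟩ := pass_moment 16 (by norm_num)
  refine ⟨4 * C, by linarith, fun A B y0 k a0 c1 h hy h1 h2 h3 => ?_⟩
  have e1 : ∀ s : TG → Bool, Ym B y0 k a0 c1 s ^ 2 =
      16 * (16 : ℝ) ^ Pass B y0 a0 (k - 2) (B.R - k) c1 s := by
    intro s
    unfold Ym
    rw [mul_pow, ← pow_mul, mul_comm (PassD B y0 k a0 c1 s) 2, pow_mul]
    norm_num
  simp_rw [e1]
  rw [integral_const_mul]
  have h4 := hm A B y0 a0 (k - 2) (B.R - k) c1 h hy h1 h2 h3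
  nlinarith

/-- the literal parameters -/
theorem sec_L {L : ℤ} (hL : B.R = L) (h64 : 64 ≤ L) :
    Sec B (L / 8) (L / 2) (L / 16) (L - 1 - L / 16) := by
  constructor <;> omega




end Crest.Agent.R158.Yc180
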