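import Crest.Agent.R158.Nj5_107_Mg
import Crest.Agent.R158.Qf1_405
import Crest.Agent.R158.Yc4_180_Mg
import Crest.Agent.R158.Oc5_194_Mg
import Crest.Agent.R158.Fm3_857
import Crest.Agent.R158.Qc7_405
import Crest.Agent.R158.Cq1_410
import Crest.Agent.R158.Dp1_440
import Crest.Agent.R158.Al6_194
import Crest.Agent.R158.Dr6_945
import Crest.Agent.R158.Fm2_857
import Crest.Agent.R158.Hw2_949
import Crest.Agent.R158.Cb5_771
import Crest.Agent.R158.Al4_194

-- ▼ part R158/Xa5_932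
section

/-!
# R158, block Q1d (helper932): **the norm bound for the literal family**
-/

set_option autoImplicit false

namespace Crest.Agent.R158.Xa932

/-- **NormP** -/
theorem normP (P : Tj656.P4) : Cs410.NormP Fm857.fz P := Nj107.normP_all xall P

end Crest.Agent.R158.Xa932
end

-- ▼ part R158/Qf2_405
section

/-!
# R158, Q1c = evaluation (helper405), assembly 2: the first half of `EvalP`

* `Sl.split`, `Sl.adj`, `Sl.tab`, `Sl.ord` : the two parts, the table of directions, the order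
* `cc_mem`, `mk_mem`, `mkG_some` : the marks
* `Sl.valD_eq` : value of the family on the word = observable with the ends outside `JP` dropped
* `Sl.norm_valD` : it is at most `9 / 2`
* `VIf` : mean value of the family; **`evA : EvA fz VIf P`**
-/

set_option autoImplicit false

noncomputable section

open Finset MeasureTheory

namespace Crest.Agent.R158.Qf405

open Crest.Agent.R158.Cs410
open Crest.Agent.R158.Sw300 (Port Wd L)
open Crest.Agent.R158.Env664 (Run Band TG D beD lowT upT mark)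
open Crest.Agent.R158.Tj656 (P4)
open Crest.Agent.R158.Xr249 (Dp Free eD pm)
open Crest.Agent.R158.Ob664 (GW HW HV norm_le_of_Tri HV_mem)
open Crest.Agent.R158.Al194 (Mk hL)
open Crest.Agent.R158.Qc405 (TabH tabH_mac)
open Crest.Agent.R158.Fm857
open Crest.Agent.R158.Ad350 (EndOk valD valG ring_strip)
open Crest.Agent.R158.Qe249 (VJ norm_HV_sub_VJ)
open Crest.Agent.R158.Qd300 (C0)
open Crest.Agent.R158.Oc194 (NatD NatS KD Ord ord_D VJ_C0 Jd_pre pm_A natD_of_mem)
open Crest.Agent.R158.Rs689 (PB hf)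
open Crest.Agent.R158.Yc180 (Ym Yt Ym_dep Ym_disj Ym_sq Ym_nonneg valG_le_Jd sec_L far_near)

variable {P : P4} {A' B' r : ℤ} {h y : ℝ} {L : ℤ} {B : Band (D P.F L)} {p y0 : ℤ}

theorem Sl.ylt (S : Sl P A' B' r h y L B p y0) : B.y1 < B.y2 := by
  have := S.at'.hy1
  have := S.at'.hy2
  omega

theorem Sl.Lpos (S : Sl P A' B' r h y L B p y0) : 0 < L := by
  have := S.L0
  omega

lemma Sl.ht_le' (S : Sl P A' B' r h y L B p y0) : (Sl.ht B : ℤ) * 16 + 160 ≤ L := by
  have h1 := S.ht2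
  have h2 := S.h1
  have h3 := S.Lr
  have : (Sl.ht B : ℝ) * 16 + 160 ≤ L := by nlinarith
  have h4 : (((Sl.ht B : ℤ) * 16 + 160 : ℤ) : ℝ) ≤ ((L : ℤ) : ℝ) := by push_cast; exact this
  exact_mod_cast h4

/-- the two parts -/
theorem Sl.split (S : Sl P A' B' r h y L B p y0) :
    Ao857.Split B (lowT (D P.F L) B.xl B.xr B.y1) (upT (D P.F L) B.xl B.xr B.y2) :=
  Xr249.split_mac (mcP P) S.Lpos B S.run S.onB.xl S.onB.xr S.lt1 S.lt2 S.ylt

theorem Sl.adj (S : Sl P A' B' r h y L B p y0) :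
    ∀ s ∈ lowT (D P.F L) B.xl B.xr B.y1, ∀ t ∈ upT (D P.F L) B.xl B.xr B.y2, ¬ Env664.Adj4 s t :=
  Xr249.adj_mac (mcP P) S.Lpos B S.run S.onB.xl S.onB.xr S.lt1 S.lt2 S.ylt

/-- the table -/
theorem Sl.tab (S : Sl P A' B' r h y L B p y0) :
    TabH (D P.F L) B.xl B.xr B.y1 B.y2 (L / 8) p y0 (psD B) := by
  have hL := S.L0
  have hz := S.at'
  have h1 := tabH_mac (mcP P) (L := L) S.run (y1 := B.y1) (y2 := B.y2) (k := L / 8) (p := p)
    (y0 := y0) S.lt1 S.lt2 (by omega) (by omega) hz.hy1 hz.hy2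
    (by have := hz.hp1; rw [S.onB.xl] at this; exact this)
    (by have := hz.hp2; rw [S.onB.xr] at this; exact this)
  rw [← S.onB.xl, ← S.onB.xr] at h1
  exact h1

theorem Sl.bw (S : Sl P A' B' r h y L B p y0) :
    ∃ w0 l0, Psi664.BW (Xr249.full (D P.F L)) B.xl B.y1 w0 l0 := by
  have hrun := B.run B.y1 le_rfl S.ylt
  obtain ⟨w0, l0, -, -, hB0⟩ := Xr249.exists_BW (Xr249.D_SC (mcP P) S.Lpos)
    (Xr249.D_Conn (mcP P) S.Lpos) (hrun.mem _ le_rfl hrun.le) hrun.left
  exact ⟨w0, l0, hB0⟩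

theorem Sl.ord (S : Sl P A' B' r h y L B p y0) {w : Wd (ℤ × ℤ)}
    (hw : GW (Dp (D P.F L) B.xl B.xr B.y1 B.y2 (L / 8))
      (beD (Dp (D P.F L) B.xl B.xr B.y1 B.y2 (L / 8)) p y0 (B.xr + L / 8)) w) :
    Ord w (KD B) (some ((B.xr + L / 8, B.y1), 3)) := by
  have hL := S.L0
  obtain ⟨w0, l0, hB0⟩ := S.bw
  exact ord_D S.tab (by have := S.onB.R; omega) hB0 hw

/-! ### the marks -/

/-- the marked edges of the polygon are sides of its cells -/
lemma cc_mem (P : P4) (i : Fin 3) : (P.cc i).1 ∈ P.F := by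
  have key : ∀ m, (Tj656.esd (P.v m) (P.v (m + 1))).1 ∈ P.F := by
    intro m
    have h1 := P.cyc.left m
    exact h1
  fin_cases i
  · exact key 0
  · exact key P.md
  · exact key P.mc

lemma mk_mem (P : P4) {L : ℤ} (hL : 1 < L) (i : Fin 3) : ∃ t d, Cs410.mk P L i = some (t, d) ∧
    t ∈ D P.F L := by
  have h1 := cc_mem P i
  unfold Cs410.mk mark
  have hm : ∀ x y : ℤ, (P.cc i).1.1 * L ≤ x → x < (P.cc i).1.1 * L + L → (P.cc i).1.2 * L ≤ y →
      y < (P.cc i).1.2 * L + L → (x, y) ∈ D P.F L := by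
    intro x y g1 g2 g3 g4
    rw [Env664.mem_D (by omega)]
    have e1 : x / L = (P.cc i).1.1 := (Env664.div_iff (by omega) _ _).2 ⟨g1, g2⟩
    have e2 : y / L = (P.cc i).1.2 := (Env664.div_iff (by omega) _ _).2 ⟨g3, g4⟩
    simp only [e1, e2]
    exact h1
  split_ifs
  · exact ⟨_, _, rfl, hm _ _ (by omega) (by omega) (by omega) (by omega)⟩
  · exact ⟨_, _, rfl, hm _ _ (by omega) (by omega) (by omega) (by omega)⟩
  · exact ⟨_, _, rfl, hm _ _ (by omega) (by omega) (by omega) (by omega)⟩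
  · exact ⟨_, _, rfl, hm _ _ (by omega) (by omega) (by omega) (by omega)⟩

lemma mkG_eq (P : P4) (L : ℤ) (i : Fin 3) : mkG P L i = Ao857.tpm Ao857.inlE (Cs410.mk P L i) := rfl

lemma mkG_some (P : P4) {L : ℤ} (hL : 1 < L) (i : Fin 3) :
    ∃ t d, mkG P L i = some (Sum.inl t, d) := by
  obtain ⟨t, d, e, -⟩ := mk_mem P hL i
  exact ⟨t, d, by rw [mkG_eq, e]; rfl⟩

lemma Sl.pm_mk (S : Sl P A' B' r h y L B p y0) (i : Fin 3) :
    pm (eD B y0 (L / 8)) (Cs410.mk P L i) = mkG P L i := by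
  have hL := S.L0
  obtain ⟨t, d, e, ht⟩ := mk_mem P (L := L) (by omega) i
  rw [mkG_eq, e, pm_A S.tab.hf ht]
  rfl

/-- the value of the family -/
def vD (P : P4) (L : ℤ) (δ : ℝ) (B : Band (D P.F L)) (p y0 : ℤ) (w : Wd (ℤ × ℤ))
    (s : ℤ × ℤ → Bool) : ℂ :=
  valD B p y0 (L / 8) (L / 2) (mkG P L 0) (mkG P L 1) (JP P L δ B) w s

/-- **value of the family = observable with the ends outside `JP` dropped** -/
theorem Sl.valD_eq (S : Sl P A' B' r h y L B p y0) (δ : ℝ) {w : Wd (ℤ × ℤ)}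
    (hw : GW (Dp (D P.F L) B.xl B.xr B.y1 B.y2 (L / 8))
      (beD (Dp (D P.F L) B.xl B.xr B.y1 B.y2 (L / 8)) p y0 (B.xr + L / 8)) w)
    (hM : Mk w (Cs410.mk P L 0) (Cs410.mk P L 1) (Cs410.mk P L 2)) (s : ℤ × ℤ → Bool) :
    vD P L δ B p y0 w s = VJ w (Cs410.mk P L 0) (Cs410.mk P L 1) (Cs410.mk P L 2)
      (fun x => pm (eD B y0 (L / 8)) x ∉ JP P L δ B) s := by
  have hL := S.L0
  have hR := S.onB.R
  obtain ⟨l, hl⟩ := S.ev
  have key := VJ_C0 S.tab hw (b := L / 2) (by omega) S.at' (by omega) (by omega) (S.ord hw) hM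
    (fun m hm => by
      rcases hm with rfl | rfl | rfl
      · exact mk_mem P (by omega) 0
      · exact mk_mem P (by omega) 1
      · exact mk_mem P (by omega) 2)
    (JP P L δ B) (fun q hq => by
      obtain ⟨h1, h2, h3⟩ := (mem_Jd B).1 hq
      rw [S.pm_mk, S.pm_mk]
      exact ⟨h2, Jd_pre S.tab (by omega) (by omega) (by omega) h1 h3⟩) s
  rw [key, S.pm_mk, S.pm_mk]
  rfl

/-- the observable with dropped ends is bounded -/
theorem norm_VJ {T : Type*} [DecidableEq T] {w : Wd T} (h : Sw300.Ok w) {m1 m2 m3 : Port T}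
    (hM : Mk w m1 m2 m3) (Q : Port T → Prop) (s : T → Bool) : ‖VJ w m1 m2 m3 Q s‖ ≤ 9 / 2 := by
  have h1 := norm_HV_sub_VJ h hM Q s
  have h2 : ‖HV w m1 m2 m3 s‖ ≤ 1 := norm_le_of_Tri HV_mem
  have h3 : VJ w m1 m2 m3 Q s = HV w m1 m2 m3 s - (HV w m1 m2 m3 s - VJ w m1 m2 m3 Q s) := by ring
  rw [h3]
  refine (norm_sub_le _ _).trans ?_
  linarith

/-- **mean value of the family on the word** -/
def VIf : VT := fun P L δ B p y0 w =>
  ∫ s, vD P L δ B p y0 w (s ∘ eD B y0 (L / 8)) ∂(PB fun _ : TG => hf)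

/-- **the first half** -/
theorem evA (P : P4) : EvA fz VIf P := by
  obtain ⟨c, q, hc, hq, hq1, hmain⟩ := ring_strip
  obtain ⟨CY, hCY, hY⟩ := Ym_sq
  obtain ⟨Cq, hCq, hpow⟩ := qpow_le hq hq1
  intro A' B' r hrun a b c' e hAa hab hbB hce hhalf
  refine ⟨min 1 (1 / (4 * (Cq + 1))), 9 * Cq + 2 * (CY / c) * Real.sqrt Cq,
    lt_min one_pos (by positivity), by positivity, ?_⟩
  intro h y hh hlt hy1 hy2 δ hδ hδ1
  refine ⟨0, fun L _ B p y0 S i1 i2 w hw hM => ?_⟩
  have l1 : h ≤ 1 := hlt.le.trans (min_le_left _ _)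
  have l2 : h ≤ 1 / (4 * (Cq + 1)) := hlt.le.trans (min_le_right _ _)
  have hL := S.L0
  have hR := S.onB.R
  have hht := S.ht_pos
  have htc := S.ht_cast
  have htl := S.ht_le'
  obtain ⟨l, hl⟩ := S.ev
  set N : ℕ := Sl.nsq B (L / 16 - 2) with hN
  have hN1 : (N : ℤ) * Sl.ht B ≤ L / 16 - 2 := S.nsq_mul (by omega)
  have hP := S.par' (N := N) (by omega)
  have hqN : q ^ N ≤ Cq * h ^ 4 := hpow h N hh (S.nsq_ge (by omega))
  have hq0 : 0 ≤ q ^ N := by positivity
  have hqs : 2 * q ^ N ≤ 1 / 2 := by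
    have h4 : h ^ 4 ≤ h := by
      have : h ^ 4 ≤ h ^ 1 := pow_le_pow_of_le_one hh.le l1 (by norm_num)
      simpa using this
    have h5 : Cq * h ^ 4 ≤ Cq * (1 / (4 * (Cq + 1))) :=
      mul_le_mul_of_nonneg_left (h4.trans l2) hCq
    have h6 : Cq * (1 / (4 * (Cq + 1))) ≤ 1 / 4 := by
      rw [mul_one_div, div_le_div_iff₀ (by positivity) (by norm_num)]
      linarith
    linarith
  obtain ⟨-, hZ, key⟩ := hmain (D P.F L) B p y0 (L / 8) (L / 2) (Sl.ht B) N S.at' hP hqs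
  obtain ⟨w0, l0, hBW⟩ := S.bw
  have hsec := sec_L (B := B) hR (by omega)
  have nat : ∀ i, Cs410.mk P L i ∈ Sw300.L w → NatD B (Cs410.mk P L i) := by
    intro i hi
    obtain ⟨t, d, e, ht⟩ := mk_mem P (L := L) (by omega) i
    exact natD_of_mem S.tab hw hi e ht
  have hfin := key S.tab w hw (mkG P L 0) (mkG P L 1) (mkG_some P (by omega) 0)
    (mkG_some P (by omega) 1) (JP P L δ B) (L / 16) (L - 1 - L / 16)
    (fun q hq => by
      obtain ⟨h1, -, h3⟩ := (mem_Jd B).1 hq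
      exact (far_near S.at' h1 h3).2)
    (by omega) (by omega) (by omega) (by omega) (by omega) (by omega)
    (lowT (D P.F L) B.xl B.xr B.y1) (upT (D P.F L) B.xl B.xr B.y2) S.split S.adj
    (9 / 2) (by norm_num)
    (fun s' => by
      have := S.valD_eq δ hw hM s'
      unfold vD at this
      rw [this]
      exact norm_VJ hw.word.1 hM _ _)
    (Ym B y0 (L / 8) (L / 16) (L - 1 - L / 16)) CY (Yt B y0 (L / 8) (L / 16) (L - 1 - L / 16))
    (Ym_disj hP (by omega)) Ym_dep (fun s => Ym_nonneg _ _ _ _ s) (by linarith)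
    (hY _ B y0 _ _ _ (Sl.ht B) (by omega) (by omega) (by omega) (by omega))
    (fun s => valG_le_Jd S.tab hBW hsec hw (nat 0 hM.1) (nat 1 hM.2.1) _ _ _ _ s)
  have e1 : (fz P L δ B).amp p y0 / (fz P L δ B).Z = HGr B (lowT (D P.F L) B.xl B.xr B.y1)
      (upT (D P.F L) B.xl B.xr B.y2) (L / 2) (mkG P L 0) (mkG P L 1) (JP P L δ B) (ZP P L B) p y0 :=
    fz_HGr P L δ B p y0
  rw [e1]
  refine le_trans hfin ?_
  have h2 : h ^ 4 ≤ h ^ 2 := pow_le_pow_of_le_one hh.le l1 (by norm_num)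
  have s1 : Real.sqrt (4 * q ^ N) ≤ 2 * Real.sqrt Cq * h ^ 2 := by
    rw [show 2 * Real.sqrt Cq * h ^ 2 = Real.sqrt (4 * (Cq * h ^ 4)) by
      rw [Real.sqrt_mul (by norm_num), Real.sqrt_mul hCq,
        show (4 : ℝ) = 2 ^ 2 by norm_num, Real.sqrt_sq (by norm_num),
        show h ^ 4 = (h ^ 2) ^ 2 by ring, Real.sqrt_sq (by positivity)]
      ring]
    exact Real.sqrt_le_sqrt (by linarith)
  have s2 : CY / c * Real.sqrt (4 * q ^ N) ≤ CY / c * (2 * Real.sqrt Cq * h ^ 2) :=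
    mul_le_mul_of_nonneg_left s1 (by positivity)
  have s3 : (9 / 2 : ℝ) * (2 * q ^ N) ≤ 9 * Cq * h ^ 2 := by
    have : q ^ N ≤ Cq * h ^ 2 := hqN.trans (mul_le_mul_of_nonneg_left h2 hCq)
    linarith
  calc _ ≤ 9 * Cq * h ^ 2 + CY / c * (2 * Real.sqrt Cq * h ^ 2) := add_le_add s3 s2
    _ = _ := by ring

end Crest.Agent.R158.Qf405
end
end

-- ▼ part R158/Cq2_410
section

/-!
# R158, Q1 = assembly (helper410), part 6: the marks in the region with stubs

* `mk_slice` : the marks of the polygon are in clockwise order in `D^+` cut open at `z`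
* **`mkDp`** : the same with the quantifiers of `CompP`
-/

set_option autoImplicit false

open Set

namespace Crest.Agent.R158.Cs410

open Crest.Agent.R158.Sw300 (Port Wd Ok pos cyc)
open Crest.Agent.R158.Env664 (Run Band D mark Mac div_iff mem_D beD)
open Crest.Agent.R158.Tj656 (P4)
open Crest.Agent.R158.Xr249 (Dp mem_Dp free_mac)
open Crest.Agent.R158.Mg949 (WD Lz sU nn exists_word mac Lz_pos mark0 markD markC nn_pos)
open Crest.Agent.R158.Wd377 (MK)
open Crest.Agent.R158.Ob664 (HA rgt_run)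
open Crest.Agent.R158.Sl434 (CG p2 SW comp_gen exists_SW Fp FtR FtL mem_FtR mem_AtR mem_InR mem_AtL
  mem_InL X2 Jls Jos)

noncomputable section

/-- **the marks in the region with stubs** -/
theorem mk_slice {P : P4} {A B' r L p y0 : ℤ} {h y : ℝ} {B : Band (D P.F L)}
    (hB : OnB A B' L h y B) {r' n : ℕ} (hrun : Run P.F A B' r) (hL : 8 ≤ L) (hev : Even L)
    (hr : 1 ≤ r') (hn : r' + 1 ≤ n) (a1 : y0 - r' ≤ B.y1) (a2 : B.y1 < y0) (a3 : y0 < B.y2)
    (a4 : B.y2 ≤ y0 + r')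
    (b : (r * L < y0 - n ∧ y0 + n ≤ r * L + L / 2 - 1) ∨
      (r * L + L / 2 < y0 - n ∧ y0 + n ≤ r * L + L - 1)) (p1 : A * L + n < p)
    (p2' : p ≤ B' * L + L - 1 - n) :
    MK (Dp (D P.F L) B.xl B.xr B.y1 B.y2 (L / 8))
      (beD (Dp (D P.F L) B.xl B.xr B.y1 B.y2 (L / 8)) p y0 (B.xr + L / 8)) (mk P L 0) (mk P L 1)
      (mk P L 2) := by
  have hL0 : 0 < L := by omega
  obtain ⟨l, hl⟩ := id hev
  have b1 : r * L < y0 - n := by
    rcases b with b | b
    · exact b.1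
    · omega
  have b2 : y0 + n < r * L + L := by
    rcases b with b | b
    · omega
    · omega
  have G := cg_mac hrun hL hr hn a1 a2 a3 a4 b1 b2 p1 p2'
  have hk : 0 < l.toNat := by omega
  have hLk : Lz l.toNat = L := by
    unfold Mg949.Lz; push_cast; omega
  have r0 : Run (D P.F L) (A * L) (B' * L + L - 1) y0 := hrun.scale hL0 (by omega) (by omega)
  have r1 : Run (D P.F L) (A * L) (B' * L + L - 1) (y0 - 1) := hrun.scale hL0 (by omega) (by omega)
  have hMK : MK (D P.F L) (beD (D P.F L) p y0 (B' * L + L - 1)) (mk P L 0) (mk P L 1)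
      (mk P L 2) := by
    obtain ⟨q, w, hw⟩ := exists_word P hk (x := p) (xl := A * L) (xr := B' * L + L - 1) (y := y0)
      (by rw [hLk]; exact r0) (by rw [hLk]; exact r1) (by omega) (by omega)
    have := mk_word hw
    rw [hLk] at this
    exact this
  obtain ⟨w1, h1⟩ := exists_SW (B' * L + L - 1) y0 r' n 1 hr hn
  obtain ⟨w0, h0⟩ := exists_SW (-(A * L)) (1 - y0) r' n 0 hr hn
  rw [hB.xl, hB.xr]
  exact (comp_gen G (fun a ha b hb => Xr249.D_cpath (mac P) hL0 ha hb)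
    (fun a ha b hb => Xr249.D_cpath_in (mac P) hL0 ha hb) hMK (mark_far hL0 hev (by omega) _ _ b)
    (mark_far hL0 hev (by omega) _ _ b) (mark_far hL0 hev (by omega) _ _ b) h1 h0).1

/-- **the marks in the region with stubs**, quantifiers of `CompP` -/
theorem mkDp (P : P4) (A B' r : ℤ) (hrun : Run P.F A B' r) (a b c1 e1 : ℝ) (hA : (A : ℝ) < a)
    (_hab : a ≤ b) (hB : b < B' + 1) (hce : c1 ≤ e1) (hhalf : InHalf r c1 e1) :
    ∃ h0 : ℝ, 0 < h0 ∧ ∀ h y : ℝ, 0 < h → h < h0 → c1 ≤ y → y ≤ e1 →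
      ∃ L0 : ℤ, ∀ L : ℤ, L0 ≤ L → Even L → ∀ B : Band (D P.F L), OnB A B' L h y B →
        ∀ p y0 : ℤ, a * L ≤ p → (p : ℝ) ≤ b * L → (y - h) * L ≤ y0 →
          (y0 : ℝ) ≤ (y + h) * L →
          MK (Dp (D P.F L) B.xl B.xr B.y1 B.y2 (L / 8))
            (beD (Dp (D P.F L) B.xl B.xr B.y1 B.y2 (L / 8)) p y0 (B.xr + L / 8)) (mk P L 0)
            (mk P L 1) (mk P L 2) := by
  obtain ⟨m, hm0, hm, -, -⟩ := hhalf.margin hce
  set ρ : ℝ := min (m / 2) (min ((a - A) / 2) ((B' + 1 - b) / 2)) with hρ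
  have hρ0 : 0 < ρ := lt_min (by linarith) (lt_min (by linarith) (by linarith))
  have ρ1 : ρ ≤ m / 2 := min_le_left _ _
  have ρ2 : ρ ≤ (a - A) / 2 := (min_le_right _ _).trans (min_le_left _ _)
  have ρ3 : ρ ≤ (B' + 1 - b) / 2 := (min_le_right _ _).trans (min_le_right _ _)
  refine ⟨ρ / 6, by positivity, ?_⟩
  intro h y hh hlt hy1 hy2
  refine ⟨⌈3 / h⌉ + ⌈8 / ρ⌉ + 9, fun L hL hev B hB0 p y0 i1 i2 i3 i4 => ?_⟩
  have k1 := Int.le_ceil (3 / h)
  have k2 := Int.le_ceil (8 / ρ)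
  have k3 : (0 : ℝ) < 3 / h := by positivity
  have k4 : (0 : ℝ) < 8 / ρ := by positivity
  have hL' : ((⌈3 / h⌉ + ⌈8 / ρ⌉ + 9 : ℤ) : ℝ) ≤ L := by exact_mod_cast hL
  push_cast at hL'
  have hLr : (0 : ℝ) < L := by linarith
  have hL8 : 8 ≤ L := by
    have : ((8 : ℤ) : ℝ) ≤ L := by push_cast; linarith
    exact_mod_cast this
  have hhL : 3 ≤ h * L := by
    have : 3 / h ≤ L := by linarith
    rw [div_le_iff₀ hh] at this; linarith
  have hρL : 8 ≤ ρ * L := by
    have : 8 / ρ ≤ L := by linarith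
    rw [div_le_iff₀ hρ0] at this; linarith
  obtain ⟨n1, n2, n3, n4, n5, n6, n7, n8⟩ := comp_num (y := y) (ρ := ρ) (y0 := y0) hh hhL
    (by linarith) rfl rfl rfl rfl hLr i3 i4
  set r' := ⌊5 * h * L⌋₊
  set n := ⌊ρ * L⌋₊
  obtain ⟨l, hl⟩ := id hev
  have hl2 : L / 2 = l := by omega
  have hlr : (L : ℝ) = l + l := by rw [hl]; push_cast; ring
  have hrow : (r * L < y0 - n ∧ y0 + n ≤ r * L + L / 2 - 1) ∨
      (r * L + L / 2 < y0 - n ∧ y0 + n ≤ r * L + L - 1) := by
    rw [hl2]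
    have u1 : (c1 - m) * L ≤ (y - h - ρ) * L := mul_le_mul_of_nonneg_right (by linarith) hLr.le
    have u2 : (y + h + ρ) * L + 3 ≤ (e1 + m) * L := by
      have : (y + h + ρ + h) * L ≤ (e1 + m) * L :=
        mul_le_mul_of_nonneg_right (by linarith) hLr.le
      linarith
    rcases hm with ⟨q1, q2⟩ | ⟨q1, q2⟩
    · left
      have v1 : (r : ℝ) * L < (c1 - m) * L := mul_lt_mul_of_pos_right q1 hLr
      have v2 : (e1 + m) * L < ((r : ℝ) + 1 / 2) * L := mul_lt_mul_of_pos_right q2 hLr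
      constructor
      · have : ((r * L : ℤ) : ℝ) < ((y0 - n : ℤ) : ℝ) := by push_cast; linarith
        exact_mod_cast this
      · have : ((y0 + n : ℤ) : ℝ) ≤ ((r * L + l - 1 : ℤ) : ℝ) := by push_cast; linarith
        exact_mod_cast this
    · right
      have v1 : ((r : ℝ) + 1 / 2) * L < (c1 - m) * L := mul_lt_mul_of_pos_right q1 hLr
      have v2 : (e1 + m) * L < ((r : ℝ) + 1) * L := mul_lt_mul_of_pos_right q2 hLr
      constructor
      · have : ((r * L + l : ℤ) : ℝ) < ((y0 - n : ℤ) : ℝ) := by push_cast; linarith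
        exact_mod_cast this
      · have : ((y0 + n : ℤ) : ℝ) ≤ ((r * L + L - 1 : ℤ) : ℝ) := by push_cast; linarith
        exact_mod_cast this
  have hp1 : A * L + n < p := by
    have v1 : (A + ρ + ρ) * L ≤ a * L := mul_le_mul_of_nonneg_right (by linarith) hLr.le
    have : ((A * L + n : ℤ) : ℝ) < p := by push_cast; linarith
    exact_mod_cast this
  have hp2' : p ≤ B' * L + L - 1 - n := by
    have v1 : (b + ρ + ρ) * L ≤ (B' + 1) * L := mul_le_mul_of_nonneg_right (by linarith) hLr.le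
    have : (p : ℝ) ≤ ((B' * L + L - 1 - n : ℤ) : ℝ) := by push_cast; linarith
    exact_mod_cast this
  exact mk_slice hB0 hrun hL8 hev n1 n2 (by rw [hB0.y1]; exact n3) (by rw [hB0.y1]; exact n4)
    (by rw [hB0.y2]; exact n5) (by rw [hB0.y2]; exact n6) hrow hp1 hp2'

end

end Crest.Agent.R158.Cs410
end

-- ▼ part R158/Dp3_440
section

/-!
# R158 (helper440), dropped part of the mark sum, 3: word level

`drop_word` : ends that carry no middle phase off an event `Bad` cost `≤ 7 / 2 * P(Bad)`.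
-/

set_option autoImplicit false

namespace Crest.Agent.R158.Al194

open Crest.Agent.R158.Vt300 Crest.Agent.R158.Sw300 Crest.Agent.R158.Ob664 Finset MeasureTheory
open Crest.Agent.R158.Rs689 (PB hf)

variable {T : Type*} [DecidableEq T] {w : Wd T}

/-- pointwise bound of a dropped part -/
theorem drop_pt (h : Ok w) {m1 m2 : Port T} (hm : m1 ∈ L w) (hm2 : m2 ∈ L w) (A : Finset ℕ)
    (hA : ∀ e ∈ A, e < (L w).length) (s : T → Bool) :
    ‖∑ j ∈ A, hL s w (fun x => (cM (L w) m1 m2 j x : ℝ))‖ ≤ 7 := by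
  have hN := nckL s h hm
  have := hN.norm_drop (x1 := 0) (x2 := (rotl (L w) m1).idxOf m2) (Nat.zero_le _)
    (idL_lt (m1 := m1) hm2).le A hA
  rwa [sum_congr rfl fun j _ => Sm_port (s := s) h hm] at this

/-- **dropping ends**: `A` = dropped indices, off `Bad` none of them carries a middle phase -/
theorem drop_word (h : Ok w) {m1 m2 m3 : Port T} (hM : Mk w m1 m2 m3) (A : Finset ℕ)
    (hA : A ⊆ Ico ((rotl (L w) m1).idxOf m2) ((rotl (L w) m1).idxOf m3))
    (Bad : Set (T → Bool))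
    (hBad : ∀ s ∉ Bad, ∀ e ∈ A, Sm (piL (L w) (M s w) m1) (L w).length
      ((rotl (L w) m1).idxOf (u s w)) 0 ((rotl (L w) m1).idxOf m2) e = 0) :
    ‖HW w m1 m2 m3 -
      ((∑ j ∈ Ico ((rotl (L w) m1).idxOf m2) ((rotl (L w) m1).idxOf m3) \ A,
          ∫ s, hL s w (fun x => (cM (L w) m1 m2 j x : ℝ)) ∂(PB fun _ : T => hf)) / 2
        + (∫ s, hL s w (fun x => (cS (L w) m1 m2 ((rotl (L w) m1).idxOf m2) x : ℝ))
          ∂(PB fun _ : T => hf)) / 2)‖ ≤ 7 / 2 * (PB fun _ : T => hf).real Bad := by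
  have hlt := idL_lt (m1 := m1) hM.2.2.1
  unfold idL at hlt
  have hAN : ∀ e ∈ A, e < (L w).length := fun e he => by
    have := mem_Ico.1 (hA he)
    omega
  have e1 : HW w m1 m2 m3 -
      ((∑ j ∈ Ico ((rotl (L w) m1).idxOf m2) ((rotl (L w) m1).idxOf m3) \ A,
          ∫ s, hL s w (fun x => (cM (L w) m1 m2 j x : ℝ)) ∂(PB fun _ : T => hf)) / 2
        + (∫ s, hL s w (fun x => (cS (L w) m1 m2 ((rotl (L w) m1).idxOf m2) x : ℝ))
          ∂(PB fun _ : T => hf)) / 2) =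
      (∫ s, ∑ j ∈ A, hL s w (fun x => (cM (L w) m1 m2 j x : ℝ)) ∂(PB fun _ : T => hf)) / 2 := by
    rw [HW_mid h hM, ← sum_sdiff hA, integral_finset_sum _ fun j _ => integrable_hL w _]
    ring
  rw [e1, norm_div]
  set μ := PB fun _ : T => hf with hμ
  have hB := measurableSet_toMeasurable μ Bad
  have hb : ‖∫ s, ∑ j ∈ A, hL s w (fun x => (cM (L w) m1 m2 j x : ℝ)) ∂μ‖ ≤ 7 * μ.real Bad := by
    have h1 : ∀ s, ‖∑ j ∈ A, hL s w (fun x => (cM (L w) m1 m2 j x : ℝ))‖ ≤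
        (toMeasurable μ Bad).indicator (fun _ => (7 : ℝ)) s := by
      intro s
      by_cases hs : s ∈ toMeasurable μ Bad
      · rw [Set.indicator_of_mem hs]
        exact drop_pt h hM.1 hM.2.1 A hAN s
      · rw [Set.indicator_of_notMem hs]
        have hs' : s ∉ Bad := fun hh => hs (subset_toMeasurable μ Bad hh)
        rw [sum_eq_zero fun j hj => ?_, norm_zero]
        rw [← Sm_port (s := s) h hM.1]
        exact hBad s hs' j hj
    refine (norm_integral_le_of_norm_le ?_ (Filter.Eventually.of_forall h1)).trans ?_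
    · exact (integrable_const (7 : ℝ)).indicator hB
    · rw [integral_indicator hB, setIntegral_const, smul_eq_mul]
      have : μ.real (toMeasurable μ Bad) = μ.real Bad := by
        unfold Measure.real; rw [measure_toMeasurable]
      rw [this]; linarith
  have h2 : ‖(2 : ℂ)‖ = 2 := by simp
  rw [h2]
  linarith

end Crest.Agent.R158.Al194
end

-- ▼ part R158/Oc6_194
section

/-!
# R158, EvalP (helper194): `HW` of `Dp` against the mean of 350's `valD`

* **`HW_sub_VJ`** : `‖HW - ∫ VJ P‖ ≤ 7 / 2 * P(Bad)` if off `Bad` the ends in `P` do not contribute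
* **`norm_VJ`** : `‖VJ‖ ≤ 9 / 2`
* `int_comp` : the mean of a function of the tiles of `w` read through an injection
* **`valD_VJ`**, **`norm_valD`**, **`HW_valD`**; `valD_JP`, `HW_JP` : the same for 857's `JP`
-/

set_option autoImplicit false
set_option linter.unusedVariables false
set_option linter.unusedSectionVars false
set_option linter.unusedSimpArgs false

noncomputable section

namespace Crest.Agent.R158.Oc194

open Finset MeasureTheory
open Crest.Agent.R158.Sw300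
open Crest.Agent.R158.Al194
open Crest.Agent.R158.Xr249 (Dp mem_Dp Free full pm pm_some eD eD_inj)
open Crest.Agent.R158.Qc405 (TabH)
open Crest.Agent.R158.Ob664 (GW HW HV)
open Crest.Agent.R158.Env664 (beD TG Band D)
open Crest.Agent.R158.Fm857 (psD freeG mem_Jd JP mkP mkG SpP DelP inI far)
open Crest.Agent.R158.Ao857 (tpm inlE)
open Crest.Agent.R158.Qd300 (DB C0)
open Crest.Agent.R158.Qe249 (VJ SmP)
open Crest.Agent.R158.Ad350 (valD)
open Crest.Agent.R158.Rs689 (PB)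
open Crest.Agent.R158.Tj656 (P4)

section generic

variable {T : Type*} [DecidableEq T] {w : Wd T}


/-- **dropping ends, mean form** -/
theorem HW_sub_VJ (h : Ok w) {m1 m2 m3 : Port T} (hM : Mk w m1 m2 m3) (P : Port T → Prop)
    (Bad : Set (T → Bool))
    (hBad : ∀ s ∉ Bad, ∀ j ∈ Ico (idL (L w) m1 m2) (idL (L w) m1 m3), P (enL (L w) m1 j) →
      SmP w s m1 m2 j = 0) :
    ‖HW w m1 m2 m3 - ∫ s, VJ w m1 m2 m3 P s ∂(PB fun _ : T => Rs689.hf)‖ ≤
      7 / 2 * (PB fun _ : T => Rs689.hf).real Bad := by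
  classical
  have key := drop_word h hM ((Ico ((rotl (L w) m1).idxOf m2) ((rotl (L w) m1).idxOf m3)).filter
    fun j => P (enL (L w) m1 j)) (filter_subset _ _) Bad (fun s hs e he => by
      rw [mem_filter] at he
      exact hBad s hs e he.1 he.2)
  have e1 : ∫ s, VJ w m1 m2 m3 P s ∂(PB fun _ : T => Rs689.hf) =
      (∑ j ∈ Ico ((rotl (L w) m1).idxOf m2) ((rotl (L w) m1).idxOf m3) \
          ((Ico ((rotl (L w) m1).idxOf m2) ((rotl (L w) m1).idxOf m3)).filter
            fun j => P (enL (L w) m1 j)),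
          ∫ s, hL s w (fun x => (cM (L w) m1 m2 j x : ℝ)) ∂(PB fun _ : T => Rs689.hf)) / 2
        + (∫ s, hL s w (fun x => (cS (L w) m1 m2 ((rotl (L w) m1).idxOf m2) x : ℝ))
          ∂(PB fun _ : T => Rs689.hf)) / 2 := by
    have e2 : Ico ((rotl (L w) m1).idxOf m2) ((rotl (L w) m1).idxOf m3) \
        ((Ico ((rotl (L w) m1).idxOf m2) ((rotl (L w) m1).idxOf m3)).filter
          fun j => P (enL (L w) m1 j)) =
        (Ico ((rotl (L w) m1).idxOf m2) ((rotl (L w) m1).idxOf m3)).filter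
          fun j => ¬ P (enL (L w) m1 j) := by
      ext j
      simp only [mem_sdiff, mem_filter]
      tauto
    rw [e2]
    unfold VJ
    rw [integral_add, integral_div, integral_div, integral_finsetSum]
    · intro j _; exact integrable_hL w _
    · exact (integrable_finsetSum _ fun j _ => integrable_hL w _).div_const 2
    · exact (integrable_hL w _).div_const 2
  rw [e1]
  exact key

end generic

/-- the mean of a function of the tiles of `w` read through an injection -/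
theorem int_comp {κ ι : Type*} [DecidableEq κ] (w : Wd κ) {f : (κ → Bool) → ℂ}
    (hf : ∀ s s' : κ → Bool, (∀ t ∈ tls w, s t = s' t) → f s = f s') {g : κ → ι}
    (hg : Set.InjOn g {t | t ∈ tls w}) :
    ∫ s, f (s ∘ g) ∂(PB fun _ : ι => Rs689.hf) = ∫ s, f s ∂(PB fun _ : κ => Rs689.hf) := by
  classical
  let S0 : Finset κ := (tls w).toFinset
  let e : (S0 → Bool) → (κ → Bool) := fun z t => if h : t ∈ S0 then z ⟨t, h⟩ else false
  let G : (S0 → Bool) → ℂ := fun z => f (e z)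
  have hG : ∀ s' : κ → Bool, f s' = G (fun t => s' t) := by
    intro s'
    refine hf _ _ fun t ht => ?_
    have : t ∈ S0 := List.mem_toFinset.2 ht
    simp only [e, dif_pos this]
  have hGm : ∀ {μ : Measure (S0 → Bool)}, AEStronglyMeasurable G μ := fun {μ} =>
    (measurable_of_finite G).aestronglyMeasurable
  have j1 : Function.Injective (fun t : S0 => g t) := fun a c hac =>
    Subtype.ext (hg (List.mem_toFinset.1 a.2) (List.mem_toFinset.1 c.2) hac)
  have h1 := Rs689.PB_map_inj (ι := ι) (κ := S0) j1 (fun _ => Rs689.hf)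
  have h2 := Rs689.PB_map_inj (ι := κ) (κ := S0) (j := fun t : S0 => (t : κ))
    Subtype.val_injective (fun _ => Rs689.hf)
  have m1' : Measurable (fun (z : ι → Bool) (k : S0) => z (g k)) :=
    measurable_pi_lambda _ fun k => measurable_pi_apply _
  have m2' : Measurable (fun (z : κ → Bool) (k : S0) => z k) :=
    measurable_pi_lambda _ fun k => measurable_pi_apply _
  have e1 : (fun s : ι → Bool => f (s ∘ g)) = G ∘ fun (z : ι → Bool) (k : S0) => z (g k) := by
    funext s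
    exact hG _
  have e2 : f = G ∘ fun (z : κ → Bool) (k : S0) => z k := by
    funext s
    exact hG _
  rw [e1]
  conv_rhs => rw [e2]
  have i1 := integral_map (μ := PB fun _ : ι => Rs689.hf) m1'.aemeasurable (f := G) hGm
  have i2 := integral_map (μ := PB fun _ : κ => Rs689.hf) m2'.aemeasurable (f := G) hGm
  rw [h1] at i1
  rw [h2] at i2
  exact i1.symm.trans i2

lemma VJ_congr {T : Type*} [DecidableEq T] {w : Wd T} (m1 m2 m3 : Port T) (P : Port T → Prop)
    {s s' : T → Bool} (h : ∀ t ∈ tls w, s t = s' t) :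
    VJ w m1 m2 m3 P s = VJ w m1 m2 m3 P s' := by
  have e1 : ∀ c : Port T → ℝ, hL s w c = hL s' w c := fun c => hL_congr h c
  unfold VJ
  simp only [e1]

variable {A : Finset (ℤ × ℤ)} {B : Band A} {k p y0 b : ℤ} {ψ : (ℤ × ℤ) × ZMod 4 → ℤ}

section

variable (H : TabH A B.xl B.xr B.y1 B.y2 k p y0 ψ) {w : Wd (ℤ × ℤ)}
  (hw : GW (Dp A B.xl B.xr B.y1 B.y2 k) (beD (Dp A B.xl B.xr B.y1 B.y2 k) p y0 (B.xr + k)) w)
  (hR : 2 * k < B.R) (hz : B.At p y0) (hb : k ≤ b) (hb' : b + k ≤ B.R)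
  {w0 : Wd (ℤ × ℤ)} {l0 : List (Port (ℤ × ℤ))} (hB : Psi664.BW (full A) B.xl B.y1 w0 l0)
  {m1 m2 m3 : Port (ℤ × ℤ)} (hM : Mk w m1 m2 m3)
  (hA : ∀ m, m = m1 ∨ m = m2 ∨ m = m3 → ∃ t d, m = some (t, d) ∧ t ∈ A)
  (J : Finset (Port TG))
  (hJ : ∀ q ∈ J, inI B b (pm (eD B y0 k) m2) (pm (eD B y0 k) m3) q ∧
    ∃ x, (NatD B x ∨ NatS B k x) ∧ pm (eD B y0 k) x = q)

include H hw hR hz hb hb' hB hM hA hJ

/-- **350's `valD` is 249's `VJ`** -/
theorem valD_VJ (s : ℤ × ℤ → Bool) :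
    valD B p y0 k b (pm (eD B y0 k) m1) (pm (eD B y0 k) m2) J w s =
      VJ w m1 m2 m3 (fun x => pm (eD B y0 k) x ∉ J) s :=
  (VJ_C0 H hw hR hz hb hb' (ord_D H hR hB hw) hM hA J hJ s).symm


/-- **the observable of `Dp` against the mean of `valD`** -/
theorem HW_valD (Bad : Set (ℤ × ℤ → Bool))
    (hBad : ∀ s ∉ Bad, ∀ j ∈ Ico (idL (L w) m1 m2) (idL (L w) m1 m3),
      pm (eD B y0 k) (enL (L w) m1 j) ∉ J → SmP w s m1 m2 j = 0) :
    ‖HW w m1 m2 m3 - ∫ s : TG → Bool, valD B p y0 k b (pm (eD B y0 k) m1) (pm (eD B y0 k) m2) J w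
      (s ∘ eD B y0 k) ∂(PB fun _ : TG => Rs689.hf)‖ ≤
      7 / 2 * (PB fun _ : ℤ × ℤ => Rs689.hf).real Bad := by
  have hinj : Set.InjOn (eD B y0 k) {t | t ∈ tls w} := by
    rintro ⟨x, y⟩ h1 ⟨x', y'⟩ h2 e
    exact eD_inj H.hf hR ((hw.word.2.2.1 _).1 h1) ((hw.word.2.2.1 _).1 h2) e
  have e1 : ∫ s : TG → Bool, valD B p y0 k b (pm (eD B y0 k) m1) (pm (eD B y0 k) m2) J w
      (s ∘ eD B y0 k) ∂(PB fun _ : TG => Rs689.hf) =
      ∫ s, VJ w m1 m2 m3 (fun x => pm (eD B y0 k) x ∉ J) s ∂(PB fun _ : ℤ × ℤ => Rs689.hf) := by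
    rw [← int_comp (ι := TG) w (f := VJ w m1 m2 m3 (fun x => pm (eD B y0 k) x ∉ J))
      (fun s s' h => VJ_congr m1 m2 m3 _ h) hinj]
    refine integral_congr_ae (Filter.Eventually.of_forall fun s => ?_)
    exact valD_VJ H hw hR hz hb hb' hB hM hA J hJ _
  rw [e1]
  exact HW_sub_VJ hw.word.1 hM _ Bad hBad

end

/-! ### the literal family of a marked polygon -/

section

variable {P : P4} {L' : ℤ} {δ : ℝ} {B : Band (D P.F L')} {p y0 : ℤ} {w : Wd (ℤ × ℤ)}

lemma mkP_A (hL : 2 ≤ L') (hev : Even L') (j : Fin 3) :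
    ∃ t d, mkP P L' j = some (t, d) ∧ t ∈ D P.F L' := by
  refine ⟨(Hw949.mt P L' j).1, (Hw949.mt P L' j).2, ?_, (Hw949.mt_out hL hev j).1⟩
  exact Hw949.mark_snd L' (P.cc j).1 (P.cc j).2

lemma pm_mkP {k : ℤ} (hf : Free (D P.F L') B.xl B.xr B.y1 B.y2 k) (hL : 2 ≤ L') (hev : Even L')
    (j : Fin 3) : pm (eD B y0 k) (mkP P L' j) = mkG P L' j := by
  obtain ⟨t, d, e, ht⟩ := mkP_A (P := P) hL hev j
  unfold mkG
  rw [e, pm_A hf ht]
  rfl

variable {ψ : (ℤ × ℤ) × ZMod 4 → ℤ} (H : TabH (D P.F L') B.xl B.xr B.y1 B.y2 (L' / 8) p y0 ψ)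
  (hw : GW (DB B (L' / 8)) (beD (DB B (L' / 8)) p y0 (B.xr + L' / 8)) w)
  (hR : B.R = L') (hL : 64 ≤ L') (hev : Even L') (hz : B.At p y0)
  {w0 : Wd (ℤ × ℤ)} {l0 : List (Port (ℤ × ℤ))} (hB : Psi664.BW (full (D P.F L')) B.xl B.y1 w0 l0)
  (hM : Mk w (mkP P L' 0) (mkP P L' 1) (mkP P L' 2))

include H hR hL hev hz

lemma JP_ok : ∀ q ∈ JP P L' δ B, inI B (L' / 2) (pm (eD B y0 (L' / 8)) (mkP P L' 1))
    (pm (eD B y0 (L' / 8)) (mkP P L' 2)) q ∧
    ∃ x, (NatD B x ∨ NatS B (L' / 8) x) ∧ pm (eD B y0 (L' / 8)) x = q := by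
  intro q hq
  unfold JP at hq
  rw [mem_Jd] at hq
  rw [pm_mkP H.hf (by omega) hev, pm_mkP H.hf (by omega) hev]
  exact ⟨hq.2.1, Jd_pre H (by omega) (by omega) (by omega) hq.1 hq.2.2⟩

include hw hB hM



/-- **`HW` of `Dp` against the mean of `valD`, family `JP`** -/
theorem HW_JP (Bad : Set (ℤ × ℤ → Bool))
    (hBad : ∀ s ∉ Bad, ∀ j ∈ Ico (idL (L w) (mkP P L' 0) (mkP P L' 1))
      (idL (L w) (mkP P L' 0) (mkP P L' 2)),
      pm (eD B y0 (L' / 8)) (enL (L w) (mkP P L' 0) j) ∉ JP P L' δ B →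
        SmP w s (mkP P L' 0) (mkP P L' 1) j = 0) :
    ‖HW w (mkP P L' 0) (mkP P L' 1) (mkP P L' 2) - ∫ s : TG → Bool,
      valD B p y0 (L' / 8) (L' / 2) (mkG P L' 0) (mkG P L' 1) (JP P L' δ B) w
        (s ∘ eD B y0 (L' / 8)) ∂(PB fun _ : TG => Rs689.hf)‖ ≤
      7 / 2 * (PB fun _ : ℤ × ℤ => Rs689.hf).real Bad := by
  have := HW_valD (b := L' / 2) H hw (by omega) hz (by omega) (by omega) hB hM (by
    rintro m (rfl | rfl | rfl)
    · exact mkP_A (by omega) hev 0
    · exact mkP_A (by omega) hev 1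
    · exact mkP_A (by omega) hev 2) (JP P L' δ B) (JP_ok H hR hL hev hz) Bad hBad
  rwa [pm_mkP H.hf (by omega) hev, pm_mkP H.hf (by omega) hev] at this

end

end Crest.Agent.R158.Oc194
end
end

-- ▼ part R158/Dp2_109
section

/-!
# Row 158, dropped part of the slices (helper109), word form

* `Ball G A pos x R` : the glueing `G` is plane in the box of radius `R` around `x`
* `cc_far`  : a chain of corners from the box of radius `r` to distance `R` has probability
  `≤ C (r / R) ^ a`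
* **`end_far`** : a strand (or the leg) from an end in the box of radius `r` to distance `R`
* `arm2`    : no arc over the near zone ⇒ the near zone is joined to the outer part (748's `Gd.arm`)
* **`gap_far`** : the probability that no arc passes over the near zone
-/

set_option autoImplicit false

noncomputable section

namespace Crest.Agent.R158.Dp109

open MeasureTheory ProbabilityTheory unitInterval
open Crest.Agent.R161.Geo729 Crest.Agent.R158.Rs689 Crest.Agent.R158.Mr679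
open Crest.Agent.R158.Gc748 Crest.Agent.R158.Cb771
open Crest.Agent.R158.Sw300 (Port)

/-! ### plane pieces -/

/-- near port or corner: its tile is within distance `r` of `x` -/
def Nr {T : Type*} (pos : T → P2) (x : P2) (r : ℤ) (p : Port T) : Prop :=
  ∃ t d, p = some (t, d) ∧ |(pos t).1 - x.1| ≤ r ∧ |(pos t).2 - x.2| ≤ r

/-- home: the tile is in `A` at distance `< R` -/
def Hm {T : Type*} (A : Set T) (pos : T → P2) (x : P2) (R : ℤ) (p : Port T) : Prop :=
  ∃ t d, p = some (t, d) ∧ t ∈ A ∧ |(pos t).1 - x.1| < R ∧ |(pos t).2 - x.2| < R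

theorem hm_rc {T : Type*} {A : Set T} {pos : T → P2} {x : P2} {R : ℤ} {p : Port T} :
    Hm A pos x R (rc p) ↔ Hm A pos x R p := by
  cases p with
  | none => exact Iff.rfl
  | some y =>
    obtain ⟨t, d⟩ := y
    constructor
    · rintro ⟨t', d', h, h1⟩
      simp only [rc_some, Option.some.injEq, Prod.mk.injEq] at h
      exact ⟨t, d, rfl, by rw [h.1]; exact h1⟩
    · rintro ⟨t', d', h, h1⟩
      simp only [Option.some.injEq, Prod.mk.injEq] at h
      exact ⟨t, d + 1, rfl, by rw [h.1]; exact h1⟩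

theorem nr_rc {T : Type*} {pos : T → P2} {x : P2} {r : ℤ} {p : Port T} :
    Nr pos x r (rc p) ↔ Nr pos x r p := by
  cases p with
  | none => exact Iff.rfl
  | some y =>
    obtain ⟨t, d⟩ := y
    constructor
    · rintro ⟨t', d', h, h1⟩
      simp only [rc_some, Option.some.injEq, Prod.mk.injEq] at h
      exact ⟨t, d, rfl, by rw [h.1]; exact h1⟩
    · rintro ⟨t', d', h, h1⟩
      simp only [Option.some.injEq, Prod.mk.injEq] at h
      exact ⟨t, d + 1, rfl, by rw [h.1]; exact h1⟩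

/-- the glueing is plane in the box of radius `R` around `x` -/
structure Ball {T : Type*} (G : Port T → Port T → Prop) (A : Set T) (pos : T → P2) (x : P2)
    (R : ℕ) : Prop where
  fin : A.Finite
  ch : Chart G A pos
  clo : ∀ t ∈ A, |(pos t).1 - x.1| < R → |(pos t).2 - x.2| < R → ∀ d q, G (some (t, d)) q → InT A q

/-- glueing restricted to `A` -/
def Gr {T : Type*} (G : Port T → Port T → Prop) (A : Set T) (p q : Port T) : Prop :=
  G p q ∧ InT A p ∧ InT A q

theorem Ball.grc {T : Type*} {G : Port T → Port T → Prop} {A : Set T} {pos : T → P2} {x : P2}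
    {R : ℕ} (h : Ball G A pos x R) : Chart (Gr G A) A pos where
  symm := fun p q hpq => ⟨h.ch.symm p q hpq.1, hpq.2.2, hpq.2.1⟩
  inj := h.ch.inj
  glue := fun t d t' d' h1 h2 h3 => h.ch.glue t d t' d' h1 h2 h3.1

/-- one step from a home corner stays in `A`, by a restricted step -/
theorem Ball.step {T : Type*} {G : Port T → Port T → Prop} {A : Set T} {pos : T → P2} {x : P2}
    {R : ℕ} (h : Ball G A pos x R) {s : T → Bool} {c c' : Port T} (hs : CSt s G c c')
    (hc : Hm A pos x R c) : CSt s (Gr G A) c c' ∧ InT A c' := by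
  cases hs with
  | diag t d h =>
    obtain ⟨t', d', he, h1, -⟩ := hc
    simp only [Option.some.injEq, Prod.mk.injEq] at he
    exact ⟨.diag t d h, by rw [he.1]; exact h1⟩
  | gl p q hpq =>
    obtain ⟨t, d, rfl, h1, h2, h3⟩ := hm_rc.1 hc
    have h4 := h.clo _ h1 h2 h3 _ _ hpq
    exact ⟨.gl _ _ ⟨hpq, h1, h4⟩, h4⟩
  | gr p q hpq =>
    obtain ⟨t, d, rfl, h1, h2, h3⟩ : Hm A pos x R p := hc
    have h4 := h.clo _ h1 h2 h3 _ _ hpq
    exact ⟨.gr _ _ ⟨hpq, h1, h4⟩, (inT_rc q).2 h4⟩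

/-- a chain from a home corner to a corner which is not home -/
theorem Ball.exit {T : Type*} {G : Port T → Port T → Prop} {A : Set T} {pos : T → P2} {x : P2}
    {R : ℕ} (h : Ball G A pos x R) {s : T → Bool} {c c' : Port T} (hs : CC s G c c')
    (hc : Hm A pos x R c) (hc' : ¬ Hm A pos x R c') :
    ∃ c1, CC s (Gr G A) c c1 ∧ InT A c1 ∧ ¬ Hm A pos x R c1 := by
  have key : ∀ c', CC s G c c' → (CC s (Gr G A) c c' ∧ Hm A pos x R c') ∨
      ∃ c1, CC s (Gr G A) c c1 ∧ InT A c1 ∧ ¬ Hm A pos x R c1 := by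
    intro c' hcc
    induction hcc with
    | refl => exact Or.inl ⟨.refl, hc⟩
    | @tail b d _ h2 ih =>
      rcases ih with ⟨h3, h4⟩ | h3
      · obtain ⟨h5, h6⟩ := h.step h2 h4
        by_cases h7 : Hm A pos x R d
        · exact Or.inl ⟨h3.tail h5, h7⟩
        · exact Or.inr ⟨d, h3.tail h5, h6, h7⟩
      · exact Or.inr h3
  rcases key c' hs with ⟨_, h2⟩ | h2
  · exact absurd h2 hc'
  · exact h2

theorem cpos_near {T : Type*} {pos : T → P2} {x : P2} {r : ℤ} {p : Port T} (h : Nr pos x r p) :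
    |(cpos pos p).1 - x.1| ≤ r + 1 ∧ |(cpos pos p).2 - x.2| ≤ r + 1 := by
  obtain ⟨t, d, rfl, h1, h2⟩ := h
  have h3 := off_le d
  simp only [cpos, Prod.fst_add, Prod.snd_add]
  rw [abs_le] at h1 h2 ⊢
  rw [abs_le]
  omega

theorem cpos_far {T : Type*} {A : Set T} {pos : T → P2} {x : P2} {R : ℤ} {p : Port T}
    (h1 : InT A p) (h : ¬ Hm A pos x R p) :
    R - 1 ≤ |(cpos pos p).1 - x.1| ∨ R - 1 ≤ |(cpos pos p).2 - x.2| := by
  cases p with
  | none => exact absurd h1 id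
  | some y =>
    obtain ⟨t, d⟩ := y
    have h2 : R ≤ |(pos t).1 - x.1| ∨ R ≤ |(pos t).2 - x.2| := by
      by_contra hcon
      rw [not_or, not_le, not_le] at hcon
      exact h ⟨t, d, rfl, h1, hcon.1, hcon.2⟩
    have h3 := off_le d
    simp only [cpos, Prod.fst_add, Prod.snd_add]
    simp only [le_abs] at h2 ⊢
    omega

/-- event: a chain from a near corner to a corner which is not home -/
def Ex {T : Type*} (G : Port T → Port T → Prop) (A : Set T) (pos : T → P2) (x : P2) (r R : ℕ) :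
    Set (T → Bool) :=
  {s | ∃ c0 c1, CC s G c0 c1 ∧ InT A c0 ∧ Nr pos x r c0 ∧ ¬ Hm A pos x R c1}

/-- **chains from the box of radius `r` to distance `R`** -/
theorem cc_far : ∃ C a : ℝ, 0 < C ∧ 0 < a ∧ ∀ {T : Type} (G : Port T → Port T → Prop)
    (A : Set T) (pos : T → P2) (x : P2) (r R : ℕ), Ball G A pos x R → 1 ≤ r → r ≤ R →
    (PB (fun _ : T => hf)).real (Ex G A pos x r R) ≤ C * ((r : ℝ) / R) ^ a := by
  obtain ⟨C, a, hC, ha, h⟩ := chart_probF
  refine ⟨max C 1 * 2 ^ a, a, by positivity, ha, fun {T} G A pos x r R hb hr hrR => ?_⟩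
  have hr0 : (0 : ℝ) < r := by exact_mod_cast hr
  have hR0 : (0 : ℝ) < R := by exact_mod_cast (hr.trans hrR)
  have hone : (1 : ℝ) ≤ 2 * ((r : ℝ) / R) → (1 : ℝ) ≤ max C 1 * 2 ^ a * ((r : ℝ) / R) ^ a := by
    intro h1
    rw [mul_assoc, ← Real.mul_rpow (by norm_num) (by positivity)]
    have h3 : (1 : ℝ) ≤ (2 * ((r : ℝ) / R)) ^ a := Real.one_le_rpow h1 ha.le
    calc (1 : ℝ) = 1 * 1 := by ring
      _ ≤ max C 1 * (2 * ((r : ℝ) / R)) ^ a :=
          mul_le_mul (le_max_right _ _) h3 zero_le_one (by positivity)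
  by_cases hR : 2 * r ≤ R
  · have h1 := h (Gr G A) A pos x r (R - 1) hb.fin hb.grc
      (fun t d q ht hq hnq => absurd hq.2.2 hnq) hr (by omega)
    refine (measureReal_mono ?_).trans (h1.trans ?_)
    · rintro s ⟨c0, c1, h2, h3, h4, h5⟩
      have h6 : Hm A pos x R c0 := by
        obtain ⟨t, d, rfl, h7, h8⟩ := h4
        refine ⟨t, d, rfl, h3, ?_, ?_⟩ <;> omega
      obtain ⟨c2, h7, h8, h9⟩ := hb.exit h2 h6 h5
      refine ⟨c0, c2, Or.inr ?_, h7, h8, ?_⟩
      · have := cpos_near h4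
        push_cast
        exact this
      · have := cpos_far h8 h9
        have e : (((R - 1 : ℕ)) : ℤ) = (R : ℤ) - 1 := by omega
        rw [e]
        exact this
    · have h2 : (r : ℝ) / ((R - 1 : ℕ) : ℝ) ≤ 2 * ((r : ℝ) / R) := by
        have hR1 : (0 : ℝ) < ((R - 1 : ℕ) : ℝ) := by
          have : 0 < R - 1 := by omega
          exact_mod_cast this
        rw [← mul_div_assoc, div_le_div_iff₀ hR1 hR0]
        have h3 : (R : ℝ) ≤ 2 * ((R - 1 : ℕ) : ℝ) := by
          have : R ≤ 2 * (R - 1) := by omega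
          exact_mod_cast this
        nlinarith
      calc C * ((r : ℝ) / ((R - 1 : ℕ) : ℝ)) ^ a ≤ max C 1 * (2 * ((r : ℝ) / R)) ^ a :=
            mul_le_mul (le_max_left _ _) (Real.rpow_le_rpow (by positivity) h2 ha.le)
              (by positivity) (by positivity)
        _ = max C 1 * 2 ^ a * ((r : ℝ) / R) ^ a := by
            rw [Real.mul_rpow (by norm_num) (by positivity)]; ring
  · refine measureReal_le_one.trans (hone ?_)
    rw [← mul_div_assoc, le_div_iff₀ hR0]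
    have h4 : (R : ℝ) ≤ 2 * r := by exact_mod_cast (by omega : R ≤ 2 * r)
    linarith

/-! ### words -/

section words

variable {T : Type} [DecidableEq T]

/-- the two ends of a strand -/
theorem cc_side {w : Sw300.Wd T} (hw : Sw300.Ok w) (hl : bs w = none) {b : Port T → Port T}
    (hb : ∀ x, Sw300.be w x = b x) (s : T → Bool) {p : Port T} (hp : p ∈ Sw300.L w) :
    CC s (Ob664.Gl b) (rc p) (lc (Sw300.M s w p)) := by
  have h := (gd_wd s hw).side p hp
  rw [hl] at h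
  exact cc_of_word hw hb h

/-- the strand of the leg -/
theorem cc_leg {w : Sw300.Wd T} (hw : Sw300.Ok w) (hl : bs w = none) {b : Port T → Port T}
    (hb : ∀ x, Sw300.be w x = b x) (s : T → Bool) {p : Port T} (hp : p ∈ Sw300.L w)
    (hm : Sw300.M s w p = p) : CC s (Ob664.Gl b) (lc p) none := by
  have h := (gd_wd s hw).legR p hp hm
  rw [hl] at h
  exact cc_of_word hw hb h.symm

/-- the event of (P1) -/
def Far1 (w : Sw300.Wd T) (A : Set T) (pos : T → P2) (x : P2) (r R : ℕ) : Set (T → Bool) :=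
  {s | ∃ p ∈ Sw300.L w, InT A p ∧ Nr pos x r p ∧
    (Sw300.M s w p = p ∨ ¬ Hm A pos x R (Sw300.M s w p))}

theorem far1_sub {w : Sw300.Wd T} (hw : Sw300.Ok w) (hl : bs w = none) {b : Port T → Port T}
    (hb : ∀ x, Sw300.be w x = b x) {A : Set T} {pos : T → P2} {x : P2} {r R : ℕ} :
    Far1 w A pos x r R ⊆ Ex (Ob664.Gl b) A pos x r R := by
  rintro s ⟨p, hp, h1, h2, h3 | h3⟩
  · refine ⟨lc p, none, cc_leg hw hl hb s hp h3, h1, h2, ?_⟩
    rintro ⟨t, d, h, -⟩
    simp at h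
  · exact ⟨rc p, lc (Sw300.M s w p), cc_side hw hl hb s hp, (inT_rc p).2 h1, nr_rc.2 h2, h3⟩

/-- **(P1)** a strand (or the leg) from the box of radius `r` to distance `R` -/
theorem end_far : ∃ C a : ℝ, 0 < C ∧ 0 < a ∧ ∀ {T : Type} [DecidableEq T] (w : Sw300.Wd T)
    (b : Port T → Port T) (A : Set T) (pos : T → P2) (x : P2) (r R : ℕ), Sw300.Ok w →
    bs w = none → (∀ x, Sw300.be w x = b x) → Ball (Ob664.Gl b) A pos x R → 1 ≤ r → r ≤ R →
    (PB (fun _ : T => hf)).real (Far1 w A pos x r R) ≤ C * ((r : ℝ) / R) ^ a := by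
  obtain ⟨C, a, hC, ha, h⟩ := cc_far
  exact ⟨C, a, hC, ha, fun w b A pos x r R hw hl hb hB hr hrR =>
    (measureReal_mono (far1_sub hw hl hb)).trans (h _ A pos x r R hB hr hrR)⟩

end words

/-! ### the near zone -/

section gap

variable {T : Type*} [DecidableEq T] {s : T → Bool} {B : Option T} {G : List (Port T × Port T)}
  {Ts : Set T} {M : Port T → Port T}

/-- last element with a property -/
theorem last_of {α : Type*} {P : α → Prop} : ∀ l : List α, (∃ y ∈ l, P y) →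
    ∃ l1 y l2, l = l1 ++ y :: l2 ∧ P y ∧ ∀ x ∈ l2, ¬ P x := by
  intro l
  induction l with
  | nil => rintro ⟨y, hy, _⟩; simp at hy
  | cons a l ih =>
    rintro ⟨y, hy, hMy⟩
    by_cases h2 : ∃ y ∈ l, P y
    · obtain ⟨l1, y, l2, e, h3, h4⟩ := ih h2
      exact ⟨a :: l1, y, l2, by rw [e]; rfl, h3, h4⟩
    · rcases List.mem_cons.1 hy with rfl | hy
      · exact ⟨[], y, l, rfl, hMy, fun x hx hMx => h2 ⟨x, hx, hMx⟩⟩
      · exact absurd ⟨y, hy, hMy⟩ h2

/-- **no arc over the near zone** `n`: a gap next to an end of `n`, or the gap between `n` and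
`m2`, is joined to a gap next to an end of the outer part `o` -/
theorem arm2 {m1 n m2 o : List (Port T)} (h : Gd s B (m1 ++ (n ++ (m2 ++ o))) G Ts M)
    (ho : o ≠ []) (hno : ∀ y ∈ m1, M y ∉ m2) :
    ∃ c, (c = lc ((m2 ++ o).headD none) ∨ ∃ y ∈ n, c = lc y) ∧
      ∃ w ∈ o, R s B G c (lc w) ∨ R s B G c (rc w) := by
  by_cases hex : ∃ y ∈ m2, M y ∈ n
  · obtain ⟨a, y, b, e, hMy, hlast⟩ := last_of m2 hex
    have hnd := h.nodup
    -- the new decomposition
    have h' : Gd s B ((m1 ++ (n ++ (a ++ [y]))) ++ (b ++ o)) G Ts M := by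
      have : (m1 ++ (n ++ (a ++ [y]))) ++ (b ++ o) = m1 ++ (n ++ (m2 ++ o)) := by
        rw [e]; simp
      rw [this]; exact h
    have hyL : y ∈ m1 ++ (n ++ (m2 ++ o)) := by rw [e]; simp
    have hMyL : M y ∈ m1 ++ (n ++ (m2 ++ o)) := by simp [hMy]
    have hinv : M (M y) = y := h.inv y hyL
    obtain ⟨n1, n2, hn⟩ := List.append_of_mem hMy
    have hnc : ∀ z ∈ n2 ++ a, M z ∈ n2 ++ a := by
      intro z hz
      have hr : m1 ++ (n ++ (m2 ++ o)) ~r M y :: ((n2 ++ a) ++ M (M y) :: (b ++ o ++ (m1 ++ n1))) := by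
        rw [hinv, hn, e]
        have := rot_app (m1 ++ n1) (M y :: (n2 ++ a) ++ (y :: (b ++ o)))
        simpa using this
      exact (h.rotated hr).nc hz
    have hdis : ∀ z ∈ n2 ++ a, z ∉ b := by
      intro z hz hzb
      have e' : m1 ++ (n ++ (m2 ++ o)) =
          (m1 ++ (n1 ++ [M y])) ++ ((n2 ++ a) ++ (y :: (b ++ o))) := by simp [hn, e]
      rw [e'] at hnd
      exact (List.nodup_append.1 (List.nodup_append.1 hnd).2.1).2.2 z hz z (by simp [hzb]) rfl
    obtain ⟨w, hw, hR⟩ := Gd.arm h' ho fun z hz hMz => by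
      rcases List.mem_append.1 hz with hz | hz
      · exact hno z hz (by rw [e]; simp [hMz])
      · rcases List.mem_append.1 hz with hz | hz
        · -- `z ∈ n`
          refine hlast (M z) hMz ?_
          have : M (M z) = z := h.inv z (by simp [hz])
          rw [this]; exact hz
        · rcases List.mem_append.1 hz with hz | hz
          · have h1 := hnc z (by simp [hz])
            exact hdis _ h1 hMz
          · rw [List.mem_singleton] at hz
            subst hz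
            have hzn : M z ∈ n := hMy
            have hnd' := h.nodup
            rw [e] at hnd'
            have : M z ∈ m1 ++ (n ++ ((a ++ z :: b) ++ o)) := by simp [hzn]
            simp only [List.nodup_append] at hnd'
            exact hnd'.2.1.2.2 _ hzn _ (by simp [hMz]) rfl
    refine ⟨lc (M y), Or.inr ⟨M y, hMy, rfl⟩, w, hw, ?_⟩
    -- `rc y ~ lc (M y)`, `rc y ~ lc (head (b ++ o))`
    have hside := h.side y hyL
    obtain ⟨z, m', hz⟩ : ∃ z m', b ++ o = z :: m' := by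
      cases hm : b ++ o with
      | nil => exact absurd (List.append_eq_nil_iff.1 hm).2 ho
      | cons z m' => exact ⟨z, m', rfl⟩
    have hadj : R s B G (rc y) (lc z) := by
      have hr : m1 ++ (n ++ (m2 ++ o)) ~r y :: z :: (m' ++ (m1 ++ (n ++ a))) := by
        have e2 : m1 ++ (n ++ (m2 ++ o)) = (m1 ++ (n ++ a)) ++ (y :: z :: m') := by
          rw [e]
          simp only [List.append_assoc, List.cons_append, ← hz]
        rw [e2]
        have := rot_app (m1 ++ (n ++ a)) (y :: z :: m')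
        simpa using this
      exact Gd.adj (h.rotated hr)
    rw [hz] at hR
    have e3 : ((z :: m' : List (Port T))).headD none = z := rfl
    rw [e3] at hR
    rcases hR with hR | hR
    · exact Or.inl ((hside.symm.trans hadj).trans hR)
    · exact Or.inr ((hside.symm.trans hadj).trans hR)
  · have h' : Gd s B ((m1 ++ n) ++ (m2 ++ o)) G Ts M := by
      rw [List.append_assoc]; exact h
    obtain ⟨w, hw, hR⟩ := Gd.arm h' ho fun z hz hMz => by
      rcases List.mem_append.1 hz with hz | hz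
      · exact hno z hz hMz
      · refine hex ⟨M z, hMz, ?_⟩
        rw [h.inv z (by simp [hz])]
        exact hz
    exact ⟨_, Or.inl rfl, w, hw, hR⟩

end gap

section words2

variable {T : Type} [DecidableEq T]

/-- no arc passes over the near zone -/
theorem gap_sub {w : Sw300.Wd T} (hw : Sw300.Ok w) (hl : bs w = none) {b : Port T → Port T}
    (hb : ∀ x, Sw300.be w x = b x) {A : Set T} {pos : T → P2} {x : P2} {r R : ℕ}
    {m1 n m2 o : List (Port T)} (hr : Sw300.L w ~r m1 ++ (n ++ (m2 ++ o))) (hn0 : n ≠ [])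
    (ho : o ≠ []) (hn : ∀ y ∈ n, InT A y ∧ Nr pos x r y) (hof : ∀ y ∈ o, ¬ Hm A pos x R y) :
    {s : T → Bool | ∀ y ∈ m1, Sw300.M s w y ∉ m2} ⊆ Ex (Ob664.Gl b) A pos x r R := by
  intro s hs
  have h := (gd_wd s hw).rotated hr
  obtain ⟨c, hc, z, hz, hR⟩ := arm2 h ho hs
  -- a near corner
  obtain ⟨y, hy, c', hc', hcc⟩ : ∃ y ∈ n, ∃ c', (c' = lc y ∨ c' = rc y) ∧
      Gc748.R s (bs w) (gl w) c' c := by
    rcases hc with hc | ⟨y, hy, hc⟩
    · obtain ⟨n', y, hny⟩ : ∃ n' y, n = n' ++ [y] :=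
        ⟨n.dropLast, n.getLast hn0, (List.dropLast_append_getLast hn0).symm⟩
      obtain ⟨v, m', hv⟩ : ∃ v m', m2 ++ o = v :: m' := by
        cases hm : m2 ++ o with
        | nil => exact absurd (List.append_eq_nil_iff.1 hm).2 ho
        | cons z m' => exact ⟨z, m', rfl⟩
      have hrr : m1 ++ (n ++ (m2 ++ o)) ~r y :: v :: (m' ++ (m1 ++ n')) := by
        have e2 : m1 ++ (n ++ (m2 ++ o)) = (m1 ++ n') ++ (y :: v :: m') := by
          rw [hny, hv]; simp
        rw [e2]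
        have := rot_app (m1 ++ n') (y :: v :: m')
        simpa using this
      have hadj := Gd.adj (h.rotated hrr)
      rw [hv] at hc
      refine ⟨y, by rw [hny]; simp, rc y, Or.inr rfl, ?_⟩
      rw [hc]
      exact hadj
    · exact ⟨y, hy, lc y, Or.inl rfl, by rw [hc]; exact Gc748.R.refl _⟩
  obtain ⟨hyA, hyr⟩ := hn y hy
  have hc'A : InT A c' := by
    rcases hc' with rfl | rfl
    · exact hyA
    · exact (inT_rc y).2 hyA
  have hc'r : Nr pos x r c' := by
    rcases hc' with rfl | rfl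
    · exact hyr
    · exact nr_rc.2 hyr
  have key : ∀ c'', Gc748.R s (bs w) (gl w) c c'' → ¬ Hm A pos x R c'' →
      s ∈ Ex (Ob664.Gl b) A pos x r R := by
    intro c'' h1 h2
    have h3 := hcc.trans h1
    rw [hl] at h3
    exact ⟨c', c'', cc_of_word hw hb h3, hc'A, hc'r, h2⟩
  rcases hR with hR | hR
  · exact key _ hR (hof z hz)
  · exact key _ hR (by rw [hm_rc]; exact hof z hz)

/-- **(P2)** no arc from `m1` to `m2` over the near zone `n` -/
theorem gap_far : ∃ C a : ℝ, 0 < C ∧ 0 < a ∧ ∀ {T : Type} [DecidableEq T] (w : Sw300.Wd T)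
    (b : Port T → Port T) (A : Set T) (pos : T → P2) (x : P2) (r R : ℕ)
    (m1 n m2 o : List (Port T)), Sw300.Ok w →
    bs w = none → (∀ x, Sw300.be w x = b x) → Ball (Ob664.Gl b) A pos x R → 1 ≤ r → r ≤ R →
    Sw300.L w ~r m1 ++ (n ++ (m2 ++ o)) → n ≠ [] → o ≠ [] →
    (∀ y ∈ n, InT A y ∧ Nr pos x r y) → (∀ y ∈ o, ¬ Hm A pos x R y) →
    (PB (fun _ : T => hf)).real {s : T → Bool | ∀ y ∈ m1, Sw300.M s w y ∉ m2} ≤
      C * ((r : ℝ) / R) ^ a := by
  obtain ⟨C, a, hC, ha, h⟩ := cc_far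
  exact ⟨C, a, hC, ha, fun w b A pos x r R m1 n m2 o hw hl hb hB hr hrR h1 h2 h3 h4 h5 =>
    (measureReal_mono (gap_sub hw hl hb h1 h2 h3 h4 h5)).trans (h _ A pos x r R hB hr hrR)⟩



end words2

end Crest.Agent.R158.Dp109
end
end

-- ▼ part R158/Dp3_109

/-!
# Row 158, dropped part of the slices (helper109): balls of `beD`

* `ball_beD` : the glueing `beD A p y0 xr` is plane in every box at vertical distance `> R + 1` from
  the row `y0`
-/

set_option autoImplicit false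

noncomputable section

namespace Crest.Agent.R158.Dp109

open Crest.Agent.R161.Geo729 Crest.Agent.R158.Mr679
open Crest.Agent.R158.Gc748 Crest.Agent.R158.Cb771
open Crest.Agent.R158.Sw300 (Port)
open Crest.Agent.R158.Env664

/-- tiles of `A` in the box of radius `R` around `v` -/
def bxA (A : Finset (ℤ × ℤ)) (v : ℤ × ℤ) (R : ℕ) : Set (ℤ × ℤ) :=
  {t | t ∈ A ∧ |t.1 - v.1| ≤ R ∧ |t.2 - v.2| ≤ R}

/-- `beD` at a tile off the rows `y0 - 1`, `y0` -/
theorem beD_off {A : Finset (ℤ × ℤ)} {p y0 xr : ℤ} {t : ℤ × ℤ} {d : ZMod 4} {q : Port (ℤ × ℤ)}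
    (h0 : t.2 ≠ y0) (h1 : t.2 ≠ y0 - 1) (h : Ob664.Gl (beD A p y0 xr) (some (t, d)) q) :
    ∃ t', q = some (t', d + 2) ∧ t' = t + dir d ∧ t' ∈ A := by
  obtain ⟨h2, h3⟩ := h
  obtain ⟨x, y⟩ := t
  simp only at h0 h1
  have h4 : PortOf A (nbD p y0 xr (some ((x, y), d))) ∧
      nbD p y0 xr (some ((x, y), d)) = q := by
    unfold beD res at h2
    split_ifs at h2 with h5
    · exact ⟨h5.2, h2⟩
    · exact absurd h2 h3
  obtain ⟨h5, rfl⟩ := h4
  rcases z4 d with rfl | rfl | rfl | rfl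
  · rw [nbD_W] at h5 ⊢
    refine ⟨(x - 1, y), by rfl, ?_, h5 _ rfl⟩
    simp only [dir]
    ext <;> simp
    ring
  · rw [nbD_N (by omega)] at h5 ⊢
    refine ⟨(x, y + 1), by rfl, ?_, h5 _ rfl⟩
    simp only [dir]
    ext <;> simp [n10]
  · rw [nbD_E] at h5 ⊢
    refine ⟨(x + 1, y), by rfl, ?_, h5 _ rfl⟩
    simp only [dir]
    ext <;> simp [n20, n21]
  · rw [nbD_S (by omega)] at h5 ⊢
    refine ⟨(x, y - 1), by rfl, ?_, h5 _ rfl⟩
    simp only [dir]
    ext <;> simp [n30, n31, n32]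
    ring

/-- steps have length at most one -/
theorem dir_le : ∀ d : ZMod 4,
    (-1 ≤ (dir d).1 ∧ (dir d).1 ≤ 1) ∧ (-1 ≤ (dir d).2 ∧ (dir d).2 ≤ 1) := by
  decide

/-- **balls of `beD`** -/
theorem ball_beD {A : Finset (ℤ × ℤ)} {p y0 xr : ℤ} (hp : p ≤ xr) (hr : (xr + 1, y0) ∉ A)
    (v : ℤ × ℤ) (R : ℕ) (hfar : (R : ℤ) + 1 < |v.2 - y0|) :
    Ball (Ob664.Gl (beD A p y0 xr)) (bxA A v R) (fun t => t) v R where
  fin := by
    refine Set.Finite.subset A.finite_toSet ?_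
    rintro t ⟨h, -⟩
    exact h
  ch := by
    have hrow : ∀ t ∈ bxA A v R, t.2 ≠ y0 ∧ t.2 ≠ y0 - 1 := by
      rintro t ⟨-, -, h⟩
      rw [abs_le] at h
      rcases lt_abs.1 hfar with h1 | h1 <;> constructor <;> omega
    refine ⟨?_, fun t _ t' _ h => h, ?_⟩
    · rintro q q' ⟨h1, h2⟩
      exact ⟨by rw [← h1, beD_invol hp hr], h2.symm⟩
    · intro t d t' d' ht ht' h
      obtain ⟨t'', h1, h2, -⟩ := beD_off (hrow t ht).1 (hrow t ht).2 h
      simp only [Option.some.injEq, Prod.mk.injEq] at h1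
      exact ⟨h1.2, by rw [h1.1]; exact h2⟩
  clo := by
    rintro t ⟨h0, h1, h2⟩ h3 h4 d q h
    rw [abs_le] at h1 h2
    have hrow : t.2 ≠ y0 ∧ t.2 ≠ y0 - 1 := by
      rcases lt_abs.1 hfar with h1 | h1 <;> constructor <;> omega
    obtain ⟨t', rfl, rfl, h5⟩ := beD_off hrow.1 hrow.2 h
    refine ⟨h5, ?_⟩
    have hd := dir_le d
    rw [abs_lt] at h3 h4
    simp only [Prod.fst_add, Prod.snd_add, abs_le]
    omega

end Crest.Agent.R158.Dp109
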