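import Crest.Agent.R158.Dr6_945

/-!
# Row 158, BLOCK DR (helper945), part 7: vertical and horizontal displacement of `z`

* `mem_L_iff` : the free ends of a word are its unglued ports
* `HW_unique` : the observable does not depend on the word
* `Slab`, `dr_vert` : `z = (p, y0)` against `z' = (p, y0 + k)` on the relabelled region
* `dr_hor` : `z = (p, y0)` against `z' = (p + k, y0)`
-/

set_option autoImplicit false
set_option linter.unusedSectionVars false
set_option linter.unusedSimpArgs false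

noncomputable section

namespace Crest.Agent.R158.Dr945

open MeasureTheory ProbabilityTheory unitInterval
open Crest.Agent.R161.Geo729
open Crest.Agent.R158.Rs689
open Crest.Agent.R158.Sw300 (Port Wd thru tls)
open Crest.Agent.R158.Ob664 (HV HW GW Gl)
open Crest.Agent.R158.Sl434 (Sp Rl Rf al Sys rf_al rf_be sys_of_word)

theorem d4 (d d0 : ZMod 4) (h : d ≠ d0) : d = d0 + 1 ∨ d = d0 + 2 ∨ d = d0 + 3 := by
  revert d d0; decide

section unique

variable {T : Type*} [DecidableEq T]

/-- an unglued port is a free end -/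
theorem mem_L_of_free : ∀ {w : Wd T}, Sw300.Ok w → ∀ {t : T} {d : ZMod 4}, t ∈ tls w →
    Sw300.be w (some (t, d)) = some (t, d) → (some (t, d) : Port T) ∈ Sw300.L w
  | .leg, _, t, d, ht, _ => by simp [tls] at ht
  | .tile t0, _, t, d, ht, _ => by
    have e : t = t0 := by simpa [tls] using ht
    subst e
    rcases Env664.z4 d with rfl | rfl | rfl | rfl <;> simp [Sw300.L]
  | .att w p t0 d0, h, t, d, ht, hb => by
    obtain ⟨hw, hp, ht0, -⟩ := h
    have hpt : p ≠ some (t0, d0) := fun e => ht0 (Gc748.mem_L_tls hw (e ▸ hp))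
    simp only [Sw300.be] at hb
    have h1 : (some (t, d) : Port T) ≠ p := by
      intro e
      rw [if_pos e] at hb
      exact hpt (e.symm.trans hb.symm)
    have h2 : (some (t, d) : Port T) ≠ some (t0, d0) := by
      intro e
      rw [if_neg h1, if_pos e] at hb
      exact h1 hb.symm
    rw [if_neg h1, if_neg h2] at hb
    simp only [Sw300.L, List.mem_flatMap]
    by_cases e : t = t0
    · subst e
      refine ⟨p, hp, ?_⟩
      rw [if_pos rfl]
      have h3 : d ≠ d0 := fun e => h2 (by rw [e])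
      have h4 := d4 d d0 h3
      rcases h4 with rfl | rfl | rfl <;> simp
    · have h3 : t ∈ tls w := by
        simp only [tls, List.mem_cons] at ht
        exact ht.resolve_left e
      exact ⟨some (t, d), mem_L_of_free hw h3 hb, by rw [if_neg h1]; simp⟩
  | .con w p q, h, t, d, ht, hb => by
    obtain ⟨hw, -, -, hpq, -⟩ := h
    simp only [Sw300.be] at hb
    have h1 : (some (t, d) : Port T) ≠ p := by
      intro e
      rw [if_pos e] at hb
      exact hpq (e.symm.trans hb.symm)
    have h2 : (some (t, d) : Port T) ≠ q := by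
      intro e
      rw [if_neg h1, if_pos e] at hb
      exact h1 hb.symm
    rw [if_neg h1, if_neg h2] at hb
    simp only [Sw300.L, List.mem_filter]
    refine ⟨mem_L_of_free hw (by simpa [tls] using ht) hb, ?_⟩
    simp [h1, h2]

/-- the free ends of a good word -/
theorem gw_mem_iff {A : Finset T} {b : Port T → Port T} {w : Wd T} (h : GW A b w) (t : T)
    (d : ZMod 4) : (some (t, d) : Port T) ∈ Sw300.L w ↔ t ∈ A ∧ b (some (t, d)) = some (t, d) := by
  constructor
  · intro hx
    have hb := (Gc748.be_state h.word.1).free _ hx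
    rw [h.word.2.2.2] at hb
    exact ⟨(h.word.2.2.1 t).1 (Gc748.mem_L_tls h.word.1 hx), hb⟩
  · rintro ⟨h1, h2⟩
    refine mem_L_of_free h.word.1 ((h.word.2.2.1 t).2 h1) ?_
    rw [h.word.2.2.2]; exact h2

theorem sys_unique {X : Type*} {al be : X → X} {z : X} {l l' : List X} {M M' : X → X} {u u' : X}
    (D : Sys al be z l M u) (G : Sys al be z l' M' u') (h : ∀ x, x ∈ l ↔ x ∈ l') :
    (∀ a ∈ l, M a = M' a) ∧ u = u' := by
  have hu : u = u' := (G.leg u ((h u).1 D.uL)).1 ((D.leg u D.uL).2 rfl)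
  refine ⟨fun a ha => ?_, hu⟩
  by_cases hau : a = u
  · rw [(D.fix a ha).2 hau, (G.fix a ((h a).1 ha)).2 (hau.trans hu)]
  · rcases G.uni a ((h a).1 ha) (M a) ((h _).1 (D.mem a ha)) (D.str a ha) with h1 | h1
    · exact absurd ((D.fix a ha).1 h1) hau
    · exact h1

/-- **the observable does not depend on the word** -/
theorem HV_unique {A : Finset T} {b : Port T → Port T} {w w' : Wd T} (h : GW A b w)
    (h' : GW A b w') {m1 m2 m3 : Port T} (h1 : m1 ∈ Sw300.L w) (h2 : m2 ∈ Sw300.L w)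
    (h3 : m3 ∈ Sw300.L w) (h0 : m1 ∈ Sw300.L w') (h12 : m1 ≠ m2) (h13 : m1 ≠ m3) (h23 : m2 ≠ m3)
    (s : T → Bool) : HV w m1 m2 m3 s = HV w' m1 m2 m3 s := by
  have hr : Sw300.L w' ~r Sw300.L w := rot_of_chain (r := Xr249.Nx (Gl b))
    (fun a b c => Xr249.Nx.det (fun a c d => gl_det a c d)) (gw_chain h) (gw_chain h')
    (Sw300.nodup h.word.1) (Sw300.nodup h'.word.1) h1 h0
  have hm : ∀ x, x ∈ Sw300.L w' ↔ x ∈ Sw300.L w := fun x => hr.mem_iff
  have D := sys_of_word h.word.1 s
  have G := sys_of_word h'.word.1 s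
  have e1 : Sw300.be w = b := funext h.word.2.2.2
  have e2 : Sw300.be w' = b := funext h'.word.2.2.2
  rw [e1] at D
  rw [e2] at G
  obtain ⟨hM, hu⟩ := sys_unique G D hm
  have := hv_map (f := id) (s := s) (s' := s) h.word.1 h'.word.1 (fun _ _ _ _ h => h)
    (by rw [List.map_id]; exact hr) (fun a ha => (hM a ha).symm) hu.symm ((hm _).2 h1)
    ((hm _).2 h2) ((hm _).2 h3) h12 h13 h23
  exact this

theorem HW_unique {A : Finset T} {b : Port T → Port T} {w w' : Wd T} (h : GW A b w)
    (h' : GW A b w') {m1 m2 m3 : Port T} (h1 : m1 ∈ Sw300.L w) (h2 : m2 ∈ Sw300.L w)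
    (h3 : m3 ∈ Sw300.L w) (h0 : m1 ∈ Sw300.L w') (h12 : m1 ≠ m2) (h13 : m1 ≠ m3) (h23 : m2 ≠ m3) :
    HW w m1 m2 m3 = HW w' m1 m2 m3 := by
  unfold HW
  congr 1
  funext s
  exact HV_unique h h' h1 h2 h3 h0 h12 h13 h23 s

/-- `HG` is the value of any good word; the marks are unglued ports of tiles -/
theorem HG_eq {A : Finset T} {b : Port T → Port T} {w : Wd T} (h : GW A b w)
    {m1 m2 m3 : T × ZMod 4} (h1 : some m1 ∈ Sw300.L w) (h2 : some m2 ∈ Sw300.L w)
    (h3 : some m3 ∈ Sw300.L w) (h12 : m1 ≠ m2) (h13 : m1 ≠ m3) (h23 : m2 ≠ m3) :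
    Ob664.HG A b (some m1) (some m2) (some m3) = HW w (some m1) (some m2) (some m3) := by
  obtain ⟨w', hw', e⟩ := Ob664.HG_spec ⟨w, h⟩ (some m1) (some m2) (some m3)
  rw [e]
  refine (HW_unique h hw' h1 h2 h3 ?_ (by simpa using h12) (by simpa using h13)
    (by simpa using h23)).symm
  exact (gw_mem_iff hw' m1.1 m1.2).2 ((gw_mem_iff h m1.1 m1.2).1 h1)

end unique

/-! ### vertical displacement -/

section slab

open Env664 (beD nbD res_of portOf_some portOf_none nbD_leg nbD_W nbD_E nbD_N1 nbD_N nbD_Sleg nbD_S1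
  nbD_S)

/-- `E` is the part of `A` between the slit of `z = (p, y0)`, the slit of `z' = (p, y0 + k)` and the
column `K = {(p, y) : y0 ≤ y < y0 + k}`; `A'` is `A` without `K`, with `E` moved to the left by one. -/
structure Slab (A E A' : Finset P2) (p y0 k xr xr' : ℤ) : Prop where
  kpos : 0 < k
  sub : ∀ x y, (x, y) ∈ E → (x, y) ∈ A
  colE : ∀ y, y0 ≤ y → y < y0 + k → (p, y) ∉ E
  start : ∀ y, y0 ≤ y → y < y0 + k → (p + 1, y) ∈ E
  right : ∀ x y, (x, y) ∈ E → (x + 1, y) ∈ A → (x + 1, y) ∈ E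
  left : ∀ x y, (x, y) ∈ E → (x - 1, y) ∈ A → (x - 1, y) ∈ E ∨ (x = p + 1 ∧ y0 ≤ y ∧ y < y0 + k)
  up : ∀ x y, (x, y) ∈ E → (x, y + 1) ∈ A → (x, y + 1) ∈ E ∨ (y + 1 = y0 + k ∧ p < x ∧ x ≤ xr')
  down : ∀ x y, (x, y) ∈ E → (x, y - 1) ∈ A → (x, y - 1) ∈ E ∨ (y = y0 ∧ p < x ∧ x ≤ xr)
  low : ∀ x, p < x → x ≤ xr → (x, y0) ∈ E
  low1 : ∀ x, p ≤ x → x ≤ xr → (x, y0 - 1) ∉ E
  lowr : (xr + 1, y0) ∉ A
  hi : ∀ x, p ≤ x → x ≤ xr' → (x, y0 + k) ∈ A ∧ (x, y0 + k) ∉ E
  hi1 : ∀ x, p < x → x ≤ xr' → (x, y0 + k - 1) ∈ A → (x, y0 + k - 1) ∈ E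
  hir : (xr' + 1, y0 + k) ∉ A
  gap : ∀ x y, (x, y) ∈ E → (x - 1, y) ∉ A → (x - 2, y) ∉ A
  pinch1 : ∀ x y, (x, y) ∈ E → (x - 1, y - 1) ∈ A → (x - 1, y) ∈ A ∨ (x, y - 1) ∈ A
  pinch2 : ∀ x y, (x, y) ∈ E → (x - 1, y + 1) ∈ A → (x - 1, y) ∈ A ∨ (x, y + 1) ∈ A
  mem' : ∀ x y, (x, y) ∈ A' ↔
    ((x, y) ∈ A ∧ (x, y) ∉ E ∧ ¬ (x = p ∧ y0 ≤ y ∧ y < y0 + k)) ∨ (x + 1, y) ∈ E

/-- the relabelling -/
def gE (E : Finset P2) (t : P2) : P2 := if (t.1 + 1, t.2) ∈ E then (t.1 + 1, t.2) else t

theorem gE_pos {E : Finset P2} {x y : ℤ} (h : (x + 1, y) ∈ E) : gE E (x, y) = (x + 1, y) := if_pos h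
theorem gE_neg {E : Finset P2} {x y : ℤ} (h : (x + 1, y) ∉ E) : gE E (x, y) = (x, y) := if_neg h

/-- the ports near `z'` where the glueings differ -/
def Jv (p y0 k : ℤ) : Set (Port P2) :=
  {x | x = none ∨ x = some ((p, y0 + k), 3) ∨
    ∃ y, y0 ≤ y ∧ y < y0 + k ∧ (x = some ((p - 1, y), 2) ∨ x = some ((p, y), 0))}

/-- the vertex states around them -/
def Bv (p y0 k : ℤ) : Set (Port P2) :=
  {x | x = none ∨ x = some ((p + 1, y0 + k), 3) ∨ x = some ((p, y0 + k), 2) ∨
    ∃ y, y0 ≤ y ∧ y ≤ y0 + k ∧ (x = some ((p, y), 3) ∨ x = some ((p - 1, y), 2) ∨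
      x = some ((p - 1, y - 1), 1) ∨ x = some ((p, y - 1), 0))}

variable {A E A' : Finset P2} {p y0 k xr xr' : ℤ} {R : ℕ}

theorem agr_of {A A' : Finset P2} {p y0 xr p' y0' xr' : ℤ} {g : P2 → P2} {t n n' : P2}
    {d d2 : ZMod 4} (ht : t ∈ A') (hg : g t ∈ A)
    (h1 : nbD p' y0' xr' (some (t, d)) = some (n', d2))
    (h2 : nbD p y0 xr (some (g t, d)) = some (n, d2)) (h3 : n' ∈ A' ↔ n ∈ A)
    (h4 : n' ∈ A' → g n' = n) :
    TP A' (beD A' p' y0' xr' (some (t, d))) ∧
      fp g (beD A' p' y0' xr' (some (t, d))) = beD A p y0 xr (fp g (some (t, d))) := by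
  rw [fp_some]
  unfold Env664.beD Env664.res
  rw [h1, h2]
  simp only [portOf_some, ht, hg, true_and]
  by_cases hn : n' ∈ A'
  · rw [if_pos hn, if_pos (h3.1 hn), fp_some, h4 hn]
    exact ⟨⟨n', hn, d2, rfl⟩, rfl⟩
  · rw [if_neg hn, if_neg fun h => hn (h3.2 h), fp_some]
    exact ⟨⟨t, ht, d, rfl⟩, rfl⟩

theorem Slab.agr (h : Slab A E A' p y0 k xr xr') (hr : p < xr) (hr' : p < xr')
    (x : Port P2) (hx : TP A' x) (hJ : x ∉ Jv p y0 k) :
    TP A' (beD A' p (y0 + k) xr' x) ∧
      fp (gE E) (beD A' p (y0 + k) xr' x) = beD A p y0 xr (fp (gE E) x) := by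
  obtain ⟨⟨x, y⟩, hm, d, rfl⟩ := hx
  have kpos := h.kpos
  have m' := h.mem'
  simp only [Jv, Set.mem_ofPred_eq, not_or, not_exists, not_and, Option.some.injEq,
    Prod.mk.injEq] at hJ
  obtain ⟨-, hJ1, hJ2⟩ := hJ
  rcases (m' x y).1 hm with ⟨hA, hE, hK⟩ | hE1
  · -- a tile outside `E`
    have hE1 : (x + 1, y) ∉ E := by
      have := h.left (x + 1) y
      grind
    have g0 := gE_neg hE1
    have gA : gE E (x, y) ∈ A := by rw [g0]; exact hA
    rcases Env664.z4 d with rfl | rfl | rfl | rfl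
    · refine agr_of (n := (x - 1, y)) hm gA nbD_W (by rw [g0]; exact nbD_W) ?_ ?_
      · have h1 := m' (x - 1) y
        have h2 := h.right (x - 1) y
        have h3 := h.start y
        grind
      · intro _
        exact gE_neg (by rw [sub_add_cancel]; exact hE)
    · by_cases hs : y = y0 - 1 ∧ p ≤ x ∧ x ≤ xr
      · -- the slit of `z`
        obtain ⟨rfl, hs1, hs2⟩ := hs
        refine agr_of (n' := (x, y0 - 1 + 1)) (n := (x + 1, y0)) hm gA (nbD_N (by omega))
          (by rw [g0]; exact nbD_N1 ⟨rfl, hs1, hs2⟩) ?_ ?_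
        · have h1 := m' x y0
          have h2 := h.low x
          have h3 := h.low (x + 1)
          have h4 := h.lowr
          have h5 := h.sub (x + 1) y0
          have h6 := h.right x y0
          rw [sub_add_cancel]
          grind
        · intro h1
          rw [sub_add_cancel] at h1 ⊢
          refine gE_pos ?_
          have h2 := m' x y0
          have h3 := h.low x
          grind
      · have hs' : ¬ (y = y0 + k - 1 ∧ p ≤ x ∧ x ≤ xr') := by
          rintro ⟨e, h1, h2⟩
          have h3 := h.hi1 x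
          grind
        refine agr_of (n := (x, y + 1)) hm gA (nbD_N hs') (by rw [g0]; exact nbD_N hs) ?_ ?_
        · have h1 := m' x (y + 1)
          have h2 := h.down x (y + 1)
          have h3 := h.down (x + 1) (y + 1)
          have h4 := h.pinch1 (x + 1) (y + 1)
          have h5 := h.left (x + 1) y
          have h6 := h.sub (x + 1) (y + 1)
          grind
        · intro hn
          refine gE_neg ?_
          have h1 := m' x (y + 1)
          have h2 := h.down x (y + 1)
          have h3 := h.down (x + 1) (y + 1)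
          have h4 := h.pinch1 (x + 1) (y + 1)
          have h5 := h.left (x + 1) y
          have h6 := h.left (x + 1) (y + 1)
          grind
    · refine agr_of (n := (x + 1, y)) hm gA nbD_E (by rw [g0]; exact nbD_E) ?_ ?_
      · have h1 := m' (x + 1) y
        have h2 := h.gap (x + 2) y
        have h3 := h.left (x + 2) y
        have h4 := hJ2 y
        grind
      · intro hn
        refine gE_neg ?_
        have h1 := m' (x + 1) y
        have h2 := h.gap (x + 2) y
        have h3 := h.left (x + 2) y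
        grind
    · have hs : ¬ (y = y0 ∧ x = p) := by
        rintro ⟨e1, e2⟩
        exact hK ⟨e2, by omega, by omega⟩
      have hs2 : ¬ (y = y0 ∧ p ≤ x ∧ x ≤ xr) := by
        rintro ⟨e1, e2, e3⟩
        have := h.low x
        grind
      have hs3 : ¬ (y = y0 + k ∧ x = p) := by
        rintro ⟨e1, e2⟩
        exact hJ1 ⟨e2, e1⟩ rfl
      by_cases hs4 : y = y0 + k ∧ p < x ∧ x ≤ xr'
      · -- the slit of `z'`
        refine agr_of (n' := (x - 1, y0 + k - 1)) (n := (x, y - 1)) hm gA (nbD_S1 hs4)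
          (by rw [g0]; exact nbD_S ⟨hs2, hs⟩) ?_ ?_
        · have h1 := m' (x - 1) (y0 + k - 1)
          have h2 := h.hi1 x
          have h3 := h.hi1 (x - 1)
          have h4 := h.sub x (y0 + k - 1)
          grind
        · intro hn
          obtain ⟨rfl, e1, e2⟩ := hs4
          have h1 := m' (x - 1) (y0 + k - 1)
          have h2 := h.hi1 x
          have h3 := h.hi1 (x - 1)
          have h4 : (x, y0 + k - 1) ∈ E := by grind
          have h5 := gE_pos (E := E) (x := x - 1) (y := y0 + k - 1) (by rw [sub_add_cancel]; exact h4)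
          rw [h5, sub_add_cancel]
      · refine agr_of (n := (x, y - 1)) hm gA (nbD_S ⟨by omega, hs3⟩)
          (by rw [g0]; exact nbD_S ⟨hs2, hs⟩) ?_ ?_
        · have h1 := m' x (y - 1)
          have h2 := h.up x (y - 1)
          have h3 := h.up (x + 1) (y - 1)
          have h4 := h.pinch2 (x + 1) (y - 1)
          have h5 := h.left (x + 1) y
          have h6 := h.sub (x + 1) (y - 1)
          have h7 := hJ2 (y - 1)
          grind
        · intro hn
          refine gE_neg ?_
          have h1 := m' x (y - 1)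
          have h2 := h.up x (y - 1)
          have h3 := h.up (x + 1) (y - 1)
          have h4 := h.pinch2 (x + 1) (y - 1)
          have h5 := h.left (x + 1) y
          have h6 := h.left (x + 1) (y - 1)
          grind
  · -- a tile of `E`
    have g0 := gE_pos hE1
    have gA : gE E (x, y) ∈ A := by rw [g0]; exact h.sub _ _ hE1
    rcases Env664.z4 d with rfl | rfl | rfl | rfl
    · refine agr_of (n := (x + 1 - 1, y)) hm gA nbD_W (by rw [g0]; exact nbD_W) ?_ ?_
      · have h1 := m' (x - 1) y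
        have h2 := h.left (x + 1) y
        have h3 := h.gap (x + 1) y
        have h4 := hJ2 y
        have h5 := h.sub x y
        grind
      · intro hn
        have h1 := m' (x - 1) y
        have h2 := h.left (x + 1) y
        have h3 := h.gap (x + 1) y
        have h4 := hJ2 y
        have h5 := h.sub x y
        have h6 := gE_pos (E := E) (x := x - 1) (y := y)
        grind
    · have hs : ¬ (y = y0 - 1 ∧ p ≤ x + 1 ∧ x + 1 ≤ xr) := by
        rintro ⟨e1, e2, e3⟩
        have := h.low1 (x + 1) e2 e3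
        rw [← e1] at this
        exact this hE1
      by_cases hs2 : y = y0 + k - 1 ∧ p ≤ x ∧ x ≤ xr'
      · refine agr_of (n' := (x + 1, y0 + k)) (n := (x + 1, y + 1)) hm gA (nbD_N1 hs2)
          (by rw [g0]; exact nbD_N hs) ?_ ?_
        · have e : y + 1 = y0 + k := by omega
          rw [e]
          have h1 := m' (x + 1) (y0 + k)
          have h2 := h.hi (x + 1)
          have h3 := h.hir
          have h4 := h.gap (x + 2) (y0 + k)
          have h5 := h.hi x
          have h6 := h.hi (x + 2)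
          have h7 := h.sub (x + 1 + 1) (y0 + k)
          grind
        · intro hn
          have e : y + 1 = y0 + k := by omega
          rw [e]
          refine gE_neg ?_
          have h1 := m' (x + 1) (y0 + k)
          have h2 := h.hi (x + 1)
          have h3 := h.hir
          have h4 := h.gap (x + 2) (y0 + k)
          have h5 := h.hi x
          have h6 := h.hi (x + 2)
          have h7 := h.sub (x + 1 + 1) (y0 + k)
          grind
      · refine agr_of (n' := (x, y + 1)) (n := (x + 1, y + 1)) hm gA (nbD_N hs2)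
          (by rw [g0]; exact nbD_N hs) ?_ ?_
        · have h1 := m' x (y + 1)
          have h2 := h.up (x + 1) y
          have h3 := h.up x y
          have h4 := h.pinch2 (x + 1) y
          have h5 := h.left (x + 1) y
          have h6 := h.sub (x + 1) (y + 1)
          grind
        · intro hn
          refine gE_pos ?_
          have h1 := m' x (y + 1)
          have h2 := h.up (x + 1) y
          have h3 := h.up x y
          have h4 := h.pinch2 (x + 1) y
          have h5 := h.left (x + 1) y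
          have h6 := h.sub (x + 1) (y + 1)
          grind
    · refine agr_of (n := (x + 1 + 1, y)) hm gA nbD_E (by rw [g0]; exact nbD_E) ?_ ?_
      · have h1 := m' (x + 1) y
        have h2 := h.right (x + 1) y
        have h3 := h.sub (x + 1 + 1) y
        grind
      · intro hn
        have h1 := m' (x + 1) y
        refine gE_pos ?_
        grind
    · have hs : ¬ (y = y0 + k ∧ p ≤ x ∧ x ≤ xr') ∧ ¬ (y = y0 + k ∧ x = p) := by
        have h1 := h.hi (x + 1)
        have h2 := h.hir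
        have h3 := h.sub (x + 1) y
        grind
      have hs1 : ¬ (y = y0 ∧ x + 1 = p) := by
        have := h.colE y
        grind
      by_cases hs2 : y = y0 ∧ p < x + 1 ∧ x + 1 ≤ xr
      · refine agr_of (n' := (x, y - 1)) (n := (x + 1 - 1, y0 - 1)) hm gA (nbD_S hs)
          (by rw [g0]; exact nbD_S1 hs2) ?_ ?_
        · have h1 := m' x (y - 1)
          have h2 := h.low1 x
          have h3 := h.low1 (x + 1)
          grind
        · intro hn
          rw [add_sub_cancel_right, ← hs2.1]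
          refine gE_neg ?_
          have h3 := h.low1 (x + 1)
          grind
      · refine agr_of (n' := (x, y - 1)) (n := (x + 1, y - 1)) hm gA (nbD_S hs)
          (by rw [g0]; exact nbD_S ⟨by omega, hs1⟩) ?_ ?_
        · have h1 := m' x (y - 1)
          have h2 := h.down (x + 1) y
          have h3 := h.down x y
          have h4 := h.pinch1 (x + 1) y
          have h5 := h.left (x + 1) y
          have h6 := h.sub (x + 1) (y - 1)
          have h7 := h.lowr
          have h8 := h.sub (x + 1) y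
          clear m'
          grind
        · intro hn
          refine gE_pos ?_
          have h1 := m' x (y - 1)
          have h2 := h.down (x + 1) y
          have h3 := h.down x y
          have h4 := h.pinch1 (x + 1) y
          have h5 := h.left (x + 1) y
          have h6 := h.sub (x + 1) (y - 1)
          have h7 := h.lowr
          have h8 := h.sub (x + 1) y
          clear m'
          grind

/-- the box of the vertical displacement -/
structure BoxV (A : Finset P2) (p y0 k xr xr' : ℤ) (R : ℕ) : Prop where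
  box : Bxz A p y0 xr R
  kR : k + 1 ≤ R
  xr' : p + 1 < xr'

theorem Slab.inj (h : Slab A E A' p y0 k xr xr') : Set.InjOn (gE E) (A' : Set P2) := by
  rintro ⟨x, y⟩ h1 ⟨x', y'⟩ h2 he
  have m1 := (h.mem' x y).1 h1
  have m2 := (h.mem' x' y').1 h2
  unfold gE at he
  dsimp only at he
  by_cases e1 : (x + 1, y) ∈ E <;> by_cases e2 : (x' + 1, y') ∈ E
  · rw [if_pos e1, if_pos e2] at he
    simp only [Prod.mk.injEq] at he ⊢
    omega
  · rw [if_pos e1, if_neg e2] at he
    rw [he] at e1
    exact absurd e1 (m2.resolve_right e2).2.1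
  · rw [if_neg e1, if_pos e2] at he
    rw [← he] at e2
    exact absurd e2 (m1.resolve_right e1).2.1
  · rw [if_neg e1, if_neg e2] at he
    exact he

theorem Slab.cmp (h : Slab A E A' p y0 k xr xr') (hB : BoxV A p y0 k xr xr' R) :
    Cmp A A' p y0 xr (beD A' p (y0 + k) xr') (gE E) (Jv p y0 k) (Bv p y0 k) k.toNat R := by
  have kpos := h.kpos
  have kR := hB.kR
  have hR := hB.box.pos
  have hxr := hB.box.xr
  have hxr' := hB.xr'
  have hbox : ∀ x y, p - R ≤ x → x ≤ p + R → y0 - 1 - R ≤ y → y ≤ y0 - 1 + R → (x, y) ∈ A := by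
    intro x y h1 h2 h3 h4
    have := hB.box.mem (x - p, y - y0 + 1) (by simp only [Bx, Set.mem_ofPred_eq]; omega)
    unfold ch at this
    dsimp only at this
    rwa [show p + (x - p) = x by ring, show y0 - 1 + (y - y0 + 1) = y by ring] at this
  -- tiles of `A'` around the column
  have a1 : ∀ y, y0 ≤ y → y < y0 + k → (p, y) ∈ A' := fun y h1 h2 =>
    (h.mem' p y).2 (Or.inr (h.start y h1 h2))
  have o1 : ∀ y, y0 - 1 ≤ y → y ≤ y0 + k → (p - 1, y) ∈ A' ∧ (p, y) ∉ E := by
    intro y h1 h2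
    have e0 : (p, y) ∉ E := by
      by_cases h3 : y0 ≤ y ∧ y < y0 + k
      · exact h.colE y h3.1 h3.2
      · intro h4
        rcases (by omega : y = y0 - 1 ∨ y = y0 + k) with rfl | rfl
        · exact h.low1 p le_rfl (by omega) h4
        · exact (h.hi p le_rfl (by omega)).2 h4
    have e1 : (p - 1, y) ∉ E := by
      intro h4
      have := h.right (p - 1) y h4
      rw [sub_add_cancel] at this
      exact e0 (this (hbox p y (by omega) (by omega) (by omega) (by omega)))
    refine ⟨(h.mem' (p - 1) y).2 (Or.inl ⟨hbox _ _ (by omega) (by omega) (by omega) (by omega), e1,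
      by omega⟩), e0⟩
  have a2 : (p, y0 - 1) ∈ A' := by
    refine (h.mem' _ _).2 (Or.inl ⟨hbox _ _ (by omega) (by omega) (by omega) (by omega),
      (o1 _ (by omega) (by omega)).2, by omega⟩)
  have a3 : (p, y0 + k) ∈ A' := by
    refine (h.mem' _ _).2 (Or.inl ⟨hbox _ _ (by omega) (by omega) (by omega) (by omega),
      (o1 _ (by omega) (by omega)).2, by omega⟩)
  have a4 : (p + 1, y0 + k) ∈ A' := by
    have h1 := h.hi (p + 1) (by omega) (by omega)
    exact (h.mem' _ _).2 (Or.inl ⟨h1.1, h1.2, by omega⟩)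
  have hm : (xr' + 1, y0 + k) ∉ A' := by
    intro h1
    rcases (h.mem' _ _).1 h1 with h2 | h2
    · exact h.hir h2.1
    · have h3 := h.gap (xr' + 1 + 1) (y0 + k) h2
      rw [add_sub_cancel_right, show xr' + 1 + 1 - 2 = xr' by ring] at h3
      exact h3 h.hir (h.hi xr' (by omega) le_rfl).1
  have hinv := Env664.beD_invol (A := A') (p := p) (y0 := y0 + k) (xr := xr') (by omega) hm
  -- the glueings around the column
  have b3 : ∀ y, y0 ≤ y → y < y0 + k →
      beD A' p (y0 + k) xr' (some ((p, y), 3)) = some ((p, y - 1), 1) := by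
    intro y h1 h2
    refine be_of (portOf_some.2 (a1 y h1 h2)) (portOf_some.2 ?_) (nbD_S (by omega))
    by_cases h3 : y = y0
    · rw [h3]; exact a2
    · exact a1 _ (by omega) (by omega)
  have b3' : beD A' p (y0 + k) xr' (some ((p, y0 + k), 3)) = none :=
    be_of (portOf_some.2 a3) (portOf_none _) (nbD_Sleg ⟨rfl, rfl⟩)
  have ap : ∀ y, y0 ≤ y → y ≤ y0 + k → (p, y) ∈ A' := by
    intro y h1 h2
    by_cases h3 : y = y0 + k
    · rw [h3]; exact a3
    · exact a1 y h1 (by omega)
  have b2 : ∀ y, y0 ≤ y → y ≤ y0 + k →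
      beD A' p (y0 + k) xr' (some ((p - 1, y), 2)) = some ((p, y), 0) := by
    intro y h1 h2
    refine be_of (portOf_some.2 (o1 y (by omega) h2).1) (portOf_some.2 (ap y h1 h2)) ?_
    rw [nbD_E, sub_add_cancel]
  have b1 : ∀ y, y0 ≤ y → y ≤ y0 + k →
      beD A' p (y0 + k) xr' (some ((p - 1, y - 1), 1)) = some ((p - 1, y), 3) := by
    intro y h1 h2
    refine be_of (portOf_some.2 (o1 _ (by omega) (by omega)).1)
      (portOf_some.2 (o1 y (by omega) h2).1) ?_
    rw [nbD_N (by omega), sub_add_cancel]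
  have b0 : ∀ y, y0 ≤ y → y ≤ y0 + k →
      beD A' p (y0 + k) xr' (some ((p, y - 1), 0)) = some ((p - 1, y - 1), 2) := by
    intro y h1 h2
    have : (p, y - 1) ∈ A' := by
      by_cases h3 : y = y0
      · rw [h3]; exact a2
      · exact a1 _ (by omega) (by omega)
    exact be_of (portOf_some.2 this) (portOf_some.2 (o1 _ (by omega) (by omega)).1) nbD_W
  have b4 : beD A' p (y0 + k) xr' (some ((p + 1, y0 + k), 3)) = some ((p, y0 + k - 1), 1) := by
    refine be_of (portOf_some.2 a4) (portOf_some.2 (a1 _ (by omega) (by omega))) ?_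
    rw [nbD_S1 (by omega), add_sub_cancel_right]
  have b5 : beD A' p (y0 + k) xr' (some ((p, y0 + k), 2)) = some ((p + 1, y0 + k), 0) :=
    be_of (portOf_some.2 a3) (portOf_some.2 a4) nbD_E
  have b6 : beD A' p (y0 + k) xr' none = some ((p, y0 + k), 3) :=
    be_of (portOf_none _) (portOf_some.2 a3) nbD_leg
  refine ⟨hB.box, h.inj, by rw [b6]; simp, ?_, fun x hx hJ => h.agr (by omega) (by omega) x hx hJ,
    ?_, ?_, ?_⟩
  · -- near
    rintro ⟨x, y⟩ d hj ht
    simp only [Jv, Set.mem_ofPred_eq, reduceCtorEq, false_or, Option.some.injEq,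
      Prod.mk.injEq] at hj
    rcases hj with ⟨⟨rfl, rfl⟩, rfl⟩ | ⟨y', h1, h2, ⟨⟨rfl, rfl⟩, rfl⟩ | ⟨⟨rfl, rfl⟩, rfl⟩⟩
    · refine ⟨(0, k + 1), by simp only [Bx, Set.mem_ofPred_eq]; omega, ?_, ?_⟩
      · rw [gE_neg (h.hi (x + 1) (by omega) (by omega)).2]
        unfold ch; simp only [Prod.mk.injEq, true_and, and_true]; omega
      · unfold Near; simp only [pd3, eS]; omega
    · refine ⟨(-1, y - y0 + 1), by simp only [Bx, Set.mem_ofPred_eq]; omega, ?_, ?_⟩
      · rw [gE_neg (by rw [sub_add_cancel]; exact (o1 y (by omega) (by omega)).2)]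
        unfold ch; simp only [Prod.mk.injEq, true_and, and_true]; omega
      · unfold Near; simp only [pd2, eE]; omega
    · refine ⟨(1, y - y0 + 1), by simp only [Bx, Set.mem_ofPred_eq]; omega, ?_, ?_⟩
      · rw [gE_pos (h.start y h1 h2)]
        unfold ch; simp only [Prod.mk.injEq, true_and, and_true]; omega
      · unfold Near; simp only [pd0, eW]; omega
  · -- badJ
    rintro x ⟨⟨x1, y1⟩, -, d, rfl⟩ hj
    simp only [Jv, Set.mem_ofPred_eq, reduceCtorEq, false_or, Option.some.injEq,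
      Prod.mk.injEq, Xr249.rot_some] at hj
    have hd : ∀ c : ZMod 4, d + 1 = c → d = c - 1 := fun c h => by rw [← h]; ring
    simp only [Bv, Set.mem_ofPred_eq, reduceCtorEq, false_or, Option.some.injEq, Prod.mk.injEq]
    rcases hj with ⟨⟨rfl, rfl⟩, h0⟩ | ⟨y', h1, h2, ⟨⟨rfl, rfl⟩, h0⟩ | ⟨⟨rfl, rfl⟩, h0⟩⟩
    · right; left
      exact ⟨⟨rfl, rfl⟩, hd _ h0⟩
    · right; right
      refine ⟨y1 + 1, by omega, by omega, Or.inr (Or.inr (Or.inl ⟨⟨rfl, by ring⟩, hd _ h0⟩))⟩
    · right; right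
      exact ⟨y1, by omega, by omega, Or.inl ⟨⟨rfl, rfl⟩, hd _ h0⟩⟩
  · -- back
    rintro x ⟨⟨x1, y1⟩, -, d, rfl⟩ hj
    have hd : ∀ c : ZMod 4, d + 1 = c → d = c - 1 := fun c h => by rw [← h]; ring
    have hq : ∀ q, beD A' p (y0 + k) xr' (Xr249.rot (some ((x1, y1), d))) = q →
        beD A' p (y0 + k) xr' q = some ((x1, y1), d + 1) := by
      rintro q rfl
      rw [hinv]; rfl
    simp only [Bv, Set.mem_ofPred_eq] at hj
    simp only [Bv, Set.mem_ofPred_eq, reduceCtorEq, false_or, Option.some.injEq, Prod.mk.injEq]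
    rcases hj with hj | hj | hj | ⟨y, h1, h2, hj | hj | hj | hj⟩
    · have h0 := hq _ hj
      rw [b6] at h0
      simp only [Option.some.injEq, Prod.mk.injEq] at h0
      obtain ⟨⟨rfl, rfl⟩, h0⟩ := h0
      right; left
      exact ⟨⟨rfl, rfl⟩, hd _ h0.symm⟩
    · have h0 := hq _ hj
      rw [b4] at h0
      simp only [Option.some.injEq, Prod.mk.injEq] at h0
      obtain ⟨⟨rfl, rfl⟩, h0⟩ := h0
      right; right
      exact ⟨y0 + k, by omega, le_rfl, Or.inr (Or.inr (Or.inr ⟨⟨rfl, rfl⟩, hd _ h0.symm⟩))⟩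
    · have h0 := hq _ hj
      rw [b5] at h0
      simp only [Option.some.injEq, Prod.mk.injEq] at h0
      obtain ⟨⟨rfl, rfl⟩, h0⟩ := h0
      left
      exact ⟨⟨rfl, rfl⟩, hd _ h0.symm⟩
    · have h0 := hq _ hj
      by_cases hy : y = y0 + k
      · rw [hy, b3'] at h0
        simp at h0
      · rw [b3 y h1 (by omega)] at h0
        simp only [Option.some.injEq, Prod.mk.injEq] at h0
        obtain ⟨⟨rfl, rfl⟩, h0⟩ := h0
        right; right
        exact ⟨y, h1, h2, Or.inr (Or.inr (Or.inr ⟨⟨rfl, rfl⟩, hd _ h0.symm⟩))⟩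
    · have h0 := hq _ hj
      rw [b2 y h1 h2] at h0
      simp only [Option.some.injEq, Prod.mk.injEq] at h0
      obtain ⟨⟨rfl, rfl⟩, h0⟩ := h0
      right; right
      exact ⟨y, h1, h2, Or.inl ⟨⟨rfl, rfl⟩, hd _ h0.symm⟩⟩
    · have h0 := hq _ hj
      rw [b1 y h1 h2] at h0
      simp only [Option.some.injEq, Prod.mk.injEq] at h0
      obtain ⟨⟨rfl, rfl⟩, h0⟩ := h0
      right; right
      exact ⟨y, h1, h2, Or.inr (Or.inl ⟨⟨rfl, rfl⟩, hd _ h0.symm⟩)⟩
    · have h0 := hq _ hj
      rw [b0 y h1 h2] at h0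
      simp only [Option.some.injEq, Prod.mk.injEq] at h0
      obtain ⟨⟨rfl, rfl⟩, h0⟩ := h0
      right; right
      exact ⟨y, h1, h2, Or.inr (Or.inr (Or.inl ⟨⟨rfl, rfl⟩, hd _ h0.symm⟩))⟩
  · -- free
    intro x _ hx hj
    simp only [Bv, Set.mem_ofPred_eq] at hj
    rcases hj with rfl | rfl | rfl | ⟨y, h1, h2, rfl | rfl | rfl | rfl⟩
    · rw [b6] at hx; simp at hx
    · rw [b4] at hx
      simp only [Option.some.injEq, Prod.mk.injEq] at hx
      omega
    · rw [b5] at hx
      simp only [Option.some.injEq, Prod.mk.injEq] at hx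
      omega
    · by_cases hy : y = y0 + k
      · rw [hy, b3'] at hx; simp at hx
      · rw [b3 y h1 (by omega)] at hx
        simp only [Option.some.injEq, Prod.mk.injEq] at hx
        omega
    · rw [b2 y h1 h2] at hx
      simp only [Option.some.injEq, Prod.mk.injEq] at hx
      omega
    · rw [b1 y h1 h2] at hx
      simp only [Option.some.injEq, Prod.mk.injEq] at hx
      omega
    · rw [b0 y h1 h2] at hx
      simp only [Option.some.injEq, Prod.mk.injEq] at hx
      omega

/-- **Vertical displacement of `z`**: `z = (p, y0)` in `A` against `z' = (p, y0 + k)` in `A'`. -/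
theorem dr_vert : ∃ C a : ℝ, 0 < C ∧ 0 < a ∧ ∀ {A E A' : Finset P2} {p y0 k xr xr' : ℤ} {R : ℕ}
    {w w' : Wd P2}, Slab A E A' p y0 k xr xr' → BoxV A p y0 k xr xr' R →
    GW A (beD A p y0 xr) w → GW A' (beD A' p (y0 + k) xr') w' →
    ∀ {m1 m2 m3 : Port P2}, m1 ∈ Sw300.L w' → m2 ∈ Sw300.L w' → m3 ∈ Sw300.L w' → m1 ≠ m2 →
      m1 ≠ m3 → m2 ≠ m3 → fp (gE E) m1 ∈ Sw300.L w →
      ‖HW w (fp (gE E) m1) (fp (gE E) m2) (fp (gE E) m3) - HW w' m1 m2 m3‖ ≤
        C * ((k : ℝ) / R) ^ a := by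
  obtain ⟨C, a, hC, ha, h⟩ := dr_core_le
  refine ⟨C, a, hC, ha, ?_⟩
  intro A E A' p y0 k xr xr' R w w' hS hB hw hw' m1 m2 m3 h1 h2 h3 h12 h13 h23 h1'
  have hk := hS.kpos
  have := h (by omega) (hS.cmp hB) hw hw' h1 h2 h3 h12 h13 h23 h1'
  have e : ((k.toNat : ℕ) : ℝ) = (k : ℝ) := by
    exact_mod_cast congrArg (Int.cast (R := ℝ)) (Int.toNat_of_nonneg hk.le)
  rw [e] at this
  exact this


/-! ### a rectangle: both positions in the same run -/

/-- the tiles to the right of the column -/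
def slabE (p y0 k xr : ℤ) : Finset P2 := Finset.Icc (p + 1) xr ×ˢ Finset.Ico y0 (y0 + k)

/-- `A` without the last tiles of the rows `y0 ≤ y < y0 + k` -/
def notch (A : Finset P2) (xr y0 k : ℤ) : Finset P2 :=
  A.filter fun t => ¬ (t.1 = xr ∧ y0 ≤ t.2 ∧ t.2 < y0 + k)

theorem mem_slabE {x y : ℤ} : (x, y) ∈ slabE p y0 k xr ↔
    (p < x ∧ x ≤ xr) ∧ (y0 ≤ y ∧ y < y0 + k) := by
  unfold slabE
  rw [Finset.mem_product, Finset.mem_Icc, Finset.mem_Ico]
  constructor <;> rintro ⟨⟨h1, h2⟩, h3⟩ <;> exact ⟨⟨by omega, h2⟩, h3⟩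

theorem mem_notch {x y : ℤ} : (x, y) ∈ notch A xr y0 k ↔
    (x, y) ∈ A ∧ ¬ (x = xr ∧ y0 ≤ y ∧ y < y0 + k) := by
  unfold notch
  rw [Finset.mem_filter]


end slab

end Crest.Agent.R158.Dr945
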