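import Crest.Agent.R158.Vx5_107
import Crest.Agent.R158.Hd1_109
import Crest.Agent.R158.Wf2_850
import Crest.Agent.R158.Lc4_522
import Crest.Agent.R158.Cpl5_963
import Crest.Agent.R158.Rs10_689
import Crest.Agent.R158.Bk11_430
import Crest.Agent.R158.Vg1_109

-- ▼ part R158/Fd1_61
section

/-!
# Row 158, leaf D of doc 1912 (helper61), part 1: the charges `m_g = (2π/3)(w - δ_g)`

* `cu U u` : the charge `u` on `U`;  `mg U u g = aa • (cu U u - δ_g)`, `aa = 2π/3`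
* `RD C κ r0 r1 U u` : a density at level `κ` supported in `r0 + 2^κ ≤ sd 0 · ≤ r1`
* `gu_pos`, `gu_neg` : deterministic bounds of the products over any set of loops containing the
  small loops which meet `U`
-/

set_option autoImplicit false

noncomputable section

namespace Crest.Agent.R158.Fd61

open Crest.Agent.R161.Geo729 Crest.Agent.R161.Dual374
open Crest.Agent.R161.Tas682 (sd)
open Crest.Agent.R158.It200 hiding hf
open Crest.Agent.R158.Wf850 Crest.Agent.R158.Vx107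
open Crest.Agent.R158.Cn109 (lsW smalls mem_smalls SS QQ SS_eq tot tot_eq VV)
open Crest.Agent.R158.Hd109 (Dens)
open Crest.Agent.R158.Lc522 (exp_loops)
open Crest.Agent.R158.Rs689 (nu)
open Function Real

/-- `2π/3` -/
def aa : ℝ := 2 * π / 3

theorem aa_pos : 0 < aa := by unfold aa; positivity

theorem Fw_neg_aa : Fw (-aa) = 1 := by
  unfold Fw aa
  rw [show π / 3 + -(2 * π / 3) = -(π / 3) by ring, cos_neg, cos_pi_div_three]
  norm_num


theorem Fw_eq_ff (x : ℝ) : Fw x = We297.ff x := rfl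

/-- the charge `u` on `U` -/
def cu (U : Finset Face) (u : Face → ℝ) : Face →₀ ℝ := ∑ f ∈ U, Finsupp.single f (u f)

/-- the charge of the leaf D -/
def mg (U : Finset Face) (u : Face → ℝ) (g : Face) : Face →₀ ℝ :=
  aa • (cu U u - Finsupp.single g 1)

theorem cu_apply (U : Finset Face) (u : Face → ℝ) (f : Face) [Decidable (f ∈ U)] :
    cu U u f = if f ∈ U then u f else 0 := by
  classical
  unfold cu
  rw [Finsupp.finsetSum_apply]
  simp only [Finsupp.single_apply]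
  rw [Finset.sum_ite_eq' U f]
  congr

theorem mass_cu (U : Finset Face) (u : Face → ℝ) (A : Finset Face) :
    Vx107.mass (cu U u) A = Cn109.mass u U A := by
  classical
  unfold Vx107.mass Cn109.mass
  rw [Finset.sum_filter]
  simp only [cu_apply]
  rw [← Finset.sum_filter, ← Finset.sum_filter]
  refine Finset.sum_congr ?_ fun _ _ => rfl
  ext f
  simp [and_comm]

theorem tot_cu (U : Finset Face) (u : Face → ℝ) : Vx107.tot (cu U u) = ∑ f ∈ U, u f := by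
  classical
  unfold cu
  induction U using Finset.induction_on with
  | empty => simp [Vx107.tot]
  | insert a s ha ih =>
      rw [Finset.sum_insert ha, Finset.sum_insert ha, tot_add, ih, tot_single]

theorem mass_mg (U : Finset Face) (u : Face → ℝ) (g : Face) (A : Finset Face)
    [Decidable (g ∈ A)] :
    Vx107.mass (mg U u g) A = aa * (Cn109.mass u U A - if g ∈ A then 1 else 0) := by
  unfold mg
  rw [mass_smul, mass_sub, mass_cu, mass_single]


theorem ntr_mg {U : Finset Face} {u : Face → ℝ} (h : ∑ f ∈ U, u f = 1) (g : Face) :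
    Ntr (mg U u g) := by
  unfold mg
  refine Ntr.smul _ ?_
  unfold Ntr
  rw [tot_sub, tot_cu, tot_single, h, sub_self]

/-- product of the weights over a set of loops -/
def PW (S : Set (Finset Face)) (m : Face →₀ ℝ) : ℝ := ∏ᶠ A ∈ S, Fw (Vx107.mass m A)

theorem W_eq_PW (m : Face →₀ ℝ) (z : Cfz) : W m z = PW (Lps z) m := rfl


/-- density at level `κ` in an annulus -/
structure RD (C : ℝ) (κ : ℕ) (r0 r1 : ℤ) (U : Finset Face) (u : Face → ℝ) : Prop
    extends Dens C κ U u where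
  inn : ∀ f ∈ U, r0 + 2 ^ κ ≤ sd (0, 0) f.1
  out : ∀ f ∈ U, sd (0, 0) f.1 ≤ r1

/-- the big loops that split `BF 0 r1` -/
def TT (κ : ℕ) (r1 : ℤ) (z : Cfz) : Set (Finset Face) :=
  {A | A ∈ Lps z ∧ Splits A (BF (0, 0) r1) ∧ 2 ^ κ ≤ dia A + 1}

theorem TT_fin (κ : ℕ) (r1 : ℤ) (z : Cfz) : (TT κ r1 z).Finite :=
  (fin_split z (0, 0) r1).subset fun _ h => ⟨h.1, h.2.1⟩

section
variable {C : ℝ} {κ : ℕ} {r0 r1 : ℤ} {U : Finset Face} {u : Face → ℝ} {z : Cfz}




theorem wm_zero {A : Finset Face} (h : ∀ f ∈ U, f ∉ A) : Cn109.mass u U A = 0 := by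
  classical
  unfold Cn109.mass
  rw [Finset.filter_eq_empty_iff.2 (fun {f} hf => h f hf), Finset.sum_empty]

theorem wm_one (h : RD C κ r0 r1 U u) {A : Finset Face} (hA : ∀ f ∈ U, f ∈ A) :
    Cn109.mass u U A = 1 := by
  classical
  unfold Cn109.mass
  rw [Finset.filter_true_of_mem hA, h.sum]

/-- a small loop that meets `U` misses `BF 0 r0` -/
theorem small_off (h : RD C κ r0 r1 U u) {A : Finset Face} (hA : A ∈ smalls lsW U κ z)
    {g : Face} (hg : sd (0, 0) g.1 ≤ r0) : g ∉ A := by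
  intro hgA
  rw [mem_smalls] at hA
  obtain ⟨_, ⟨f, hf, hfA⟩, h3⟩ := hA
  have h3 : Cn109.dia A + 1 < 2 ^ κ := h3
  rw [Cn109.dia_eq] at h3
  have h4 := sd_le_dia hgA hfA
  have h5 := sd_tri (0, 0) g.1 f.1
  have h6 := h.inn f hf
  have h7 : ((dia A : ℕ) : ℤ) + 1 < 2 ^ κ := by exact_mod_cast h3
  linarith

/-- trichotomy of the loops -/
theorem tri (h : RD C κ r0 r1 U u) (h0 : r0 ≤ r1) {A : Finset Face} (hA : A ∈ Lps z)
    (h1 : A ∉ smalls lsW U κ z) (h2 : A ∉ TT κ r1 z) :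
    Cn109.mass u U A = 0 ∨ (Cn109.mass u U A = 1 ∧ ∀ g : Face, sd (0, 0) g.1 ≤ r0 → g ∈ A) := by
  by_cases hU : ∃ f ∈ U, f ∈ A
  · right
    obtain ⟨f, hf, hfA⟩ := hU
    have h3 : 2 ^ κ ≤ dia A + 1 := by
      by_contra hcon
      apply h1
      rw [mem_smalls]
      refine ⟨hA, ⟨f, hf, hfA⟩, ?_⟩
      show Cn109.dia A + 1 < 2 ^ κ
      rw [Cn109.dia_eq]
      omega
    have h4 : ∀ g ∈ BF (0, 0) r1, g ∈ A := by
      by_contra hcon
      push Not at hcon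
      obtain ⟨g, hg, hgA⟩ := hcon
      exact h2 ⟨hA, ⟨⟨f, mem_BF.2 (h.out f hf), hfA⟩, g, hg, hgA⟩, h3⟩
    exact ⟨wm_one h fun f hf => h4 f (mem_BF.2 (h.out f hf)), fun g hg =>
      h4 g (mem_BF.2 (hg.trans h0))⟩
  · left
    push Not at hU
    exact wm_zero hU

theorem wt_pos (h : RD C κ r0 r1 U u) (h0 : r0 ≤ r1) {g : Face} (hg : sd (0, 0) g.1 ≤ r0)
    {A : Finset Face} (hA : A ∈ Lps z) (h1 : A ∉ smalls lsW U κ z) (h2 : A ∉ TT κ r1 z) :
    Fw (Vx107.mass (mg U u g) A) = 1 := by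
  classical
  rw [mass_mg]
  rcases tri h h0 hA h1 h2 with h3 | ⟨h3, h4⟩
  · rw [h3]
    split_ifs
    · rw [zero_sub, mul_neg, mul_one, Fw_neg_aa]
    · rw [sub_zero, mul_zero, Fw_zero]
  · rw [h3, if_pos (h4 g hg), sub_self, mul_zero, Fw_zero]

theorem abs_small (h : RD C κ r0 r1 U u) {g : Face} (hg : sd (0, 0) g.1 ≤ r0)
    {A : Finset Face} (h1 : A ∈ smalls lsW U κ z) :
    |Fw (Vx107.mass (mg U u g) A)| ≤
      exp (-(√3 * aa * Cn109.mass u U A) + 12 * aa ^ 2 * Cn109.mass u U A ^ 2) := by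
  classical
  rw [mass_mg, if_neg (small_off h h1 hg), sub_zero, Fw_eq_ff]
  refine (ff_abs_le _).trans (le_of_eq ?_)
  congr 1
  ring


theorem QQ_eq (U : Finset Face) (u : Face → ℝ) (κ : ℕ) (z : Cfz) :
    QQ lsW u U κ z = ∑ A ∈ smalls lsW U κ z, Cn109.mass u U A ^ 2 := rfl

/-- generic product bound -/
theorem prod_bound {S : Set (Finset Face)} {m : Face →₀ ℝ} {s : Finset (Finset Face)}
    {T : Set (Finset Face)} (hT : T.Finite) (hs : ∀ A ∈ s, A ∈ S) {b : Finset Face → ℝ}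
    (h1 : ∀ A ∈ s, |Fw (Vx107.mass m A)| ≤ exp (b A))
    (h2 : ∀ A ∈ S, A ∉ s → A ∉ T → Fw (Vx107.mass m A) = 1) :
    |PW S m| ≤ exp (∑ A ∈ s, b A) * 2 ^ T.ncard := by
  classical
  set t : Finset (Finset Face) := hT.toFinset.filter (fun A => A ∈ S ∧ A ∉ s) with ht
  have hd : Disjoint s t := by
    rw [Finset.disjoint_left]
    intro A hA hA'
    rw [ht, Finset.mem_filter] at hA'
    exact hA'.2.2 hA
  have e : PW S m = ∏ A ∈ s ∪ t, Fw (Vx107.mass m A) := by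
    unfold PW
    refine finprod_mem_eq_prod_of_inter_mulSupport_eq _ ?_
    ext A
    simp only [Set.mem_inter_iff, mem_mulSupport, Finset.coe_union, Set.mem_union, Finset.mem_coe]
    constructor
    · rintro ⟨h3, h4⟩
      refine ⟨?_, h4⟩
      by_cases h5 : A ∈ s
      · exact Or.inl h5
      · right
        rw [ht, Finset.mem_filter]
        refine ⟨?_, h3, h5⟩
        rw [Set.Finite.mem_toFinset]
        by_contra h6
        exact h4 (h2 A h3 h5 h6)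
    · rintro ⟨h3 | h3, h4⟩
      · exact ⟨hs A h3, h4⟩
      · rw [ht, Finset.mem_filter] at h3
        exact ⟨h3.2.1, h4⟩
  rw [e, Finset.prod_union hd, abs_mul, Finset.abs_prod, Finset.abs_prod, Real.exp_sum]
  refine mul_le_mul (Finset.prod_le_prod (fun _ _ => abs_nonneg _) h1) ?_
    (Finset.prod_nonneg fun _ _ => abs_nonneg _) (Finset.prod_nonneg fun _ _ => (exp_pos _).le)
  calc ∏ A ∈ t, |Fw (Vx107.mass m A)| ≤ ∏ _A ∈ t, (2 : ℝ) :=
        Finset.prod_le_prod (fun _ _ => abs_nonneg _) fun A _ => abs_Fw_le _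
    _ = 2 ^ t.card := by rw [Finset.prod_const]
    _ ≤ 2 ^ T.ncard := by
        refine pow_le_pow_right₀ (by norm_num) ?_
        rw [Set.ncard_eq_toFinset_card T hT]
        exact Finset.card_le_card (Finset.filter_subset _ _)

/-- **upper bound, positive charges** -/
theorem gu_pos (h : RD C κ r0 r1 U u) (h0 : r0 ≤ r1) {g : Face} (hg : sd (0, 0) g.1 ≤ r0)
    {S : Set (Finset Face)} (hS : S ⊆ Lps z) (hsm : ∀ A ∈ smalls lsW U κ z, A ∈ S) :
    |PW S (mg U u g)| ≤ exp (-(√3 * aa * SS lsW u U κ z) + 12 * aa ^ 2 * QQ lsW u U κ z) *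
      2 ^ (TT κ r1 z).ncard := by
  refine (prod_bound (TT_fin κ r1 z) hsm (fun A hA => abs_small h hg hA)
    fun A hA h1 h2 => wt_pos h h0 hg (hS hA) h1 h2).trans (le_of_eq ?_)
  congr 2
  rw [SS_eq, QQ_eq, Finset.sum_add_distrib, Finset.sum_neg_distrib, Finset.mul_sum,
    Finset.mul_sum]

/-- the loops around `g` of diameter below `2 ^ κ` -/
def Ar (κ : ℕ) (g : Face) (z : Cfz) : Set (Finset Face) := {A ∈ Lps z | g ∈ A ∧ dia A + 1 < 2 ^ κ}



end

end Crest.Agent.R158.Fd61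
end
namespace Crest.Agent.R158.Fd61.RD
end Crest.Agent.R158.Fd61.RD
end

-- ▼ part R158/Fd2_61
section

/-!
# Row 158, leaf D of doc 1912 (helper61), part 2: majorants with all moments, truncation

* `TT_maj` : local majorant of the number of big loops which split `BF 0 r1`
* `maj`    : `exp (√3 aa |SS - VV κ| + 12 aa² QQ) 2 ^ #TT ≤ Y`, `∫ Y ^ q ≤ G`, `Y` local
* `tr_pt`, `tr_int` : truncation
-/

set_option autoImplicit false

noncomputable section

namespace Crest.Agent.R158.Fd61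

open Crest.Agent.R161.Geo729 Crest.Agent.R161.Dual374
open Crest.Agent.R161.Tas682 (sd)
open Crest.Agent.R158.It200 hiding hf
open Crest.Agent.R158.Wf850 Crest.Agent.R158.Vx107
open Crest.Agent.R158.Cn109 (lsW smalls mem_smalls SS QQ SS_eq tot tot_eq VV DepF SS_dep QQ_dep)
open Crest.Agent.R158.Hd109 (Dens)
open Crest.Agent.R158.Lc522 (exp_loops ncard_le_of_finset exists_far)
open Crest.Agent.R158.Em522 (starE)
open Crest.Agent.R158.Rs689 (nu)
open Function Real MeasureTheory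

local notation "μh" => nu Crest.Agent.R158.Rs689.hf

/-- corner of a loop -/
theorem corner_of {z : Cfz} {A : Finset Face} (hA : A ∈ Lps z) {c : Corner} (hc : sepC A c) :
    (Lp z c).Finite ∧ ∀ f, f ∈ A ↔ ht z c f ≠ 0 := by
  obtain ⟨c0, h0, hA0⟩ := hA
  have h1 : c ∈ Lp z c0 := (sep_iff h0 hA0 c).1 hc
  have h2 : (Lp z c).Finite := by rw [Lp_eq h1]; exact h0
  refine ⟨h2, ?_⟩
  obtain ⟨B, hB, hB'⟩ := exists_int h2
  have h3 : sepC B c := (sep_iff h2 hB' c).2 (mem_Lp_self _ _)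
  have h4 : A = B := sep_uniq ⟨c0, h0, hA0⟩ hB hc h3
  rw [h4]
  exact hB'

theorem mem_Lp_iff_sep {z : Cfz} {A : Finset Face} (hA : A ∈ Lps z) {c : Corner} (hc : sepC A c)
    (d : Corner) : sepC A d ↔ d ∈ Lp z c := by
  obtain ⟨h1, h2⟩ := corner_of hA hc
  exact sep_iff h1 h2 d

theorem far_of_dia {z : Cfz} {A : Finset Face} (hA : A ∈ Lps z) {c : Corner} (hc : sepC A c)
    {n : ℕ} (hn : n ≤ dia A) :
    ∃ d ∈ Lp z c, ∃ d' ∈ Lp z c, (n : ℤ) ≤ sd d.1 d'.1 := by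
  obtain ⟨h1, h2⟩ := corner_of hA hc
  have hne : A.Nonempty := by
    by_contra h
    rw [Finset.not_nonempty_iff_eq_empty] at h
    subst h
    exact hc (by simp)
  rcases Nat.eq_zero_or_pos n with h0 | h0
  · subst h0
    exact ⟨c, mem_Lp_self _ _, c, mem_Lp_self _ _, sd_nonneg' _ _⟩
  obtain ⟨v, hv, w, hw, h3⟩ := Cn109.exists_dia hne
  rw [Cn109.dia_eq] at h3
  have h4 : (dia A : ℤ) ≤ sd v.1 w.1 := by
    rcases h3 with h3 | h3
    · exact h3
    · omega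
  have hin : ∀ f ∈ A, f ∈ Lc522.inn z c := by
    intro f hf
    show Lc522.Ht (JL z c) f ≠ 0
    rw [Lc522.ht_eq]
    exact (h2 f).1 hf
  obtain ⟨d, hd, d', hd', h5⟩ := exists_far h1 (hin v hv) (hin w hw)
  exact ⟨d, hd, d', hd', by omega⟩

/-- local majorant of `TT` -/
theorem TT_maj (a : ℝ) (ha : 1 ≤ a) (J : ℕ) : ∃ G : ℝ, 1 ≤ G ∧ ∀ (κ : ℕ) (r1 : ℤ), 1 ≤ κ →
    r1 ≤ J * 2 ^ κ → ∃ K : Cfz → ℕ, (∃ S : Finset Edge, DepF S K) ∧ ∫ z, a ^ K z ∂μh ≤ G ∧
      ∀ z, (TT κ r1 z).ncard ≤ K z := by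
  classical
  obtain ⟨G, hG, h⟩ := exp_loops a ha (2 * J)
  refine ⟨G, hG, fun κ r1 hκ hr => ?_⟩
  obtain ⟨K, h1, h2, h3⟩ := h (0, 0) (2 ^ (κ - 1)) Nat.one_le_two_pow
  refine ⟨K, ⟨starE (0, 0) ((2 * J + 1) * 2 ^ (κ - 1)), fun z z' hz => h1 z z' hz⟩, h2,
    fun z => ?_⟩
  refine (ncard_le_of_finset fun s hs => ?_).2
  have e1 : ∀ A : s, ∃ c : Corner, cv c ∈ BF (0, 0) r1 ∧ sepC A.1 c := fun A => by
    obtain ⟨c, hc1, -, hc2⟩ := exists_sep (hs A.1 A.2).2.1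
    exact ⟨c, hc1, hc2⟩
  choose φ hφ1 hφ2 using e1
  have e2 : 2 * 2 ^ (κ - 1) = 2 ^ κ := by
    rw [← pow_succ']
    congr 1
    omega
  have h4 := h3 z s.card (fun i => φ (s.equivFin.symm i))
    (fun i => (corner_of (hs _ (s.equivFin.symm i).2).1 (hφ2 _)).1) ?_ ?_ ?_
  · exact h4
  · intro i j hij hmem
    apply hij
    have h5 : sepC (s.equivFin.symm i).1 (φ (s.equivFin.symm j)) :=
      (mem_Lp_iff_sep (hs _ (s.equivFin.symm i).2).1 (hφ2 _) _).2 hmem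
    have h6 := sep_uniq (hs _ (s.equivFin.symm i).2).1 (hs _ (s.equivFin.symm j).2).1 h5 (hφ2 _)
    exact s.equivFin.symm.injective (Subtype.ext h6)
  · intro i
    have h5 := hφ1 (s.equivFin.symm i)
    rw [mem_BF] at h5
    refine le_trans h5 (hr.trans (le_of_eq ?_))
    push_cast
    have e3 : (2 : ℤ) * 2 ^ (κ - 1) = 2 ^ κ := by exact_mod_cast e2
    rw [← e3]; ring
  · intro i
    refine far_of_dia (hs _ (s.equivFin.symm i).2).1 (hφ2 _) ?_
    have h5 := (hs _ (s.equivFin.symm i).2).2.2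
    have h6 : 1 ≤ 2 ^ (κ - 1) := Nat.one_le_two_pow
    omega

theorem three_le {x y w : ℝ} (hx : 0 ≤ x) (hy : 0 ≤ y) (hw : 0 ≤ w) :
    x * y * w ≤ x ^ 3 + y ^ 3 + w ^ 3 := by
  rcases le_total x y with h1 | h1
  · rcases le_total y w with h2 | h2
    · have : x * y * w ≤ w * w * w := by gcongr; exact h1.trans h2
      nlinarith [pow_nonneg hx 3, pow_nonneg hy 3]
    · have : x * y * w ≤ y * y * y := by gcongr
      nlinarith [pow_nonneg hx 3, pow_nonneg hw 3]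
  · rcases le_total x w with h2 | h2
    · have : x * y * w ≤ w * w * w := by gcongr; exact h1.trans h2
      nlinarith [pow_nonneg hx 3, pow_nonneg hy 3]
    · have : x * y * w ≤ x * x * x := by gcongr
      nlinarith [pow_nonneg hy 3, pow_nonneg hw 3]

/-- **majorant** -/
theorem maj {C : ℝ} (hC : 0 ≤ C) (J q : ℕ) : ∃ G : ℝ, 1 ≤ G ∧ ∀ (κ : ℕ) (r1 : ℤ) (U : Finset Face)
    (u : Face → ℝ), 1 ≤ κ → r1 ≤ J * 2 ^ κ → Dens C κ U u →
    ∃ Y : Cfz → ℝ, (∃ S : Finset Edge, DepF S Y) ∧ (∀ z, 1 ≤ Y z) ∧ ∫ z, Y z ^ q ∂μh ≤ G ∧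
      ∀ z, exp (√3 * aa * |SS lsW u U κ z - VV κ| + 12 * aa ^ 2 * QQ lsW u U κ z) *
        2 ^ (TT κ r1 z).ncard ≤ Y z := by
  classical
  obtain ⟨G1, hG1, h1⟩ := Cn109.stat_moments hC (3 * q * (√3 * aa))
  obtain ⟨G2, hG2, h2⟩ := Cn109.stat_moments hC (3 * q * (12 * aa ^ 2))
  obtain ⟨G3, hG3, h3⟩ := TT_maj ((2 ^ q) ^ 3) (one_le_pow₀ (one_le_pow₀ (by norm_num))) J
  have hap := aa_pos
  have t1 : |3 * (q : ℝ) * (√3 * aa)| = 3 * q * (√3 * aa) := abs_of_nonneg (by positivity)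
  have t2 : |3 * (q : ℝ) * (12 * aa ^ 2)| = 3 * q * (12 * aa ^ 2) := abs_of_nonneg (by positivity)
  rw [t1] at h1
  rw [t2] at h2
  refine ⟨G1 + G2 + G3, by linarith, fun κ r1 U u hκ hr hD => ?_⟩
  obtain ⟨K, ⟨S, hS⟩, hK1, hK2⟩ := h3 κ r1 hκ hr
  obtain ⟨a1, -⟩ := h1 κ U u hD.nn hD.sum hD.le
  obtain ⟨-, a2⟩ := h2 κ U u hD.nn hD.sum hD.le
  have dS := SS_dep lsW u U κ
  have dQ := QQ_dep lsW u U κ
  set T0 := U.biUnion fun v => (Finset.range κ).biUnion fun k => Cn109.Sup lsW k v with hT0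
  have dS' : DepF (T0 ∪ S) (SS lsW u U κ) := dS.mono Finset.subset_union_left
  have dQ' : DepF (T0 ∪ S) (QQ lsW u U κ) := dQ.mono Finset.subset_union_left
  have dK' : DepF (T0 ∪ S) K := hS.mono Finset.subset_union_right
  have dX : DepF (T0 ∪ S) (fun z => exp (√3 * aa * |SS lsW u U κ z - VV κ| +
      12 * aa ^ 2 * QQ lsW u U κ z)) :=
    dS'.comp₂ dQ' fun s q => exp (√3 * aa * |s - VV κ| + 12 * aa ^ 2 * q)
  have dP : DepF (T0 ∪ S) (fun z => (2 : ℝ) ^ K z) := dK'.comp fun k => (2 : ℝ) ^ k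
  refine ⟨fun z => exp (√3 * aa * |SS lsW u U κ z - VV κ| + 12 * aa ^ 2 * QQ lsW u U κ z) *
    2 ^ K z, ⟨T0 ∪ S, dX.mul dP⟩, fun z => ?_, ?_, fun z => ?_⟩
  · refine one_le_mul_of_one_le_of_one_le (one_le_exp ?_) (one_le_pow₀ (by norm_num))
    have := Cn109.QQ_nonneg lsW u U κ z
    positivity
  · have i1 : Integrable (fun z => exp (3 * q * (√3 * aa) * |SS lsW u U κ z - VV κ|)) μh :=
      (dS.comp fun s => exp (3 * q * (√3 * aa) * |s - VV κ|)).integrable _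
    have i2 : Integrable (fun z => exp (3 * q * (12 * aa ^ 2) * QQ lsW u U κ z)) μh :=
      (dQ.comp fun s => exp (3 * q * (12 * aa ^ 2) * s)).integrable _
    have i3 : Integrable (fun z => (((2 : ℝ) ^ q) ^ 3) ^ K z) μh :=
      (hS.comp fun k => (((2 : ℝ) ^ q) ^ 3) ^ k).integrable _
    have i0 : Integrable (fun z => (exp (√3 * aa * |SS lsW u U κ z - VV κ| +
        12 * aa ^ 2 * QQ lsW u U κ z) * 2 ^ K z) ^ q) μh :=
      ((dX.mul dP).comp fun y => y ^ q).integrable _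
    calc ∫ z, (exp (√3 * aa * |SS lsW u U κ z - VV κ| + 12 * aa ^ 2 * QQ lsW u U κ z) *
          2 ^ K z) ^ q ∂μh
        ≤ ∫ z, (exp (3 * q * (√3 * aa) * |SS lsW u U κ z - VV κ|) +
          exp (3 * q * (12 * aa ^ 2) * QQ lsW u U κ z) + (((2 : ℝ) ^ q) ^ 3) ^ K z) ∂μh := by
          refine integral_mono i0 ((i1.add i2).add i3) fun z => ?_
          show (exp (√3 * aa * |SS lsW u U κ z - VV κ| + 12 * aa ^ 2 * QQ lsW u U κ z) *
            2 ^ K z) ^ q ≤ exp (3 * q * (√3 * aa) * |SS lsW u U κ z - VV κ|) +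
              exp (3 * q * (12 * aa ^ 2) * QQ lsW u U κ z) + (((2 : ℝ) ^ q) ^ 3) ^ K z
          have e1 : (exp (√3 * aa * |SS lsW u U κ z - VV κ| + 12 * aa ^ 2 * QQ lsW u U κ z) *
              2 ^ K z) ^ q = exp (q * (√3 * aa * |SS lsW u U κ z - VV κ|)) *
                exp (q * (12 * aa ^ 2 * QQ lsW u U κ z)) * ((2 : ℝ) ^ q) ^ K z := by
            rw [mul_pow, ← Real.exp_nat_mul, mul_add, Real.exp_add, ← pow_mul, ← pow_mul,
              mul_comm (K z) q]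
          have e2 : exp (3 * q * (√3 * aa) * |SS lsW u U κ z - VV κ|) =
              exp (q * (√3 * aa * |SS lsW u U κ z - VV κ|)) ^ 3 := by
            rw [← Real.exp_nat_mul]; congr 1; push_cast; ring
          have e3 : exp (3 * q * (12 * aa ^ 2) * QQ lsW u U κ z) =
              exp (q * (12 * aa ^ 2 * QQ lsW u U κ z)) ^ 3 := by
            rw [← Real.exp_nat_mul]; congr 1; push_cast; ring
          have e4 : (((2 : ℝ) ^ q) ^ 3) ^ K z = (((2 : ℝ) ^ q) ^ K z) ^ 3 := pow_right_comm _ _ _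
          rw [e1, e2, e3, e4]
          exact three_le (exp_pos _).le (exp_pos _).le (by positivity)
      _ ≤ G1 + G2 + G3 := by
          have j12 : Integrable (fun z => exp (3 * q * (√3 * aa) * |SS lsW u U κ z - VV κ|) +
            exp (3 * q * (12 * aa ^ 2) * QQ lsW u U κ z)) μh := i1.add i2
          rw [integral_add j12 i3, integral_add i1 i2]
          linarith
  · exact mul_le_mul_of_nonneg_left (pow_le_pow_right₀ (by norm_num) (hK2 z)) (exp_pos _).le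

/-! ### truncation -/

theorem tr_pt {X Y T l : ℝ} (hX : 0 ≤ X) (hY : 0 ≤ Y) (hT : 0 < T) (hl : 0 < l) (k : ℕ) :
    X * Y ≤ T * X + (l * X ^ 2 + Y ^ (2 * k + 2) / (l * T ^ (2 * k))) / 2 := by
  rcases le_total Y T with h | h
  · have h1 : X * Y ≤ T * X := by nlinarith
    have h2 : 0 ≤ (l * X ^ 2 + Y ^ (2 * k + 2) / (l * T ^ (2 * k))) / 2 := by positivity
    linarith
  · have h1 : 1 ≤ (Y / T) ^ k := one_le_pow₀ ((one_le_div hT).2 h)
    have h2 : X * Y ≤ X * (Y * (Y / T) ^ k) := by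
      refine mul_le_mul_of_nonneg_left ?_ hX
      nlinarith
    have h3 : Y ^ (2 * k + 2) / (l * T ^ (2 * k)) = (Y * (Y / T) ^ k) ^ 2 / l := by
      rw [div_pow]
      field_simp
      ring
    set Z := Y * (Y / T) ^ k
    have h4 : X * Z ≤ (l * X ^ 2 + Z ^ 2 / l) / 2 := by
      have h5 : 0 ≤ (l * X - Z) ^ 2 / l := by positivity
      have h6 : (l * X - Z) ^ 2 / l = l * X ^ 2 - 2 * (X * Z) + Z ^ 2 / l := by
        field_simp
        ring
      linarith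
    have h7 : 0 ≤ T * X := by positivity
    rw [h3]
    linarith

theorem tr_int {Ω : Type*} [MeasurableSpace Ω] {μ : Measure Ω} {X Y f : Ω → ℝ} {T l : ℝ}
    (hT : 0 < T) (hl : 0 < l) (k : ℕ) (hX : ∀ ω, 0 ≤ X ω) (hY : ∀ ω, 0 ≤ Y ω)
    (hf : ∀ ω, |f ω| ≤ X ω * Y ω) (iX : Integrable X μ) (iX2 : Integrable (fun ω => X ω ^ 2) μ)
    (iY : Integrable (fun ω => Y ω ^ (2 * k + 2)) μ) :
    |∫ ω, f ω ∂μ| ≤ T * ∫ ω, X ω ∂μ + (l * ∫ ω, X ω ^ 2 ∂μ +
      (∫ ω, Y ω ^ (2 * k + 2) ∂μ) / (l * T ^ (2 * k))) / 2 := by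
  have i1 : Integrable (fun ω => l * X ω ^ 2 + Y ω ^ (2 * k + 2) / (l * T ^ (2 * k))) μ :=
    (iX2.const_mul l).add (iY.div_const _)
  have i2 : Integrable (fun ω => T * X ω +
      (l * X ω ^ 2 + Y ω ^ (2 * k + 2) / (l * T ^ (2 * k))) / 2) μ :=
    (iX.const_mul T).add (i1.div_const 2)
  have e : ∫ ω, (T * X ω + (l * X ω ^ 2 + Y ω ^ (2 * k + 2) / (l * T ^ (2 * k))) / 2) ∂μ =
      T * ∫ ω, X ω ∂μ + (l * ∫ ω, X ω ^ 2 ∂μ +
        (∫ ω, Y ω ^ (2 * k + 2) ∂μ) / (l * T ^ (2 * k))) / 2 := by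
    rw [integral_add (iX.const_mul T) (i1.div_const 2), integral_const_mul, integral_div,
      integral_add (iX2.const_mul l) (iY.div_const _), integral_const_mul, integral_div]
  rw [← e]
  refine (norm_integral_le_integral_norm f).trans ?_
  refine integral_mono_of_nonneg (Filter.Eventually.of_forall fun ω => norm_nonneg _) i2
    (Filter.Eventually.of_forall fun ω => ?_)
  exact (hf ω).trans (tr_pt (hX ω) (hY ω) hT hl k)

end Crest.Agent.R158.Fd61
end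
end

-- ▼ part R158/Fd3_61
section

/-!
# Row 158, leaf D of doc 1912 (helper61), part 3: products over classes of loops, locality, independence

* `PP P m z` : product of the weights of the loops of `z` with the (deterministic) property `P`
* `measurable_PP`, `PP_int`, `PP_dep`, `PP_off`, `PP_split`, `PP_congr`
* `indep_off` : a function of finitely many edges and a function of the others are independent
* `cross_A1`, `A1_le` : crossing loops
-/

set_option autoImplicit false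

noncomputable section

namespace Crest.Agent.R158.Fd61

open Crest.Agent.R161.Geo729 Crest.Agent.R161.Dual374
open Crest.Agent.R161.Tas682 (sd)
open Crest.Agent.R158.It200 hiding hf
open Crest.Agent.R158.Wf850 Crest.Agent.R158.Vx107
open Crest.Agent.R158.Cn109 (lsW smalls mem_smalls SS QQ SS_eq tot tot_eq VV DepF SS_dep QQ_dep)
open Crest.Agent.R158.Hd109 (Dens)
open Crest.Agent.R158.Cpl963 (A1)
open Crest.Agent.R158.Fr158 (bx mem_bx mem_bx_sd eIn mem_eIn)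
open Crest.Agent.R158.Rs689 (nu PB)
open Function Real MeasureTheory ProbabilityTheory unitInterval

local notation "μh" => nu Crest.Agent.R158.Rs689.hf

/-! ### independence off a finite set -/

/-- `f` does not depend on the edges of `S` -/
def DepOff {β : Type*} (S : Finset Edge) (f : Cfz → β) : Prop :=
  ∀ z z' : Cfz, (∀ e, e ∉ S → z e = z' e) → f z = f z'

theorem DepOff.mono {β : Type*} {S T : Finset Edge} {f : Cfz → β} (hf : DepOff T f) (h : S ⊆ T) :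
    DepOff S f := fun z z' hz => hf z z' fun e he => hz e fun h' => he (h h')

theorem indep_sets {ι : Type*} (w : ι → I) {S : Set ι} {f g : (ι → Bool) → ℝ} (mf : Measurable f)
    (mg : Measurable g) (hf : ∀ z z' : ι → Bool, (∀ e, e ∈ S → z e = z' e) → f z = f z')
    (hg : ∀ z z' : ι → Bool, (∀ e, e ∉ S → z e = z' e) → g z = g z') :
    ∫ z, f z * g z ∂(PB w) = (∫ z, f z ∂(PB w)) * ∫ z, g z ∂(PB w) := by
  classical
  set m : ι → MeasurableSpace (ι → Bool) := fun e =>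
    MeasurableSpace.comap (fun z : ι → Bool => z e) inferInstance with hm
  have h1 : iIndepFun (fun (e : ι) (z : ι → Bool) => z e) (PB w) := by
    have := iIndepFun_infinitePi (P := fun e => Crest.Agent.R158.Rs689.bern (w e))
      (X := fun _ b => b) (fun _ => measurable_id)
    exact this
  have h2 : Indep (⨆ e ∈ S, m e) (⨆ e ∈ Sᶜ, m e) (PB w) :=
    indep_iSup_of_disjoint (m := m) (fun e => (measurable_pi_apply e).comap_le) h1
      disjoint_compl_right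
  have key : ∀ (T : Set ι) (k : (ι → Bool) → ℝ), Measurable k →
      (∀ z z' : ι → Bool, (∀ e, e ∈ T → z e = z' e) → k z = k z') →
      MeasurableSpace.comap k inferInstance ≤ ⨆ e ∈ T, m e := by
    intro T k mk hk
    have e1 : k = k ∘ fun (z : ι → Bool) (e : ι) => if e ∈ T then z e else false := by
      funext z
      refine hk _ _ fun e he => ?_
      show z e = if e ∈ T then z e else false
      rw [if_pos he]
    rw [e1, ← MeasurableSpace.comap_comp]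
    refine (MeasurableSpace.comap_mono mk.comap_le).trans ?_
    refine @Measurable.comap_le _ _ (⨆ e ∈ T, m e) _ _ ?_
    refine @measurable_pi_lambda _ _ _ (⨆ e ∈ T, m e) _ _ fun e => ?_
    by_cases he : e ∈ T
    · simp only [if_pos he]
      have h5 : m e ≤ ⨆ e ∈ T, m e := le_iSup₂_of_le e he le_rfl
      have h6 : @Measurable _ _ (m e) _ (fun z : ι → Bool => z e) := comap_measurable _
      exact h6.mono h5 le_rfl
    · simp only [if_neg he]
      exact @measurable_const _ _ _ (⨆ e ∈ T, m e) _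
  have h3 : IndepFun f g (PB w) := by
    refine indep_of_indep_of_le_left (indep_of_indep_of_le_right h2 ?_) ?_
    · exact key Sᶜ g mg fun z z' h => hg z z' fun e he => h e he
    · exact key S f mf hf
  exact h3.integral_fun_mul_eq_mul_integral mf.aestronglyMeasurable mg.aestronglyMeasurable

theorem indep_off {S : Finset Edge} {f g : Cfz → ℝ} (hf : DepF S f) (hg : DepOff S g)
    (mg : Measurable g) : ∫ z, f z * g z ∂μh = (∫ z, f z ∂μh) * ∫ z, g z ∂μh :=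
  indep_sets (fun _ => Crest.Agent.R158.Rs689.hf) (S := (S : Set Edge)) hf.measurable mg
    (fun z z' h => hf z z' fun e he => h e he) (fun z z' h => hg z z' fun e he => h e he)

/-! ### products over classes of loops -/

/-- product of the weights of the loops with property `P` -/
def PP (P : Finset Face → Prop) (m : Face →₀ ℝ) (z : Cfz) : ℝ := PW {A | A ∈ Lps z ∧ P A} m

theorem PP_sub (P : Finset Face → Prop) (z : Cfz) : {A | A ∈ Lps z ∧ P A} ⊆ Lps z := fun _ h => h.1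

theorem W_eq_PP (m : Face →₀ ℝ) (z : Cfz) : W m z = PP (fun _ => True) m z := by
  unfold PP
  rw [W_eq_PW]
  congr 1
  ext A
  simp

theorem OP_eq_PP (m : Face →₀ ℝ) (z : Cfz) (c : Corner) :
    OP m z c = PP (fun A => ¬ sepC A c) m z := rfl

theorem measurable_PP {m : Face →₀ ℝ} (hm : Ntr m) (P : Finset Face → Prop) :
    Measurable (PP P m) := by
  classical
  set Q : ℕ → Cfz → ℝ := fun n z => ∏ A ∈ (BF (0, 0) n).powerset,
    if A ∈ Lps z ∧ P A then Fw (mass m A) else 1 with hQ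
  have h1 : ∀ n, Measurable (Q n) := by
    intro n
    refine Finset.measurable_prod _ fun A _ => ?_
    refine Measurable.ite ?_ measurable_const measurable_const
    by_cases hA : P A
    · simpa [hA] using meas_lps A
    · simp [hA]
  refine measurable_of_tendsto_metrizable h1 ?_
  rw [tendsto_pi_nhds]
  intro z
  have hfin := fin_supp hm (PP_sub P z)
  obtain ⟨N, hN⟩ : ∃ N : ℕ, ∀ A ∈ hfin.toFinset, A ⊆ BF (0, 0) N := by
    have h2 : ∀ A : Finset Face, ∃ N : ℕ, A ⊆ BF (0, 0) N := by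
      intro A
      refine ⟨(∑ f ∈ A, sd (0, 0) f.1).toNat, fun f hf => ?_⟩
      rw [mem_BF]
      refine le_trans ?_ (Int.self_le_toNat _)
      exact Finset.single_le_sum (f := fun f : Face => sd (0, 0) f.1)
        (fun g _ => sd_nonneg' _ _) hf
    choose N hN using h2
    refine ⟨∑ A ∈ hfin.toFinset, N A, fun A hA => (hN A).trans (BF_mono ?_)⟩
    exact_mod_cast Finset.single_le_sum (f := N) (fun _ _ => Nat.zero_le _) hA
  refine tendsto_const_nhds.congr' ?_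
  filter_upwards [Filter.eventually_ge_atTop N] with n hn
  rw [hQ]
  dsimp only
  unfold PP PW
  rw [finprod_mem_eq_prod _ hfin]
  refine Finset.prod_subset_one_on_sdiff (f := fun A => Fw (mass m A)) ?_ ?_ ?_
  · intro A hA
    rw [Finset.mem_powerset]
    exact (hN A hA).trans (BF_mono (by exact_mod_cast hn))
  · intro A hA
    rw [Finset.mem_sdiff, Set.Finite.mem_toFinset] at hA
    by_cases h : A ∈ Lps z ∧ P A
    · rw [if_pos h]
      by_contra h'
      exact hA.2 ⟨h, h'⟩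
    · rw [if_neg h]
  · intro A hA
    rw [Set.Finite.mem_toFinset] at hA
    have h3 : A ∈ Lps z ∧ P A := hA.1
    rw [if_pos h3]

theorem abs_PP_le {m : Face →₀ ℝ} (hm : Ntr m) : ∃ K : ℝ, ∀ (P : Finset Face → Prop) (z : Cfz),
    |PP P m z| ≤ K := by
  obtain ⟨n, hn⟩ := exists_box m
  refine ⟨2 ^ nc n, fun P z => ?_⟩
  have hfin := fin_supp hm (PP_sub P z)
  unfold PP PW
  rw [finprod_mem_eq_prod _ hfin, Finset.abs_prod]
  have h1 : ∀ A ∈ hfin.toFinset, A ∈ Lps z ∧ mass m A ≠ 0 := by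
    intro A hA
    rw [Set.Finite.mem_toFinset] at hA
    refine ⟨hA.1.1, fun h => hA.2 ?_⟩
    show Fw (mass m A) = 1
    rw [h, Fw_zero]
  calc ∏ A ∈ hfin.toFinset, |Fw (mass m A)| ≤ ∏ _A ∈ hfin.toFinset, (2 : ℝ) :=
        Finset.prod_le_prod (fun _ _ => abs_nonneg _) fun _ _ => abs_Fw_le _
    _ = 2 ^ hfin.toFinset.card := by rw [Finset.prod_const]
    _ ≤ 2 ^ nc n := pow_le_pow_right₀ (by norm_num) (card_mass hm hn z h1)

theorem PP_int {m : Face →₀ ℝ} (hm : Ntr m) (P : Finset Face → Prop) : Integrable (PP P m) μh := by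
  obtain ⟨K, hK⟩ := abs_PP_le hm
  exact Integrable.of_bound (measurable_PP hm P).aestronglyMeasurable K
    (Filter.Eventually.of_forall fun z => by rw [Real.norm_eq_abs]; exact hK P z)

/-- same loops -/
theorem same_loops {P : Finset Face → Prop} {z z' : Cfz}
    (h : ∀ A, P A → ∀ e ∈ bdE A, z e = z' e) : {A | A ∈ Lps z ∧ P A} = {A | A ∈ Lps z' ∧ P A} := by
  ext A
  constructor
  · rintro ⟨h1, h2⟩
    exact ⟨loc_aux (h A h2) h1, h2⟩
  · rintro ⟨h1, h2⟩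
    exact ⟨loc_aux (fun e he => (h A h2 e he).symm) h1, h2⟩

theorem PP_loc {P : Finset Face → Prop} (m : Face →₀ ℝ) {z z' : Cfz}
    (h : ∀ A, P A → ∀ e ∈ bdE A, z e = z' e) : PP P m z = PP P m z' := by
  unfold PP
  rw [same_loops h]

theorem PP_dep {P : Finset Face → Prop} (m : Face →₀ ℝ) {S : Finset Edge}
    (h : ∀ A, P A → bdE A ⊆ S) : DepF S (PP P m) := fun _ _ hz =>
  PP_loc m fun A hA e he => hz e (h A hA he)

theorem PP_off {P : Finset Face → Prop} (m : Face →₀ ℝ) {S : Finset Edge}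
    (h : ∀ A, P A → ∀ e ∈ bdE A, e ∉ S) : DepOff S (PP P m) := fun _ _ hz =>
  PP_loc m fun A hA e he => hz e (h A hA e he)

theorem PP_congr {m m' : Face →₀ ℝ} {P : Finset Face → Prop} {z : Cfz}
    (h : ∀ A ∈ Lps z, P A → Fw (mass m A) = Fw (mass m' A)) : PP P m z = PP P m' z :=
  finprod_mem_congr rfl fun A hA => h A hA.1 hA.2

theorem PP_congr_set {m : Face →₀ ℝ} {P P' : Finset Face → Prop} {z : Cfz}
    (h : ∀ A ∈ Lps z, Fw (mass m A) ≠ 1 → (P A ↔ P' A)) : PP P m z = PP P' m z := by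
  unfold PP PW
  refine finprod_mem_inter_mulSupport_eq _ _ _ ?_
  ext A
  simp only [Set.mem_inter_iff, Set.mem_ofPred_eq, mem_mulSupport]
  constructor
  · rintro ⟨⟨h1, h2⟩, h3⟩
    exact ⟨⟨h1, (h A h1 h3).1 h2⟩, h3⟩
  · rintro ⟨⟨h1, h2⟩, h3⟩
    exact ⟨⟨h1, (h A h1 h3).2 h2⟩, h3⟩

theorem PP_split {m : Face →₀ ℝ} (hm : Ntr m) {P P1 P2 : Finset Face → Prop} {z : Cfz}
    (h1 : ∀ A ∈ Lps z, P1 A → ¬ P2 A)
    (h : ∀ A ∈ Lps z, Fw (mass m A) ≠ 1 → (P A ↔ P1 A ∨ P2 A)) :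
    PP P m z = PP P1 m z * PP P2 m z := by
  rw [PP_congr_set (P' := fun A => P1 A ∨ P2 A) h]
  unfold PP PW
  have e : {A | A ∈ Lps z ∧ (P1 A ∨ P2 A)} = {A | A ∈ Lps z ∧ P1 A} ∪ {A | A ∈ Lps z ∧ P2 A} := by
    ext A
    simp only [Set.mem_ofPred_eq, Set.mem_union]
    tauto
  rw [e]
  refine finprod_mem_union' ?_ (fin_supp hm (PP_sub P1 z)) (fin_supp hm (PP_sub P2 z))
  rw [Set.disjoint_left]
  rintro A ⟨h2, h3⟩ ⟨_, h4⟩
  exact h1 A h2 h3 h4

/-! ### loops that do not split a box -/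

theorem off_of_not_splits {A : Finset Face} {x : P2} {n : ℤ} (h : ¬ Splits A (BF x n)) {e : Edge}
    (he : e ∈ bdE A) : e ∉ eIn (bx x (n - 1)) := by
  intro h'
  rw [mem_bdE] at he
  obtain ⟨d, hd, rfl⟩ := he
  apply hd
  rw [mem_eIn, mem_bx_sd, mem_bx_sd] at h'
  have h1 : sd x d.1 ≤ n - 1 := by
    rcases ah_ends' d with ⟨h2, -⟩ | ⟨h2, -⟩
    · rw [← h2]; exact h'.1
    · rw [← h2]; exact h'.2
  have h2 := (sd_corner x d).2
  have c1 : cv d ∈ BF x n := mem_BF.2 (by show sd x d.1 ≤ n; linarith)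
  have c2 : cf d ∈ BF x n := mem_BF.2 (by show sd x (fc d) ≤ n; linarith)
  constructor
  · intro h3
    by_contra h4
    exact h ⟨⟨_, c1, h3⟩, _, c2, h4⟩
  · intro h3
    by_contra h4
    exact h ⟨⟨_, c2, h3⟩, _, c1, h4⟩

/-! ### crossing -/

theorem cross_A1 {z : Cfz} {A : Finset Face} (hA : A ∈ Lps z) {x : P2} {k l : ℤ} (hkl : k ≤ l)
    (h : Splits A (BF x k)) (h' : ¬ A ⊆ BF x l) : z ∈ A1 x k l := by
  obtain ⟨⟨u, v, hu, hv, huv⟩, -⟩ := cross2 hA h h'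
  obtain ⟨p, q, hp, hq, hpq, -⟩ := Crest.Agent.R158.Cpl963.cross_sub x hkl
    (Crest.Agent.R158.Rs689.oc_univ_of_rch huv) hu (by linarith)
  exact ⟨p, q, hp, hq, by rwa [Set.univ_inter] at hpq⟩

theorem A1_le : ∃ C a : ℝ, 1 ≤ C ∧ 0 < a ∧ ∀ (x : P2) (s R : ℕ), 1 ≤ s → s ≤ R →
    (nu Crest.Agent.R158.Rs689.hf).real (A1 x s R) ≤ C * ((s : ℝ) / R) ^ a := by
  obtain ⟨C, a, hC, ha, h⟩ := Crest.Agent.R158.Rs689.arm_half
  refine ⟨max C 1, a, le_max_right _ _, ha, fun x s R hs hR => ?_⟩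
  have h1 : A1 x s R ⊆ Crest.Agent.R158.Rs689.ArmX x s R := by
    rintro z ⟨u, v, hu, hv, huv⟩
    have hu' : sd x u ≤ s := hu.le
    have hv' : (R : ℤ) ≤ sd x v := hv.ge
    unfold sd at hu' hv'
    rw [max_le_iff] at hu'
    rw [le_max_iff] at hv'
    exact ⟨u, v, hu'.1, hu'.2, hv', Relation.ReflTransGen.mono (fun _ _ h => h.1) _ _ huv.2⟩
  calc (nu Crest.Agent.R158.Rs689.hf).real (A1 x s R) ≤ (nu Crest.Agent.R158.Rs689.hf).real (Crest.Agent.R158.Rs689.ArmX x s R) := measureReal_mono h1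
    _ ≤ C * ((s : ℝ) / R) ^ a := h x s R hs hR
    _ ≤ max C 1 * ((s : ℝ) / R) ^ a := by
        refine mul_le_mul_of_nonneg_right (le_max_left _ _) (by positivity)

end Crest.Agent.R158.Fd61
end
end

-- ▼ part R158/Fd4_61
section

/-!
# Row 158, leaf D of doc 1912 (helper61), part 4: near and far charges, factorisation

* `nm U u N v = aa • (u on U - v on N)`; `ND` : density in a square
* `Bn ρ m` : loops which do not split `BF 0 ρ`; `An ρ m` : loops inside `BF 0 ρ`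
* `W_fac` : `W (nm ..) = An ρ * Bn (ρ + 3)` off two crossings; `Bn_nm` : `Bn` does not see the near part
* `W_Bn`, `Bn_Bn` : `W (mg U u g) = Bn ρ`, `Bn ρ = Bn ρ'` off a crossing
* `one_le_An`, `An_le`, `abs_Bn`, `abs_W_nm` : deterministic bounds
-/

set_option autoImplicit false

noncomputable section

namespace Crest.Agent.R158.Fd61

open Crest.Agent.R161.Geo729 Crest.Agent.R161.Dual374
open Crest.Agent.R161.Tas682 (sd)
open Crest.Agent.R158.It200 hiding hf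
open Crest.Agent.R158.Wf850 Crest.Agent.R158.Vx107
open Crest.Agent.R158.Cn109 (lsW smalls mem_smalls SS QQ SS_eq tot tot_eq VV DepF SS_dep QQ_dep)
open Crest.Agent.R158.Hd109 (Dens)
open Crest.Agent.R158.Cpl963 (A1)
open Crest.Agent.R158.Fr158 (bx mem_bx mem_bx_sd eIn mem_eIn)
open Crest.Agent.R158.Rs689 (nu PB)
open Function Real MeasureTheory ProbabilityTheory unitInterval

local notation "μh" => nu Crest.Agent.R158.Rs689.hf

theorem lps_nonempty {z : Cfz} {A : Finset Face} (hA : A ∈ Lps z) : A.Nonempty := by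
  by_contra h
  rw [Finset.not_nonempty_iff_eq_empty] at h
  subst h
  obtain ⟨c, h1, h2⟩ := hA
  exact (sep_iff h1 h2 c).2 (mem_Lp_self _ _) (by simp)

theorem splits_mono {A : Finset Face} {x : P2} {n m : ℤ} (h : n ≤ m) (hA : Splits A (BF x n)) :
    Splits A (BF x m) := by
  obtain ⟨⟨f, h1, h2⟩, g, h3, h4⟩ := hA
  exact ⟨⟨f, BF_mono h h1, h2⟩, g, BF_mono h h3, h4⟩

theorem not_splits_cases {A B : Finset Face} (h : ¬ Splits A B) : (∀ f ∈ B, f ∉ A) ∨ B ⊆ A := by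
  by_cases h1 : ∃ f ∈ B, f ∈ A
  · right
    intro g hg
    by_contra h2
    exact h ⟨h1, g, hg, h2⟩
  · left
    push Not at h1
    exact h1

/-- density in a square -/
structure ND (C : ℝ) (κ : ℕ) (r : ℤ) (N : Finset Face) (v : Face → ℝ) : Prop
    extends Dens C κ N v where
  out : ∀ f ∈ N, sd (0, 0) f.1 ≤ r
  lev : 2 ^ κ ≤ r

/-- the two-object charge -/
def nm (U : Finset Face) (u : Face → ℝ) (N : Finset Face) (v : Face → ℝ) : Face →₀ ℝ :=
  aa • (cu U u - cu N v)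

theorem mass_nm (U : Finset Face) (u : Face → ℝ) (N : Finset Face) (v : Face → ℝ)
    (A : Finset Face) :
    Vx107.mass (nm U u N v) A = aa * (Cn109.mass u U A - Cn109.mass v N A) := by
  unfold nm
  rw [mass_smul, mass_sub, mass_cu, mass_cu]

theorem ntr_nm {U : Finset Face} {u : Face → ℝ} {N : Finset Face} {v : Face → ℝ}
    (h : ∑ f ∈ U, u f = 1) (h' : ∑ f ∈ N, v f = 1) : Ntr (nm U u N v) := by
  unfold nm
  refine Ntr.smul _ ?_
  unfold Ntr
  rw [tot_sub, tot_cu, tot_cu, h, h', sub_self]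

/-- loops which do not split `BF 0 ρ` -/
def Bn (ρ : ℤ) (m : Face →₀ ℝ) : Cfz → ℝ := PP (fun A => ¬ Splits A (BF (0, 0) ρ)) m

/-- loops inside `BF 0 ρ` -/
def An (ρ : ℤ) (m : Face →₀ ℝ) : Cfz → ℝ := PP (fun A => A ⊆ BF (0, 0) ρ) m

theorem Bn_off (ρ : ℤ) (m : Face →₀ ℝ) : DepOff (eIn (bx (0, 0) (ρ - 1))) (Bn ρ m) :=
  PP_off m fun _ hA _ he => off_of_not_splits hA he

theorem An_dep (ρ : ℤ) (m : Face →₀ ℝ) : DepF (eIn (bx (0, 0) (ρ + 2))) (An ρ m) :=
  PP_dep m fun _ hA => bdE_sub hA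

theorem An_Bn {ρ : ℤ} {m m' : Face →₀ ℝ} (hm' : Ntr m') :
    ∫ z, An ρ m z * Bn (ρ + 3) m' z ∂μh = (∫ z, An ρ m z ∂μh) * ∫ z, Bn (ρ + 3) m' z ∂μh := by
  refine indep_off (An_dep ρ m) ?_ (measurable_PP hm' _)
  have h := Bn_off (ρ + 3) m'
  rw [show ρ + 3 - 1 = ρ + 2 by ring] at h
  exact h

theorem far_face {ρ : ℤ} (h : 0 ≤ ρ) : ∃ f : Face, f ∈ BF (0, 0) (ρ + 3) ∧ f ∉ BF (0, 0) ρ := by
  have h1 : |ρ + 1| = ρ + 1 := abs_of_nonneg (by omega)
  refine ⟨((ρ + 1, 0), false), ?_, ?_⟩ <;> rw [mem_BF] <;> unfold sd <;> simp [h1] <;> omega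

section
variable {C C' : ℝ} {κ κ' : ℕ} {r0 r1 r : ℤ} {U N : Finset Face} {u v : Face → ℝ} {z : Cfz}

theorem wm_zero_of_sub (h : RD C κ r0 r1 U u) {A : Finset Face} {ρ : ℤ} (hρ : ρ ≤ r0)
    (hA : A ⊆ BF (0, 0) ρ) : Cn109.mass u U A = 0 := by
  refine wm_zero fun f hf hfA => ?_
  have h1 := mem_BF.1 (hA hfA)
  have h2 := h.inn f hf
  have h3 : (0 : ℤ) < 2 ^ κ := by positivity
  linarith

theorem vm_one (h : ND C' κ' r N v) {A : Finset Face} (hA : ∀ f ∈ N, f ∈ A) :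
    Cn109.mass v N A = 1 := by
  classical
  unfold Cn109.mass
  rw [Finset.filter_true_of_mem hA, h.sum]

theorem vm_zero {A : Finset Face} (h : ∀ f ∈ N, f ∉ A) : Cn109.mass v N A = 0 := by
  classical
  unfold Cn109.mass
  rw [Finset.filter_eq_empty_iff.2 (fun {f} hf => h f hf), Finset.sum_empty]

theorem vm_nonneg (h : ND C' κ' r N v) (A : Finset Face) : 0 ≤ Cn109.mass v N A :=
  Cn109.mass_nonneg h.nn A

theorem vm_le_one (h : ND C' κ' r N v) (A : Finset Face) : Cn109.mass v N A ≤ 1 := by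
  classical
  rw [← h.sum]
  unfold Cn109.mass
  exact Finset.sum_le_sum_of_subset_of_nonneg (Finset.filter_subset _ _) fun f hf _ => h.nn f hf

theorem vm_cases (h : ND C' κ' r N v) {A : Finset Face} (hA : ¬ Splits A (BF (0, 0) r)) :
    Cn109.mass v N A = 0 ∨ Cn109.mass v N A = 1 := by
  rcases not_splits_cases hA with h1 | h1
  · exact Or.inl (vm_zero fun f hf => h1 f (mem_BF.2 (h.out f hf)))
  · exact Or.inr (vm_one h fun f hf => h1 (mem_BF.2 (h.out f hf)))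

theorem Fw_01 {t : ℝ} (ht : t = 0 ∨ t = 1) : Fw (aa * (0 - t)) = 1 := by
  rcases ht with rfl | rfl
  · rw [sub_zero, mul_zero, Fw_zero]
  · rw [zero_sub, mul_neg, mul_one, Fw_neg_aa]

/-- **factorisation** -/
theorem W_fac (h : RD C κ r0 r1 U u) (hn : ND C' κ' r N v) (hr : 0 ≤ r) {ρ : ℤ} (h1 : r ≤ ρ)
    (h2 : ρ + 3 ≤ r0) (c1 : z ∉ A1 (0, 0) r ρ) (c2 : z ∉ A1 (0, 0) (ρ + 3) r0) :
    W (nm U u N v) z = An ρ (nm U u N v) z * Bn (ρ + 3) (nm U u N v) z := by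
  rw [W_eq_PP]
  refine PP_split (ntr_nm h.sum hn.sum) ?_ ?_
  · intro A hA hA1 hA2
    obtain ⟨f, hf⟩ := lps_nonempty hA
    obtain ⟨g, hg, hg'⟩ := far_face (ρ := ρ) (by linarith)
    exact hA2 ⟨⟨f, BF_mono (by linarith) (hA1 hf), hf⟩, g, hg, fun h' => hg' (hA1 h')⟩
  · intro A hA hw
    refine ⟨fun _ => ?_, fun _ => trivial⟩
    by_contra hcon
    push Not at hcon
    obtain ⟨h3, h4⟩ := hcon
    apply hw
    have h5 : A ⊆ BF (0, 0) r0 := by
      by_contra h6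
      exact c2 (cross_A1 hA h2 h4 h6)
    have h6 : ¬ Splits A (BF (0, 0) r) := fun h7 => c1 (cross_A1 hA h1 h7 h3)
    rw [mass_nm, wm_zero_of_sub h le_rfl h5]
    exact Fw_01 (vm_cases hn h6)

/-- `Bn` does not see the near part -/
theorem Bn_nm (hn : ND C' κ' r N v) {ρ : ℤ} (h1 : r ≤ ρ) {g : Face} (hg : sd (0, 0) g.1 ≤ ρ) :
    Bn ρ (nm U u N v) z = Bn ρ (mg U u g) z := by
  classical
  refine PP_congr fun A _ hA => ?_
  rw [mass_nm, mass_mg]
  congr 2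
  rcases not_splits_cases hA with h3 | h3
  · rw [vm_zero fun f hf => h3 f (mem_BF.2 ((hn.out f hf).trans h1)),
      if_neg (h3 g (mem_BF.2 hg))]
  · rw [vm_one hn fun f hf => h3 (mem_BF.2 ((hn.out f hf).trans h1)), if_pos (h3 (mem_BF.2 hg))]

/-- a loop inside `BF 0 r0` has weight one -/
theorem wt_one_of_sub (h : RD C κ r0 r1 U u) {A : Finset Face} (hA : A ⊆ BF (0, 0) r0)
    (g : Face) : Fw (Vx107.mass (mg U u g) A) = 1 := by
  classical
  rw [mass_mg, wm_zero_of_sub h le_rfl hA]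
  refine Fw_01 ?_
  split_ifs
  · exact Or.inr rfl
  · exact Or.inl rfl

/-- more generally: products over all loops with `P` -/
theorem PP_Bn (h : RD C κ r0 r1 U u) {ρ : ℤ} (hρ : ρ ≤ r0) (g : Face)
    (c : z ∉ A1 (0, 0) ρ r0) {P : Finset Face → Prop}
    (hP : ∀ A ∈ Lps z, ¬ Splits A (BF (0, 0) ρ) → P A) :
    PP P (mg U u g) z = Bn ρ (mg U u g) z := by
  refine PP_congr_set fun A hA hw => ?_
  refine ⟨fun _ hs => ?_, fun hs => hP A hA hs⟩
  apply hw
  refine wt_one_of_sub h ?_ g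
  by_contra h'
  exact c (cross_A1 hA hρ hs h')

theorem W_Bn (h : RD C κ r0 r1 U u) {ρ : ℤ} (hρ : ρ ≤ r0) (g : Face)
    (c : z ∉ A1 (0, 0) ρ r0) : W (mg U u g) z = Bn ρ (mg U u g) z := by
  rw [W_eq_PP]
  exact PP_Bn h hρ g c fun _ _ _ => trivial

theorem Bn_Bn (h : RD C κ r0 r1 U u) {ρ ρ' : ℤ} (hρ : ρ' ≤ r0) (h1 : ρ ≤ ρ') (g : Face)
    (c : z ∉ A1 (0, 0) ρ' r0) : Bn ρ (mg U u g) z = Bn ρ' (mg U u g) z :=
  PP_Bn h hρ g c fun _ _ hs hs' => hs (splits_mono h1 hs')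

/-! ### bounds -/

theorem small_sub_of (h : RD C κ r0 r1 U u) {ρ : ℤ} (hρ : ρ ≤ r0) {A : Finset Face}
    (hA : A ∈ smalls lsW U κ z) : ¬ Splits A (BF (0, 0) ρ) := by
  rintro ⟨⟨f, hf, hfA⟩, -⟩
  exact small_off h hA ((mem_BF.1 hf).trans hρ) hfA

theorem abs_Bn (h : RD C κ r0 r1 U u) (h0 : r0 ≤ r1) {ρ : ℤ} (hρ : ρ ≤ r0) {g : Face}
    (hg : sd (0, 0) g.1 ≤ r0) :
    |Bn ρ (mg U u g) z| ≤ exp (-(√3 * aa * SS lsW u U κ z) + 12 * aa ^ 2 * QQ lsW u U κ z) *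
      2 ^ (TT κ r1 z).ncard :=
  gu_pos h h0 hg (fun _ hA => hA.1) fun _ hA => ⟨((mem_smalls lsW).1 hA).1, small_sub_of h hρ hA⟩

theorem small_near (hn : ND C' κ' r N v) {A : Finset Face} (hA : A ∈ smalls lsW N κ' z) :
    A ⊆ BF (0, 0) (2 * r) := by
  rw [mem_smalls] at hA
  obtain ⟨_, ⟨f, hf, hfA⟩, h3⟩ := hA
  have h3 : Cn109.dia A + 1 < 2 ^ κ' := h3
  rw [Cn109.dia_eq] at h3
  have h4 := hn.out f hf
  have h5 := hn.lev
  have h6 : ((dia A : ℕ) : ℤ) + 1 < 2 ^ κ' := by exact_mod_cast h3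
  exact sub_of_dia hfA h4 (by linarith)

theorem near_other (hn : ND C' κ' r N v) {A : Finset Face} (hA : A ∈ Lps z)
    (h1 : A ∉ smalls lsW N κ' z) (h2 : A ∉ TT κ' r z) :
    Cn109.mass v N A = 0 ∨ Cn109.mass v N A = 1 := by
  by_cases h3 : ∃ f ∈ N, f ∈ A
  · refine vm_cases hn fun h4 => h2 ⟨hA, h4, ?_⟩
    by_contra h5
    apply h1
    rw [mem_smalls]
    refine ⟨hA, h3, ?_⟩
    show Cn109.dia A + 1 < 2 ^ κ'
    rw [Cn109.dia_eq]
    omega
  · push Not at h3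
    exact Or.inl (vm_zero h3)

theorem Fw_ge_one {t : ℝ} (h0 : 0 ≤ t) (h1 : t ≤ 1) : 1 ≤ Fw (aa * (0 - t)) := by
  unfold Fw aa
  have hpi := Real.pi_pos
  have h2 : 1 / 2 ≤ cos (π / 3 + 2 * π / 3 * (0 - t)) := by
    rw [← Real.cos_pi_div_three, ← Real.cos_abs (π / 3 + 2 * π / 3 * (0 - t))]
    refine Real.cos_le_cos_of_nonneg_of_le_pi (abs_nonneg _) (by linarith) ?_
    rw [abs_le]
    constructor <;> nlinarith
  linarith

theorem one_le_An (h : RD C κ r0 r1 U u) (hn : ND C' κ' r N v) {ρ : ℤ} (hρ : ρ ≤ r0) :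
    1 ≤ An ρ (nm U u N v) z := by
  unfold An PP PW
  rw [finprod_mem_eq_prod _ (fin_supp (ntr_nm h.sum hn.sum) (PP_sub _ z))]
  refine Finset.prod_induction _ (fun x => 1 ≤ x)
    (fun a b ha hb => one_le_mul_of_one_le_of_one_le ha hb) le_rfl fun A hA => ?_
  rw [Set.Finite.mem_toFinset] at hA
  rw [mass_nm, wm_zero_of_sub h hρ hA.1.2]
  exact Fw_ge_one (vm_nonneg hn A) (vm_le_one hn A)

theorem An_le (h : RD C κ r0 r1 U u) (hn : ND C' κ' r N v) {ρ : ℤ} (h1 : 2 * r ≤ ρ)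
    (hρ : ρ ≤ r0) : |An ρ (nm U u N v) z| ≤
      exp (√3 * aa * SS lsW v N κ' z + 12 * aa ^ 2 * QQ lsW v N κ' z) *
        2 ^ (TT κ' r z).ncard := by
  unfold An PP
  refine (prod_bound (s := smalls lsW N κ' z) (TT_fin κ' r z)
    (b := fun A => √3 * aa * Cn109.mass v N A + 12 * aa ^ 2 * Cn109.mass v N A ^ 2) ?_ ?_ ?_).trans
      ?_
  · exact fun A hA => ⟨((mem_smalls lsW).1 hA).1, (small_near hn hA).trans (BF_mono h1)⟩
  · intro A hA
    rw [mass_nm, wm_zero_of_sub h hρ ((small_near hn hA).trans (BF_mono h1)), Fw_eq_ff]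
    refine (ff_abs_le _).trans (le_of_eq ?_)
    congr 1
    ring
  · intro A hA h2 h3
    rw [mass_nm, wm_zero_of_sub h hρ hA.2]
    exact Fw_01 (near_other hn hA.1 h2 h3)
  · refine le_of_eq ?_
    congr 2
    rw [SS_eq, QQ_eq, Finset.sum_add_distrib, Finset.mul_sum, Finset.mul_sum]

theorem abs_W_nm (h : RD C κ r0 r1 U u) (h0 : r0 ≤ r1) (hn : ND C' κ' r N v) (h1 : 2 * r ≤ r0) :
    |W (nm U u N v) z| ≤
      (exp (-(√3 * aa * SS lsW u U κ z) + 12 * aa ^ 2 * QQ lsW u U κ z) *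
        2 ^ (TT κ r1 z).ncard) *
      (exp (√3 * aa * SS lsW v N κ' z + 12 * aa ^ 2 * QQ lsW v N κ' z) *
        2 ^ (TT κ' r z).ncard) := by
  classical
  have hr : r ≤ r0 := by
    have h5 := hn.lev
    have h6 : (0 : ℤ) < 2 ^ κ' := by positivity
    linarith
  rw [W_eq_PW]
  have hd : Disjoint (smalls lsW U κ z) (smalls lsW N κ' z) := by
    rw [Finset.disjoint_left]
    intro A hA hA'
    obtain ⟨f, hf⟩ := lps_nonempty ((mem_smalls lsW).1 hA).1
    exact small_off h hA ((mem_BF.1 (small_near hn hA' hf)).trans h1) hf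
  refine (prod_bound (s := smalls lsW U κ z ∪ smalls lsW N κ' z)
    ((TT_fin κ r1 z).union (TT_fin κ' r z))
    (b := fun A => (-(√3 * aa * Cn109.mass u U A) + 12 * aa ^ 2 * Cn109.mass u U A ^ 2) +
      (√3 * aa * Cn109.mass v N A + 12 * aa ^ 2 * Cn109.mass v N A ^ 2)) ?_ ?_ ?_).trans ?_
  · intro A hA
    rcases Finset.mem_union.1 hA with hA | hA
    · exact ((mem_smalls lsW).1 hA).1
    · exact ((mem_smalls lsW).1 hA).1
  · intro A hA
    have key : Cn109.mass u U A * Cn109.mass v N A = 0 := by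
      rcases Finset.mem_union.1 hA with hA | hA
      · rw [vm_zero fun f hf hfA => small_off h hA ((hn.out f hf).trans hr) hfA, mul_zero]
      · rw [wm_zero_of_sub h h1 (small_near hn hA), zero_mul]
    rw [mass_nm, Fw_eq_ff]
    refine (ff_abs_le _).trans (le_of_eq ?_)
    congr 1
    linear_combination (-24 * aa ^ 2) * key
  · intro A hA h2 h3
    rw [Finset.mem_union, not_or] at h2
    rw [Set.mem_union, not_or] at h3
    rw [mass_nm]
    rcases tri h h0 hA h2.1 h3.1 with h4 | ⟨h4, h5⟩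
    · rw [h4]
      exact Fw_01 (near_other hn hA h2.2 h3.2)
    · rw [h4, vm_one hn fun f hf => h5 f ((hn.out f hf).trans hr), sub_self, mul_zero, Fw_zero]
  · have e0 : ∑ A ∈ smalls lsW U κ z ∪ smalls lsW N κ' z,
        ((-(√3 * aa * Cn109.mass u U A) + 12 * aa ^ 2 * Cn109.mass u U A ^ 2) +
        (√3 * aa * Cn109.mass v N A + 12 * aa ^ 2 * Cn109.mass v N A ^ 2)) =
        (-(√3 * aa * SS lsW u U κ z) + 12 * aa ^ 2 * QQ lsW u U κ z) +
        (√3 * aa * SS lsW v N κ' z + 12 * aa ^ 2 * QQ lsW v N κ' z) := by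
      rw [Finset.sum_union hd]
      have e1 : ∑ A ∈ smalls lsW U κ z,
          ((-(√3 * aa * Cn109.mass u U A) + 12 * aa ^ 2 * Cn109.mass u U A ^ 2) +
          (√3 * aa * Cn109.mass v N A + 12 * aa ^ 2 * Cn109.mass v N A ^ 2)) =
          -(√3 * aa * SS lsW u U κ z) + 12 * aa ^ 2 * QQ lsW u U κ z := by
        rw [SS_eq, QQ_eq, Finset.mul_sum, Finset.mul_sum, ← Finset.sum_neg_distrib,
          ← Finset.sum_add_distrib]
        refine Finset.sum_congr rfl fun A hA => ?_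
        rw [vm_zero fun f hf hfA => small_off h hA ((hn.out f hf).trans hr) hfA]
        ring
      have e2 : ∑ A ∈ smalls lsW N κ' z,
          ((-(√3 * aa * Cn109.mass u U A) + 12 * aa ^ 2 * Cn109.mass u U A ^ 2) +
          (√3 * aa * Cn109.mass v N A + 12 * aa ^ 2 * Cn109.mass v N A ^ 2)) =
          √3 * aa * SS lsW v N κ' z + 12 * aa ^ 2 * QQ lsW v N κ' z := by
        rw [SS_eq, QQ_eq, Finset.mul_sum, Finset.mul_sum, ← Finset.sum_add_distrib]
        refine Finset.sum_congr rfl fun A hA => ?_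
        rw [wm_zero_of_sub h h1 (small_near hn hA)]
        ring
      rw [e1, e2]
    rw [e0, Real.exp_add]
    have e3 : (2 : ℝ) ^ ((TT κ r1 z) ∪ (TT κ' r z)).ncard ≤
        2 ^ (TT κ r1 z).ncard * 2 ^ (TT κ' r z).ncard := by
      rw [← pow_add]
      exact pow_le_pow_right₀ (by norm_num) (Set.ncard_union_le _ _)
    calc _ ≤ exp (-(√3 * aa * SS lsW u U κ z) + 12 * aa ^ 2 * QQ lsW u U κ z) *
          exp (√3 * aa * SS lsW v N κ' z + 12 * aa ^ 2 * QQ lsW v N κ' z) *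
          (2 ^ (TT κ r1 z).ncard * 2 ^ (TT κ' r z).ncard) :=
          mul_le_mul_of_nonneg_left e3 (by positivity)
      _ = _ := by ring

end

end Crest.Agent.R158.Fd61
end
end

-- ▼ part R158/Fd5_61

/-!
# Row 158, leaf D of doc 1912 (helper61), part 5: positivity of the mean of `Bn`

* `lv R = log2 R - 2`; `rd_ws`, `nd_us` : the ring `ws R` and the square `us r` of Bk11_430
* `cr_err` : an integrand which lives on a crossing of `A(s, S)` is small
* `EB_pos` : `c exp (-√3 aa VV (lv (K r))) ≤ ∫ Bn ρ (mg (ws (K r)) g)` for a constant `K`, all `ρ ≤ r`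
-/

set_option autoImplicit false

noncomputable section

namespace Crest.Agent.R158.Fd61

open Crest.Agent.R161.Geo729 Crest.Agent.R161.Dual374
open Crest.Agent.R161.Tas682 (sd)
open Crest.Agent.R158.It200 hiding hf
open Crest.Agent.R158.Wf850 Crest.Agent.R158.Vx107
open Crest.Agent.R158.Cn109 (lsW smalls mem_smalls SS QQ SS_eq tot tot_eq VV DepF SS_dep QQ_dep)
open Crest.Agent.R158.Hd109 (Dens)
open Crest.Agent.R158.Cpl963 (A1)
open Crest.Agent.R158.Fr158 (bx mem_bx mem_bx_sd eIn mem_eIn)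
open Crest.Agent.R158.Rs689 (nu PB)
open Crest.Agent.R158.Bk430 (us ws us_nonneg ws_nonneg us_le ws_le us_support ws_support m2)
open Crest.Agent.R158.Vg109 (HD den)
open Function Real MeasureTheory ProbabilityTheory unitInterval

local notation "μh" => nu Crest.Agent.R158.Rs689.hf

/-! ### the ring and the square -/

/-- level of the radius `R` -/
def lv (R : ℕ) : ℕ := Nat.log 2 R - 2

theorem lv_bounds {R : ℕ} (hR : 8 ≤ R) : 4 * 2 ^ lv R ≤ R ∧ R < 8 * 2 ^ lv R ∧ 1 ≤ lv R := by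
  have h1 : 2 ^ Nat.log 2 R ≤ R := Nat.pow_log_le_self 2 (by omega)
  have h2 : R < 2 ^ (Nat.log 2 R + 1) := Nat.lt_pow_succ_log_self (by norm_num) R
  have h3 : 3 ≤ Nat.log 2 R := by
    have := Nat.log_mono_right (b := 2) hR
    have h4 : Nat.log 2 8 = 3 := by
      rw [show (8 : ℕ) = 2 ^ 3 by norm_num, Nat.log_pow (by norm_num)]
    omega
  obtain ⟨k, hk⟩ : ∃ k, Nat.log 2 R = k + 2 := ⟨Nat.log 2 R - 2, by omega⟩
  unfold lv
  rw [hk] at h1 h2 ⊢
  rw [Nat.add_sub_cancel]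
  refine ⟨?_, ?_, by omega⟩
  · calc 4 * 2 ^ k = 2 ^ (k + 2) := by ring
      _ ≤ R := h1
  · calc R < 2 ^ (k + 2 + 1) := h2
      _ = 8 * 2 ^ k := by ring

theorem sum_of_tot {m : Face →₀ ℝ} (h : Vx107.tot m = 1) : ∑ f ∈ m.support, m f = 1 := h

theorem cu_self (m : Face →₀ ℝ) : cu m.support m = m := Finsupp.sum_single m

theorem rd_ws {R : ℕ} (hR : 64 ≤ R) :
    RD 1 (lv R) ((R / 8 : ℕ) : ℤ) ((2 * R : ℕ) : ℤ) (ws R).support (ws R) := by
  obtain ⟨h1, h2, h3⟩ := lv_bounds (R := R) (by omega)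
  refine ⟨⟨fun v _ => ws_nonneg (by omega) v, sum_of_tot (Bk430.tot_ws (by omega)),
    fun v _ => ?_⟩, fun f hf => ?_, fun f hf => ?_⟩
  · refine (ws_le (R := R) (by omega) v).trans ?_
    have h4 : (4 : ℝ) ^ lv R ≤ R ^ 2 := by
      have h5 : ((2 : ℝ) ^ lv R) ^ 2 ≤ (R : ℝ) ^ 2 := by
        refine pow_le_pow_left₀ (by positivity) ?_ 2
        have : 2 ^ lv R ≤ R := by omega
        exact_mod_cast this
      calc (4 : ℝ) ^ lv R = ((2 : ℝ) ^ lv R) ^ 2 := by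
            rw [← pow_mul, mul_comm, pow_mul]; norm_num
        _ ≤ _ := h5
    rw [inv_eq_one_div]
    have hR0 : (0 : ℝ) < R := by
      have : 0 < R := by omega
      exact_mod_cast this
    exact one_div_le_one_div_of_le (by positivity) (by nlinarith)
  · have h4 := (ws_support (R := R) (by omega) (Finsupp.mem_support_iff.1 hf)).2
    have h5 : 2 ^ lv R ≤ R / 4 := by omega
    have h6 : ((2 ^ lv R : ℕ) : ℤ) ≤ ((R / 4 : ℕ) : ℤ) := by exact_mod_cast h5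
    push_cast at h6 ⊢
    omega
  · exact mem_BF.1 (ws_support (R := R) (by omega) (Finsupp.mem_support_iff.1 hf)).1

theorem nd_us {r : ℕ} (hr : 64 ≤ r) : ND 1 (lv r) (r : ℤ) (us r).support (us r) := by
  obtain ⟨h1, h2, h3⟩ := lv_bounds (R := r) (by omega)
  refine ⟨⟨fun v _ => us_nonneg r v, sum_of_tot (Bk430.tot_us (by omega)),
    fun v _ => ?_⟩, fun f hf => ?_, ?_⟩
  · refine (us_le r v).trans ?_
    have h4 : (4 : ℝ) ^ lv r ≤ r ^ 2 := by
      have h5 : ((2 : ℝ) ^ lv r) ^ 2 ≤ (r : ℝ) ^ 2 := by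
        refine pow_le_pow_left₀ (by positivity) ?_ 2
        have : 2 ^ lv r ≤ r := by omega
        exact_mod_cast this
      calc (4 : ℝ) ^ lv r = ((2 : ℝ) ^ lv r) ^ 2 := by
            rw [← pow_mul, mul_comm, pow_mul]; norm_num
        _ ≤ _ := h5
    rw [inv_eq_one_div]
    have hR0 : (0 : ℝ) < r := by
      have : 0 < r := by omega
      exact_mod_cast this
    exact one_div_le_one_div_of_le (by positivity) (by nlinarith)
  · exact mem_BF.1 (us_support (Finsupp.mem_support_iff.1 hf))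
  · have h5 : 2 ^ lv r ≤ r := by omega
    exact_mod_cast h5

/-- the two charges -/
def wr (R r : ℕ) : Face →₀ ℝ := nm (ws R).support (ws R) (us r).support (us r)

/-- ring against a point -/
def wg (R : ℕ) (g : Face) : Face →₀ ℝ := mg (ws R).support (ws R) g

theorem wg_eq (R : ℕ) (g : Face) : wg R g = aa • (ws R - Finsupp.single g 1) := by
  unfold wg mg
  rw [cu_self]

theorem m2_eq (K r : ℕ) : m2 (-aa) K r = wr (K * r) r := by
  unfold m2 wr nm
  rw [cu_self, cu_self, neg_smul, ← smul_neg, neg_sub]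

theorem ntr_wg {R : ℕ} (hR : 1 ≤ R) (g : Face) : Ntr (wg R g) :=
  ntr_mg (sum_of_tot (Bk430.tot_ws hR)) g

theorem ntr_wr {R r : ℕ} (hR : 1 ≤ R) (hr : 1 ≤ r) : Ntr (wr R r) :=
  ntr_nm (sum_of_tot (Bk430.tot_ws hR)) (sum_of_tot (Bk430.tot_us hr))

/-! ### majorants -/

/-- `√3 aa` -/
def b0 : ℝ := √3 * aa

theorem b0_pos : 0 < b0 := by unfold b0; have := aa_pos; positivity

theorem b0_den : b0 * den = 1 / 3 := by
  unfold b0 den aa
  have h3 : √3 ≠ 0 := by positivity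
  have := Real.pi_pos
  field_simp

theorem bd_neg {κ : ℕ} {U : Finset Face} {u : Face → ℝ} {z : Cfz} {Y T : ℝ} (hT : 0 ≤ T)
    (h : exp (√3 * aa * |SS lsW u U κ z - VV κ| + 12 * aa ^ 2 * QQ lsW u U κ z) * T ≤ Y) :
    exp (-(√3 * aa * SS lsW u U κ z) + 12 * aa ^ 2 * QQ lsW u U κ z) * T ≤
      exp (-(b0 * VV κ)) * Y := by
  have h1 : exp (-(√3 * aa * SS lsW u U κ z) + 12 * aa ^ 2 * QQ lsW u U κ z) ≤
      exp (-(b0 * VV κ)) *
        exp (√3 * aa * |SS lsW u U κ z - VV κ| + 12 * aa ^ 2 * QQ lsW u U κ z) := by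
    rw [← Real.exp_add, Real.exp_le_exp]
    unfold b0
    have h2 := neg_abs_le (SS lsW u U κ z - VV κ)
    have h3 : 0 < √3 * aa := b0_pos
    nlinarith
  calc _ ≤ exp (-(b0 * VV κ)) *
        exp (√3 * aa * |SS lsW u U κ z - VV κ| + 12 * aa ^ 2 * QQ lsW u U κ z) * T :=
        mul_le_mul_of_nonneg_right h1 hT
    _ = exp (-(b0 * VV κ)) *
        (exp (√3 * aa * |SS lsW u U κ z - VV κ| + 12 * aa ^ 2 * QQ lsW u U κ z) * T) := by ring
    _ ≤ _ := mul_le_mul_of_nonneg_left h (exp_pos _).le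

theorem bd_pos {κ : ℕ} {U : Finset Face} {u : Face → ℝ} {z : Cfz} {Y T : ℝ} (hT : 0 ≤ T)
    (h : exp (√3 * aa * |SS lsW u U κ z - VV κ| + 12 * aa ^ 2 * QQ lsW u U κ z) * T ≤ Y) :
    exp (√3 * aa * SS lsW u U κ z + 12 * aa ^ 2 * QQ lsW u U κ z) * T ≤
      exp (b0 * VV κ) * Y := by
  have h1 : exp (√3 * aa * SS lsW u U κ z + 12 * aa ^ 2 * QQ lsW u U κ z) ≤
      exp (b0 * VV κ) *
        exp (√3 * aa * |SS lsW u U κ z - VV κ| + 12 * aa ^ 2 * QQ lsW u U κ z) := by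
    rw [← Real.exp_add, Real.exp_le_exp]
    unfold b0
    have h2 := le_abs_self (SS lsW u U κ z - VV κ)
    have h3 : 0 < √3 * aa := b0_pos
    nlinarith
  calc _ ≤ exp (b0 * VV κ) *
        exp (√3 * aa * |SS lsW u U κ z - VV κ| + 12 * aa ^ 2 * QQ lsW u U κ z) * T :=
        mul_le_mul_of_nonneg_right h1 hT
    _ = exp (b0 * VV κ) *
        (exp (√3 * aa * |SS lsW u U κ z - VV κ| + 12 * aa ^ 2 * QQ lsW u U κ z) * T) := by ring
    _ ≤ _ := mul_le_mul_of_nonneg_left h (exp_pos _).le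

/-- majorant of a local object -/
structure Mj (G : ℝ) (q : ℕ) (Y : Cfz → ℝ) : Prop where
  dep : ∃ S : Finset Edge, DepF S Y
  one : ∀ z, 1 ≤ Y z
  mom : ∫ z, Y z ^ q ∂μh ≤ G

theorem Mj.int {G : ℝ} {q : ℕ} {Y : Cfz → ℝ} (h : Mj G q Y) (k : ℕ) :
    Integrable (fun z => Y z ^ k) μh := by
  obtain ⟨S, hS⟩ := h.dep
  exact (hS.comp fun y => y ^ k).integrable _

theorem Mj.int' {G : ℝ} {q : ℕ} {Y : Cfz → ℝ} (h : Mj G q Y) : Integrable Y μh := by
  obtain ⟨S, hS⟩ := h.dep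
  exact hS.integrable _

theorem Mj.one_le {G : ℝ} {q : ℕ} {Y : Cfz → ℝ} (h : Mj G q Y) : 1 ≤ G := by
  refine le_trans ?_ h.mom
  have h1 : ∫ _z : Cfz, (1 : ℝ) ∂μh = 1 := by simp
  rw [← h1]
  exact integral_mono (integrable_const _) (h.int q) fun z => one_le_pow₀ (h.one z)

theorem Mj.low {G : ℝ} {q k : ℕ} {Y : Cfz → ℝ} (h : Mj G q Y) (hk : k ≤ q) :
    ∫ z, Y z ^ k ∂μh ≤ G :=
  (integral_mono (h.int k) (h.int q) fun z => pow_le_pow_right₀ (h.one z) hk).trans h.mom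

theorem Mj.low1 {G : ℝ} {q : ℕ} {Y : Cfz → ℝ} (h : Mj G q Y) (hk : 1 ≤ q) :
    ∫ z, Y z ∂μh ≤ G := by
  have := h.low hk
  simpa using this

theorem maj_ws (q : ℕ) : ∃ G : ℝ, 1 ≤ G ∧ ∀ R : ℕ, 64 ≤ R → ∃ Y : Cfz → ℝ, Mj G q Y ∧
    ∀ z, exp (√3 * aa * |SS lsW (ws R) (ws R).support (lv R) z - VV (lv R)| +
      12 * aa ^ 2 * QQ lsW (ws R) (ws R).support (lv R) z) *
        2 ^ (TT (lv R) ((2 * R : ℕ) : ℤ) z).ncard ≤ Y z := by
  obtain ⟨G, hG, h⟩ := maj (C := 1) zero_le_one 16 q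
  refine ⟨G, hG, fun R hR => ?_⟩
  obtain ⟨h1, h2, h3⟩ := lv_bounds (R := R) (by omega)
  obtain ⟨Y, a1, a2, a3, a4⟩ := h (lv R) ((2 * R : ℕ) : ℤ) (ws R).support (ws R) h3 (by
    have : 2 * R ≤ 16 * 2 ^ lv R := by omega
    exact_mod_cast this) (rd_ws hR).toDens
  exact ⟨Y, ⟨a1, a2, a3⟩, a4⟩

theorem maj_us (q : ℕ) : ∃ G : ℝ, 1 ≤ G ∧ ∀ r : ℕ, 64 ≤ r → ∃ Y : Cfz → ℝ, Mj G q Y ∧
    ∀ z, exp (√3 * aa * |SS lsW (us r) (us r).support (lv r) z - VV (lv r)| +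
      12 * aa ^ 2 * QQ lsW (us r) (us r).support (lv r) z) *
        2 ^ (TT (lv r) (r : ℤ) z).ncard ≤ Y z := by
  obtain ⟨G, hG, h⟩ := maj (C := 1) zero_le_one 16 q
  refine ⟨G, hG, fun r hr => ?_⟩
  obtain ⟨h1, h2, h3⟩ := lv_bounds (R := r) (by omega)
  obtain ⟨Y, a1, a2, a3, a4⟩ := h (lv r) (r : ℤ) (us r).support (us r) h3 (by
    have : r ≤ 16 * 2 ^ lv r := by omega
    exact_mod_cast this) (nd_us hr).toDens
  exact ⟨Y, ⟨a1, a2, a3⟩, a4⟩

/-! ### crossing errors -/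

open Classical in
/-- indicator -/
def ind (E : Set Cfz) (z : Cfz) : ℝ := if z ∈ E then 1 else 0

theorem ind_nonneg (E : Set Cfz) (z : Cfz) : 0 ≤ ind E z := by
  unfold ind; split_ifs <;> norm_num

theorem ind_sq (E : Set Cfz) (z : Cfz) : ind E z ^ 2 = ind E z := by
  unfold ind; split_ifs <;> norm_num

theorem ind_of {E : Set Cfz} {z : Cfz} (h : z ∈ E) : ind E z = 1 := if_pos h

theorem ind_not {E : Set Cfz} {z : Cfz} (h : z ∉ E) : ind E z = 0 := if_neg h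


theorem ind_eq (E : Set Cfz) : ind E = E.indicator fun _ => (1 : ℝ) := by
  classical
  funext z
  unfold ind
  rw [Set.indicator_apply]

theorem int_ind {E : Set Cfz} (hE : MeasurableSet E) :
    Integrable (ind E) μh ∧ ∫ z, ind E z ∂μh = (nu Crest.Agent.R158.Rs689.hf).real E := by
  rw [ind_eq]
  refine ⟨(integrable_const _).indicator hE, ?_⟩
  rw [integral_indicator hE, setIntegral_const, smul_eq_mul, mul_one]

theorem meas_A1 (x : P2) (k l : ℤ) : MeasurableSet (A1 x k l) :=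
  (Cpl963.A1_dep x k l).measurableSet

theorem cr_err : ∃ C1 a : ℝ, 1 ≤ C1 ∧ 0 < a ∧ ∀ s S : ℕ, 1 ≤ s → s ≤ S → ∀ (G : ℝ) (Y f : Cfz → ℝ),
    (∀ z, 0 ≤ Y z) → Integrable (fun z => Y z ^ 4) μh → ∫ z, Y z ^ 4 ∂μh ≤ G →
      (∀ z, |f z| ≤ ind (A1 (0, 0) s S) z * Y z) →
        |∫ z, f z ∂μh| ≤ (C1 + G) * ((s : ℝ) / S) ^ a := by
  obtain ⟨C, a, hC, ha, h⟩ := A1_le
  refine ⟨2 * C, a / 2, by linarith, by positivity, fun s S hs hS G Y f hY iY hG hf => ?_⟩
  have hs0 : (0 : ℝ) < s := by exact_mod_cast hs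
  have hS0 : (0 : ℝ) < S := by exact_mod_cast (hs.trans hS)
  set x : ℝ := (s : ℝ) / S with hx
  have hx0 : 0 < x := by positivity
  have hx1 : x ≤ 1 := by
    rw [hx, div_le_one hS0]; exact_mod_cast hS
  have hG0 : 0 ≤ G := le_trans (integral_nonneg fun z => by positivity) hG
  obtain ⟨i1, i2⟩ := int_ind (meas_A1 (0, 0) s S)
  have h1 := h (0, 0) s S hs hS
  set P := (nu Crest.Agent.R158.Rs689.hf).real (A1 (0, 0) s S) with hP
  have hT : 0 < x ^ (-(a / 2)) := Real.rpow_pos_of_pos hx0 _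
  have h2 := tr_int (μ := μh) (X := ind (A1 (0, 0) s S)) (Y := Y) (f := f)
    (T := x ^ (-(a / 2))) (l := 1) hT one_pos 1 (ind_nonneg _) hY hf i1
    (by simp_rw [ind_sq]; exact i1) iY
  simp_rw [ind_sq] at h2
  rw [i2] at h2
  have e1 : (x ^ (-(a / 2))) ^ (2 * 1) = x ^ (-a) := by
    rw [← Real.rpow_natCast, ← Real.rpow_mul hx0.le]
    congr 1; push_cast; ring
  rw [e1, one_mul, one_mul] at h2
  have e2 : x ^ (-(a / 2)) * x ^ a = x ^ (a / 2) := by
    rw [← Real.rpow_add hx0]; congr 1; ring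
  have e3 : x ^ a ≤ x ^ (a / 2) := Real.rpow_le_rpow_of_exponent_ge hx0 hx1 (by linarith)
  have e4 : (∫ z, Y z ^ (2 * 1 + 2) ∂μh) / x ^ (-a) ≤ G * x ^ a := by
    rw [Real.rpow_neg hx0.le, div_inv_eq_mul]
    exact mul_le_mul_of_nonneg_right hG (by positivity)
  have e5 : x ^ (-(a / 2)) * P ≤ C * x ^ (a / 2) := by
    calc x ^ (-(a / 2)) * P ≤ x ^ (-(a / 2)) * (C * x ^ a) := mul_le_mul_of_nonneg_left h1 hT.le
      _ = C * (x ^ (-(a / 2)) * x ^ a) := by ring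
      _ = _ := by rw [e2]
  have e6 : P ≤ C * x ^ (a / 2) := h1.trans (mul_le_mul_of_nonneg_left e3 (by linarith))
  have e7 : G * x ^ a ≤ G * x ^ (a / 2) := mul_le_mul_of_nonneg_left e3 hG0
  have e8 : 0 ≤ G * x ^ (a / 2) := by positivity
  have e9 : 0 ≤ C * x ^ (a / 2) := by
    have : 0 ≤ C := by linarith
    positivity
  nlinarith

/-! ### positivity -/

/-- lower bound for the growth of `VV` between the two levels -/
theorem VV_low (hD : HD) {d : ℝ} (hd : 0 < d) : ∃ C2 : ℝ, 0 ≤ C2 ∧ ∀ᶠ K : ℕ in Filter.atTop,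
    ∀ᶠ r : ℕ in Filter.atTop, (den - d) * log K - C2 ≤ VV (lv (K * r)) - VV (lv r) := by
  obtain ⟨C, hC, hV⟩ := Cn109.VV_diff
  refine ⟨2 * C, by positivity, ?_⟩
  have h1 := (Metric.tendsto_nhds.mp hD) d hd
  rw [Filter.eventually_curry_iff] at h1
  filter_upwards [h1, Filter.eventually_ge_atTop 2] with K hK hK2
  filter_upwards [hK, Filter.eventually_ge_atTop 64] with r hr hr2
  have hl : 0 < log (K : ℝ) := Real.log_pos (by exact_mod_cast hK2)
  rw [Real.dist_eq] at hr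
  have h2 := (abs_lt.1 hr).1
  have h3 : (den - d) * log K < VV (Nat.log 2 (K * r)) - VV (Nat.log 2 r) := by
    have h4 : den - d < (VV (Nat.log 2 (K * r)) - VV (Nat.log 2 r)) / log K := by
      linarith
    rwa [lt_div_iff₀ hl] at h4
  have h5 : VV (Nat.log 2 (K * r)) ≤ VV (lv (K * r)) + 2 * C := by
    have h6 := (hV (lv (K * r)) 2).2
    have h7 : lv (K * r) + 2 = Nat.log 2 (K * r) := by
      have h8 : 2 ≤ Nat.log 2 (K * r) := by
        have h9 : 64 ≤ K * r := by nlinarith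
        have := Nat.log_mono_right (b := 2) h9
        have h4 : Nat.log 2 64 = 6 := by
          rw [show (64 : ℕ) = 2 ^ 6 by norm_num, Nat.log_pow (by norm_num)]
        omega
      unfold lv; omega
    rw [h7] at h6
    push_cast at h6
    linarith
  have h6 : VV (lv r) ≤ VV (Nat.log 2 r) := Cn109.VV_mono (by unfold lv; omega)
  linarith

theorem pow4_le {x y : ℝ} (hx : 0 ≤ x) (hy : 0 ≤ y) : (x * y) ^ 4 ≤ x ^ 8 + y ^ 8 := by
  have h : (x * y) ^ 4 = x ^ 4 * y ^ 4 := by ring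
  rw [h]
  nlinarith [sq_nonneg (x ^ 4 - y ^ 4), pow_nonneg hx 8, pow_nonneg hy 8]

theorem Bn_int {m : Face →₀ ℝ} (hm : Ntr m) (ρ : ℤ) : Integrable (Bn ρ m) μh := PP_int hm _


/-- bound of `Bn` -/
theorem abs_Bn_ws {R : ℕ} (hR : 64 ≤ R) {Y : Cfz → ℝ}
    (hY : ∀ z, exp (√3 * aa * |SS lsW (ws R) (ws R).support (lv R) z - VV (lv R)| +
      12 * aa ^ 2 * QQ lsW (ws R) (ws R).support (lv R) z) *
        2 ^ (TT (lv R) ((2 * R : ℕ) : ℤ) z).ncard ≤ Y z)
    {ρ : ℤ} (hρ : ρ ≤ ((R / 8 : ℕ) : ℤ)) {g : Face} (hg : sd (0, 0) g.1 ≤ ((R / 8 : ℕ) : ℤ))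
    (z : Cfz) : |Bn ρ (wg R g) z| ≤ exp (-(b0 * VV (lv R))) * Y z :=
  (abs_Bn (rd_ws hR) (by push_cast; omega) hρ hg).trans (bd_neg (by positivity) (hY z))

/-- the difference of two `Bn` -/
theorem Bn_diff {C1 a : ℝ} (hcr : ∀ s S : ℕ, 1 ≤ s → s ≤ S → ∀ (G : ℝ) (Y f : Cfz → ℝ),
    (∀ z, 0 ≤ Y z) → Integrable (fun z => Y z ^ 4) μh → ∫ z, Y z ^ 4 ∂μh ≤ G →
      (∀ z, |f z| ≤ ind (A1 (0, 0) s S) z * Y z) →
        |∫ z, f z ∂μh| ≤ (C1 + G) * ((s : ℝ) / S) ^ a) {R : ℕ} (hR : 64 ≤ R) {Y : Cfz → ℝ}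
    (hY : ∀ z, exp (√3 * aa * |SS lsW (ws R) (ws R).support (lv R) z - VV (lv R)| +
      12 * aa ^ 2 * QQ lsW (ws R) (ws R).support (lv R) z) *
        2 ^ (TT (lv R) ((2 * R : ℕ) : ℤ) z).ncard ≤ Y z) {G : ℝ} (hM : Mj G 4 Y)
    {ρ : ℤ} {s : ℕ} (hs1 : 1 ≤ s) (hs : s ≤ R / 8) (hρ : ρ ≤ s) {g : Face}
    (hg : sd (0, 0) g.1 ≤ ((R / 8 : ℕ) : ℤ)) :
    |∫ z, Bn ρ (wg R g) z ∂μh - ∫ z, Bn s (wg R g) z ∂μh| ≤
      2 * exp (-(b0 * VV (lv R))) * ((C1 + G) * ((s : ℝ) / (R / 8 : ℕ)) ^ a) := by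
  have hn := ntr_wg (R := R) (by omega) g
  rw [← integral_sub (Bn_int hn ρ) (Bn_int hn s)]
  set E := exp (-(b0 * VV (lv R))) with hE
  have hE0 : 0 < E := exp_pos _
  have h1 := hcr s (R / 8) hs1 hs G Y
    (fun z => (Bn ρ (wg R g) z - Bn s (wg R g) z) / (2 * E)) (fun z => zero_le_one.trans (hM.one z))
    (hM.int 4) hM.mom ?_
  · rw [integral_div, abs_div, abs_of_pos (by positivity : 0 < 2 * E),
      div_le_iff₀ (by positivity)] at h1
    calc _ ≤ (C1 + G) * ((s : ℝ) / (R / 8 : ℕ)) ^ a * (2 * E) := h1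
      _ = _ := by ring
  · intro z
    rw [abs_div, abs_of_pos (by positivity : 0 < 2 * E), div_le_iff₀ (by positivity)]
    by_cases hz : z ∈ A1 (0, 0) (s : ℤ) ((R / 8 : ℕ) : ℤ)
    · rw [ind_of hz, one_mul]
      have a1 := abs_Bn_ws hR hY (ρ := ρ) (by omega) hg z
      have a2 := abs_Bn_ws hR hY (ρ := s) (by exact_mod_cast hs) hg z
      have a3 := abs_sub (Bn ρ (wg R g) z) (Bn s (wg R g) z)
      rw [← hE] at a1 a2
      linarith
    · rw [ind_not hz, zero_mul, zero_mul]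
      have h2 : Bn ρ (wg R g) z = Bn s (wg R g) z :=
        Bn_Bn (rd_ws hR) (by exact_mod_cast hs) hρ g hz
      rw [h2, sub_self, abs_zero]

set_option maxHeartbeats 4000000 in
/-- **positivity of the mean of `Bn`** -/
theorem EB_pos (hLaw : Bs410.Law3) (hD : HD) : ∃ K : ℕ, 1 ≤ K ∧ ∃ c : ℝ, 0 < c ∧
    ∀ᶠ r : ℕ in Filter.atTop, ∀ (ρ : ℤ) (g : Face), 0 ≤ ρ → ρ ≤ r → sd (0, 0) g.1 ≤ ρ →
      c * exp (-(b0 * VV (lv (K * r)))) ≤ ∫ z, Bn ρ (wg (K * r) g) z ∂μh := by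
  obtain ⟨C1, a, hC1, ha, hcr⟩ := cr_err
  obtain ⟨G, hG, hws⟩ := maj_ws 8
  obtain ⟨G', hG', hus⟩ := maj_us 8
  have hb := b0_pos
  obtain ⟨C2, hC2, hV⟩ := VV_low hD (d := a / (4 * b0)) (by positivity)
  set S2 := Bk430.C2 (-aa) with hS2
  have hS2p : 0 < S2 := exp_pos _
  set E2 := exp (b0 * C2) with hE2
  have hE2p : 1 ≤ E2 := one_le_exp (by positivity)
  -- constants
  set c4 : ℝ := 2 * E2 * ((C1 + (G + G')) * (1 + 64 ^ a)) with hc4
  set c5 : ℝ := 1 / (2 * S2 * G' * E2) with hc5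
  set c6 : ℝ := 2 * ((C1 + G) * 64 ^ a) with hc6
  have hc5p : 0 < c5 := by positivity
  -- choice of `k`
  have hk1 : Filter.Tendsto (fun k : ℕ => c4 * (k : ℝ) ^ (-(a / 2))) Filter.atTop (nhds (c4 * 0)) :=
    ((tendsto_rpow_neg_atTop (by positivity)).comp tendsto_natCast_atTop_atTop).const_mul _
  have hk2 : Filter.Tendsto (fun k : ℕ => c6 * (k : ℝ) ^ (-(a / 2))) Filter.atTop (nhds (c6 * 0)) :=
    ((tendsto_rpow_neg_atTop (by positivity)).comp tendsto_natCast_atTop_atTop).const_mul _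
  rw [mul_zero] at hk1 hk2
  have hV' : ∀ᶠ k : ℕ in Filter.atTop, ∀ᶠ r : ℕ in Filter.atTop,
      (den - a / (4 * b0)) * log ((k ^ 2 : ℕ) : ℝ) - C2 ≤ VV (lv (k ^ 2 * r)) - VV (lv r) :=
    (Filter.tendsto_pow_atTop (by norm_num : (2 : ℕ) ≠ 0)).eventually hV
  obtain ⟨k, hk3, hk4, hk5, hk6⟩ := ((hk1.eventually (gt_mem_nhds
    (show (0 : ℝ) < 1 / (2 * S2) by positivity))).and ((hk2.eventually (gt_mem_nhds
    (show (0 : ℝ) < c5 / 2 by positivity))).and
    (hV'.and (Filter.eventually_ge_atTop 64)))).exists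
  have hk0 : (0 : ℝ) < k := by
    have : 0 < k := by omega
    exact_mod_cast this
  have hkk : (0 : ℝ) < (k : ℝ) ^ (-(a / 2)) := Real.rpow_pos_of_pos hk0 _
  refine ⟨k ^ 2, Nat.one_le_pow _ _ (by omega), c5 / 2 * (k : ℝ) ^ (-(a / 2)), by positivity, ?_⟩
  filter_upwards [hk5, Bk430.star2 hLaw (-aa) (K := k ^ 2) (Nat.one_le_pow _ _ (by omega)),
    Filter.eventually_ge_atTop 64] with r hVr hst hr64 ρ g hρ0 hρ hg
  set R := k ^ 2 * r with hR
  have hkr : k * r ≤ R := by rw [hR, pow_two]; nlinarith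
  have hR64 : 64 ≤ R := by nlinarith
  obtain ⟨Y, hY1, hY2⟩ := hws R hR64
  obtain ⟨Z, hZ1, hZ2⟩ := hus r hr64
  set EV := exp (-(b0 * VV (lv R))) with hEV
  set EN := exp (b0 * VV (lv r)) with hEN
  have hEVp : 0 < EV := exp_pos _
  have hENp : 0 < EN := exp_pos _
  -- radii
  have hr0 : (0 : ℝ) < r := by
    have : 0 < r := by omega
    exact_mod_cast this
  have hs1 : k * r + 3 ≤ R / 8 := by
    rw [Nat.le_div_iff_mul_le (by norm_num), hR, pow_two]
    nlinarith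
  have hratio : ((k * r + 3 : ℕ) : ℝ) / (R / 8 : ℕ) ≤ 64 / k := by
    have h1 : (R : ℝ) / 16 ≤ ((R / 8 : ℕ) : ℝ) := by
      have h2 : R ≤ 16 * (R / 8) := by omega
      have h3 : (R : ℝ) ≤ 16 * ((R / 8 : ℕ) : ℝ) := by exact_mod_cast h2
      linarith
    have h2 : (0 : ℝ) < R := by
      have : 0 < R := by omega
      exact_mod_cast this
    have h3 : ((k * r + 3 : ℕ) : ℝ) ≤ 4 * (k * r) := by
      have h4 : k * r + 3 ≤ 4 * (k * r) := by nlinarith
      exact_mod_cast h4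
    rw [div_le_div_iff₀ (by linarith) hk0]
    have h4 : (R : ℝ) = k ^ 2 * r := by rw [hR]; push_cast; ring
    calc ((k * r + 3 : ℕ) : ℝ) * k ≤ 4 * (k * r) * k := mul_le_mul_of_nonneg_right h3 hk0.le
      _ = 64 * (R / 16) := by rw [h4]; ring
      _ ≤ 64 * ((R / 8 : ℕ) : ℝ) := mul_le_mul_of_nonneg_left h1 (by norm_num)
  have hratio2 : (((k * r + 3 : ℕ) : ℝ) / (R / 8 : ℕ)) ^ a ≤ 64 ^ a * (k : ℝ) ^ (-a) := by
    calc _ ≤ (64 / (k : ℝ)) ^ a := Real.rpow_le_rpow (by positivity) hratio ha.le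
      _ = _ := by rw [Real.div_rpow (by norm_num) hk0.le, Real.rpow_neg hk0.le]; rfl
  have hratio1 : ((r : ℝ) / (k * r : ℕ)) ^ a = (k : ℝ) ^ (-a) := by
    rw [Real.rpow_neg hk0.le, ← Real.inv_rpow hk0.le]
    congr 1
    push_cast
    field_simp
  -- comparison of the two levels
  have hgap : exp (-(b0 * (VV (lv R) - VV (lv r)))) ≤
      E2 * ((k : ℝ) ^ (-(2 / 3 : ℝ)) * (k : ℝ) ^ (a / 2)) := by
    rw [← Real.rpow_add hk0, hE2, Real.rpow_def_of_pos hk0, ← Real.exp_add, Real.exp_le_exp]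
    have h1 := hVr
    have h2 : log ((k ^ 2 : ℕ) : ℝ) = 2 * log k := by push_cast; rw [Real.log_pow]; push_cast; ring
    rw [h2] at h1
    have h3 := mul_le_mul_of_nonneg_left h1 hb.le
    have h4 : b0 * ((den - a / (4 * b0)) * (2 * log k) - C2) =
        (b0 * den) * (2 * log k) - a / 2 * log k - b0 * C2 := by
      field_simp
      ring
    rw [h4, b0_den] at h3
    linarith
  have hgap' : EV * (1 / E2 * ((k : ℝ) ^ (2 / 3 : ℝ) * (k : ℝ) ^ (-(a / 2)))) ≤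
      exp (-(b0 * VV (lv r))) := by
    have h1 : 1 / E2 * ((k : ℝ) ^ (2 / 3 : ℝ) * (k : ℝ) ^ (-(a / 2))) *
        exp (-(b0 * (VV (lv R) - VV (lv r)))) ≤ 1 := by
      calc _ ≤ 1 / E2 * ((k : ℝ) ^ (2 / 3 : ℝ) * (k : ℝ) ^ (-(a / 2))) *
            (E2 * ((k : ℝ) ^ (-(2 / 3 : ℝ)) * (k : ℝ) ^ (a / 2))) :=
            mul_le_mul_of_nonneg_left hgap (by positivity)
        _ = (1 / E2 * E2) * (((k : ℝ) ^ (2 / 3 : ℝ) * (k : ℝ) ^ (-(2 / 3 : ℝ))) *
            ((k : ℝ) ^ (-(a / 2)) * (k : ℝ) ^ (a / 2))) := by ring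
        _ = 1 := by
            rw [← Real.rpow_add hk0, ← Real.rpow_add hk0]
            simp
            field_simp
    have h2 : EV = exp (-(b0 * (VV (lv R) - VV (lv r)))) * exp (-(b0 * VV (lv r))) := by
      rw [hEV, ← Real.exp_add]; congr 1; ring
    rw [h2]
    have h3 : 0 < exp (-(b0 * VV (lv r))) := exp_pos _
    nlinarith
  -- the identity
  have rd := rd_ws hR64
  have nd := nd_us hr64
  have hnr := ntr_wr (R := R) (r := r) (by omega) (by omega)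
  set F : Cfz → ℝ := fun z => W (wr R r) z - An (k * r : ℕ) (wr R r) z *
    Bn ((k * r : ℕ) + 3) (wr R r) z with hF
  have hdep : Integrable (fun z => An (k * r : ℕ) (wr R r) z * Bn ((k * r : ℕ) + 3) (wr R r) z)
      μh := by
    obtain ⟨M, hM⟩ := abs_PP_le hnr
    refine Integrable.bdd_mul (c := M) (PP_int hnr _) (measurable_PP hnr _).aestronglyMeasurable ?_
    exact Filter.Eventually.of_forall fun z => by rw [Real.norm_eq_abs]; exact hM _ z
  have hYZ : ∀ z, |W (wr R r) z| ≤ EV * EN * (Y z * Z z) := by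
    intro z
    have h1 := abs_W_nm (z := z) rd (by push_cast; omega) nd (by
      have : 2 * r ≤ R / 8 := by
        have : 2 * r ≤ k * r := by nlinarith
        omega
      exact_mod_cast this)
    have h2 := bd_neg (by positivity) (hY2 z)
    have h3 := bd_pos (by positivity) (hZ2 z)
    refine h1.trans ?_
    calc _ ≤ (EV * Y z) * (EN * Z z) := mul_le_mul h2 h3 (by positivity)
          (mul_nonneg hEVp.le (zero_le_one.trans (hY1.one z)))
      _ = _ := by ring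
  have hAn : ∀ z, |An (k * r : ℕ) (wr R r) z| ≤ EN * Z z := fun z =>
    (An_le (z := z) rd nd (ρ := (k * r : ℕ)) (by
      have : 2 * r ≤ k * r := by nlinarith
      exact_mod_cast this) (by
      have : k * r ≤ R / 8 := by omega
      exact_mod_cast this)).trans (bd_pos (by positivity) (hZ2 z))
  have hBeq : ∀ z, Bn ((k * r : ℕ) + 3) (wr R r) z = Bn ((k * r : ℕ) + 3) (wg R g) z := fun z =>
    Bn_nm nd (by
      have : r ≤ k * r + 3 := by nlinarith
      exact_mod_cast this) (by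
      have h1 : (r : ℤ) ≤ (k * r : ℕ) := by
        have : r ≤ k * r := by nlinarith
        exact_mod_cast this
      linarith)
  have hgR : sd (0, 0) g.1 ≤ ((R / 8 : ℕ) : ℤ) := by
    have h1 : (r : ℤ) ≤ ((R / 8 : ℕ) : ℤ) := by
      have : r ≤ R / 8 := by
        have : r ≤ k * r := by nlinarith
        omega
      exact_mod_cast this
    linarith
  have hBn : ∀ z, |Bn ((k * r : ℕ) + 3) (wr R r) z| ≤ EV * Y z := fun z => by
    rw [hBeq]
    exact abs_Bn_ws hR64 hY2 (by exact_mod_cast hs1) hgR z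
  have hF1 : ∀ z, |F z| ≤ 2 * (EV * EN) * (Y z * Z z) := by
    intro z
    have h1 : |An (k * r : ℕ) (wr R r) z * Bn ((k * r : ℕ) + 3) (wr R r) z| ≤
        EV * EN * (Y z * Z z) := by
      rw [abs_mul]
      calc _ ≤ (EN * Z z) * (EV * Y z) := mul_le_mul (hAn z) (hBn z) (abs_nonneg _)
            (mul_nonneg hENp.le (zero_le_one.trans (hZ1.one z)))
        _ = _ := by ring
    have h2 := abs_sub (W (wr R r) z) (An (k * r : ℕ) (wr R r) z *
      Bn ((k * r : ℕ) + 3) (wr R r) z)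
    have h3 := hYZ z
    show |W (wr R r) z - An (k * r : ℕ) (wr R r) z * Bn ((k * r : ℕ) + 3) (wr R r) z| ≤ _
    linarith
  have hF0 : ∀ z, z ∉ A1 (0, 0) (r : ℤ) ((k * r : ℕ) : ℤ) →
      z ∉ A1 (0, 0) ((k * r + 3 : ℕ) : ℤ) ((R / 8 : ℕ) : ℤ) → F z = 0 := by
    intro z c1 c2
    have h1 := W_fac (z := z) rd nd (by positivity) (ρ := ((k * r : ℕ) : ℤ)) (by
      have : r ≤ k * r := by nlinarith
      exact_mod_cast this) (by exact_mod_cast hs1) c1 (by
      have e : ((k * r : ℕ) : ℤ) + 3 = ((k * r + 3 : ℕ) : ℤ) := by push_cast; ring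
      rw [e]; exact c2)
    show W (wr R r) z - _ = 0
    unfold wr
    rw [h1, sub_self]
  have hYZn : ∀ z, 0 ≤ Y z * Z z := fun z =>
    mul_nonneg (zero_le_one.trans (hY1.one z)) (zero_le_one.trans (hZ1.one z))
  have hYZd : ∃ S : Finset Edge, DepF S (fun z => Y z * Z z) := by
    classical
    obtain ⟨S1, h1⟩ := hY1.dep
    obtain ⟨S2, h2⟩ := hZ1.dep
    exact ⟨S1 ∪ S2, (h1.mono Finset.subset_union_left).mul (h2.mono Finset.subset_union_right)⟩
  have iYZ : Integrable (fun z => (Y z * Z z) ^ 4) μh := by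
    obtain ⟨S, hS⟩ := hYZd
    exact (hS.comp fun y => y ^ 4).integrable _
  have hYZ4 : ∫ z, (Y z * Z z) ^ 4 ∂μh ≤ G + G' := by
    calc ∫ z, (Y z * Z z) ^ 4 ∂μh ≤ ∫ z, (Y z ^ 8 + Z z ^ 8) ∂μh :=
          integral_mono iYZ ((hY1.int 8).add (hZ1.int 8)) fun z =>
            pow4_le (zero_le_one.trans (hY1.one z)) (zero_le_one.trans (hZ1.one z))
      _ = ∫ z, Y z ^ 8 ∂μh + ∫ z, Z z ^ 8 ∂μh := integral_add (hY1.int 8) (hZ1.int 8)
      _ ≤ G + G' := add_le_add hY1.mom hZ1.mom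
  set EE := 2 * (EV * EN) with hEE
  have hEEp : 0 < EE := by positivity
  have hWi : Integrable (W (wr R r)) μh := integrable_W hnr _
  have hFi : Integrable F μh := hWi.sub hdep
  have hFm : Measurable F := (measurable_W hnr).sub ((measurable_PP hnr _).mul (measurable_PP hnr _))
  have hIF : |∫ z, F z ∂μh| ≤ EE * ((C1 + (G + G')) * (k : ℝ) ^ (-a)) +
      EE * ((C1 + (G + G')) * (64 ^ a * (k : ℝ) ^ (-a))) := by
    set E1 := A1 (0, 0) (r : ℤ) ((k * r : ℕ) : ℤ) with hE1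
    have m1 : MeasurableSet E1 := meas_A1 _ _ _
    have hsplit : ∫ z, F z ∂μh = ∫ z, E1.indicator F z ∂μh + ∫ z, E1ᶜ.indicator F z ∂μh := by
      rw [← integral_add (hFi.indicator m1) (hFi.indicator m1.compl)]
      refine integral_congr_ae (Filter.Eventually.of_forall fun z => ?_)
      exact (congrFun (Set.indicator_self_add_compl E1 F) z).symm
    have b1 := hcr r (k * r) (by omega) (by nlinarith) (G + G') (fun z => Y z * Z z)
      (fun z => E1.indicator F z / EE) hYZn iYZ hYZ4 (fun z => by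
        rw [abs_div, abs_of_pos hEEp, div_le_iff₀ hEEp]
        by_cases hz : z ∈ E1
        · rw [Set.indicator_of_mem hz, ind_of hz, one_mul]
          exact (hF1 z).trans (le_of_eq (by ring))
        · rw [Set.indicator_of_notMem hz, ind_not hz, abs_zero, zero_mul, zero_mul])
    have b2 := hcr (k * r + 3) (R / 8) (by omega) hs1 (G + G') (fun z => Y z * Z z)
      (fun z => E1ᶜ.indicator F z / EE) hYZn iYZ hYZ4 (fun z => by
        rw [abs_div, abs_of_pos hEEp, div_le_iff₀ hEEp]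
        by_cases hz : z ∈ A1 (0, 0) ((k * r + 3 : ℕ) : ℤ) ((R / 8 : ℕ) : ℤ)
        · rw [ind_of hz, one_mul]
          refine le_trans ?_ ((hF1 z).trans (le_of_eq (by ring)))
          by_cases hz' : z ∈ E1ᶜ
          · rw [Set.indicator_of_mem hz']
          · rw [Set.indicator_of_notMem hz', abs_zero]; exact abs_nonneg _
        · rw [ind_not hz, zero_mul, zero_mul]
          by_cases hz' : z ∈ E1ᶜ
          · rw [Set.indicator_of_mem hz', hF0 z hz' hz, abs_zero]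
          · rw [Set.indicator_of_notMem hz', abs_zero])
    rw [integral_div, abs_div, abs_of_pos hEEp, div_le_iff₀ hEEp] at b1 b2
    rw [hratio1] at b1
    have hCG : 0 ≤ C1 + (G + G') := by linarith
    have b3 : |∫ z, E1ᶜ.indicator F z ∂μh| ≤
        EE * ((C1 + (G + G')) * (64 ^ a * (k : ℝ) ^ (-a))) :=
      b2.trans (by
        rw [mul_comm]
        exact mul_le_mul_of_nonneg_left (mul_le_mul_of_nonneg_left hratio2 hCG) hEEp.le)
    rw [hsplit]
    refine (abs_add_le _ _).trans (add_le_add ?_ b3)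
    rw [mul_comm]; exact b1
  -- the product
  have hprod : ∫ z, An (k * r : ℕ) (wr R r) z * Bn ((k * r : ℕ) + 3) (wr R r) z ∂μh =
      (∫ z, An (k * r : ℕ) (wr R r) z ∂μh) * ∫ z, Bn ((k * r : ℕ) + 3) (wr R r) z ∂μh :=
    An_Bn hnr
  have hsum : ∫ z, F z ∂μh = ∫ z, W (wr R r) z ∂μh -
      ∫ z, An (k * r : ℕ) (wr R r) z * Bn ((k * r : ℕ) + 3) (wr R r) z ∂μh :=
    integral_sub hWi hdep
  have hkm : (k : ℝ) ^ (-(2 / 3 : ℝ)) / S2 ≤ ∫ z, W (wr R r) z ∂μh := by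
    have h1 := hst.1
    rw [m2_eq] at h1
    refine le_trans (le_of_eq ?_) h1
    have h2 : -(3 * (-aa) ^ 2 / (4 * π ^ 2)) * log ((k ^ 2 : ℕ) : ℝ) = -(2 / 3) * log k := by
      push_cast
      rw [Real.log_pow]
      unfold aa
      have := Real.pi_pos
      push_cast
      field_simp
      ring
    rw [h2, Real.rpow_def_of_pos hk0]
    congr 2
    ring
  have hEVN : EV * EN = exp (-(b0 * (VV (lv R) - VV (lv r)))) := by
    rw [hEV, hEN, ← Real.exp_add]; congr 1; ring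
  have hprod_low : (k : ℝ) ^ (-(2 / 3 : ℝ)) * (1 / (2 * S2)) ≤
      (∫ z, An (k * r : ℕ) (wr R r) z ∂μh) * ∫ z, Bn ((k * r : ℕ) + 3) (wr R r) z ∂μh := by
    rw [← hprod]
    have h1 := (abs_le.1 hIF).2
    rw [hsum] at h1
    have h2 : EE * ((C1 + (G + G')) * (k : ℝ) ^ (-a)) +
        EE * ((C1 + (G + G')) * (64 ^ a * (k : ℝ) ^ (-a))) ≤
        (k : ℝ) ^ (-(2 / 3 : ℝ)) * (1 / (2 * S2)) := by
      have h3 : EE ≤ 2 * (E2 * ((k : ℝ) ^ (-(2 / 3 : ℝ)) * (k : ℝ) ^ (a / 2))) := by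
        rw [hEE, hEVN]; linarith
      have hCG : 0 ≤ C1 + (G + G') := by linarith
      calc EE * ((C1 + (G + G')) * (k : ℝ) ^ (-a)) +
            EE * ((C1 + (G + G')) * (64 ^ a * (k : ℝ) ^ (-a)))
          = EE * ((C1 + (G + G')) * (1 + 64 ^ a) * (k : ℝ) ^ (-a)) := by ring
        _ ≤ 2 * (E2 * ((k : ℝ) ^ (-(2 / 3 : ℝ)) * (k : ℝ) ^ (a / 2))) *
            ((C1 + (G + G')) * (1 + 64 ^ a) * (k : ℝ) ^ (-a)) :=
            mul_le_mul_of_nonneg_right h3 (by positivity)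
        _ = (k : ℝ) ^ (-(2 / 3 : ℝ)) * (c4 * ((k : ℝ) ^ (a / 2) * (k : ℝ) ^ (-a))) := by
            rw [hc4]; ring
        _ = (k : ℝ) ^ (-(2 / 3 : ℝ)) * (c4 * (k : ℝ) ^ (-(a / 2))) := by
            rw [← Real.rpow_add hk0]; congr 3; ring
        _ ≤ _ := mul_le_mul_of_nonneg_left hk3.le (by positivity)
    have h4 : (k : ℝ) ^ (-(2 / 3 : ℝ)) / S2 = (k : ℝ) ^ (-(2 / 3 : ℝ)) * (1 / (2 * S2)) +
        (k : ℝ) ^ (-(2 / 3 : ℝ)) * (1 / (2 * S2)) := by
      field_simp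
      ring
    linarith
  -- lower bound for the far factor
  have hA1 : 1 ≤ ∫ z, An (k * r : ℕ) (wr R r) z ∂μh := by
    have h1 : ∫ _z : Cfz, (1 : ℝ) ∂μh = 1 := by simp
    rw [← h1]
    refine integral_mono (integrable_const _) (PP_int hnr _) fun z => ?_
    exact one_le_An rd nd (by
      have : k * r ≤ R / 8 := by omega
      exact_mod_cast this)
  have hA2 : ∫ z, An (k * r : ℕ) (wr R r) z ∂μh ≤ EN * G' := by
    calc ∫ z, An (k * r : ℕ) (wr R r) z ∂μh ≤ ∫ z, EN * Z z ∂μh :=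
          integral_mono (PP_int hnr _) (hZ1.int'.const_mul _) fun z =>
            (le_abs_self _).trans (hAn z)
      _ = EN * ∫ z, Z z ∂μh := integral_const_mul _ _
      _ ≤ EN * G' := mul_le_mul_of_nonneg_left (hZ1.low1 (by norm_num)) hENp.le
  set IB := ∫ z, Bn ((k * r : ℕ) + 3) (wr R r) z ∂μh with hIB
  have hB1 : (k : ℝ) ^ (-(2 / 3 : ℝ)) * (1 / (2 * S2)) ≤ EN * G' * IB := by
    have hIB0 : 0 ≤ IB := by
      by_contra hcon
      push Not at hcon
      have : (∫ z, An (k * r : ℕ) (wr R r) z ∂μh) * IB ≤ 0 :=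
        mul_nonpos_of_nonneg_of_nonpos (by linarith) hcon.le
      have h2 : 0 < (k : ℝ) ^ (-(2 / 3 : ℝ)) * (1 / (2 * S2)) := by positivity
      linarith
    exact hprod_low.trans (mul_le_mul_of_nonneg_right hA2 hIB0)
  have hB2 : c5 * (k : ℝ) ^ (-(a / 2)) * EV ≤ IB := by
    have hG'p : 0 < G' := by linarith
    have h1 : exp (-(b0 * VV (lv r))) * EN = 1 := by
      rw [hEN, ← Real.exp_add]; simp
    have h2 := mul_le_mul_of_nonneg_left hB1 (exp_pos (-(b0 * VV (lv r)))).le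
    have h3 : exp (-(b0 * VV (lv r))) * (EN * G' * IB) = G' * IB := by
      calc _ = (exp (-(b0 * VV (lv r))) * EN) * (G' * IB) := by ring
        _ = _ := by rw [h1, one_mul]
    rw [h3] at h2
    have h4 := mul_le_mul_of_nonneg_right hgap'
      (show 0 ≤ (k : ℝ) ^ (-(2 / 3 : ℝ)) * (1 / (2 * S2)) by positivity)
    have h5 : EV * (1 / E2 * ((k : ℝ) ^ (2 / 3 : ℝ) * (k : ℝ) ^ (-(a / 2)))) *
        ((k : ℝ) ^ (-(2 / 3 : ℝ)) * (1 / (2 * S2))) = G' * (c5 * (k : ℝ) ^ (-(a / 2)) * EV) := by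
      have h6 : (k : ℝ) ^ (2 / 3 : ℝ) * (k : ℝ) ^ (-(2 / 3 : ℝ)) = 1 := by
        rw [← Real.rpow_add hk0]; simp
      calc _ = EV * (1 / E2) * (k : ℝ) ^ (-(a / 2)) * (1 / (2 * S2)) *
            ((k : ℝ) ^ (2 / 3 : ℝ) * (k : ℝ) ^ (-(2 / 3 : ℝ))) := by ring
        _ = EV * (1 / E2) * (k : ℝ) ^ (-(a / 2)) * (1 / (2 * S2)) := by rw [h6, mul_one]
        _ = _ := by
            rw [hc5]
            field_simp
    rw [h5] at h4
    have h6 : G' * (c5 * (k : ℝ) ^ (-(a / 2)) * EV) ≤ G' * IB := h4.trans h2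
    exact le_of_mul_le_mul_left h6 hG'p
  -- change of radius
  have hIB' : IB = ∫ z, Bn ((k * r + 3 : ℕ) : ℤ) (wg R g) z ∂μh := by
    rw [hIB]
    refine integral_congr_ae (Filter.Eventually.of_forall fun z => ?_)
    show Bn ((k * r : ℕ) + 3) (wr R r) z = Bn ((k * r + 3 : ℕ) : ℤ) (wg R g) z
    rw [hBeq]
    push_cast
    rfl
  have hM4 : Mj G 4 Y := ⟨hY1.dep, hY1.one, hY1.low (by norm_num)⟩
  have hd := Bn_diff hcr hR64 hY2 hM4 (ρ := ρ) (s := k * r + 3) (by omega) hs1 (by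
    have : (r : ℤ) ≤ ((k * r + 3 : ℕ) : ℤ) := by
      have : r ≤ k * r + 3 := by nlinarith
      exact_mod_cast this
    linarith) hgR
  rw [← hIB', ← hEV] at hd
  have hd1 := (abs_le.1 hd).1
  have hCG : 0 ≤ C1 + G := by linarith
  have hd2 : 2 * EV * ((C1 + G) * (((k * r + 3 : ℕ) : ℝ) / (R / 8 : ℕ)) ^ a) ≤
      EV * (c6 * (k : ℝ) ^ (-(a / 2)) * (k : ℝ) ^ (-(a / 2))) := by
    have h1 : (k : ℝ) ^ (-(a / 2)) * (k : ℝ) ^ (-(a / 2)) = (k : ℝ) ^ (-a) := by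
      rw [← Real.rpow_add hk0]; congr 1; ring
    calc _ ≤ 2 * EV * ((C1 + G) * (64 ^ a * (k : ℝ) ^ (-a))) :=
          mul_le_mul_of_nonneg_left (mul_le_mul_of_nonneg_left hratio2 hCG) (by positivity)
      _ = EV * (c6 * (k : ℝ) ^ (-a)) := by rw [hc6]; ring
      _ = _ := by rw [← h1]; ring
  have hd3 : c6 * (k : ℝ) ^ (-(a / 2)) * (k : ℝ) ^ (-(a / 2)) ≤ c5 / 2 * (k : ℝ) ^ (-(a / 2)) :=
    mul_le_mul_of_nonneg_right hk4.le hkk.le
  have hd4 : EV * (c6 * (k : ℝ) ^ (-(a / 2)) * (k : ℝ) ^ (-(a / 2))) ≤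
      EV * (c5 / 2 * (k : ℝ) ^ (-(a / 2))) := mul_le_mul_of_nonneg_left hd3 hEVp.le
  nlinarith

end Crest.Agent.R158.Fd61
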