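import Crest.Agent.R158.Rs5_689
import Crest.Agent.R158.Hp1_814

-- ▼ part R158/Fl1_440
section

/-!
# Row 158, Block FW (helper440): the flat medial wall, 1: crossing lemma in medial coordinates

`pp v = (2 (x+y) + 1, 2 (y-x) + 1)` : doubled medial position of the primal vertex `v = (x,y)`
`pd f = (2 (x+y) + 3, 2 (y-x) + 1)` : doubled medial position of the dual vertex `f = (x,y)`
`tc e` : doubled medial position of the tile (medial vertex) of the edge `e`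

Primal paths go through the N/S mid points of the tiles, dual paths through the E/W mid points; so they
are disjoint and the crossing lemma `Topo374.cross` applies in medial (45 degrees) coordinates.
-/

set_option autoImplicit false

noncomputable section

namespace Crest.Agent.R158.Fl440

open MeasureTheory ProbabilityTheory unitInterval
open Crest.Agent.R161.Geo729 Crest.Agent.R161.Topo374 Crest.Agent.R161.Dual374
open Crest.Agent.R161.Tas682 Crest.Agent.R158.Rs689 Crest.Agent.R158.Hp814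
open scoped ENNReal

/-- medial abscissa -/
def mX (v : P2) : ℤ := v.1 + v.2
/-- medial ordinate -/
def mY (v : P2) : ℤ := v.2 - v.1

/-- doubled medial position of a primal vertex -/
def pp (v : P2) : P2 := (2 * (v.1 + v.2) + 1, 2 * (v.2 - v.1) + 1)
/-- doubled medial position of a dual vertex -/
def pd (v : P2) : P2 := (2 * (v.1 + v.2) + 3, 2 * (v.2 - v.1) + 1)
/-- doubled medial position of the tile of an edge -/
def tc (e : Edge) : P2 :=
  (2 * (e.1.1 + e.1.2) + 2, 2 * (e.1.2 - e.1.1) + if e.2 then 2 else 0)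

theorem tc_inj {e e' : Edge} (h : tc e = tc e') : e = e' := by
  obtain ⟨⟨a, b⟩, c⟩ := e
  obtain ⟨⟨a', b'⟩, c'⟩ := e'
  simp only [tc, Prod.mk.injEq] at h
  cases c <;> cases c' <;> simp at h ⊢ <;> omega

/-- medial points of primal paths inside `S` -/
def MP (z : Cfz) (S : Set P2) : Set P2 :=
  {w | (∃ v ∈ S, w = pp v) ∨ ∃ e : Edge, z e = true ∧ src e ∈ S ∧ tgt e ∈ S ∧
    (w = tc e ∨ w = ((tc e).1, (tc e).2 + 1) ∨ w = ((tc e).1, (tc e).2 - 1))}

/-- medial points of dual paths inside `S` -/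
def MD (z : Cfz) (S : Set P2) : Set P2 :=
  {w | (∃ v ∈ S, w = pd v) ∨ ∃ e : Edge, z e = true ∧ src e ∈ S ∧ tgt e ∈ S ∧
    (w = tc (dE.symm e) ∨ w = ((tc (dE.symm e)).1 + 1, (tc (dE.symm e)).2) ∨
      w = ((tc (dE.symm e)).1 - 1, (tc (dE.symm e)).2))}

theorem walk_two {T : Set P2} {a b c : P2} (ha : a ∈ T) (hb : b ∈ T) (hc : c ∈ T) (h1 : Nbr a b)
    (h2 : Nbr b c) : Walk T a c := (Walk.step ha hb h1).trans (Walk.step hb hc h2)

theorem oc_mp {z : Cfz} {S : Set P2} {u v : P2} (h : OC z S u v) : Walk (MP z S) (pp u) (pp v) := by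
  obtain ⟨huS, h⟩ := h
  induction h with
  | refl => exact Walk.refl (Or.inl ⟨u, huS, rfl⟩)
  | @tail b c _ h2 ih =>
    refine ih.trans ?_
    obtain ⟨⟨e, he, hbc⟩, hb, hc⟩ := h2
    have hs : src e ∈ S := by rcases hbc with ⟨rfl, rfl⟩ | ⟨rfl, rfl⟩ <;> assumption
    have ht : tgt e ∈ S := by rcases hbc with ⟨rfl, rfl⟩ | ⟨rfl, rfl⟩ <;> assumption
    have key : Walk (MP z S) (pp (src e)) (pp (tgt e)) := by
      have p0 : pp (src e) ∈ MP z S := Or.inl ⟨_, hs, rfl⟩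
      have p1 : pp (tgt e) ∈ MP z S := Or.inl ⟨_, ht, rfl⟩
      have m0 : tc e ∈ MP z S := Or.inr ⟨e, he, hs, ht, Or.inl rfl⟩
      have m1 : ((tc e).1, (tc e).2 + 1) ∈ MP z S := Or.inr ⟨e, he, hs, ht, Or.inr (Or.inl rfl)⟩
      have m2 : ((tc e).1, (tc e).2 - 1) ∈ MP z S := Or.inr ⟨e, he, hs, ht, Or.inr (Or.inr rfl)⟩
      obtain ⟨⟨i, j⟩, k⟩ := e
      cases k
      · refine (walk_two p0 m1 m0 ?_ ?_).trans (walk_two m0 m2 p1 ?_ ?_) <;>
          simp [Nbr, pp, tc] <;> omega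
      · refine (walk_two p0 m2 m0 ?_ ?_).trans (walk_two m0 m1 p1 ?_ ?_) <;>
          simp [Nbr, pp, tc] <;> omega
    rcases hbc with ⟨rfl, rfl⟩ | ⟨rfl, rfl⟩
    · exact key
    · exact key.symm

theorem oc_md {z : Cfz} {S : Set P2} {u v : P2} (h : OC z S u v) : Walk (MD z S) (pd u) (pd v) := by
  obtain ⟨huS, h⟩ := h
  induction h with
  | refl => exact Walk.refl (Or.inl ⟨u, huS, rfl⟩)
  | @tail b c _ h2 ih =>
    refine ih.trans ?_
    obtain ⟨⟨e, he, hbc⟩, hb, hc⟩ := h2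
    have hs : src e ∈ S := by rcases hbc with ⟨rfl, rfl⟩ | ⟨rfl, rfl⟩ <;> assumption
    have ht : tgt e ∈ S := by rcases hbc with ⟨rfl, rfl⟩ | ⟨rfl, rfl⟩ <;> assumption
    have key : Walk (MD z S) (pd (src e)) (pd (tgt e)) := by
      have p0 : pd (src e) ∈ MD z S := Or.inl ⟨_, hs, rfl⟩
      have p1 : pd (tgt e) ∈ MD z S := Or.inl ⟨_, ht, rfl⟩
      have m0 : tc (dE.symm e) ∈ MD z S := Or.inr ⟨e, he, hs, ht, Or.inl rfl⟩
      have m1 : ((tc (dE.symm e)).1 + 1, (tc (dE.symm e)).2) ∈ MD z S :=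
        Or.inr ⟨e, he, hs, ht, Or.inr (Or.inl rfl)⟩
      have m2 : ((tc (dE.symm e)).1 - 1, (tc (dE.symm e)).2) ∈ MD z S :=
        Or.inr ⟨e, he, hs, ht, Or.inr (Or.inr rfl)⟩
      obtain ⟨⟨i, j⟩, k⟩ := e
      cases k
      · refine (walk_two p0 m2 m0 ?_ ?_).trans (walk_two m0 m1 p1 ?_ ?_) <;>
          simp [Nbr, pd, tc] <;> omega
      · refine (walk_two p0 m2 m0 ?_ ?_).trans (walk_two m0 m1 p1 ?_ ?_) <;>
          simp [Nbr, pd, tc] <;> omega
    rcases hbc with ⟨rfl, rfl⟩ | ⟨rfl, rfl⟩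
    · exact key
    · exact key.symm

/-- primal and dual paths are disjoint -/
theorem mp_md {z : Cfz} {S S' : Set P2} {w : P2} (h1 : w ∈ MP z S) (h2 : w ∈ MD (dual z) S') :
    False := by
  obtain ⟨w1, w2⟩ := w
  rcases h1 with ⟨⟨x, y⟩, _, hv⟩ | ⟨e, he, _, _, hw⟩
  · rcases h2 with ⟨⟨x', y'⟩, _, hv'⟩ | ⟨⟨⟨i, j⟩, k⟩, _, _, _, hw'⟩
    · simp only [pp, pd, Prod.mk.injEq] at hv hv'
      omega
    · simp only [pp, Prod.mk.injEq] at hv
      cases k <;> simp [tc] at hw' <;> omega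
  · rcases h2 with ⟨⟨x', y'⟩, _, hv'⟩ | ⟨e', he', _, _, hw'⟩
    · obtain ⟨⟨i, j⟩, k⟩ := e
      simp only [pd, Prod.mk.injEq] at hv'
      cases k <;> simp [tc] at hw <;> omega
    · rw [dual_eq_true] at he'
      have h3 : e = dE.symm e' := by
        apply tc_inj
        obtain ⟨⟨i, j⟩, k⟩ := e
        obtain ⟨⟨i', j'⟩, k'⟩ := e'
        cases k <;> cases k' <;> simp [tc] at hw hw' ⊢ <;> omega
      rw [← h3, he] at he'
      exact absurd he' (by decide)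

/-- bounds for the points of a primal path -/
theorem mp_bd {z : Cfz} {S : Set P2} {a b c d : ℤ}
    (h : ∀ v ∈ S, a ≤ mX v ∧ mX v ≤ b ∧ c ≤ mY v ∧ mY v ≤ d) {w : P2} (hw : w ∈ MP z S) :
    2 * a + 1 ≤ w.1 ∧ w.1 ≤ 2 * b + 1 ∧ 2 * c + 1 ≤ w.2 ∧ w.2 ≤ 2 * d + 1 := by
  simp only [mX, mY] at h
  rcases hw with ⟨v, hv, rfl⟩ | ⟨e, _, hs, ht, hw⟩
  · have := h v hv
    simp only [pp]
    omega
  · have h1 := h _ hs
    have h2 := h _ ht
    obtain ⟨⟨i, j⟩, k⟩ := e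
    obtain ⟨w1, w2⟩ := w
    cases k <;> simp [tc] at h1 h2 hw ⊢ <;> omega

/-- bounds for the points of a dual path -/
theorem md_bd {z : Cfz} {S : Set P2} {a b c d : ℤ}
    (h : ∀ v ∈ S, a ≤ mX v ∧ mX v ≤ b ∧ c ≤ mY v ∧ mY v ≤ d) {w : P2} (hw : w ∈ MD z S) :
    2 * a + 3 ≤ w.1 ∧ w.1 ≤ 2 * b + 3 ∧ 2 * c + 1 ≤ w.2 ∧ w.2 ≤ 2 * d + 1 := by
  simp only [mX, mY] at h
  rcases hw with ⟨v, hv, rfl⟩ | ⟨e, _, hs, ht, hw⟩
  · have := h v hv
    simp only [pd]
    omega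
  · have h1 := h _ hs
    have h2 := h _ ht
    obtain ⟨⟨i, j⟩, k⟩ := e
    obtain ⟨w1, w2⟩ := w
    cases k <;> simp [tc] at h1 h2 hw ⊢ <;> omega

/-- **Medial crossing lemma**, primal from left to right, dual from bottom to top, with extensions -/
theorem mcross {z : Cfz} {S S' E1 E2 : Set P2} {A B P Q : P2}
    (h1 : Walk (MP z S ∪ E1) A B) (h2 : Walk (MD (dual z) S' ∪ E2) P Q)
    (hy : ∀ w ∈ MP z S ∪ E1, P.2 ≤ w.2 ∧ w.2 ≤ Q.2)
    (hx : ∀ w ∈ MD (dual z) S' ∪ E2, A.1 ≤ w.1 ∧ w.1 ≤ B.1)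
    (e1 : ∀ w ∈ E1, w ∉ MD (dual z) S' ∪ E2) (e2 : ∀ w ∈ E2, w ∉ MP z S) : False := by
  obtain ⟨w, hw1, hw2⟩ := cross h1 h2 hy hx
  rcases hw1 with hw1 | hw1
  · rcases hw2 with hw2 | hw2
    · exact mp_md hw1 hw2
    · exact e2 w hw2 hw1
  · exact e1 w hw1 hw2

/-- **Medial crossing lemma**, dual from left to right, primal from bottom to top, with extensions -/
theorem mcross' {z : Cfz} {S S' E1 E2 : Set P2} {A B P Q : P2}
    (h1 : Walk (MD (dual z) S' ∪ E2) A B) (h2 : Walk (MP z S ∪ E1) P Q)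
    (hy : ∀ w ∈ MD (dual z) S' ∪ E2, P.2 ≤ w.2 ∧ w.2 ≤ Q.2)
    (hx : ∀ w ∈ MP z S ∪ E1, A.1 ≤ w.1 ∧ w.1 ≤ B.1)
    (e1 : ∀ w ∈ E1, w ∉ MD (dual z) S' ∪ E2) (e2 : ∀ w ∈ E2, w ∉ MP z S) : False := by
  obtain ⟨w, hw2, hw1⟩ := cross h1 h2 hy hx
  rcases hw1 with hw1 | hw1
  · rcases hw2 with hw2 | hw2
    · exact mp_md hw1 hw2
    · exact e2 w hw2 hw1
  · exact e1 w hw1 hw2

/-- horizontal walks -/
theorem hwalk {T : Set V} (y : ℤ) (x : ℤ) (n : ℕ)
    (h : ∀ k : ℤ, x ≤ k → k ≤ x + n → ((k, y) : V) ∈ T) : Walk T (x, y) (x + n, y) := by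
  induction n with
  | zero => simpa using Walk.refl (h x le_rfl (by simp))
  | succ n ih =>
      have h1 := ih (fun k h1 h2 => h k h1 (by push_cast; omega))
      refine h1.trans (Walk.step h1.right (h _ (by push_cast; omega) le_rfl) ?_)
      left
      refine ⟨rfl, Or.inl ?_⟩
      push_cast
      ring

/-- horizontal walks -/
theorem hwalk' {T : Set V} (y : ℤ) {x x' : ℤ} (hxx : x ≤ x')
    (h : ∀ k : ℤ, x ≤ k → k ≤ x' → ((k, y) : V) ∈ T) : Walk T (x, y) (x', y) := by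
  obtain ⟨n, rfl⟩ : ∃ n : ℕ, x' = x + n := ⟨(x' - x).toNat, by omega⟩
  exact hwalk y x n h

/-! ### the wall -/

/-- **Wall lemma**: a primal path of the half plane from `(k,k)` to `(m,m)` and a dual path of the half
plane from `(j,j)`, `k ≤ j < m`, to a point outside of the box of the primal path do not coexist. -/
theorem wall_cross {z : Cfz} {S S' : Set P2} {k m j : ℤ} {f : P2} {a b d L : ℤ}
    (h1 : OC z S (k, k) (m, m)) (h2 : OC (dual z) S' (j, j) f) (hkj : k ≤ j) (hjm : j < m)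
    (hS : ∀ v ∈ S, a ≤ mX v ∧ mX v ≤ b ∧ 0 ≤ mY v ∧ mY v ≤ d)
    (hS' : ∀ v ∈ S', -L ≤ mX v ∧ mX v ≤ L ∧ 0 ≤ mY v ∧ mY v ≤ L)
    (hf : mX f + 1 < a ∨ b < mX f + 1 ∨ d < mY f) : False := by
  have hfS := h2.right
  have hf' := hS' f hfS
  have hj' := hS' _ h2.left
  have hk' := hS _ h1.left
  have hm' := hS _ h1.right
  simp only [mX, mY] at hf hf' hj' hk' hm'
  have ha1 := neg_abs_le a
  have hb1 := le_abs_self b
  have hd1 := le_abs_self d
  have ha0 := abs_nonneg a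
  have hb0 := abs_nonneg b
  have hd0 := abs_nonneg d
  obtain ⟨M, hM⟩ : ∃ M : ℤ, M = 2 * L + 2 * |a| + 2 * |b| + 2 * |d| + 10 := ⟨_, rfl⟩
  -- extensions
  set E1 : Set P2 := {w | (w.2 = -1 ∧ ((-M ≤ w.1 ∧ w.1 ≤ 4 * k + 1) ∨ (4 * m + 1 ≤ w.1 ∧ w.1 ≤ M))) ∨
    (w.2 = 0 ∧ (w.1 = 4 * k + 1 ∨ w.1 = 4 * m + 1))} with hE1
  set E2 : Set P2 := {w | (w.1 = 4 * j + 3 ∧ -3 ≤ w.2 ∧ w.2 ≤ 0) ∨
    (w.1 = 2 * (f.1 + f.2) + 3 ∧ 2 * (f.2 - f.1) + 1 < w.2 ∧ w.2 ≤ M)} with hE2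
  have ppk : pp (k, k) = (4 * k + 1, 1) := by simp [pp]; ring
  have ppm : pp (m, m) = (4 * m + 1, 1) := by simp [pp]; ring
  have pdj : pd (j, j) = (4 * j + 3, 1) := by simp [pd]; ring
  have hk1 : ((4 * k + 1, 1) : P2) ∈ MP z S ∪ E1 := Or.inl (ppk ▸ (oc_mp h1).left)
  have hm1 : ((4 * m + 1, 1) : P2) ∈ MP z S ∪ E1 := Or.inl (ppm ▸ (oc_mp h1).right)
  have hj1 : ((4 * j + 3, 1) : P2) ∈ MD (dual z) S' ∪ E2 := Or.inl (pdj ▸ (oc_md h2).left)
  have w1 : Walk (MP z S ∪ E1) (-M, -1) (4 * k + 1, -1) :=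
    hwalk' (-1) (by omega) fun x hx1 hx2 => Or.inr (Or.inl ⟨rfl, Or.inl ⟨hx1, hx2⟩⟩)
  have vk : ∀ c : ℤ, (c = 4 * k + 1 ∨ c = 4 * m + 1) → ((c, 1) : P2) ∈ MP z S ∪ E1 →
      Walk (MP z S ∪ E1) (c, -1) (c, 1) := by
    intro c hc hc1
    refine vwalk' c (by norm_num) fun y hy1 hy2 => ?_
    have : y = -1 ∨ y = 0 ∨ y = 1 := by omega
    rcases this with rfl | rfl | rfl
    · refine Or.inr (Or.inl ⟨rfl, ?_⟩)
      simp only
      omega
    · exact Or.inr (Or.inr ⟨rfl, hc⟩)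
    · exact hc1
  have w2 := vk _ (Or.inl rfl) hk1
  have w3 : Walk (MP z S ∪ E1) (4 * k + 1, 1) (4 * m + 1, 1) := by
    have := oc_mp h1
    rw [ppk, ppm] at this
    exact this.mono Set.subset_union_left
  have w4 := (vk _ (Or.inr rfl) hm1).symm
  have w5 : Walk (MP z S ∪ E1) (4 * m + 1, -1) (M, -1) :=
    hwalk' (-1) (by omega) fun x hx1 hx2 => Or.inr (Or.inl ⟨rfl, Or.inr ⟨hx1, hx2⟩⟩)
  have v1 : Walk (MD (dual z) S' ∪ E2) (4 * j + 3, -3) (4 * j + 3, 1) := by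
    refine vwalk' _ (by norm_num) fun y hy1 hy2 => ?_
    rcases eq_or_lt_of_le hy2 with rfl | hy3
    · exact hj1
    · exact Or.inr (Or.inl ⟨rfl, hy1, by simp only; omega⟩)
  have v2 : Walk (MD (dual z) S' ∪ E2) (4 * j + 3, 1) (2 * (f.1 + f.2) + 3, 2 * (f.2 - f.1) + 1) := by
    have := oc_md h2
    rw [pdj] at this
    exact this.mono Set.subset_union_left
  have v3 : Walk (MD (dual z) S' ∪ E2) (2 * (f.1 + f.2) + 3, 2 * (f.2 - f.1) + 1)
      (2 * (f.1 + f.2) + 3, M) := by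
    refine vwalk' _ (by omega) fun y hy1 hy2 => ?_
    rcases eq_or_lt_of_le hy1 with rfl | hy3
    · exact v2.right
    · exact Or.inr (Or.inr ⟨rfl, hy3, hy2⟩)
  refine mcross (((w1.trans w2).trans w3).trans (w4.trans w5)) ((v1.trans v2).trans v3) ?_ ?_ ?_ ?_
  · rintro ⟨x, y⟩ (hw | hw)
    · have := mp_bd (a := a) (b := b) (c := 0) (d := d) (by simpa only [mX, mY] using hS) hw
      simp only at this ⊢
      omega
    · simp only [hE1, Set.mem_ofPred_eq] at hw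
      simp only
      omega
  · rintro ⟨x, y⟩ (hw | hw)
    · have := md_bd (a := -L) (b := L) (c := 0) (d := L) (by simpa only [mX, mY] using hS') hw
      simp only at this ⊢
      omega
    · simp only [hE2, Set.mem_ofPred_eq] at hw
      simp only
      omega
  · rintro ⟨x, y⟩ hw (hw' | hw')
    · have := md_bd (a := -L) (b := L) (c := 0) (d := L) (by simpa only [mX, mY] using hS') hw'
      simp only [hE1, Set.mem_ofPred_eq] at hw
      simp only at this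
      omega
    · simp only [hE1, Set.mem_ofPred_eq] at hw
      simp only [hE2, Set.mem_ofPred_eq] at hw'
      omega
  · rintro ⟨x, y⟩ hw hw'
    have := mp_bd (a := a) (b := b) (c := 0) (d := d) (by simpa only [mX, mY] using hS) hw'
    simp only [hE2, Set.mem_ofPred_eq] at hw
    simp only at this
    omega

end Crest.Agent.R158.Fl440
end
end

-- ▼ part R158/Fl2_440

/-!
# Row 158, Block FW (helper440): the flat medial wall, 2: boundary two-arm bound

Half plane `{v | 0 ≤ mY v}` (`mX v = x + y`, `mY v = y - x`), wall sites `(k,k)` (primal gap `2k`, dual gap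
`2k+1`).  `PA k n` : `(k,k)` is joined to medial distance `n` inside the half box `HB k n`.
`two_arm` : `P(PA k n ∩ dual⁻¹ (PA k n)) ≤ C / n` and the mirror image.
-/

set_option autoImplicit false

noncomputable section

namespace Crest.Agent.R158.Fl440

open MeasureTheory ProbabilityTheory unitInterval
open Crest.Agent.R161.Geo729 Crest.Agent.R161.Topo374 Crest.Agent.R161.Dual374
open Crest.Agent.R161.Tas682 Crest.Agent.R158.Rs689 Crest.Agent.R158.Hp814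
open Crest.Agent.R161.Ring421
open scoped ENNReal

/-- half box of medial radius `n` around the wall site `(k,k)` -/
def HB (k : ℤ) (n : ℕ) : Finset P2 :=
  ((Finset.Icc (k - n) (k + n)) ×ˢ (Finset.Icc (k - n) (k + n))).filter fun v =>
    2 * k - n ≤ mX v ∧ mX v ≤ 2 * k + n ∧ 0 ≤ mY v ∧ mY v ≤ n

theorem mem_HB {k : ℤ} {n : ℕ} {v : P2} : v ∈ HB k n ↔
    2 * k - n ≤ mX v ∧ mX v ≤ 2 * k + n ∧ 0 ≤ mY v ∧ mY v ≤ n := by
  unfold HB
  rw [Finset.mem_filter, Finset.mem_product, Finset.mem_Icc, Finset.mem_Icc]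
  simp only [mX, mY]
  omega

/-- points at medial distance `≥ n` from the wall site `(k,k)` -/
def Far (k : ℤ) (n : ℕ) : Set P2 := {v | mX v ≤ 2 * k - n ∨ 2 * k + n ≤ mX v ∨ (n : ℤ) ≤ mY v}

theorem mem_Far {k : ℤ} {n : ℕ} {v : P2} :
    v ∈ Far k n ↔ mX v ≤ 2 * k - n ∨ 2 * k + n ≤ mX v ∨ (n : ℤ) ≤ mY v := Iff.rfl

/-- medial distance to the wall site `(k,k)` (in the half plane) -/
def hd (k : ℤ) (v : P2) : ℤ := max |mX v - 2 * k| (mY v)

theorem hd_nbr (k : ℤ) (a b : P2) (h : Nbr a b) : hd k b ≤ hd k a + 1 := by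
  unfold hd mX mY
  unfold Nbr at h
  have hA := le_max_left |a.1 + a.2 - 2 * k| (a.2 - a.1)
  have hB := le_max_right |a.1 + a.2 - 2 * k| (a.2 - a.1)
  generalize max |a.1 + a.2 - 2 * k| (a.2 - a.1) = M at *
  rw [abs_le] at hA
  refine max_le ?_ ?_
  · rw [abs_le]; omega
  · omega

theorem hd_le {k : ℤ} {v : P2} {m : ℤ} :
    hd k v ≤ m ↔ 2 * k - m ≤ mX v ∧ mX v ≤ 2 * k + m ∧ mY v ≤ m := by
  unfold hd
  rw [max_le_iff, abs_le]
  omega

theorem le_hd {k : ℤ} {v : P2} {m : ℕ} : (m : ℤ) ≤ hd k v ↔ v ∈ Far k m := by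
  unfold hd
  rw [le_max_iff, le_abs, mem_Far]
  omega

/-- primal one-arm event at the wall site `(k,k)` -/
def PA (k : ℤ) (n : ℕ) : Set Cfz := EV (HB k n) {(k, k)} (Far k n)

theorem mem_PA {k : ℤ} {n : ℕ} {z : Cfz} :
    z ∈ PA k n ↔ ∃ v ∈ Far k n, OC z (HB k n) (k, k) v := by
  simp only [PA, mem_EV, Set.mem_singleton_iff, exists_eq_left]

theorem PA_dep (k : ℤ) (n : ℕ) : Dep (EI (HB k n)) (PA k n) := Hp814.ev_dep _ _ _

theorem PA_inc (k : ℤ) (n : ℕ) : Inc (PA k n) := Hp814.ev_inc _ _ _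

/-- restriction of an arm to a smaller half box -/
theorem arm_shrink {z : Cfz} {S : Finset P2} {k0 : ℤ} {m : ℕ} {u v : P2} (h : OC z S u v)
    (hS : ∀ w ∈ S, 0 ≤ mY w) (hu : hd k0 u ≤ m) (hv : v ∈ Far k0 m) :
    ∃ w ∈ Far k0 m, OC z (HB k0 m) u w := by
  obtain ⟨w, hw, h1⟩ := first_hit (hd k0) (hd_nbr k0) m h hu (le_hd.2 hv)
  refine ⟨w, le_hd.1 hw.ge, h1.monoS ?_⟩
  rintro p ⟨hp1, hp2⟩
  have h3 := hd_le.1 (show hd k0 p ≤ m from hp2)
  rw [Finset.mem_coe, mem_HB]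
  exact ⟨h3.1, h3.2.1, hS p hp1, h3.2.2⟩

theorem pa_shrink {z : Cfz} {k k0 : ℤ} {n m : ℕ} (h : z ∈ PA k n) (h1 : 2 * |k - k0| + m ≤ n)
    (h2 : 2 * |k - k0| ≤ m) : ∃ v ∈ Far k0 m, OC z (HB k0 m) (k, k) v := by
  obtain ⟨v, hv, h3⟩ := mem_PA.1 h
  refine arm_shrink h3 (fun w hw => (mem_HB.1 hw).2.2.1) ?_ ?_
  · rw [hd_le]
    simp only [mX, mY]
    rcases abs_cases (k - k0) with h4 | h4 <;> omega
  · rw [mem_Far] at hv ⊢
    rcases abs_cases (k - k0) with h4 | h4 <;> omega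

theorem pa_anti {k : ℤ} {n m : ℕ} (h : m ≤ n) : PA k n ⊆ PA k m := fun z hz =>
  mem_PA.2 (pa_shrink hz (by simpa using h) (by simp))

/-- arms from the gaps `2k` (primal) and `2k+1` (dual) -/
def TwoR (k : ℤ) (n : ℕ) : Set Cfz := PA k n ∩ dual ⁻¹' PA k n

/-- arms from the gaps `2k` (primal) and `2k-1` (dual) -/
def TwoL (k : ℤ) (n : ℕ) : Set Cfz := PA k n ∩ dual ⁻¹' PA (k - 1) n

theorem TwoR_dep (k : ℤ) (n : ℕ) :
    Dep (EI (HB k n) ∪ (EI (HB k n)).map dE.symm.toEmbedding) (TwoR k n) :=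
  ((PA_dep k n).mono Finset.subset_union_left).inter
    ((PA_dep k n).dual.mono Finset.subset_union_right)

theorem TwoL_dep (k : ℤ) (n : ℕ) :
    Dep (EI (HB k n) ∪ (EI (HB (k - 1) n)).map dE.symm.toEmbedding) (TwoL k n) :=
  ((PA_dep k n).mono Finset.subset_union_left).inter
    ((PA_dep (k - 1) n).dual.mono Finset.subset_union_right)

/-! ### translations -/

theorem oc_shift {z : Cfz} (a : P2) {S : Set P2} {u v : P2} (h : OC (shiftZ a z) S u v) :
    OC z {w | w - a ∈ S} (u + a) (v + a) := by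
  obtain ⟨hu, h⟩ := h
  refine ⟨by simpa using hu, ?_⟩
  induction h with
  | refl => exact .refl
  | @tail b c _ h2 ih =>
    refine ih.tail ?_
    obtain ⟨⟨e, he, h3⟩, hb, hc⟩ := h2
    refine ⟨⟨shE a e, he, ?_⟩, by simpa using hb, by simpa using hc⟩
    rw [src_shE, tgt_shE]
    rcases h3 with ⟨rfl, rfl⟩ | ⟨rfl, rfl⟩
    · exact Or.inl ⟨rfl, rfl⟩
    · exact Or.inr ⟨rfl, rfl⟩

theorem dual_shiftZ (a : P2) (z : Cfz) : dual (shiftZ a z) = shiftZ a (dual z) := by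
  funext ⟨⟨i, j⟩, k⟩
  obtain ⟨a1, a2⟩ := a
  cases k <;> simp [dual, shiftZ, add_right_comm]

theorem pa_shift1 {z : Cfz} {k j : ℤ} {n : ℕ} (h : shiftZ (j, j) z ∈ PA k n) :
    z ∈ PA (k + j) n := by
  obtain ⟨v, hv, h1⟩ := mem_PA.1 h
  refine mem_PA.2 ⟨v + (j, j), ?_, (oc_shift (j, j) h1).monoS ?_⟩
  · rw [mem_Far] at hv ⊢
    simp only [mX, mY, Prod.fst_add, Prod.snd_add] at hv ⊢
    omega
  · intro w hw
    have : w - (j, j) ∈ HB k n := hw
    rw [mem_HB] at this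
    rw [Finset.mem_coe, mem_HB]
    simp only [mX, mY, Prod.fst_sub, Prod.snd_sub] at this ⊢
    omega

theorem pa_shift {z : Cfz} {k j : ℤ} {n : ℕ} : shiftZ (j, j) z ∈ PA k n ↔ z ∈ PA (k + j) n := by
  refine ⟨pa_shift1, fun h => ?_⟩
  have h1 : shiftZ (-j, -j) (shiftZ (j, j) z) = z := by
    rw [shiftZ_shiftZ]
    convert shiftZ_zero z using 2
    ext <;> simp
  rw [← h1] at h
  have := pa_shift1 h
  simpa using this

theorem nu_shift (p : I) (a : P2) {A : Set Cfz} (hA : MeasurableSet A) :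
    (nu p).real (shiftZ a ⁻¹' A) = (nu p).real A := by
  have h := tInv p a
  conv_rhs => rw [← h]
  rw [measureReal_def, measureReal_def, Measure.map_apply (measurable_shiftZ a) hA]

theorem TwoR_prob (p : I) (k : ℤ) (n : ℕ) : (nu p).real (TwoR k n) = (nu p).real (TwoR 0 n) := by
  rw [← nu_shift p (k, k) (TwoR_dep 0 n).measurableSet]
  congr 1
  ext z
  simp only [TwoR, Set.mem_inter_iff, Set.mem_preimage, dual_shiftZ, pa_shift, zero_add]

theorem TwoL_prob (p : I) (k : ℤ) (n : ℕ) : (nu p).real (TwoL k n) = (nu p).real (TwoL 0 n) := by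
  rw [← nu_shift p (k, k) (TwoL_dep 0 n).measurableSet]
  congr 1
  ext z
  simp only [TwoL, Set.mem_inter_iff, Set.mem_preimage, dual_shiftZ, pa_shift, zero_add]
  rw [show (0 - 1 + k : ℤ) = k - 1 by ring]

/-! ### counting -/

theorem EN_ge (w : Edge → I) (S : Finset P2) (F : Set P2) {p0 : ℝ} (R : P2 → P2 → Prop)
    (l : List P2) (h : ∀ x ∈ l, ∀ l' : List P2, (∀ y ∈ l', R y x) →
      p0 ≤ (PB w).real (First S F l' x)) (hp : l.Pairwise R) :
    ∀ l0 : List P2, (∀ y ∈ l0, ∀ x ∈ l, R y x) → l.length * p0 ≤ EN w S F l0 l := by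
  induction l with
  | nil => intro l0 _; simp [EN]
  | cons x l ih =>
    intro l0 h0
    rw [List.pairwise_cons] at hp
    have h1 := ih (fun x' hx' => h x' (List.mem_cons_of_mem _ hx')) hp.2 (x :: l0) (by
      intro y hy x' hx'
      rcases List.mem_cons.1 hy with rfl | hy
      · exact hp.1 x' hx'
      · exact h0 y hy x' (List.mem_cons_of_mem _ hx'))
    have h2 := h x List.mem_cons_self l0 fun y hy => h0 y hy x List.mem_cons_self
    simp only [EN, List.length_cons]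
    push_cast
    linarith

/-- wall sites `K, K-1, …, -K` -/
def wl (K : ℕ) : List P2 :=
  (List.range (2 * K + 1)).map fun i : ℕ => ((K : ℤ) - (i : ℤ), (K : ℤ) - (i : ℤ))

/-- wall sites `-K, …, K` -/
def wr (K : ℕ) : List P2 :=
  (List.range (2 * K + 1)).map fun i : ℕ => ((i : ℤ) - (K : ℤ), (i : ℤ) - (K : ℤ))

theorem mem_wl {K : ℕ} {x : P2} : x ∈ wl K ↔ ∃ k : ℤ, x = (k, k) ∧ -(K : ℤ) ≤ k ∧ k ≤ K := by
  simp only [wl, List.mem_map, List.mem_range]
  constructor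
  · rintro ⟨i, hi, rfl⟩
    exact ⟨_, rfl, by omega, by omega⟩
  · rintro ⟨k, rfl, h1, h2⟩
    exact ⟨(K - k).toNat, by omega, by rw [Int.toNat_of_nonneg (by omega)]; simp⟩

theorem mem_wr {K : ℕ} {x : P2} : x ∈ wr K ↔ ∃ k : ℤ, x = (k, k) ∧ -(K : ℤ) ≤ k ∧ k ≤ K := by
  simp only [wr, List.mem_map, List.mem_range]
  constructor
  · rintro ⟨i, hi, rfl⟩
    exact ⟨_, rfl, by omega, by omega⟩
  · rintro ⟨k, rfl, h1, h2⟩
    exact ⟨(k + K).toNat, by omega, by rw [Int.toNat_of_nonneg (by omega)]; simp⟩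

theorem wl_pair (K : ℕ) : (wl K).Pairwise fun y x => ∃ j k : ℤ, y = (j, j) ∧ x = (k, k) ∧ k < j := by
  rw [wl, List.pairwise_map]
  refine List.pairwise_lt_range.imp ?_
  intro i j hij
  exact ⟨_, _, rfl, rfl, by omega⟩

theorem wr_pair (K : ℕ) : (wr K).Pairwise fun y x => ∃ j k : ℤ, y = (j, j) ∧ x = (k, k) ∧ j < k := by
  rw [wr, List.pairwise_map]
  refine List.pairwise_lt_range.imp ?_
  intro i j hij
  exact ⟨_, _, rfl, rfl, by omega⟩

theorem oc_rch {z : Cfz} {S : Set P2} {u v : P2} (h : OC z S u v) : Rch z u v :=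
  Relation.ReflTransGen.mono (fun _ _ h1 => h1.1) _ _ h.2

theorem some1_sub {K m : ℕ} (l : List P2) (hl : ∀ x ∈ l, ∃ k : ℤ, x = (k, k) ∧ -(K : ℤ) ≤ k ∧ k ≤ K) :
    Some1 (HB 0 m) (Far 0 m) l ⊆ ArmX (0, 0) K (m / 2) := by
  rintro z ⟨u, hu, v, hv, h⟩
  obtain ⟨k, rfl, h1, h2⟩ := hl u hu
  refine ⟨(k, k), v, ?_, ?_, ?_, oc_rch h⟩
  · rw [abs_le]; simp only; omega
  · rw [abs_le]; simp only; omega
  · rw [mem_Far] at hv
    simp only [mX, mY] at hv
    simp only [sub_zero]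
    rw [le_abs, le_abs]
    omega

/-- **Boundary two-arm bound.** -/
theorem two_arm : ∃ C : ℝ, 0 < C ∧ ∀ (k : ℤ) (n : ℕ), 1 ≤ n →
    (nu hf).real (TwoR k n) ≤ C / n ∧ (nu hf).real (TwoL k n) ≤ C / n := by
  obtain ⟨C, a, hC, ha, harm⟩ := arm_half
  obtain ⟨lam, hlam⟩ : ∃ lam : ℕ, 1 ≤ lam ∧ C * (1 / (lam : ℝ)) ^ a ≤ 1 / 2 := by
    have ht : Filter.Tendsto (fun n : ℕ => C * (1 / (n : ℝ)) ^ a) Filter.atTop (nhds (C * 0)) := by
      refine Filter.Tendsto.const_mul C ?_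
      have h1 : Filter.Tendsto (fun n : ℕ => 1 / (n : ℝ)) Filter.atTop (nhds 0) :=
        tendsto_one_div_atTop_nhds_zero_nat
      have h2 := h1.rpow_const (p := a) (Or.inr ha.le)
      rwa [Real.zero_rpow ha.ne'] at h2
    rw [mul_zero] at ht
    have h3 := (ht.eventually (ge_mem_nhds (show (0 : ℝ) < 1 / 2 by norm_num))).and
      (Filter.eventually_ge_atTop 1)
    obtain ⟨n, h4, h5⟩ := h3.exists
    exact ⟨n, h5, h4⟩
  obtain ⟨hl1, hl2⟩ := hlam
  refine ⟨16 * lam, by positivity, fun k n hn => ?_⟩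
  rw [TwoR_prob, TwoL_prob]
  have hn0 : (0 : ℝ) < n := by exact_mod_cast hn
  set K := n / (16 * lam) with hK
  by_cases hK0 : K = 0
  · have h1 : n < 16 * lam := by
      rw [hK] at hK0
      exact (Nat.div_eq_zero_iff_lt (by omega)).1 hK0
    have h2 : (1 : ℝ) ≤ 16 * lam / n := by
      rw [le_div_iff₀ hn0, one_mul]
      exact_mod_cast h1.le
    exact ⟨measureReal_le_one.trans h2, measureReal_le_one.trans h2⟩
  have hK1 : 1 ≤ K := Nat.one_le_iff_ne_zero.2 hK0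
  have hKn : 16 * lam * K ≤ n := Nat.mul_div_le n (16 * lam)
  have hlK : lam * K ≤ n / 16 := by
    rw [Nat.le_div_iff_mul_le (by norm_num)]
    calc lam * K * 16 = 16 * lam * K := by ring
      _ ≤ n := hKn
  have hKK : K ≤ n / 16 := le_trans (Nat.le_mul_of_pos_left K hl1) hlK
  set m := n / 2 with hm
  have hsome : ∀ l : List P2, (∀ x ∈ l, ∃ k : ℤ, x = (k, k) ∧ -(K : ℤ) ≤ k ∧ k ≤ K) →
      (PB fun _ : Edge => hf).real (Some1 (HB 0 m) (Far 0 m) l) ≤ 1 / 2 := by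
    intro l hl
    refine (measureReal_mono (some1_sub l hl)).trans ?_
    have h1 : K ≤ m / 2 := by omega
    refine (harm (0, 0) K (m / 2) hK1 h1).trans (le_trans ?_ hl2)
    refine mul_le_mul_of_nonneg_left ?_ hC.le
    refine Real.rpow_le_rpow (by positivity) ?_ ha.le
    have h2 : lam * K ≤ m / 2 := by omega
    have h3 : (0 : ℝ) < ((m / 2 : ℕ) : ℝ) := by
      have : 0 < m / 2 := by omega
      exact_mod_cast this
    rw [div_le_div_iff₀ h3 (by exact_mod_cast hl1), one_mul]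
    have h4 : ((lam * K : ℕ) : ℝ) ≤ ((m / 2 : ℕ) : ℝ) := by exact_mod_cast h2
    push_cast at h4 ⊢
    linarith
  have hfin : ∀ p0 : ℝ, ((2 * K + 1 : ℕ) : ℝ) * p0 ≤ 1 → p0 ≤ 16 * lam / n := by
    intro p0 h1
    rw [le_div_iff₀ hn0]
    have h2 : n < 16 * lam * (K + 1) := by
      rw [hK]
      exact Nat.lt_mul_div_succ n (by omega)
    have h3 : (n : ℝ) ≤ 16 * lam * (K + 1) := by exact_mod_cast h2.le
    rcases le_or_gt p0 0 with hp | hp
    · have : p0 * n ≤ 0 := mul_nonpos_of_nonpos_of_nonneg hp hn0.le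
      have : (0 : ℝ) ≤ 16 * lam := by positivity
      linarith
    · push_cast at h1
      have h4 : p0 * ((K : ℝ) + 1) ≤ 1 := by
        have : 0 ≤ p0 * K := by positivity
        nlinarith
      calc p0 * n ≤ p0 * (16 * lam * (K + 1)) := mul_le_mul_of_nonneg_left h3 hp.le
        _ = 16 * lam * (p0 * (K + 1)) := by ring
        _ ≤ 16 * lam * 1 := by gcongr
        _ = 16 * lam := mul_one _
  have hone : ∀ l : List P2, (∀ x ∈ l, ∃ k : ℤ, x = (k, k) ∧ -(K : ℤ) ≤ k ∧ k ≤ K) →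
      EN (fun _ : Edge => hf) (HB 0 m) (Far 0 m) [] l ≤ 1 := by
    intro l hl
    have h1 := EN_le (fun _ : Edge => hf) (q := 1 / 2) (by norm_num) (Far 0 m) l (HB 0 m) (hsome l hl)
    have h2 := hsome l hl
    refine h1.trans ?_
    rw [div_le_one (by norm_num)]
    linarith
  constructor
  · apply hfin
    have h1 := EN_ge (fun _ : Edge => hf) (HB 0 m) (Far 0 m) (p0 := (nu hf).real (TwoR 0 n))
      (fun y x => ∃ j k : ℤ, y = (j, j) ∧ x = (k, k) ∧ k < j) (wl K) (by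
        intro x hx l' hl'
        obtain ⟨k, rfl, hk1, hk2⟩ := mem_wl.1 hx
        rw [← TwoR_prob hf k n]
        refine measureReal_mono ?_
        rintro z ⟨hz1, hz2⟩
        have hk : |k - 0| ≤ K := by rw [sub_zero, abs_le]; omega
        refine ⟨pa_shrink hz1 (by omega) (by omega), fun y hy hoc => ?_⟩
        obtain ⟨j, k', rfl, hk', hjk⟩ := hl' y hy
        have hkk : k = k' := by simpa using hk'
        subst hkk
        obtain ⟨f, hf1, hf2⟩ := mem_PA.1 hz2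
        refine wall_cross (a := -m) (b := m) (d := m) (L := 2 * K + n) hoc.symm hf2 le_rfl hjk ?_ ?_ ?_
        · intro v hv
          have := mem_HB.1 (Finset.mem_coe.1 hv)
          omega
        · intro v hv
          have := mem_HB.1 (Finset.mem_coe.1 hv)
          omega
        · rw [mem_Far] at hf1
          omega) (wl_pair K) [] (by simp)
    have h2 : (wl K).length = 2 * K + 1 := by simp [wl]
    rw [h2] at h1
    exact h1.trans (hone _ fun x hx => mem_wl.1 hx)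
  · apply hfin
    have h1 := EN_ge (fun _ : Edge => hf) (HB 0 m) (Far 0 m) (p0 := (nu hf).real (TwoL 0 n))
      (fun y x => ∃ j k : ℤ, y = (j, j) ∧ x = (k, k) ∧ j < k) (wr K) (by
        intro x hx l' hl'
        obtain ⟨k, rfl, hk1, hk2⟩ := mem_wr.1 hx
        rw [← TwoL_prob hf k n]
        refine measureReal_mono ?_
        rintro z ⟨hz1, hz2⟩
        have hk : |k - 0| ≤ K := by rw [sub_zero, abs_le]; omega
        refine ⟨pa_shrink hz1 (by omega) (by omega), fun y hy hoc => ?_⟩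
        obtain ⟨j, k', rfl, hk', hjk⟩ := hl' y hy
        have hkk : k = k' := by simpa using hk'
        subst hkk
        obtain ⟨f, hf1, hf2⟩ := mem_PA.1 hz2
        refine wall_cross (a := -m) (b := m) (d := m) (L := 2 * K + n + 2) hoc hf2 (by omega)
          (by omega) ?_ ?_ ?_
        · intro v hv
          have := mem_HB.1 (Finset.mem_coe.1 hv)
          omega
        · intro v hv
          have := mem_HB.1 (Finset.mem_coe.1 hv)
          omega
        · rw [mem_Far] at hf1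
          omega) (wr_pair K) [] (by simp)
    have h2 : (wr K).length = 2 * K + 1 := by simp [wr]
    rw [h2] at h1
    exact h1.trans (hone _ fun x hx => mem_wr.1 hx)

end Crest.Agent.R158.Fl440
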