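import Crest.Agent.R158.FrPre_158
import Crest.Agent.R158.FrLog_158
import Crest.Agent.R158.FrA_158

-- ▼ part R158/FsT_158
section

/-!
# Row 158, Block F (helper158): truncated two-point function

* `Tf x` : `0 ↔ x` and the cluster of `0` is finite
* `chi_eq`, `sec_eq` : the literal susceptibility and second moment as sums over `x` of `Pr p (Tf x)`
* `two_arm` : `Pr p (0 ↔ x) ≤ Pr p (Arm1 k)²` if `2k < |x|`
-/

set_option autoImplicit false

noncomputable section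

namespace Crest.Agent.R158.Fr158

open MeasureTheory Filter Topology
open Crest.ProbabilityR.Percolation Crest.ProbabilityR.FirstPassage
open Crest.Agent.R158.Rs689 Crest.Agent.R161.Tas682 Crest.Agent.R161.Geo729
open Crest.Agent.R161.Topo374 Crest.Agent.R161.Dual374
open scoped ENNReal

/-- `0 ↔ x` and the cluster of the origin is finite -/
def Tf (x : P2) : Set Cf := {z | Rch z (0, 0) x ∧ (clu z).Finite}

theorem tf_meas (x : P2) : MeasurableSet (Tf x) :=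
  (rch_meas (0, 0) x).inter finite_meas


theorem nu_ofReal (p : ℝ) (A : Set Cf) : nu p A = ENNReal.ofReal (Pr p A) := by
  unfold Pr
  rw [measureReal_def, ENNReal.ofReal_toReal (measure_ne_top _ _)]

theorem squareBondLaw_tf (p : ℝ) (x : P2) :
    squareBondLaw p {ω | x ∈ originCluster ω ∧ (originCluster ω).Finite} =
      ENNReal.ofReal (Pr p (Tf x)) := by
  rw [← nu_ofReal, nu, ← squareBondLaw_conf p (tf_meas x)]
  congr 1
  ext ω
  simp only [originCluster_eq, Set.mem_preimage]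
  rfl

/-- the second moment as a sum -/
theorem sec_eq (p : ℝ) : truncSecondMomentENN p =
    ∑' x : ℤ × ℤ, ENNReal.ofReal (((x.1 : ℝ) ^ 2 + (x.2 : ℝ) ^ 2) * Pr p (Tf x)) := by
  unfold truncSecondMomentENN
  refine tsum_congr fun x => ?_
  rw [squareBondLaw_tf, ENNReal.ofReal_mul (by positivity)]

open Classical in
theorem ncard_tsum {X : Type*} {C : Set X} (hC : C.Finite) :
    (C.ncard : ℝ≥0∞) = ∑' x : X, C.indicator (fun _ => (1 : ℝ≥0∞)) x := by
  rw [tsum_eq_sum (s := hC.toFinset)]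
  · rw [Set.ncard_eq_toFinset_card C hC, Finset.sum_congr rfl (g := fun _ => (1 : ℝ≥0∞))]
    · simp
    · intro x hx
      exact Set.indicator_of_mem (hC.mem_toFinset.1 hx) _
  · intro x hx
    exact Set.indicator_of_notMem (fun h => hx (hC.mem_toFinset.2 h)) _

/-- the susceptibility as a sum -/
theorem chi_eq (p : ℝ) : truncSusceptibilityENN p =
    ∑' x : ℤ × ℤ, ENNReal.ofReal (Pr p (Tf x)) := by
  classical
  unfold truncSusceptibilityENN
  have h1 : ∀ ω : Set (Sym2 (ℤ × ℤ)), {ω' | (originCluster ω').Finite}.indicator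
      (fun ω' => ((originCluster ω').ncard : ENNReal)) ω =
      ∑' x : ℤ × ℤ, {ω' | x ∈ originCluster ω' ∧ (originCluster ω').Finite}.indicator
        (fun _ => (1 : ℝ≥0∞)) ω := by
    intro ω
    by_cases h : (originCluster ω).Finite
    · rw [Set.indicator_of_mem (show ω ∈ {ω' | (originCluster ω').Finite} from h),
        ncard_tsum h]
      refine tsum_congr fun x => ?_
      by_cases hx : x ∈ originCluster ω
      · rw [Set.indicator_of_mem hx, Set.indicator_of_mem]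
        exact ⟨hx, h⟩
      · rw [Set.indicator_of_notMem hx, Set.indicator_of_notMem]
        exact fun h' => hx h'.1
    · rw [Set.indicator_of_notMem (show ω ∉ {ω' | (originCluster ω').Finite} from h)]
      symm
      rw [ENNReal.tsum_eq_zero]
      intro x
      exact Set.indicator_of_notMem (fun h' => h h'.2) _
  simp_rw [h1]
  have hm : ∀ x : ℤ × ℤ, MeasurableSet {ω' | x ∈ originCluster ω' ∧ (originCluster ω').Finite} := by
    intro x
    have : {ω' | x ∈ originCluster ω' ∧ (originCluster ω').Finite} = conf ⁻¹' (Tf x) := by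
      ext ω
      simp only [originCluster_eq, Set.mem_preimage]
      rfl
    rw [this]
    exact measurable_conf (tf_meas x)
  rw [lintegral_tsum fun x => (measurable_const.indicator (hm x)).aemeasurable]
  refine tsum_congr fun x => ?_
  rw [lintegral_indicator_const (hm x), one_mul, squareBondLaw_tf]

/-! ### independence of two arms -/

/-- one arm from `x` to distance `k` -/
def ArmX (x : P2) (k : ℤ) : Set Cf :=
  EV {v | (v.1 - x.1, v.2 - x.2) ∈ Bx k} {v | (v.1 - x.1, v.2 - x.2) ∈ ({((0 : ℤ), (0 : ℤ))} : Set P2)}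
    {v | (v.1 - x.1, v.2 - x.2) ∈ Out k}

theorem armX_prob (p : ℝ) (x : P2) (k : ℤ) : Pr p (ArmX x k) = Pr p (Arm1 k) :=
  Pr_shift p x.1 x.2 (Bx_finite k) _ _

theorem sd_shift (x v : P2) : sd (0, 0) (v.1 - x.1, v.2 - x.2) = sd x v := by
  simp [sd]

theorem sd_comm (x v : P2) : sd x v = sd v x := by
  unfold sd
  rw [abs_sub_comm, abs_sub_comm x.2]

theorem sd_tri (x y v : P2) : sd x v ≤ sd x y + sd y v := by
  unfold sd
  have h1 := abs_sub_le v.1 y.1 x.1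
  have h2 := abs_sub_le v.2 y.2 x.2
  have h3 := le_max_left |y.1 - x.1| |y.2 - x.2|
  have h4 := le_max_right |y.1 - x.1| |y.2 - x.2|
  have h5 := le_max_left |v.1 - y.1| |v.2 - y.2|
  have h6 := le_max_right |v.1 - y.1| |v.2 - y.2|
  refine max_le ?_ ?_ <;> omega

theorem armX_set (x : P2) (k : ℤ) :
    {v : P2 | (v.1 - x.1, v.2 - x.2) ∈ Bx k} = {v | v ∈ bx x k} := by
  ext v
  rw [Set.mem_ofPred_eq, Set.mem_ofPred_eq, mem_Bx, mem_bx_sd, mem_bx_sd, sd_shift]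

theorem armX_iff {x : P2} {k : ℤ} {z : Cf} : z ∈ ArmX x k ↔
    ∃ v, k ≤ sd x v ∧ OC z {v | v ∈ bx x k} x v := by
  unfold ArmX
  rw [armX_set, mem_EV]
  constructor
  · rintro ⟨u, hu, v, hv, h⟩
    have hu' : u = x := by
      simp only [Set.mem_ofPred_eq, Set.mem_singleton_iff, Prod.mk.injEq] at hu
      ext <;> omega
    subst hu'
    refine ⟨v, ?_, h⟩
    have := mem_Out.1 hv
    rwa [sd_shift] at this
  · rintro ⟨v, hv, h⟩
    refine ⟨x, by simp, v, ?_, h⟩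
    rw [Set.mem_ofPred_eq, mem_Out, sd_shift]
    exact hv

theorem armX_of_oc {z : Cf} {x : P2} {k : ℤ} (hk : 0 ≤ k) {S : Set P2} {v : P2} (h : OC z S x v)
    (hv : k ≤ sd x v) : z ∈ ArmX x k := by
  obtain ⟨w, h1, h2⟩ := first_hit (sd x) (sd_nbr x) k h (by simpa [sd] using hk) hv
  refine armX_iff.2 ⟨w, h1.ge, h2.monoS ?_⟩
  rintro q ⟨_, hq⟩
  exact mem_bx_sd.2 hq

theorem armX_incLoc (x : P2) (k : ℤ) : IncLoc (ArmX x k) := by
  refine EV_incLoc ?_ _ _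
  rw [armX_set]
  exact (bx x k).finite_toSet

theorem armX_dep (x : P2) (k : ℤ) : Dep (eIn (bx x k)) (ArmX x k) := by
  refine dep_EV (fun v hv => ?_) _ _
  rw [armX_set] at hv
  exact hv

theorem bx_disjoint {x y : P2} {k m : ℤ} (h : k + m < sd x y) : Disjoint (bx x k) (bx y m) := by
  rw [Finset.disjoint_left]
  intro v h1 h2
  rw [mem_bx_sd] at h1 h2
  have := sd_tri x v y
  rw [sd_comm v y] at this
  omega

/-- two independent arms -/
theorem two_arm (p : ℝ) {x : P2} {k : ℤ} (hk : 0 ≤ k) (hx : 2 * k < sd (0, 0) x) :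
    Pr p {z | Rch z (0, 0) x} ≤ Pr p (Arm1 k) ^ 2 := by
  have h1 : {z | Rch z (0, 0) x} ⊆ Arm1 k ∩ ArmX x k := by
    intro z hz
    have h2 := rch_oc_univ.1 hz
    refine ⟨arm_of_oc hk h2 (by omega), armX_of_oc hk h2.symm ?_⟩
    rw [sd_comm]
    omega
  refine (Pr_mono h1).trans ?_
  rw [Pr_indep (bx_disjoint (x := (0, 0)) (y := x) (k := k) (m := k) (by omega)) (arm1_dep k)
    (armX_dep x k), armX_prob, sq]

theorem tf_le_arm (p : ℝ) {x : P2} {k : ℤ} (hk : 0 ≤ k) (hx : 2 * k < sd (0, 0) x) :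
    Pr p (Tf x) ≤ Pr p (Arm1 k) ^ 2 :=
  (Pr_mono fun _ h => h.1).trans (two_arm p hk hx)

end Crest.Agent.R158.Fr158
end
end

-- ▼ part R158/FsL_158
section

/-!
# Row 158, Block F (helper158): lower bound of the truncated two-point function

`tf_lower` : if the hard-way crossing of `3n × n` has probability `≥ c` and the easy-way crossing of
`3m × m`, `m = 8n+2`, has probability `≤ 1-c`, then `c¹⁶ · Pr p (Arm1 (3n))² ≤ Pr p (Tf x)` for `|x| ≤ n`.
-/

set_option autoImplicit false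

noncomputable section

namespace Crest.Agent.R158.Fr158

open MeasureTheory Filter Topology
open Crest.ProbabilityR.Percolation Crest.ProbabilityR.FirstPassage
open Crest.Agent.R158.Rs689 Crest.Agent.R161.Tas682 Crest.Agent.R161.Geo729
open Crest.Agent.R161.Topo374 Crest.Agent.R161.Dual374

/-- Harris' inequality for complements -/
theorem Pr_fkg_compl {p : ℝ} {A B : Set Cf} (hA : IncLoc A) (hB : IncLoc B) :
    (1 - Pr p A) * (1 - Pr p B) ≤ 1 - Pr p (A ∪ B) := by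
  have h1 := Pr_fkg (p := p) hA hB
  have h2 : Pr p (A ∪ B) + Pr p (A ∩ B) = Pr p A + Pr p B :=
    measureReal_union_add_inter hB.measurableSet
  nlinarith

theorem LR_prob (p : ℝ) (n : ℤ) : Pr p (LR n) = lr (Pr p) 0 (3 * n) 0 n := rfl

theorem BT_prob (p : ℝ) (n : ℤ) : Pr p (BT n) = lr (Pr p) 0 n 0 (3 * n) := by
  have h := (percP p).bt_eq 0 (3 * n) 0 n
  simp only [sub_zero] at h
  exact h

/-- circuits from hard-way crossings -/
theorem circ_ge (p : ℝ) {n : ℤ} (hn : 0 ≤ n) {c : ℝ} (hc : 0 ≤ c) (h : c ≤ Pr p (LR n)) (x : P2) :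
    c ^ 12 ≤ Pr p {z | Circ4 z x n (2 * n)} := by
  have hP := percP p
  rw [LR_prob] at h
  have h1 : c ≤ lr (Pr p) 0 (2 * n) 0 n := h.trans (hP.h_mono (by omega) (by omega) le_rfl)
  have h2 : c ≤ lr (Pr p) 0 n 0 n := h.trans (hP.h_mono (by omega) (by omega) le_rfl)
  have h3 := hP.h_glue (L1 := 3 * n) (L2 := 2 * n) (W := n) (H := n) (by omega) (by omega)
  have e1 : 3 * n + 2 * n - n = 4 * n := by ring
  rw [e1] at h3
  have h4 : c ^ 3 ≤ lr (Pr p) 0 (4 * n) 0 n := by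
    refine le_trans ?_ h3
    have h5 : c * c ≤ lr (Pr p) 0 (3 * n) 0 n * lr (Pr p) 0 (2 * n) 0 n :=
      mul_le_mul h h1 hc (hP.lr_nonneg _ _ _ _)
    calc c ^ 3 = c * c * c := by ring
      _ ≤ _ := mul_le_mul h5 h2 hc (mul_nonneg (hP.lr_nonneg _ _ _ _) (hP.lr_nonneg _ _ _ _))
  have h5 := hP.circ4_ge x n (2 * n)
  have e2 : 2 * (2 * n) = 4 * n := by ring
  have e3 : 2 * n - n = n := by ring
  rw [e2, e3] at h5
  refine le_trans ?_ h5
  calc c ^ 12 = (c ^ 3) ^ 4 := by ring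
    _ ≤ _ := pow_le_pow_left₀ (by positivity) h4 4

/-- the annulus `{a ≤ |v| ≤ b}` -/
def Ann (a b : ℤ) : Finset P2 := (bx (0, 0) b).filter fun v => a ≤ sd (0, 0) v

theorem mem_Ann {a b : ℤ} {v : P2} : v ∈ Ann a b ↔ a ≤ sd (0, 0) v ∧ sd (0, 0) v ≤ b := by
  unfold Ann
  rw [Finset.mem_filter, mem_bx_sd]
  tauto

/-- primal crossing of the annulus -/
def XC (a b : ℤ) : Set Cf :=
  EV {v | v ∈ Ann a b} {v | sd (0, 0) v = a} {v | sd (0, 0) v = b}

theorem xc_incLoc (a b : ℤ) : IncLoc (XC a b) := EV_incLoc (Ann a b).finite_toSet _ _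

theorem xc_dep (a b : ℤ) : Dep (eIn (Ann a b)) (XC a b) := dep_EV (fun _ hv => hv) _ _

theorem xc_sub {a b : ℤ} (hab : a ≤ b) : XC a b ⊆
    (({z | BTc z (-b) b a b} ∪ {z | BTc z (-b) b (-b) (-a)}) ∪ {z | LRc z a b (-b) b}) ∪
      {z | LRc z (-b) (-a) (-b) b} := by
  rintro z ⟨u, hu, v, hv, h⟩
  rw [Set.mem_ofPred_eq] at hu hv
  have hu1 := sd_le.1 hu.le
  have hu2 : -a ≤ u.1 ∧ u.1 ≤ a ∧ -a ≤ u.2 ∧ u.2 ≤ a := by simpa using hu1
  have hA : ∀ w ∈ {v | v ∈ Ann a b}, -b ≤ w.1 ∧ w.1 ≤ b ∧ -b ≤ w.2 ∧ w.2 ≤ b := by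
    intro w hw
    have := sd_le.1 (mem_Ann.1 hw).2
    simpa using this
  rcases sd_eq hv with h1 | h1 | h1 | h1
  · -- left
    right
    obtain ⟨w, h2, h3, -⟩ := last_exit (fun q => - q.1)
      (fun a b hab => by unfold Nbr at hab; omega) a h (by omega) (by simp only at h1; omega)
    refine ⟨v, w, by simpa using h1, by omega, h3.symm.monoS ?_⟩
    rintro q ⟨hq1, hq2⟩
    have := hA q hq1
    have hq2' : a ≤ -q.1 := hq2
    exact ⟨this.1, by omega, this.2.2.1, this.2.2.2⟩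
  · left; right
    obtain ⟨w, h2, h3, -⟩ := last_exit (fun q => q.1)
      (fun a b hab => by unfold Nbr at hab; omega) a h (by omega) (by simp only at h1; omega)
    refine ⟨w, v, h2, by simpa using h1, h3.monoS ?_⟩
    rintro q ⟨hq1, hq2⟩
    have := hA q hq1
    exact ⟨hq2, this.2.1, this.2.2.1, this.2.2.2⟩
  · left; left; right
    obtain ⟨w, h2, h3, -⟩ := last_exit (fun q => - q.2)
      (fun a b hab => by unfold Nbr at hab; omega) a h (by omega) (by simp only at h1; omega)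
    refine ⟨v, w, by simpa using h1, by omega, h3.symm.monoS ?_⟩
    rintro q ⟨hq1, hq2⟩
    have := hA q hq1
    have hq2' : a ≤ -q.2 := hq2
    exact ⟨this.1, this.2.1, this.2.2.1, by omega⟩
  · left; left; left
    obtain ⟨w, h2, h3, -⟩ := last_exit (fun q => q.2)
      (fun a b hab => by unfold Nbr at hab; omega) a h (by omega) (by simp only at h1; omega)
    refine ⟨w, v, h2, by simpa using h1, h3.monoS ?_⟩
    rintro q ⟨hq1, hq2⟩
    have := hA q hq1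
    exact ⟨this.1, this.2.1, hq2, this.2.2.2⟩

/-- the annulus is not crossed with positive probability -/
theorem xc_prob (p : ℝ) {a : ℤ} (ha : 0 ≤ a) {c : ℝ} (hc : 0 ≤ c)
    (h : Pr p (BT (2 * a)) ≤ 1 - c) : Pr p (XC a (3 * a)) ≤ 1 - c ^ 4 := by
  have hP := percP p
  rw [BT_prob] at h
  have e : lr (Pr p) 0 (3 * a - a) 0 (3 * a - -(3 * a)) = lr (Pr p) 0 (2 * a) 0 (3 * (2 * a)) := by
    congr 1 <;> ring
  have q1 : Pr p {z | BTc z (-(3 * a)) (3 * a) a (3 * a)} ≤ 1 - c := by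
    have := hP.bt_eq (-(3 * a)) (3 * a) a (3 * a)
    unfold bt at this
    rw [this, e]
    exact h
  have q2 : Pr p {z | BTc z (-(3 * a)) (3 * a) (-(3 * a)) (-a)} ≤ 1 - c := by
    have := hP.bt_eq (-(3 * a)) (3 * a) (-(3 * a)) (-a)
    unfold bt at this
    have e' : -a - -(3 * a) = 3 * a - a := by ring
    rw [this, e', e]
    exact h
  have q3 : Pr p {z | LRc z a (3 * a) (-(3 * a)) (3 * a)} ≤ 1 - c := by
    have := hP.lr_eq a (3 * a) (-(3 * a)) (3 * a)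
    unfold lr at this
    rw [this]
    unfold lr at e h
    rw [e]
    exact h
  have q4 : Pr p {z | LRc z (-(3 * a)) (-a) (-(3 * a)) (3 * a)} ≤ 1 - c := by
    have := hP.lr_eq (-(3 * a)) (-a) (-(3 * a)) (3 * a)
    unfold lr at this
    have e' : -a - -(3 * a) = 3 * a - a := by ring
    rw [this, e']
    unfold lr at e h
    rw [e]
    exact h
  have i1 := btc_incLoc (-(3 * a)) (3 * a) a (3 * a)
  have i2 := btc_incLoc (-(3 * a)) (3 * a) (-(3 * a)) (-a)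
  have i3 := lrc_incLoc a (3 * a) (-(3 * a)) (3 * a)
  have i4 := lrc_incLoc (-(3 * a)) (-a) (-(3 * a)) (3 * a)
  have f1 := Pr_fkg_compl (p := p) i1 i2
  have f2 := Pr_fkg_compl (p := p) (i1.union i2) i3
  have f3 := Pr_fkg_compl (p := p) ((i1.union i2).union i3) i4
  have m := Pr_mono (p := p) (xc_sub (a := a) (b := 3 * a) (by omega))
  have g1 : c * c ≤ 1 - Pr p ({z | BTc z (-(3 * a)) (3 * a) a (3 * a)} ∪
      {z | BTc z (-(3 * a)) (3 * a) (-(3 * a)) (-a)}) :=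
    le_trans (mul_le_mul (by linarith) (by linarith) hc (by linarith)) f1
  have g2 : c * c * c ≤ _ :=
    le_trans (mul_le_mul g1 (by linarith : c ≤ 1 - Pr p {z | LRc z a (3 * a) (-(3 * a)) (3 * a)})
      hc (le_trans (by positivity) g1)) f2
  have g3 : c * c * c * c ≤ _ :=
    le_trans (mul_le_mul g2 (by linarith : c ≤ 1 - Pr p {z | LRc z (-(3 * a)) (-a) (-(3 * a)) (3 * a)})
      hc (le_trans (by positivity) g2)) f3
  have e4 : c ^ 4 = c * c * c * c := by ring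
  rw [e4]
  linarith

/-- gluing of two arms by a circuit -/
theorem glue_arms {z : Cf} {n : ℤ} (hn : 0 ≤ n) {x : P2} (hx : sd (0, 0) x ≤ n)
    (h0 : z ∈ Arm1 (3 * n)) (h1 : z ∈ ArmX x (3 * n)) (h2 : Circ4 z (0, 0) n (2 * n)) :
    z ∈ EV (Bx (4 * n)) {((0 : ℤ), (0 : ℤ))} {x} := by
  obtain ⟨t, _, ht⟩ := circ4_meet hn (by omega) h2
  obtain ⟨u, hu, v, hv, hc⟩ := h0
  rw [Set.mem_singleton_iff] at hu
  subst hu
  obtain ⟨w0, a1, a2⟩ := ht _ _ _ hc (by simpa [sd] using hn) (by rw [mem_Out] at hv; omega)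
  obtain ⟨v', hv', hc'⟩ := armX_iff.1 h1
  obtain ⟨w1, b1, b2⟩ := ht _ _ _ hc' hx (by
    have := sd_tri x (0, 0) v'
    rw [sd_comm x (0, 0)] at this
    omega)
  have s1 : Bx (3 * n) ⊆ Bx (4 * n) := Bx_mono (by omega)
  have s2 : {v | v ∈ bx x (3 * n)} ⊆ Bx (4 * n) := by
    intro v hv
    rw [Set.mem_ofPred_eq, mem_bx_sd] at hv
    rw [mem_Bx, mem_bx_sd]
    have := sd_tri (0, 0) x v
    omega
  have s3 : Rect ((0 : ℤ) - 2 * n) (0 + 2 * n) ((0 : ℤ) - 2 * n) (0 + 2 * n) ⊆ Bx (4 * n) := by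
    rintro v ⟨c1, c2, c3, c4⟩
    exact ⟨by omega, by omega, by omega, by omega⟩
  exact ⟨(0, 0), rfl, x, rfl, ((a1.monoS s1).trans (a2.monoS s3).symm).trans
    ((b2.monoS s3).trans (b1.monoS s2).symm)⟩

/-- if the annulus is not crossed then the cluster of the origin is finite -/
theorem finite_of_not_xc {z : Cf} {a b : ℤ} (ha : 0 ≤ a) (hab : a ≤ b) (h : z ∉ XC a b) :
    (clu z).Finite := by
  by_contra hcon
  apply h
  have h1 := clu_infinite_iff.1 hcon b.toNat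
  have hb : ((b.toNat : ℕ) : ℤ) = b := by omega
  rw [hb] at h1
  obtain ⟨u, hu, v, hv, hc⟩ := h1
  rw [Set.mem_singleton_iff] at hu
  subst hu
  rw [mem_Out] at hv
  obtain ⟨w, h2, h3, -⟩ := last_exit (sd (0, 0)) (sd_nbr (0, 0)) a hc
    (by simpa [sd] using ha) (by omega)
  have hv' := hc.right
  rw [mem_Bx, mem_bx_sd] at hv'
  refine ⟨w, h2, v, le_antisymm hv' hv, h3.monoS ?_⟩
  rintro q ⟨q1, q2⟩
  rw [mem_Bx, mem_bx_sd] at q1
  exact mem_Ann.2 ⟨q2, q1⟩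

/-- **Lower bound of the truncated two-point function.** -/
theorem tf_lower (p : ℝ) {n : ℤ} (hn : 0 ≤ n) {c : ℝ} (hc : 0 ≤ c) (h1 : c ≤ Pr p (LR n))
    (h2 : Pr p (BT (8 * n + 2)) ≤ 1 - c) {x : P2} (hx : sd (0, 0) x ≤ n) :
    c ^ 16 * Pr p (Arm1 (3 * n)) ^ 2 ≤ Pr p (Tf x) := by
  set D1 : Set Cf := EV (Bx (4 * n)) {((0 : ℤ), (0 : ℤ))} {x} with hD1
  set a : ℤ := 4 * n + 1 with ha
  have e1 : 2 * a = 8 * n + 2 := by omega
  have hX : Pr p (XC a (3 * a)) ≤ 1 - c ^ 4 := xc_prob p (by omega) hc (by rw [e1]; exact h2)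
  have hdis : Disjoint (bx (0, 0) (4 * n)) (Ann a (3 * a)) := by
    rw [Finset.disjoint_left]
    intro v hv hv'
    rw [mem_bx_sd] at hv
    rw [mem_Ann] at hv'
    omega
  have hdep : Dep (eIn (bx (0, 0) (4 * n))) D1 := dep_EV (fun v hv => mem_Bx.1 hv) _ _
  have hind : Pr p (D1 ∩ (XC a (3 * a))ᶜ) = Pr p D1 * Pr p (XC a (3 * a))ᶜ :=
    Pr_indep hdis hdep (xc_dep a (3 * a)).compl
  have hsub : D1 ∩ (XC a (3 * a))ᶜ ⊆ Tf x := by
    rintro z ⟨⟨u, hu, v, hv, hc⟩, hz⟩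
    rw [Set.mem_singleton_iff] at hu hv
    subst hu
    subst hv
    exact ⟨rch_of_oc hc, finite_of_not_xc (by omega) (by omega) hz⟩
  have hD : c ^ 12 * Pr p (Arm1 (3 * n)) ^ 2 ≤ Pr p D1 := by
    have i1 : IncLoc {z : Cf | Circ4 z (0, 0) n (2 * n)} := by
      have : {z : Cf | Circ4 z (0, 0) n (2 * n)} =
          {z | LRc z (0 - 2 * n) (0 + 2 * n) (0 + n) (0 + 2 * n)} ∩
            ({z | LRc z (0 - 2 * n) (0 + 2 * n) (0 - 2 * n) (0 - n)} ∩
              ({z | BTc z (0 + n) (0 + 2 * n) (0 - 2 * n) (0 + 2 * n)} ∩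
                {z | BTc z (0 - 2 * n) (0 - n) (0 - 2 * n) (0 + 2 * n)})) := by
        ext z
        rfl
      rw [this]
      exact (lrc_incLoc _ _ _ _).inter ((lrc_incLoc _ _ _ _).inter
        ((btc_incLoc _ _ _ _).inter (btc_incLoc _ _ _ _)))
    have f1 := Pr_fkg (p := p) (arm1_incLoc (3 * n)) (armX_incLoc x (3 * n))
    have f2 := Pr_fkg (p := p) ((arm1_incLoc (3 * n)).inter (armX_incLoc x (3 * n))) i1
    rw [armX_prob] at f1
    have f3 := circ_ge p hn hc h1 (0, 0)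
    have f4 : (Arm1 (3 * n) ∩ ArmX x (3 * n)) ∩ {z : Cf | Circ4 z (0, 0) n (2 * n)} ⊆ D1 := by
      rintro z ⟨⟨g1, g2⟩, g3⟩
      exact glue_arms hn hx g1 g2 g3
    refine le_trans ?_ (f2.trans (Pr_mono f4))
    calc c ^ 12 * Pr p (Arm1 (3 * n)) ^ 2 = (Pr p (Arm1 (3 * n)) * Pr p (Arm1 (3 * n))) * c ^ 12 := by
          ring
      _ ≤ _ := mul_le_mul f1 f3 (by positivity) (Pr_nonneg _ _)
  refine le_trans ?_ (Pr_mono hsub)
  rw [hind, Pr_compl (xc_incLoc _ _).measurableSet]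
  calc c ^ 16 * Pr p (Arm1 (3 * n)) ^ 2 = (c ^ 12 * Pr p (Arm1 (3 * n)) ^ 2) * c ^ 4 := by ring
    _ ≤ _ := mul_le_mul hD (by linarith) (by positivity) (Pr_nonneg _ _)

end Crest.Agent.R158.Fr158
end
end

-- ▼ part R158/FsS_158
section

/-!
# Row 158, Block F (helper158): sums over boxes and tails

* `box_sum` : `∑_{|x| ≤ N} F x ≤ 27 + 9 B N^{2-s}` if `F ≤ 1` and `F x ≤ B |x|^{-s}` for `3 ≤ |x| ≤ N`
* `tail_const`, `tsum_le_box` : tails bounded by a constant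
-/

set_option autoImplicit false

noncomputable section

namespace Crest.Agent.R158.Fr158

open MeasureTheory Filter Topology
open Crest.Agent.R161.Tas682 Crest.Agent.R161.Geo729
open scoped ENNReal

/-- sup norm of a lattice point -/
def nm (x : ℤ × ℤ) : ℕ := (sd (0, 0) x).toNat

theorem sd_nonneg (x y : P2) : 0 ≤ sd x y := (abs_nonneg _).trans (le_max_left _ _)

theorem nm_cast (x : ℤ × ℤ) : ((nm x : ℕ) : ℤ) = sd (0, 0) x := by
  unfold nm
  exact Int.toNat_of_nonneg (sd_nonneg _ _)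

theorem nm_eq_natAbs (x : ℤ × ℤ) : nm x = max x.1.natAbs x.2.natAbs := by
  have h := nm_cast x
  unfold sd at h
  simp only [sub_zero] at h
  rw [Int.abs_eq_natAbs, Int.abs_eq_natAbs] at h
  exact_mod_cast h

theorem mem_box_nm {x : ℤ × ℤ} {r : ℕ} : x ∈ (Finset.box r : Finset (ℤ × ℤ)) ↔ nm x = r := by
  rw [Int.mem_box, nm_eq_natAbs]

theorem card_box_le (r : ℕ) : ((Finset.box r : Finset (ℤ × ℤ)).card : ℝ) ≤ 8 * r + 1 := by
  rcases Nat.eq_zero_or_pos r with rfl | h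
  · simp
  · rw [Int.card_box h.ne']
    push_cast
    linarith

theorem mem_bx_nm {x : ℤ × ℤ} {n : ℕ} : x ∈ bx (0, 0) (n : ℤ) ↔ nm x ≤ n := by
  rw [mem_bx_sd, ← nm_cast]
  omega

/-- sum over the box, sphere by sphere -/
theorem box_sum_sphere (F : ℤ × ℤ → ℝ) (N : ℕ) :
    ∑ x ∈ bx (0, 0) (N : ℤ), F x = ∑ r ∈ Finset.range (N + 1), ∑ x ∈ Finset.box r, F x := by
  rw [← Finset.sum_fiberwise_of_maps_to (s := bx (0, 0) (N : ℤ)) (t := Finset.range (N + 1))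
    (g := nm) (fun x hx => by rw [Finset.mem_range]; have := mem_bx_nm.1 hx; omega)]
  refine Finset.sum_congr rfl fun r hr => Finset.sum_congr ?_ fun _ _ => rfl
  ext x
  rw [Finset.mem_filter, mem_bx_nm, mem_box_nm]
  rw [Finset.mem_range] at hr
  omega

theorem box_sum {F : ℤ × ℤ → ℝ} {B s : ℝ} {N : ℕ} (hs : s ≤ 1) (hB : 0 ≤ B)
    (h1 : ∀ x, F x ≤ 1)
    (hF : ∀ x, 3 ≤ nm x → nm x ≤ N → F x ≤ B * (nm x : ℝ) ^ (-s)) :
    ∑ x ∈ bx (0, 0) (N : ℤ), F x ≤ 27 + 9 * B * (N : ℝ) ^ (2 - s) := by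
  rw [box_sum_sphere]
  have hN0 : (0 : ℝ) ≤ (N : ℝ) ^ (1 - s) := by positivity
  have key : ∀ r ∈ Finset.range (N + 1), ∑ x ∈ Finset.box r, F x ≤
      (if r < 3 then (9 : ℝ) * 2 - (if r = 0 then 17 else if r = 1 then 9 else 1) else 0) +
        (if r = 0 then 0 else 9 * B * (N : ℝ) ^ (1 - s)) := by
    intro r hr
    rw [Finset.mem_range] at hr
    by_cases h3 : r < 3
    · have h4 : ∑ x ∈ Finset.box r, F x ≤ 8 * r + 1 := by
        refine le_trans (Finset.sum_le_card_nsmul _ _ 1 fun x _ => h1 x) ?_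
        rw [nsmul_eq_mul, mul_one]
        exact card_box_le r
      refine h4.trans ?_
      rw [if_pos h3]
      interval_cases r
      · norm_num
      · simp only [Nat.cast_one, mul_one, one_ne_zero, if_false, if_true]
        nlinarith [mul_nonneg hB hN0]
      · simp only [Nat.cast_ofNat, OfNat.ofNat_ne_zero, if_false, OfNat.ofNat_ne_one]
        nlinarith [mul_nonneg hB hN0]
    · rw [if_neg h3, zero_add, if_neg (by omega)]
      have hr0 : (0 : ℝ) < r := by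
        have : 0 < r := by omega
        exact_mod_cast this
      have h4 : ∀ x ∈ (Finset.box r : Finset (ℤ × ℤ)), F x ≤ B * (r : ℝ) ^ (-s) := by
        intro x hx
        have hx' := mem_box_nm.1 hx
        have := hF x (by omega) (by omega)
        rwa [hx'] at this
      refine (Finset.sum_le_card_nsmul _ _ _ h4).trans ?_
      rw [nsmul_eq_mul]
      have h5 : ((Finset.box r : Finset (ℤ × ℤ)).card : ℝ) ≤ 9 * r := by
        refine (card_box_le r).trans ?_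
        have : (1 : ℝ) ≤ r := by exact_mod_cast (by omega : 1 ≤ r)
        linarith
      calc ((Finset.box r : Finset (ℤ × ℤ)).card : ℝ) * (B * (r : ℝ) ^ (-s))
          ≤ 9 * r * (B * (r : ℝ) ^ (-s)) :=
            mul_le_mul_of_nonneg_right h5 (by positivity)
        _ = 9 * B * ((r : ℝ) ^ (1 : ℝ) * (r : ℝ) ^ (-s)) := by rw [Real.rpow_one]; ring
        _ = 9 * B * (r : ℝ) ^ (1 - s) := by rw [← Real.rpow_add hr0]; rfl
        _ ≤ 9 * B * (N : ℝ) ^ (1 - s) := by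
            apply mul_le_mul_of_nonneg_left _ (by positivity)
            exact Real.rpow_le_rpow hr0.le (by exact_mod_cast (by omega : r ≤ N)) (by linarith)
  refine (Finset.sum_le_sum key).trans ?_
  rw [Finset.sum_add_distrib]
  have s1 : ∑ r ∈ Finset.range (N + 1), (if r < 3 then
      (9 : ℝ) * 2 - (if r = 0 then 17 else if r = 1 then 9 else 1) else 0) ≤ 27 := by
    calc _ ≤ ∑ r ∈ Finset.range (N + 1 + 3), (if r < 3 then
        (9 : ℝ) * 2 - (if r = 0 then 17 else if r = 1 then 9 else 1) else 0) := by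
          refine Finset.sum_le_sum_of_subset_of_nonneg
            (Finset.range_subset_range.2 (by omega)) fun r _ _ => ?_
          split_ifs <;> norm_num
      _ = 27 := by
          have : ∀ m : ℕ, ∑ r ∈ Finset.range (m + 3), (if r < 3 then
              (9 : ℝ) * 2 - (if r = 0 then 17 else if r = 1 then 9 else 1) else 0) = 27 := by
            intro m
            induction m with
            | zero => simp [Finset.sum_range_succ]; norm_num
            | succ m ih =>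
              rw [show m + 1 + 3 = (m + 3) + 1 by ring, Finset.sum_range_succ, ih,
                if_neg (by omega), add_zero]
          exact this (N + 1)
  have s2 : ∑ r ∈ Finset.range (N + 1), (if r = 0 then (0 : ℝ) else 9 * B * (N : ℝ) ^ (1 - s)) =
      N * (9 * B * (N : ℝ) ^ (1 - s)) := by
    rw [Finset.sum_range_succ']
    simp
  rw [s2]
  refine add_le_add s1 (le_of_eq ?_)
  rcases Nat.eq_zero_or_pos N with rfl | hN
  · have : (2 : ℝ) - s ≠ 0 := by linarith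
    simp [Real.zero_rpow this]
  · have hN' : (0 : ℝ) < N := by exact_mod_cast hN
    have : (N : ℝ) ^ (2 - s) = N * (N : ℝ) ^ (1 - s) := by
      rw [show (2 - s) = 1 + (1 - s) by ring, Real.rpow_add hN', Real.rpow_one]
    rw [this]
    ring

/-! ### tails -/

/-- the summable majorant -/
def gj (x : ℤ × ℤ) : ℝ := (1 / (1 + |(x.1 : ℝ)|) ^ 2) * (1 / (1 + |(x.2 : ℝ)|) ^ 2)

theorem summable_g1 : Summable fun n : ℤ => 1 / (1 + |(n : ℝ)|) ^ 2 := by
  have h : Summable fun n : ℕ => 1 / (1 + (n : ℝ)) ^ 2 := by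
    have h1 := (summable_nat_add_iff 1).2 (Real.summable_one_div_nat_pow.2 one_lt_two)
    refine h1.congr fun n => ?_
    push_cast
    rw [add_comm (1 : ℝ)]
  refine Summable.of_nat_of_neg ?_ ?_
  · refine h.congr fun n => ?_
    simp
  · refine h.congr fun n => ?_
    simp

theorem summable_gj : Summable gj :=
  summable_g1.mul_of_nonneg summable_g1 (fun _ => by positivity) (fun _ => by positivity)

theorem gj_nonneg (x : ℤ × ℤ) : 0 ≤ gj x := by unfold gj; positivity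

theorem nm_pow_le (x : ℤ × ℤ) (hx : 1 ≤ nm x) : ((nm x : ℝ) ^ 4)⁻¹ ≤ 16 * gj x := by
  have hn : (1 : ℝ) ≤ nm x := by exact_mod_cast hx
  have h1 : |(x.1 : ℝ)| ≤ nm x := by
    have : x.1.natAbs ≤ nm x := by rw [nm_eq_natAbs]; exact le_max_left _ _
    rw [← Int.cast_abs, Int.abs_eq_natAbs]
    exact_mod_cast this
  have h2 : |(x.2 : ℝ)| ≤ nm x := by
    have : x.2.natAbs ≤ nm x := by rw [nm_eq_natAbs]; exact le_max_right _ _
    rw [← Int.cast_abs, Int.abs_eq_natAbs]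
    exact_mod_cast this
  have h3 : (1 + |(x.1 : ℝ)|) ^ 2 ≤ (2 * nm x) ^ 2 :=
    pow_le_pow_left₀ (by positivity) (by linarith) 2
  have h4 : (1 + |(x.2 : ℝ)|) ^ 2 ≤ (2 * nm x) ^ 2 :=
    pow_le_pow_left₀ (by positivity) (by linarith) 2
  unfold gj
  rw [div_mul_div_comm, one_mul, mul_one_div, inv_eq_one_div, div_le_div_iff₀ (by positivity)
    (by positivity)]
  calc 1 * ((1 + |(x.1 : ℝ)|) ^ 2 * (1 + |(x.2 : ℝ)|) ^ 2)
      ≤ (2 * nm x) ^ 2 * (2 * nm x) ^ 2 := by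
        rw [one_mul]
        exact mul_le_mul h3 h4 (by positivity) (by positivity)
    _ = 16 * (nm x : ℝ) ^ 4 := by ring

theorem norm_sq_le (x : ℤ × ℤ) : ((x.1 : ℝ) ^ 2 + (x.2 : ℝ) ^ 2) ≤ 2 * (nm x : ℝ) ^ 2 := by
  have h1 : |(x.1 : ℝ)| ≤ nm x := by
    have : x.1.natAbs ≤ nm x := by rw [nm_eq_natAbs]; exact le_max_left _ _
    rw [← Int.cast_abs, Int.abs_eq_natAbs]
    exact_mod_cast this
  have h2 : |(x.2 : ℝ)| ≤ nm x := by
    have : x.2.natAbs ≤ nm x := by rw [nm_eq_natAbs]; exact le_max_right _ _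
    rw [← Int.cast_abs, Int.abs_eq_natAbs]
    exact_mod_cast this
  have h3 := pow_le_pow_left₀ (abs_nonneg _) h1 2
  have h4 := pow_le_pow_left₀ (abs_nonneg _) h2 2
  rw [sq_abs] at h3 h4
  linarith

/-- the constant bounding the tails -/
def Kt : ℝ := 32 * ∑' x : ℤ × ℤ, gj x

theorem Kt_nonneg : 0 ≤ Kt := mul_nonneg (by norm_num) (tsum_nonneg gj_nonneg)

/-- a sum over the lattice is at most the sum over a box plus a constant -/
theorem tsum_le_box {F : ℤ × ℤ → ℝ} (hF0 : ∀ x, 0 ≤ F x) {N : ℕ}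
    (hF : ∀ x, N < nm x → F x ≤ 32 * gj x) :
    ∑' x, ENNReal.ofReal (F x) ≤ ENNReal.ofReal (∑ x ∈ bx (0, 0) (N : ℤ), F x + Kt) := by
  classical
  have h1 : ∀ x, ENNReal.ofReal (F x) ≤
      (if x ∈ bx (0, 0) (N : ℤ) then ENNReal.ofReal (F x) else 0) + ENNReal.ofReal (32 * gj x) := by
    intro x
    by_cases hx : x ∈ bx (0, 0) (N : ℤ)
    · rw [if_pos hx]
      exact le_self_add
    · rw [if_neg hx, zero_add]
      refine ENNReal.ofReal_le_ofReal (hF x ?_)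
      rw [mem_bx_nm] at hx
      omega
  refine (ENNReal.tsum_le_tsum h1).trans ?_
  rw [ENNReal.tsum_add, ENNReal.ofReal_add (Finset.sum_nonneg fun x _ => hF0 x) Kt_nonneg]
  refine add_le_add ?_ ?_
  · rw [tsum_eq_sum (s := bx (0, 0) (N : ℤ)) (fun x hx => if_neg hx),
      ENNReal.ofReal_sum_of_nonneg fun x _ => hF0 x]
    exact le_of_eq (Finset.sum_congr rfl fun x hx => if_pos hx)
  · unfold Kt
    rw [← tsum_mul_left, ENNReal.ofReal_tsum_of_nonneg (fun x => by have := gj_nonneg x; positivity)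
      (summable_gj.mul_left 32)]

theorem sum_le_tsum' {F : ℤ × ℤ → ℝ} (hF0 : ∀ x, 0 ≤ F x) (s : Finset (ℤ × ℤ)) :
    ENNReal.ofReal (∑ x ∈ s, F x) ≤ ∑' x, ENNReal.ofReal (F x) := by
  rw [ENNReal.ofReal_sum_of_nonneg fun x _ => hF0 x]
  exact ENNReal.sum_le_tsum s

end Crest.Agent.R158.Fr158
end
end

-- ▼ part R158/FsE_158
section

/-!
# Row 158, Block F (helper158): estimates of the susceptibility and the second moment

Inputs: `HypA`, `HypB`, `HypC`, `HypD` (FrDef_158) and `HypZ1` (exponential decay beyond a good scale).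
-/

set_option autoImplicit false

noncomputable section

namespace Crest.Agent.R158.Fr158

open MeasureTheory Filter Topology
open Crest.ProbabilityR.Percolation Crest.ProbabilityR.FirstPassage
open Crest.Agent.R158.Rs689 Crest.Agent.R161.Tas682 Crest.Agent.R161.Geo729

/-- (Z1) exponential decay of the truncated one-arm probability beyond a good scale -/
def HypZ1 : Prop :=
  ∃ δ C c : ℝ, 0 < δ ∧ 0 ≤ C ∧ 0 < c ∧ ∀ (p : ℝ) (M : ℕ), 1 ≤ M →
    ((p < 1 / 2 ∧ Pr p (BT M) ≤ δ) ∨ (1 / 2 < p ∧ Pr (1 - p) (BT M) ≤ δ)) →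
      ∀ R : ℕ, Pr p (Arm1 R ∩ {z | (clu z).Finite}) ≤ C * Real.exp (-(c * R / M))

/-- (Z2) the infinite cluster above a good scale -/
def HypZ2 : Prop :=
  ∃ δ c : ℝ, 0 < δ ∧ 0 < c ∧ ∀ (p : ℝ) (M : ℕ), 1 ≤ M → 1 / 2 < p → Pr (1 - p) (BT M) ≤ δ →
    c * Pr p (Arm1 (2 * M)) ≤ Pr p {z | (clu z).Infinite}

/-! ### the good scale -/

theorem tendsto_one_sub : Tendsto (fun p : ℝ => 1 - p) (𝓝[≠] (1 / 2)) (𝓝[≠] (1 / 2)) := by
  rw [tendsto_nhdsWithin_iff]
  constructor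
  · have h : Tendsto (fun p : ℝ => 1 - p) (𝓝 (1 / 2)) (𝓝 (1 - 1 / 2)) :=
      tendsto_const_nhds.sub tendsto_id
    have e : (1 : ℝ) - 1 / 2 = 1 / 2 := by norm_num
    rw [e] at h
    exact h.mono_left nhdsWithin_le_nhds
  · filter_upwards [self_mem_nhdsWithin] with p hp
    intro h
    apply hp
    rw [Set.mem_singleton_iff] at h ⊢
    linarith

theorem good_scale (hD : HypD) {δ ε : ℝ} (hδ : 0 < δ) (hε : 0 < ε) :
    ∀ᶠ p : ℝ in 𝓝[≠] (1 / 2), ∃ M : ℕ, 1 ≤ M ∧ (M : ℝ) ≤ |p - 1 / 2| ^ (-(4 / 3 : ℝ) - ε) ∧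
      ((p < 1 / 2 ∧ Pr p (BT M) ≤ δ) ∨ (1 / 2 < p ∧ Pr (1 - p) (BT M) ≤ δ)) := by
  have h1 := hD δ hδ ε hε
  have h2 := tendsto_one_sub.eventually h1
  filter_upwards [h1, h2, self_mem_nhdsWithin] with p h1 h2 hp
  rcases lt_or_gt_of_ne (show p ≠ 1 / 2 from hp) with h | h
  · obtain ⟨M, a, b, -, c⟩ := h1
    exact ⟨M, a, b, Or.inl ⟨h, c h⟩⟩
  · obtain ⟨M, a, b, -, c⟩ := h2
    refine ⟨M, a, ?_, Or.inr ⟨h, c (by linarith)⟩⟩
    have e : |1 - p - 1 / 2| = |p - 1 / 2| := by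
      rw [← abs_neg]
      congr 1
      ring
    rwa [e] at b

/-! ### tails -/

theorem exp_decay {C c κ : ℝ} (hC : 0 ≤ C) (hc : 0 < c) (hκ : 0 < κ) :
    ∀ᶠ R : ℕ in atTop, C * Real.exp (-(c * (R : ℝ) ^ κ)) ≤ ((R : ℝ) ^ 6)⁻¹ := by
  have h1 := tendsto_rpow_mul_exp_neg_mul_atTop_nhds_zero (6 / κ) c hc
  have h2 : Tendsto (fun R : ℕ => (R : ℝ) ^ κ) atTop atTop :=
    (tendsto_rpow_atTop hκ).comp tendsto_natCast_atTop_atTop
  have h3 := h1.comp h2
  have h4 : ∀ᶠ R : ℕ in atTop, ((R : ℝ) ^ κ) ^ (6 / κ) * Real.exp (-c * (R : ℝ) ^ κ) < 1 / (C + 1) :=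
    h3.eventually (gt_mem_nhds (by positivity))
  filter_upwards [h4, eventually_ge_atTop 1] with R h5 hR
  have hR0 : (0 : ℝ) < R := by exact_mod_cast hR
  rw [← Real.rpow_mul hR0.le, mul_div_cancel₀ _ hκ.ne'] at h5
  have e : (R : ℝ) ^ (6 : ℝ) = (R : ℝ) ^ 6 := by
    rw [show (6 : ℝ) = ((6 : ℕ) : ℝ) by norm_num, Real.rpow_natCast]
  rw [e] at h5
  have e2 : -c * (R : ℝ) ^ κ = -(c * (R : ℝ) ^ κ) := by ring
  rw [e2] at h5
  have h6 : 0 < (R : ℝ) ^ 6 := by positivity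
  rw [inv_eq_one_div, le_div_iff₀ h6]
  rw [lt_div_iff₀ (by positivity)] at h5
  have h7 : 0 < (R : ℝ) ^ 6 * Real.exp (-(c * (R : ℝ) ^ κ)) := by positivity
  nlinarith

theorem tail_ev (hD : HypD) (hZ : HypZ1) {η : ℝ} (hη : 0 < η) :
    ∀ᶠ p : ℝ in 𝓝[≠] (1 / 2), ∀ x : ℤ × ℤ, ⌊|p - 1 / 2| ^ (-(4 / 3 + 2 * η))⌋₊ < nm x →
      Pr p (Tf x) ≤ ((nm x : ℝ) ^ 6)⁻¹ := by
  obtain ⟨δ, C, c, hδ, hC, hc, hZ⟩ := hZ
  have hd := tendsto_abs_sub_half
  set κ : ℝ := η / (4 / 3 + 2 * η) with hκ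
  have hκ0 : 0 < κ := by positivity
  obtain ⟨R0, hR0⟩ := eventually_atTop.1 (exp_decay hC hc hκ0)
  have hN : Tendsto (fun p : ℝ => ⌊|p - 1 / 2| ^ (-(4 / 3 + 2 * η))⌋₊) (𝓝[≠] (1 / 2)) atTop :=
    tendsto_floor hd (by positivity)
  filter_upwards [good_scale hD hδ hη, hN.eventually (eventually_ge_atTop R0),
    ev_pos_lt hd one_pos] with p h1 h2 h3
  obtain ⟨M, hM1, hM2, hM3⟩ := h1
  intro x hx
  have hsub : Tf x ⊆ Arm1 (nm x) ∩ {z | (clu z).Finite} := by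
    rintro z ⟨hz1, hz2⟩
    refine ⟨arm_of_rch (by omega) hz1 ?_, hz2⟩
    rw [mem_Out, nm_cast]
  refine (Pr_mono hsub).trans ((hZ p M hM1 hM3 (nm x)).trans (le_trans ?_ (hR0 (nm x) (by omega))))
  apply mul_le_mul_of_nonneg_left _ hC
  apply Real.exp_le_exp.2
  rw [neg_le_neg_iff, mul_div_assoc]
  apply mul_le_mul_of_nonneg_left _ hc.le
  -- `R ^ κ ≤ R / M`
  have hM0 : (0 : ℝ) < M := by exact_mod_cast hM1
  have hR : |p - 1 / 2| ^ (-(4 / 3 + 2 * η)) < nm x := by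
    have := Nat.lt_of_floor_lt hx
    exact this
  have hRp : (0 : ℝ) < nm x := lt_trans (Real.rpow_pos_of_pos h3.1 _) hR
  rw [le_div_iff₀ hM0]
  have hden : (0 : ℝ) < 4 / 3 + 2 * η := by positivity
  have e1 : 1 - κ = (4 / 3 + η) / (4 / 3 + 2 * η) := by
    rw [hκ, eq_div_iff hden.ne', sub_mul, div_mul_cancel₀ _ hden.ne']
    ring
  have h4 : (M : ℝ) ≤ (nm x : ℝ) ^ (1 - κ) := by
    refine hM2.trans ?_
    calc |p - 1 / 2| ^ (-(4 / 3 : ℝ) - η)
        = (|p - 1 / 2| ^ (-(4 / 3 + 2 * η))) ^ (1 - κ) := by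
          rw [← Real.rpow_mul h3.1.le, e1]
          congr 1
          field_simp
          ring
      _ ≤ _ := Real.rpow_le_rpow (Real.rpow_nonneg h3.1.le _) hR.le (by rw [e1]; positivity)
  calc (nm x : ℝ) ^ κ * M ≤ (nm x : ℝ) ^ κ * (nm x : ℝ) ^ (1 - κ) :=
        mul_le_mul_of_nonneg_left h4 (Real.rpow_nonneg hRp.le _)
    _ = nm x := by
        rw [← Real.rpow_add hRp]
        have : κ + (1 - κ) = 1 := by ring
        rw [this, Real.rpow_one]

/-! ### one-arm probabilities with constants -/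

theorem arm_const (hA : HypA) {η : ℝ} (hη : 0 < η) (hη1 : η ≤ 5 / 48) :
    ∃ C : ℝ, 1 ≤ C ∧ ∀ k : ℕ, 1 ≤ k → Pr (1 / 2) (Arm1 k) ≤ C * (k : ℝ) ^ (-(5 / 48 : ℝ) + η) := by
  obtain ⟨k0, hk0⟩ := eventually_atTop.1 (hA η hη)
  refine ⟨k0 + 1, by linarith [Nat.cast_nonneg (α := ℝ) k0], fun k hk => ?_⟩
  have hk1 : (1 : ℝ) ≤ k := by exact_mod_cast hk
  have hkp : (0 : ℝ) < k := by linarith
  have hpos : 0 < (k : ℝ) ^ (-(5 / 48 : ℝ) + η) := Real.rpow_pos_of_pos hkp _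
  by_cases h : k0 ≤ k
  · refine (hk0 k h).2.trans ?_
    nlinarith [Nat.cast_nonneg (α := ℝ) k0]
  · refine (Pr_le_one _ _).trans ?_
    have h1 : (k : ℝ) ^ (-(1 : ℝ)) ≤ (k : ℝ) ^ (-(5 / 48 : ℝ) + η) :=
      Real.rpow_le_rpow_of_exponent_le hk1 (by linarith)
    rw [Real.rpow_neg_one] at h1
    have h2 : (k : ℝ) ≤ k0 + 1 := by
      have : k ≤ k0 + 1 := by omega
      exact_mod_cast this
    calc (1 : ℝ) = k * (k : ℝ)⁻¹ := by field_simp
      _ ≤ (k0 + 1) * (k : ℝ) ^ (-(5 / 48 : ℝ) + η) :=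
        mul_le_mul h2 h1 (by positivity) (by positivity)

/-! ### upper bound of the susceptibility inside the box -/

theorem chi_box_upper (hA : HypA) (hB : HypB) {η : ℝ} (hη : 0 < η) (hη1 : η ≤ 1 / 20) :
    ∀ᶠ p : ℝ in 𝓝[≠] (1 / 2),
      ∑ x ∈ bx (0, 0) ((⌊|p - 1 / 2| ^ (-(4 / 3 + 2 * η))⌋₊ : ℕ) : ℤ), Pr p (Tf x) ≤
        |p - 1 / 2| ^ (-(43 / 18 : ℝ) - 14 * η) := by
  have hd := tendsto_abs_sub_half
  obtain ⟨C, hC1, hC⟩ := arm_const hA hη (by linarith)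
  have hfl := ev_floor hd (s := 4 / 3 + 2 * η) (ε := η) (by linarith) hη
  filter_upwards [ev_pos_lt hd one_pos, scale_minus hd hη (by linarith), hfl, hB η hη,
    ev_const_le hd hη (27 + 36 * C ^ 2)] with p h1 h2 h3 h4 h5
  set d := |p - 1 / 2| with hdd
  set N := ⌊d ^ (-(4 / 3 + 2 * η))⌋₊ with hN
  set m := ⌊d ^ (-(4 / 3 : ℝ) + η)⌋₊ with hm
  have hN1 : (1 : ℝ) ≤ N := by exact_mod_cast h3.1
  have hm1 : (1 : ℝ) ≤ m := by exact_mod_cast h2.1
  have hmN : m ≤ N := by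
    apply Nat.floor_mono
    apply Real.rpow_le_rpow_of_exponent_ge h1.1 h1.2.le
    linarith
  have hmN' : (m : ℝ) ≤ N := by exact_mod_cast hmN
  set ρ : ℝ := m / (4 * N) with hρ
  have hρ0 : 0 < ρ := by positivity
  have hρ1 : ρ ≤ 1 := by
    rw [hρ, div_le_one (by positivity)]
    linarith
  set s : ℝ := 5 / 24 - 2 * η with hs
  have hs0 : 0 < s := by rw [hs]; linarith
  have hs1 : s ≤ 1 := by rw [hs]; linarith
  set B : ℝ := (d ^ (-η)) ^ 2 * C ^ 2 * ρ⁻¹ with hBdef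
  have hB0 : 0 ≤ B := by positivity
  have key : ∀ x : ℤ × ℤ, 3 ≤ nm x → nm x ≤ N → Pr p (Tf x) ≤ B * (nm x : ℝ) ^ (-s) := by
    intro x hx3 hxN
    set k : ℕ := min ((nm x - 1) / 2) m with hk
    have hk1 : 1 ≤ k := le_min (by omega) h2.1
    have hkm : k ≤ m := min_le_right _ _
    have hk2 : 2 * k < nm x := by
      have : k ≤ (nm x - 1) / 2 := min_le_left _ _
      omega
    have hk3 : (nm x : ℝ) * ρ ≤ k := by
      have hxN' : (nm x : ℝ) ≤ N := by exact_mod_cast hxN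
      have hx0 : (0 : ℝ) ≤ nm x := Nat.cast_nonneg _
      rcases min_choice ((nm x - 1) / 2) m with h | h
      · rw [← hk] at h
        have h6 : nm x ≤ 4 * k := by omega
        have h7 : (nm x : ℝ) ≤ 4 * k := by exact_mod_cast h6
        have h8 : ρ ≤ 1 / 4 := by
          rw [hρ, div_le_div_iff₀ (by positivity) (by norm_num)]
          linarith
        nlinarith
      · rw [← hk] at h
        rw [h, hρ, mul_div_assoc', div_le_iff₀ (by positivity)]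
        nlinarith
    have h6 : Pr p (Tf x) ≤ Pr p (Arm1 k) ^ 2 :=
      tf_le_arm p (by omega) (by rw [← nm_cast]; exact_mod_cast hk2)
    have h7 : Pr p (Arm1 k) ≤ d ^ (-η) * (C * (k : ℝ) ^ (-(5 / 48 : ℝ) + η)) := by
      have h8 : (k : ℝ) ≤ d ^ (-(4 / 3 : ℝ) + η) :=
        le_trans (by exact_mod_cast hkm) h2.2.1
      refine (h4 k hk1 h8).2.trans ?_
      exact mul_le_mul_of_nonneg_left (hC k hk1) (Real.rpow_nonneg h1.1.le _)
    have hkp : (0 : ℝ) < k := by exact_mod_cast hk1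
    have hxp : (0 : ℝ) < nm x := by exact_mod_cast (by omega : 0 < nm x)
    refine h6.trans ((pow_le_pow_left₀ (Pr_nonneg _ _) h7 2).trans ?_)
    have e1 : ((k : ℝ) ^ (-(5 / 48 : ℝ) + η)) ^ 2 = (k : ℝ) ^ (-s) := by
      rw [← Real.rpow_natCast, ← Real.rpow_mul hkp.le]
      congr 1
      rw [hs]
      push_cast
      ring
    have e2 : (k : ℝ) ^ (-s) ≤ ρ⁻¹ * (nm x : ℝ) ^ (-s) := by
      calc (k : ℝ) ^ (-s) ≤ ((nm x : ℝ) * ρ) ^ (-s) :=
            rpow_anti_base (by positivity) hk3 (by linarith)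
        _ = (nm x : ℝ) ^ (-s) * ρ ^ (-s) := Real.mul_rpow hxp.le hρ0.le
        _ ≤ (nm x : ℝ) ^ (-s) * ρ⁻¹ := by
            apply mul_le_mul_of_nonneg_left _ (Real.rpow_nonneg hxp.le _)
            rw [← Real.rpow_neg_one]
            exact Real.rpow_le_rpow_of_exponent_ge hρ0 hρ1 (by linarith)
        _ = _ := mul_comm _ _
    calc (d ^ (-η) * (C * (k : ℝ) ^ (-(5 / 48 : ℝ) + η))) ^ 2
        = (d ^ (-η)) ^ 2 * C ^ 2 * ((k : ℝ) ^ (-(5 / 48 : ℝ) + η)) ^ 2 := by ring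
      _ = (d ^ (-η)) ^ 2 * C ^ 2 * (k : ℝ) ^ (-s) := by rw [e1]
      _ ≤ (d ^ (-η)) ^ 2 * C ^ 2 * (ρ⁻¹ * (nm x : ℝ) ^ (-s)) :=
          mul_le_mul_of_nonneg_left e2 (by positivity)
      _ = _ := by rw [hBdef]; ring
  have h6 := box_sum (F := fun x => Pr p (Tf x)) (B := B) (s := s) (N := N) hs1 hB0
    (fun x => Pr_le_one _ _) key
  refine h6.trans ?_
  -- powers of `d`
  have hNp : (0 : ℝ) < N := by linarith
  have hmp : (0 : ℝ) < m := by linarith
  have hρi : ρ⁻¹ ≤ 4 * d ^ (-(4 * η)) := by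
    rw [hρ, inv_div, div_le_iff₀ hmp]
    have e : d ^ (-(4 / 3 + 2 * η)) = d ^ (-(4 * η)) * d ^ (-(4 / 3 - 2 * η)) := by
      rw [← Real.rpow_add h1.1]
      congr 1
      ring
    calc 4 * (N : ℝ) ≤ 4 * d ^ (-(4 / 3 + 2 * η)) := by linarith [h3.2.1]
      _ = 4 * d ^ (-(4 * η)) * d ^ (-(4 / 3 - 2 * η)) := by rw [e]; ring
      _ ≤ 4 * d ^ (-(4 * η)) * m :=
          mul_le_mul_of_nonneg_left h2.2.2 (by have := Real.rpow_pos_of_pos h1.1 (-(4 * η)); positivity)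
  have hNs : (N : ℝ) ^ (2 - s) ≤ d ^ (-(4 / 3 + 2 * η) * (2 - s)) := by
    rw [Real.rpow_mul h1.1.le]
    exact Real.rpow_le_rpow hNp.le h3.2.1 (by linarith)
  have e3 : (d ^ (-η)) ^ 2 = d ^ (-(2 * η)) := by
    rw [← Real.rpow_natCast, ← Real.rpow_mul h1.1.le]
    congr 1
    push_cast
    ring
  set Y : ℝ := d ^ (-(43 / 18 : ℝ) - 13 * η) with hY
  have hY1 : 1 ≤ Y := Real.one_le_rpow_of_pos_of_le_one_of_nonpos h1.1 h1.2.le (by linarith)
  have h7 : B * (N : ℝ) ^ (2 - s) ≤ 4 * C ^ 2 * Y := by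
    calc B * (N : ℝ) ^ (2 - s)
        ≤ (d ^ (-(2 * η)) * C ^ 2 * (4 * d ^ (-(4 * η)))) * d ^ (-(4 / 3 + 2 * η) * (2 - s)) := by
          rw [hBdef, e3]
          apply mul_le_mul _ hNs (by positivity) (by positivity)
          exact mul_le_mul_of_nonneg_left hρi (by positivity)
      _ = 4 * C ^ 2 * (d ^ (-(2 * η)) * d ^ (-(4 * η)) * d ^ (-(4 / 3 + 2 * η) * (2 - s))) := by ring
      _ = 4 * C ^ 2 * d ^ (-(2 * η) + -(4 * η) + -(4 / 3 + 2 * η) * (2 - s)) := by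
          rw [← Real.rpow_add h1.1, ← Real.rpow_add h1.1]
      _ ≤ 4 * C ^ 2 * Y := by
          apply mul_le_mul_of_nonneg_left _ (by positivity)
          apply Real.rpow_le_rpow_of_exponent_ge h1.1 h1.2.le
          rw [hs]
          nlinarith
  calc 27 + 9 * B * (N : ℝ) ^ (2 - s) = 27 + 9 * (B * (N : ℝ) ^ (2 - s)) := by ring
    _ ≤ 27 * Y + 9 * (4 * C ^ 2 * Y) := by nlinarith
    _ = (27 + 36 * C ^ 2) * Y := by ring
    _ ≤ d ^ (-η) * Y := mul_le_mul_of_nonneg_right h5 (by linarith)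
    _ = d ^ (-(43 / 18 : ℝ) - 14 * η) := by
        rw [hY, ← Real.rpow_add h1.1]
        congr 1
        ring

end Crest.Agent.R158.Fr158
end
end

-- ▼ part R158/FsF_158

/-!
# Row 158, Block F (helper158): the literal S0236 from `HypA`, `HypB`, `HypC`, `HypD`, `HypZ1`
-/

set_option autoImplicit false

noncomputable section

namespace Crest.Agent.R158.Fr158

open MeasureTheory Filter Topology
open Crest.ProbabilityR.Percolation Crest.ProbabilityR.FirstPassage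
open Crest.Agent.R158.Rs689 Crest.Agent.R161.Tas682 Crest.Agent.R161.Geo729

/-! ### lower bounds -/

theorem tf_lower_ev (hA : HypA) (hB : HypB) (hC : HypC) {η : ℝ} (hη : 0 < η) (hη1 : η ≤ 1 / 20) :
    ∀ᶠ p : ℝ in 𝓝[≠] (1 / 2), ∀ x : ℤ × ℤ, nm x ≤ ⌊|p - 1 / 2| ^ (-(4 / 3 - 2 * η))⌋₊ →
      |p - 1 / 2| ^ ((5 / 18 : ℝ) + 5 * η) ≤ Pr p (Tf x) := by
  have hd := tendsto_abs_sub_half
  obtain ⟨c, hc, hC⟩ := hC
  have hfl := ev_floor hd (s := 4 / 3 - 2 * η) (ε := η) (by linarith) hη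
  have hlow := hypA_lower hA hd (t := 4 / 3) (by norm_num)
    (n := fun p => 3 * ⌊|p - 1 / 2| ^ (-(4 / 3 - 2 * η))⌋₊) (ε := η) (by
      filter_upwards [hfl, ev_pos_lt hd one_pos,
        ev_rpow_le hd hη (by norm_num : (0 : ℝ) < 1 / 10)] with p h1 h2 h3
      push_cast
      have e : |p - 1 / 2| ^ (-(4 / 3 - 2 * η)) = |p - 1 / 2| ^ η * |p - 1 / 2| ^ (-(4 / 3 : ℝ) + η) := by
        rw [← Real.rpow_add h2.1]
        congr 1
        ring
      have h4 : 0 < |p - 1 / 2| ^ (-(4 / 3 : ℝ) + η) := Real.rpow_pos_of_pos h2.1 _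
      have h5 : |p - 1 / 2| ^ (-(4 / 3 : ℝ) + η) ≤ |p - 1 / 2| ^ (-(4 / 3 : ℝ)) :=
        Real.rpow_le_rpow_of_exponent_ge h2.1 h2.2.le (by linarith)
      have h6 := h1.2.1
      rw [e] at h6
      nlinarith) hη
  filter_upwards [ev_pos_lt hd one_pos, hfl, hlow, hB η hη, hC η hη,
    ev_rpow_le hd hη (by norm_num : (0 : ℝ) < 1 / 10),
    ev_rpow_le hd hη (show (0 : ℝ) < c ^ 16 by positivity)] with p h1 h2 h3 h4 h5 h6 h7
  intro x hx
  set d := |p - 1 / 2| with hdd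
  set n := ⌊d ^ (-(4 / 3 - 2 * η))⌋₊ with hn
  have hn1 : 1 ≤ n := h2.1
  have e : d ^ (-(4 / 3 - 2 * η)) = d ^ η * d ^ (-(4 / 3 : ℝ) + η) := by
    rw [← Real.rpow_add h1.1]
    congr 1
    ring
  have hpos : 0 < d ^ (-(4 / 3 : ℝ) + η) := Real.rpow_pos_of_pos h1.1 _
  have hn10 : 10 * (n : ℝ) ≤ d ^ (-(4 / 3 : ℝ) + η) := by
    have h8 := h2.2.1
    rw [e] at h8
    nlinarith
  have hnr : (1 : ℝ) ≤ n := by exact_mod_cast hn1
  have g1 := (h5 n hn1 (by linarith)).1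
  have g2 := (h5 (8 * n + 2) (by omega) (by push_cast; linarith)).2
  have g3 := (h4 (3 * n) (by omega) (by push_cast; linarith)).1
  have e1 : ((8 * n + 2 : ℕ) : ℤ) = 8 * (n : ℤ) + 2 := by push_cast; ring
  have e2 : ((3 * n : ℕ) : ℤ) = 3 * (n : ℤ) := by push_cast; ring
  rw [e1] at g2
  rw [e2] at g3 h3
  have g4 := tf_lower p (n := (n : ℤ)) (by omega) hc.le g1 g2 (x := x)
    (by rw [← nm_cast]; exact_mod_cast hx)
  refine le_trans ?_ g4
  have e3 : (5 / 48 * (4 / 3) : ℝ) = 5 / 36 := by norm_num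
  rw [e3] at h3
  have g5 : d ^ ((5 / 36 : ℝ) + 2 * η) ≤ Pr p (Arm1 (3 * (n : ℤ))) := by
    refine le_trans ?_ g3
    have : d ^ ((5 / 36 : ℝ) + 2 * η) = d ^ η * d ^ ((5 / 36 : ℝ) + η) := by
      rw [← Real.rpow_add h1.1]
      congr 1
      ring
    rw [this]
    exact mul_le_mul_of_nonneg_left h3 (Real.rpow_nonneg h1.1.le _)
  have g6 : d ^ ((5 / 18 : ℝ) + 4 * η) ≤ Pr p (Arm1 (3 * (n : ℤ))) ^ 2 := by
    have : d ^ ((5 / 18 : ℝ) + 4 * η) = (d ^ ((5 / 36 : ℝ) + 2 * η)) ^ 2 := by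
      rw [← Real.rpow_natCast, ← Real.rpow_mul h1.1.le]
      congr 1
      push_cast
      ring
    rw [this]
    exact pow_le_pow_left₀ (Real.rpow_nonneg h1.1.le _) g5 2
  calc d ^ ((5 / 18 : ℝ) + 5 * η) = d ^ η * d ^ ((5 / 18 : ℝ) + 4 * η) := by
        rw [← Real.rpow_add h1.1]
        congr 1
        ring
    _ ≤ c ^ 16 * Pr p (Arm1 (3 * (n : ℤ))) ^ 2 :=
        mul_le_mul h7 g6 (Real.rpow_nonneg h1.1.le _) (by positivity)

theorem card_bx_ge (n : ℕ) : (n : ℝ) ^ 2 ≤ ((bx (0, 0) (n : ℤ)).card : ℝ) := by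
  unfold bx
  have h : (Finset.Icc ((0 : ℤ) - n) (0 + n)).card = 2 * n + 1 := by
    rw [Int.card_Icc]
    omega
  rw [Finset.card_product]
  simp only [h]
  push_cast
  nlinarith [Nat.cast_nonneg (α := ℝ) n]

theorem floor_lower {d : ℝ} {η : ℝ} (h2 : d ^ (-(4 / 3 - 2 * η) + η) ≤
    (⌊d ^ (-(4 / 3 - 2 * η))⌋₊ : ℝ)) :
    d ^ (-(4 / 3 : ℝ) + 3 * η) ≤ (⌊d ^ (-(4 / 3 - 2 * η))⌋₊ : ℝ) := by
  have e : -(4 / 3 : ℝ) + 3 * η = -(4 / 3 - 2 * η) + η := by ring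
  rw [e]
  exact h2

theorem chi_lower (hA : HypA) (hB : HypB) (hC : HypC) {η : ℝ} (hη : 0 < η) (hη1 : η ≤ 1 / 20) :
    ∀ᶠ p : ℝ in 𝓝[≠] (1 / 2), |p - 1 / 2| ^ (-(43 / 18 : ℝ) + 11 * η) ≤
      ∑ x ∈ bx (0, 0) ((⌊|p - 1 / 2| ^ (-(4 / 3 - 2 * η))⌋₊ : ℕ) : ℤ), Pr p (Tf x) := by
  have hd := tendsto_abs_sub_half
  have hfl := ev_floor hd (s := 4 / 3 - 2 * η) (ε := η) (by linarith) hη
  filter_upwards [ev_pos_lt hd one_pos, hfl, tf_lower_ev hA hB hC hη hη1] with p h1 h2 h3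
  set d := |p - 1 / 2| with hdd
  set n := ⌊d ^ (-(4 / 3 - 2 * η))⌋₊ with hn
  have h4 : d ^ (-(4 / 3 : ℝ) + 3 * η) ≤ n := floor_lower h2.2.2
  have h5 : d ^ (-(8 / 3 : ℝ) + 6 * η) ≤ (n : ℝ) ^ 2 := by
    have : d ^ (-(8 / 3 : ℝ) + 6 * η) = (d ^ (-(4 / 3 : ℝ) + 3 * η)) ^ 2 := by
      rw [← Real.rpow_natCast, ← Real.rpow_mul h1.1.le]
      congr 1
      push_cast
      ring
    rw [this]
    exact pow_le_pow_left₀ (Real.rpow_nonneg h1.1.le _) h4 2
  have h6 := Finset.card_nsmul_le_sum (bx (0, 0) (n : ℤ)) (fun x => Pr p (Tf x))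
    (d ^ ((5 / 18 : ℝ) + 5 * η)) (fun x hx => h3 x (mem_bx_nm.1 hx))
  refine le_trans ?_ h6
  rw [nsmul_eq_mul]
  calc d ^ (-(43 / 18 : ℝ) + 11 * η) = d ^ (-(8 / 3 : ℝ) + 6 * η) * d ^ ((5 / 18 : ℝ) + 5 * η) := by
        rw [← Real.rpow_add h1.1]
        congr 1
        ring
    _ ≤ _ := mul_le_mul_of_nonneg_right (h5.trans (card_bx_ge n)) (Real.rpow_nonneg h1.1.le _)

/-- a quarter of the box, far from the origin -/
def far (n : ℕ) : Finset (ℤ × ℤ) :=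
  Finset.Icc ((n : ℤ) - (n / 2 : ℕ)) n ×ˢ Finset.Icc (0 : ℤ) n

theorem far_card (n : ℕ) : (n : ℝ) ^ 2 / 2 ≤ ((far n).card : ℝ) := by
  unfold far
  rw [Finset.card_product, Int.card_Icc, Int.card_Icc]
  have h1 : ((n : ℤ) + 1 - ((n : ℤ) - (n / 2 : ℕ))).toNat = n / 2 + 1 := by omega
  have h2 : ((n : ℤ) + 1 - 0).toNat = n + 1 := by omega
  rw [h1, h2]
  push_cast
  have h3 : (n : ℝ) / 2 ≤ ((n / 2 : ℕ) : ℝ) + 1 := by
    have : n ≤ 2 * (n / 2 + 1) := by omega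
    have h4 : (n : ℝ) ≤ 2 * (((n / 2 : ℕ) : ℝ) + 1) := by exact_mod_cast this
    linarith
  have h0 : (0 : ℝ) ≤ n := Nat.cast_nonneg n
  nlinarith

theorem far_mem {n : ℕ} {x : ℤ × ℤ} (hx : x ∈ far n) :
    nm x ≤ n ∧ (n : ℝ) ^ 2 / 4 ≤ (x.1 : ℝ) ^ 2 + (x.2 : ℝ) ^ 2 := by
  unfold far at hx
  rw [Finset.mem_product, Finset.mem_Icc, Finset.mem_Icc] at hx
  obtain ⟨⟨a1, a2⟩, a3, a4⟩ := hx
  constructor
  · rw [← mem_bx_nm, mem_bx]
    simp only
    omega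
  · have h1 : (n : ℤ) ≤ 2 * x.1 := by omega
    have h2 : (n : ℝ) ≤ 2 * (x.1 : ℝ) := by exact_mod_cast h1
    nlinarith [sq_nonneg (x.2 : ℝ), Nat.cast_nonneg (α := ℝ) n]

theorem sec_lower (hA : HypA) (hB : HypB) (hC : HypC) {η : ℝ} (hη : 0 < η) (hη1 : η ≤ 1 / 20) :
    ∀ᶠ p : ℝ in 𝓝[≠] (1 / 2), |p - 1 / 2| ^ (-(91 / 18 : ℝ) + 18 * η) ≤
      ∑ x ∈ far ⌊|p - 1 / 2| ^ (-(4 / 3 - 2 * η))⌋₊,
        ((x.1 : ℝ) ^ 2 + (x.2 : ℝ) ^ 2) * Pr p (Tf x) := by
  have hd := tendsto_abs_sub_half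
  have hfl := ev_floor hd (s := 4 / 3 - 2 * η) (ε := η) (by linarith) hη
  filter_upwards [ev_pos_lt hd one_pos, hfl, tf_lower_ev hA hB hC hη hη1,
    ev_rpow_le hd hη (by norm_num : (0 : ℝ) < 1 / 8)] with p h1 h2 h3 h7
  set d := |p - 1 / 2| with hdd
  set n := ⌊d ^ (-(4 / 3 - 2 * η))⌋₊ with hn
  have h4 : d ^ (-(4 / 3 : ℝ) + 3 * η) ≤ n := floor_lower h2.2.2
  have h5 : d ^ (-(16 / 3 : ℝ) + 12 * η) ≤ (n : ℝ) ^ 4 := by
    have : d ^ (-(16 / 3 : ℝ) + 12 * η) = (d ^ (-(4 / 3 : ℝ) + 3 * η)) ^ 4 := by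
      rw [← Real.rpow_natCast, ← Real.rpow_mul h1.1.le]
      congr 1
      push_cast
      ring
    rw [this]
    exact pow_le_pow_left₀ (Real.rpow_nonneg h1.1.le _) h4 4
  have h6 := Finset.card_nsmul_le_sum (far n)
    (fun x => ((x.1 : ℝ) ^ 2 + (x.2 : ℝ) ^ 2) * Pr p (Tf x))
    ((n : ℝ) ^ 2 / 4 * d ^ ((5 / 18 : ℝ) + 5 * η)) (fun x hx => by
      have h8 := far_mem hx
      exact mul_le_mul h8.2 (h3 x h8.1) (Real.rpow_nonneg h1.1.le _) (by positivity))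
  refine le_trans ?_ h6
  rw [nsmul_eq_mul]
  have hp : 0 ≤ d ^ ((5 / 18 : ℝ) + 5 * η) := Real.rpow_nonneg h1.1.le _
  calc d ^ (-(91 / 18 : ℝ) + 18 * η)
      = d ^ η * (d ^ (-(16 / 3 : ℝ) + 12 * η) * d ^ ((5 / 18 : ℝ) + 5 * η)) := by
        rw [← Real.rpow_add h1.1, ← Real.rpow_add h1.1]
        congr 1
        ring
    _ ≤ 1 / 8 * ((n : ℝ) ^ 4 * d ^ ((5 / 18 : ℝ) + 5 * η)) :=
        mul_le_mul h7 (mul_le_mul_of_nonneg_right h5 hp) (by positivity) (by norm_num)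
    _ = (n : ℝ) ^ 2 / 2 * ((n : ℝ) ^ 2 / 4 * d ^ ((5 / 18 : ℝ) + 5 * η)) := by ring
    _ ≤ _ := mul_le_mul_of_nonneg_right (far_card n) (by positivity)

/-! ### the literal quantities between these sums -/

theorem tf_nonneg (p : ℝ) (x : ℤ × ℤ) : 0 ≤ Pr p (Tf x) := Pr_nonneg _ _

theorem tail_le_gj {p : ℝ} {x : ℤ × ℤ} (hx : 1 ≤ nm x) (h : Pr p (Tf x) ≤ ((nm x : ℝ) ^ 6)⁻¹) :
    Pr p (Tf x) ≤ 32 * gj x ∧ ((x.1 : ℝ) ^ 2 + (x.2 : ℝ) ^ 2) * Pr p (Tf x) ≤ 32 * gj x := by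
  have h1 := nm_pow_le x hx
  have h0 : (1 : ℝ) ≤ nm x := by exact_mod_cast hx
  have hp : (0 : ℝ) < nm x := by linarith
  have hg := gj_nonneg x
  constructor
  · refine h.trans (le_trans ?_ (h1.trans (by linarith)))
    exact inv_anti₀ (by positivity) (pow_le_pow_right₀ h0 (by norm_num))
  · calc ((x.1 : ℝ) ^ 2 + (x.2 : ℝ) ^ 2) * Pr p (Tf x) ≤ 2 * (nm x : ℝ) ^ 2 * ((nm x : ℝ) ^ 6)⁻¹ :=
        mul_le_mul (norm_sq_le x) h (tf_nonneg _ _) (by positivity)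
      _ = 2 * ((nm x : ℝ) ^ 4)⁻¹ := by field_simp
      _ ≤ 32 * gj x := by linarith

theorem bounds (hA : HypA) (hB : HypB) (hC : HypC) (hD : HypD) (hZ : HypZ1) {η : ℝ} (hη : 0 < η)
    (hη1 : η ≤ 1 / 20) : ∀ᶠ p : ℝ in 𝓝[≠] (1 / 2),
      |p - 1 / 2| ^ (-(43 / 18 : ℝ) + 11 * η) ≤ truncSusceptibility p ∧
      truncSusceptibility p ≤ |p - 1 / 2| ^ (-(43 / 18 : ℝ) - 15 * η) ∧
      |p - 1 / 2| ^ (-(8 / 3 : ℝ) + 33 * η) ≤
        (truncSecondMomentENN p / truncSusceptibilityENN p).toReal ∧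
      (truncSecondMomentENN p / truncSusceptibilityENN p).toReal ≤
        |p - 1 / 2| ^ (-(8 / 3 : ℝ) - 5 * η) := by
  have hd := tendsto_abs_sub_half
  have hfl := ev_floor hd (s := 4 / 3 + 2 * η) (ε := η) (by linarith) hη
  filter_upwards [ev_pos_lt hd one_pos, hfl, chi_lower hA hB hC hη hη1, sec_lower hA hB hC hη hη1,
    chi_box_upper hA hB hη hη1, tail_ev hD hZ hη, ev_const_le hd hη (2 + Kt),
    ev_const_le hd hη (1 + Kt)]
    with p h1 h2 h3 h4 h5 h6 h7 h8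
  set d := |p - 1 / 2| with hdd
  set n := ⌊d ^ (-(4 / 3 - 2 * η))⌋₊ with hn
  set N := ⌊d ^ (-(4 / 3 + 2 * η))⌋₊ with hN
  set X := ∑ x ∈ bx (0, 0) (N : ℤ), Pr p (Tf x) with hX
  have hK := Kt_nonneg
  have hX0 : 0 ≤ X := Finset.sum_nonneg fun x _ => tf_nonneg p x
  -- susceptibility
  have u1 : truncSusceptibilityENN p ≤ ENNReal.ofReal (X + Kt) := by
    rw [chi_eq]
    exact tsum_le_box (fun x => tf_nonneg p x) fun x hx =>
      (tail_le_gj (by omega) (h6 x hx)).1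
  have l1 : ENNReal.ofReal (∑ x ∈ bx (0, 0) (n : ℤ), Pr p (Tf x)) ≤ truncSusceptibilityENN p := by
    rw [chi_eq]
    exact sum_le_tsum' (fun x => tf_nonneg p x) _
  have l1' : ENNReal.ofReal X ≤ truncSusceptibilityENN p := by
    rw [chi_eq]
    exact sum_le_tsum' (fun x => tf_nonneg p x) _
  have fin1 : truncSusceptibilityENN p ≠ ⊤ := ne_top_of_le_ne_top ENNReal.ofReal_ne_top u1
  set χ := (truncSusceptibilityENN p).toReal with hχ
  have u1r : χ ≤ X + Kt := by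
    have := ENNReal.toReal_mono ENNReal.ofReal_ne_top u1
    rwa [ENNReal.toReal_ofReal (by positivity)] at this
  have l1r : d ^ (-(43 / 18 : ℝ) + 11 * η) ≤ χ := by
    refine h3.trans ?_
    have := ENNReal.toReal_mono fin1 l1
    rwa [ENNReal.toReal_ofReal (Finset.sum_nonneg fun x _ => tf_nonneg p x)] at this
  have l1r' : X ≤ χ := by
    have := ENNReal.toReal_mono fin1 l1'
    rwa [ENNReal.toReal_ofReal hX0] at this
  have hχ1 : 1 ≤ χ := le_trans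
    (Real.one_le_rpow_of_pos_of_le_one_of_nonpos h1.1 h1.2.le (by linarith)) l1r
  have hχu : χ ≤ d ^ (-(43 / 18 : ℝ) - 15 * η) := by
    have hY1 : 1 ≤ d ^ (-(43 / 18 : ℝ) - 14 * η) :=
      Real.one_le_rpow_of_pos_of_le_one_of_nonpos h1.1 h1.2.le (by linarith)
    calc χ ≤ d ^ (-(43 / 18 : ℝ) - 14 * η) + Kt := by linarith
      _ ≤ (1 + Kt) * d ^ (-(43 / 18 : ℝ) - 14 * η) := by nlinarith
      _ ≤ d ^ (-η) * d ^ (-(43 / 18 : ℝ) - 14 * η) :=
          mul_le_mul_of_nonneg_right h8 (by linarith)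
      _ = _ := by
          rw [← Real.rpow_add h1.1]
          congr 1
          ring
  -- second moment
  set F : ℤ × ℤ → ℝ := fun x => ((x.1 : ℝ) ^ 2 + (x.2 : ℝ) ^ 2) * Pr p (Tf x) with hF
  have hF0 : ∀ x, 0 ≤ F x := fun x => mul_nonneg (by positivity) (tf_nonneg p x)
  have u2 : truncSecondMomentENN p ≤ ENNReal.ofReal (∑ x ∈ bx (0, 0) (N : ℤ), F x + Kt) := by
    rw [sec_eq]
    exact tsum_le_box hF0 fun x hx => (tail_le_gj (by omega) (h6 x hx)).2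
  have l2 : ENNReal.ofReal (∑ x ∈ far n, F x) ≤ truncSecondMomentENN p := by
    rw [sec_eq]
    exact sum_le_tsum' hF0 _
  have fin2 : truncSecondMomentENN p ≠ ⊤ := ne_top_of_le_ne_top ENNReal.ofReal_ne_top u2
  set S := (truncSecondMomentENN p).toReal with hS
  have hs2 : ∑ x ∈ bx (0, 0) (N : ℤ), F x ≤ 2 * (N : ℝ) ^ 2 * X := by
    rw [hX, Finset.mul_sum]
    refine Finset.sum_le_sum fun x hx => ?_
    refine mul_le_mul_of_nonneg_right ((norm_sq_le x).trans ?_) (tf_nonneg p x)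
    have h9 : (nm x : ℝ) ≤ N := by exact_mod_cast mem_bx_nm.1 hx
    have := pow_le_pow_left₀ (Nat.cast_nonneg _) h9 2
    linarith
  have u2r : S ≤ 2 * (N : ℝ) ^ 2 * X + Kt := by
    have := ENNReal.toReal_mono ENNReal.ofReal_ne_top u2
    rw [ENNReal.toReal_ofReal (add_nonneg (Finset.sum_nonneg fun x _ => hF0 x) hK)] at this
    linarith
  have l2r : d ^ (-(91 / 18 : ℝ) + 18 * η) ≤ S := by
    refine h4.trans ?_
    have := ENNReal.toReal_mono fin2 l2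
    rwa [ENNReal.toReal_ofReal (Finset.sum_nonneg fun x _ => hF0 x)] at this
  have hdiv : (truncSecondMomentENN p / truncSusceptibilityENN p).toReal = S / χ :=
    ENNReal.toReal_div _ _
  refine ⟨l1r, hχu, ?_, ?_⟩
  · rw [hdiv, le_div_iff₀ (by linarith)]
    calc d ^ (-(8 / 3 : ℝ) + 33 * η) * χ
        ≤ d ^ (-(8 / 3 : ℝ) + 33 * η) * d ^ (-(43 / 18 : ℝ) - 15 * η) :=
          mul_le_mul_of_nonneg_left hχu (Real.rpow_nonneg h1.1.le _)
      _ = d ^ (-(91 / 18 : ℝ) + 18 * η) := by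
          rw [← Real.rpow_add h1.1]
          congr 1
          ring
      _ ≤ S := l2r
  · rw [hdiv, div_le_iff₀ (by linarith)]
    have hN2 : (N : ℝ) ^ 2 ≤ d ^ (-(8 / 3 : ℝ) - 4 * η) := by
      have : d ^ (-(8 / 3 : ℝ) - 4 * η) = (d ^ (-(4 / 3 + 2 * η))) ^ 2 := by
        rw [← Real.rpow_natCast, ← Real.rpow_mul h1.1.le]
        congr 1
        push_cast
        ring
      rw [this]
      exact pow_le_pow_left₀ (Nat.cast_nonneg _) h2.2.1 2
    have hY1 : 1 ≤ d ^ (-(8 / 3 : ℝ) - 4 * η) :=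
      Real.one_le_rpow_of_pos_of_le_one_of_nonpos h1.1 h1.2.le (by linarith)
    calc S ≤ 2 * (N : ℝ) ^ 2 * χ + Kt * χ := by
          refine u2r.trans (add_le_add (mul_le_mul_of_nonneg_left l1r' (by positivity)) ?_)
          nlinarith
      _ = (2 * (N : ℝ) ^ 2 + Kt) * χ := by ring
      _ ≤ ((2 + Kt) * d ^ (-(8 / 3 : ℝ) - 4 * η)) * χ := by
          apply mul_le_mul_of_nonneg_right _ (by linarith)
          nlinarith
      _ ≤ (d ^ (-η) * d ^ (-(8 / 3 : ℝ) - 4 * η)) * χ := by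
          apply mul_le_mul_of_nonneg_right _ (by linarith)
          exact mul_le_mul_of_nonneg_right h7 (by linarith)
      _ = _ := by
          rw [← Real.rpow_add h1.1]
          congr 2
          ring

/-- **S0236** from the near-critical inputs. -/
theorem s0236 (hA : HypA) (hB : HypB) (hC : HypC) (hD : HypD) (hZ : HypZ1) :
    Filter.Tendsto
        (fun p : ℝ => Real.log (truncSusceptibility p) / Real.log (abs (p - 1 / 2)))
        (nhdsWithin (1 / 2) {(1 / 2 : ℝ)}ᶜ) (nhds (-(43 : ℝ) / 18)) ∧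
      Filter.Tendsto
        (fun p : ℝ => Real.log (correlationLength p) / Real.log (abs (p - 1 / 2)))
        (nhdsWithin (1 / 2) {(1 / 2 : ℝ)}ᶜ) (nhds (-(4 : ℝ) / 3)) := by
  have hd := tendsto_abs_sub_half
  have pick : ∀ ε : ℝ, 0 < ε → ∃ η : ℝ, 0 < η ∧ η ≤ 1 / 20 ∧ 33 * η ≤ ε := fun ε hε =>
    ⟨min (ε / 33) (1 / 20), lt_min (by positivity) (by norm_num), min_le_right _ _, by
      have := min_le_left (ε / 33) (1 / 20 : ℝ)
      linarith⟩
  constructor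
  · apply tendsto_logratio hd
    intro ε hε
    obtain ⟨η, hη, hη1, hη2⟩ := pick ε hε
    filter_upwards [ev_pos_lt hd one_pos, bounds hA hB hC hD hZ hη hη1] with p h1 h2
    constructor
    · refine le_trans (Real.rpow_le_rpow_of_exponent_ge h1.1 h1.2.le ?_) h2.1
      linarith
    · refine h2.2.1.trans (Real.rpow_le_rpow_of_exponent_ge h1.1 h1.2.le ?_)
      linarith
  · have key : Tendsto (fun p : ℝ => Real.log
        ((truncSecondMomentENN p / truncSusceptibilityENN p).toReal) / Real.log |p - 1 / 2|)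
        (𝓝[≠] (1 / 2)) (𝓝 (-(8 / 3))) := by
      apply tendsto_logratio hd
      intro ε hε
      obtain ⟨η, hη, hη1, hη2⟩ := pick ε hε
      filter_upwards [ev_pos_lt hd one_pos, bounds hA hB hC hD hZ hη hη1] with p h1 h2
      constructor
      · refine le_trans (Real.rpow_le_rpow_of_exponent_ge h1.1 h1.2.le ?_) h2.2.2.1
        linarith
      · refine h2.2.2.2.trans (Real.rpow_le_rpow_of_exponent_ge h1.1 h1.2.le ?_)
        linarith
    have h5 : (-(4 : ℝ) / 3) = -(8 / 3) / 2 := by norm_num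
    rw [h5]
    refine (key.div_const 2).congr fun p => ?_
    unfold correlationLength
    rw [Real.log_sqrt ENNReal.toReal_nonneg]
    ring

end Crest.Agent.R158.Fr158
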