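import Crest.Agent.R159.BK
import Crest.Agent.R158.Rs1_689
import Crest.Agent.R158.Rs5_689
import Crest.Agent.R158.It2_200

-- ▼ part R158/Em1_522
section

/-!
# Row 158 (helper522): exponential moments of numbers of disjoint arms, abstract part

* `ex_pow_le` : if every configuration `S` contains `N S` pairwise disjoint sets, each of which
  satisfies one of the increasing predicates `Q b` (`b : κ`, finite), then
  `E[a^N] ≤ ∏ b, 1 / (1 - a * P(Q b))` (as soon as `a * P(Q b) < 1`)
* `integral_op` : transport from `PB` to the finite weights of `R159/FV`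
* `pb_pow_le` : the same for `PB`
-/

set_option autoImplicit false

noncomputable section

namespace Crest.Agent.R158.Em522

open Finset MeasureTheory
open Crest.Agent.R159.FV

section perm

variable {α : Type*} [DecidableEq α]

theorem disjOcc_swap {A B C : Finset α → Prop} {S : Finset α}
    (h : DisjOcc A (DisjOcc B C) S) : DisjOcc B (DisjOcc A C) S := by
  obtain ⟨I, J, hI, hJ, hd, hA, I', J', hI', hJ', hd', hB, hC⟩ := h
  refine ⟨I', I ∪ J', hI'.trans hJ, union_subset hI (hJ'.trans hJ), ?_, hB,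
    I, J', subset_union_left, subset_union_right, ?_, hA, hC⟩
  · rw [disjoint_union_right]
    exact ⟨(hd.mono_right hI').symm, hd'⟩
  · exact hd.mono_right hJ'

theorem DisjOccL_perm {L L' : List (Finset α → Prop)} (h : L.Perm L') :
    ∀ {S : Finset α}, DisjOccL L S → DisjOccL L' S := by
  induction h with
  | nil => exact fun h => h
  | cons A _ ih => exact fun h => DisjOcc_mono (fun _ h => h) (fun _ h => ih h) (Subset.refl _) h
  | swap A B L => exact fun h => disjOcc_swap h
  | trans _ _ ih1 ih2 => exact fun h => ih2 (ih1 h)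

theorem disjOccL_ofFn : ∀ (N : ℕ) (S : Finset α) (f : Fin N → Finset α)
    (A : Fin N → (Finset α → Prop)), (∀ i, f i ⊆ S) → (∀ i j, i ≠ j → Disjoint (f i) (f j)) →
    (∀ i, A i (f i)) → DisjOccL (List.ofFn A) S := by
  intro N
  induction N with
  | zero => intro S f A _ _ _; simp [DisjOccL]
  | succ N ih =>
    intro S f A hf hd hA
    rw [List.ofFn_succ]
    refine ⟨f 0, S \ f 0, hf 0, sdiff_subset, disjoint_sdiff, hA 0, ?_⟩
    refine ih (S \ f 0) (fun i => f i.succ) (fun i => A i.succ) (fun i => ?_) (fun i j hij => ?_)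
      (fun i => hA i.succ)
    · rw [subset_sdiff]
      exact ⟨hf _, hd _ _ (Fin.succ_ne_zero i)⟩
    · exact hd _ _ fun h => hij (Fin.succ_injective _ h)

end perm

variable {κ : Type*} [Fintype κ]

/-- `k b` copies of `b`, for all `b` -/
def rep (k : κ → ℕ) : List κ := (univ : Finset κ).toList.flatMap fun b => List.replicate (k b) b

theorem count_rep [DecidableEq κ] (k : κ → ℕ) (x : κ) : (rep k).count x = k x := by
  rw [rep, List.count_flatMap]
  have : (List.map (List.count x ∘ fun b => List.replicate (k b) b)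
      (univ : Finset κ).toList).sum = ∑ b : κ, if b = x then k b else 0 := by
    rw [← Finset.sum_map_toList]
    congr 1
    apply List.map_congr_left
    intro b _
    simp [List.count_replicate]
  rw [this]
  simp

omit [Fintype κ] in
theorem count_ofFn [DecidableEq κ] {N : ℕ} (c : Fin N → κ) (x : κ) :
    (List.ofFn c).count x = (univ.filter fun i => c i = x).card := by
  rw [List.ofFn_eq_map, List.count_eq_countP, List.countP_map, List.countP_eq_length_filter]
  have : (univ.filter fun i => c i = x) =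
      ⟨(List.filter ((fun y => y == x) ∘ c) (List.finRange N) : List (Fin N)),
        Multiset.coe_nodup.2 ((List.nodup_finRange N).filter _)⟩ := by
    ext i
    simp
  rw [this]
  rfl

theorem perm_rep [DecidableEq κ] {N : ℕ} (c : Fin N → κ) :
    (List.ofFn c).Perm (rep fun b => (univ.filter fun i => c i = b).card) := by
  rw [List.perm_iff_count]
  intro x
  rw [count_rep, count_ofFn]

theorem prod_rep (k : κ → ℕ) (q : κ → ℝ) : ((rep k).map q).prod = ∏ b, q b ^ k b := by
  rw [rep, ← Finset.prod_map_toList]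
  induction (univ : Finset κ).toList with
  | nil => simp
  | cons a L ih => simp [ih]

variable {α : Type*} [DecidableEq α]

/-- **exponential moment, finite form.** -/
theorem ex_pow_le {E : Finset α} {w : α → ℝ} (h0 : ∀ x ∈ E, 0 ≤ w x) (h1 : ∀ x ∈ E, w x ≤ 1)
    (Q : κ → Finset α → Prop) (hQ : ∀ b, Monotone (Q b)) (N : Finset α → ℕ)
    (hN : ∀ S, S ⊆ E → ∃ f : Fin (N S) → Finset α, (∀ i, f i ⊆ S) ∧
      (∀ i j, i ≠ j → Disjoint (f i) (f j)) ∧ ∀ i, ∃ b, Q b (f i))
    {a : ℝ} (ha : 0 ≤ a) {q : κ → ℝ} (hq : ∀ b, Pr E w (Q b) ≤ q b) (hq1 : ∀ b, a * q b < 1) :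
    Ex E w (fun S => a ^ N S) ≤ ∏ b, (1 - a * q b)⁻¹ := by
  classical
  obtain ⟨K, hK⟩ : ∃ K : ℕ, ∀ S, S ⊆ E → N S ≤ K := by
    refine ⟨E.powerset.sup N, fun S hS => ?_⟩
    exact Finset.le_sup (f := N) (Finset.mem_powerset.2 hS)
  have hq0 : ∀ b, 0 ≤ q b := fun b => (Pr_nonneg h0 h1 _).trans (hq b)
  have hpt : ∀ S, S ⊆ E → a ^ N S ≤
      ∑ k ∈ Fintype.piFinset (fun _ : κ => range (K + 1)),
        (∏ b, a ^ k b) * ind (DisjOccL ((rep k).map Q) S) := by
    intro S hS
    obtain ⟨f, hf, hd, hb⟩ := hN S hS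
    choose c hc using hb
    have hmem : (fun b => (univ.filter fun i => c i = b).card) ∈
        Fintype.piFinset (fun _ : κ => range (K + 1)) := by
      rw [Fintype.mem_piFinset]
      intro b
      rw [mem_range]
      have h2 : (univ.filter fun i => c i = b).card ≤ N S :=
        (card_le_univ _).trans (by simp)
      have := hK S hS
      omega
    have hocc : DisjOccL ((rep fun b => (univ.filter fun i => c i = b).card).map Q) S := by
      refine DisjOccL_perm ((perm_rep c).map Q) ?_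
      rw [List.map_ofFn]
      exact disjOccL_ofFn _ S f (Q ∘ c) hf hd hc
    have hsum : ∏ b, a ^ (univ.filter fun i => c i = b).card = a ^ N S := by
      rw [Finset.prod_pow_eq_pow_sum]
      congr 1
      rw [← Finset.card_eq_sum_card_fiberwise (f := c) (s := univ) (t := univ) (by simp)]
      simp
    calc a ^ N S = (∏ b, a ^ (univ.filter fun i => c i = b).card) *
          ind (DisjOccL ((rep fun b => (univ.filter fun i => c i = b).card).map Q) S) := by
          rw [ind_true hocc, mul_one, hsum]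
      _ ≤ _ := Finset.single_le_sum (f := fun k : κ → ℕ => (∏ b, a ^ k b) *
          ind (DisjOccL ((rep k).map Q) S))
          (fun k _ => mul_nonneg (prod_nonneg fun b _ => pow_nonneg ha _) (ind_nonneg _)) hmem
  calc Ex E w (fun S => a ^ N S)
      ≤ Ex E w (fun S => ∑ k ∈ Fintype.piFinset (fun _ : κ => range (K + 1)),
        (∏ b, a ^ k b) * ind (DisjOccL ((rep k).map Q) S)) := Ex_mono h0 h1 hpt
    _ = ∑ k ∈ Fintype.piFinset (fun _ : κ => range (K + 1)),
        (∏ b, a ^ k b) * Pr E w (DisjOccL ((rep k).map Q)) := by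
        unfold Pr Ex
        simp_rw [Finset.mul_sum]
        rw [Finset.sum_comm]
        refine Finset.sum_congr rfl fun k _ => Finset.sum_congr rfl fun S _ => ?_
        ring
    _ ≤ ∑ k ∈ Fintype.piFinset (fun _ : κ => range (K + 1)), ∏ b, (a * q b) ^ k b := by
        refine Finset.sum_le_sum fun k _ => ?_
        have h2 : Pr E w (DisjOccL ((rep k).map Q)) ≤ ∏ b, q b ^ k b := by
          refine (bk_list h0 h1 _ ?_).trans ?_
          · intro A hA
            obtain ⟨b, _, rfl⟩ := List.mem_map.1 hA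
            exact hQ b
          · rw [List.map_map, prod_rep]
            exact Finset.prod_le_prod (fun b _ => pow_nonneg (Pr_nonneg h0 h1 _) _)
              fun b _ => pow_le_pow_left₀ (Pr_nonneg h0 h1 _) (hq b) _
        calc (∏ b, a ^ k b) * Pr E w (DisjOccL ((rep k).map Q))
            ≤ (∏ b, a ^ k b) * ∏ b, q b ^ k b :=
              mul_le_mul_of_nonneg_left h2 (prod_nonneg fun b _ => pow_nonneg ha _)
          _ = ∏ b, (a * q b) ^ k b := by
              rw [← Finset.prod_mul_distrib]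
              exact Finset.prod_congr rfl fun b _ => (mul_pow _ _ _).symm
    _ = ∏ b, ∑ j ∈ range (K + 1), (a * q b) ^ j := by
        rw [Finset.prod_univ_sum]
    _ ≤ ∏ b, (1 - a * q b)⁻¹ := by
        refine Finset.prod_le_prod (fun b _ => Finset.sum_nonneg fun j _ =>
          pow_nonneg (mul_nonneg ha (hq0 b)) _) fun b _ => ?_
        have h3 : Summable fun j : ℕ => (a * q b) ^ j :=
          summable_geometric_of_lt_one (mul_nonneg ha (hq0 b)) (hq1 b)
        rw [← tsum_geometric_of_lt_one (mul_nonneg ha (hq0 b)) (hq1 b)]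
        exact h3.sum_le_tsum _ fun j _ => pow_nonneg (mul_nonneg ha (hq0 b)) _

/-! ### transport to `PB` -/

open Crest.Agent.R158.Rs689 unitInterval

variable {ι : Type*}

open Classical in
/-- open edges in `E` -/
def op (E : Finset ι) (z : ι → Bool) : Finset ι := E.filter fun e => z e = true

open Classical in
theorem integral_op (w : ι → I) (E : Finset ι) (g : Finset ι → ℝ) :
    ∫ z, g (op E z) ∂(PB w) = Ex E (fun e => (w e : ℝ)) g := by
  let G : (E → Bool) → ℝ := fun y => g ((univ.filter fun e : E => y e = true).map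
    (Function.Embedding.subtype _))
  have h1 : ∀ z : ι → Bool, g (op E z) = G (E.restrict z) := by
    intro z
    simp only [G]
    congr 1
    ext e
    rw [op, mem_filter, mem_map]
    constructor
    · rintro ⟨he, hz⟩
      exact ⟨⟨e, he⟩, mem_filter.2 ⟨mem_univ _, hz⟩, rfl⟩
    · rintro ⟨x, hx, rfl⟩
      exact ⟨x.2, (mem_filter.1 hx).2⟩
  simp_rw [h1]
  rw [integral_restrict w E G]
  unfold Ex
  refine Finset.sum_bij' (fun y _ => (univ.filter fun e : E => y e = true).map
    (Function.Embedding.subtype _)) (fun S _ => fun e : E => decide ((e : ι) ∈ S)) ?_ ?_ ?_ ?_ ?_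
  · intro y _
    rw [mem_powerset]
    intro e he
    rw [mem_map] at he
    obtain ⟨x, _, rfl⟩ := he
    exact x.2
  · intro S _
    exact mem_univ _
  · intro y _
    funext e
    simp
  · intro S hS
    rw [mem_powerset] at hS
    ext e
    simp only [decide_eq_true_eq, mem_map, mem_filter, mem_univ, true_and,
      Function.Embedding.subtype_apply]
    constructor
    · rintro ⟨x, hx, rfl⟩
      exact hx
    · intro he
      exact ⟨⟨e, hS he⟩, he, rfl⟩
  · intro y _
    simp only [G]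
    congr 1
    unfold Rs689.wt Crest.Agent.R159.FV.wt
    rw [← Finset.prod_coe_sort E]
    refine Finset.prod_congr rfl fun e _ => ?_
    have : ((e : ι) ∈ (univ.filter fun e : E => y e = true).map
        (Function.Embedding.subtype _)) ↔ y e = true := by
      simp
    by_cases hy : y e = true
    · rw [if_pos (this.2 hy), hy, bern_real_true]
    · rw [if_neg fun h => hy (this.1 h), Bool.eq_false_of_not_eq_true hy, bern_real_false]

open Classical in
theorem pb_op (w : ι → I) (E : Finset ι) (A : Finset ι → Prop) :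
    (PB w).real {z | A (op E z)} = Pr E (fun e => (w e : ℝ)) A := by
  unfold Pr
  rw [← integral_op]
  have h : MeasurableSet {z : ι → Bool | A (op E z)} := by
    refine Dep.measurableSet (S := E) fun z z' hz => ?_
    have : op E z = op E z' := by
      ext e
      simp only [op, mem_filter]
      constructor
      · rintro ⟨h1, h2⟩
        exact ⟨h1, (hz e h1) ▸ h2⟩
      · rintro ⟨h1, h2⟩
        exact ⟨h1, (hz e h1).symm ▸ h2⟩
    simp only [Set.mem_ofPred_eq, this]
  rw [← integral_indicator_one h]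
  refine integral_congr_ae (Filter.Eventually.of_forall fun z => ?_)
  by_cases hz : A (op E z)
  · rw [Set.indicator_of_mem (s := {z : ι → Bool | A (op E z)}) hz]
    exact (ind_true hz).symm
  · rw [Set.indicator_of_notMem (s := {z : ι → Bool | A (op E z)}) hz]
    exact (ind_false hz).symm

open Classical in
/-- **exponential moment for `PB`.** -/
theorem pb_pow_le (w : ι → I) (E : Finset ι)
    (Q : κ → Finset ι → Prop) (hQ : ∀ b, Monotone (Q b)) (N : (ι → Bool) → ℕ)
    (hdep : ∀ z z' : ι → Bool, (∀ e ∈ E, z e = z' e) → N z = N z')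
    (hN : ∀ z : ι → Bool, ∃ f : Fin (N z) → Finset ι,
      (∀ i, ∀ e ∈ f i, e ∈ E ∧ z e = true) ∧
      (∀ i j, i ≠ j → Disjoint (f i) (f j)) ∧ ∀ i, ∃ b, Q b (f i))
    {a : ℝ} (ha : 0 ≤ a) {q : κ → ℝ} (hq : ∀ b, (PB w).real {z | Q b (op E z)} ≤ q b)
    (hq1 : ∀ b, a * q b < 1) :
    ∫ z, a ^ N z ∂(PB w) ≤ ∏ b, (1 - a * q b)⁻¹ := by
  let N' : Finset ι → ℕ := fun S => N fun e => decide (e ∈ S)
  have h1 : ∀ z, a ^ N z = a ^ N' (op E z) := by
    intro z
    congr 1
    refine hdep _ _ fun e he => ?_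
    by_cases hz : z e = true
    · rw [hz]
      symm
      rw [decide_eq_true_eq, op, mem_filter]
      exact ⟨he, hz⟩
    · rw [Bool.eq_false_of_not_eq_true hz]
      symm
      rw [decide_eq_false_iff_not, op, mem_filter]
      exact fun h => hz h.2
  simp_rw [h1]
  rw [integral_op w E fun S => a ^ N' S]
  refine ex_pow_le (fun e _ => (w e).2.1) (fun e _ => (w e).2.2) Q hQ N' ?_ ha
    (fun b => by rw [← pb_op]; exact hq b) hq1
  intro S _
  obtain ⟨f, hf, hd, hb⟩ := hN fun e => decide (e ∈ S)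
  exact ⟨f, fun i e he => of_decide_eq_true (hf i e he).2, hd, hb⟩

end Crest.Agent.R158.Em522
end
end

-- ▼ part R158/Em2_522
section

/-!
# Row 158 (helper522): exponential moments of numbers of disjoint open pieces at `p = 1/2`

`exp_pieces` : for all `a` and `K` there is `C` such that for every centre `x`, every scale `n ≥ 1`
and every number `N z` of pairwise edge-disjoint sets of open edges, each containing a path from
the ball `{sd x ≤ K n}` which travels a sup-distance at least `n`, one has `∫ a^N ≤ C`.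
`exp_pieces_dual` : the same for dual paths.
`tail_pieces` : `P(N ≥ k) ≤ C a^(-k)`.
-/

set_option autoImplicit false

noncomputable section

namespace Crest.Agent.R158.Em522

open Finset MeasureTheory unitInterval
open Crest.Agent.R161.Geo729 Crest.Agent.R161.Topo374 Crest.Agent.R161.Dual374
open Crest.Agent.R161.Tas682
open Crest.Agent.R158.Rs689

/-- `T` contains a path from `Bl c b` to sup-distance at least `R` of `c` -/
def ArmIn (c : P2) (b R : ℕ) (T : Finset Edge) : Prop :=
  ∃ u v : P2, sd c u ≤ b ∧ (R : ℤ) ≤ sd c v ∧ Relation.ReflTransGen (PStep (fun e => e ∈ T)) u v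

theorem armIn_mono (c : P2) (b R : ℕ) : Monotone (ArmIn c b R) := by
  rintro T T' hTT ⟨u, v, h1, h2, h3⟩
  exact ⟨u, v, h1, h2, Relation.ReflTransGen.mono (fun _ _ h => pstep_mono (fun e he => hTT he) h) _ _ h3⟩

theorem le_sd {x v : P2} {R : ℤ} : R ≤ sd x v ↔ R ≤ |v.1 - x.1| ∨ R ≤ |v.2 - x.2| := by
  unfold sd; exact le_max_iff

theorem armIn_armX {c : P2} {b R : ℕ} {E : Finset Edge} {z : Cfz} (h : ArmIn c b R (op E z)) :
    z ∈ ArmX c b R := by
  classical
  obtain ⟨u, v, h1, h2, h3⟩ := h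
  refine ⟨u, v, ?_, ?_, le_sd.1 h2, ?_⟩
  · exact (le_max_left _ _).trans h1
  · exact (le_max_right _ _).trans h1
  · refine Relation.ReflTransGen.mono (fun _ _ h => pstep_mono (fun e he => ?_) h) _ _ h3
    rw [op, mem_filter] at he
    exact he.2

/-- a travelling piece: contains a path from `{sd x ≤ r}` travelling a distance at least `n` -/
def Piece (x : P2) (r n : ℤ) (T : Finset Edge) : Prop :=
  ∃ u v : P2, sd x u ≤ r ∧ n ≤ sd u v ∧ Relation.ReflTransGen (PStep (fun e => e ∈ T)) u v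

theorem sd_triangle (a b c : P2) : sd b c ≤ sd b a + sd a c := by
  unfold sd
  have h1 := abs_sub_le c.1 a.1 b.1
  have h2 := abs_sub_le c.2 a.2 b.2
  have h3 := le_max_left |a.1 - b.1| |a.2 - b.2|
  have h4 := le_max_right |a.1 - b.1| |a.2 - b.2|
  have h5 := le_max_left |c.1 - a.1| |c.2 - a.2|
  have h6 := le_max_right |c.1 - a.1| |c.2 - a.2|
  exact max_le (by linarith) (by linarith)

theorem sd_symm (a b : P2) : sd a b = sd b a := by
  unfold sd
  rw [abs_sub_comm, abs_sub_comm b.2]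

/-- grid centres -/
def ctr (x : P2) (b J : ℕ) (k : Fin (2 * J + 1) × Fin (2 * J + 1)) : P2 :=
  (x.1 + b * ((k.1 : ℕ) - J : ℤ), x.2 + b * ((k.2 : ℕ) - J : ℤ))

theorem coord_ctr {b J : ℕ} {t r : ℤ} (hb : 1 ≤ b) (hr : r ≤ b * J) (h : |t| ≤ r) :
    ∃ i : Fin (2 * J + 1), |t - b * ((i : ℕ) - J : ℤ)| ≤ b := by
  have hb' : (0 : ℤ) < b := by exact_mod_cast hb
  rw [abs_le] at h
  have h1 : -(J : ℤ) ≤ t / b := by
    rw [Int.le_ediv_iff_mul_le hb']
    nlinarith [h.1]
  have h2 : t / b ≤ J := by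
    have : t / b ≤ (b * J : ℤ) / b := Int.ediv_le_ediv hb' (h.2.trans hr)
    rwa [Int.mul_ediv_cancel_left _ hb'.ne'] at this
  refine ⟨⟨(t / b + J).toNat, by omega⟩, ?_⟩
  have h3 : (((t / b + J).toNat : ℕ) : ℤ) - J = t / b := by
    rw [Int.toNat_of_nonneg (by omega)]; ring
  simp only
  rw [h3]
  have h4 := Int.emod_add_mul_ediv t b
  have h5 := Int.emod_nonneg t hb'.ne'
  have h6 := Int.emod_lt_of_pos t hb'
  have h7 : t - b * (t / b) = t % b := by linarith
  rw [h7, abs_of_nonneg h5]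
  exact h6.le

theorem exists_ctr {x u : P2} {b J : ℕ} {r : ℤ} (hb : 1 ≤ b) (hr : r ≤ b * J) (h : sd x u ≤ r) :
    ∃ k, sd (ctr x b J k) u ≤ b := by
  obtain ⟨i, hi⟩ := coord_ctr hb hr ((le_max_left _ _).trans h)
  obtain ⟨j, hj⟩ := coord_ctr hb hr ((le_max_right _ _).trans h)
  refine ⟨(i, j), max_le ?_ ?_⟩
  · have e : u.1 - (ctr x b J (i, j)).1 = u.1 - x.1 - b * ((i : ℕ) - J : ℤ) := by
      simp only [ctr]; ring
    rw [e]
    exact hi
  · have e : u.2 - (ctr x b J (i, j)).2 = u.2 - x.2 - b * ((j : ℕ) - J : ℤ) := by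
      simp only [ctr]; ring
    rw [e]
    exact hj

theorem piece_arm {x : P2} {b J n : ℕ} {r : ℤ} {T : Finset Edge} (hb : 1 ≤ b) (hr : r ≤ b * J)
    (hbn : b ≤ n) (h : Piece x r n T) : ∃ k, ArmIn (ctr x b J k) b (n - b) T := by
  obtain ⟨u, v, h1, h2, h3⟩ := h
  obtain ⟨k, hk⟩ := exists_ctr hb hr h1
  refine ⟨k, u, v, hk, ?_, h3⟩
  have := sd_triangle (ctr x b J k) u v
  rw [sd_symm u (ctr x b J k)] at this
  push_cast [Nat.cast_sub hbn]
  linarith

/-- the edges at the ball `{sd x ≤ r}` -/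
def starE (x : P2) (r : ℕ) : Finset Edge :=
  (Finset.Icc (x.1 - r - 1) (x.1 + r) ×ˢ Finset.Icc (x.2 - r - 1) (x.2 + r)) ×ˢ Finset.univ

theorem card_starE (x : P2) (r : ℕ) : (starE x r).card = (2 * r + 2) * (2 * r + 2) * 2 := by
  unfold starE
  rw [card_product, card_product, Int.card_Icc, Int.card_Icc, card_univ, Fintype.card_bool]
  congr 2 <;> omega

theorem piece_star {x : P2} {r n : ℕ} {T : Finset Edge} (hn : 1 ≤ n) (h : Piece x r n T) :
    ∃ e ∈ T, e ∈ starE x r := by
  obtain ⟨u, v, h1, h2, h3⟩ := h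
  rcases Relation.ReflTransGen.cases_head h3 with h4 | ⟨w, ⟨e, he, h5⟩, _⟩
  · subst h4
    have : sd u u = 0 := by unfold sd; simp
    omega
  · refine ⟨e, he, ?_⟩
    rw [sd_le] at h1
    unfold starE
    rw [mem_product, mem_product, mem_Icc, mem_Icc]
    obtain ⟨⟨i, j⟩, k⟩ := e
    cases k
    · rw [src_mk, tgt_h] at h5
      rcases h5 with ⟨h6, _⟩ | ⟨h6, _⟩ <;> rw [h6] at h1 <;> simp only at h1 ⊢ <;>
        refine ⟨⟨⟨?_, ?_⟩, ?_, ?_⟩, mem_univ _⟩ <;> omega
    · rw [src_mk, tgt_v] at h5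
      rcases h5 with ⟨h6, _⟩ | ⟨h6, _⟩ <;> rw [h6] at h1 <;> simp only at h1 ⊢ <;>
        refine ⟨⟨⟨?_, ?_⟩, ?_, ?_⟩, mem_univ _⟩ <;> omega

theorem card_pieces {x : P2} {r n N : ℕ} (hn : 1 ≤ n) (f : Fin N → Finset Edge)
    (hd : ∀ i j, i ≠ j → Disjoint (f i) (f j)) (hf : ∀ i, Piece x r n (f i)) :
    N ≤ (2 * r + 2) * (2 * r + 2) * 2 := by
  choose g hg hg' using fun i => piece_star hn (hf i)
  rw [← card_starE x r]
  have hinj : Function.Injective g := by
    intro i j hij
    by_contra hne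
    exact Finset.disjoint_left.1 (hd i j hne) (hg i) (hij ▸ hg j)
  calc N = (univ : Finset (Fin N)).card := by simp
    _ = (univ.image g).card := (card_image_of_injective _ hinj).symm
    _ ≤ (starE x r).card := card_le_card fun e he => by
        obtain ⟨i, _, rfl⟩ := mem_image.1 he
        exact hg' i

open Classical in
/-- **exponential moments of the number of disjoint open pieces.** -/
theorem exp_pieces (a : ℝ) (ha : 1 ≤ a) (K : ℕ) : ∃ C : ℝ, 1 ≤ C ∧
    ∀ (x : P2) (n : ℕ), 1 ≤ n → ∀ (E : Finset Edge) (N : Cfz → ℕ),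
      (∀ z z' : Cfz, (∀ e ∈ E, z e = z' e) → N z = N z') →
      (∀ z : Cfz, ∃ f : Fin (N z) → Finset Edge, (∀ i, ∀ e ∈ f i, e ∈ E ∧ z e = true) ∧
        (∀ i j, i ≠ j → Disjoint (f i) (f j)) ∧ ∀ i, Piece x ((K * n : ℕ) : ℤ) n (f i)) →
      ∫ z, a ^ N z ∂(nu hf) ≤ C := by
  obtain ⟨C0, a0, hC0, ha0, harm⟩ := arm_half
  -- choice of the number of blocks
  obtain ⟨M, hM2, hM⟩ : ∃ M : ℕ, 2 ≤ M ∧ a * (C0 * (2 / (M : ℝ)) ^ a0) ≤ 1 / 2 := by
    have h1 : Filter.Tendsto (fun M : ℕ => a * (C0 * (2 / (M : ℝ)) ^ a0)) Filter.atTop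
        (nhds (a * (C0 * (0 : ℝ) ^ a0))) := by
      refine Filter.Tendsto.const_mul _ (Filter.Tendsto.const_mul _ ?_)
      refine Filter.Tendsto.rpow_const ?_ (Or.inr ha0.le)
      exact tendsto_const_div_atTop_nhds_zero_nat 2
    rw [Real.zero_rpow ha0.ne', mul_zero, mul_zero] at h1
    have h2 := (h1.eventually (ge_mem_nhds (show (0 : ℝ) < 1 / 2 by norm_num))).and
      (Filter.eventually_ge_atTop 2)
    obtain ⟨M, h3, h4⟩ := h2.exists
    exact ⟨M, h4, h3⟩
  set J : ℕ := 2 * (K * M) with hJ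
  set D : ℕ := (2 * (K * M) + 2) * (2 * (K * M) + 2) * 2 with hD
  refine ⟨max (2 ^ ((2 * J + 1) * (2 * J + 1))) (a ^ D), ?_, ?_⟩
  · exact le_max_of_le_left (one_le_pow₀ (by norm_num))
  intro x n hn E N hdep hN
  have ha' : 0 ≤ a := by linarith
  by_cases hnM : n < M
  · -- small scales
    refine le_trans ?_ (le_max_right _ _)
    have h1 : ∀ z, a ^ N z ≤ a ^ D := by
      intro z
      obtain ⟨f, _, hd, hf⟩ := hN z
      refine pow_le_pow_right₀ ha ((card_pieces hn f hd hf).trans ?_)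
      rw [hD]
      have : K * n ≤ K * M := Nat.mul_le_mul_left _ hnM.le
      gcongr
    calc ∫ z, a ^ N z ∂(nu hf) ≤ ∫ _z, a ^ D ∂(nu hf) := by
          refine integral_mono_of_nonneg (Filter.Eventually.of_forall fun z => by positivity)
            (integrable_const _) (Filter.Eventually.of_forall h1)
      _ = a ^ D := by simp [nu]
  · push Not at hnM
    refine le_trans ?_ (le_max_left _ _)
    set b : ℕ := n / M with hb
    have hb1 : 1 ≤ b := (Nat.one_le_div_iff (by omega)).2 hnM
    have hbn : b * M ≤ n := Nat.div_mul_le_self n M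
    have hbn2 : n < (b + 1) * M := by
      have := Nat.lt_mul_div_succ n (show 0 < M by omega)
      rw [hb]; linarith
    have hbn3 : 2 * b ≤ n := by nlinarith
    have hbn' : b ≤ n := by omega
    have hr : ((K * n : ℕ) : ℤ) ≤ b * J := by
      have : K * n ≤ b * J := by
        rw [hJ]
        have h2 : n ≤ 2 * b * M := by nlinarith
        calc K * n ≤ K * (2 * b * M) := Nat.mul_le_mul_left _ h2
          _ = b * (2 * (K * M)) := by ring
      exact_mod_cast this
    set q : ℝ := C0 * (2 / (M : ℝ)) ^ a0 with hq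
    have hq1 : a * q < 1 := by linarith
    have hprob : ∀ k, (PB fun _ : Edge => hf).real
        {z | ArmIn (ctr x b J k) b (n - b) (op E z)} ≤ q := by
      intro k
      have h1 : (nu hf).real {z | ArmIn (ctr x b J k) b (n - b) (op E z)} ≤
          (nu hf).real (ArmX (ctr x b J k) b (n - b)) :=
        measureReal_mono fun z hz => armIn_armX hz
      refine h1.trans ((harm _ b (n - b) hb1 (by omega)).trans ?_)
      rw [hq]
      refine mul_le_mul_of_nonneg_left (Real.rpow_le_rpow (by positivity) ?_ ha0.le) hC0.le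
      have h2 : (0 : ℝ) < ((n - b : ℕ) : ℝ) := by
        have : 0 < n - b := by omega
        exact_mod_cast this
      have h3 : (0 : ℝ) < M := by
        have : 0 < M := by omega
        exact_mod_cast this
      rw [div_le_div_iff₀ h2 h3]
      have h4 : b * M ≤ 2 * (n - b) := by
        have : b * M ≤ n := hbn
        omega
      exact_mod_cast h4
    have hmain := pb_pow_le (κ := Fin (2 * J + 1) × Fin (2 * J + 1)) (fun _ : Edge => hf) E
      (fun k => ArmIn (ctr x b J k) b (n - b)) (fun k => armIn_mono _ _ _) N hdep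
      (fun z => by
        obtain ⟨f, hf1, hf2, hf3⟩ := hN z
        exact ⟨f, hf1, hf2, fun i => piece_arm hb1 hr hbn' (hf3 i)⟩)
      ha' (q := fun _ => q) hprob (fun _ => hq1)
    refine hmain.trans ?_
    rw [prod_const, card_univ, Fintype.card_prod, Fintype.card_fin]
    refine pow_le_pow_left₀ (inv_nonneg.2 (by linarith)) ?_ _
    rw [inv_le_comm₀ (by linarith) (by norm_num)]
    linarith

open Classical in
/-- dual form -/
theorem exp_pieces_dual (a : ℝ) (ha : 1 ≤ a) (K : ℕ) : ∃ C : ℝ, 1 ≤ C ∧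
    ∀ (x : P2) (n : ℕ), 1 ≤ n → ∀ (E : Finset Edge) (N : Cfz → ℕ),
      (∀ z z' : Cfz, (∀ e ∈ E, z e = z' e) → N z = N z') →
      (∀ z : Cfz, ∃ f : Fin (N z) → Finset Edge, (∀ i, ∀ e ∈ f i, e ∈ E ∧ z e = true) ∧
        (∀ i j, i ≠ j → Disjoint (f i) (f j)) ∧ ∀ i, Piece x ((K * n : ℕ) : ℤ) n (f i)) →
      ∫ z, a ^ N (dual z) ∂(nu hf) ≤ C := by
  obtain ⟨C, hC, h⟩ := exp_pieces a ha K
  refine ⟨C, hC, fun x n hn E N hdep hN => ?_⟩
  have h1 := h x n hn E N hdep hN
  have h2 : (nu hf).map dual = nu hf := by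
    have := map_dual hf
    rw [sigma_hf] at this
    exact this
  rw [← h2, integral_map measurable_dual.aemeasurable] at h1
  · exact h1
  · rw [h2]
    -- `a ^ N z` is a function of finitely many coordinates
    have h3 : (fun z : Cfz => a ^ N z) = (fun y : E → Bool =>
        a ^ N (fun e => if he : e ∈ E then y ⟨e, he⟩ else false)) ∘ E.restrict := by
      funext z
      simp only [Function.comp_apply, Finset.restrict]
      congr 1
      refine hdep _ _ fun e he => ?_
      rw [dif_pos he]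
    rw [h3]
    exact (Measurable.comp (Measurable.of_discrete) (Finset.measurable_restrict E)).aestronglyMeasurable


end Crest.Agent.R158.Em522
end
end

-- ▼ part R158/Lc1_522

/-!
# Row 158 (helper522): (L7) = exponential moments of the number of macroscopic loops at `p = 1/2`

* `inj_in`, `inj_out` : a finite strand is determined by its inner cluster
* `exp_loops` : for all `a ≥ 1` and `κ` there is `C` such that for all `x` and `n ≥ 1` the number of
  finite strands with a corner in the ball `κ n` of `x` and with diameter `≥ n` is bounded by a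
  number `K z` which only depends on the edges of the ball `(κ+1) n`, and `∫ a^K ≤ C`
* `exp_loops_int` : the same for the interiors which split the ball `B(x,n)` and have `dia + 1 ≥ n/2`
-/

set_option autoImplicit false

noncomputable section

namespace Crest.Agent.R158.Lc522

open Finset unitInterval
open MeasureTheory hiding Lp
open Crest.Agent.R161.Geo729 Crest.Agent.R161.Topo374 Crest.Agent.R161.Dual374
open Crest.Agent.R161.Tas682
open Crest.Agent.R158.Rs689 Crest.Agent.R158.Em522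
open Crest.Agent.R158.It200 hiding Cfz

/-! ### the maximal number of disjoint pieces -/

/-- `k` pairwise edge-disjoint pieces made of open edges of `E` -/
def HasP (x : P2) (r n : ℤ) (E : Finset Edge) (z : Cfz) (k : ℕ) : Prop :=
  ∃ f : Fin k → Finset Edge, (∀ i, ∀ e ∈ f i, e ∈ E ∧ z e = true) ∧
    (∀ i j, i ≠ j → Disjoint (f i) (f j)) ∧ ∀ i, Piece x r n (f i)

/-- maximal number of pieces -/
def NP (x : P2) (r n : ℤ) (E : Finset Edge) (z : Cfz) : ℕ := sSup {k | HasP x r n E z k}

theorem hasP_zero (x : P2) (r n : ℤ) (E : Finset Edge) (z : Cfz) : HasP x r n E z 0 :=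
  ⟨fun i => i.elim0, fun i => i.elim0, fun i => i.elim0, fun i => i.elim0⟩

theorem hasP_bdd {x : P2} {r n : ℕ} (hn : 1 ≤ n) {E : Finset Edge} {z : Cfz} :
    BddAbove {k | HasP x r n E z k} := by
  refine ⟨(2 * r + 2) * (2 * r + 2) * 2, ?_⟩
  rintro k ⟨f, _, h2, h3⟩
  exact card_pieces hn f h2 h3

theorem hasP_NP {x : P2} {r n : ℕ} (hn : 1 ≤ n) {E : Finset Edge} {z : Cfz} :
    HasP x r n E z (NP x r n E z) :=
  Nat.sSup_mem ⟨0, hasP_zero _ _ _ _ _⟩ (hasP_bdd hn)

theorem le_NP {x : P2} {r n : ℕ} (hn : 1 ≤ n) {E : Finset Edge} {z : Cfz} {k : ℕ}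
    (h : HasP x r n E z k) : k ≤ NP x r n E z :=
  le_csSup (hasP_bdd hn) h

theorem NP_dep {x : P2} {r n : ℤ} {E : Finset Edge} {z z' : Cfz} (h : ∀ e ∈ E, z e = z' e) :
    NP x r n E z = NP x r n E z' := by
  unfold NP
  congr 1
  ext k
  constructor
  · rintro ⟨f, h1, h2, h3⟩
    exact ⟨f, fun i e he => ⟨(h1 i e he).1, (h e (h1 i e he).1) ▸ (h1 i e he).2⟩, h2, h3⟩
  · rintro ⟨f, h1, h2, h3⟩
    exact ⟨f, fun i e he => ⟨(h1 i e he).1, (h e (h1 i e he).1).symm ▸ (h1 i e he).2⟩, h2, h3⟩

theorem card_le_NP {x : P2} {r n : ℕ} (hn : 1 ≤ n) {E : Finset Edge} {z : Cfz} {ι : Type*}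
    (s : Finset ι) (g : ι → Finset Edge) (h1 : ∀ i ∈ s, ∀ e ∈ g i, e ∈ E ∧ z e = true)
    (h2 : ∀ i ∈ s, ∀ j ∈ s, i ≠ j → Disjoint (g i) (g j)) (h3 : ∀ i ∈ s, Piece x r n (g i)) :
    s.card ≤ NP x r n E z := by
  refine le_NP hn ⟨fun k => g (s.equivFin.symm k), fun k => h1 _ (s.equivFin.symm k).2, ?_,
    fun k => h3 _ (s.equivFin.symm k).2⟩
  intro i j hij
  refine h2 _ (s.equivFin.symm i).2 _ (s.equivFin.symm j).2 fun h => hij ?_
  exact s.equivFin.symm.injective (Subtype.ext h)

/-! ### a path to a far away point contains a piece -/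

open Classical in
/-- the open edges of the cluster of `v` in the ball of radius `R` -/
def cT (z : Cfz) (x : P2) (R : ℕ) (v : P2) : Finset Edge :=
  (starE x R).filter fun e => z e = true ∧ Rch z v (src e)

theorem mem_starE {x : P2} {R : ℕ} {e : Edge} (h : sd x (src e) ≤ R) : e ∈ starE x R := by
  rw [sd_le] at h
  obtain ⟨⟨i, j⟩, k⟩ := e
  rw [src_mk] at h
  unfold starE
  rw [mem_product, mem_product, mem_Icc, mem_Icc]
  simp only at h ⊢
  refine ⟨⟨⟨?_, ?_⟩, ?_, ?_⟩, mem_univ _⟩ <;> omega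

theorem sd_self (v : P2) : sd v v = 0 := by unfold sd; simp

theorem sd_nbr {v u w : P2} {Z : Edge → Prop} (h : PStep Z u w) : sd v w ≤ sd v u + 1 := by
  have h1 : |w.1 - u.1| ≤ 1 ∧ |w.2 - u.2| ≤ 1 := by
    obtain ⟨⟨⟨i, j⟩, k⟩, _, h⟩ := h
    cases k
    · rw [src_mk, tgt_h] at h
      rcases h with ⟨h6, h7⟩ | ⟨h6, h7⟩ <;> rw [h6, h7] <;> simp
    · rw [src_mk, tgt_v] at h
      rcases h with ⟨h6, h7⟩ | ⟨h6, h7⟩ <;> rw [h6, h7] <;> simp
  have h2 := sd_triangle u v w
  have h3 : sd u w ≤ 1 := max_le h1.1 h1.2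
  linarith

theorem piece_of_path {z : Cfz} {x v u : P2} {r n R : ℕ} (hv : sd x v ≤ r) (hR : r + n ≤ R)
    (h : Rch z v u) (hn : n ≤ sd v u) : Piece x r n (cT z x R v) := by
  classical
  have key : ∀ u, Rch z v u →
      (∃ u', (n : ℤ) ≤ sd v u' ∧ Relation.ReflTransGen (PStep (fun e => e ∈ cT z x R v)) v u') ∨
      (sd v u < n ∧ Relation.ReflTransGen (PStep (fun e => e ∈ cT z x R v)) v u) := by
    intro u hu
    induction hu with
    | refl =>
        rcases le_or_gt (n : ℤ) (sd v v) with h | h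
        · exact Or.inl ⟨v, h, .refl⟩
        · exact Or.inr ⟨h, .refl⟩
    | @tail a b hab hs ih =>
        rcases ih with h | ⟨h1, h2⟩
        · exact Or.inl h
        · have h3 : PStep (fun e => e ∈ cT z x R v) a b := by
            obtain ⟨e, he, hE⟩ := hs
            have h4 : Rch z v (src e) ∧ sd v (src e) ≤ n := by
              rcases hE with ⟨h5, h6⟩ | ⟨h5, h6⟩
              · rw [← h5]; exact ⟨hab, h1.le⟩
              · rw [← h6]
                refine ⟨hab.tail ⟨e, he, Or.inr ⟨h5, h6⟩⟩, ?_⟩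
                have := sd_nbr (v := v) (Z := fun _ => True) (u := a) (w := b)
                  ⟨e, trivial, Or.inr ⟨h5, h6⟩⟩
                linarith
            refine ⟨e, ?_, hE⟩
            refine mem_filter.2 ⟨mem_starE ?_, he, h4.1⟩
            have h5 := sd_triangle v x (src e)
            have h6 : ((r + n : ℕ) : ℤ) ≤ R := by exact_mod_cast hR
            push_cast at h6
            linarith [h4.2]
          rcases le_or_gt (n : ℤ) (sd v b) with h | h
          · exact Or.inl ⟨b, h, h2.tail h3⟩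
          · exact Or.inr ⟨h, h2.tail h3⟩
  rcases key u h with ⟨u', h1, h2⟩ | ⟨h1, _⟩
  · exact ⟨v, u', hv, h1, h2⟩
  · omega

theorem piece_mono {x : P2} {r r' n : ℤ} {T : Finset Edge} (h : Piece x r n T) (hr : r ≤ r') :
    Piece x r' n T := by
  obtain ⟨u, v, h1, h2, h3⟩ := h
  exact ⟨u, v, h1.trans hr, h2, h3⟩

theorem Rch.symm' {z : Cfz} {u v : P2} (h : Rch z u v) : Rch z v u := by
  induction h with
  | refl => exact .refl
  | tail _ hs ih =>
      refine Relation.ReflTransGen.head ?_ ih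
      obtain ⟨e, he, h | h⟩ := hs
      · exact ⟨e, he, Or.inr ⟨h.2, h.1⟩⟩
      · exact ⟨e, he, Or.inl ⟨h.2, h.1⟩⟩

theorem cT_disj {z : Cfz} {x : P2} {R : ℕ} {v v' : P2} (h : ¬ Rch z v v') :
    Disjoint (cT z x R v) (cT z x R v') := by
  classical
  rw [Finset.disjoint_left]
  intro e he he'
  unfold cT at he he'
  rw [mem_filter] at he he'
  exact h (Relation.ReflTransGen.trans he.2.2 (Rch.symm' he'.2.2))

/-! ### the interior of a finite strand -/

/-- height of a vertex (`false`) or a face (`true`) -/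
def Ht (J : Corner → ℤ) (p : P2 × Bool) : ℤ := if p.2 = true then Hf J p.1 else Hv J p.1

/-- interior of a strand -/
def inn (z : Cfz) (c : Corner) : Set (P2 × Bool) := {p | Ht (JL z c) p ≠ 0}

theorem mem_of_JL {z : Cfz} {c d : Corner} (h : JL z c d ≠ 0) : d ∈ Lp z c := by
  by_contra h'
  exact h (JL_not_mem h')

/-- bounding box of a finite strand, with its extremal corners -/
theorem exists_box {z : Cfz} {c : Corner} (hfin : (Lp z c).Finite) :
    ∃ dl ∈ Lp z c, ∃ dr ∈ Lp z c, ∃ db ∈ Lp z c, ∃ dt ∈ Lp z c,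
      (∀ d ∈ Lp z c, dl.1.1 ≤ d.1.1 ∧ d.1.1 ≤ dr.1.1 ∧ db.1.2 ≤ d.1.2 ∧ d.1.2 ≤ dt.1.2) ∧
      ∀ p ∈ inn z c, dl.1.1 ≤ p.1.1 ∧ p.1.1 ≤ dr.1.1 ∧ db.1.2 ≤ p.1.2 ∧ p.1.2 ≤ dt.1.2 := by
  have hne : (Lp z c).Nonempty := ⟨c, mem_Lp_self z c⟩
  obtain ⟨dl, hl, hl'⟩ := Set.exists_min_image _ (fun d : Corner => d.1.1) hfin hne
  obtain ⟨dr, hr, hr'⟩ := Set.exists_max_image _ (fun d : Corner => d.1.1) hfin hne
  obtain ⟨db, hb, hb'⟩ := Set.exists_min_image _ (fun d : Corner => d.1.2) hfin hne
  obtain ⟨dt, ht, ht'⟩ := Set.exists_max_image _ (fun d : Corner => d.1.2) hfin hne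
  have hbox : ∀ d ∈ Lp z c, dl.1.1 ≤ d.1.1 ∧ d.1.1 ≤ dr.1.1 ∧ db.1.2 ≤ d.1.2 ∧ d.1.2 ≤ dt.1.2 :=
    fun d hd => ⟨hl' d hd, hr' d hd, hb' d hd, ht' d hd⟩
  refine ⟨dl, hl, dr, hr, db, hb, dt, ht, hbox, ?_⟩
  have hB : ∀ d, JL z c d ≠ 0 → dl.1.1 ≤ d.1.1 ∧ d.1.1 ≤ dr.1.1 ∧ db.1.2 ≤ d.1.2 ∧
      d.1.2 ≤ dt.1.2 := fun d hd => hbox d (mem_of_JL hd)
  rintro ⟨v, b⟩ hp
  by_contra hcon
  have hcon' : v.1 < dl.1.1 ∨ dr.1.1 < v.1 ∨ v.2 < db.1.2 ∨ dt.1.2 < v.2 := by
    by_contra h
    push Not at h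
    exact hcon ⟨h.1, h.2.1, h.2.2.1, h.2.2.2⟩
  apply hp
  have e0 : fc (v, 0) = v := by simp [fc]
  cases b
  · exact Hv_out (JL_fs hfin) (JL_inv z c).cons hB hcon'
  · have := Hf_out (JL_fs hfin) (JL_inv z c).cons hB (c := (v, 0)) hcon'
    rw [e0] at this
    exact this

/-- two points of the interior are at most as far as two corners of the strand -/
theorem exists_far {z : Cfz} {c : Corner} (hfin : (Lp z c).Finite) {p p' : P2 × Bool}
    (hp : p ∈ inn z c) (hp' : p' ∈ inn z c) :
    ∃ d ∈ Lp z c, ∃ d' ∈ Lp z c, sd p.1 p'.1 ≤ sd d.1 d'.1 := by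
  obtain ⟨dl, hl, dr, hr, db, hb, dt, ht, _, h2⟩ := exists_box hfin
  obtain ⟨a1, a2, a3, a4⟩ := h2 p hp
  obtain ⟨b1, b2, b3, b4⟩ := h2 p' hp'
  rcases max_choice |p'.1.1 - p.1.1| |p'.1.2 - p.1.2| with h | h
  · refine ⟨dl, hl, dr, hr, ?_⟩
    unfold sd
    rw [h]
    refine le_max_of_le_left ?_
    rw [abs_le]
    have := le_abs_self (dr.1.1 - dl.1.1)
    constructor <;> linarith
  · refine ⟨db, hb, dt, ht, ?_⟩
    unfold sd
    rw [h]
    refine le_max_of_le_right ?_
    rw [abs_le]
    have := le_abs_self (dt.1.2 - db.1.2)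
    constructor <;> linarith

/-- the height is constant on a ball without corners of the strand -/
theorem ht_const {J : Corner → ℤ} (hF : Fs J) (hC : Cons J) {x : P2} {n : ℤ}
    (h0 : ∀ d : Corner, sd x d.1 ≤ n → J d = 0) :
    ∀ p : P2 × Bool, sd x p.1 ≤ n → Ht J p = Hv J x := by
  have key : ∀ k : ℕ, ∀ v : P2, sd x v ≤ n → |v.1 - x.1| + |v.2 - x.2| = k → Hv J v = Hv J x := by
    intro k
    induction k with
    | zero =>
        intro v _ h
        have h1 := abs_nonneg (v.1 - x.1)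
        have h2 := abs_nonneg (v.2 - x.2)
        have h3 : |v.1 - x.1| = 0 := by push_cast at h; linarith
        have h4 : |v.2 - x.2| = 0 := by push_cast at h; linarith
        rw [abs_eq_zero] at h3 h4
        congr 1
        exact Prod.ext (by linarith) (by linarith)
    | succ k ih =>
        intro v hv h
        obtain ⟨v1, v2⟩ := v
        simp only at h
        have hv' := hv
        rw [sd_le] at hv
        simp only at hv
        push_cast at h
        rcases lt_trichotomy v1 x.1 with hx | hx | hx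
        · have h5 : sd x (v1 + 1, v2) ≤ n := by
            rw [sd_le]; simp only; omega
          have := Hv_right hF hC (v := (v1, v2)) (h0 _ hv') (h0 ((v1 + 1, v2), 3) h5)
          rw [← this]
          refine ih _ h5 ?_
          rw [abs_of_neg (by linarith : v1 - x.1 < 0)] at h
          simp only
          rw [abs_of_nonpos (by linarith : v1 + 1 - x.1 ≤ 0)]
          linarith
        · subst hx
          rcases lt_trichotomy v2 x.2 with hy | hy | hy
          · have h5 : sd x (x.1, v2 + 1) ≤ n := by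
              rw [sd_le]; simp only; omega
            have := Hv_up hF hC (v := (x.1, v2)) (h0 _ hv') (h0 ((x.1, v2 + 1), 1) h5)
            rw [← this]
            refine ih _ h5 ?_
            rw [abs_of_neg (by linarith : v2 - x.2 < 0)] at h
            simp only
            rw [abs_of_nonpos (by linarith : v2 + 1 - x.2 ≤ 0)]
            linarith
          · subst hy; rfl
          · have h5 : sd x (x.1, v2 - 1) ≤ n := by
              rw [sd_le]; simp only; omega
            have e : ((x.1, v2 - 1).1, (x.1, v2 - 1).2 + 1) = (x.1, v2) := by simp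
            have := Hv_up hF hC (v := (x.1, v2 - 1)) (h0 _ h5)
              (h0 (((x.1, v2 - 1).1, (x.1, v2 - 1).2 + 1), 1) (by rw [e]; exact hv'))
            rw [e] at this
            rw [this]
            refine ih _ h5 ?_
            rw [abs_of_pos (by linarith : 0 < v2 - x.2)] at h
            simp only
            rw [abs_of_nonneg (by linarith : 0 ≤ v2 - 1 - x.2)]
            linarith
        · have h5 : sd x (v1 - 1, v2) ≤ n := by
            rw [sd_le]; simp only; omega
          have e : ((v1 - 1, v2).1 + 1, (v1 - 1, v2).2) = (v1, v2) := by simp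
          have := Hv_right hF hC (v := (v1 - 1, v2)) (h0 _ h5)
            (h0 (((v1 - 1, v2).1 + 1, (v1 - 1, v2).2), 3) (by rw [e]; exact hv'))
          rw [e] at this
          rw [this]
          refine ih _ h5 ?_
          rw [abs_of_pos (by linarith : 0 < v1 - x.1)] at h
          simp only
          rw [abs_of_nonneg (by linarith : 0 ≤ v1 - 1 - x.1)]
          linarith
  have hv : ∀ v : P2, sd x v ≤ n → Hv J v = Hv J x := by
    intro v hv
    have h1 := abs_nonneg (v.1 - x.1)
    have h2 := abs_nonneg (v.2 - x.2)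
    exact key (|v.1 - x.1| + |v.2 - x.2|).toNat v hv (Int.toNat_of_nonneg (by linarith)).symm
  rintro ⟨v, b⟩ hp
  cases b
  · exact hv v hp
  · have g := grad hF hC (v, 0)
    have e0 : fc (v, 0) = v := by simp [fc]
    rw [e0, h0 (v, 0) hp] at g
    simp only at g
    show Hf J v = _
    rw [← hv v hp]
    linarith

/-- a strand whose interior splits the ball has a corner in the ball -/
theorem exists_near {z : Cfz} {c : Corner} (hfin : (Lp z c).Finite) {x : P2} {n : ℤ}
    {p p' : P2 × Bool} (hp : p ∈ inn z c) (hp' : p' ∉ inn z c) (h : sd x p.1 ≤ n)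
    (h' : sd x p'.1 ≤ n) : ∃ d ∈ Lp z c, sd x d.1 ≤ n := by
  by_contra hcon
  push Not at hcon
  have h0 : ∀ d : Corner, sd x d.1 ≤ n → JL z c d = 0 := by
    intro d hd
    by_contra h1
    exact absurd hd (not_le.2 (hcon d (mem_of_JL h1)))
  have h1 := ht_const (JL_fs hfin) (JL_inv z c).cons h0
  apply hp
  have h2 : Ht (JL z c) p' = 0 := by
    by_contra h3
    exact hp' h3
  rw [h1 p h, ← h1 p' h', h2]

/-! ### a finite strand is determined by its inner cluster -/

theorem JL_zero_or_one (z : Cfz) (c d : Corner) : JL z c d = 0 ∨ (JL z c d = 1 ∧ d ∈ Lp z c) := by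
  by_cases h : d ∈ Lp z c
  · exact Or.inr ⟨JL_mem h, h⟩
  · exact Or.inl (JL_not_mem h)

/-- `a = -1`: a face inside: the face on its right is inside or on the left side of the strand -/
theorem step_in {z : Cfz} {c : Corner} (hfin : (Lp z c).Finite)
    (hv : ∀ v, Hv (JL z c) v = -1 ∨ Hv (JL z c) v = 0) {f : P2} (hf : Hf (JL z c) f = -1) :
    Hf (JL z c) (f.1 + 1, f.2) = -1 ∨ ∃ d ∈ Lp z c, fc d = (f.1 + 1, f.2) := by
  have g3 := grad (JL_fs hfin) (JL_inv z c).cons ((f.1 + 1, f.2), 3)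
  have g0 := grad (JL_fs hfin) (JL_inv z c).cons ((f.1 + 1, f.2), 0)
  have e3 : fc ((f.1 + 1, f.2), 3) = f := by simp [fc]
  have e0 : fc ((f.1 + 1, f.2), 0) = (f.1 + 1, f.2) := by simp [fc]
  rw [e3, hf] at g3
  rw [e0] at g0
  simp only at g3 g0
  have h1 : Hv (JL z c) (f.1 + 1, f.2) = -1 := by
    rcases hv (f.1 + 1, f.2) with h | h
    · exact h
    · rcases JL_zero_or_one z c ((f.1 + 1, f.2), 3) with h2 | ⟨h2, _⟩
      · rw [h2, h] at g3; omega
      · rw [h2, h] at g3; omega
  rcases JL_zero_or_one z c ((f.1 + 1, f.2), 0) with h2 | ⟨h2, h3⟩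
  · left; rw [h2, h1] at g0; linarith
  · right; exact ⟨_, h3, e0⟩

/-- `a = 0`: a vertex inside: the vertex on its right is inside or on the right side of the strand -/
theorem step_out {z : Cfz} {c : Corner} (hfin : (Lp z c).Finite)
    (hf : ∀ f, Hf (JL z c) f = 0 ∨ Hf (JL z c) f = 1) {v : P2} (hv : Hv (JL z c) v = 1) :
    Hv (JL z c) (v.1 + 1, v.2) = 1 ∨ ∃ d ∈ Lp z c, d.1 = (v.1 + 1, v.2) := by
  have g3 := grad (JL_fs hfin) (JL_inv z c).cons ((v.1 + 1, v.2), 3)
  have g0 := grad (JL_fs hfin) (JL_inv z c).cons (v, 0)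
  have e3 : fc ((v.1 + 1, v.2), 3) = v := by simp [fc]
  have e0 : fc (v, 0) = v := by simp [fc]
  rw [e3] at g3
  rw [e0, hv] at g0
  simp only at g3 g0
  have h1 : Hf (JL z c) v = 1 := by
    rcases hf v with h | h
    · rcases JL_zero_or_one z c (v, 0) with h2 | ⟨h2, _⟩
      · rw [h2, h] at g0; omega
      · rw [h2, h] at g0; omega
    · exact h
  rcases JL_zero_or_one z c ((v.1 + 1, v.2), 3) with h2 | ⟨h2, h3⟩
  · left; rw [h2, h1] at g3; linarith
  · right; exact ⟨_, h3, rfl⟩

/-- heights vanish far to the right -/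
theorem far_right {z : Cfz} {c : Corner} (hfin : (Lp z c).Finite) :
    ∃ M : ℤ, ∀ v : P2, M ≤ v.1 → Hv (JL z c) v = 0 ∧ Hf (JL z c) v = 0 := by
  obtain ⟨dl, hl, dr, hr, db, hb, dt, ht, _, h2⟩ := exists_box hfin
  refine ⟨dr.1.1 + 1, fun v hv => ⟨?_, ?_⟩⟩
  · by_contra h
    have := (h2 (v, false) h).2.1
    simp only at this
    omega
  · by_contra h
    have := (h2 (v, true) h).2.1
    simp only at this
    omega

/-- no infinite horizontal line of inner points -/
theorem no_line {P : P2 → Prop} (h : ∀ v, P v → P (v.1 + 1, v.2)) {M : ℤ}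
    (hM : ∀ v : P2, M ≤ v.1 → ¬ P v) (v : P2) : ¬ P v := by
  intro hv
  have key : ∀ k : ℕ, P (v.1 + k, v.2) := by
    intro k
    induction k with
    | zero => simpa using hv
    | succ k ih =>
        have := h _ ih
        simp only at this
        push_cast
        rw [← add_assoc]
        exact this
  exact hM _ (by simp only; have := Int.self_le_toNat (M - v.1); linarith) (key (M - v.1).toNat)

theorem inj_in {z : Cfz} {c c' : Corner} (h : (Lp z c).Finite) (h' : (Lp z c').Finite)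
    (ha : Hv (JL z c) c.1 ≠ 0) (ha' : Hv (JL z c') c'.1 ≠ 0) (hp : Rch z c.1 c'.1) :
    c' ∈ Lp z c := by
  by_contra hne
  have hne' : c ∉ Lp z c' := fun h1 => hne (Equiv.Perm.SameCycle.symm h1)
  obtain ⟨a, ha1, ha2, ha3, _⟩ := jordan h
  obtain ⟨b, hb1, hb2, hb3, _⟩ := jordan h'
  have ea : a = -1 := by
    rcases ha1 with h1 | h1
    · exact absurd ((ha2 c (mem_Lp_self z c)).1.trans h1) ha
    · exact h1
  have eb : b = -1 := by
    rcases hb1 with h1 | h1
    · exact absurd ((hb2 c' (mem_Lp_self z c')).1.trans h1) ha'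
    · exact h1
  subst ea eb
  simp only [Int.reduceNeg, Int.reduceAdd] at ha2 ha3 hb2 hb3
  have hF := JL_fs h
  have hF' := JL_fs h'
  have hI := JL_inv z c
  have hI' := JL_inv z c'
  -- the left faces of each strand are inside the other one
  have k1 : ∀ d ∈ Lp z c, Hf (JL z c') (fc d) = -1 := by
    intro d hd
    rw [(hI'.const_strand hF' d hd).2.1]
    have g := grad hF' hI'.cons c
    rw [JL_not_mem hne', hI'.hv_path hF' hp, (hb2 c' (mem_Lp_self z c')).1] at g
    linarith
  have k2 : ∀ d ∈ Lp z c', Hf (JL z c) (fc d) = -1 := by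
    intro d hd
    rw [(hI.const_strand hF d hd).2.1]
    have g := grad hF hI.cons c'
    rw [JL_not_mem hne, ← hI.hv_path hF hp, (ha2 c (mem_Lp_self z c)).1] at g
    linarith
  obtain ⟨M, hM⟩ := far_right h
  obtain ⟨M', hM'⟩ := far_right h'
  refine no_line (P := fun f => Hf (JL z c) f = -1 ∨ Hf (JL z c') f = -1) (M := max M M') ?_ ?_
    (fc c) (Or.inr (k1 c (mem_Lp_self z c)))
  · rintro f (hf | hf)
    · rcases step_in h ha3 hf with h1 | ⟨d, hd, h1⟩
      · exact Or.inl h1
      · right; rw [← h1]; exact k1 d hd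
    · rcases step_in h' hb3 hf with h1 | ⟨d, hd, h1⟩
      · exact Or.inr h1
      · left; rw [← h1]; exact k2 d hd
  · rintro f hf (h1 | h1)
    · rw [(hM f ((le_max_left _ _).trans hf)).2] at h1; omega
    · rw [(hM' f ((le_max_right _ _).trans hf)).2] at h1; omega

theorem inj_out {z : Cfz} {c c' : Corner} (h : (Lp z c).Finite) (h' : (Lp z c').Finite)
    (ha : Hv (JL z c) c.1 = 0) (ha' : Hv (JL z c') c'.1 = 0)
    (hp : Relation.ReflTransGen (DStep (fun e => z e = false)) (fc c) (fc c')) :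
    c' ∈ Lp z c := by
  by_contra hne
  have hne' : c ∉ Lp z c' := fun h1 => hne (Equiv.Perm.SameCycle.symm h1)
  obtain ⟨a, ha1, ha2, _, ha4⟩ := jordan h
  obtain ⟨b, hb1, hb2, _, hb4⟩ := jordan h'
  have ea : a = 0 := by
    rw [← (ha2 c (mem_Lp_self z c)).1]; exact ha
  have eb : b = 0 := by
    rw [← (hb2 c' (mem_Lp_self z c')).1]; exact ha'
  subst ea eb
  simp only [zero_add] at ha2 ha4 hb2 hb4
  have hF := JL_fs h
  have hF' := JL_fs h'
  have hI := JL_inv z c
  have hI' := JL_inv z c'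
  -- the right vertices of each strand are inside the other one
  have k1 : ∀ d ∈ Lp z c, Hv (JL z c') d.1 = 1 := by
    intro d hd
    rw [(hI'.const_strand hF' d hd).1]
    have g := grad hF' hI'.cons c
    rw [JL_not_mem hne', hI'.hf_path hF' hp, (hb2 c' (mem_Lp_self z c')).2] at g
    linarith
  have k2 : ∀ d ∈ Lp z c', Hv (JL z c) d.1 = 1 := by
    intro d hd
    rw [(hI.const_strand hF d hd).1]
    have g := grad hF hI.cons c'
    rw [JL_not_mem hne, ← hI.hf_path hF hp, (ha2 c (mem_Lp_self z c)).2] at g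
    linarith
  obtain ⟨M, hM⟩ := far_right h
  obtain ⟨M', hM'⟩ := far_right h'
  refine no_line (P := fun v => Hv (JL z c) v = 1 ∨ Hv (JL z c') v = 1) (M := max M M') ?_ ?_
    c.1 (Or.inr (k1 c (mem_Lp_self z c)))
  · rintro v (hv | hv)
    · rcases step_out h ha4 hv with h1 | ⟨d, hd, h1⟩
      · exact Or.inl h1
      · right; rw [← h1]; exact k1 d hd
    · rcases step_out h' hb4 hv with h1 | ⟨d, hd, h1⟩
      · exact Or.inr h1
      · left; rw [← h1]; exact k2 d hd
  · rintro v hv (h1 | h1)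
    · rw [(hM v ((le_max_left _ _).trans hv)).1] at h1; omega
    · rw [(hM' v ((le_max_right _ _).trans hv)).1] at h1; omega

/-! ### paths far away along a strand -/

/-- the right vertices of a strand are joined by open edges -/
theorem rch_strand {z : Cfz} {c d : Corner} (hd : d ∈ Lp z c) : Rch z c.1 d.1 := by
  refine Lp_induct (P := fun d => Rch z c.1 d.1) Relation.ReflTransGen.refl ?_ ?_ d hd
  · intro d _ h
    cases hz : z (ah d) with
    | true => exact h.tail (step_open hz).1
    | false => rw [(step_closed hz).2]; exact h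
  · intro d _ h
    have e := nx_pv z d
    cases hz : z (ah (pv z d)) with
    | true =>
        have h1 := (step_open hz).1
        rw [e] at h1
        exact h.trans (Rch.symm' (Relation.ReflTransGen.single h1))
    | false =>
        have h1 := (step_closed hz).2
        rw [e] at h1
        rw [← h1]; exact h

theorem rchd_symm {z : Cfz} {u v : P2}
    (h : Relation.ReflTransGen (DStep (fun e => z e = false)) u v) :
    Relation.ReflTransGen (DStep (fun e => z e = false)) v u := by
  induction h with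
  | refl => exact .refl
  | tail _ hs ih =>
      refine Relation.ReflTransGen.head ?_ ih
      obtain ⟨e, he, h | h⟩ := hs
      · exact ⟨e, he, Or.inr ⟨h.2, h.1⟩⟩
      · exact ⟨e, he, Or.inl ⟨h.2, h.1⟩⟩

/-- the left faces of a strand are joined across closed edges -/
theorem rchd_strand {z : Cfz} {c d : Corner} (hd : d ∈ Lp z c) :
    Relation.ReflTransGen (DStep (fun e => z e = false)) (fc c) (fc d) := by
  refine Lp_induct
    (P := fun d => Relation.ReflTransGen (DStep (fun e => z e = false)) (fc c) (fc d))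
    Relation.ReflTransGen.refl ?_ ?_ d hd
  · intro d _ h
    cases hz : z (ah d) with
    | true => rw [(step_open hz).2]; exact h
    | false => exact h.tail (step_closed hz).1
  · intro d _ h
    have e := nx_pv z d
    cases hz : z (ah (pv z d)) with
    | true =>
        have h1 := (step_open hz).2
        rw [e] at h1
        rw [← h1]; exact h
    | false =>
        have h1 := (step_closed hz).1
        rw [e] at h1
        exact h.trans (rchd_symm (Relation.ReflTransGen.single h1))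

theorem dstep_dual' {z : Cfz} {f g : P2} :
    DStep (fun e => z e = false) f g ↔ PStep (fun e => dual z e = true) f g := by
  rw [← dstep_dual]
  have : (fun e => z e = false) = fun e => ¬ z e = true := by
    funext e; simp
  rw [this]

theorem rchd_iff {z : Cfz} {f g : P2} :
    Relation.ReflTransGen (DStep (fun e => z e = false)) f g ↔ Rch (dual z) f g := by
  have : DStep (fun e => z e = false) = PStep (fun e => dual z e = true) := by
    funext f g
    exact propext dstep_dual'
  rw [this]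

theorem fc_near (c : Corner) : (fc c).1 ≤ c.1.1 ∧ c.1.1 ≤ (fc c).1 + 1 ∧ (fc c).2 ≤ c.1.2 ∧
    c.1.2 ≤ (fc c).2 + 1 := by
  obtain ⟨⟨a, b⟩, q⟩ := c
  fin_cases q <;> simp [fc]

theorem sd_fc_le (x : P2) (c : Corner) : sd x (fc c) ≤ sd x c.1 + 1 := by
  obtain ⟨h1, h2, h3, h4⟩ := fc_near c
  have h5 := le_max_left |c.1.1 - x.1| |c.1.2 - x.2|
  have h6 := le_max_right |c.1.1 - x.1| |c.1.2 - x.2|
  rw [abs_le] at h5 h6
  unfold sd
  refine max_le (abs_le.2 ⟨?_, ?_⟩) (abs_le.2 ⟨?_, ?_⟩) <;> linarith [h5.1, h5.2, h6.1, h6.2]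

theorem sd_fc_ge (c d : Corner) : sd c.1 d.1 ≤ sd (fc c) (fc d) + 1 := by
  obtain ⟨h1, h2, h3, h4⟩ := fc_near c
  obtain ⟨g1, g2, g3, g4⟩ := fc_near d
  have h5 := le_max_left |(fc d).1 - (fc c).1| |(fc d).2 - (fc c).2|
  have h6 := le_max_right |(fc d).1 - (fc c).1| |(fc d).2 - (fc c).2|
  rw [abs_le] at h5 h6
  unfold sd
  refine max_le (abs_le.2 ⟨?_, ?_⟩) (abs_le.2 ⟨?_, ?_⟩) <;> linarith [h5.1, h5.2, h6.1, h6.2]

/-- a far corner on a strand of large diameter -/
theorem exists_half {z : Cfz} {c : Corner} {n : ℕ}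
    (h : ∃ d ∈ Lp z c, ∃ d' ∈ Lp z c, (n : ℤ) ≤ sd d.1 d'.1) :
    ∃ d ∈ Lp z c, (n : ℤ) ≤ 2 * sd c.1 d.1 := by
  obtain ⟨d, hd, d', hd', h1⟩ := h
  have h2 := sd_triangle c.1 d.1 d'.1
  rw [sd_symm d.1 c.1] at h2
  rcases le_total (sd c.1 d.1) (sd c.1 d'.1) with h3 | h3
  · exact ⟨d', hd', by linarith⟩
  · exact ⟨d, hd, by linarith⟩

/-! ### integrability of local powers -/

theorem integrable_pow {a : ℝ} (ha : 1 ≤ a) {N : Cfz → ℕ} {E : Finset Edge}
    (hdep : ∀ z z' : Cfz, (∀ e ∈ E, z e = z' e) → N z = N z') :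
    Integrable (fun z : Cfz => a ^ N z) (nu hf) := by
  classical
  have ha0 : 0 < a := by linarith
  have hm : Measurable fun z : Cfz => a ^ N z := by
    have h3 : (fun z : Cfz => a ^ N z) = (fun y : E → Bool =>
        a ^ N (fun e => if he : e ∈ E then y ⟨e, he⟩ else false)) ∘ E.restrict := by
      funext z
      simp only [Function.comp_apply, Finset.restrict]
      congr 1
      refine hdep _ _ fun e he => ?_
      rw [dif_pos he]
    rw [h3]
    exact Measurable.comp (Measurable.of_discrete) (Finset.measurable_restrict E)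
  have hfin : (Set.range fun y : E → Bool =>
      N (fun e => if he : e ∈ E then y ⟨e, he⟩ else false)).Finite := Set.finite_range _
  obtain ⟨B, hB⟩ := hfin.bddAbove
  refine Integrable.of_bound hm.aestronglyMeasurable (a ^ B) (Filter.Eventually.of_forall fun z => ?_)
  rw [Real.norm_of_nonneg (by positivity)]
  refine pow_le_pow_right₀ ha ?_
  have : N z = N (fun e => if he : e ∈ E then z e else false) :=
    hdep _ _ fun e he => by rw [dif_pos he]
  rw [this]
  exact hB ⟨fun e => z e, rfl⟩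

theorem dual_congr {x : P2} {R : ℕ} {z z' : Cfz} (h : ∀ e ∈ starE x (R + 1), z e = z' e) :
    ∀ e ∈ starE x R, dual z e = dual z' e := by
  intro e he
  show (!z (dE.symm e)) = !z' (dE.symm e)
  rw [h]
  obtain ⟨⟨i, j⟩, k⟩ := e
  unfold starE at he ⊢
  rw [mem_product, mem_product, mem_Icc, mem_Icc] at he
  cases k
  · rw [dE_symm_h, mem_product, mem_product, mem_Icc, mem_Icc]
    simp only at he ⊢
    refine ⟨⟨⟨?_, ?_⟩, ?_, ?_⟩, mem_univ _⟩ <;> push_cast <;> omega
  · rw [dE_symm_v, mem_product, mem_product, mem_Icc, mem_Icc]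
    simp only at he ⊢
    refine ⟨⟨⟨?_, ?_⟩, ?_, ?_⟩, mem_univ _⟩ <;> push_cast <;> omega

theorem starE_mono {x : P2} {R R' : ℕ} (h : R ≤ R') : starE x R ⊆ starE x R' := by
  intro e he
  have h' : (R : ℤ) ≤ R' := by exact_mod_cast h
  unfold starE at he ⊢
  rw [mem_product, mem_product, mem_Icc, mem_Icc] at he ⊢
  refine ⟨⟨⟨?_, ?_⟩, ?_, ?_⟩, mem_univ _⟩ <;> linarith [he.1.1.1, he.1.1.2, he.1.2.1, he.1.2.2]

/-- number of corners in a ball -/
theorem card_corners {x : P2} {r m : ℕ} (c : Fin m → Corner) (hinj : Function.Injective c)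
    (h : ∀ i, sd x (c i).1 ≤ r) : m ≤ (2 * r + 1) * (2 * r + 1) * 4 := by
  classical
  have h1 : (univ : Finset (Fin m)).image c ⊆
      (Finset.Icc (x.1 - r) (x.1 + r) ×ˢ Finset.Icc (x.2 - r) (x.2 + r)) ×ˢ
        (univ : Finset (Fin 4)) := by
    intro d hd
    obtain ⟨i, _, rfl⟩ := mem_image.1 hd
    have h2 := h i
    rw [sd_le] at h2
    rw [mem_product, mem_product, mem_Icc, mem_Icc]
    refine ⟨⟨⟨?_, ?_⟩, ?_, ?_⟩, mem_univ _⟩ <;> linarith [h2.1, h2.2.1, h2.2.2.1, h2.2.2.2]
  have h3 := card_le_card h1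
  rw [card_image_of_injective _ hinj, card_univ, Fintype.card_fin, card_product, card_product,
    Int.card_Icc, Int.card_Icc, card_univ, Fintype.card_fin] at h3
  refine h3.trans (le_of_eq ?_)
  congr 2 <;> omega

/-! ### the count -/

open Classical in
/-- **exponential moments of the number of macroscopic finite strands.** -/
theorem exp_loops (a : ℝ) (ha : 1 ≤ a) (κ : ℕ) : ∃ C : ℝ, 1 ≤ C ∧
    ∀ (x : P2) (n : ℕ), 1 ≤ n → ∃ K : Cfz → ℕ,
      (∀ z z' : Cfz, (∀ e ∈ starE x ((κ + 1) * n), z e = z' e) → K z = K z') ∧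
      ∫ z, a ^ K z ∂(nu hf) ≤ C ∧
      ∀ (z : Cfz) (m : ℕ) (c : Fin m → Corner), (∀ i, (Lp z (c i)).Finite) →
        (∀ i j, i ≠ j → c j ∉ Lp z (c i)) → (∀ i, sd x (c i).1 ≤ (κ * n : ℕ)) →
        (∀ i, ∃ d ∈ Lp z (c i), ∃ d' ∈ Lp z (c i), (n : ℤ) ≤ sd d.1 d'.1) → m ≤ K z := by
  have ha2 : (1 : ℝ) ≤ a ^ 2 := one_le_pow₀ ha
  obtain ⟨C1, hC1, h1⟩ := exp_pieces (a ^ 2) ha2 (5 * κ + 1)
  obtain ⟨C2, hC2, h2⟩ := exp_pieces_dual (a ^ 2) ha2 (5 * κ + 1)
  set D : ℕ := (2 * (κ * 4) + 1) * (2 * (κ * 4) + 1) * 4 with hD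
  refine ⟨max (C1 + C2) (a ^ D), le_max_of_le_left (by linarith), fun x n hn => ?_⟩
  by_cases hn4 : n < 4
  · -- small scales
    refine ⟨fun _ => D, fun _ _ _ => rfl, ?_, ?_⟩
    · refine le_max_of_le_right (le_of_eq ?_)
      simp [nu]
    · intro z m c _ hdis hnear _
      have hinj : Function.Injective c := by
        intro i j hij
        by_contra hne
        exact hdis i j hne (hij ▸ mem_Lp_self z (c i))
      refine (card_corners c hinj hnear).trans ?_
      have : κ * n ≤ κ * 4 := Nat.mul_le_mul_left _ hn4.le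
      exact Nat.mul_le_mul (Nat.mul_le_mul (by omega) (by omega)) le_rfl
  · push Not at hn4
    obtain ⟨n', hn'1, hn'2, hn'3⟩ : ∃ n' : ℕ, 1 ≤ n' ∧ 2 * n' + 2 ≤ n ∧ n ≤ 5 * n' :=
      ⟨n / 2 - 1, by omega, by omega, by omega⟩
    set r : ℕ := (5 * κ + 1) * n' with hr
    have hr1 : κ * n + 1 ≤ r := by
      have : κ * n ≤ κ * (5 * n') := Nat.mul_le_mul_left _ hn'3
      rw [hr]; nlinarith
    set R : ℕ := κ * n + 1 + n' with hR
    have hR1 : R + 1 ≤ (κ + 1) * n := by rw [hR]; nlinarith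
    set E := starE x R with hE
    have hdep1 : ∀ z z' : Cfz, (∀ e ∈ E, z e = z' e) → NP x r n' E z = NP x r n' E z' :=
      fun z z' h => NP_dep h
    have hsub : starE x (R + 1) ⊆ starE x ((κ + 1) * n) := starE_mono hR1
    have hsub' : E ⊆ starE x ((κ + 1) * n) := starE_mono (by omega)
    have hdep2 : ∀ z z' : Cfz, (∀ e ∈ starE x ((κ + 1) * n), z e = z' e) →
        NP x r n' E (dual z) = NP x r n' E (dual z') :=
      fun z z' h => NP_dep (dual_congr fun e he => h e (hsub he))
    refine ⟨fun z => NP x r n' E z + NP x r n' E (dual z), ?_, ?_, ?_⟩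
    · intro z z' h
      simp only
      rw [hdep1 z z' fun e he => h e (hsub' he), hdep2 z z' h]
    · refine le_max_of_le_left ?_
      have i1 := integrable_pow ha2 (N := fun z => NP x r n' E z) hdep1
      have i2 := integrable_pow ha2 (N := fun z => NP x r n' E (dual z)) hdep2
      have b1 := h1 x n' hn'1 E (fun z => NP x r n' E z) hdep1 (fun z => hasP_NP hn'1)
      have b2 := h2 x n' hn'1 E (fun z => NP x r n' E z) hdep1 (fun z => hasP_NP hn'1)
      calc ∫ z, a ^ (NP x r n' E z + NP x r n' E (dual z)) ∂(nu hf)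
          ≤ ∫ z, ((a ^ 2) ^ NP x r n' E z + (a ^ 2) ^ NP x r n' E (dual z)) ∂(nu hf) := by
            refine integral_mono_of_nonneg (Filter.Eventually.of_forall fun z => by positivity)
              (i1.add i2) (Filter.Eventually.of_forall fun z => ?_)
            simp only
            rw [pow_add, ← pow_mul, ← pow_mul, mul_comm 2, mul_comm 2, pow_mul, pow_mul]
            nlinarith [sq_nonneg (a ^ NP x r n' E z - a ^ NP x r n' E (dual z)),
              sq_nonneg (a ^ NP x r n' E z), sq_nonneg (a ^ NP x r n' E (dual z))]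
        _ = _ := integral_add i1 i2
        _ ≤ C1 + C2 := add_le_add b1 b2
    · intro z m c hfin hdis hnear hfar
      have hm : m = ((univ : Finset (Fin m)).filter fun i => Hv (JL z (c i)) (c i).1 ≠ 0).card +
          ((univ : Finset (Fin m)).filter fun i => ¬ Hv (JL z (c i)) (c i).1 ≠ 0).card := by
        rw [Finset.card_filter_add_card_filter_not]
        simp
      rw [hm]
      refine add_le_add ?_ ?_
      · refine card_le_NP hn'1 _ (fun i => cT z x R (c i).1) ?_ ?_ ?_
        · intro i _ e he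
          exact ⟨(mem_filter.1 he).1, (mem_filter.1 he).2.1⟩
        · intro i hi j hj hij
          refine cT_disj fun hrch => hdis i j hij ?_
          exact inj_in (hfin i) (hfin j) (mem_filter.1 hi).2 (mem_filter.1 hj).2 hrch
        · intro i _
          obtain ⟨d, hd, hd2⟩ := exists_half (hfar i)
          have p1 : Piece x ((κ * n + 1 : ℕ) : ℤ) n' (cT z x R (c i).1) := by
            refine piece_of_path ?_ (by omega) (rch_strand hd) ?_
            · have := hnear i
              push_cast at this ⊢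
              linarith
            · have : (2 * n' + 2 : ℤ) ≤ n := by exact_mod_cast hn'2
              linarith
          exact piece_mono p1 (by exact_mod_cast hr1)
      · refine card_le_NP hn'1 _ (fun i => cT (dual z) x R (fc (c i))) ?_ ?_ ?_
        · intro i _ e he
          exact ⟨(mem_filter.1 he).1, (mem_filter.1 he).2.1⟩
        · intro i hi j hj hij
          refine cT_disj fun hrch => hdis i j hij ?_
          exact inj_out (hfin i) (hfin j) (not_not.1 (mem_filter.1 hi).2)
            (not_not.1 (mem_filter.1 hj).2) (rchd_iff.2 hrch)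
        · intro i _
          obtain ⟨d, hd, hd2⟩ := exists_half (hfar i)
          have p1 : Piece x ((κ * n + 1 : ℕ) : ℤ) n' (cT (dual z) x R (fc (c i))) := by
            refine piece_of_path ?_ (by omega) (rchd_iff.1 (rchd_strand hd)) ?_
            · have := hnear i
              have h5 := sd_fc_le x (c i)
              push_cast at this ⊢
              linarith
            · have : (2 * n' + 2 : ℤ) ≤ n := by exact_mod_cast hn'2
              have h5 := sd_fc_ge (c i) d
              linarith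
          exact piece_mono p1 (by exact_mod_cast hr1)

theorem inn_eq {z : Cfz} {c d : Corner} (h : d ∈ Lp z c) : inn z d = inn z c := by
  unfold inn
  rw [JL_eq h]

/-- `A` is the interior of a finite loop of `z`, meets the ball `B(x,n)` but does not contain it,
and `dia A + 1 ≥ n/2` -/
def Big (z : Cfz) (x : P2) (n : ℕ) (A : Set (P2 × Bool)) : Prop :=
  (∃ c, (Lp z c).Finite ∧ A = inn z c) ∧ (∃ p ∈ A, sd x p.1 ≤ n) ∧ (∃ p, p ∉ A ∧ sd x p.1 ≤ n) ∧
    ∃ q ∈ A, ∃ q' ∈ A, (n : ℤ) ≤ 2 * (sd q.1 q'.1 + 1)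

open Classical in
/-- **(L7)** exponential moments of the number of loops which split `B(x,n)` and have
`dia A + 1 ≥ n/2`. -/
theorem exp_loops_int (a : ℝ) (ha : 1 ≤ a) : ∃ C : ℝ, 1 ≤ C ∧
    ∀ (x : P2) (n : ℕ), 1 ≤ n → ∃ K : Cfz → ℕ,
      (∀ z z' : Cfz, (∀ e ∈ starE x (2 * n), z e = z' e) → K z = K z') ∧
      ∫ z, a ^ K z ∂(nu hf) ≤ C ∧
      ∀ (z : Cfz) (s : Finset (Set (P2 × Bool))), (∀ A ∈ s, Big z x n A) → s.card ≤ K z := by
  obtain ⟨C1, hC1, h1⟩ := exp_loops a ha 7
  obtain ⟨D, hD⟩ : ∃ D : ℕ, 7 * 7 * 4 ≤ D := ⟨_, le_rfl⟩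
  refine ⟨max C1 (a ^ D), le_max_of_le_left hC1, fun x n hn => ?_⟩
  -- corners of the strands
  have hch : ∀ (z : Cfz) (s : Finset (Set (P2 × Bool))), (∀ A ∈ s, Big z x n A) →
      ∃ c : Fin s.card → Corner, (∀ i, (Lp z (c i)).Finite) ∧
        (∀ i j, i ≠ j → c j ∉ Lp z (c i)) ∧ (∀ i, sd x (c i).1 ≤ n) ∧
        ∀ i, ∃ d ∈ Lp z (c i), ∃ d' ∈ Lp z (c i), (n : ℤ) ≤ 2 * (sd d.1 d'.1 + 1) := by
    intro z s hs
    have hA : ∀ A ∈ s, ∃ c, (Lp z c).Finite ∧ A = inn z c ∧ sd x c.1 ≤ n ∧
        ∃ d ∈ Lp z c, ∃ d' ∈ Lp z c, (n : ℤ) ≤ 2 * (sd d.1 d'.1 + 1) := by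
      intro A hA
      obtain ⟨⟨c, hc1, hc2⟩, ⟨p, hp1, hp2⟩, ⟨p', hp1', hp2'⟩, q, hq, q', hq', hqq⟩ := hs A hA
      subst hc2
      obtain ⟨d, hd, hd'⟩ := exists_near hc1 hp1 hp1' hp2 hp2'
      obtain ⟨e, he, e', he', hee⟩ := exists_far hc1 hq hq'
      refine ⟨d, ?_, (inn_eq hd).symm, hd', e, ?_, e', ?_, by linarith⟩
      · rw [Lp_eq hd]; exact hc1
      · rw [Lp_eq hd]; exact he
      · rw [Lp_eq hd]; exact he'
    choose! c hc1 hc2 hc3 hc4 using hA
    refine ⟨fun i => c (s.equivFin.symm i), fun i => hc1 _ (s.equivFin.symm i).2, ?_,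
      fun i => hc3 _ (s.equivFin.symm i).2, fun i => hc4 _ (s.equivFin.symm i).2⟩
    intro i j hij hm
    apply hij
    have h2 := inn_eq hm
    rw [← hc2 _ (s.equivFin.symm i).2, ← hc2 _ (s.equivFin.symm j).2] at h2
    exact (s.equivFin.symm.injective (Subtype.ext h2)).symm
  by_cases hn4 : n < 4
  · refine ⟨fun _ => D, fun _ _ _ => rfl, ?_, ?_⟩
    · refine le_max_of_le_right (le_of_eq ?_)
      simp [nu]
    · intro z s hs
      obtain ⟨c, _, hdis, hnear, _⟩ := hch z s hs
      have hinj : Function.Injective c := by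
        intro i j hij
        by_contra hne
        exact hdis i j hne (hij ▸ mem_Lp_self z (c i))
      have h7 : 2 * n + 1 ≤ 7 := by omega
      exact ((card_corners c hinj hnear).trans
        (Nat.mul_le_mul (Nat.mul_le_mul h7 h7) le_rfl)).trans hD
  · push Not at hn4
    obtain ⟨n', hn'1, hn'2, hn'3⟩ : ∃ n' : ℕ, 1 ≤ n' ∧ 4 * n' ≤ n ∧ n ≤ 7 * n' :=
      ⟨n / 4, by omega, by omega, by omega⟩
    obtain ⟨K, hK1, hK2, hK3⟩ := h1 x n' hn'1
    refine ⟨K, fun z z' h => hK1 z z' fun e he => h e (starE_mono (by omega) he),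
      le_max_of_le_left hK2, fun z s hs => ?_⟩
    obtain ⟨c, hfin, hdis, hnear, hfar⟩ := hch z s hs
    refine hK3 z _ c hfin hdis (fun i => (hnear i).trans (by exact_mod_cast hn'3)) fun i => ?_
    obtain ⟨d, hd, d', hd', h2⟩ := hfar i
    exact ⟨d, hd, d', hd', by omega⟩

/-- set version -/
theorem ncard_le_of_finset {α : Type*} {S : Set α} {k : ℕ}
    (h : ∀ s : Finset α, (∀ A ∈ s, A ∈ S) → s.card ≤ k) : S.Finite ∧ S.ncard ≤ k := by
  have hfin : S.Finite := by
    by_contra hinf
    obtain ⟨t, ht, hcard⟩ := Set.Infinite.exists_subset_card_eq (hs := hinf) (k + 1)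
    have := h t fun A hA => ht hA
    omega
  refine ⟨hfin, ?_⟩
  rw [Set.ncard_eq_toFinset_card S hfin]
  exact h _ fun A hA => hfin.mem_toFinset.1 hA

end Crest.Agent.R158.Lc522
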