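import Crest.Agent.R158.Vx3_107
import Crest.Agent.R158.Rs3_689

/-!
# R158, Block V (helper107), file 4: direct reading, integration, the identity (ID)

* `Oth z c`, `W_at`, `Dr m c z`, `V0`, `V0_neg` : the loop through the corner `c` singled out
* `V3`       : a charge `π` may be moved along an edge
* `V3_path`  : a charge `π` may be moved between any two vertices (all strands finite)
* `abs_W_le`, `measurable_W`, `integrable_W`
-/

set_option autoImplicit false

noncomputable section

namespace Crest.Agent.R158.Vx107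

open Crest.Agent.R161.Geo729 Crest.Agent.R161.Dual374
open Crest.Agent.R161.Tas682 (sd)
open Crest.Agent.R158.It200 Crest.Agent.R158.Wf850
open Crest.Agent.R158.Rs689 (nu)
open Function Real MeasureTheory Filter

/-- the loops of `z` which do not pass at the corner `c` -/
def Oth (z : Cfz) (c : Corner) : Set (Finset Face) := {A | A ∈ Lps z ∧ ¬ sepC A c}

/-- the weight of the other loops -/
def OP (m : Face →₀ ℝ) (z : Cfz) (c : Corner) : ℝ := ∏ᶠ A ∈ Oth z c, Fw (mass m A)

/-- direct reading at the corner `c` -/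
def Dr (m : Face →₀ ℝ) (c : Corner) (z : Cfz) : ℝ :=
  (sg z c : ℝ) * Sw (sg z c * th m z c) * OP m z c

theorem lps_at {z : Cfz} {c : Corner} (hfin : (Lp z c).Finite) {A : Finset Face}
    (hA : ∀ f, f ∈ A ↔ ht z c f ≠ 0) : Lps z = insert A (Oth z c) ∧ A ∉ Oth z c := by
  have hAL : A ∈ Lps z := ⟨_, hfin, hA⟩
  have s1 : sepC A c := (sep_iff hfin hA _).2 (mem_Lp_self _ _)
  refine ⟨?_, fun h => h.2 s1⟩
  ext B
  constructor
  · intro hB
    by_cases b1 : sepC B c
    · exact Or.inl (sep_uniq hB hAL b1 s1)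
    · exact Or.inr ⟨hB, b1⟩
  · rintro (rfl | hB)
    · exact hAL
    · exact hB.1

theorem oth_sub (z : Cfz) (c : Corner) : Oth z c ⊆ Lps z := fun _ h => h.1

/-- factorisation at a corner -/
theorem W_at {z : Cfz} {c : Corner} (hfin : (Lp z c).Finite) {m : Face →₀ ℝ} (hm : Ntr m) :
    W m z = Fw (sg z c * th m z c) * OP m z c := by
  obtain ⟨A, -, hA⟩ := exists_int hfin
  obtain ⟨h1, h2⟩ := lps_at hfin hA
  unfold W OP
  rw [h1, finprod_mem_insert' _ h2 (fin_supp hm (oth_sub z c)), mass_eq hfin hA]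

theorem OP_add {m x : Face →₀ ℝ} {z : Cfz} {c : Corner} (h : ∀ A ∈ Oth z c, mass x A = 0) :
    OP (m + x) z c = OP m z c := by
  unfold OP
  refine finprod_mem_congr rfl fun A hA => ?_
  rw [mass_add, h A hA, add_zero]

theorem mass_dC_oth {z : Cfz} {c : Corner} {A : Finset Face} (hA : A ∈ Oth z c) (r : ℝ) :
    mass (r • dC c) A = 0 := by
  have h := hA.2
  unfold sepC at h
  rw [not_not] at h
  rw [mass_smul]
  unfold dC
  rw [mass_pair h.symm, mul_zero]

/-- **V0** -/
theorem V0 {z : Cfz} {c : Corner} (hfin : (Lp z c).Finite) {m : Face →₀ ℝ} (hm : Ntr m) :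
    W (m + (π / 2) • dC c) z = -Dr m c z := by
  rw [W_at hfin (hm.add ((ntr_dC c).smul _)), OP_add (fun A hA => mass_dC_oth hA _), th_add,
    th_smul, th_dC hfin c, JL_mem (mem_Lp_self _ _), Int.cast_one, mul_one,
    Fw_sg_add (sg_one' hfin)]
  unfold Dr
  ring

theorem V0_neg {z : Cfz} {c : Corner} (hfin : (Lp z c).Finite) {m : Face →₀ ℝ} (hm : Ntr m) :
    W (m + (-(π / 2)) • dC c) z = Dr m c z := by
  rw [W_at hfin (hm.add ((ntr_dC c).smul _)), OP_add (fun A hA => mass_dC_oth hA _), th_add,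
    th_smul, th_dC hfin c, JL_mem (mem_Lp_self _ _), Int.cast_one, mul_one, ← sub_eq_add_neg,
    Fw_sg_sub (sg_one' hfin)]
  unfold Dr
  ring

/-- the charge in `Dr` is the mass inside the loop -/
theorem Dr_eq {z : Cfz} {c : Corner} (hfin : (Lp z c).Finite) {A : Finset Face}
    (hA : ∀ f, f ∈ A ↔ ht z c f ≠ 0) (m : Face →₀ ℝ) :
    Dr m c z = (sg z c : ℝ) * Sw (mass m A) * OP m z c := by
  unfold Dr; rw [mass_eq hfin hA]

/-- **V3** : a charge `π` may be moved along an edge -/
theorem V3 {z : Cfz} {e : Edge} (h1 : (Lp z (i1 e)).Finite) (h2 : (Lp z (i2 e)).Finite)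
    {m : Face →₀ ℝ} (hm : Ntr m) : W (m + π • dE e) z = W m z := by
  cases he : z e with
  | true => exact W_dE_open h1 h2 he hm π
  | false =>
      by_cases h : i2 e ∈ Lp z (i1 e)
      · exact W_dE_one h1 h hm π
      · have hne' : i1 e ∉ Lp z (i2 e) := fun h' => h h'.symm
        rw [W_two_add h1 h2 h hm ((ntr_dE e).smul _) (loc0_smul (loc0_dE z e) _), th_smul, th_smul,
          th_dE_closed h1 he, th_dE_closed h2 he, JL_mem (mem_Lp_self z (i1 e)), JL_not_mem h,
          JL_mem (mem_Lp_self z (i2 e)), JL_not_mem hne', Int.cast_one, Int.cast_zero, sub_zero,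
          zero_sub, mul_one, mul_neg, mul_one, W_two h1 h2 h hm]
        have k1 : Fw (sg z (i1 e) * (th m z (i1 e) + -π)) = -Fw (sg z (i1 e) * th m z (i1 e)) := by
          rcases sg_one' h1 with hs | hs <;> rw [hs]
          · rw [one_mul, one_mul, ← sub_eq_add_neg, Fw_sub_pi]
          · rw [show (-1 : ℝ) * (th m z (i1 e) + -π) = -1 * th m z (i1 e) + π by ring, Fw_add_pi]
        have k2 : Fw (sg z (i2 e) * (th m z (i2 e) + π)) = -Fw (sg z (i2 e) * th m z (i2 e)) := by
          rcases sg_one' h2 with hs | hs <;> rw [hs]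
          · rw [one_mul, one_mul, Fw_add_pi]
          · rw [show (-1 : ℝ) * (th m z (i2 e) + π) = -1 * th m z (i2 e) - π by ring, Fw_sub_pi]
        rw [k1, k2]
        ring


/-- all the strands are finite -/
def AllFin (z : Cfz) : Prop := ∀ c, (Lp z c).Finite

/-- unit charges: vertex `u` minus vertex `v` -/
def dV (u v : P2) : Face →₀ ℝ := Finsupp.single (u, false) 1 - Finsupp.single (v, false) 1

theorem ntr_dV (u v : P2) : Ntr (dV u v) := by
  unfold Ntr dV; rw [tot_sub, tot_single, tot_single, sub_self]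

theorem dV_self (u : P2) : dV u u = 0 := sub_self _

theorem dV_add (u v w : P2) : dV u v + dV v w = dV u w := by unfold dV; abel

theorem dV_neg (u v : P2) : -dV u v = dV v u := by unfold dV; abel

/-- the charge `π` may be moved from `v` to `u` -/
def Mv (z : Cfz) (u v : P2) : Prop := ∀ m : Face →₀ ℝ, Ntr m → W (m + π • dV u v) z = W m z

theorem Mv.trans {z : Cfz} {u v w : P2} (h1 : Mv z u v) (h2 : Mv z v w) : Mv z u w := by
  intro m hm
  rw [← dV_add u v w, smul_add, ← add_assoc, h2 _ (hm.add ((ntr_dV u v).smul _)), h1 m hm]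

theorem Mv.symm {z : Cfz} {u v : P2} (h1 : Mv z u v) : Mv z v u := by
  intro m hm
  rw [← h1 _ (hm.add ((ntr_dV v u).smul _)), add_assoc, ← smul_add, dV_add, dV_self, smul_zero,
    add_zero]

theorem Mv.refl (z : Cfz) (u : P2) : Mv z u u := by
  intro m _
  rw [dV_self, smul_zero, add_zero]

theorem mv_edge {z : Cfz} (hz : AllFin z) (e : Edge) : Mv z (src e) (tgt e) := fun _ hm =>
  V3 (hz _) (hz _) hm

theorem mv_x {z : Cfz} (hz : AllFin z) (x y : ℤ) (n : ℕ) : Mv z (x, y) (x + n, y) := by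
  induction n with
  | zero => rw [Nat.cast_zero, add_zero]; exact Mv.refl _ _
  | succ n ih =>
      refine ih.trans ?_
      have h := mv_edge hz ((x + n, y), false)
      have h2 : tgt ((x + n, y), false) = (x + n + 1, y) := rfl
      rw [h2] at h
      have h3 : (x + (n + 1 : ℕ), y) = (x + n + 1, y) := by push_cast; rw [add_assoc]
      rw [h3]; exact h

theorem mv_y {z : Cfz} (hz : AllFin z) (x y : ℤ) (n : ℕ) : Mv z (x, y) (x, y + n) := by
  induction n with
  | zero => rw [Nat.cast_zero, add_zero]; exact Mv.refl _ _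
  | succ n ih =>
      refine ih.trans ?_
      have h := mv_edge hz ((x, y + n), true)
      have h2 : tgt ((x, y + n), true) = (x, y + n + 1) := rfl
      rw [h2] at h
      have h3 : (x, y + (n + 1 : ℕ)) = (x, y + n + 1) := by push_cast; rw [add_assoc]
      rw [h3]; exact h

/-- **V3 along paths** -/
theorem V3_path {z : Cfz} (hz : AllFin z) (u v : P2) : Mv z u v := by
  obtain ⟨x, y⟩ := u
  obtain ⟨x', y'⟩ := v
  have hx : Mv z (x, y) (x', y) := by
    rcases le_total x x' with h | h
    · have := mv_x hz x y (x' - x).toNat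
      rwa [Int.toNat_of_nonneg (by omega), add_sub_cancel] at this
    · have := mv_x hz x' y (x - x').toNat
      rw [Int.toNat_of_nonneg (by omega), add_sub_cancel] at this
      exact this.symm
  have hy : Mv z (x', y) (x', y') := by
    rcases le_total y y' with h | h
    · have := mv_y hz x' y (y' - y).toNat
      rwa [Int.toNat_of_nonneg (by omega), add_sub_cancel] at this
    · have := mv_y hz x' y' (y - y').toNat
      rw [Int.toNat_of_nonneg (by omega), add_sub_cancel] at this
      exact this.symm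
  exact hx.trans hy

/-! ### reading with the charge `-π` at a vertex -/

/-- the charge `μ - π δ_v` -/
def chv (μ : Face →₀ ℝ) (v : P2) : Face →₀ ℝ := μ - Finsupp.single (v, false) π

theorem ntr_chv {μ : Face →₀ ℝ} (h : tot μ = π) (v : P2) : Ntr (chv μ v) := by
  unfold Ntr chv; rw [tot_sub, tot_single, h, sub_self]

theorem chv_add (μ : Face →₀ ℝ) (u v : P2) : chv μ u + π • dV u v = chv μ v := by
  unfold chv dV
  rw [smul_sub, Finsupp.smul_single, Finsupp.smul_single, smul_eq_mul, mul_one]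
  abel

theorem mass_chv (μ : Face →₀ ℝ) (v : P2) (A : Finset Face) [Decidable ((v, false) ∈ A)] :
    mass (chv μ v) A = if (v, false) ∈ A then mass μ A - π else mass μ A := by
  unfold chv
  rw [mass_sub, mass_single]
  split_ifs
  · rfl
  · rw [sub_zero]


/-- the factor of another loop, base point `v` -/
def Fv (μ : Face →₀ ℝ) (v : P2) (A : Finset Face) : ℝ := Fw (mass (chv μ v) A)

open Classical in
theorem Fv_eq (μ : Face →₀ ℝ) (v : P2) (A : Finset Face) :
    Fv μ v A = if (v, false) ∈ A then -Fw (mass μ A) else Fw (mass μ A) := by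
  unfold Fv
  rw [mass_chv]
  split_ifs
  · rw [Fw_sub_pi]
  · rfl

theorem Sw_sub_pi (x : ℝ) : Sw (x - π) = -Sw x := by
  unfold Sw
  rw [show π / 3 + (x - π) = π / 3 + x - π by ring, Real.sin_sub_pi]; ring

/-- **(X1), the pointwise form of the direct reading**: base point at the vertex of the corner -/
theorem Dr_base {z : Cfz} {c : Corner} (hfin : (Lp z c).Finite) {A : Finset Face}
    (hA : ∀ f, f ∈ A ↔ ht z c f ≠ 0) (μ : Face →₀ ℝ) :
    Dr (chv μ c.1) c z = Sw (mass μ A) * ∏ᶠ B ∈ Oth z c, Fv μ c.1 B := by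
  classical
  rw [Dr_eq hfin hA, mass_chv]
  have e0 : OP (chv μ c.1) z c = ∏ᶠ B ∈ Oth z c, Fv μ c.1 B := rfl
  rw [e0]
  have h1 : (c.1, false) ∈ A ↔ hv z c c.1 ≠ 0 := by
    rw [hA]
    have : ht z c (c.1, false) = hv z c c.1 := ht_false _ _ _
    rw [this]
  rcases sg_cases hfin with ⟨h0, h2, -⟩ | ⟨h0, h2, -⟩
  · have h3 := (h2 c (mem_Lp_self _ _)).1
    rw [if_pos (h1.2 (by rw [h3]; norm_num)), h0, Sw_sub_pi]
    push_cast; ring
  · have h3 := (h2 c (mem_Lp_self _ _)).1
    rw [if_neg (fun h => h1.1 h h3), h0]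
    push_cast; ring

/-- the direct reading does not depend on the base point -/
theorem Dr_chv {z : Cfz} (hz : AllFin z) {μ : Face →₀ ℝ} (h : tot μ = π) (c : Corner) (u v : P2) :
    Dr (chv μ u) c z = Dr (chv μ v) c z := by
  have h1 := V0 (hz c) (ntr_chv h u)
  have h2 := V0 (hz c) (ntr_chv h v)
  have h3 := V3_path hz u v _ ((ntr_chv h u).add ((ntr_dC c).smul (π / 2)))
  rw [add_right_comm, chv_add, h2, h1] at h3
  linarith

/-! ### measurability and boundedness -/

/-- corners near the origin -/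
def nc (n : ℤ) : ℕ := (Crest.Agent.R158.Fr158.bx (0, 0) n ×ˢ (Finset.univ : Finset (Fin 4))).card

theorem card_mass {m : Face →₀ ℝ} (hm : Ntr m) {n : ℤ} (hn : m.support ⊆ BF (0, 0) n) (z : Cfz)
    {T : Finset (Finset Face)} (hT : ∀ A ∈ T, A ∈ Lps z ∧ mass m A ≠ 0) : T.card ≤ nc n := by
  classical
  have h1 : ∀ A : T, ∃ d : Corner, cv d ∈ BF (0, 0) n ∧ cf d ∈ BF (0, 0) n ∧ sepC A.1 d :=
    fun A => exists_sep (splits_of_mass hm hn (hT A.1 A.2).2)
  choose φ hφ using h1
  have h2 : Function.Injective φ := by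
    intro A B h
    exact Subtype.ext (sep_uniq (hT A.1 A.2).1 (hT B.1 B.2).1 (hφ A).2.2
      (by rw [h]; exact (hφ B).2.2))
  have h3 : (Finset.univ.image φ) ⊆
      (Crest.Agent.R158.Fr158.bx (0, 0) n ×ˢ (Finset.univ : Finset (Fin 4))) := by
    intro d hd
    rw [Finset.mem_image] at hd
    obtain ⟨A, -, rfl⟩ := hd
    rw [Finset.mem_product]
    refine ⟨?_, Finset.mem_univ _⟩
    have := (hφ A).1
    rw [mem_BF] at this
    rw [Crest.Agent.R158.Fr158.mem_bx_sd]
    exact this
  have h4 := Finset.card_le_card h3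
  rw [Finset.card_image_of_injective _ h2, Finset.card_univ, Fintype.card_coe] at h4
  exact h4

theorem abs_W_le {m : Face →₀ ℝ} (hm : Ntr m) : ∃ K : ℝ, ∀ z, |W m z| ≤ K := by
  obtain ⟨n, hn⟩ := exists_box m
  refine ⟨2 ^ nc n, fun z => ?_⟩
  have hfin := fin_supp hm (S := Lps z) (le_refl _)
  unfold W
  rw [finprod_mem_eq_prod _ hfin, Finset.abs_prod]
  have h1 : ∀ A ∈ hfin.toFinset, A ∈ Lps z ∧ mass m A ≠ 0 := by
    intro A hA
    rw [Set.Finite.mem_toFinset] at hA
    refine ⟨hA.1, fun h => hA.2 ?_⟩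
    show Fw (mass m A) = 1
    rw [h, Fw_zero]
  calc ∏ A ∈ hfin.toFinset, |Fw (mass m A)| ≤ ∏ _A ∈ hfin.toFinset, (2 : ℝ) :=
        Finset.prod_le_prod (fun _ _ => abs_nonneg _) fun _ _ => abs_Fw_le _
    _ = 2 ^ hfin.toFinset.card := by rw [Finset.prod_const]
    _ ≤ 2 ^ nc n := pow_le_pow_right₀ (by norm_num) (card_mass hm hn z h1)

theorem measurable_W {m : Face →₀ ℝ} (hm : Ntr m) : Measurable (W m) := by
  classical
  set P : ℕ → Cfz → ℝ := fun n z => ∏ A ∈ (BF (0, 0) n).powerset,
    if A ∈ Lps z then Fw (mass m A) else 1 with hP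
  have h1 : ∀ n, Measurable (P n) := by
    intro n
    refine Finset.measurable_prod _ fun A _ => ?_
    exact Measurable.ite (meas_lps A) measurable_const measurable_const
  refine measurable_of_tendsto_metrizable h1 ?_
  rw [tendsto_pi_nhds]
  intro z
  have hfin := fin_supp hm (S := Lps z) (le_refl _)
  -- all the relevant loops are contained in a large box
  obtain ⟨N, hN⟩ : ∃ N : ℕ, ∀ A ∈ hfin.toFinset, A ⊆ BF (0, 0) N := by
    have h2 : ∀ A : Finset Face, ∃ N : ℕ, A ⊆ BF (0, 0) N := by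
      intro A
      refine ⟨(∑ f ∈ A, sd (0, 0) f.1).toNat, fun f hf => ?_⟩
      rw [mem_BF]
      refine le_trans ?_ (Int.self_le_toNat _)
      exact Finset.single_le_sum (f := fun f : Face => sd (0, 0) f.1) (fun g _ => sd_nonneg _ _) hf
    choose N hN using h2
    refine ⟨∑ A ∈ hfin.toFinset, N A, fun A hA => (hN A).trans (BF_mono ?_)⟩
    exact_mod_cast Finset.single_le_sum (f := N) (fun _ _ => Nat.zero_le _) hA
  refine tendsto_const_nhds.congr' ?_
  filter_upwards [eventually_ge_atTop N] with n hn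
  rw [hP]
  dsimp only
  unfold W
  rw [finprod_mem_eq_prod _ hfin]
  refine Finset.prod_subset_one_on_sdiff (f := fun A => Fw (mass m A)) ?_ ?_ ?_
  · intro A hA
    rw [Finset.mem_powerset]
    exact (hN A hA).trans (BF_mono (by exact_mod_cast hn))
  · intro A hA
    rw [Finset.mem_sdiff, Set.Finite.mem_toFinset] at hA
    by_cases h : A ∈ Lps z
    · rw [if_pos h]
      by_contra h'
      exact hA.2 ⟨h, h'⟩
    · rw [if_neg h]
  · intro A hA
    rw [Set.Finite.mem_toFinset] at hA
    rw [if_pos hA.1]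

theorem integrable_W {m : Face →₀ ℝ} (hm : Ntr m) (μ : Measure Cfz) [IsFiniteMeasure μ] :
    Integrable (W m) μ := by
  obtain ⟨K, hK⟩ := abs_W_le hm
  exact Integrable.of_bound (measurable_W hm).aestronglyMeasurable K
    (Filter.Eventually.of_forall fun z => by rw [Real.norm_eq_abs]; exact hK z)

end Crest.Agent.R158.Vx107
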