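import Crest.Agent.R158.Wf2_850
import Crest.Agent.R158.Hd1_109
import Crest.Agent.R158.Vx4_107
import Crest.Agent.R158.Lc2_522
import Crest.Agent.R158.Lc4_522

-- ▼ part R158/Gx1_31
section

/-!
# Row 158, Block A4 (helper31), file 1: GU and GL, objects at arbitrary centres

Finitely many smeared objects `i` (`V i : Finset Face`, density `u i`, amplitude `a i`, level `κ i`)
and any other charges. A loop `A` is *local* at `i` if it meets `V i` and `dia A + 1 < 2 ^ κ i`.

* `Sys κ V u a m`  : the charge configuration `m` restricted to `V i` is `a i * u i`, all the other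
  charges are at distance `≥ 2 ^ κ i - 1` of `V i`
* `Loc κ V z`      : the local loops (a `Finset`)
* `mass_loc`       : `mass m A = a i * share`
* `GU`, `GLow`     : the product over the local loops is `exp (- √3 ∑ a i VV (κ i) ± Err)`
* `free_le`, `free_ge` : crude bounds for the product over the other loops
-/

set_option autoImplicit false

noncomputable section

namespace Crest.Agent.R158.Gx31

open Real Function
open Crest.Agent.R161.Tas682 (sd)
open Crest.Agent.R158.It200 (Cfz)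
open Crest.Agent.R158.Wf850 (Lps Face)
open Crest.Agent.R158.Vx107 (Fw Ntr W)
open Crest.Agent.R158.Cn109 (SS QQ lsW smalls mem_smalls VV SS_eq)
open Crest.Agent.R158.Hd109 (Dens Err)

/-! ### weights -/


theorem abs_Fw_le_exp (x : ℝ) : |Fw x| ≤ exp (-(√3 * x) + 12 * x ^ 2) := Wf850.ff_abs_le x

theorem Fw_lower {lo hi : ℝ} (h1 : -(5 * π / 6) < lo) (h2 : hi < π / 6) :
    ∃ C : ℝ, 0 ≤ C ∧ ∀ x, lo ≤ x → x ≤ hi → exp (-(√3 * x) - C * x ^ 2) ≤ Fw x :=
  Wf850.ff_lower h1 h2

/-! ### systems of objects -/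

/-- the charge configuration `m` restricted to `V i` is `a i * u i`, the rest is far from `V i` -/
structure Sys {ι : Type*} (κ : ι → ℕ) (V : ι → Finset Face) (u : ι → Face → ℝ) (a : ι → ℝ)
    (m : Face →₀ ℝ) : Prop where
  nn : ∀ i, ∀ v ∈ V i, 0 ≤ u i v
  sum : ∀ i, ∑ v ∈ V i, u i v = 1
  val : ∀ i, ∀ v ∈ V i, m v = a i * u i v
  sepV : ∀ i j, i ≠ j → ∀ v ∈ V i, ∀ w ∈ V j, (2 : ℤ) ^ κ i ≤ sd v.1 w.1 + 1
  sepm : ∀ i, ∀ v ∈ V i, ∀ w, m w ≠ 0 → w ∉ V i → (2 : ℤ) ^ κ i ≤ sd v.1 w.1 + 1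

/-- share of the density inside `A` -/
abbrev shr (u : Face → ℝ) (V : Finset Face) (A : Finset Face) : ℝ := Cn109.mass u V A

theorem shr_nonneg {u : Face → ℝ} {V : Finset Face} (h : ∀ v ∈ V, 0 ≤ u v) (A : Finset Face) :
    0 ≤ shr u V A := Cn109.mass_nonneg h A


section sys

variable {ι : Type*} {κ : ι → ℕ} {V : ι → Finset Face} {u : ι → Face → ℝ} {a : ι → ℝ}
  {m : Face →₀ ℝ}

theorem Sys.mass_eq (h : Sys κ V u a m) {i : ι} {A : Finset Face} (hA : ∃ v ∈ V i, v ∈ A)
    (hd : Cn109.dia A + 1 < 2 ^ κ i) : Vx107.mass m A = a i * shr (u i) (V i) A := by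
  classical
  obtain ⟨v, hv, hvA⟩ := hA
  have h0 : ∀ w ∈ A, w ∉ V i → m w = 0 := by
    intro w hw hwV
    by_contra hne
    have h1 := h.sepm i v hv w hne hwV
    have h2 := Cn109.sd_le_dia hvA hw
    have h3 : ((Cn109.dia A + 1 : ℕ) : ℤ) < ((2 ^ κ i : ℕ) : ℤ) := by exact_mod_cast hd
    push_cast at h3
    linarith
  unfold Vx107.mass shr Cn109.mass
  rw [Finset.mul_sum]
  calc ∑ f ∈ A, m f = ∑ f ∈ A with f ∈ V i, m f := by
        rw [Finset.sum_filter]
        refine Finset.sum_congr rfl fun w hw => ?_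
        split_ifs with hwV
        · rfl
        · exact h0 w hw hwV
    _ = ∑ f ∈ V i with f ∈ A, m f := by
        refine Finset.sum_congr ?_ fun _ _ => rfl
        ext f
        simp only [Finset.mem_filter]
        tauto
    _ = ∑ f ∈ V i with f ∈ A, a i * u i f :=
        Finset.sum_congr rfl fun f hf => h.val i f (Finset.mem_filter.1 hf).1

theorem Sys.loc_mass (h : Sys κ V u a m) {i : ι} {A : Finset Face} {z : Cfz}
    (hA : A ∈ smalls lsW (V i) (κ i) z) : Vx107.mass m A = a i * shr (u i) (V i) A := by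
  rw [mem_smalls] at hA
  exact h.mass_eq hA.2.1 hA.2.2

theorem Sys.disj (h : Sys κ V u a m) (z : Cfz) {i j : ι} (hij : i ≠ j) :
    Disjoint (smalls lsW (V i) (κ i) z) (smalls lsW (V j) (κ j) z) := by
  rw [Finset.disjoint_left]
  intro A hA hA'
  rw [mem_smalls] at hA hA'
  obtain ⟨v, hv, hvA⟩ := hA.2.1
  obtain ⟨w, hw, hwA⟩ := hA'.2.1
  have h1 := h.sepV i j hij v hv w hw
  have h2 := Cn109.sd_le_dia hvA hwA
  have h3 : ((Cn109.dia A + 1 : ℕ) : ℤ) < ((2 ^ κ i : ℕ) : ℤ) := by exact_mod_cast hA.2.2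
  push_cast at h3
  linarith

open Classical in
/-- the local loops -/
def Loc [Fintype ι] (κ : ι → ℕ) (V : ι → Finset Face) (z : Cfz) : Finset (Finset Face) :=
  Finset.univ.biUnion fun i => smalls lsW (V i) (κ i) z

theorem mem_Loc [Fintype ι] {z : Cfz} {A : Finset Face} :
    A ∈ Loc κ V z ↔ ∃ i, A ∈ smalls lsW (V i) (κ i) z := by
  classical
  simp [Loc]

theorem mem_Loc' [Fintype ι] {z : Cfz} {A : Finset Face} :
    A ∈ Loc κ V z ↔ A ∈ Lps z ∧ ∃ i, (∃ v ∈ V i, v ∈ A) ∧ Cn109.dia A + 1 < 2 ^ κ i := by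
  rw [mem_Loc]
  constructor
  · rintro ⟨i, hi⟩
    rw [mem_smalls] at hi
    exact ⟨hi.1, i, hi.2⟩
  · rintro ⟨h1, i, h2⟩
    exact ⟨i, (mem_smalls lsW).2 ⟨h1, h2⟩⟩

theorem Loc_sub [Fintype ι] {z : Cfz} {A : Finset Face} (h : A ∈ Loc κ V z) : A ∈ Lps z :=
  (mem_Loc'.1 h).1

theorem Sys.prod_Loc [Fintype ι] (h : Sys κ V u a m) (z : Cfz) (g : Finset Face → ℝ) :
    ∏ A ∈ Loc κ V z, g A = ∏ i, ∏ A ∈ smalls lsW (V i) (κ i) z, g A := by
  classical
  unfold Loc
  rw [Finset.prod_biUnion]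
  intro i _ j _ hij
  exact h.disj z hij

/-! ### the local product -/

/-- linear exponent of the local loops, at the mean -/
def Lin [Fintype ι] (a : ι → ℝ) (κ : ι → ℕ) : ℝ := √3 * ∑ i, a i * VV (κ i)

theorem local_le [Fintype ι] (κ : ι → ℕ) (V : ι → Finset Face) (u : ι → Face → ℝ) (a : ι → ℝ)
    (z : Cfz) :
    ∏ i, ∏ A ∈ smalls lsW (V i) (κ i) z, |Fw (a i * shr (u i) (V i) A)| ≤
      exp (-Lin a κ + Err (fun i => √3 * a i) (fun i => 12 * a i ^ 2) κ V u z) := by
  have h1 : ∀ i, ∏ A ∈ smalls lsW (V i) (κ i) z, |Fw (a i * shr (u i) (V i) A)| ≤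
      exp (-(√3 * (a i * SS lsW (u i) (V i) (κ i) z)) +
        12 * a i ^ 2 * QQ lsW (u i) (V i) (κ i) z) := by
    intro i
    calc ∏ A ∈ smalls lsW (V i) (κ i) z, |Fw (a i * shr (u i) (V i) A)|
        ≤ ∏ A ∈ smalls lsW (V i) (κ i) z, exp (-(√3 * (a i * shr (u i) (V i) A)) +
            12 * (a i * shr (u i) (V i) A) ^ 2) :=
          Finset.prod_le_prod (fun _ _ => abs_nonneg _) fun A _ => abs_Fw_le_exp _
      _ = _ := by
          rw [← exp_sum, Finset.sum_add_distrib, Finset.sum_neg_distrib, ← Finset.mul_sum,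
            ← Finset.mul_sum, ← Finset.mul_sum, ← SS_eq]
          congr 2
          unfold QQ
          rw [mul_assoc, Finset.mul_sum (a := a i ^ 2)]
          congr 1
          exact Finset.sum_congr rfl fun A _ => mul_pow _ _ _
  calc _ ≤ ∏ i, exp (-(√3 * (a i * SS lsW (u i) (V i) (κ i) z)) +
        12 * a i ^ 2 * QQ lsW (u i) (V i) (κ i) z) :=
        Finset.prod_le_prod (fun i _ => Finset.prod_nonneg fun _ _ => abs_nonneg _) fun i _ => h1 i
    _ = exp (∑ i, (-(√3 * (a i * SS lsW (u i) (V i) (κ i) z)) +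
        12 * a i ^ 2 * QQ lsW (u i) (V i) (κ i) z)) := (exp_sum _ _).symm
    _ ≤ _ := by
        apply exp_le_exp.2
        unfold Lin Err
        rw [Finset.mul_sum, ← Finset.sum_neg_distrib, ← Finset.sum_add_distrib]
        refine Finset.sum_le_sum fun i _ => ?_
        have h2 : -(√3 * (a i * SS lsW (u i) (V i) (κ i) z)) ≤
            -(√3 * (a i * VV (κ i))) +
              |√3 * a i| * |SS lsW (u i) (V i) (κ i) z - VV (κ i)| := by
          rw [← abs_mul]
          have h3 := neg_abs_le (√3 * a i * (SS lsW (u i) (V i) (κ i) z - VV (κ i)))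
          nlinarith
        linarith

theorem local_ge {lo hi : ℝ} (h1 : -(5 * π / 6) < lo) (h2 : hi < π / 6) :
    ∃ C : ℝ, 0 ≤ C ∧ ∀ {ι : Type} [Fintype ι] (κ : ι → ℕ) (V : ι → Finset Face)
      (u : ι → Face → ℝ) (a : ι → ℝ) (z : Cfz),
      (∀ i, ∀ A ∈ smalls lsW (V i) (κ i) z, lo ≤ a i * shr (u i) (V i) A ∧
        a i * shr (u i) (V i) A ≤ hi) →
      exp (-Lin a κ - Err (fun i => √3 * a i) (fun i => C * a i ^ 2) κ V u z) ≤
        ∏ i, ∏ A ∈ smalls lsW (V i) (κ i) z, Fw (a i * shr (u i) (V i) A) := by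
  obtain ⟨C, hC, hF⟩ := Fw_lower h1 h2
  refine ⟨C, hC, fun {ι} _ κ V u a z hsh => ?_⟩
  have h1 : ∀ i, exp (-(√3 * (a i * SS lsW (u i) (V i) (κ i) z)) -
        C * a i ^ 2 * QQ lsW (u i) (V i) (κ i) z) ≤
      ∏ A ∈ smalls lsW (V i) (κ i) z, Fw (a i * shr (u i) (V i) A) := by
    intro i
    refine le_trans (le_of_eq ?_) (Finset.prod_le_prod (fun _ _ => (exp_pos _).le) fun A hA =>
      hF _ (hsh i A hA).1 (hsh i A hA).2)
    rw [← exp_sum, Finset.sum_sub_distrib, Finset.sum_neg_distrib, ← Finset.mul_sum,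
      ← Finset.mul_sum, ← Finset.mul_sum, ← SS_eq]
    congr 2
    unfold QQ
    rw [mul_assoc, Finset.mul_sum (a := a i ^ 2)]
    congr 1
    exact Finset.sum_congr rfl fun A _ => (mul_pow _ _ _).symm
  refine le_trans ?_ (Finset.prod_le_prod (fun i _ => (exp_pos _).le) fun i _ => h1 i)
  rw [← exp_sum]
  apply exp_le_exp.2
  unfold Lin Err
  rw [Finset.mul_sum, ← Finset.sum_neg_distrib, ← Finset.sum_sub_distrib]
  refine Finset.sum_le_sum fun i _ => ?_
  have h2 : -(√3 * (a i * VV (κ i))) -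
      |√3 * a i| * |SS lsW (u i) (V i) (κ i) z - VV (κ i)| ≤
        -(√3 * (a i * SS lsW (u i) (V i) (κ i) z)) := by
    rw [← abs_mul]
    have h3 := le_abs_self (√3 * a i * (SS lsW (u i) (V i) (κ i) z - VV (κ i)))
    nlinarith
  linarith

/-! ### GU and GL -/

theorem finprod_split {S : Set (Finset Face)} {L : Finset (Finset Face)} (hL : ∀ A ∈ L, A ∈ S)
    {g : Finset Face → ℝ} (hfin : (S ∩ mulSupport g).Finite) :
    ∏ᶠ A ∈ S, g A = (∏ A ∈ L, g A) * ∏ᶠ A ∈ S \ (L : Set (Finset Face)), g A := by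
  rw [← finprod_mem_mul_sdiff' (s := (L : Set (Finset Face))) (fun A hA => hL A hA) hfin,
    finprod_mem_coe_finset]

/-- **GU** : upper bound, arbitrary centres. `S` = the loops considered (`Lps z`, `Oth z c`, ...),
`g` = the factors. -/
theorem GU [Fintype ι] (h : Sys κ V u a m) {z : Cfz} {S : Set (Finset Face)}
    (hL : ∀ A ∈ Loc κ V z, A ∈ S) {g : Finset Face → ℝ} (hfin : (S ∩ mulSupport g).Finite)
    (hg : ∀ A ∈ Loc κ V z, |g A| ≤ |Fw (Vx107.mass m A)|) :
    |∏ᶠ A ∈ S, g A| ≤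
      exp (-Lin a κ + Err (fun i => √3 * a i) (fun i => 12 * a i ^ 2) κ V u z) *
        |∏ᶠ A ∈ S \ (Loc κ V z : Set (Finset Face)), g A| := by
  rw [finprod_split hL hfin, abs_mul]
  refine mul_le_mul_of_nonneg_right ?_ (abs_nonneg _)
  rw [Finset.abs_prod]
  refine (Finset.prod_le_prod (fun _ _ => abs_nonneg _) hg).trans ?_
  rw [h.prod_Loc]
  refine le_trans (le_of_eq ?_) (local_le κ V u a z)
  exact Finset.prod_congr rfl fun i _ => Finset.prod_congr rfl fun A hA => by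
    rw [h.loc_mass hA]

/-- **GLow** : lower bound, arbitrary centres -/
theorem GLow {lo hi : ℝ} (h1 : -(5 * π / 6) < lo) (h2 : hi < π / 6) :
    ∃ C : ℝ, 0 ≤ C ∧ ∀ {ι : Type} [Fintype ι] {κ : ι → ℕ} {V : ι → Finset Face}
      {u : ι → Face → ℝ} {a : ι → ℝ} {m : Face →₀ ℝ}, Sys κ V u a m → ∀ {z : Cfz},
      (∀ i, ∀ A ∈ smalls lsW (V i) (κ i) z, lo ≤ a i * shr (u i) (V i) A ∧
        a i * shr (u i) (V i) A ≤ hi) → ∀ {S : Set (Finset Face)}, (∀ A ∈ Loc κ V z, A ∈ S) →
      ∀ {g : Finset Face → ℝ}, (S ∩ mulSupport g).Finite →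
      (∀ A ∈ Loc κ V z, Fw (Vx107.mass m A) ≤ g A) →
      0 ≤ ∏ᶠ A ∈ S \ (Loc κ V z : Set (Finset Face)), g A →
      exp (-Lin a κ - Err (fun i => √3 * a i) (fun i => C * a i ^ 2) κ V u z) *
        ∏ᶠ A ∈ S \ (Loc κ V z : Set (Finset Face)), g A ≤ ∏ᶠ A ∈ S, g A := by
  obtain ⟨C, hC, hF⟩ := local_ge h1 h2
  obtain ⟨C', hC', hF'⟩ := Fw_lower h1 h2
  refine ⟨C, hC, fun {ι} _ {κ V u a m} h {z} hsh {S} hL {g} hfin hg hfree => ?_⟩
  rw [finprod_split hL hfin]
  refine mul_le_mul_of_nonneg_right ?_ hfree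
  refine (hF κ V u a z hsh).trans ?_
  have e1 : ∏ i, ∏ A ∈ smalls lsW (V i) (κ i) z, Fw (a i * shr (u i) (V i) A) =
      ∏ A ∈ Loc κ V z, Fw (Vx107.mass m A) := by
    rw [h.prod_Loc]
    exact Finset.prod_congr rfl fun i _ => Finset.prod_congr rfl fun A hA => by
      rw [h.loc_mass hA]
  rw [e1]
  refine Finset.prod_le_prod (fun A hA => ?_) hg
  obtain ⟨i, hi⟩ := mem_Loc.1 hA
  rw [h.loc_mass hi]
  exact (exp_pos _).le.trans (hF' _ (hsh i A hi).1 (hsh i A hi).2)


end sys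

/-! ### the free loops -/


/-- crude lower bound: `c ≤ 1` for every factor which is not `1` -/
theorem free_ge {S : Set (Finset Face)} {g : Finset Face → ℝ} {F : Set (Finset Face)}
    (hF : F.Finite) (h1 : ∀ A ∈ S, A ∉ F → g A = 1) {c : ℝ} (hc0 : 0 ≤ c) (hc1 : c ≤ 1)
    (h2 : ∀ A ∈ S, c ≤ g A) : c ^ F.ncard ≤ ∏ᶠ A ∈ S, g A := by
  classical
  set T : Finset (Finset Face) := hF.toFinset.filter fun A => A ∈ S with hT
  have e1 : ∏ᶠ A ∈ S, g A = ∏ A ∈ T, g A := by
    refine finprod_mem_eq_prod_of_inter_mulSupport_eq g ?_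
    ext A
    simp only [Set.mem_inter_iff, mem_mulSupport, hT, Finset.coe_filter, Set.Finite.mem_toFinset,
      Set.mem_ofPred_eq]
    constructor
    · rintro ⟨h3, h4⟩
      exact ⟨⟨by_contra fun h5 => h4 (h1 A h3 h5), h3⟩, h4⟩
    · rintro ⟨⟨_, h4⟩, h5⟩
      exact ⟨h4, h5⟩
  rw [e1]
  have h3 : ∏ A ∈ T, c ≤ ∏ A ∈ T, g A :=
    Finset.prod_le_prod (fun _ _ => hc0) fun A hA => h2 A (Finset.mem_filter.1 hA).2
  refine le_trans ?_ h3
  rw [Finset.prod_const]
  refine pow_le_pow_of_le_one hc0 hc1 ?_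
  rw [Set.ncard_eq_toFinset_card F hF]
  exact Finset.card_le_card (Finset.filter_subset _ _)


end Crest.Agent.R158.Gx31
end
end

-- ▼ part R158/Gx2_31
section

/-!
# Row 158, Block A4 (helper31), file 2: uniform densities, crossing loops at any ratio

* `card_le_sq`   : `card A ≤ 2 (dia A + 1)²`
* `ud V`         : the uniform density of `V` as a `Finsupp`; `tot_ud`, `mass_ud`, `dens_ud`
* `share_ud`     : the share of a local loop is `≤ 2 C` if `4 ^ κ ≤ C |V|`
* `Sys.of_ud`    : the system of `∑ i, a i • ud (V i) + m0`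
* `bq x ρ` (box), `rg x R` (square ring `R < sd ≤ 2R`)
* `T_mom`        : all moments of the number of loops which split `BF x n` and have
  `n ≤ K (dia A + 1)`
-/

set_option autoImplicit false

noncomputable section

namespace Crest.Agent.R158.Gx31

open Real Function MeasureTheory
open Crest.Agent.R161.Tas682 (sd)
open Crest.Agent.R161.Geo729
open Crest.Agent.R158.It200 (Cfz Corner fc)
open Crest.Agent.R158.Wf850 (Lps Face BF mem_BF Splits card_BF BF_mono sd_self sd_tri sd_symm'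
  exists_sep sepC cv cf sd_corner)
open Crest.Agent.R158.Vx107 (Fw Ntr W)
open Crest.Agent.R158.Cn109 (SS QQ lsW smalls mem_smalls VV SS_eq DepF)
open Crest.Agent.R158.Hd109 (Dens Err)
open Crest.Agent.R158.Rs689 (nu hf)
open Crest.Agent.R158.Em522 (starE)

/-! ### cardinality and diameter -/

theorem card_le_sq (A : Finset Face) : A.card ≤ 2 * (Cn109.dia A + 1) ^ 2 := by
  classical
  rcases A.eq_empty_or_nonempty with rfl | hA
  · simp
  · obtain ⟨v, hv, hv'⟩ := A.exists_min_image (fun f => f.1.1) hA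
    obtain ⟨w, hw, hw'⟩ := A.exists_min_image (fun f => f.1.2) hA
    have hsub : A ⊆ (Finset.Icc v.1.1 (v.1.1 + Cn109.dia A) ×ˢ
        Finset.Icc w.1.2 (w.1.2 + Cn109.dia A)) ×ˢ (Finset.univ : Finset Bool) := by
      intro f hf
      rw [Finset.mem_product, Finset.mem_product, Finset.mem_Icc, Finset.mem_Icc]
      have h1 := (Cn109.coord_le_dia hv hf).1
      have h2 := (Cn109.coord_le_dia hw hf).2
      rw [abs_le] at h1 h2
      exact ⟨⟨⟨hv' f hf, by linarith [h1.2]⟩, hw' f hf, by linarith [h2.2]⟩, Finset.mem_univ _⟩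
    refine (Finset.card_le_card hsub).trans (le_of_eq ?_)
    rw [Finset.card_product, Finset.card_product, Int.card_Icc, Int.card_Icc, Finset.card_univ,
      Fintype.card_bool]
    have e1 : (v.1.1 + (Cn109.dia A : ℤ) + 1 - v.1.1).toNat = Cn109.dia A + 1 := by omega
    have e2 : (w.1.2 + (Cn109.dia A : ℤ) + 1 - w.1.2).toNat = Cn109.dia A + 1 := by omega
    rw [e1, e2]
    ring

/-! ### uniform densities -/

/-- the density function -/
def uf (V : Finset Face) : Face → ℝ := fun _ => (V.card : ℝ)⁻¹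

open Classical in
/-- the uniform density of `V` -/
def ud (V : Finset Face) : Face →₀ ℝ :=
  Finsupp.onFinset V (fun v => if v ∈ V then (V.card : ℝ)⁻¹ else 0) fun v hv => by
    by_contra h
    simp [h] at hv

theorem ud_mem {V : Finset Face} {v : Face} (h : v ∈ V) : ud V v = (V.card : ℝ)⁻¹ := by
  classical
  simp [ud, h]

theorem ud_not_mem {V : Finset Face} {v : Face} (h : v ∉ V) : ud V v = 0 := by
  classical
  simp [ud, h]

theorem uf_nonneg (V : Finset Face) (v : Face) : 0 ≤ uf V v := by unfold uf; positivity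

theorem uf_sum {V : Finset Face} (h : V.Nonempty) : ∑ v ∈ V, uf V v = 1 := by
  have hc : (V.card : ℝ) ≠ 0 := by exact_mod_cast h.card_pos.ne'
  unfold uf
  rw [Finset.sum_const, nsmul_eq_mul, mul_inv_cancel₀ hc]

theorem mass_ud (V A : Finset Face) : Vx107.mass (ud V) A = shr (uf V) V A := by
  classical
  unfold Vx107.mass shr Cn109.mass
  calc ∑ f ∈ A, ud V f = ∑ f ∈ A with f ∈ V, ud V f := by
        rw [Finset.sum_filter]
        refine Finset.sum_congr rfl fun w _ => ?_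
        split_ifs with hwV
        · rfl
        · exact ud_not_mem hwV
    _ = ∑ f ∈ V with f ∈ A, ud V f := by
        refine Finset.sum_congr ?_ fun _ _ => rfl
        ext f
        simp only [Finset.mem_filter]
        tauto
    _ = ∑ f ∈ V with f ∈ A, uf V f :=
        Finset.sum_congr rfl fun f hf => ud_mem (Finset.mem_filter.1 hf).1



theorem mass_ud_eq (V A : Finset Face) [DecidablePred fun v => v ∈ A] :
    Vx107.mass (ud V) A = ((V.filter fun v => v ∈ A).card : ℝ) / V.card := by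
  classical
  rw [mass_ud]
  unfold shr Cn109.mass uf
  rw [Finset.sum_const, nsmul_eq_mul, div_eq_mul_inv]
  congr 3
  ext v
  simp

theorem mass_ud_zero {V A : Finset Face} (h : ∀ v ∈ V, v ∉ A) : Vx107.mass (ud V) A = 0 := by
  classical
  rw [mass_ud]
  unfold shr Cn109.mass
  rw [Finset.sum_eq_zero]
  intro v hv
  rw [Finset.mem_filter] at hv
  exact absurd hv.2 (h v hv.1)

theorem mass_ud_one {V A : Finset Face} (hV : V.Nonempty) (h : ∀ v ∈ V, v ∈ A) :
    Vx107.mass (ud V) A = 1 := by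
  classical
  rw [mass_ud, ← uf_sum hV]
  unfold shr Cn109.mass
  rw [Finset.filter_true_of_mem h]

theorem tot_ud {V : Finset Face} (hV : V.Nonempty) : Vx107.tot (ud V) = 1 := by
  classical
  rw [← uf_sum hV]
  unfold Vx107.tot Finsupp.sum
  have hs : (ud V).support ⊆ V := fun v hv => by
    by_contra h
    exact Finsupp.mem_support_iff.1 hv (ud_not_mem h)
  rw [Finset.sum_subset hs fun v _ hv => Finsupp.notMem_support_iff.1 hv]
  exact Finset.sum_congr rfl fun v hv => ud_mem hv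

theorem dens_ud {C : ℝ} {κ : ℕ} {V : Finset Face} (hV : V.Nonempty)
    (h : (4 : ℝ) ^ κ ≤ C * V.card) : Dens C κ V (uf V) where
  nn := fun v _ => uf_nonneg V v
  sum := uf_sum hV
  le := fun v _ => by
    have hc : (0 : ℝ) < V.card := by exact_mod_cast hV.card_pos
    unfold uf
    rw [le_div_iff₀ (by positivity), inv_mul_le_iff₀ hc, mul_comm]
    exact h

/-- share of a small set -/
theorem share_ud {C : ℝ} {κ : ℕ} {V : Finset Face} (hV : V.Nonempty)
    (h : (4 : ℝ) ^ κ ≤ C * V.card) {A : Finset Face} (hA : Cn109.dia A + 1 < 2 ^ κ) :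
    shr (uf V) V A ≤ 2 * C := by
  classical
  have hc : (0 : ℝ) < V.card := by exact_mod_cast hV.card_pos
  have h1 : ((V.filter fun v => v ∈ A).card : ℝ) ≤ 2 * 4 ^ κ := by
    have h2 : (V.filter fun v => v ∈ A).card ≤ A.card :=
      Finset.card_le_card fun v hv => (Finset.mem_filter.1 hv).2
    have h3 := h2.trans (card_le_sq A)
    have h4 : 2 * (Cn109.dia A + 1) ^ 2 ≤ 2 * (2 ^ κ) ^ 2 :=
      Nat.mul_le_mul_left _ (Nat.pow_le_pow_left hA.le 2)
    calc ((V.filter fun v => v ∈ A).card : ℝ) ≤ ((2 * (2 ^ κ) ^ 2 : ℕ) : ℝ) := by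
          exact_mod_cast h3.trans h4
      _ = 2 * 4 ^ κ := by
          push_cast
          rw [← pow_mul, mul_comm κ 2, pow_mul]
          norm_num
  rw [← mass_ud, mass_ud_eq, div_le_iff₀ hc]
  nlinarith

/-- **the system of `∑ i, a i • ud (V i) + m0`** -/
theorem Sys.of_ud {ι : Type*} [Fintype ι] {κ : ι → ℕ} {V : ι → Finset Face} {a : ι → ℝ}
    {m m0 : Face →₀ ℝ} (hm : ∀ f, m f = ∑ i, a i * ud (V i) f + m0 f)
    (hne : ∀ i, (V i).Nonempty)
    (hdj : ∀ i j, i ≠ j → ∀ v ∈ V i, v ∉ V j)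
    (hsep : ∀ i j, i ≠ j → ∀ v ∈ V i, ∀ w ∈ V j, (2 : ℤ) ^ κ i ≤ sd v.1 w.1 + 1)
    (h0 : ∀ i, ∀ v ∈ V i, m0 v = 0)
    (hm0 : ∀ i, ∀ v ∈ V i, ∀ w, m0 w ≠ 0 → (2 : ℤ) ^ κ i ≤ sd v.1 w.1 + 1) :
    Sys κ V (fun i => uf (V i)) a m where
  nn := fun i v _ => uf_nonneg _ v
  sum := fun i => uf_sum (hne i)
  val := fun i v hv => by
    rw [hm, h0 i v hv, add_zero, Finset.sum_eq_single_of_mem i (Finset.mem_univ i), ud_mem hv]
    · rfl
    · intro j _ hj
      rw [ud_not_mem (hdj i j (Ne.symm hj) v hv), mul_zero]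
  sepV := hsep
  sepm := fun i v hv w hw hwV => by
    by_cases h : m0 w = 0
    · rw [hm, h, add_zero] at hw
      obtain ⟨j, _, hj⟩ := Finset.exists_ne_zero_of_sum_ne_zero hw
      have hwj : w ∈ V j := by
        by_contra h'
        exact hj (by rw [ud_not_mem h', mul_zero])
      have hij : i ≠ j := by
        rintro rfl; exact hwV hwj
      exact hsep i j hij v hv w hwj
    · exact hm0 i v hv w h

/-! ### boxes and rings -/

/-- the square ring `R < sd x ≤ 2 R` -/
def rg (x : P2) (R : ℕ) : Finset Face := BF x (2 * R : ℕ) \ BF x (R : ℕ)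

theorem mem_rg {x : P2} {R : ℕ} {f : Face} : f ∈ rg x R ↔ (R : ℤ) < sd x f.1 ∧ sd x f.1 ≤ 2 * R := by
  unfold rg
  rw [Finset.mem_sdiff, mem_BF, mem_BF]
  push_cast
  constructor
  · rintro ⟨h1, h2⟩; exact ⟨not_le.1 h2, h1⟩
  · rintro ⟨h1, h2⟩; exact ⟨h2, not_le.2 h1⟩

theorem card_rg (x : P2) (R : ℕ) : (rg x R).card = 24 * R ^ 2 + 8 * R := by
  unfold rg
  rw [Finset.card_sdiff_of_subset (BF_mono (by push_cast; linarith)), card_BF, card_BF]
  have : 2 * (2 * (2 * R) + 1) ^ 2 = 24 * R ^ 2 + 8 * R + 2 * (2 * R + 1) ^ 2 := by ring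
  omega

theorem rg_nonempty {x : P2} {R : ℕ} (hR : 1 ≤ R) : (rg x R).Nonempty := by
  rw [← Finset.card_pos, card_rg]
  positivity

theorem BF_nonempty (x : P2) (n : ℕ) : (BF x n).Nonempty :=
  ⟨(x, false), by rw [mem_BF, sd_self]; positivity⟩

/-- constant of the ring: `2 ^ κ ≤ R ⟹ C = 1/24` (share `≤ 1/12`) -/
theorem rg_card {x : P2} {R κ : ℕ} (h : 2 ^ κ ≤ R) : (4 : ℝ) ^ κ ≤ 1 / 24 * (rg x R).card := by
  rw [card_rg]
  have h1 : ((2 ^ κ : ℕ) : ℝ) ≤ R := by exact_mod_cast h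
  push_cast at h1 ⊢
  have h2 : (4 : ℝ) ^ κ = (2 ^ κ) ^ 2 := by rw [← pow_mul, mul_comm κ 2, pow_mul]; norm_num
  rw [h2]
  have h3 : (0 : ℝ) ≤ 2 ^ κ := by positivity
  have h4 : (0 : ℝ) ≤ R := Nat.cast_nonneg _
  nlinarith [pow_le_pow_left₀ h3 h1 2]

/-- constant of the box: `2 ^ κ ≤ ρ ⟹ C = 1/8` (share `≤ 1/4`) -/
theorem bq_card {x : P2} {ρ κ : ℕ} (h : 2 ^ κ ≤ ρ) : (4 : ℝ) ^ κ ≤ 1 / 8 * (BF x ρ).card := by
  rw [card_BF]
  have h1 : ((2 ^ κ : ℕ) : ℝ) ≤ ρ := by exact_mod_cast h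
  push_cast at h1 ⊢
  have h2 : (4 : ℝ) ^ κ = (2 ^ κ) ^ 2 := by rw [← pow_mul, mul_comm κ 2, pow_mul]; norm_num
  rw [h2]
  have h3 : (0 : ℝ) ≤ 2 ^ κ := by positivity
  have h4 : (0 : ℝ) ≤ ρ := Nat.cast_nonneg _
  nlinarith [pow_le_pow_left₀ h3 h1 2]

/-! ### crossing loops at any ratio -/

/-- grid point near `d` -/
def gp (x : P2) (n' : ℕ) (i : ℤ × ℤ) : P2 := (x.1 + n' * i.1, x.2 + n' * i.2)

theorem exists_gp {n' : ℕ} (hn' : 1 ≤ n') (d : ℤ) {n : ℤ} (hd : |d| ≤ n) :
    ∃ i : ℤ, |i| ≤ n / n' ∧ |d - n' * i| ≤ n' ∧ |n' * i| ≤ |d| := by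
  have hp : (0 : ℤ) < n' := by exact_mod_cast hn'
  rcases le_total 0 d with h | h
  · refine ⟨d / n', ?_, ?_, ?_⟩
    · rw [abs_of_nonneg (Int.ediv_nonneg h hp.le)]
      rw [abs_of_nonneg h] at hd
      exact Int.ediv_le_ediv hp hd
    · have h1 := Int.emod_nonneg d hp.ne'
      have h2 := Int.emod_lt_of_pos d hp
      have h3 : d - n' * (d / n') = d % n' := by
        have := Int.mul_ediv_add_emod d n'; linarith
      rw [h3, abs_of_nonneg h1]; exact h2.le
    · have h1 := Int.emod_nonneg d hp.ne'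
      have h3 := Int.mul_ediv_add_emod d n'
      have h4 : 0 ≤ (n' : ℤ) * (d / n') := mul_nonneg hp.le (Int.ediv_nonneg h hp.le)
      rw [abs_of_nonneg h4, abs_of_nonneg h]
      linarith
  · have h' : 0 ≤ -d := by linarith
    refine ⟨-(-d / n'), ?_, ?_, ?_⟩
    · rw [abs_neg, abs_of_nonneg (Int.ediv_nonneg h' hp.le)]
      rw [abs_of_nonpos h] at hd
      exact Int.ediv_le_ediv hp hd
    · have h1 := Int.emod_nonneg (-d) hp.ne'
      have h2 := Int.emod_lt_of_pos (-d) hp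
      have h3 : d - n' * (-(-d / n')) = -((-d) % n') := by
        have := Int.mul_ediv_add_emod (-d) n'; linarith
      rw [h3, abs_neg, abs_of_nonneg h1]; exact h2.le
    · have h1 := Int.emod_nonneg (-d) hp.ne'
      have h3 := Int.mul_ediv_add_emod (-d) n'
      have h4 : 0 ≤ (n' : ℤ) * (-d / n') := mul_nonneg hp.le (Int.ediv_nonneg h' hp.le)
      rw [mul_neg, abs_neg, abs_of_nonneg h4, abs_of_nonpos h]
      linarith

theorem sd_le_iff {x y : P2} {n : ℤ} : sd x y ≤ n ↔ |y.1 - x.1| ≤ n ∧ |y.2 - x.2| ≤ n := by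
  unfold sd; exact max_le_iff

/-- crossing loops: splitting `BF x n` with `n ≤ K (dia A + 1)` -/
def CR (x : P2) (n K : ℕ) (z : Cfz) : Set (Finset Face) :=
  {A | A ∈ Lps z ∧ Splits A (BF x n) ∧ n ≤ K * (Cn109.dia A + 1)}

theorem CR_fin (x : P2) (n K : ℕ) (z : Cfz) : (CR x n K z).Finite :=
  (Wf850.fin_split z x n).subset fun _ h => ⟨h.1, h.2.1⟩

theorem ncard_biUnion_le' {α ι : Type*} (s : Finset ι) (f : ι → Set α)
    (hf : ∀ i ∈ s, (f i).Finite) : (⋃ i ∈ s, f i).ncard ≤ ∑ i ∈ s, (f i).ncard := by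
  classical
  induction s using Finset.induction_on with
  | empty => simp
  | insert a s ha ih =>
    rw [Finset.sum_insert ha, Finset.set_biUnion_insert]
    refine (Set.ncard_union_le _ _).trans ?_
    exact Nat.add_le_add_left (ih fun i hi => hf i (Finset.mem_insert_of_mem hi)) _

open Classical in
/-- **moments of the number of crossing loops, any ratio** -/
theorem T_mom (a : ℝ) (ha : 1 ≤ a) (K : ℕ) : ∃ C : ℝ, 1 ≤ C ∧
    ∀ (x : P2) (n : ℕ), 1 ≤ n → ∃ T : Cfz → ℕ,
      DepF (starE x (6 * n)) T ∧ ∫ z, a ^ T z ∂(nu hf) ≤ C ∧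
      ∀ z : Cfz, (CR x n K z).ncard ≤ T z := by
  set N : ℕ := (2 * K + 1) * (2 * K + 1) with hN
  have hN0 : 0 < N := by positivity
  have haN : 1 ≤ a ^ N := one_le_pow₀ ha
  obtain ⟨C, hC, h⟩ := Lc522.l7 (a ^ N) haN
  refine ⟨C, hC, fun x n hn => ?_⟩
  rcases Nat.eq_zero_or_pos K with hK | hK
  · refine ⟨fun _ => 0, fun _ _ _ => rfl, by simpa using hC, fun z => ?_⟩
    have : CR x n K z = ∅ := by
      ext A
      unfold CR
      simp only [Set.mem_ofPred_eq, Set.mem_empty_iff_false, iff_false, hK, zero_mul]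
      rintro ⟨_, _, h3⟩
      omega
    rw [this]; simp
  · -- `n' = ⌈n / K⌉`
    set n' : ℕ := (n + K - 1) / K with hn'
    have hn1 : 1 ≤ n' := by
      rw [hn', Nat.one_le_div_iff hK]; omega
    have hn2 : n ≤ K * n' := by
      have h1 := Nat.div_add_mod (n + K - 1) K
      have h2 := Nat.mod_lt (n + K - 1) hK
      rw [← hn'] at h1
      omega
    have hn3 : n' ≤ n := by
      rw [hn']
      have h5 : n + K - 1 ≤ n * K := by
        obtain ⟨n0, rfl⟩ : ∃ n0, n = n0 + 1 := ⟨n - 1, by omega⟩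
        obtain ⟨K0, rfl⟩ : ∃ K0, K = K0 + 1 := ⟨K - 1, by omega⟩
        have : (n0 + 1) * (K0 + 1) = n0 * K0 + n0 + K0 + 1 := by ring
        omega
      calc (n + K - 1) / K ≤ (n * K) / K := Nat.div_le_div_right h5
        _ = n := Nat.mul_div_cancel _ hK
    have hdia : ∀ A : Finset Face, n ≤ K * (Cn109.dia A + 1) →
        n' + 1 ≤ 2 * (Cn109.dia A + 1) := by
      intro A hA
      have h1 : n' ≤ Cn109.dia A + 1 := by
        rw [hn']
        have h5 : n + K - 1 < K * (Cn109.dia A + 1) + K := by omega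
        have h6 : (n + K - 1) / K < Cn109.dia A + 1 + 1 := by
          rw [Nat.div_lt_iff_lt_mul hK]
          have : (Cn109.dia A + 1 + 1) * K = K * (Cn109.dia A + 1) + K := by ring
          omega
        omega
      omega
    choose M hM1 hM2 hM3 using fun y : P2 => h y (n' + 1) (by omega)
    -- index set
    set q : ℤ := (n : ℤ) / n' with hq
    have hqK : q ≤ K := by
      have h1 : (n : ℤ) ≤ K * n' := by exact_mod_cast hn2
      have hp : (0 : ℤ) < n' := by exact_mod_cast hn1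
      rw [hq]
      exact Int.ediv_le_of_le_mul hp h1
    have hq0 : 0 ≤ q := Int.ediv_nonneg (by positivity) (by positivity)
    have hqn : n' * q ≤ n := by
      have h1 := Int.mul_ediv_add_emod (n : ℤ) n'
      have h2 := Int.emod_nonneg (n : ℤ) (show (n' : ℤ) ≠ 0 by exact_mod_cast (by omega : n' ≠ 0))
      rw [hq]; linarith
    set I : Finset (ℤ × ℤ) := Finset.Icc (-q) q ×ˢ Finset.Icc (-q) q with hI
    have hIcard : I.card ≤ N := by
      rw [hI, Finset.card_product, Int.card_Icc]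
      have : (q + 1 - -q).toNat ≤ 2 * K + 1 := by omega
      exact Nat.mul_le_mul this this
    have hIne : I.Nonempty := ⟨(0, 0), by
      rw [hI, Finset.mem_product, Finset.mem_Icc]
      exact ⟨⟨by omega, by omega⟩, by omega, by omega⟩⟩
    have hI0 : (0 : ℝ) < I.card := by exact_mod_cast hIne.card_pos
    have hgpI : ∀ i ∈ I, sd x (gp x n' i) ≤ n := by
      intro i hi
      rw [hI, Finset.mem_product, Finset.mem_Icc, Finset.mem_Icc] at hi
      have hp : (0 : ℤ) ≤ n' := by positivity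
      rw [sd_le_iff]
      unfold gp
      have e1 : x.1 + n' * i.1 - x.1 = n' * i.1 := by ring
      have e2 : x.2 + n' * i.2 - x.2 = n' * i.2 := by ring
      dsimp only
      rw [e1, e2, abs_mul, abs_mul, Nat.abs_cast]
      have a1 : |i.1| ≤ q := abs_le.2 hi.1
      have a2 : |i.2| ≤ q := abs_le.2 hi.2
      constructor
      · exact (mul_le_mul_of_nonneg_left a1 hp).trans hqn
      · exact (mul_le_mul_of_nonneg_left a2 hp).trans hqn
    -- supports
    have hsub : ∀ i ∈ I, starE (gp x n' i) (2 * (n' + 1)) ⊆ starE x (6 * n) := by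
      intro i hi e he
      have h1 := sd_le_iff.1 (hgpI i hi)
      rw [abs_le, abs_le] at h1
      unfold starE at he ⊢
      rw [Finset.mem_product, Finset.mem_product, Finset.mem_Icc, Finset.mem_Icc] at he ⊢
      push_cast at he ⊢
      have h3 : (n' : ℤ) ≤ n := by exact_mod_cast hn3
      have h4 : (1 : ℤ) ≤ n := by exact_mod_cast hn
      refine ⟨⟨⟨?_, ?_⟩, ?_, ?_⟩, Finset.mem_univ _⟩ <;>
        linarith [he.1.1.1, he.1.1.2, he.1.2.1, he.1.2.2, h1.1.1, h1.1.2, h1.2.1, h1.2.2]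
    refine ⟨fun z => ∑ i ∈ I, M (gp x n' i) z, ?_, ?_, ?_⟩
    · intro z z' hz
      refine Finset.sum_congr rfl fun i hi => hM1 _ z z' fun e he => hz e (hsub i hi he)
    · -- moments
      have hMI : ∀ i, Integrable (fun z => (a ^ N) ^ M (gp x n' i) z) (nu hf) := fun i =>
        Lc522.integrable_pow haN (hM1 (gp x n' i))
      have hpt : ∀ z, a ^ (∑ i ∈ I, M (gp x n' i) z) ≤
          ∑ i ∈ I, (1 / (I.card : ℝ)) * (a ^ N) ^ M (gp x n' i) z := by
        intro z
        have h2 : a ^ (∑ i ∈ I, M (gp x n' i) z) =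
            ∏ i ∈ I, ((a ^ I.card) ^ M (gp x n' i) z) ^ (1 / (I.card : ℝ)) := by
          rw [← Finset.prod_pow_eq_pow_sum]
          refine Finset.prod_congr rfl fun i _ => ?_
          rw [← pow_mul, ← Real.rpow_natCast a (I.card * _), ← Real.rpow_mul (by linarith)]
          rw [← Real.rpow_natCast]
          congr 1
          push_cast
          field_simp
        rw [h2]
        refine (Real.geom_mean_le_arith_mean_weighted I (fun _ => 1 / (I.card : ℝ))
          (fun i => (a ^ I.card) ^ M (gp x n' i) z) (fun _ _ => by positivity)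
          (by rw [Finset.sum_const, nsmul_eq_mul]; field_simp)
          (fun i _ => by positivity)).trans ?_
        refine Finset.sum_le_sum fun i _ => mul_le_mul_of_nonneg_left ?_ (by positivity)
        exact pow_le_pow_left₀ (by positivity) (pow_le_pow_right₀ ha hIcard) _
      calc ∫ z, a ^ (∑ i ∈ I, M (gp x n' i) z) ∂(nu hf)
          ≤ ∫ z, ∑ i ∈ I, (1 / (I.card : ℝ)) * (a ^ N) ^ M (gp x n' i) z ∂(nu hf) :=
            integral_mono_of_nonneg (Filter.Eventually.of_forall fun z => by positivity)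
              (integrable_finsetSum _ fun i _ => (hMI i).const_mul _)
              (Filter.Eventually.of_forall hpt)
        _ = ∑ i ∈ I, (1 / (I.card : ℝ)) * ∫ z, (a ^ N) ^ M (gp x n' i) z ∂(nu hf) := by
            rw [integral_finsetSum _ fun i _ => (hMI i).const_mul _]
            exact Finset.sum_congr rfl fun i _ => integral_const_mul _ _
        _ ≤ ∑ i ∈ I, (1 / (I.card : ℝ)) * C :=
            Finset.sum_le_sum fun i _ => mul_le_mul_of_nonneg_left (hM2 _) (by positivity)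
        _ = C := by rw [Finset.sum_const, nsmul_eq_mul]; field_simp
    · -- counting
      intro z
      have hcov : CR x n K z ⊆ ⋃ i ∈ I, {A | A ∈ Lps z ∧ Splits A (BF (gp x n' i) (n' + 1 : ℕ)) ∧
          n' + 1 ≤ 2 * (Cn109.dia A + 1)} := by
        rintro A ⟨h1, h2, h3⟩
        obtain ⟨d, hd1, hd2, hd3⟩ := exists_sep h2
        rw [mem_BF] at hd1
        have hd1' := sd_le_iff.1 hd1
        obtain ⟨i1, hi1, hi2, _⟩ := exists_gp hn1 _ hd1'.1
        obtain ⟨i2, hi3, hi4, _⟩ := exists_gp hn1 _ hd1'.2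
        have hsd : sd (gp x n' (i1, i2)) d.1 ≤ n' := by
          rw [sd_le_iff]
          unfold gp
          have e1 : d.1.1 - (x.1 + n' * i1) = (cv d).1.1 - x.1 - n' * i1 := by
            show d.1.1 - (x.1 + n' * i1) = d.1.1 - x.1 - n' * i1
            ring
          have e2 : d.1.2 - (x.2 + n' * i2) = (cv d).1.2 - x.2 - n' * i2 := by
            show d.1.2 - (x.2 + n' * i2) = d.1.2 - x.2 - n' * i2
            ring
          dsimp only
          rw [e1, e2]
          exact ⟨hi2, hi4⟩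
        have hcv : cv d ∈ BF (gp x n' (i1, i2)) (n' + 1 : ℕ) := by
          rw [mem_BF]
          show sd (gp x n' (i1, i2)) d.1 ≤ _
          push_cast; linarith
        have hcf : cf d ∈ BF (gp x n' (i1, i2)) (n' + 1 : ℕ) := by
          rw [mem_BF]
          show sd (gp x n' (i1, i2)) (fc d) ≤ _
          have := (sd_corner (gp x n' (i1, i2)) d).2
          push_cast; linarith
        simp only [Set.mem_iUnion]
        refine ⟨(i1, i2), ?_, h1, ?_, hdia A h3⟩
        · rw [hI, Finset.mem_product, Finset.mem_Icc, Finset.mem_Icc]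
          exact ⟨abs_le.1 hi1, abs_le.1 hi3⟩
        · unfold sepC at hd3
          by_cases hA : cv d ∈ A
          · refine ⟨⟨_, hcv, hA⟩, _, hcf, fun h => hd3 ⟨fun _ => h, fun _ => hA⟩⟩
          · refine ⟨⟨_, hcf, ?_⟩, _, hcv, hA⟩
            by_contra h
            exact hd3 ⟨fun h' => absurd h' hA, fun h' => absurd h' h⟩
      have hfin : ∀ i ∈ I, {A | A ∈ Lps z ∧ Splits A (BF (gp x n' i) (n' + 1 : ℕ)) ∧
          n' + 1 ≤ 2 * (Cn109.dia A + 1)}.Finite := fun i _ =>
        (Wf850.fin_split z (gp x n' i) (n' + 1 : ℕ)).subset fun _ h => ⟨h.1, h.2.1⟩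
      calc (CR x n K z).ncard ≤ _ := Set.ncard_le_ncard hcov
            (Set.Finite.biUnion (Finset.finite_toSet I) fun i hi => hfin i hi)
        _ ≤ ∑ i ∈ I, _ := ncard_biUnion_le' I _ hfin
        _ ≤ ∑ i ∈ I, M (gp x n' i) z := Finset.sum_le_sum fun i _ => hM3 _ z

end Crest.Agent.R158.Gx31
end
end

-- ▼ part R158/Gx3_31

/-!
# Row 158, Block A4 (helper31), file 3: measure tools

* `free_le'`     : `|∏ᶠ A ∈ S, g A| ≤ 2 ^ #F` if `|g A| ≤ 1` off the finite set `F`
* `VV_abs`       : `|VV k - VV l| ≤ C |k - l|`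
* `ind_hoelder`  : `∫ 1_A e^L ≤ P(A)^(1-δ) (∫ e^(L/δ))^δ`
* `exp_four`     : moments of a sum of four terms
-/

set_option autoImplicit false

noncomputable section

namespace Crest.Agent.R158.Gx31

open Real Function MeasureTheory
open Crest.Agent.R158.It200 (Cfz)
open Crest.Agent.R158.Wf850 (Lps Face)
open Crest.Agent.R158.Cn109 (VV DepF)
open Crest.Agent.R158.Rs689 (nu hf)

/-- crude upper bound, `|g| ≤ 1` off `F` -/
theorem free_le' {S : Set (Finset Face)} {g : Finset Face → ℝ} {F : Set (Finset Face)}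
    (hF : F.Finite) (h1 : ∀ A ∈ S, A ∉ F → |g A| ≤ 1) (h2 : ∀ A ∈ S, |g A| ≤ 2) :
    |∏ᶠ A ∈ S, g A| ≤ 2 ^ F.ncard := by
  classical
  by_cases hfin : (S ∩ mulSupport g).Finite
  · rw [finprod_mem_eq_prod g hfin, Finset.abs_prod]
    have h3 : ∏ A ∈ hfin.toFinset, |g A| ≤ ∏ A ∈ hfin.toFinset, (if A ∈ F then (2 : ℝ) else 1) := by
      refine Finset.prod_le_prod (fun _ _ => abs_nonneg _) fun A hA => ?_
      rw [Set.Finite.mem_toFinset] at hA
      split_ifs with h
      · exact h2 A hA.1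
      · exact h1 A hA.1 h
    refine h3.trans ?_
    rw [Finset.prod_ite, Finset.prod_const, Finset.prod_const_one, mul_one]
    refine pow_le_pow_right₀ (by norm_num) ?_
    rw [Set.ncard_eq_toFinset_card F hF]
    refine Finset.card_le_card fun A hA => ?_
    rw [Finset.mem_filter] at hA
    exact hF.mem_toFinset.2 hA.2
  · rw [finprod_mem_eq_one_of_infinite hfin, abs_one]
    exact one_le_pow₀ (by norm_num)

/-- Lipschitz bound of the means -/
theorem VV_abs : ∃ C : ℝ, 0 ≤ C ∧ ∀ k l : ℕ, |VV k - VV l| ≤ C * |(k : ℝ) - l| := by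
  obtain ⟨C, hC, h⟩ := Cn109.VV_diff
  refine ⟨C, hC, fun k l => ?_⟩
  have key : ∀ k l : ℕ, k ≤ l → |VV k - VV l| ≤ C * |(k : ℝ) - l| := by
    intro k l hkl
    obtain ⟨j, rfl⟩ := Nat.exists_eq_add_of_le hkl
    have h1 := h k j
    push_cast
    have h2 : (k : ℝ) - (k + j) = -j := by ring
    rw [h2, abs_neg, Nat.abs_cast, abs_sub_comm, abs_of_nonneg h1.1]
    exact h1.2
  rcases le_total k l with hkl | hkl
  · exact key k l hkl
  · rw [abs_sub_comm, abs_sub_comm (k : ℝ)]; exact key l k hkl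

/-- Hölder for an event -/
theorem ind_hoelder {δ : ℝ} (h0 : 0 < δ) (h1 : δ < 1) {A : Set Cfz} (hA : MeasurableSet A)
    {L : Cfz → ℝ} (hL : Measurable L)
    (hi : Integrable (fun z => exp (1 / δ * L z)) (nu hf)) :
    ∫ z, A.indicator (fun z => exp (L z)) z ∂(nu hf) ≤
      (nu hf).real A ^ (1 - δ) * (∫ z, exp (1 / δ * L z) ∂(nu hf)) ^ δ := by
  have hp : 1 < 1 / (1 - δ) := by
    rw [lt_div_iff₀ (by linarith)]; linarith
  have e1 : 1 / (1 - δ) / (1 / (1 - δ) - 1) = 1 / δ := by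
    have : 1 - δ ≠ 0 := by linarith
    have h2 : (1 / (1 - δ) - 1) = δ / (1 - δ) := by field_simp; ring
    rw [h2]
    field_simp
  have e2 : (1 / (1 - δ) - 1) / (1 / (1 - δ)) = δ := by
    have : 1 - δ ≠ 0 := by linarith
    field_simp
    ring
  have e3 : 1 / (1 / (1 - δ)) = 1 - δ := one_div_one_div _
  have hind : ∀ z, A.indicator (fun _ => (1 : ℝ)) z ^ (1 / (1 - δ)) =
      A.indicator (fun _ => (1 : ℝ)) z := by
    intro z
    by_cases hz : z ∈ A
    · rw [Set.indicator_of_mem hz, one_rpow]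
    · rw [Set.indicator_of_notMem hz, zero_rpow (by
        have : 0 < 1 / (1 - δ) := by linarith
        exact this.ne')]
  have hint : Integrable (A.indicator fun _ => (1 : ℝ)) (nu hf) :=
    (integrable_const (1 : ℝ)).indicator hA
  have h := Hd109.hoelder_exp (μ := nu hf) hp (Y := A.indicator fun _ => (1 : ℝ)) (L := L)
    (fun z => Set.indicator_nonneg (fun _ _ => zero_le_one) z) hint.aestronglyMeasurable
    hL.aestronglyMeasurable (by simpa only [hind] using hint) (by rw [e1]; exact hi)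
  rw [e1, e2, e3] at h
  simp only [hind] at h
  have e4 : ∫ z, A.indicator (fun _ => (1 : ℝ)) z ∂(nu hf) = (nu hf).real A := by
    rw [integral_indicator_const _ hA]; simp
  rw [e4] at h
  refine le_trans (le_of_eq ?_) h
  refine integral_congr_ae (Filter.Eventually.of_forall fun z => ?_)
  by_cases hz : z ∈ A
  · simp [hz]
  · simp [hz]

/-- sum of four local terms -/
theorem exp_four {L1 L2 L3 L4 : Cfz → ℝ} {s : ℝ}
    (h1 : Integrable (fun z => exp (4 * s * L1 z)) (nu hf))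
    (h2 : Integrable (fun z => exp (4 * s * L2 z)) (nu hf))
    (h3 : Integrable (fun z => exp (4 * s * L3 z)) (nu hf))
    (h4 : Integrable (fun z => exp (4 * s * L4 z)) (nu hf)) :
    ∫ z, exp (s * (L1 z + L2 z + L3 z + L4 z)) ∂(nu hf) ≤
      (∫ z, exp (4 * s * L1 z) ∂(nu hf)) + (∫ z, exp (4 * s * L2 z) ∂(nu hf)) +
        (∫ z, exp (4 * s * L3 z) ∂(nu hf)) + ∫ z, exp (4 * s * L4 z) ∂(nu hf) := by
  have hs : Integrable (fun z => exp (4 * s * L1 z) + exp (4 * s * L2 z) + exp (4 * s * L3 z) +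
      exp (4 * s * L4 z)) (nu hf) := ((h1.add h2).add h3).add h4
  have hp : ∀ z, exp (s * (L1 z + L2 z + L3 z + L4 z)) ≤ exp (4 * s * L1 z) +
      exp (4 * s * L2 z) + exp (4 * s * L3 z) + exp (4 * s * L4 z) := by
    intro z
    obtain ⟨t, ht, hb⟩ : ∃ t, (t = 4 * s * L1 z ∨ t = 4 * s * L2 z ∨ t = 4 * s * L3 z ∨
        t = 4 * s * L4 z) ∧ s * (L1 z + L2 z + L3 z + L4 z) ≤ t := by
      by_contra hcon
      push Not at hcon
      have a1 := hcon (4 * s * L1 z) (Or.inl rfl)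
      have a2 := hcon (4 * s * L2 z) (Or.inr (Or.inl rfl))
      have a3 := hcon (4 * s * L3 z) (Or.inr (Or.inr (Or.inl rfl)))
      have a4 := hcon (4 * s * L4 z) (Or.inr (Or.inr (Or.inr rfl)))
      linarith
    have e1 := exp_pos (4 * s * L1 z)
    have e2 := exp_pos (4 * s * L2 z)
    have e3 := exp_pos (4 * s * L3 z)
    have e4 := exp_pos (4 * s * L4 z)
    refine (exp_le_exp.2 hb).trans ?_
    rcases ht with rfl | rfl | rfl | rfl <;> linarith
  calc ∫ z, exp (s * (L1 z + L2 z + L3 z + L4 z)) ∂(nu hf)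
      ≤ ∫ z, (exp (4 * s * L1 z) + exp (4 * s * L2 z) + exp (4 * s * L3 z) +
          exp (4 * s * L4 z)) ∂(nu hf) :=
        integral_mono_of_nonneg (Filter.Eventually.of_forall fun z => (exp_pos _).le) hs
          (Filter.Eventually.of_forall hp)
    _ = _ := by
        have a1 := integral_add h1 h2
        have a2 := integral_add (f := fun z => exp (4 * s * L1 z) + exp (4 * s * L2 z))
          (h1.add h2) h3
        have a3 := integral_add (f := fun z => exp (4 * s * L1 z) + exp (4 * s * L2 z) +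
          exp (4 * s * L3 z)) ((h1.add h2).add h3) h4
        rw [a3, a2, a1]

end Crest.Agent.R158.Gx31
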