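import Crest.Agent.R158.Hb0_656

/-!
R158, S0237, BLOCK BL, file 1 (helper656): facts about the regions of the blueprint.

* `Hang.horL`, `Hang.verL` : closure of `D H L` at the scale of tiles
* `shD_union : shD δ ∪ RL δ = shD (δ + 1) ∪ LL (δ + 1)`, `shD_zero`
* `mk2`, `P4.mt` : the marks as (tile, side); `HD_eq`
-/

set_option autoImplicit false

noncomputable section

namespace Crest.Agent.R158.Hb656

open Crest.Agent.R158.Sp896 (V)
open Crest.Agent.R158.Sw300 (Port)
open Crest.Agent.R158.Env664 (D Run Adj4 Mac mark mem_D beD div_iff)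
open Crest.Agent.R158.Ob664 (HG HA HD rgt)
open Crest.Agent.R158.Tj656 (P4)

theorem succ_div {L : ℤ} (hL : 0 < L) (x : ℤ) : (x + 1) / L = x / L ∨
    ((x + 1) / L = x / L + 1 ∧ x + 1 = (x / L + 1) * L) := by
  obtain ⟨q, hq⟩ : ∃ q, q = x / L := ⟨_, rfl⟩
  have h1 := (div_iff hL x q).1 hq.symm
  rw [← hq]
  rcases lt_or_ge (x + 1) (q * L + L) with h | h
  · left
    exact (div_iff hL _ _).2 ⟨by linarith [h1.1], h⟩
  · right
    have e : x + 1 = (q + 1) * L := by nlinarith [h1.2]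
    refine ⟨(div_iff hL _ _).2 ⟨by rw [e], by rw [e]; nlinarith⟩, e⟩

variable {F H : Finset V} {k i0 i1 L : ℤ} {up : Bool}

theorem Hang.subL (h : Hang F H k i0 i1 up) (hL : 0 < L) {t : V} (ht : t ∈ D H L) : t ∈ D F L := by
  rw [mem_D hL] at ht ⊢
  exact h.sub ht

/-- horizontal closure at the scale of tiles -/
theorem Hang.horL (h : Hang F H k i0 i1 up) (hL : 0 < L) {x y : ℤ}
    (hxy : ((x, y) ∈ D H L ∧ (x + 1, y) ∈ D F L) ∨ ((x, y) ∈ D F L ∧ (x + 1, y) ∈ D H L)) :
    (x, y) ∈ D H L ∧ (x + 1, y) ∈ D H L := by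
  simp only [mem_D hL] at *
  rcases succ_div hL x with e | ⟨e, -⟩
  · rw [e] at hxy ⊢
    tauto
  · rw [e] at hxy ⊢
    exact h.hor _ _ hxy

/-- vertical closure at the scale of tiles -/
theorem Hang.verL (h : Hang F H k i0 i1 up) (hL : 0 < L) {x y : ℤ}
    (h1 : (x, y - 1) ∈ D F L) (h2 : (x, y) ∈ D F L) :
    ((x, y - 1) ∈ D H L ↔ (x, y) ∈ D H L) ∨ (y = k * L ∧ i0 * L ≤ x ∧ x < i1 * L + L) := by
  simp only [mem_D hL] at *
  have e0 : y - 1 + 1 = y := by ring
  rcases succ_div hL (y - 1) with e | ⟨e, e'⟩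
  · rw [e0] at e
    rw [e]
    exact Or.inl Iff.rfl
  · rw [e0] at e e'
    have e2 : (y - 1) / L = y / L - 1 := by omega
    rw [e2] at h1 ⊢
    rcases h.ver (x / L) (y / L) h1 h2 with g | ⟨g1, g2, g3⟩
    · exact Or.inl g
    · right
      have hx := (div_iff hL x (x / L)).1 rfl
      refine ⟨?_, ?_, ?_⟩
      · rw [← g1, e]; exact e'
      · nlinarith [hx.1]
      · nlinarith [hx.2]


theorem shD_zero (h : Hang F H k i0 i1 up) (hL : 0 < L) : shD F H L 0 = D F L := by
  ext t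
  rw [mem_shD]
  have e : ((t.1 - 0, t.2) : V) = t := by ext <;> simp
  rw [e]
  constructor
  · rintro (g | g)
    · exact g.1
    · exact h.subL hL g
  · intro g
    by_cases g' : t ∈ D H L
    · exact Or.inr g'
    · exact Or.inl ⟨g, g'⟩

/-- **the right layer of the part displaced by `δ` and the left layer of the part displaced by
`δ + 1` complete to the same region** -/
theorem shD_union (h : Hang F H k i0 i1 up) (hL : 0 < L) (δ : ℤ) :
    shD F H L δ ∪ RL F H L δ = shD F H L (δ + 1) ∪ LL F H L (δ + 1) := by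
  ext ⟨x, y⟩
  rw [Finset.mem_union, Finset.mem_union, mem_shD, mem_shD, mem_RL, mem_LL]
  simp only
  have e1 : x - (δ + 1) = x - 1 - δ := by ring
  have e2 : x + 1 - (δ + 1) = x - δ := by ring
  have e3 : x - 1 - δ + 1 = x - δ := by ring
  rw [e1, e2]
  have key := fun g => h.horL hL (x := x - 1 - δ) (y := y) g
  rw [e3] at key
  have s1 := fun g : (x - 1 - δ, y) ∈ D H L => h.subL hL g
  have s2 := fun g : (x - δ, y) ∈ D H L => h.subL hL g
  tauto

theorem shD_m1 (h : Hang F H k i0 i1 up) (hL : 0 < L) :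
    shD F H L (-1) ∪ RL F H L (-1) = D F L ∪ LL F H L 0 := by
  have := shD_union h hL (-1)
  rwa [show (-1 : ℤ) + 1 = 0 by ring, shD_zero h hL] at this

theorem shD_p1 (h : Hang F H k i0 i1 up) (hL : 0 < L) :
    shD F H L 1 ∪ LL F H L 1 = D F L ∪ RL F H L 0 := by
  have := shD_union h hL 0
  rw [show (0 : ℤ) + 1 = 1 by ring, shD_zero h hL] at this
  exact this.symm

/-! ### marks -/

/-- the mark of `Env664.mark`, second component, as (tile, side) -/
def mk2 (L : ℤ) (c : V) (d : ZMod 4) : V × ZMod 4 :=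
  if d = 0 then ((c.1 * L, c.2 * L + L / 2), 0)
  else if d = 1 then ((c.1 * L + L / 2, c.2 * L + L - 1), 1)
  else if d = 2 then ((c.1 * L + L - 1, c.2 * L + L / 2 - 1), 2)
  else ((c.1 * L + L / 2 - 1, c.2 * L), 3)

theorem mark_eq (L : ℤ) (c : V) (d : ZMod 4) : (mark L c d).2 = some (mk2 L c d) := by
  unfold mark mk2
  split_ifs <;> rfl

/-- the three marks at scale `L` as (tile, side) -/
def mt (P : P4) (L : ℤ) (i : Fin 3) : V × ZMod 4 := mk2 L (P.cc i).1 (P.cc i).2

/-- the observable of a region with the slit from `(x, y)` to the column `xr`, marks `m` -/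
def GH (A : Finset V) (x y xr : ℤ) (m : Fin 3 → V × ZMod 4) : ℂ :=
  HG A (beD A x y xr) (some (m 0)) (some (m 1)) (some (m 2))

theorem HD_eq (P : P4) (L x y : ℤ) :
    P.HD L x y = GH (D P.F L) x y (rgt (D P.F L) x y) (mt P L) := by
  unfold P4.HD HD HA GH mt
  rw [mark_eq, mark_eq, mark_eq]

theorem HD_run {P : P4} {L xl xr x y : ℤ} (h : Run (D P.F L) xl xr y) (h1 : xl ≤ x) (h2 : x ≤ xr) :
    P.HD L x y = GH (D P.F L) x y xr (mt P L) := by
  rw [HD_eq, Ob664.rgt_run h h1 h2]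

end Crest.Agent.R158.Hb656
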