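import Crest.Agent.R158.Sl4_434
import Crest.Agent.R158.Gc7_748
import Crest.Agent.R158.Sw4_300

-- ▼ part R158/Sl5_434
section

/-!
# R158, block SL (helper434), file Sl5: the lists of free ends of two regions

* `Cy` : a list is a cycle of a relation; `two_lists` : two regions with the same walls outside a box
  have lists `A ++ N1 ++ Di ++ N2` and `A ++ N1 ++ Gi ++ N2`
* `mem_L_of_free` : every free port of a word is in its list
-/

set_option autoImplicit false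
set_option linter.unusedSectionVars false

namespace Crest.Agent.R158.Sl434

open Crest.Agent.R158.Sw300 (Port Wd thru tls)
open Crest.Agent.R158.Gc748 (chain_det)

/-! ### cycles of a relation -/

section cy

variable {X : Type*}

/-- the list is a cycle of `ρ` -/
def Cy (ρ : X → X → Prop) (L : List X) : Prop := ∃ x l, L = x :: l ∧ List.IsChain ρ (x :: l ++ [x])

theorem Cy.swap {ρ : X → X → Prop} {A B : List X} (h : Cy ρ (A ++ B)) : Cy ρ (B ++ A) := by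
  rcases A with _ | ⟨x, l⟩
  · simpa using h
  rcases B with _ | ⟨y, m⟩
  · simpa using h
  obtain ⟨x', l', he, hc⟩ := h
  simp only [List.cons_append, List.cons.injEq] at he
  obtain ⟨rfl, rfl⟩ := he
  have e1 : x :: (l ++ y :: m) ++ [x] = (x :: l) ++ y :: (m ++ [x]) := by simp
  rw [e1, List.isChain_split] at hc
  obtain ⟨h1, h2⟩ := hc
  refine ⟨y, m ++ x :: l, rfl, ?_⟩
  have e2 : y :: (m ++ x :: l) ++ [y] = (y :: m) ++ x :: (l ++ [y]) := by simp
  rw [e2, List.isChain_split]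
  exact ⟨by simpa using h2, by simpa using h1⟩

theorem Cy.rot {ρ : X → X → Prop} {L L' : List X} (h : Cy ρ L) (hr : L ~r L') : Cy ρ L' := by
  obtain ⟨n, hn, rfl⟩ := List.isRotated_iff_mod.1 hr
  rw [List.rotate_eq_drop_append_take hn]
  apply Cy.swap
  rwa [List.take_append_drop]

theorem Cy.mono {ρ ρ' : X → X → Prop} {L : List X} (h : Cy ρ L) (hr : ∀ x y, ρ x y → ρ' x y) :
    Cy ρ' L := by
  obtain ⟨x, l, e, hc⟩ := h
  exact ⟨x, l, e, hc.imp hr⟩

/-- a chain without repetition starting in a deterministic cycle is a block of it -/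
theorem chain_pre {ρ : X → X → Prop} (hr : ∀ a b c, ρ a b → ρ a c → b = c) :
    ∀ {x : X} {n l : List X} {z : X}, List.IsChain ρ (x :: n) → List.IsChain ρ (x :: (l ++ [z])) →
      z ∉ n → ∃ m, l = n ++ m
  | _, [], l, _, _, _, _ => ⟨l, rfl⟩
  | x, y :: n, [], z, h1, h2, hz => by
    simp only [List.nil_append, List.isChain_cons_cons] at h1 h2
    exact absurd (by rw [hr _ _ _ h1.1 h2.1]; simp) hz
  | x, y :: n, y' :: l, z, h1, h2, hz => by
    simp only [List.cons_append, List.isChain_cons_cons] at h1 h2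
    have e := hr _ _ _ h1.1 h2.1
    subst e
    simp only [List.mem_cons, not_or] at hz
    obtain ⟨m, hm⟩ := chain_pre hr h1.2 h2.2 hz.2
    exact ⟨m, by rw [hm]; rfl⟩

/-- rotation to an element -/
theorem rot_to {L : List X} {x : X} (hx : x ∈ L) : ∃ l, L ~r x :: l := by
  obtain ⟨A, B, rfl⟩ := List.append_of_mem hx
  exact ⟨B ++ A, by simpa using (List.isRotated_append (l := A) (l' := x :: B))⟩

/-- a block of a deterministic cycle -/
theorem Cy.block {ρ : X → X → Prop} (hr : ∀ a b c, ρ a b → ρ a c → b = c) {L : List X}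
    (h : Cy ρ L) {a : X} {n : List X} (ha : a ∈ L)
    (hc : List.IsChain ρ (a :: n)) (hnn : a ∉ n) : ∃ Z, L ~r (a :: n) ++ Z := by
  obtain ⟨l, hl⟩ := rot_to ha
  have h2 := h.rot hl
  obtain ⟨x, l', he, h3⟩ := h2
  simp only [List.cons.injEq] at he
  obtain ⟨rfl, rfl⟩ := he
  have h4 : List.IsChain ρ (a :: (l ++ [a])) := by simpa using h3
  obtain ⟨m, rfl⟩ := chain_pre hr hc h4 hnn
  exact ⟨m, by simpa using hl⟩

/-- the three facts about one cycle -/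
theorem Cy.three {ρ : X → X → Prop} (hr : ∀ a b c, ρ a b → ρ a c → b = c) {L : List X}
    (h : Cy ρ L) (hn : L.Nodup) {Fa : Set X} {a c b : X} {n n1 n2 : List X}
    (ha : a ∈ L) (hc : c ∈ L) (h1 : List.IsChain ρ (a :: n)) (e2 : c :: n1 = n2 ++ [b])
    (h2 : List.IsChain ρ (c :: n1)) (hd : ((a :: n) ++ (c :: n1)).Nodup)
    (hcF : c ∉ Fa)
    (step : ∀ p q, (p ∈ Fa ∨ p = b) → ρ p q → q ∈ Fa ∨ q = a) :
    ∃ A D, L ~r A ++ (a :: n) ++ D ++ (c :: n1) ∧ (∀ x ∈ A, x ∈ Fa) ∧ (∀ x ∈ D, x ∉ Fa) ∧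
      List.IsChain ρ (b :: (A ++ [a])) ∧ a ∉ A := by
  have hnn : a ∉ n := (List.nodup_cons.1 ((List.nodup_append.1 hd).1)).1
  have hna : a ∉ c :: n1 := fun h5 => (List.nodup_append.1 hd).2.2 a (by simp) a h5 rfl
  obtain ⟨Z, hZ⟩ := h.block hr ha h1 hnn
  have hZn : ((a :: n) ++ Z).Nodup := (hZ.nodup_iff).1 hn
  have hcZ : c ∈ Z := by
    have h5 := hZ.mem_iff.1 hc
    rcases List.mem_append.1 h5 with h6 | h6
    · exact absurd rfl ((List.nodup_append.1 hd).2.2 c h6 c (by simp))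
    · exact h6
  obtain ⟨D, R, rfl⟩ := List.append_of_mem hcZ
  -- the chain of the rotated list
  have h3 := h.rot hZ
  obtain ⟨x, l', he, h4⟩ := h3
  simp only [List.cons_append, List.cons.injEq] at he
  obtain ⟨rfl, rfl⟩ := he
  have e5 : a :: (n ++ (D ++ c :: R)) ++ [a] = (a :: (n ++ D)) ++ c :: (R ++ [a]) := by simp
  rw [e5, List.isChain_split] at h4
  obtain ⟨h6, h7⟩ := h4
  obtain ⟨A, rfl⟩ := chain_pre hr h2 h7 (fun h8 => hna (by simp [h8]))
  have hrot : L ~r A ++ (a :: n) ++ D ++ (c :: n1) := by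
    refine hZ.trans ?_
    have e6 : a :: n ++ (D ++ c :: (n1 ++ A)) = ((a :: n) ++ D ++ (c :: n1)) ++ A := by simp
    have e7 : A ++ (a :: n) ++ D ++ (c :: n1) = A ++ ((a :: n) ++ D ++ (c :: n1)) := by simp
    rw [e6, e7]
    exact List.isRotated_append
  have hnL := (hrot.nodup_iff).1 hn
  have haA : a ∉ A := by
    intro h8
    have e7 : A ++ (a :: n) ++ D ++ (c :: n1) = A ++ ((a :: n) ++ D ++ (c :: n1)) := by simp
    rw [e7] at hnL
    exact (List.nodup_append.1 hnL).2.2 a h8 a (by simp) rfl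
  -- the chain after `b`
  have h8 : List.IsChain ρ (b :: (A ++ [a])) := by
    have e8 : c :: (n1 ++ A ++ [a]) = (n2 ++ [b]) ++ (A ++ [a]) := by
      rw [← e2]; simp
    rw [e8] at h7
    have e9 : (n2 ++ [b]) ++ (A ++ [a]) = n2 ++ (b :: (A ++ [a])) := by simp
    rw [e9] at h7
    exact (h7.right_of_append)
  refine ⟨A, D, hrot, ?_, ?_, h8, haA⟩
  · -- elements of `A`
    have key : ∀ (l : List X) (p : X), (p ∈ Fa ∨ p = b) → a ∉ l → List.IsChain ρ (p :: (l ++ [a])) →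
        ∀ x ∈ l, x ∈ Fa := by
      intro l
      induction l with
      | nil => intro p _ _ _ x hx; simp at hx
      | cons y l ih =>
        intro p hp hal hch x hx
        simp only [List.cons_append, List.isChain_cons_cons] at hch
        simp only [List.mem_cons, not_or] at hal
        have hy : y ∈ Fa := (step p y hp hch.1).resolve_right (fun e => hal.1 e.symm)
        rcases List.mem_cons.1 hx with rfl | hx
        · exact hy
        · exact ih y (Or.inl hy) hal.2 hch.2 x hx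
    exact key A b (Or.inr rfl) haA h8
  · -- elements of `D`
    have key : ∀ (l : List X) (p : X), p ∈ Fa → a ∉ l → List.IsChain ρ (p :: (l ++ [c])) → False := by
      intro l
      induction l with
      | nil =>
        intro p hp _ hch
        simp only [List.nil_append, List.isChain_cons_cons] at hch
        rcases step p c (Or.inl hp) hch.1 with h9 | h9
        · exact hcF h9
        · exact hna (by simp [h9])
      | cons y l ih =>
        intro p hp hal hch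
        simp only [List.cons_append, List.isChain_cons_cons] at hch
        simp only [List.mem_cons, not_or] at hal
        have hy : y ∈ Fa := (step p y (Or.inl hp) hch.1).resolve_right (fun e => hal.1 e.symm)
        exact ih y hy hal.2 hch.2
    intro x hx hxF
    obtain ⟨D1, D2, rfl⟩ := List.append_of_mem hx
    have e9 : a :: (n ++ (D1 ++ x :: D2)) ++ [c] = (a :: (n ++ D1)) ++ (x :: (D2 ++ [c])) := by simp
    rw [e9] at h6
    refine key D2 x hxF ?_ h6.right_of_append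
    intro h10
    have e7 : A ++ (a :: n) ++ (D1 ++ x :: D2) ++ (c :: n1) =
      (A ++ (a :: n) ++ (D1 ++ [x])) ++ (D2 ++ (c :: n1)) := by simp
    rw [e7] at hnL
    exact (List.nodup_append.1 hnL).2.2 a (by simp) a (by simp [h10]) rfl

/-- **two cycles which agree outside a box** -/
theorem two_lists {ρ ρ' : X → X → Prop} (hr : ∀ a b c, ρ a b → ρ a c → b = c)
    (hr' : ∀ a b c, ρ' a b → ρ' a c → b = c) {L L' : List X} (h : Cy ρ L) (hn : L.Nodup)
    (h' : Cy ρ' L') (hn' : L'.Nodup) {Fa : Set X} {a c b : X} {n n1 n2 : List X}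
    (ha : a ∈ L) (hc : c ∈ L) (ha' : a ∈ L') (hc' : c ∈ L')
    (h1 : List.IsChain ρ (a :: n)) (h1' : List.IsChain ρ' (a :: n)) (e2 : c :: n1 = n2 ++ [b])
    (h2 : List.IsChain ρ (c :: n1)) (h2' : List.IsChain ρ' (c :: n1))
    (hd : ((a :: n) ++ (c :: n1)).Nodup) (hcF : c ∉ Fa)
    (step : ∀ p q, (p ∈ Fa ∨ p = b) → ρ p q → ρ' p q ∧ (q ∈ Fa ∨ q = a))
    (step' : ∀ p q, (p ∈ Fa ∨ p = b) → ρ' p q → q ∈ Fa ∨ q = a) :
    ∃ A D G, L ~r A ++ (a :: n) ++ D ++ (c :: n1) ∧ L' ~r A ++ (a :: n) ++ G ++ (c :: n1) ∧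
      (∀ x ∈ A, x ∈ Fa) ∧ (∀ x ∈ D, x ∉ Fa) ∧ (∀ x ∈ G, x ∉ Fa) := by
  obtain ⟨A, D, k1, k2, k3, k4, k5⟩ := h.three hr hn ha hc h1 e2 h2 hd hcF
    (fun p q hp hq => (step p q hp hq).2)
  obtain ⟨A', G, l1, l2, l3, l4, l5⟩ := h'.three hr' hn' ha' hc' h1' e2 h2' hd hcF step'
  -- transport the chain after `b`
  have key : ∀ (l : List X) (p : X), (p ∈ Fa ∨ p = b) → (∀ x ∈ l, x ∈ Fa) →
      List.IsChain ρ (p :: (l ++ [a])) → List.IsChain ρ' (p :: (l ++ [a])) := by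
    intro l
    induction l with
    | nil =>
      intro p hp _ hch
      simp only [List.nil_append, List.isChain_cons_cons, List.isChain_singleton, and_true] at hch ⊢
      exact (step p a hp hch).1
    | cons y l ih =>
      intro p hp hl hch
      simp only [List.cons_append, List.isChain_cons_cons] at hch ⊢
      exact ⟨(step p y hp hch.1).1, ih y (Or.inl (hl y (by simp)))
        (fun x hx => hl x (by simp [hx])) hch.2⟩
  have k6 := key A b (Or.inr rfl) k2 k4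
  have e : A = A' := chain_det hr' k6 l4 k5 l5
  subst e
  exact ⟨A, D, G, k1, l1, k2, k3, l3⟩

end cy

/-! ### free ports -/

variable {T : Type*} [DecidableEq T]

theorem z4cases (d : ZMod 4) : d = 0 ∨ d = 1 ∨ d = 2 ∨ d = 3 := by revert d; decide

theorem z4other (d d' : ZMod 4) (h : d' ≠ d) : d' = d + 1 ∨ d' = d + 2 ∨ d' = d + 3 := by
  revert d d'; decide

/-- every free port of a word is in its list -/
theorem mem_L_of_free : ∀ {w : Wd T}, Sw300.Ok w → ∀ {x : Port T}, (∀ y ∈ x, y.1 ∈ tls w) →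
    Sw300.be w x = x → x ∈ Sw300.L w
  | .leg, _, x, hx, _ => by
    rcases x with _ | y
    · simp [Sw300.L]
    · have := hx y rfl
      simp [tls] at this
  | .tile t, _, x, hx, _ => by
    rcases x with _ | ⟨t', d⟩
    · simp [Sw300.L]
    · have h1 := hx (t', d) rfl
      simp only [tls, List.mem_singleton] at h1
      subst h1
      rcases z4cases d with rfl | rfl | rfl | rfl <;> simp [Sw300.L]
  | .att w p t d, h, x, hx, hb => by
    obtain ⟨hw, hp, ht, hnone⟩ := h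
    have hptd : p ≠ some (t, d) := fun e => ht (Gc748.mem_L_tls hw (e ▸ hp))
    simp only [Sw300.be] at hb
    by_cases h1 : x = p
    · rw [if_pos h1] at hb
      exact absurd (h1.symm.trans hb.symm) hptd
    rw [if_neg h1] at hb
    by_cases h2 : x = some (t, d)
    · rw [if_pos h2] at hb
      exact absurd (hb.trans h2) hptd
    rw [if_neg h2] at hb
    simp only [Sw300.L, List.mem_flatMap]
    rcases x with _ | ⟨t', d'⟩
    · refine ⟨none, mem_L_of_free hw (by intro y hy; simp at hy) hb, ?_⟩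
      rw [if_neg h1]; simp
    · have h3 := hx (t', d') rfl
      simp only [tls, List.mem_cons] at h3
      by_cases h4 : t' = t
      · subst h4
        refine ⟨p, hp, ?_⟩
        rw [if_pos rfl]
        have h5 : d' ≠ d := fun e => h2 (by rw [e])
        have h6 := z4other d d' h5
        rcases h6 with rfl | rfl | rfl <;> simp
      · refine ⟨some (t', d'), mem_L_of_free hw (by
          intro y hy
          simp only [Option.mem_def, Option.some.injEq] at hy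
          rw [← hy]; exact h3.resolve_left h4) hb, ?_⟩
        rw [if_neg h1]; simp
  | .con w p q, h, x, hx, hb => by
    have hw : Sw300.Ok w := h.1
    simp only [Sw300.be] at hb
    have hpq : p ≠ q := by
      obtain ⟨-, h2⟩ := h
      tauto
    by_cases h1 : x = p
    · rw [if_pos h1] at hb
      exact absurd (h1.symm.trans hb.symm) hpq
    rw [if_neg h1] at hb
    by_cases h2 : x = q
    · rw [if_pos h2] at hb
      exact absurd (hb.trans h2) hpq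
    rw [if_neg h2] at hb
    have h3 := mem_L_of_free hw (x := x) hx hb
    simp only [Sw300.L, List.mem_filter]
    refine ⟨h3, ?_⟩
    simp [h1, h2]

end Crest.Agent.R158.Sl434
end

-- ▼ part R158/Sl6_434
section

/-!
# R158, block SL (helper434), file Sl6: local modifications of regions

* `ChA K w0 N1 Jl N2 Jo Ob` : an annulus `K` in the plane with its word `w0`, walls `N1`, `N2`, inner
  side `Jl`, outer side `Jo`
* `Loc K .. be Ft At ψ φ δ` : a region (any tiles, glueing `be`) which contains the annulus `K` in the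
  chart `ψ` (inverse `φ`, rotated by `δ` quarter turns), far tiles `Ft`, annulus tiles `At`
* **`Loc.hv`** : two regions which agree on the far tiles and the annulus have the same value of the
  official observable `HV` if at most one arc crosses the annulus
-/

set_option autoImplicit false
set_option linter.unusedSectionVars false

namespace Crest.Agent.R158.Sl434

open Crest.Agent.R158.Sw300 (Port Wd thru tls)
open Crest.Agent.R158.Gc748 (RW fa lc rc off gl_fa chain_det)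
open Crest.Agent.R158.Xr249 (Nx rot Reg)
open Crest.Agent.R158.Ob664 (Gl HV)

/-! ### ports of charts -/

section ports

variable {T Y : Type*}

/-- port map -/
def pm (φ : T → Y) (δ : ZMod 4) : Port T → Port Y := Option.map fun x => (φ x.1, x.2 + δ)

@[simp] theorem pm_none (φ : T → Y) (δ : ZMod 4) : pm φ δ none = none := rfl
@[simp] theorem pm_some (φ : T → Y) (δ : ZMod 4) (t : T) (d : ZMod 4) :
    pm φ δ (some (t, d)) = some (φ t, d + δ) := rfl

theorem pm_rot (φ : T → Y) (δ : ZMod 4) (x : Port T) : pm φ δ (rot x) = rot (pm φ δ x) := by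
  rcases x with _ | ⟨t, d⟩
  · rfl
  · simp only [Xr249.rot_some, pm_some]
    rw [add_right_comm]

/-- ports of tiles in `S`, and the leg -/
def Fp (S : Set T) : Set (Port T) := {x | ∀ y ∈ x, y.1 ∈ S}

/-- ports of tiles in `S`, without the leg -/
def Ap (S : Set T) : Set (Port T) := {x | ∃ y, x = some y ∧ y.1 ∈ S}

theorem none_Fp (S : Set T) : (none : Port T) ∈ Fp S := by
  intro y hy; simp at hy

theorem some_Fp {S : Set T} {t : T} {d : ZMod 4} : (some (t, d) : Port T) ∈ Fp S ↔ t ∈ S := by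
  constructor
  · intro h; exact h (t, d) rfl
  · intro h y hy
    simp only [Option.mem_def, Option.some.injEq] at hy
    rw [← hy]; exact h

theorem some_Ap {S : Set T} {t : T} {d : ZMod 4} : (some (t, d) : Port T) ∈ Ap S ↔ t ∈ S := by
  constructor
  · rintro ⟨y, hy, h⟩
    simp only [Option.some.injEq] at hy
    rw [← hy] at h; exact h
  · intro h; exact ⟨_, rfl, h⟩

theorem rot_Fp {S : Set T} {x : Port T} : rot x ∈ Fp S ↔ x ∈ Fp S := by
  rcases x with _ | ⟨t, d⟩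
  · exact Iff.rfl
  · rw [Xr249.rot_some]; exact some_Fp.trans some_Fp.symm

theorem rot_Ap {S : Set T} {x : Port T} : rot x ∈ Ap S ↔ x ∈ Ap S := by
  rcases x with _ | ⟨t, d⟩
  · exact Iff.rfl
  · rw [Xr249.rot_some]; exact some_Ap.trans some_Ap.symm

theorem al_Fp {S : Set T} {s : T → Bool} {x : Port T} (h : x ∈ Fp S) : al s x ∈ Fp S := by
  rcases x with _ | ⟨t, d⟩
  · exact h
  · exact some_Fp.2 (some_Fp.1 h)

theorem al_Ap {S : Set T} {s : T → Bool} {x : Port T} (h : x ∈ Ap S) : al s x ∈ Ap S := by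
  rcases x with _ | ⟨t, d⟩
  · exact h
  · exact some_Ap.2 (some_Ap.1 h)

theorem Fp_Ap {S S' : Set T} (h : ∀ t ∈ S, t ∉ S') {x : Port T} (hx : x ∈ Fp S) : x ∉ Ap S' := by
  rintro ⟨y, rfl, hy⟩
  exact h y.1 (hx y rfl) hy

end ports

/-- first and second vertex of a side -/
def V0 (p : Port (ℤ × ℤ)) : ℤ × ℤ := fa (0, 0) (lc p)
/-- first and second vertex of a side -/
def V1 (p : Port (ℤ × ℤ)) : ℤ × ℤ := fa (0, 0) (rc p)


theorem V1_gl {K : Reg} {p q : Port (ℤ × ℤ)} (h : K.gl p q) : V1 q = V0 p :=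
  (gl_fa (z := (0, 0)) h).1.symm

/-- an annulus in the plane -/
structure ChA (K : Reg) (w0 : Wd (ℤ × ℤ)) (N1 Jl N2 Jo : List (Port (ℤ × ℤ)))
    (Ob : ℤ × ℤ → Prop) (a b : Port (ℤ × ℤ)) : Prop where
  rw : ∃ b0, RW K w0 b0
  leg : ¬ Sw300.isLeg w0
  ring : ∃ Q, Sw300.L w0 = none :: Q ∧ Q ~r N1 ++ Jl ++ N2 ++ Jo
  c1 : List.IsChain (Nx K.gl) N1
  c2 : List.IsChain (Nx K.gl) N2
  e1 : ∃ n, N1 = a :: n
  e2 : ∃ n, N2 = n ++ [b]
  oJo : ∀ p ∈ Jo, Ob (V1 p)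
  oN2 : Ob (V1 b)
  oJl : ∀ p ∈ Jl, ¬ Ob (V0 p)
  oN : ∀ p ∈ N1 ++ N2, Ob (V0 p) → p = a

section

variable {K : Reg} {w0 : Wd (ℤ × ℤ)} {N1 Jl N2 Jo : List (Port (ℤ × ℤ))} {Ob : ℤ × ℤ → Prop}
  {a b : Port (ℤ × ℤ)}

theorem ChA.mem (h : ChA K w0 N1 Jl N2 Jo Ob a b) {p : Port (ℤ × ℤ)} :
    p ∈ N1 ++ Jl ++ N2 ++ Jo ↔ p ∈ Sw300.L w0 ∧ p ≠ none := by
  obtain ⟨b0, hr⟩ := h.rw
  obtain ⟨Q, h1, h2⟩ := h.ring
  have hn := Sw300.nodup hr.ok
  rw [h1] at hn
  rw [← h2.mem_iff, h1, List.mem_cons]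
  constructor
  · intro h3
    exact ⟨Or.inr h3, fun e => (List.nodup_cons.1 hn).1 (e ▸ h3)⟩
  · rintro ⟨h3, h4⟩
    exact h3.resolve_left h4

theorem ChA.port (h : ChA K w0 N1 Jl N2 Jo Ob a b) {p : Port (ℤ × ℤ)}
    (hp : p ∈ N1 ++ Jl ++ N2 ++ Jo) : p ∈ Ap (K.P : Set (ℤ × ℤ)) := by
  obtain ⟨b0, hr⟩ := h.rw
  obtain ⟨h1, h2⟩ := h.mem.1 hp
  rcases p with _ | ⟨t, d⟩
  · exact absurd rfl h2
  · exact some_Ap.2 ((hr.tls t).1 (Gc748.mem_L_tls hr.ok h1))

theorem ChA.free (h : ChA K w0 N1 Jl N2 Jo Ob a b) {p : Port (ℤ × ℤ)}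
    (hp : p ∈ N1 ++ Jl ++ N2 ++ Jo) (q : Port (ℤ × ℤ)) : ¬ K.gl p q ∧ ¬ K.gl q p := by
  obtain ⟨b0, hr⟩ := h.rw
  have h1 := (Gc748.be_state hr.ok).free p (h.mem.1 hp).1
  constructor
  · intro h2
    obtain ⟨h3, h4⟩ := (hr.be p q).1 h2
    exact h4 (h1.symm.trans h3)
  · intro h2
    obtain ⟨h3, h4⟩ := (hr.be q p).1 h2
    have h5 := be_invol hr.ok q
    rw [h3, h1] at h5
    exact h4 h5.symm

/-- a port of the annulus is on the ring or glued -/
theorem ChA.cases (h : ChA K w0 N1 Jl N2 Jo Ob a b) {p : Port (ℤ × ℤ)}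
    (hp : p ∈ Ap (K.P : Set (ℤ × ℤ))) : p ∈ N1 ++ Jl ++ N2 ++ Jo ∨ ∃ q, K.gl p q := by
  obtain ⟨b0, hr⟩ := h.rw
  obtain ⟨y, rfl, hy⟩ := hp
  by_cases h1 : Sw300.be w0 (some y) = some y
  · left
    refine h.mem.2 ⟨mem_L_of_free hr.ok ?_ h1, by simp⟩
    intro z hz
    simp only [Option.mem_def, Option.some.injEq] at hz
    rw [← hz]; exact (hr.tls _).2 hy
  · right
    exact ⟨Sw300.be w0 (some y), (hr.be _ _).2 ⟨rfl, fun e => h1 e.symm⟩⟩

theorem ChA.gl_port {p q : Port (ℤ × ℤ)} (hp : K.gl p q) :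
    p ∈ Ap (K.P : Set (ℤ × ℤ)) ∧ q ∈ Ap (K.P : Set (ℤ × ℤ)) := by
  rcases p with _ | ⟨⟨x, y⟩, d⟩
  · exact hp.elim
  · rcases Xr249.Reg.d4 d with rfl | rfl | rfl | rfl
    · obtain ⟨h1, rfl⟩ := Xr249.Reg.gl_0.1 hp
      have := K.hP _ _ h1
      rw [sub_add_cancel] at this
      exact ⟨some_Ap.2 this.2, some_Ap.2 this.1⟩
    · obtain ⟨h1, rfl⟩ := Xr249.Reg.gl_1.1 hp
      exact ⟨some_Ap.2 (K.vP _ _ h1).1, some_Ap.2 (K.vP _ _ h1).2⟩
    · obtain ⟨h1, rfl⟩ := Xr249.Reg.gl_2.1 hp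
      exact ⟨some_Ap.2 (K.hP _ _ h1).1, some_Ap.2 (K.hP _ _ h1).2⟩
    · obtain ⟨h1, rfl⟩ := Xr249.Reg.gl_3.1 hp
      have := K.vP _ _ h1
      rw [sub_add_cancel] at this
      exact ⟨some_Ap.2 this.2, some_Ap.2 this.1⟩

end

variable {T : Type*} [DecidableEq T]

/-- a region which contains the annulus `K` -/
structure Loc (K : Reg) (N1 Jl N2 Jo : List (Port (ℤ × ℤ))) (be : Port T → Port T) (Ft At : Set T)
    (ψ : T → ℤ × ℤ) (φ : ℤ × ℤ → T) (δ : ZMod 4) : Prop where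
  dj : ∀ t ∈ Ft, t ∉ At
  mp : ∀ t ∈ At, ψ t ∈ K.P
  lf : ∀ t ∈ At, φ (ψ t) = t
  ms : ∀ c ∈ K.P, φ c ∈ At
  rt : ∀ c ∈ K.P, ψ (φ c) = c
  inv : Function.Involutive be
  glued : ∀ p q, K.gl p q → be (pm φ (-δ) p) = pm φ (-δ) q
  wall : ∀ p ∈ N1 ++ N2, be (pm φ (-δ) p) = pm φ (-δ) p
  inner : ∀ p ∈ Jl, be (pm φ (-δ) p) ∉ Fp Ft ∪ Ap At
  outer : ∀ p ∈ Jo, be (pm φ (-δ) p) ∈ Fp Ft
  far : ∀ x ∈ Fp Ft, be x ∈ Fp Ft ∪ Ap At

section loc

variable {K : Reg} {w0 : Wd (ℤ × ℤ)} {N1 Jl N2 Jo : List (Port (ℤ × ℤ))} {Ob : ℤ × ℤ → Prop}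
  {a b : Port (ℤ × ℤ)} {be be' : Port T → Port T} {Ft At : Set T} {ψ : T → ℤ × ℤ}
  {φ : ℤ × ℤ → T} {δ : ZMod 4}

theorem Loc.pf (h : Loc K N1 Jl N2 Jo be Ft At ψ φ δ) {p : Port (ℤ × ℤ)}
    (hp : p ∈ Ap (K.P : Set (ℤ × ℤ))) : pm φ (-δ) p ∈ Ap At ∧ pm ψ δ (pm φ (-δ) p) = p := by
  obtain ⟨⟨c, d⟩, rfl, hc⟩ := hp
  refine ⟨some_Ap.2 (h.ms c hc), ?_⟩
  simp only [pm_some]
  rw [h.rt c hc, neg_add_cancel_right]

theorem Loc.pb (h : Loc K N1 Jl N2 Jo be Ft At ψ φ δ) {x : Port T} (hx : x ∈ Ap At) :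
    pm ψ δ x ∈ Ap (K.P : Set (ℤ × ℤ)) ∧ pm φ (-δ) (pm ψ δ x) = x := by
  obtain ⟨⟨t, d⟩, rfl, ht⟩ := hx
  refine ⟨some_Ap.2 (h.mp t ht), ?_⟩
  simp only [pm_some]
  rw [h.lf t ht, add_neg_cancel_right]

theorem Loc.inj (h : Loc K N1 Jl N2 Jo be Ft At ψ φ δ) {p q : Port (ℤ × ℤ)}
    (hp : p ∈ Ap (K.P : Set (ℤ × ℤ))) (hq : q ∈ Ap (K.P : Set (ℤ × ℤ)))
    (e : pm φ (-δ) p = pm φ (-δ) q) : p = q := by
  rw [← (h.pf hp).2, e, (h.pf hq).2]

theorem gl_ne {p q : Port (ℤ × ℤ)} (hp : K.gl p q) : p ≠ q := by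
  rintro rfl
  rcases p with _ | ⟨⟨x, y⟩, d⟩
  · exact hp
  · rcases Xr249.Reg.d4 d with rfl | rfl | rfl | rfl
    · have := (Xr249.Reg.gl_0.1 hp).2
      simp only [Option.some.injEq, Prod.mk.injEq] at this
      exact absurd this.2 (by decide)
    · have := (Xr249.Reg.gl_1.1 hp).2
      simp only [Option.some.injEq, Prod.mk.injEq] at this
      exact absurd this.2 (by decide)
    · have := (Xr249.Reg.gl_2.1 hp).2
      simp only [Option.some.injEq, Prod.mk.injEq] at this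
      exact absurd this.2 (by decide)
    · have := (Xr249.Reg.gl_3.1 hp).2
      simp only [Option.some.injEq, Prod.mk.injEq] at this
      exact absurd this.2 (by decide)

/-- an edge of the chart is an edge of the region -/
theorem Loc.edge (h : Loc K N1 Jl N2 Jo be Ft At ψ φ δ) {p q : Port (ℤ × ℤ)} (hp : K.gl p q) :
    Gl be (pm φ (-δ) p) (pm φ (-δ) q) := by
  have h1 := ChA.gl_port hp
  exact ⟨h.glued p q hp, fun e => gl_ne hp (h.inj h1.1 h1.2 e)⟩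

/-- boundary steps inside the annulus -/
theorem Loc.nx (h : Loc K N1 Jl N2 Jo be Ft At ψ φ δ) {p r : Port (ℤ × ℤ)} (hp : Nx K.gl p r)
    (hr : r ∈ N1 ++ N2) : Nx (Gl be) (pm φ (-δ) p) (pm φ (-δ) r) := by
  induction hp with
  | @stop p hs =>
    rw [pm_rot]
    refine .stop fun q hq => ?_
    rw [← pm_rot] at hq
    exact hq.2 ((h.wall _ hr).symm.trans hq.1)
  | @go p q r hg hn ih =>
    refine .go (q := pm φ (-δ) q) ?_ (ih hr)
    rw [← pm_rot]
    exact h.edge hg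

/-- the outer ports of the region -/
theorem Loc.far_cases (h : Loc K N1 Jl N2 Jo be Ft At ψ φ δ) (hc : ChA K w0 N1 Jl N2 Jo Ob a b)
    {x : Port T} (hx : x ∈ Fp Ft) :
    be x ∈ Fp Ft ∨ ∃ p ∈ Jo, be x = pm φ (-δ) p := by
  rcases h.far x hx with h1 | h1
  · exact Or.inl h1
  right
  obtain ⟨h2, h3⟩ := h.pb h1
  set p := pm ψ δ (be x) with hp
  have hb : be (pm φ (-δ) p) = x := by rw [h3]; exact h.inv x
  rcases hc.cases h2 with h4 | ⟨q, h4⟩
  · simp only [List.mem_append] at h4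
    rcases h4 with ((h5 | h5) | h5) | h5
    · exfalso
      have := h.wall p (by simp [h5])
      rw [hb] at this
      exact Fp_Ap h.dj hx (this ▸ (h.pf h2).1)
    · exfalso
      exact h.inner p h5 (Or.inl (hb ▸ hx))
    · exfalso
      have := h.wall p (by simp [h5])
      rw [hb] at this
      exact Fp_Ap h.dj hx (this ▸ (h.pf h2).1)
    · exact ⟨p, h5, h3.symm⟩
  · exfalso
    have := h.glued p q h4
    rw [hb] at this
    exact Fp_Ap h.dj hx (this ▸ (h.pf (ChA.gl_port h4).2).1)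

/-- the two glueings agree outside the inner side -/
theorem Loc.eq_out (h : Loc K N1 Jl N2 Jo be Ft At ψ φ δ) (h' : Loc K N1 Jl N2 Jo be' Ft At ψ φ δ)
    (hc : ChA K w0 N1 Jl N2 Jo Ob a b) (hF : ∀ x ∈ Fp Ft, be' x = be x) {p : Port (ℤ × ℤ)}
    (hp : p ∈ Ap (K.P : Set (ℤ × ℤ))) (hJ : p ∉ Jl) :
    be' (pm φ (-δ) p) = be (pm φ (-δ) p) := by
  rcases hc.cases hp with h4 | ⟨q, h4⟩
  · simp only [List.mem_append] at h4
    rcases h4 with ((h5 | h5) | h5) | h5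
    · rw [h.wall p (by simp [h5]), h'.wall p (by simp [h5])]
    · exact absurd h5 hJ
    · rw [h.wall p (by simp [h5]), h'.wall p (by simp [h5])]
    · have h6 := h.outer p h5
      have h7 := hF _ h6
      rw [h.inv] at h7
      rw [← h7, h'.inv, h7]
  · rw [h.glued p q h4, h'.glued p q h4]

/-- **boundary steps of the far part** -/
theorem Loc.nx_far (h : Loc K N1 Jl N2 Jo be Ft At ψ φ δ)
    (h' : Loc K N1 Jl N2 Jo be' Ft At ψ φ δ) (hc : ChA K w0 N1 Jl N2 Jo Ob a b)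
    (hF : ∀ x ∈ Fp Ft, be' x = be x) {x y : Port T} (hxy : Nx (Gl be) x y)
    (hx : x ∈ Fp Ft ∨ ∃ p ∈ Ap (K.P : Set (ℤ × ℤ)), x = pm φ (-δ) p ∧ Ob (V1 p)) :
    Nx (Gl be') x y ∧ (y ∈ Fp Ft ∨ y = pm φ (-δ) a) := by
  induction hxy with
  | @stop x hs =>
    have hfix : be (rot x) = rot x := by
      by_contra hne
      exact hs (be (rot x)) ⟨rfl, fun e => hne e.symm⟩
    rcases hx with hx | ⟨p, hp, rfl, ho⟩
    · have h1 : rot x ∈ Fp Ft := rot_Fp.2 hx
      refine ⟨.stop fun q hq => ?_, Or.inl h1⟩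
      obtain ⟨h2, h3⟩ := hq
      rw [hF _ h1, hfix] at h2
      exact h3 h2
    · have hr : rot p ∈ Ap (K.P : Set (ℤ × ℤ)) := rot_Ap.2 hp
      rw [← pm_rot] at hfix ⊢
      have hO : Ob (V0 (rot p)) := ho
      rcases hc.cases hr with h4 | ⟨q, h4⟩
      · simp only [List.mem_append] at h4
        have hN : rot p ∈ N1 ++ N2 → Nx (Gl be') (pm φ (-δ) p) (pm φ (-δ) (rot p)) ∧
            (pm φ (-δ) (rot p) ∈ Fp Ft ∨ pm φ (-δ) (rot p) = pm φ (-δ) a) := by
          intro h5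
          refine ⟨?_, Or.inr (by rw [hc.oN _ h5 hO])⟩
          rw [pm_rot]
          refine .stop fun q hq => ?_
          rw [← pm_rot] at hq
          exact hq.2 ((h'.wall _ h5).symm.trans hq.1)
        rcases h4 with ((h5 | h5) | h5) | h5
        · exact hN (by simp [h5])
        · exact absurd hO (hc.oJl _ h5)
        · exact hN (by simp [h5])
        · exfalso
          have h6 := h.outer _ h5
          rw [hfix] at h6
          exact Fp_Ap h.dj h6 (h.pf hr).1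
      · exfalso
        exact (h.edge h4).2 (hfix.symm.trans (h.edge h4).1)
  | @go x q y hg hn ih =>
    obtain ⟨hg1, hg2⟩ := hg
    rcases hx with hx | ⟨p, hp, rfl, ho⟩
    · have h1 : rot x ∈ Fp Ft := rot_Fp.2 hx
      have h2 : q ∈ Fp Ft ∨ ∃ p ∈ Ap (K.P : Set (ℤ × ℤ)), q = pm φ (-δ) p ∧ Ob (V1 p) := by
        rcases h.far_cases hc h1 with h3 | ⟨p, hp, h3⟩
        · left; rw [← hg1]; exact h3
        · right; exact ⟨p, hc.port (by simp [hp]), hg1.symm.trans h3, hc.oJo p hp⟩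
      obtain ⟨h3, h4⟩ := ih h2
      exact ⟨.go ⟨(hF _ h1).trans hg1, hg2⟩ h3, h4⟩
    · have hr : rot p ∈ Ap (K.P : Set (ℤ × ℤ)) := rot_Ap.2 hp
      rw [← pm_rot] at hg1 hg2
      have hO : Ob (V0 (rot p)) := ho
      have hJl : rot p ∉ Jl := fun h5 => hc.oJl _ h5 hO
      have hbe := h.eq_out h' hc hF hr hJl
      have h2 : q ∈ Fp Ft ∨ ∃ p ∈ Ap (K.P : Set (ℤ × ℤ)), q = pm φ (-δ) p ∧ Ob (V1 p) := by
        rcases hc.cases hr with h4 | ⟨r, h4⟩
        · simp only [List.mem_append] at h4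
          have hN : rot p ∈ N1 ++ N2 → False := by
            intro h5
            exact hg2 ((h.wall _ h5).symm.trans hg1)
          rcases h4 with ((h5 | h5) | h5) | h5
          · exact (hN (by simp [h5])).elim
          · exact absurd h5 hJl
          · exact (hN (by simp [h5])).elim
          · left; rw [← hg1]; exact h.outer _ h5
        · right
          refine ⟨r, (ChA.gl_port h4).2, hg1.symm.trans (h.glued _ _ h4), ?_⟩
          rw [V1_gl h4]; exact hO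
      obtain ⟨h3, h4⟩ := ih h2
      refine ⟨.go (q := q) ?_ h3, h4⟩
      rw [← pm_rot]
      exact ⟨hbe.trans hg1, hg2⟩

/-! ### the annulus state of a region -/

/-- the chart splitting -/
def cs (fl : Bool) (φ : ℤ × ℤ → T) (s : T → Bool) : ℤ × ℤ → Bool := fun c => xor fl (s (φ c))

theorem Loc.al_eq (h : Loc K N1 Jl N2 Jo be Ft At ψ φ δ) {fl : Bool}
    (hth : ∀ (b : Bool) (d : ZMod 4), thru (xor fl b) (d + δ) = thru b d + δ) (s : T → Bool)
    {x : Port T} (hx : x ∈ Ap At) : pm ψ δ (al s x) = al (cs fl φ s) (pm ψ δ x) := by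
  obtain ⟨⟨t, d⟩, rfl, ht⟩ := hx
  simp only [al_some, pm_some]
  unfold cs
  rw [h.lf t ht, hth]

theorem Loc.annS (h : Loc K N1 Jl N2 Jo be Ft At ψ φ δ) (hc : ChA K w0 N1 Jl N2 Jo Ob a b)
    {fl : Bool} (hth : ∀ (b : Bool) (d : ZMod 4), thru (xor fl b) (d + δ) = thru b d + δ)
    (s : T → Bool) :
    AnnS (al s) be (Fp Ft) (Ap At) (N1.map (pm φ (-δ))) (Jl.map (pm φ (-δ)))
      (N2.map (pm φ (-δ))) (Jo.map (pm φ (-δ)))
      (pull (pm ψ δ) (N1.map (pm φ (-δ)) ++ Jl.map (pm φ (-δ)) ++ N2.map (pm φ (-δ)) ++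
        Jo.map (pm φ (-δ))) (Sw300.M (cs fl φ s) w0)) := by
  obtain ⟨b0, hr⟩ := hc.rw
  obtain ⟨Q, hQ1, hQ2⟩ := hc.ring
  have eL : N1.map (pm φ (-δ)) ++ Jl.map (pm φ (-δ)) ++ N2.map (pm φ (-δ)) ++ Jo.map (pm φ (-δ)) =
      (N1 ++ Jl ++ N2 ++ Jo).map (pm φ (-δ)) := by simp
  have hmem : ∀ {x : Port T}, x ∈ N1.map (pm φ (-δ)) ++ Jl.map (pm φ (-δ)) ++ N2.map (pm φ (-δ)) ++
      Jo.map (pm φ (-δ)) → ∃ p ∈ N1 ++ Jl ++ N2 ++ Jo, pm φ (-δ) p = x := by
    intro x hx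
    rw [eL] at hx
    exact List.mem_map.1 hx
  have hcl : ∀ {x : Port T}, x ∈ Ap At →
      x ∉ N1.map (pm φ (-δ)) ++ Jl.map (pm φ (-δ)) ++ N2.map (pm φ (-δ)) ++ Jo.map (pm φ (-δ)) →
      ∃ p q, K.gl p q ∧ x = pm φ (-δ) p ∧ be x = pm φ (-δ) q := by
    intro x hx hxn
    obtain ⟨h1, h2⟩ := h.pb hx
    rcases hc.cases h1 with h3 | ⟨q, h3⟩
    · exfalso
      apply hxn
      rw [eL, ← h2]
      exact List.mem_map_of_mem h3
    · exact ⟨_, q, h3, h2.symm, by rw [← h.glued _ q h3, h2]⟩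
  apply annS_of_chart (alY := al (cs fl φ s)) (beY := Sw300.be w0)
  · have e2 : (N1.map (pm φ (-δ)) ++ Jl.map (pm φ (-δ)) ++ N2.map (pm φ (-δ)) ++
        Jo.map (pm φ (-δ))).map (pm ψ δ) = N1 ++ Jl ++ N2 ++ Jo := by
      rw [eL, List.map_map]
      have : ∀ p ∈ N1 ++ Jl ++ N2 ++ Jo, (pm ψ δ ∘ pm φ (-δ)) p = p := fun p hp =>
        (h.pf (hc.port hp)).2
      rw [List.map_congr_left this, List.map_id']
    rw [e2]
    refine ring_of_word hr.ok _ (Sw300.u_none _ _ hr.ok hc.leg) (P := []) (Q := Q) ?_ (by simpa using hQ2)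
    rw [hQ1]; exact List.IsRotated.refl _
  · intro x hx y hy e
    rw [← (h.pb hx).2, e, (h.pb hy).2]
  · intro x hx
    obtain ⟨p, hp, rfl⟩ := hmem hx
    exact (h.pf (hc.port hp)).1
  · exact fun x hx => h.al_eq hth s hx
  · intro x hx hxn
    obtain ⟨p, q, h1, rfl, h2⟩ := hcl hx hxn
    rw [h2, (h.pf (ChA.gl_port h1).1).2, (h.pf (ChA.gl_port h1).2).2]
    exact ((hr.be p q).1 h1).1.symm
  · exact fun x hx => Fp_Ap h.dj hx
  · exact fun x hx => al_Fp hx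
  · exact fun x hx => al_Ap hx
  · intro x hx
    rcases h.far_cases hc hx with h1 | ⟨p, hp, h1⟩
    · exact Or.inl h1
    · right; rw [h1]; exact List.mem_map_of_mem hp
  · intro x hx hxn
    obtain ⟨p, q, h1, rfl, h2⟩ := hcl hx hxn
    rw [h2]
    refine ⟨(h.pf (ChA.gl_port h1).2).1, fun h3 => ?_⟩
    obtain ⟨r, hr1, hr2⟩ := hmem h3
    have := h.inj (hc.port hr1) (ChA.gl_port h1).2 hr2
    rw [this] at hr1
    exact (hc.free hr1 p).2 h1
  · intro x hx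
    obtain ⟨p, hp, rfl⟩ := List.mem_map.1 hx
    exact h.wall p (by simp [hp])
  · intro x hx
    obtain ⟨p, hp, rfl⟩ := List.mem_map.1 hx
    exact h.wall p (by simp [hp])
  · intro x hx
    obtain ⟨p, hp, rfl⟩ := List.mem_map.1 hx
    exact h.outer p hp

end loc

end Crest.Agent.R158.Sl434
end

-- ▼ part R158/Sl7_434
section

/-!
# R158, block SL (helper434), file Sl7: invariance of the official observable

* `Loc.two` : two regions which agree outside a ball behind an annulus form a `Two`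
* **`Loc.hv`** : `HV w m1 m2 m3 s = HV w' m1 m2 m3 s` if at most one arc crosses the annulus
* **`Loc.hv0`** : the same with one mark anywhere if no arc crosses the annulus
* **`Loc.HW_le`**, **`Loc.HW_le0`** : the mean values, bounds by probabilities in the chart
-/

set_option autoImplicit false
set_option linter.unusedSectionVars false

namespace Crest.Agent.R158.Sl434

open MeasureTheory ProbabilityTheory
open Crest.Agent.R158.Sw300 (Port Wd thru tls)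
open Crest.Agent.R158.Gc748 (RW chain_det)
open Crest.Agent.R158.Xr249 (Nx rot Reg)
open Crest.Agent.R158.Ob664 (Gl HV HW)
open Crest.Agent.R158.Rs689 (PB hf PB_map_inj PB_map_not)

section cyc2

variable {β : Type*} [DecidableEq β]

/-- a mark and its image in two lists `A ++ R`, `A ++ R'` -/
def Mr (A R R' : List β) (x x' : β) : Prop := (x ∈ A ∧ x' = x) ∨ (x ∈ R ∧ x' ∈ R')

theorem idx_left {A R : List β} {x : β} (hx : x ∈ A) :
    (A ++ R).idxOf x = A.idxOf x ∧ A.idxOf x < A.length :=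
  ⟨List.idxOf_append_of_mem hx, List.idxOf_lt_length_iff.2 hx⟩

theorem idx_right {A R : List β} (hn : (A ++ R).Nodup) {x : β} (hx : x ∈ R) :
    A.length ≤ (A ++ R).idxOf x := by
  rw [List.idxOf_append_of_notMem (notMem_left hn hx)]
  omega

theorem cycI_mr {A R R' : List β} (hn : (A ++ R).Nodup) (hn' : (A ++ R').Nodup)
    {x1 x2 x3 y1 y2 y3 : β} (h1 : Mr A R R' x1 y1) (h2 : Mr A R R' x2 y2) (h3 : Mr A R R' x3 y3)
    (h12 : x1 ∈ A ∨ x2 ∈ A) (h23 : x2 ∈ A ∨ x3 ∈ A) (h31 : x3 ∈ A ∨ x1 ∈ A) :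
    cycI (A ++ R) x1 x2 x3 ↔ cycI (A ++ R') y1 y2 y3 := by
  have key : ∀ {x y : β}, Mr A R R' x y → (x ∈ A ∧ (A ++ R).idxOf x < A.length ∧
      (A ++ R').idxOf y = (A ++ R).idxOf x) ∨
      (x ∉ A ∧ A.length ≤ (A ++ R).idxOf x ∧ A.length ≤ (A ++ R').idxOf y) := by
    intro x y h
    rcases h with ⟨h4, rfl⟩ | ⟨h4, h5⟩
    · left
      rw [(idx_left (R := R) h4).1, (idx_left (R := R') h4).1]
      exact ⟨h4, (idx_left (R := R) h4).2, rfl⟩
    · right
      exact ⟨notMem_left hn h4, idx_right hn h4, idx_right hn' h5⟩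
  have k1 := key h1
  have k2 := key h2
  have k3 := key h3
  unfold cycI Sw300.cyc
  rcases k1 with ⟨a1, b1, c1⟩ | ⟨a1, b1, c1⟩ <;> rcases k2 with ⟨a2, b2, c2⟩ | ⟨a2, b2, c2⟩ <;>
    rcases k3 with ⟨a3, b3, c3⟩ | ⟨a3, b3, c3⟩ <;> simp only [a1, a2, a3, or_self] at h12 h23 h31 <;>
    omega

end cyc2

variable {T : Type*} [DecidableEq T]

section loc

variable {K : Reg} {w0 : Wd (ℤ × ℤ)} {N1 Jl N2 Jo : List (Port (ℤ × ℤ))} {Ob : ℤ × ℤ → Prop}
  {a b : Port (ℤ × ℤ)} {w w' : Wd T} {Ft At : Set T} {ψ : T → ℤ × ℤ} {φ : ℤ × ℤ → T} {δ : ZMod 4}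

/-- the two words and their common annulus -/
structure Pair (K : Reg) (w0 : Wd (ℤ × ℤ)) (N1 Jl N2 Jo : List (Port (ℤ × ℤ)))
    (Ob : ℤ × ℤ → Prop) (a b : Port (ℤ × ℤ)) (w w' : Wd T) (Ft At : Set T) (ψ : T → ℤ × ℤ)
    (φ : ℤ × ℤ → T) (δ : ZMod 4) : Prop where
  ch : ChA K w0 N1 Jl N2 Jo Ob a b
  ok : Sw300.Ok w
  ok' : Sw300.Ok w'
  cy : Cy (Nx (Gl (Sw300.be w))) (Sw300.L w)
  cy' : Cy (Nx (Gl (Sw300.be w'))) (Sw300.L w')
  lc : Loc K N1 Jl N2 Jo (Sw300.be w) Ft At ψ φ δ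
  lc' : Loc K N1 Jl N2 Jo (Sw300.be w') Ft At ψ φ δ
  tl : ∀ t ∈ At, t ∈ tls w
  tl' : ∀ t ∈ At, t ∈ tls w'
  eqF : ∀ x ∈ Fp Ft, Sw300.be w' x = Sw300.be w x

theorem gl_fun {be : Port T → Port T} (x y z : Port T) (h : Gl be x y) (h' : Gl be x z) : y = z :=
  h.1.symm.trans h'.1

theorem Pair.two (h : Pair K w0 N1 Jl N2 Jo Ob a b w w' Ft At ψ φ δ) {fl : Bool}
    (hth : ∀ (b : Bool) (d : ZMod 4), thru (xor fl b) (d + δ) = thru b d + δ) (s : T → Bool) :
    ∃ A Di Gi,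
      Sw300.L w ~r A ++ N1.map (pm φ (-δ)) ++ Di ++ N2.map (pm φ (-δ)) ∧
      Sw300.L w' ~r A ++ N1.map (pm φ (-δ)) ++ Gi ++ N2.map (pm φ (-δ)) ∧
      Two (al s) (Sw300.be w) (al s) (Sw300.be w') (Fp Ft) (Ap At) (N1.map (pm φ (-δ)))
        (Jl.map (pm φ (-δ))) (N2.map (pm φ (-δ))) (Jo.map (pm φ (-δ)))
        (pull (pm ψ δ) (N1.map (pm φ (-δ)) ++ Jl.map (pm φ (-δ)) ++ N2.map (pm φ (-δ)) ++
        Jo.map (pm φ (-δ))) (Sw300.M (cs fl φ s) w0)) none A Di Gi (Sw300.M s w) (Sw300.M s w')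
        (Sw300.u s w) (Sw300.u s w') := by
  obtain ⟨hc, ok, ok', cy, cy', lc, lc', tl, tl', eqF⟩ := h
  obtain ⟨n, e1⟩ := hc.e1
  obtain ⟨m, e2⟩ := hc.e2
  have hsub : ∀ p ∈ N1 ++ N2, p ∈ N1 ++ Jl ++ N2 ++ Jo := by
    intro p hp
    simp only [List.mem_append] at hp ⊢
    tauto
  -- ends of the walls are free ends of the words
  have hL : ∀ p ∈ N1 ++ N2, pm φ (-δ) p ∈ Sw300.L w := by
    intro p hp
    obtain ⟨y, hy, hyA⟩ := (lc.pf (hc.port (hsub p hp))).1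
    refine mem_L_of_free ok ?_ (lc.wall p hp)
    intro z hz
    rw [hy] at hz
    simp only [Option.mem_def, Option.some.injEq] at hz
    rw [← hz]; exact tl _ hyA
  have hL' : ∀ p ∈ N1 ++ N2, pm φ (-δ) p ∈ Sw300.L w' := by
    intro p hp
    obtain ⟨y, hy, hyA⟩ := (lc'.pf (hc.port (hsub p hp))).1
    refine mem_L_of_free ok' ?_ (lc'.wall p hp)
    intro z hz
    rw [hy] at hz
    simp only [Option.mem_def, Option.some.injEq] at hz
    rw [← hz]; exact tl' _ hyA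
  -- chains
  have hch : ∀ {be : Port T → Port T}, Loc K N1 Jl N2 Jo be Ft At ψ φ δ → ∀ l : List (Port (ℤ × ℤ)),
      (∀ p ∈ l, p ∈ N1 ++ N2) → List.IsChain (Nx K.gl) l →
      List.IsChain (Nx (Gl be)) (l.map (pm φ (-δ))) := by
    intro be hloc l hl hcl
    rw [List.isChain_map]
    induction l with
    | nil => simp
    | cons x l ih =>
      cases l with
      | nil => simp
      | cons y l =>
        simp only [List.isChain_cons_cons] at hcl ⊢
        exact ⟨hloc.nx hcl.1 (hl y (by simp)), ih (fun p hp => hl p (by simp [hp])) hcl.2⟩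
  -- N2 starts with some `c`
  obtain ⟨c, n1, ec⟩ : ∃ c n1, N2 = c :: n1 := by
    cases hN : N2 with
    | nil => rw [hN] at e2; simp at e2
    | cons c n1 => exact ⟨c, n1, rfl⟩
  have hring : (N1 ++ Jl ++ N2 ++ Jo).Nodup := by
    obtain ⟨b0, hr⟩ := hc.rw
    obtain ⟨Q, hQ1, hQ2⟩ := hc.ring
    have hn := Sw300.nodup hr.ok
    rw [hQ1] at hn
    exact (hQ2.nodup_iff).1 (List.nodup_cons.1 hn).2
  have hnN : (N1 ++ N2).Nodup := by
    refine hring.sublist ?_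
    have e : N1 ++ Jl ++ N2 ++ Jo = N1 ++ (Jl ++ N2 ++ Jo) := by simp
    rw [e]
    refine List.Sublist.append (List.Sublist.refl _) ?_
    have e' : Jl ++ N2 ++ Jo = Jl ++ (N2 ++ Jo) := by simp
    rw [e']
    exact (List.sublist_append_left _ _).trans (List.sublist_append_right _ _)
  have hnT : (N1.map (pm φ (-δ)) ++ N2.map (pm φ (-δ))).Nodup := by
    rw [← List.map_append]
    refine List.Nodup.map_on ?_ hnN
    intro x hx y hy e
    exact lc.inj (hc.port (hsub x hx)) (hc.port (hsub y hy)) e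
  have hcA : ∀ p ∈ N1 ++ N2, pm φ (-δ) p ∉ Fp Ft := fun p hp h1 =>
    Fp_Ap lc.dj h1 (lc.pf (hc.port (hsub p hp))).1
  have m1 : N1.map (pm φ (-δ)) = pm φ (-δ) a :: n.map (pm φ (-δ)) := by rw [e1]; rfl
  have m2 : N2.map (pm φ (-δ)) = pm φ (-δ) c :: n1.map (pm φ (-δ)) := by rw [ec]; rfl
  have m3 : pm φ (-δ) c :: n1.map (pm φ (-δ)) = m.map (pm φ (-δ)) ++ [pm φ (-δ) b] := by
    rw [← m2, e2]; simp
  have hbm : b ∈ N1 ++ N2 := by rw [e2]; simp
  have hQ : ∀ p : Port T, (p ∈ Fp Ft ∨ p = pm φ (-δ) b) →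
      (p ∈ Fp Ft ∨ ∃ q ∈ Ap (K.P : Set (ℤ × ℤ)), p = pm φ (-δ) q ∧ Ob (Sl434.V1 q)) := by
    rintro p (hp | hp)
    · exact Or.inl hp
    · exact Or.inr ⟨b, hc.port (hsub b hbm), hp, hc.oN2⟩
  have cA : a ∈ N1 ++ N2 := by rw [e1]; simp
  have cC : c ∈ N1 ++ N2 := by rw [ec]; simp
  obtain ⟨A, Di, Gi, k1, k2, k3, k4, k5⟩ := two_lists (ρ := Nx (Gl (Sw300.be w)))
    (ρ' := Nx (Gl (Sw300.be w'))) (fun x y z => Nx.det gl_fun) (fun x y z => Nx.det gl_fun)
    cy (Sw300.nodup ok) cy' (Sw300.nodup ok') (Fa := Fp Ft) (a := pm φ (-δ) a) (c := pm φ (-δ) c)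
    (b := pm φ (-δ) b) (n := n.map (pm φ (-δ))) (n1 := n1.map (pm φ (-δ)))
    (n2 := m.map (pm φ (-δ))) (hL a cA) (hL c cC) (hL' a cA) (hL' c cC)
    (by rw [← m1]; exact hch lc N1 (fun p hp => by simp [hp]) hc.c1)
    (by rw [← m1]; exact hch lc' N1 (fun p hp => by simp [hp]) hc.c1) m3
    (by rw [← m2]; exact hch lc N2 (fun p hp => by simp [hp]) hc.c2)
    (by rw [← m2]; exact hch lc' N2 (fun p hp => by simp [hp]) hc.c2)
    (by rw [← m1, ← m2]; exact hnT) (hcA c cC)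
    (fun p q hp hq => lc.nx_far lc' hc eqF hq (hQ p hp))
    (fun p q hp hq => (lc'.nx_far lc hc (fun x hx => (eqF x hx).symm) hq (hQ p hp)).2)
  rw [← m1, ← m2] at k1 k2
  have hDn := (k1.nodup_iff).1 (Sw300.nodup ok)
  have hGn := (k2.nodup_iff).1 (Sw300.nodup ok')
  -- inner ends are not in the annulus
  have hout : ∀ {v : Wd T} (R : List (Port T)), Sw300.Ok v →
      Loc K N1 Jl N2 Jo (Sw300.be v) Ft At ψ φ δ →
      Sw300.L v ~r A ++ N1.map (pm φ (-δ)) ++ R ++ N2.map (pm φ (-δ)) →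
      ∀ x ∈ R, x ∉ Ap At := by
    intro v R hv hloc hrot x hx hxA
    have hn := (hrot.nodup_iff).1 (Sw300.nodup hv)
    have hfr : Sw300.be v x = x := (Gc748.be_state hv).free x (hrot.mem_iff.2 (by simp [hx]))
    obtain ⟨h1, h2⟩ := hloc.pb hxA
    rcases hc.cases h1 with h3 | ⟨q, h3⟩
    · simp only [List.mem_append] at h3
      rcases h3 with ((h4 | h4) | h4) | h4
      · have h5 : x ∈ N1.map (pm φ (-δ)) := by rw [← h2]; exact List.mem_map_of_mem h4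
        have e : A ++ N1.map (pm φ (-δ)) ++ R ++ N2.map (pm φ (-δ)) =
          (A ++ N1.map (pm φ (-δ))) ++ (R ++ N2.map (pm φ (-δ))) := by simp
        rw [e] at hn
        exact notMem_left hn (List.mem_append_left _ hx) (List.mem_append_right _ h5)
      · have h5 := hloc.inner _ h4
        rw [h2, hfr] at h5
        exact h5 (Or.inr hxA)
      · have h5 : x ∈ N2.map (pm φ (-δ)) := by rw [← h2]; exact List.mem_map_of_mem h4
        exact notMem_left hn h5 (by simp [hx])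
      · have h5 := hloc.outer _ h4
        rw [h2, hfr] at h5
        exact Fp_Ap hloc.dj h5 hxA
    · have h5 := (hloc.edge h3).2
      have h6 := hloc.glued _ _ h3
      rw [h2] at h5 h6
      exact h5 (hfr.symm.trans h6)
  refine ⟨A, Di, Gi, k1, k2, ⟨lc.annS hc hth s, fun _ _ => rfl, ?_, none_Fp _, k3,
    (sys_of_word ok s).rot k1, (sys_of_word ok' s).rot k2, ?_, ?_⟩⟩
  · intro x hx hJ
    rcases hx with hx | hx
    · exact eqF x hx
    · obtain ⟨h1, h2⟩ := lc.pb hx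
      rw [← h2]
      refine lc.eq_out lc' hc eqF h1 fun h3 => hJ ?_
      rw [← h2]; exact List.mem_map_of_mem h3
  · rintro x hx (h1 | h1)
    · exact k4 x hx h1
    · exact hout Di ok lc k1 x hx h1
  · rintro x hx (h1 | h1)
    · exact k5 x hx h1
    · exact hout Gi ok' lc' k2 x hx h1

/-- the partner in the annulus of a port of the inner side -/
theorem Pair.pull_iff (h : Pair K w0 N1 Jl N2 Jo Ob a b w w' Ft At ψ φ δ) {fl : Bool} (s : T → Bool)
    {i : Port (ℤ × ℤ)} (hi : i ∈ Jl)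
    (hM : pull (pm ψ δ) (N1.map (pm φ (-δ)) ++ Jl.map (pm φ (-δ)) ++ N2.map (pm φ (-δ)) ++
        Jo.map (pm φ (-δ))) (Sw300.M (cs fl φ s) w0) (pm φ (-δ) i) ∈ Jo.map (pm φ (-δ))) :
    Sw300.M (cs fl φ s) w0 i ∈ Jo := by
  have hc := h.ch
  have lc := h.lc
  obtain ⟨b0, hr⟩ := hc.rw
  have eL : N1.map (pm φ (-δ)) ++ Jl.map (pm φ (-δ)) ++ N2.map (pm φ (-δ)) ++ Jo.map (pm φ (-δ)) =
      (N1 ++ Jl ++ N2 ++ Jo).map (pm φ (-δ)) := by simp
  have e2 : (N1.map (pm φ (-δ)) ++ Jl.map (pm φ (-δ)) ++ N2.map (pm φ (-δ)) ++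
        Jo.map (pm φ (-δ))).map (pm ψ δ) = N1 ++ Jl ++ N2 ++ Jo := by
    rw [eL, List.map_map]
    have : ∀ p ∈ N1 ++ Jl ++ N2 ++ Jo, (pm ψ δ ∘ pm φ (-δ)) p = p := fun p hp =>
      (lc.pf (hc.port hp)).2
    rw [List.map_congr_left this, List.map_id']
  have hi' : i ∈ N1 ++ Jl ++ N2 ++ Jo := by simp [hi]
  have hI := Sw300.Ok.inv (cs fl φ s) w0 hr.ok
  have hmem : ∀ x ∈ (N1.map (pm φ (-δ)) ++ Jl.map (pm φ (-δ)) ++ N2.map (pm φ (-δ)) ++
        Jo.map (pm φ (-δ))).map (pm ψ δ), Sw300.M (cs fl φ s) w0 x ∈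
      (N1.map (pm φ (-δ)) ++ Jl.map (pm φ (-δ)) ++ N2.map (pm φ (-δ)) ++
        Jo.map (pm φ (-δ))).map (pm ψ δ) := by
    intro x hx
    rw [e2] at hx ⊢
    obtain ⟨h1, h2⟩ := hc.mem.1 hx
    refine hc.mem.2 ⟨hI.mem x h1, ?_⟩
    have hu := Sw300.u_none (cs fl φ s) w0 hr.ok hc.leg
    rw [← hu]
    exact hI.Mu h1 (by rw [hu]; exact h2)
  have hx : pm φ (-δ) i ∈ N1.map (pm φ (-δ)) ++ Jl.map (pm φ (-δ)) ++ N2.map (pm φ (-δ)) ++
        Jo.map (pm φ (-δ)) := by rw [eL]; exact List.mem_map_of_mem hi'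
  obtain ⟨h1, h2⟩ := pull_spec hmem hx
  obtain ⟨j, hj, hje⟩ := List.mem_map.1 hM
  rw [(lc.pf (hc.port hi')).2, ← hje, (lc.pf (hc.port (by simp [hj]))).2] at h2
  rw [← h2]; exact hj

/-- **invariance of the official observable, at most one crossing arc** -/
theorem Pair.hv (h : Pair K w0 N1 Jl N2 Jo Ob a b w w' Ft At ψ φ δ) {fl : Bool}
    (hth : ∀ (b : Bool) (d : ZMod 4), thru (xor fl b) (d + δ) = thru b d + δ) (s : T → Bool)
    (hx : ∀ i ∈ Jl, ∀ j ∈ Jl, Sw300.M (cs fl φ s) w0 i ∈ Jo → Sw300.M (cs fl φ s) w0 j ∈ Jo → i = j)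
    {m1 m2 m3 : Port T} (h1 : m1 ∈ Sw300.L w) (h2 : m2 ∈ Sw300.L w) (h3 : m3 ∈ Sw300.L w)
    (f1 : m1 ∈ Fp Ft) (f2 : m2 ∈ Fp Ft) (f3 : m3 ∈ Fp Ft)
    (hcyc : Sw300.cyc (Sw300.pos w m1) (Sw300.pos w m2) (Sw300.pos w m3)) :
    HV w m1 m2 m3 s = HV w' m1 m2 m3 s := by
  obtain ⟨A, Di, Gi, k1, k2, k3⟩ := h.two hth s
  set N1T := N1.map (pm φ (-δ))
  set N2T := N2.map (pm φ (-δ))
  have hsub : ∀ p ∈ N1 ++ N2, p ∈ N1 ++ Jl ++ N2 ++ Jo := by
    intro p hp
    simp only [List.mem_append] at hp ⊢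
    tauto
  have hA : ∀ {m : Port T}, m ∈ Sw300.L w → m ∈ Fp Ft → m ∈ A := by
    intro m hm hf
    have h4 := k1.mem_iff.1 hm
    simp only [List.mem_append] at h4
    rcases h4 with ((h4 | h4) | h4) | h4
    · exact h4
    · obtain ⟨p, hp, rfl⟩ := List.mem_map.1 h4
      exact absurd (h.lc.pf (h.ch.port (hsub p (by simp [hp])))).1 (Fp_Ap h.lc.dj hf)
    · exact absurd (Or.inl hf) (k3.Do m h4)
    · obtain ⟨p, hp, rfl⟩ := List.mem_map.1 h4
      exact absurd (h.lc.pf (h.ch.port (hsub p (by simp [hp])))).1 (Fp_Ap h.lc.dj hf)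
  have a1 := hA h1 f1
  have a2 := hA h2 f2
  have a3 := hA h3 f3
  have hL' : ∀ {m : Port T}, m ∈ A → m ∈ Sw300.L w' := fun hm => k2.mem_iff.2 (by simp [hm])
  have n12 : m1 ≠ m2 := by rintro rfl; unfold Sw300.cyc at hcyc; omega
  have n31 : m3 ≠ m1 := by rintro rfl; unfold Sw300.cyc at hcyc; omega
  have hnw := Sw300.nodup h.ok
  have hnw' := Sw300.nodup h.ok'
  have e1 : A ++ N1T ++ Di ++ N2T = A ++ (N1T ++ Di ++ N2T) := by simp
  have e2 : A ++ N1T ++ Gi ++ N2T = A ++ (N1T ++ Gi ++ N2T) := by simp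
  have hcyc' : Sw300.cyc (Sw300.pos w' m1) (Sw300.pos w' m2) (Sw300.pos w' m3) := by
    rw [← cycI_pos (Sw300.sorted w' h.ok') (hL' a1) (hL' a2) (hL' a3),
      ← cycI_rot k2 hnw' (hL' a1) (hL' a2) (hL' a3), e2]
    rw [← cycI_pos (Sw300.sorted w h.ok) h1 h2 h3, ← cycI_rot k1 hnw h1 h2 h3, e1] at hcyc
    refine (cycI_mr ?_ ?_ (Or.inl ⟨a1, rfl⟩) (Or.inl ⟨a2, rfl⟩) (Or.inl ⟨a3, rfl⟩) (Or.inl a1)
      (Or.inl a2) (Or.inl a3)).1 hcyc
    · rw [← e1]; exact (k1.nodup_iff).1 hnw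
    · rw [← e2]; exact (k2.nodup_iff).1 hnw'
  have hi := Sw300.Ok.inv s w h.ok
  have hi' := Sw300.Ok.inv s w' h.ok'
  rw [hv_eq h.ok s h1 h2 h3 hcyc, hv_eq h.ok' s (hL' a1) (hL' a2) (hL' a3) hcyc',
    ← vv_rot k1 hnw hi.um h1 h2 h3 n12 n31, ← vv_rot k2 hnw' hi'.um (hL' a1) (hL' a2) (hL' a3)
      n12 n31]
  refine vv_ann k3 ?_ a1 a2 a3 n12 n31
  intro i hi j hj hMi hMj
  obtain ⟨i0, hi0, rfl⟩ := List.mem_map.1 hi
  obtain ⟨j0, hj0, rfl⟩ := List.mem_map.1 hj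
  rw [hx i0 hi0 j0 hj0 (h.pull_iff s hi0 hMi) (h.pull_iff s hj0 hMj)]

/-- a mark of `w` and its image in `w'` -/
def Mm (Ft At : Set T) (w w' : Wd T) (m y : Port T) : Prop :=
  m ∈ Sw300.L w ∧ ((m ∈ Fp Ft ∪ Ap At ∧ y = m) ∨
    (m ∉ Fp Ft ∪ Ap At ∧ y ∈ Sw300.L w' ∧ y ∉ Fp Ft ∪ Ap At))

/-- **invariance of the official observable, no crossing arc, one mark anywhere** -/
theorem Pair.hv0 (h : Pair K w0 N1 Jl N2 Jo Ob a b w w' Ft At ψ φ δ) {fl : Bool}
    (hth : ∀ (b : Bool) (d : ZMod 4), thru (xor fl b) (d + δ) = thru b d + δ) (s : T → Bool)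
    (hx : ∀ i ∈ Jl, Sw300.M (cs fl φ s) w0 i ∉ Jo) {m1 m2 m3 y1 y2 y3 : Port T}
    (h1 : Mm Ft At w w' m1 y1) (h2 : Mm Ft At w w' m2 y2) (h3 : Mm Ft At w w' m3 y3)
    (f12 : m1 ∈ Fp Ft ∨ m2 ∈ Fp Ft) (f23 : m2 ∈ Fp Ft ∨ m3 ∈ Fp Ft)
    (f31 : m3 ∈ Fp Ft ∨ m1 ∈ Fp Ft)
    (hcyc : Sw300.cyc (Sw300.pos w m1) (Sw300.pos w m2) (Sw300.pos w m3)) :
    HV w m1 m2 m3 s = HV w' y1 y2 y3 s := by
  obtain ⟨A, Di, Gi, k1, k2, k3⟩ := h.two hth s
  set N1T := N1.map (pm φ (-δ))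
  set N2T := N2.map (pm φ (-δ))
  have hsub : ∀ p ∈ N1 ++ N2, p ∈ N1 ++ Jl ++ N2 ++ Jo := by
    intro p hp
    simp only [List.mem_append] at hp ⊢
    tauto
  have hNA : ∀ {m : Port T}, m ∈ N1T ∨ m ∈ N2T → m ∈ Ap At := by
    rintro m (hm | hm)
    · obtain ⟨p, hp, rfl⟩ := List.mem_map.1 hm
      exact (h.lc.pf (h.ch.port (hsub p (by simp [hp])))).1
    · obtain ⟨p, hp, rfl⟩ := List.mem_map.1 hm
      exact (h.lc.pf (h.ch.port (hsub p (by simp [hp])))).1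
  have hA : ∀ {m : Port T}, m ∈ Sw300.L w → m ∈ Fp Ft → m ∈ A := by
    intro m hm hf
    have h4 := k1.mem_iff.1 hm
    simp only [List.mem_append] at h4
    rcases h4 with ((h4 | h4) | h4) | h4
    · exact h4
    · exact absurd (hNA (Or.inl h4)) (Fp_Ap h.lc.dj hf)
    · exact absurd (Or.inl hf) (k3.Do m h4)
    · exact absurd (hNA (Or.inr h4)) (Fp_Ap h.lc.dj hf)
  have hnw := Sw300.nodup h.ok
  have hnw' := Sw300.nodup h.ok'
  -- the images
  have hmk : ∀ {m y : Port T}, Mm Ft At w w' m y → Mk' A N1T Di Gi N2T m y := by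
    rintro m y ⟨hm, ⟨h4, rfl⟩ | ⟨h4, h5, h6⟩⟩
    · left
      refine ⟨?_, rfl⟩
      have h5 := k1.mem_iff.1 hm
      simp only [List.mem_append] at h5 ⊢
      rcases h5 with ((h5 | h5) | h5) | h5
      · exact Or.inl (Or.inl h5)
      · exact Or.inl (Or.inr h5)
      · exact absurd h4 (k3.Do _ h5)
      · exact Or.inr h5
    · right
      constructor
      · have h7 := k1.mem_iff.1 hm
        simp only [List.mem_append] at h7
        rcases h7 with ((h7 | h7) | h7) | h7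
        · exact absurd (Or.inl (k3.AF _ h7)) h4
        · exact absurd (Or.inr (hNA (Or.inl h7))) h4
        · exact h7
        · exact absurd (Or.inr (hNA (Or.inr h7))) h4
      · have h7 := k2.mem_iff.1 h5
        simp only [List.mem_append] at h7
        rcases h7 with ((h7 | h7) | h7) | h7
        · exact absurd (Or.inl (k3.AF _ h7)) h6
        · exact absurd (Or.inr (hNA (Or.inl h7))) h6
        · exact h7
        · exact absurd (Or.inr (hNA (Or.inr h7))) h6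
  have q1 := hmk h1
  have q2 := hmk h2
  have q3 := hmk h3
  have hLy : ∀ {m y : Port T}, Mk' A N1T Di Gi N2T m y → y ∈ Sw300.L w' := by
    rintro m y (⟨h4, rfl⟩ | ⟨h4, h5⟩)
    · refine k2.mem_iff.2 ?_
      simp only [List.mem_append] at h4 ⊢
      tauto
    · exact k2.mem_iff.2 (by simp [h5])
  have hmr : ∀ {m y : Port T}, Mk' A N1T Di Gi N2T m y →
      Mr A (N1T ++ Di ++ N2T) (N1T ++ Gi ++ N2T) m y := by
    rintro m y (⟨h4, rfl⟩ | ⟨h4, h5⟩)
    · simp only [List.mem_append] at h4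
      rcases h4 with (h4 | h4) | h4
      · exact Or.inl ⟨h4, rfl⟩
      · exact Or.inr ⟨by simp [h4], by simp [h4]⟩
      · exact Or.inr ⟨by simp [h4], by simp [h4]⟩
    · exact Or.inr ⟨by simp [h4], by simp [h5]⟩
  have fA : ∀ {m y : Port T}, Mm Ft At w w' m y → m ∈ Fp Ft → m ∈ A := fun hm hf => hA hm.1 hf
  have A12 : m1 ∈ A ∨ m2 ∈ A := f12.imp (fA h1) (fA h2)
  have A23 : m2 ∈ A ∨ m3 ∈ A := f23.imp (fA h2) (fA h3)
  have A31 : m3 ∈ A ∨ m1 ∈ A := f31.imp (fA h3) (fA h1)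
  have e1 : A ++ N1T ++ Di ++ N2T = A ++ (N1T ++ Di ++ N2T) := by simp
  have e2 : A ++ N1T ++ Gi ++ N2T = A ++ (N1T ++ Gi ++ N2T) := by simp
  have hcyc' : Sw300.cyc (Sw300.pos w' y1) (Sw300.pos w' y2) (Sw300.pos w' y3) := by
    rw [← cycI_pos (Sw300.sorted w' h.ok') (hLy q1) (hLy q2) (hLy q3),
      ← cycI_rot k2 hnw' (hLy q1) (hLy q2) (hLy q3), e2]
    have hcyc2 := hcyc
    rw [← cycI_pos (Sw300.sorted w h.ok) h1.1 h2.1 h3.1, ← cycI_rot k1 hnw h1.1 h2.1 h3.1, e1]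
      at hcyc2
    refine (cycI_mr ?_ ?_ (hmr q1) (hmr q2) (hmr q3) A12 A23 A31).1 hcyc2
    · rw [← e1]; exact (k1.nodup_iff).1 hnw
    · rw [← e2]; exact (k2.nodup_iff).1 hnw'
  have n12 : m1 ≠ m2 := by rintro rfl; unfold Sw300.cyc at hcyc; omega
  have n31 : m3 ≠ m1 := by rintro rfl; unfold Sw300.cyc at hcyc; omega
  have n12' : y1 ≠ y2 := by rintro rfl; unfold Sw300.cyc at hcyc'; omega
  have n31' : y3 ≠ y1 := by rintro rfl; unfold Sw300.cyc at hcyc'; omega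
  have hi := Sw300.Ok.inv s w h.ok
  have hi' := Sw300.Ok.inv s w' h.ok'
  rw [hv_eq h.ok s h1.1 h2.1 h3.1 hcyc, hv_eq h.ok' s (hLy q1) (hLy q2) (hLy q3) hcyc',
    ← vv_rot k1 hnw hi.um h1.1 h2.1 h3.1 n12 n31,
    ← vv_rot k2 hnw' hi'.um (hLy q1) (hLy q2) (hLy q3) n12' n31']
  refine vv_ann0 k3 ?_ q1 q2 q3 A12 A23 A31 n12 n31 n12' n31'
  intro i hi hMi
  obtain ⟨i0, hi0, rfl⟩ := List.mem_map.1 hi
  exact hx i0 hi0 (h.pull_iff s hi0 hMi)

end loc

end Crest.Agent.R158.Sl434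
end

-- ▼ part R158/Sl8_434

/-!
# R158, block SL (helper434), file Sl8: mean values

* `cs_law` : law of the splitting read in a chart
* `X2 w0 Jl Jo`, `X1 w0 Jl Jo` : two / one arcs of the annulus word `w0` join the two sides
* **`Pair.HW_le`** : `‖HW w m1 m2 m3 - HW w' m1 m2 m3‖ ≤ 2 P(X2)`
* **`Pair.HW_le0`** : the same with one mark anywhere, `≤ 2 P(X1)`
-/

set_option autoImplicit false
set_option linter.unusedSectionVars false

noncomputable section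

namespace Crest.Agent.R158.Sl434

open MeasureTheory ProbabilityTheory
open Crest.Agent.R158.Sw300 (Port Wd thru tls)
open Crest.Agent.R158.Gc748 (RW chain_det)
open Crest.Agent.R158.Xr249 (Nx rot Reg)
open Crest.Agent.R158.Ob664 (Gl HV HW)
open Crest.Agent.R158.Rs689 (PB hf PB_map_inj)

/-- two different arcs join the two sides -/
def X2 (w0 : Wd (ℤ × ℤ)) (Jl Jo : List (Port (ℤ × ℤ))) : Set (ℤ × ℤ → Bool) :=
  {s | ∃ i ∈ Jl, ∃ j ∈ Jl, i ≠ j ∧ Sw300.M s w0 i ∈ Jo ∧ Sw300.M s w0 j ∈ Jo}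

/-- one arc joins the two sides -/
def X1 (w0 : Wd (ℤ × ℤ)) (Jl Jo : List (Port (ℤ × ℤ))) : Set (ℤ × ℤ → Bool) :=
  {s | ∃ i ∈ Jl, Sw300.M s w0 i ∈ Jo}

variable {T : Type*}

/-- **law of the splitting read in a chart** -/
theorem cs_law {S : Finset (ℤ × ℤ)} {φ : ℤ × ℤ → T} (hinj : Set.InjOn φ (S : Set (ℤ × ℤ)))
    (fl : Bool) {E : Set (ℤ × ℤ → Bool)}
    (hE : ∀ z z' : ℤ × ℤ → Bool, (∀ c ∈ S, z c = z' c) → z ∈ E → z' ∈ E) :
    (PB fun _ : T => hf).real {s | cs fl φ s ∈ E} = (PB fun _ : ℤ × ℤ => hf).real E := by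
  classical
  let r : (T → Bool) → (S → Bool) := fun s c => s (φ c)
  let f : (S → Bool) → (S → Bool) := fun z c => if fl = false then z c else !z c
  let r' : (ℤ × ℤ → Bool) → (S → Bool) := fun z c => z c
  let ex : (S → Bool) → (ℤ × ℤ → Bool) := fun z c => if h : c ∈ S then z ⟨c, h⟩ else false
  let E1 : Set (S → Bool) := {z | ex z ∈ E}
  have hE1 : MeasurableSet E1 := (Set.toFinite E1).measurableSet
  have m1 : Measurable r := measurable_pi_lambda _ fun t => measurable_pi_apply _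
  have m2 : Measurable r' := measurable_pi_lambda _ fun t => measurable_pi_apply _
  have mf : Measurable f := measurable_of_finite f
  have e1 : (PB (fun _ : T => hf)).map r = PB fun _ : S => hf :=
    PB_map_inj (j := fun c : S => φ (c : ℤ × ℤ))
      (fun a b hab => Subtype.ext (hinj a.2 b.2 hab)) (fun _ => hf)
  have e2 : (PB (fun _ : ℤ × ℤ => hf)).map r' = PB fun _ : S => hf :=
    PB_map_inj (j := fun c : S => (c : ℤ × ℤ)) Subtype.val_injective (fun _ => hf)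
  have e3 : (PB (fun _ : S => hf)).map f = PB fun _ : S => hf :=
    Cb771.PB_flip (fun _ : S => fl = false)
  have s1 : {s : T → Bool | cs fl φ s ∈ E} = r ⁻¹' (f ⁻¹' E1) := by
    ext s
    simp only [Set.mem_ofPred_eq, Set.mem_preimage, E1]
    have hk : ∀ c ∈ S, cs fl φ s c = ex (f (r s)) c := by
      intro c hc
      simp only [ex, dif_pos hc, f, r, cs]
      cases fl <;> simp
    exact ⟨fun h => hE _ _ hk h, fun h => hE _ _ (fun c hc => (hk c hc).symm) h⟩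
  have s2 : E = r' ⁻¹' E1 := by
    ext z
    simp only [Set.mem_preimage, E1, Set.mem_ofPred_eq]
    have hk : ∀ c ∈ S, z c = ex (r' z) c := by
      intro c hc
      simp only [ex, dif_pos hc, r']
    exact ⟨fun h => hE _ _ hk h, fun h => hE _ _ (fun c hc => (hk c hc).symm) h⟩
  rw [s1]
  conv_rhs => rw [s2]
  rw [measureReal_def, measureReal_def, ← Measure.map_apply m1 (mf hE1), e1,
    ← Measure.map_apply mf hE1, e3, ← Measure.map_apply m2 hE1, e2]

variable [DecidableEq T]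

/-- mean values of observables which agree outside an event -/
theorem HW_sub {w w' : Wd T} {m1 m2 m3 y1 y2 y3 : Port T} (B : Set (T → Bool))
    (h : ∀ s, s ∉ B → HV w m1 m2 m3 s = HV w' y1 y2 y3 s) :
    ‖HW w m1 m2 m3 - HW w' y1 y2 y3‖ ≤ 2 * (PB fun _ : T => hf).real B := by
  set Df : Set (T → Bool) := {s | HV w m1 m2 m3 s = HV w' y1 y2 y3 s}ᶜ with hDf
  have hm : MeasurableSet Df :=
    (measurableSet_eq_fun (Ob664.measurable_HV w m1 m2 m3) (Ob664.measurable_HV w' y1 y2 y3)).compl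
  have hsub : Df ⊆ B := by
    intro s hs
    by_contra hB
    exact hs (h s hB)
  unfold HW
  rw [← integral_sub (Ob664.integrable_HV w m1 m2 m3) (Ob664.integrable_HV w' y1 y2 y3)]
  calc ‖∫ s, (HV w m1 m2 m3 s - HV w' y1 y2 y3 s) ∂(PB fun _ : T => hf)‖
      ≤ ∫ s, Df.indicator (fun _ => (2 : ℝ)) s ∂(PB fun _ : T => hf) := by
        refine norm_integral_le_of_norm_le ?_ (Filter.Eventually.of_forall fun s => ?_)
        · exact (integrable_const (2 : ℝ)).indicator hm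
        · by_cases hs : s ∈ Df
          · rw [Set.indicator_of_mem hs]
            have h1 := Ob664.norm_le_of_Tri (Ob664.HV_mem (w := w) (m1 := m1) (m2 := m2) (m3 := m3)
              (s := s))
            have h2 := Ob664.norm_le_of_Tri (Ob664.HV_mem (w := w') (m1 := y1) (m2 := y2)
              (m3 := y3) (s := s))
            calc ‖HV w m1 m2 m3 s - HV w' y1 y2 y3 s‖
                ≤ ‖HV w m1 m2 m3 s‖ + ‖HV w' y1 y2 y3 s‖ := norm_sub_le _ _
              _ ≤ 2 := by linarith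
          · rw [Set.indicator_of_notMem hs]
            have h3 : HV w m1 m2 m3 s = HV w' y1 y2 y3 s := by
              by_contra h4
              exact hs h4
            rw [h3, sub_self, norm_zero]
    _ = 2 * (PB fun _ : T => hf).real Df := by
        rw [integral_indicator_const _ hm, smul_eq_mul, mul_comm]
    _ ≤ 2 * (PB fun _ : T => hf).real B :=
        mul_le_mul_of_nonneg_left (measureReal_mono hsub) (by norm_num)

section loc

variable {K : Reg} {w0 : Wd (ℤ × ℤ)} {N1 Jl N2 Jo : List (Port (ℤ × ℤ))} {Ob : ℤ × ℤ → Prop}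
  {a b : Port (ℤ × ℤ)} {w w' : Wd T} {Ft At : Set T} {ψ : T → ℤ × ℤ} {φ : ℤ × ℤ → T} {δ : ZMod 4}

theorem Pair.law (h : Pair K w0 N1 Jl N2 Jo Ob a b w w' Ft At ψ φ δ) (fl : Bool)
    {E : Set (ℤ × ℤ → Bool)} (hE : ∀ z z' : ℤ × ℤ → Bool, Sw300.M z w0 = Sw300.M z' w0 →
      z ∈ E → z' ∈ E) :
    (PB fun _ : T => hf).real {s | cs fl φ s ∈ E} = (PB fun _ : ℤ × ℤ => hf).real E := by
  obtain ⟨b0, hr⟩ := h.ch.rw
  refine cs_law (S := K.P) ?_ fl ?_
  · intro x hx y hy e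
    rw [← h.lc.rt x hx, e, h.lc.rt y hy]
  · intro z z' hz
    exact hE z z' (Ob664.state_congr w0 fun t ht => hz t ((hr.tls t).1 ht)).1

/-- **local modification, no mark near** -/
theorem Pair.HW_le (h : Pair K w0 N1 Jl N2 Jo Ob a b w w' Ft At ψ φ δ) {fl : Bool}
    (hth : ∀ (b : Bool) (d : ZMod 4), thru (xor fl b) (d + δ) = thru b d + δ)
    {m1 m2 m3 : Port T} (h1 : m1 ∈ Sw300.L w) (h2 : m2 ∈ Sw300.L w) (h3 : m3 ∈ Sw300.L w)
    (f1 : m1 ∈ Fp Ft) (f2 : m2 ∈ Fp Ft) (f3 : m3 ∈ Fp Ft)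
    (hcyc : Sw300.cyc (Sw300.pos w m1) (Sw300.pos w m2) (Sw300.pos w m3)) :
    ‖HW w m1 m2 m3 - HW w' m1 m2 m3‖ ≤ 2 * (PB fun _ : ℤ × ℤ => hf).real (X2 w0 Jl Jo) := by
  have h4 := HW_sub (w := w) (w' := w') (m1 := m1) (m2 := m2) (m3 := m3) (y1 := m1) (y2 := m2)
    (y3 := m3) {s | cs fl φ s ∈ X2 w0 Jl Jo} (fun s hs => h.hv hth s (fun i hi j hj hMi hMj => by
      by_contra hij
      exact hs ⟨i, hi, j, hj, hij, hMi, hMj⟩) h1 h2 h3 f1 f2 f3 hcyc)
  rwa [h.law fl] at h4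
  intro z z' e hz
  obtain ⟨i, hi, j, hj, h5, h6, h7⟩ := hz
  exact ⟨i, hi, j, hj, h5, e ▸ h6, e ▸ h7⟩

/-- **local modification, one mark near** -/
theorem Pair.HW_le0 (h : Pair K w0 N1 Jl N2 Jo Ob a b w w' Ft At ψ φ δ) {fl : Bool}
    (hth : ∀ (b : Bool) (d : ZMod 4), thru (xor fl b) (d + δ) = thru b d + δ)
    {m1 m2 m3 y1 y2 y3 : Port T}
    (h1 : Mm Ft At w w' m1 y1) (h2 : Mm Ft At w w' m2 y2) (h3 : Mm Ft At w w' m3 y3)
    (f12 : m1 ∈ Fp Ft ∨ m2 ∈ Fp Ft) (f23 : m2 ∈ Fp Ft ∨ m3 ∈ Fp Ft)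
    (f31 : m3 ∈ Fp Ft ∨ m1 ∈ Fp Ft)
    (hcyc : Sw300.cyc (Sw300.pos w m1) (Sw300.pos w m2) (Sw300.pos w m3)) :
    ‖HW w m1 m2 m3 - HW w' y1 y2 y3‖ ≤ 2 * (PB fun _ : ℤ × ℤ => hf).real (X1 w0 Jl Jo) := by
  have h4 := HW_sub (w := w) (w' := w') (m1 := m1) (m2 := m2) (m3 := m3) (y1 := y1) (y2 := y2)
    (y3 := y3) {s | cs fl φ s ∈ X1 w0 Jl Jo} (fun s hs => h.hv0 hth s (fun i hi hMi =>
      hs ⟨i, hi, hMi⟩) h1 h2 h3 f12 f23 f31 hcyc)
  rwa [h.law fl] at h4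
  intro z z' e hz
  obtain ⟨i, hi, h6⟩ := hz
  exact ⟨i, hi, e ▸ h6⟩

end loc

end Crest.Agent.R158.Sl434
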