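import Crest.Agent.R158.Wd2_377
import Crest.Agent.R158.Pj3_679
import Crest.Agent.R158.Sl8_434
import Crest.Agent.R158.Pj4_679

-- ▼ part R158/Wd3_377
section

/-!
# R158, block WD (helper377), file Wd3: the general local step at a flat wall, any chart

* `ph ρ k` : port map of a permutation `ρ` of the tiles and a turn `k` (chart → region)
* `Win ρ k X Y r n e m A b` : the region `(A, b)` looks through the chart like the stepped half plane
  with wall `x ≤ X` (`x ≤ X + e` for `y < Y`), outside the inner box of radius `r`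
* **`gls`** : a change inside the inner box does not change the observable unless two arcs cross the
  stepped half annulus
* **`gls_norm`** : `‖HW w m - HW w' m‖ ≤ 2 P(two arcs cross)`
-/

set_option autoImplicit false
set_option linter.unusedSectionVars false

namespace Crest.Agent.R158.Wd377

open MeasureTheory
open Crest.Agent.R158.Sw300 (Port Wd L M S u be tls pos Ok Fc cyc Adj thru)
open Crest.Agent.R158.Ob664 (GW HW HV HG HG_spec Gl)
open Crest.Agent.R158.Env664 (IsWord PortOf)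
open Crest.Agent.R158.Xr249 (Nx addP bas)
open Crest.Agent.R158.Sl434 hiding cyc
open Crest.Agent.R158.Gc748 (stp InS mem_stp N1 N2 JlS JlE JlN JoS JoW JoN mem_fl fl RW)
open Crest.Agent.R158.Pj679 (nbt nbt_0 nbt_1 nbt_2 nbt_3)

/-! ### charts -/

/-- port map of a permutation of the tiles and a turn -/
def ph (ρ : Equiv.Perm (ℤ × ℤ)) (k : ZMod 4) : Port (ℤ × ℤ) → Port (ℤ × ℤ) :=
  Option.map fun x => (ρ x.1, x.2 + k)

@[simp] theorem ph_none (ρ : Equiv.Perm (ℤ × ℤ)) (k : ZMod 4) : ph ρ k none = none := rfl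
@[simp] theorem ph_some (ρ : Equiv.Perm (ℤ × ℤ)) (k : ZMod 4) (t : ℤ × ℤ) (d : ZMod 4) :
    ph ρ k (some (t, d)) = some (ρ t, d + k) := rfl

theorem ph_ph (ρ : Equiv.Perm (ℤ × ℤ)) (k : ZMod 4) (x : Port (ℤ × ℤ)) :
    ph ρ.symm (-k) (ph ρ k x) = x := by
  rcases x with _ | ⟨t, d⟩
  · rfl
  · simp

theorem ph_ph' (ρ : Equiv.Perm (ℤ × ℤ)) (k : ZMod 4) (x : Port (ℤ × ℤ)) :
    ph ρ k (ph ρ.symm (-k) x) = x := by
  rcases x with _ | ⟨t, d⟩
  · rfl
  · simp

theorem ph_inj {ρ : Equiv.Perm (ℤ × ℤ)} {k : ZMod 4} {x y : Port (ℤ × ℤ)}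
    (h : ph ρ k x = ph ρ k y) : x = y := by
  rw [← ph_ph ρ k x, h, ph_ph]

theorem ph_inj_iff {ρ : Equiv.Perm (ℤ × ℤ)} {k : ZMod 4} {x y : Port (ℤ × ℤ)} :
    ph ρ k x = ph ρ k y ↔ x = y := ⟨ph_inj, fun h => by rw [h]⟩

theorem thru_turn (k : ZMod 4) (hk : k = 0 ∨ k = 2) (s : Bool) (d : ZMod 4) :
    thru s (d + k) = thru s d + k := by
  rcases hk with rfl | rfl <;> revert s d <;> decide

theorem al_ph {ρ : Equiv.Perm (ℤ × ℤ)} {k : ZMod 4} (hk : k = 0 ∨ k = 2) (s : ℤ × ℤ → Bool)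
    (x : Port (ℤ × ℤ)) : al s (ph ρ k x) = ph ρ k (al (fun t => s (ρ t)) x) := by
  rcases x with _ | ⟨t, d⟩
  · rfl
  · simp [thru_turn k hk]

theorem al_ih {ρ : Equiv.Perm (ℤ × ℤ)} {k : ZMod 4} (hk : k = 0 ∨ k = 2) (s : ℤ × ℤ → Bool)
    (x : Port (ℤ × ℤ)) : ph ρ.symm (-k) (al s x) = al (fun t => s (ρ t)) (ph ρ.symm (-k) x) := by
  have := al_ph (ρ := ρ) hk s (ph ρ.symm (-k) x)
  rw [ph_ph'] at this
  rw [this, ph_ph]

/-! ### windows -/

/-- the stepped half plane -/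
def Shp (X Y : ℤ) (e : ℕ) (t : ℤ × ℤ) : Prop := (t.2 < Y → t.1 ≤ X + e) ∧ (Y ≤ t.2 → t.1 ≤ X)
/-- the inner box -/
def Inn (X Y : ℤ) (r m : ℕ) (t : ℤ × ℤ) : Prop :=
  X - r < t.1 ∧ t.1 ≤ X + m ∧ Y - r ≤ t.2 ∧ t.2 < Y + r
/-- the window -/
def Big (X Y : ℤ) (n m : ℕ) (t : ℤ × ℤ) : Prop :=
  X - n ≤ t.1 ∧ t.1 ≤ X + m + 1 ∧ Y - n - 1 ≤ t.2 ∧ t.2 ≤ Y + n

/-- the region `(A, b)` looks like the stepped half plane through the chart, off the inner box -/
structure Win (ρ : Equiv.Perm (ℤ × ℤ)) (k : ZMod 4) (X Y : ℤ) (r n e m : ℕ)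
    (A : Finset (ℤ × ℤ)) (b : Port (ℤ × ℤ) → Port (ℤ × ℤ)) : Prop where
  shp : ∀ t, Big X Y n m t → ¬ Inn X Y r m t → (ρ t ∈ A ↔ Shp X Y e t)
  pl : ∀ t, Inn X Y n m t → ∀ d, ρ t ∈ A → ρ (nbt t d) ∈ A →
    b (ph ρ k (some (t, d))) = ph ρ k (some (nbt t d, d + 2))
  pl' : ∀ t, Inn X Y n m t → ∀ d, ¬ (ρ t ∈ A ∧ ρ (nbt t d) ∈ A) →
    b (ph ρ k (some (t, d))) = ph ρ k (some (t, d))

/-- ports of the tiles outside the window -/
def Far (ρ : Equiv.Perm (ℤ × ℤ)) (X Y : ℤ) (n m : ℕ) : Set (Port (ℤ × ℤ)) :=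
  {x | ∀ t d, x = some (ρ t, d) → ¬ Inn X Y n m t}

/-- ports of the tiles of the inner box -/
def Near (ρ : Equiv.Perm (ℤ × ℤ)) (X Y : ℤ) (r m : ℕ) : Set (Port (ℤ × ℤ)) :=
  {x | ∃ t d, x = some (ρ t, d) ∧ Inn X Y r m t}

/-- ports of the tiles of the annulus -/
def AnP (ρ : Equiv.Perm (ℤ × ℤ)) (X Y : ℤ) (r n e : ℕ) : Set (Port (ℤ × ℤ)) :=
  {x | ∃ t d, x = some (ρ t, d) ∧ InS X Y r n e t}

variable {ρ : Equiv.Perm (ℤ × ℤ)} {k : ZMod 4} {X Y : ℤ} {r n e m : ℕ}

theorem none_far : none ∈ Far ρ X Y n m := by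
  intro t d h
  exact absurd h (by simp)

theorem mem_far {t : ℤ × ℤ} {d : ZMod 4} : some (ρ t, d) ∈ Far ρ X Y n m ↔ ¬ Inn X Y n m t := by
  constructor
  · intro h
    exact h t d rfl
  · intro h t' d' e'
    have : t' = t := by
      have := congrArg (Option.map Prod.fst) e'
      simp only [Option.map_some, Option.some.injEq, EmbeddingLike.apply_eq_iff_eq] at this
      exact this.symm
    rw [this]; exact h

theorem mem_anP {t : ℤ × ℤ} {d : ZMod 4} : some (ρ t, d) ∈ AnP ρ X Y r n e ↔ InS X Y r n e t := by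
  constructor
  · rintro ⟨t', d', e', h⟩
    have := congrArg (Option.map Prod.fst) e'
    simp only [Option.map_some, Option.some.injEq, EmbeddingLike.apply_eq_iff_eq] at this
    rw [this]; exact h
  · intro h; exact ⟨t, d, rfl, h⟩

theorem mem_near {t : ℤ × ℤ} {d : ZMod 4} : some (ρ t, d) ∈ Near ρ X Y r m ↔ Inn X Y r m t := by
  constructor
  · rintro ⟨t', d', e', h⟩
    have := congrArg (Option.map Prod.fst) e'
    simp only [Option.map_some, Option.some.injEq, EmbeddingLike.apply_eq_iff_eq] at this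
    rw [this]; exact h
  · intro h; exact ⟨t, d, rfl, h⟩


theorem inS_inn (he : e ≤ m) {t : ℤ × ℤ} (h : InS X Y r n e t) : Inn X Y n m t ∧ Shp X Y e t ∧
    ¬ Inn X Y r m t := by
  unfold InS at h; unfold Inn Shp
  omega

theorem inS_iff (he : e ≤ m) {t : ℤ × ℤ} : InS X Y r n e t ↔
    Inn X Y n m t ∧ Shp X Y e t ∧ ¬ Inn X Y r m t := by
  unfold InS Inn Shp
  omega

theorem big_nbt {t : ℤ × ℤ} (h : Inn X Y n m t) (d : ZMod 4) : Big X Y n m (nbt t d) := by
  unfold Inn at h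
  rcases Xr249.Reg.d4 d with rfl | rfl | rfl | rfl <;>
    simp only [nbt_0, nbt_1, nbt_2, nbt_3, Big] <;> omega

theorem big_inn {t : ℤ × ℤ} (h : Inn X Y n m t) : Big X Y n m t := by
  unfold Inn at h; unfold Big; omega

theorem nbt_nbt (t : ℤ × ℤ) (d : ZMod 4) : nbt (nbt t d) (d + 2) = t := by
  obtain ⟨x, y⟩ := t
  have a0 : (0 : ZMod 4) + 2 = 2 := by decide
  have a1 : (1 : ZMod 4) + 2 = 3 := by decide
  have a2 : (2 : ZMod 4) + 2 = 0 := by decide
  have a3 : (3 : ZMod 4) + 2 = 1 := by decide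
  rcases Xr249.Reg.d4 d with rfl | rfl | rfl | rfl
  · rw [a0, nbt_2, nbt_0]; simp
  · rw [a1, nbt_3, nbt_1]; simp
  · rw [a2, nbt_0, nbt_2]; simp
  · rw [a3, nbt_1, nbt_3]; simp

/-! ### the annulus of the chart -/

/-- inner ends -/
noncomputable def JL (X Y : ℤ) (r e : ℕ) : List (Port (ℤ × ℤ)) := JlS X Y r ++ JlE X Y r ++ JlN X Y r e
/-- outer ends -/
noncomputable def JO (X Y : ℤ) (n e : ℕ) : List (Port (ℤ × ℤ)) := JoS X Y n e ++ JoW X Y n ++ JoN X Y n

theorem mem_JL {X Y : ℤ} {r e : ℕ} {x : Port (ℤ × ℤ)} : x ∈ JL X Y r e ↔ x ∈ Pj679.Jl X Y r e := by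
  simp only [JL, Pj679.Jl, List.mem_append]; tauto

theorem mem_JO {X Y : ℤ} {n e : ℕ} {x : Port (ℤ × ℤ)} : x ∈ JO X Y n e ↔ x ∈ Pj679.Jo X Y n e := by
  simp only [JO, Pj679.Jo, List.mem_append]; tauto

/-- the word of the chart annulus -/
structure StW (X Y : ℤ) (r n e : ℕ) (wS : Wd (ℤ × ℤ)) (bS : ℤ × ℤ) : Prop where
  hr : 1 ≤ r
  hn : r + 1 ≤ n
  rwd : RW (stp X Y r n e) wS bS
  lst : L wS = none :: (JoW X Y n ++ (JoN X Y n ++ (N1 X Y r n ++ (JlS X Y r ++ (JlE X Y r ++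
      (JlN X Y r e ++ (N2 X Y r n e ++ JoS X Y n e)))))))

theorem exists_stW (X Y : ℤ) (r n e : ℕ) (hr : 1 ≤ r) (hn : r + 1 ≤ n) :
    ∃ wS bS, StW X Y r n e wS bS := by
  obtain ⟨w, h1, -, h3⟩ := Gc748.stp_word X Y r n e hr hn
  exact ⟨w, _, hr, hn, h1, h3⟩

variable {wS : Wd (ℤ × ℤ)} {bS : ℤ × ℤ}

theorem StW.ring (h : StW X Y r n e wS bS) (s : ℤ × ℤ → Bool) :
    Ring (al s) (be wS) (N1 X Y r n ++ JL X Y r e ++ N2 X Y r n e ++ JO X Y n e) (M s wS) := by
  have hbs : Gc748.bs wS ≠ none := by rw [h.rwd.bas]; simp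
  have hM := Gc748.M_none s h.rwd.ok hbs
  have hi := Sw300.Ok.inv s wS h.rwd.ok
  have hn : (none : Port (ℤ × ℤ)) ∈ L wS := by rw [h.lst]; simp
  have hu : u s wS = none := (hi.fix none hn hM).symm
  refine ring_of_word h.rwd.ok s hu (P := []) (Q := JoW X Y n ++ (JoN X Y n ++ (N1 X Y r n ++
    (JlS X Y r ++ (JlE X Y r ++ (JlN X Y r e ++ (N2 X Y r n e ++ JoS X Y n e))))))) ?_ ?_
  · rw [h.lst]; exact List.IsRotated.refl _
  · have := List.isRotated_append (l := JoW X Y n ++ JoN X Y n) (l' := N1 X Y r n ++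
      (JlS X Y r ++ (JlE X Y r ++ (JlN X Y r e ++ (N2 X Y r n e ++ JoS X Y n e)))))
    simpa [JL, JO, List.append_assoc] using this

/-- ends of the annulus -/
theorem StW.mem (h : StW X Y r n e wS bS) {t : ℤ × ℤ} {d : ZMod 4} (ht : InS X Y r n e t) :
    some (t, d) ∈ N1 X Y r n ++ JL X Y r e ++ N2 X Y r n e ++ JO X Y n e ↔
      ¬ InS X Y r n e (nbt t d) := by
  have h1 : some (t, d) ∈ N1 X Y r n ++ JL X Y r e ++ N2 X Y r n e ++ JO X Y n e ↔
      some (t, d) ∈ L wS := by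
    rw [h.lst]
    simp only [JL, JO, List.mem_append, List.mem_cons, reduceCtorEq, false_or]
    tauto
  rw [h1]
  have hgl := fun q => Pj679.gl_full (K := stp X Y r n e) (fun x y => Gc748.stp_full x y h.hr)
    (t := t) (d := d) (q := q)
  have bs := Gc748.be_state h.rwd.ok
  constructor
  · intro hL hn
    have h2 := bs.free _ hL
    have h3 := (h.rwd.be _ _).1 ((hgl _).2 ⟨mem_stp.2 ht, mem_stp.2 hn, rfl⟩)
    rw [h2] at h3
    exact h3.2 h3.1
  · intro hn
    refine Pj679.mem_L_of_free h.rwd.ok ((h.rwd.tls t).2 (mem_stp.2 ht)) ?_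
    by_contra h2
    have h3 := (h.rwd.be (some (t, d)) (be wS (some (t, d)))).2 ⟨rfl, fun e' => h2 e'.symm⟩
    exact hn (mem_stp.1 ((hgl _).1 h3).2.1)

theorem StW.be (h : StW X Y r n e wS bS) {t : ℤ × ℤ} {d : ZMod 4} (ht : InS X Y r n e t)
    (hn : InS X Y r n e (nbt t d)) : Sw300.be wS (some (t, d)) = some (nbt t d, d + 2) := by
  exact ((h.rwd.be _ _).1 ((Pj679.gl_full (K := stp X Y r n e)
    (fun x y => Gc748.stp_full x y h.hr)).2 ⟨mem_stp.2 ht, mem_stp.2 hn, rfl⟩)).1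

/-- the ends in terms of the sides -/
theorem mem_N1' {x : Port (ℤ × ℤ)} (hr : r + 1 ≤ n) (h : x ∈ N1 X Y r n) :
    ∃ y, x = some ((X, y), 2) ∧ Y + r ≤ y ∧ y < Y + n := by
  obtain ⟨i, hi, rfl⟩ := mem_fl.1 h
  exact ⟨_, rfl, by omega, by omega⟩

theorem mem_N2' {x : Port (ℤ × ℤ)} (hr : r + 1 ≤ n) (h : x ∈ N2 X Y r n e) :
    ∃ y, x = some ((X + e, y), 2) ∧ Y - n ≤ y ∧ y < Y - r := by
  obtain ⟨i, hi, rfl⟩ := mem_fl.1 h
  exact ⟨_, rfl, by omega, by omega⟩

theorem mem_JO' {x : Port (ℤ × ℤ)} (hn : 1 ≤ n) (h : x ∈ JO X Y n e) :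
    (∃ z, x = some ((z, Y - n), 3) ∧ X - n < z ∧ z ≤ X + e) ∨
    (∃ z, x = some ((X - n + 1, z), 0) ∧ Y - n ≤ z ∧ z < Y + n) ∨
    (∃ z, x = some ((z, Y + n - 1), 1) ∧ X - n < z ∧ z ≤ X) := by
  simp only [JO, List.mem_append] at h
  rcases h with (h | h) | h
  · obtain ⟨i, hi, rfl⟩ := mem_fl.1 h
    exact Or.inl ⟨_, rfl, by omega, by omega⟩
  · obtain ⟨i, hi, rfl⟩ := mem_fl.1 h
    exact Or.inr (Or.inl ⟨_, rfl, by omega, by omega⟩)
  · obtain ⟨i, hi, rfl⟩ := mem_fl.1 h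
    exact Or.inr (Or.inr ⟨_, rfl, by omega, by omega⟩)

theorem of_JO {x : Port (ℤ × ℤ)} (hn : 1 ≤ n)
    (h : (∃ z, x = some ((z, Y - n), 3) ∧ X - n < z ∧ z ≤ X + e) ∨
    (∃ z, x = some ((X - n + 1, z), 0) ∧ Y - n ≤ z ∧ z < Y + n) ∨
    (∃ z, x = some ((z, Y + n - 1), 1) ∧ X - n < z ∧ z ≤ X)) : x ∈ JO X Y n e := by
  simp only [JO, List.mem_append]
  rcases h with ⟨z, rfl, h1, h2⟩ | ⟨z, rfl, h1, h2⟩ | ⟨z, rfl, h1, h2⟩
  · refine Or.inl (Or.inl (mem_fl.2 ⟨(X + e - z).toNat, by omega, ?_⟩))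
    have : X + e - ((X + e - z).toNat : ℤ) = z := by omega
    rw [this]
  · refine Or.inl (Or.inr (mem_fl.2 ⟨(z - (Y - n)).toNat, by omega, ?_⟩))
    have : Y - n + ((z - (Y - n)).toNat : ℤ) = z := by omega
    rw [this]
  · refine Or.inr (mem_fl.2 ⟨(z - (X - n + 1)).toNat, by omega, ?_⟩)
    have : X - n + 1 + ((z - (X - n + 1)).toNat : ℤ) = z := by omega
    rw [this]

end Crest.Agent.R158.Wd377
end

-- ▼ part R158/Wd4_377
section

/-!
# R158, block WD (helper377), file Wd4: the general local step at a flat wall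

* `win_annS` : the annulus state (helper434's `AnnS`) of a region inside a window
* **`gls`** : a change inside the inner box does not change the observable unless two arcs cross the
  stepped half annulus
* **`gls_norm`** : the bound on the mean values
-/

set_option autoImplicit false
set_option linter.unusedSectionVars false

namespace Crest.Agent.R158.Wd377

open MeasureTheory
open Crest.Agent.R158.Sw300 (Port Wd L M S u be tls pos Ok Fc cyc Adj thru)
open Crest.Agent.R158.Ob664 (GW HW HV HG HG_spec Gl)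
open Crest.Agent.R158.Env664 (IsWord PortOf)
open Crest.Agent.R158.Xr249 (Nx addP bas)
open Crest.Agent.R158.Sl434 hiding cyc
open Crest.Agent.R158.Gc748 (stp InS mem_stp N1 N2 JlS JlE JlN JoS JoW JoN mem_fl fl RW)
open Crest.Agent.R158.Pj679 (nbt nbt_0 nbt_1 nbt_2 nbt_3)
open Crest.Agent.R158.Mr679 (TF tau)
open Crest.Agent.R158.Rs689 (PB hf)

variable {ρ : Equiv.Perm (ℤ × ℤ)} {k : ZMod 4} {X Y : ℤ} {r n e m : ℕ}
variable {wS : Wd (ℤ × ℤ)} {bS : ℤ × ℤ}
variable {A A' : Finset (ℤ × ℤ)} {b b' : Port (ℤ × ℤ) → Port (ℤ × ℤ)}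

theorem an_chart {x : Port (ℤ × ℤ)} (k : ZMod 4) (h : x ∈ AnP ρ X Y r n e) :
    ∃ t d, x = ph ρ k (some (t, d)) ∧ InS X Y r n e t := by
  obtain ⟨t, d, rfl, h⟩ := h
  exact ⟨t, d - k, by simp, h⟩

theorem an_ph {t : ℤ × ℤ} {d : ZMod 4} : ph ρ k (some (t, d)) ∈ AnP ρ X Y r n e ↔
    InS X Y r n e t := by rw [ph_some, mem_anP]

theorem far_ph {t : ℤ × ℤ} {d : ZMod 4} : ph ρ k (some (t, d)) ∈ Far ρ X Y n m ↔
    ¬ Inn X Y n m t := by rw [ph_some, mem_far]

theorem near_ph {t : ℤ × ℤ} {d : ZMod 4} : ph ρ k (some (t, d)) ∈ Near ρ X Y r m ↔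
    Inn X Y r m t := by rw [ph_some, mem_near]

/-- the glueing of the annulus -/
theorem Win.be_in (W : Win ρ k X Y r n e m A b) (he : e ≤ m) {t : ℤ × ℤ} {d : ZMod 4}
    (ht : InS X Y r n e t) (hn : InS X Y r n e (nbt t d)) :
    b (ph ρ k (some (t, d))) = ph ρ k (some (nbt t d, d + 2)) := by
  obtain ⟨h1, h2, h3⟩ := inS_inn he ht
  obtain ⟨h4, h5, h6⟩ := inS_inn he hn
  exact W.pl t h1 d ((W.shp t (big_inn h1) h3).2 h2) ((W.shp _ (big_inn h4) h6).2 h5)

theorem Win.b_invol_ne (W : Win ρ k X Y r n e m A b) (he : e ≤ m) (hn : 1 ≤ n) (hr : r ≤ n)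
    (hb : Function.Involutive b) {x : Port (ℤ × ℤ)}
    (hx : x ∈ Far ρ X Y n m) : b x ∈ Far ρ X Y n m ∨ b x ∈ (JO X Y n e).map (ph ρ k) := by
  by_cases hf : b x ∈ Far ρ X Y n m
  · exact Or.inl hf
  right
  have h1 : ∃ t d, b x = ph ρ k (some (t, d)) ∧ Inn X Y n m t := by
    by_contra hcon
    push Not at hcon
    apply hf
    intro t d e' hi
    exact hcon t (d - k) (by rw [e']; simp) hi
  obtain ⟨t, d, h2, h3⟩ := h1
  have h4 : b (ph ρ k (some (t, d))) = x := by rw [← h2, hb]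
  rw [h2]
  by_cases h5 : ρ t ∈ A ∧ ρ (nbt t d) ∈ A
  · have h6 := W.pl t h3 d h5.1 h5.2
    rw [h4] at h6
    rw [h6, far_ph] at hx
    have hbig := big_nbt h3 d
    have hni : ¬ Inn X Y r m (nbt t d) := fun h => hx (by unfold Inn at h ⊢; omega)
    have hs := (W.shp _ hbig hni).1 h5.2
    refine List.mem_map.2 ⟨_, of_JO hn ?_, rfl⟩
    obtain ⟨x1, y1⟩ := t
    unfold Inn at h3 hx
    unfold Shp at hs
    rcases Xr249.Reg.d4 d with rfl | rfl | rfl | rfl <;>
      simp only [nbt_0, nbt_1, nbt_2, nbt_3] at hx hs h3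
    · exact Or.inr (Or.inl ⟨y1, by rw [show x1 = X - n + 1 by omega], by omega, by omega⟩)
    · exact Or.inr (Or.inr ⟨x1, by rw [show y1 = Y + n - 1 by omega], by omega, by omega⟩)
    · exfalso; omega
    · exact Or.inl ⟨x1, by rw [show y1 = Y - n by omega], by omega, by omega⟩
  · exfalso
    have h6 := W.pl' t h3 d h5
    rw [h4] at h6
    rw [h6, far_ph] at hx
    exact hx h3

/-- **the annulus state inside a window** -/
theorem win_annS (W : Win ρ k X Y r n e m A b) (he : e ≤ m) (hk : k = 0 ∨ k = 2)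
    (hb : Function.Involutive b) (h : StW X Y r n e wS bS) (s : ℤ × ℤ → Bool) :
    AnnS (al s) b (Far ρ X Y n m) (AnP ρ X Y r n e)
      ((N1 X Y r n).map (ph ρ k)) ((JL X Y r e).map (ph ρ k))
      ((N2 X Y r n e).map (ph ρ k)) ((JO X Y n e).map (ph ρ k))
      (pull (ph ρ.symm (-k)) ((N1 X Y r n).map (ph ρ k) ++ (JL X Y r e).map (ph ρ k) ++
        (N2 X Y r n e).map (ph ρ k) ++ (JO X Y n e).map (ph ρ k)) (M (fun t => s (ρ t)) wS)) := by
  have hr := h.hr
  have hn := h.hn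
  have emap : (N1 X Y r n).map (ph ρ k) ++ (JL X Y r e).map (ph ρ k) ++
      (N2 X Y r n e).map (ph ρ k) ++ (JO X Y n e).map (ph ρ k) =
      (N1 X Y r n ++ JL X Y r e ++ N2 X Y r n e ++ JO X Y n e).map (ph ρ k) := by
    simp only [List.map_append]
  have hLA : ∀ t d, InS X Y r n e t → (ph ρ k (some (t, d)) ∈ (N1 X Y r n).map (ph ρ k) ++
      (JL X Y r e).map (ph ρ k) ++ (N2 X Y r n e).map (ph ρ k) ++ (JO X Y n e).map (ph ρ k) ↔
      ¬ InS X Y r n e (nbt t d)) := by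
    intro t d ht
    rw [emap, List.mem_map]
    rw [← h.mem ht]
    constructor
    · rintro ⟨x, hx, e'⟩
      rw [ph_inj_iff] at e'
      rw [← e']; exact hx
    · intro hx; exact ⟨_, hx, rfl⟩
  refine annS_of_chart (alY := al (fun t => s (ρ t))) (beY := be wS) ?_ ?_ ?_ ?_ ?_ ?_ ?_ ?_ ?_ ?_
    ?_ ?_ ?_
  · rw [emap, List.map_map]
    have : (ph ρ.symm (-k) ∘ ph ρ k) = id := by funext x; exact ph_ph ρ k x
    rw [this, List.map_id]
    exact h.ring _
  · intro x _ y _ e'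
    rw [← ph_ph' ρ k x, e', ph_ph']
  · intro x hx
    rw [emap, List.mem_map] at hx
    obtain ⟨y, hy, rfl⟩ := hx
    have : ∃ t d, y = some (t, d) ∧ InS X Y r n e t := by
      have hy' : y ∈ L wS ∧ y ≠ none := by
        constructor
        · rw [h.lst]
          simp only [JL, JO, List.mem_append, List.mem_cons] at hy ⊢
          tauto
        · rintro rfl
          have hnd := (h.ring (fun _ => true)).nd
          simp only [JL, JO, List.mem_append] at hy
          rcases hy with ((hy | ((hy | hy) | hy)) | hy) | ((hy | hy) | hy) <;>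
            obtain ⟨i, -, hi⟩ := mem_fl.1 hy <;> exact absurd hi (by simp)
      obtain ⟨hy1, hy2⟩ := hy'
      rcases y with _ | ⟨t, d⟩
      · exact absurd rfl hy2
      · exact ⟨t, d, rfl, mem_stp.1 ((h.rwd.tls t).1 (Sw300.tl_mem wS h.rwd.ok _ hy1 t rfl))⟩
    obtain ⟨t, d, rfl, ht⟩ := this
    exact an_ph.2 ht
  · intro x _; exact al_ih hk s x
  · intro x hx hL
    obtain ⟨t, d, rfl, ht⟩ := an_chart k hx
    have h1 : InS X Y r n e (nbt t d) := by
      by_contra hcon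
      exact hL ((hLA t d ht).2 hcon)
    rw [W.be_in he ht h1, ph_ph, ph_ph, h.be ht h1]
  · rintro x hx ⟨t, d, rfl, ht⟩
    exact hx t d rfl (inS_inn he ht).1
  · intro x hx t d e'
    rcases x with _ | ⟨t', d'⟩
    · exact absurd e' (by simp)
    · simp only [al_some, Option.some.injEq, Prod.mk.injEq] at e'
      exact hx t d' (by rw [e'.1])
  · rintro x ⟨t, d, rfl, ht⟩
    exact ⟨t, _, rfl, ht⟩
  · intro x hx
    exact W.b_invol_ne he (by omega) (by omega) hb hx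
  · intro x hx hL
    obtain ⟨t, d, rfl, ht⟩ := an_chart k hx
    have h1 : InS X Y r n e (nbt t d) := by
      by_contra hcon
      exact hL ((hLA t d ht).2 hcon)
    rw [W.be_in he ht h1]
    refine ⟨an_ph.2 h1, fun hc => ?_⟩
    have h2 := (hLA _ _ h1).1 hc
    rw [nbt_nbt] at h2
    exact h2 ht
  · intro x hx
    rw [List.mem_map] at hx
    obtain ⟨y, hy, rfl⟩ := hx
    obtain ⟨z, rfl, h1, h2⟩ := mem_N1' hn hy
    refine W.pl' _ (by unfold Inn; simp only; omega) _ fun h3 => ?_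
    have h4 := h3.2
    rw [nbt_2] at h4
    have h5 := (W.shp _ (by unfold Big; simp only; omega) (by unfold Inn; simp only; omega)).1 h4
    unfold Shp at h5
    simp only at h5
    omega
  · intro x hx
    rw [List.mem_map] at hx
    obtain ⟨y, hy, rfl⟩ := hx
    obtain ⟨z, rfl, h1, h2⟩ := mem_N2' hn hy
    refine W.pl' _ (by unfold Inn; simp only; omega) _ fun h3 => ?_
    have h4 := h3.2
    rw [nbt_2] at h4
    have h5 := (W.shp _ (by unfold Big; simp only; omega) (by unfold Inn; simp only; omega)).1 h4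
    unfold Shp at h5
    simp only at h5
    omega
  · intro x hx
    rw [List.mem_map] at hx
    obtain ⟨y, hy, rfl⟩ := hx
    have key : ∀ (t : ℤ × ℤ) (d : ZMod 4), Inn X Y n m t → ¬ Inn X Y r m t →
        ¬ Inn X Y n m (nbt t d) → Shp X Y e t → Shp X Y e (nbt t d) →
        b (ph ρ k (some (t, d))) ∈ Far ρ X Y n m := by
      intro t d h1 h2 h3 h4 h5
      rw [W.pl t h1 d ((W.shp _ (big_inn h1) h2).2 h4)
        ((W.shp _ (big_nbt h1 d) (fun h6 => h3 (by unfold Inn at h6 ⊢; omega))).2 h5), far_ph]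
      exact h3
    rcases mem_JO' (by omega) hy with ⟨z, rfl, h1, h2⟩ | ⟨z, rfl, h1, h2⟩ | ⟨z, rfl, h1, h2⟩
    · apply key <;> simp only [nbt_3, Inn, Shp] <;> omega
    · apply key <;> simp only [nbt_0, Inn, Shp] <;> omega
    · apply key <;> simp only [nbt_1, Inn, Shp] <;> omega

end Crest.Agent.R158.Wd377
end

-- ▼ part R158/Wd5_377
section

/-!
# R158, block WD (helper377), file Wd5: the general local step at a flat wall

* **`gls`** : a change inside the inner box does not change the observable unless two arcs cross the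
  stepped half annulus
* **`gls_norm`** : `‖HW w m - HW w' m‖ ≤ 2 P(two arcs cross)`
-/

set_option autoImplicit false
set_option linter.unusedSectionVars false

namespace Crest.Agent.R158.Wd377

open MeasureTheory
open Crest.Agent.R158.Sw300 (Port Wd L M S u be tls pos Ok Fc cyc Adj thru)
open Crest.Agent.R158.Ob664 (GW HW HV HG HG_spec Gl)
open Crest.Agent.R158.Env664 (IsWord PortOf)
open Crest.Agent.R158.Xr249 (Nx addP bas)
open Crest.Agent.R158.Sl434 hiding cyc mem_L_of_free Loc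
open Crest.Agent.R158.Gc748 (stp InS mem_stp N1 N2 JlS JlE JlN JoS JoW JoN mem_fl fl RW)
open Crest.Agent.R158.Pj679 (nbt nbt_0 nbt_1 nbt_2 nbt_3)
open Crest.Agent.R158.Rs689 (PB hf)

variable {ρ : Equiv.Perm (ℤ × ℤ)} {k : ZMod 4} {X Y : ℤ} {r n e m : ℕ}
variable {wS : Wd (ℤ × ℤ)} {bS : ℤ × ℤ}
variable {A A' : Finset (ℤ × ℤ)} {b b' : Port (ℤ × ℤ) → Port (ℤ × ℤ)}
variable {w w' : Wd (ℤ × ℤ)} {A0 Di Gi : List (Port (ℤ × ℤ))}

theorem b_invol (hw : GW A b w) : Function.Involutive b := by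
  have := be_invol hw.word.1
  rwa [be_eq hw] at this

theorem cycI_left {β : Type*} [DecidableEq β] {P R R' : List β} {a b c : β} (ha : a ∈ P)
    (hb : b ∈ P) (hc : c ∈ P) : cycI (P ++ R) a b c ↔ cycI (P ++ R') a b c := by
  unfold cycI
  rw [List.idxOf_append_of_mem ha, List.idxOf_append_of_mem hb, List.idxOf_append_of_mem hc,
    List.idxOf_append_of_mem ha, List.idxOf_append_of_mem hb, List.idxOf_append_of_mem hc]

/-- **a change inside the inner box** -/
theorem gls (W : Win ρ k X Y r n e m A b) (W' : Win ρ k X Y r n e m A' b') (he : e ≤ m)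
    (hk : k = 0 ∨ k = 2) (hF : ∀ x ∈ Far ρ X Y n m, b' x = b x) (hw : GW A b w)
    (hw' : GW A' b' w') (h : StW X Y r n e wS bS)
    (hr : L w ~r A0 ++ (N1 X Y r n).map (ph ρ k) ++ Di ++ (N2 X Y r n e).map (ph ρ k))
    (hr' : L w' ~r A0 ++ (N1 X Y r n).map (ph ρ k) ++ Gi ++ (N2 X Y r n e).map (ph ρ k))
    (hA : ∀ a ∈ A0, a ∈ Far ρ X Y n m) (hD : ∀ a ∈ Di, a ∈ Near ρ X Y r m)
    (hG : ∀ a ∈ Gi, a ∈ Near ρ X Y r m) {m1 m2 m3 : Port (ℤ × ℤ)} (h1 : m1 ∈ A0) (h2 : m2 ∈ A0)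
    (h3 : m3 ∈ A0) (hc : cyc (pos w m1) (pos w m2) (pos w m3)) :
    cyc (pos w' m1) (pos w' m2) (pos w' m3) ∧
      ∀ s : ℤ × ℤ → Bool, (fun t => s (ρ t)) ∉ X2 wS (JL X Y r e) (JO X Y n e) →
        HV w m1 m2 m3 s = HV w' m1 m2 m3 s := by
  have ok := hw.word.1
  have ok' := hw'.word.1
  have memL : ∀ {x}, x ∈ A0 → x ∈ L w := fun hx => hr.mem_iff.2 (by simp [hx])
  have memL' : ∀ {x}, x ∈ A0 → x ∈ L w' := fun hx => hr'.mem_iff.2 (by simp [hx])
  have hc' : cyc (pos w' m1) (pos w' m2) (pos w' m3) := by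
    rw [cyc_ring ok' hr' (memL' h1) (memL' h2) (memL' h3)]
    rw [cyc_ring ok hr (memL h1) (memL h2) (memL h3)] at hc
    simp only [List.append_assoc] at hc ⊢
    exact (cycI_left h1 h2 h3).1 hc
  refine ⟨hc', fun s hs => ?_⟩
  obtain ⟨n12, n23, n31⟩ := cyc_ne hc
  have hnear : ∀ a ∈ Near ρ X Y r m, a ∉ Far ρ X Y n m ∪ AnP ρ X Y r n e := by
    rintro a ⟨t, d, rfl, ht⟩ (h4 | h4)
    · rw [mem_far] at h4
      have := h.hn
      exact h4 (by unfold Inn at ht ⊢; omega)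
    · rw [mem_anP, inS_iff he] at h4
      exact h4.2.2 ht
  have T : Two (al s) b (al s) b' (Far ρ X Y n m) (AnP ρ X Y r n e)
      ((N1 X Y r n).map (ph ρ k)) ((JL X Y r e).map (ph ρ k))
      ((N2 X Y r n e).map (ph ρ k)) ((JO X Y n e).map (ph ρ k))
      (pull (ph ρ.symm (-k)) ((N1 X Y r n).map (ph ρ k) ++ (JL X Y r e).map (ph ρ k) ++
        (N2 X Y r n e).map (ph ρ k) ++ (JO X Y n e).map (ph ρ k)) (M (fun t => s (ρ t)) wS))
      none A0 Di Gi (M s w) (M s w') (u s w) (u s w') := by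
    have S1 := (sys_of_word ok s).rot hr
    have S2 := (sys_of_word ok' s).rot hr'
    rw [be_eq hw] at S1
    rw [be_eq hw'] at S2
    refine ⟨win_annS W he hk (b_invol hw) h s, fun _ _ => rfl, ?_, none_far, hA, S1, S2,
      fun a ha => hnear a (hD a ha), fun a ha => hnear a (hG a ha)⟩
    rintro x (hx | hx) hJ
    · exact hF x hx
    · obtain ⟨t, d, rfl, ht⟩ := an_chart k hx
      obtain ⟨i1, i2, i3⟩ := inS_inn he ht
      have a1 := (W.shp t (big_inn i1) i3).2 i2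
      have a1' := (W'.shp t (big_inn i1) i3).2 i2
      by_cases i4 : Inn X Y r m (nbt t d)
      · -- the port faces the inner box: it is in `Jl`, or the neighbour is outside
        by_cases i5 : Shp X Y e (nbt t d)
        · exfalso
          apply hJ
          have h5 : ¬ InS X Y r n e (nbt t d) := fun h6 => (inS_inn he h6).2.2 i4
          have h6 := (h.mem ht (d := d)).2 h5
          refine List.mem_map.2 ⟨_, ?_, rfl⟩
          simp only [List.mem_append] at h6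
          have hn := h.hn
          rcases h6 with ((h6 | h6) | h6) | h6
          · exfalso
            obtain ⟨y, h7, h8, h9⟩ := mem_N1' hn h6
            simp only [Option.some.injEq, Prod.mk.injEq] at h7
            obtain ⟨rfl, rfl⟩ := h7
            rw [nbt_2] at i5
            unfold Shp at i5
            simp only at i5
            omega
          · exact h6
          · exfalso
            obtain ⟨y, h7, h8, h9⟩ := mem_N2' hn h6
            simp only [Option.some.injEq, Prod.mk.injEq] at h7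
            obtain ⟨rfl, rfl⟩ := h7
            rw [nbt_2] at i5
            unfold Shp at i5
            simp only at i5
            omega
          · exfalso
            unfold Inn at i4
            rcases mem_JO' (by omega) h6 with ⟨z, h7, h8, h9⟩ | ⟨z, h7, h8, h9⟩ | ⟨z, h7, h8, h9⟩ <;>
              simp only [Option.some.injEq, Prod.mk.injEq] at h7 <;> obtain ⟨rfl, rfl⟩ := h7 <;>
              simp only [nbt_0, nbt_1, nbt_3] at i4 <;> omega
        · exfalso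
          unfold Inn at i4 i3 i1
          unfold Shp at i2 i5
          rcases Xr249.Reg.d4 d with rfl | rfl | rfl | rfl <;>
            simp only [nbt_0, nbt_1, nbt_2, nbt_3] at i4 i5 <;> omega
      · have h5 := W.shp _ (big_nbt i1 d) i4
        have h6 := W'.shp _ (big_nbt i1 d) i4
        by_cases h7 : Shp X Y e (nbt t d)
        · rw [W.pl t i1 d a1 (h5.2 h7), W'.pl t i1 d a1' (h6.2 h7)]
        · rw [W.pl' t i1 d fun h8 => h7 (h5.1 h8.2), W'.pl' t i1 d fun h8 => h7 (h6.1 h8.2)]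
  rw [hv_eq ok s (memL h1) (memL h2) (memL h3) hc,
    hv_eq ok' s (memL' h1) (memL' h2) (memL' h3) hc']
  rw [← vv_rot hr (Sw300.nodup ok) ((sys_of_word ok s).uL) (memL h1) (memL h2) (memL h3) n12 n31,
    ← vv_rot hr' (Sw300.nodup ok') ((sys_of_word ok' s).uL) (memL' h1) (memL' h2) (memL' h3) n12 n31]
  refine vv_ann T ?_ h1 h2 h3 n12 n31
  -- at most one arc
  have hmem : ∀ a ∈ ((N1 X Y r n).map (ph ρ k) ++ (JL X Y r e).map (ph ρ k) ++
      (N2 X Y r n e).map (ph ρ k) ++ (JO X Y n e).map (ph ρ k)).map (ph ρ.symm (-k)),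
      M (fun t => s (ρ t)) wS a ∈ ((N1 X Y r n).map (ph ρ k) ++ (JL X Y r e).map (ph ρ k) ++
      (N2 X Y r n e).map (ph ρ k) ++ (JO X Y n e).map (ph ρ k)).map (ph ρ.symm (-k)) := by
    have e1 : ((N1 X Y r n).map (ph ρ k) ++ (JL X Y r e).map (ph ρ k) ++
      (N2 X Y r n e).map (ph ρ k) ++ (JO X Y n e).map (ph ρ k)).map (ph ρ.symm (-k)) =
      N1 X Y r n ++ JL X Y r e ++ N2 X Y r n e ++ JO X Y n e := by
      simp only [← List.map_append, List.map_map]
      have : (ph ρ.symm (-k) ∘ ph ρ k) = id := by funext x; exact ph_ph ρ k x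
      rw [this, List.map_id]
    rw [e1]
    exact (h.ring _).mem
  have key : ∀ i' ∈ JL X Y r e, pull (ph ρ.symm (-k)) ((N1 X Y r n).map (ph ρ k) ++
      (JL X Y r e).map (ph ρ k) ++ (N2 X Y r n e).map (ph ρ k) ++ (JO X Y n e).map (ph ρ k))
      (M (fun t => s (ρ t)) wS) (ph ρ k i') ∈ (JO X Y n e).map (ph ρ k) →
      M (fun t => s (ρ t)) wS i' ∈ JO X Y n e := by
    intro i' hi' hM
    obtain ⟨-, h5⟩ := pull_spec hmem (x := ph ρ k i') (by
      simp only [List.mem_append, List.mem_map]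
      exact Or.inl (Or.inl (Or.inr ⟨i', hi', rfl⟩)))
    obtain ⟨y, hy, h6⟩ := List.mem_map.1 hM
    rw [← h6, ph_ph, ph_ph] at h5
    rw [← h5]; exact hy
  intro i hi j hj hMi hMj
  obtain ⟨i', hi', rfl⟩ := List.mem_map.1 hi
  obtain ⟨j', hj', rfl⟩ := List.mem_map.1 hj
  by_contra hne
  exact hs ⟨i', hi', j', hj', fun e' => hne (by rw [e']), key i' hi' hMi, key j' hj' hMj⟩

/-- **the bound on the mean values** -/
theorem gls_norm (W : Win ρ k X Y r n e m A b) (W' : Win ρ k X Y r n e m A' b') (he : e ≤ m)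
    (hk : k = 0 ∨ k = 2) (hF : ∀ x ∈ Far ρ X Y n m, b' x = b x) (hw : GW A b w)
    (hw' : GW A' b' w') (h : StW X Y r n e wS bS)
    (hr : L w ~r A0 ++ (N1 X Y r n).map (ph ρ k) ++ Di ++ (N2 X Y r n e).map (ph ρ k))
    (hr' : L w' ~r A0 ++ (N1 X Y r n).map (ph ρ k) ++ Gi ++ (N2 X Y r n e).map (ph ρ k))
    (hA : ∀ a ∈ A0, a ∈ Far ρ X Y n m) (hD : ∀ a ∈ Di, a ∈ Near ρ X Y r m)
    (hG : ∀ a ∈ Gi, a ∈ Near ρ X Y r m) {m1 m2 m3 : Port (ℤ × ℤ)} (h1 : m1 ∈ A0) (h2 : m2 ∈ A0)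
    (h3 : m3 ∈ A0) (hc : cyc (pos w m1) (pos w m2) (pos w m3)) :
    cyc (pos w' m1) (pos w' m2) (pos w' m3) ∧
      ‖HW w m1 m2 m3 - HW w' m1 m2 m3‖ ≤
        2 * (PB fun _ : ℤ × ℤ => hf).real (X2 wS (JL X Y r e) (JO X Y n e)) := by
  obtain ⟨k1, k2⟩ := gls W W' he hk hF hw hw' h hr hr' hA hD hG h1 h2 h3 hc
  refine ⟨k1, ?_⟩
  have h4 := HW_sub (w := w) (w' := w') (m1 := m1) (m2 := m2) (m3 := m3) (y1 := m1) (y2 := m2)
    (y3 := m3) {s : ℤ × ℤ → Bool | cs false (fun t => ρ t) s ∈ X2 wS (JL X Y r e) (JO X Y n e)}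
    (fun s hs => by
      refine k2 s fun h5 => hs ?_
      have e1 : cs false (fun t => ρ t) s = fun t => s (ρ t) := by
        funext t; simp [cs]
      rw [Set.mem_ofPred_eq, e1]; exact h5)
  rwa [cs_law (S := (stp X Y r n e).P) (φ := fun t => ρ t)
    (fun x _ y _ hxy => ρ.injective hxy) false ?_] at h4
  intro z z' hz hz2
  have e1 : M z wS = M z' wS :=
    (Ob664.state_congr wS fun t ht => hz t ((h.rwd.tls t).1 ht)).1
  obtain ⟨i, hi, j, hj, h5, h6, h7⟩ := hz2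
  exact ⟨i, hi, j, hj, h5, e1 ▸ h6, e1 ▸ h7⟩

end Crest.Agent.R158.Wd377
end

-- ▼ part R158/Wd6_377
section

/-!
# R158, block WD (helper377), file Wd6: adding one tile at a wall

* **`GW.add2`** : new tile glued along two consecutive sides (`att` + `con`)
* `GW.add1`, `GW.add3` : one side, three sides
* `Std` : the region looks like the stepped half plane in the whole window
* `Std.ring` : its ring `A0 ++ N1 ++ [p, q, e] ++ N2`
* **`Std.tile`** : word, ring and observable of the region with the tile `(X+1, Y)` added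
-/

set_option autoImplicit false
set_option linter.unusedSectionVars false

namespace Crest.Agent.R158.Wd377

open MeasureTheory
open Crest.Agent.R158.Sw300 (Port Wd L M S u be tls pos Ok Fc cyc Adj thru sd)
open Crest.Agent.R158.Ob664 (GW HW HV HG HG_spec Gl)
open Crest.Agent.R158.Env664 (IsWord PortOf)
open Crest.Agent.R158.Xr249 (Nx addP bas rot)
open Crest.Agent.R158.Sl434 hiding cyc mem_L_of_free Loc
open Crest.Agent.R158.Gc748 (stp InS mem_stp N1 N2 JlS JlE JlN JoS JoW JoN mem_fl fl RW)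
open Crest.Agent.R158.Pj679 (nbt nbt_0 nbt_1 nbt_2 nbt_3)
open Crest.Agent.R158.Rs689 (PB hf)

/-! ### adding a tile -/

section add

variable {T : Type*} [DecidableEq T] {A : Finset T} {b b' : Port T → Port T} {w : Wd T} {t : T}
  {p q q0 : Port T} {d : ZMod 4} {l : List (Port T)}

theorem gw_mem {w : Wd T} (h : GW A b w) (t : T) : t ∈ tls w ↔ t ∈ A := h.word.2.2.1 t

theorem z13 : ∀ d : ZMod 4, d + 1 = d + 3 + 2 := by decide


/-- two consecutive sides -/
theorem add2 (h : GW A b w) (ht : t ∉ A) (hr : L w ~r p :: q :: l) (hp : p ≠ none)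
    (hq : q ≠ none) (hd : d = sd p + 2) (hs : sd q = d + 1)
    (hb : ∀ x, b' x = if x = some (t, d + 3) then q else if x = q then some (t, d + 3) else
      if x = p then some (t, d) else if x = some (t, d) then p else b x) :
    ∃ w', GW (insert t A) b' w' ∧ L w' ~r some (t, d + 1) :: some (t, d + 2) :: l := by
  have ok := h.word.1
  have ht' : t ∉ tls w := fun h1 => ht ((gw_mem h t).1 h1)
  have hpL : p ∈ L w := hr.mem_iff.2 (by simp)
  have hqL : q ∈ L w := hr.mem_iff.2 (by simp)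
  have r1 := L_att_rot (t := t) (d := d) (Sw300.nodup ok) hr
  have r2 : L (.att w p t d) ~r some (t, d + 3) :: q :: (l ++ [some (t, d + 1), some (t, d + 2)]) := by
    refine r1.trans ?_
    have := List.isRotated_append (l := [some (t, d + 1), some (t, d + 2)])
      (l' := some (t, d + 3) :: q :: l)
    simpa using this
  have hq3 : (some (t, d + 3) : Port T) ≠ q := fun e => Sw300.ne_port ok ht' _ hqL e.symm
  have ok1 : Ok (.att w p t d) := ⟨ok, hpL, ht', fun e => absurd e hp⟩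
  have r3 : L (.con (.att w p t d) (some (t, d + 3)) q) ~r
      some (t, d + 1) :: some (t, d + 2) :: l := by
    refine (L_con_rot (Sw300.nodup ok1) r2).trans ?_
    have := List.isRotated_append (l := l) (l' := [some (t, d + 1), some (t, d + 2)])
    simpa using this
  refine ⟨.con (.att w p t d) (some (t, d + 3)) q, gw_mk ⟨?_, ?_, ?_, ?_⟩ h.leg, r3⟩
  · exact ⟨ok1, by simp, hq, hq3, adj_of_rot r2⟩
  · refine ⟨⟨h.word.2.1, hd⟩, ?_⟩
    rw [hs, Sw300.sd_some]
    exact z13 d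
  · intro t'
    simp only [tls, List.mem_cons, Finset.mem_insert, gw_mem h]
  · intro x
    rw [hb x]
    simp only [be, be_eq h]


end add

/-! ### the standard window -/

variable {ρ : Equiv.Perm (ℤ × ℤ)} {k : ZMod 4} {X Y : ℤ} {r n e m : ℕ}
variable {A A' : Finset (ℤ × ℤ)} {b b' : Port (ℤ × ℤ) → Port (ℤ × ℤ)}
variable {w w' : Wd (ℤ × ℤ)}

/-- glueing plain in a part of the chart -/
structure Pln (ρ : Equiv.Perm (ℤ × ℤ)) (k : ZMod 4) (Q : ℤ × ℤ → Prop)
    (A : Finset (ℤ × ℤ)) (b : Port (ℤ × ℤ) → Port (ℤ × ℤ)) : Prop where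
  pl : ∀ t, Q t → ∀ d, ρ t ∈ A → ρ (nbt t d) ∈ A →
    b (ph ρ k (some (t, d))) = ph ρ k (some (nbt t d, d + 2))
  pl' : ∀ t, Q t → ∀ d, ¬ (ρ t ∈ A ∧ ρ (nbt t d) ∈ A) →
    b (ph ρ k (some (t, d))) = ph ρ k (some (t, d))

/-- the region is the stepped half plane in the whole window -/
structure Std (ρ : Equiv.Perm (ℤ × ℤ)) (k : ZMod 4) (X Y : ℤ) (n : ℕ)
    (A : Finset (ℤ × ℤ)) (b : Port (ℤ × ℤ) → Port (ℤ × ℤ)) : Prop where
  shp : ∀ t, Big X Y n 1 t → (ρ t ∈ A ↔ Shp X Y 1 t)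
  pln : Pln ρ k (Inn X Y n 1) A b

theorem Std.win (S : Std ρ k X Y n A b) : Win ρ k X Y 1 n 1 1 A b :=
  ⟨fun t h _ => S.shp t h, S.pln.pl, S.pln.pl'⟩

theorem Std.win' (S : Std ρ k X Y n A b) (P : Pln ρ k (Inn X Y n 1) (insert (ρ (X + 1, Y)) A) b') :
    Win ρ k X Y 1 n 1 1 (insert (ρ (X + 1, Y)) A) b' := by
  refine ⟨fun t h h' => ?_, P.pl, P.pl'⟩
  rw [Finset.mem_insert, EmbeddingLike.apply_eq_iff_eq, ← S.shp t h]
  constructor
  · rintro (h1 | h1)
    · exfalso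
      subst h1
      exact h' (by unfold Inn; simp only; omega)
    · exact h1
  · exact Or.inr

theorem ph_rot (x : Port (ℤ × ℤ)) : rot (ph ρ k x) = ph ρ k (rot x) := by
  rcases x with _ | ⟨t, d⟩
  · rfl
  · simp only [ph_some, Xr249.rot_some]
    rw [add_right_comm]

theorem nx_st {t : ℤ × ℤ} {d d' : ZMod 4} (hd : d' = d + 1)
    (h : b (ph ρ k (some (t, d'))) = ph ρ k (some (t, d'))) :
    Nx (Gl b) (ph ρ k (some (t, d))) (ph ρ k (some (t, d'))) := by
  subst hd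
  have e1 : ph ρ k (some (t, d + 1)) = rot (ph ρ k (some (t, d))) := by
    rw [ph_rot, Xr249.rot_some]
  rw [e1] at h ⊢
  refine Nx.stop fun q hq => ?_
  obtain ⟨h1, h2⟩ := hq
  exact h2 (by rw [← h1, h])

theorem nx_go {t t' : ℤ × ℤ} {d d1 d' : ZMod 4} (hd : d1 = d + 1)
    (h : b (ph ρ k (some (t, d1))) = ph ρ k (some (t', d'))) (hne : t ≠ t') {z : Port (ℤ × ℤ)}
    (hz : Nx (Gl b) (ph ρ k (some (t', d'))) z) : Nx (Gl b) (ph ρ k (some (t, d))) z := by
  subst hd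
  refine Nx.go (q := ph ρ k (some (t', d'))) ⟨?_, ?_⟩ hz
  · rw [ph_rot, Xr249.rot_some]; exact h
  · rw [ph_rot, Xr249.rot_some]
    intro e'
    have := ph_inj e'
    simp only [Option.some.injEq, Prod.mk.injEq] at this
    exact hne this.1

/-- the free ends near the new tile, before -/
def DiL (X Y : ℤ) : List (Port (ℤ × ℤ)) :=
  [some ((X, Y), 2), some ((X + 1, Y - 1), 1), some ((X + 1, Y - 1), 2)]
/-- the free ends near the new tile, after -/
def GiL (X Y : ℤ) : List (Port (ℤ × ℤ)) :=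
  [some ((X + 1, Y), 1), some ((X + 1, Y), 2), some ((X + 1, Y - 1), 2)]

/-- the boundary steps of the window -/
theorem Std.chain (S : Std ρ k X Y n A b) (hn : 2 ≤ n) :
    List.IsChain (Nx (Gl b)) ((N1 X Y 1 n ++ DiL X Y ++ N2 X Y 1 n 1).map (ph ρ k)) := by
  have z3 : (3 : ZMod 4) + 2 = 1 := by decide
  have z2 : (2 : ZMod 4) + 2 = 0 := by decide
  have hA : ∀ x y : ℤ, X - n ≤ x → x ≤ X + 2 → Y - n - 1 ≤ y → y ≤ Y + n →
      (y < Y → x ≤ X + 1) → (Y ≤ y → x ≤ X) → ρ (x, y) ∈ A := fun x y h1 h2 h3 h4 h5 h6 =>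
    (S.shp (x, y) (by unfold Big; simp only; omega)).2 (by unfold Shp; simp only; omega)
  have hA' : ∀ x y : ℤ, X - n ≤ x → x ≤ X + 2 → Y - n - 1 ≤ y → y ≤ Y + n →
      ¬ ((y < Y → x ≤ X + 1) ∧ (Y ≤ y → x ≤ X)) → ρ (x, y) ∉ A := fun x y h1 h2 h3 h4 h5 h6 => by
    have := (S.shp (x, y) (by unfold Big; simp only; omega)).1 h6
    unfold Shp at this
    simp only at this
    omega
  have st : ∀ x y : ℤ, X - n < x → x ≤ X + 1 → Y - n ≤ y → y + 1 < Y + n →
      ρ (x, y) ∈ A → ρ (x, y + 1) ∈ A → ρ (x + 1, y) ∉ A →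
      Nx (Gl b) (ph ρ k (some ((x, y + 1), 2))) (ph ρ k (some ((x, y), 2))) := by
    intro x y h1 h2 h3 h4 h5 h6 h7
    refine nx_go (t' := (x, y)) (d1 := 3) (d' := 1) (by decide) ?_ ?_ (nx_st (by decide) ?_)
    · rw [S.pln.pl (x, y + 1) (by unfold Inn; simp only; omega) 3 h6 (by
        rw [nbt_3]; simp only [add_sub_cancel_right]; exact h5), nbt_3, z3]
      simp only [add_sub_cancel_right]
    · intro h; simp at h
    · refine S.pln.pl' (x, y) (by unfold Inn; simp only; omega) 2 fun h => ?_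
      rw [nbt_2] at h
      exact h7 h.2
  rw [List.isChain_map, List.append_assoc]
  refine Gc748.fl_app_chain (fun i hi => ?_) ?_ ?_
  · have e1 : Y + n - 1 - ((i : ℕ) : ℤ) = Y + n - 1 - ((i + 1 : ℕ) : ℤ) + 1 := by push_cast; ring
    simp only [e1]
    refine st X _ (by omega) (by omega) (by omega) (by omega) (hA _ _ ?_ ?_ ?_ ?_ ?_ ?_)
      (hA _ _ ?_ ?_ ?_ ?_ ?_ ?_) (hA' _ _ ?_ ?_ ?_ ?_ ?_) <;> omega
  · have e1 : Y + n - 1 - ((n - 1 - 1 : ℕ) : ℤ) = Y + 1 := by omega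
    simp only [e1]
    refine st X Y (by omega) (by omega) (by omega) (by omega) (hA _ _ ?_ ?_ ?_ ?_ ?_ ?_)
      (hA _ _ ?_ ?_ ?_ ?_ ?_ ?_) (hA' _ _ ?_ ?_ ?_ ?_ ?_) <;> omega
  obtain ⟨l2, hl2⟩ := Gc748.fl_cons (fun i : ℕ =>
    (some ((X + (1 : ℕ), Y - (1 : ℕ) - 1 - i), 2) : Port (ℤ × ℤ))) (n - 1 - 1)
  have eN2 : N2 X Y 1 n 1 = some ((X + (1 : ℕ), Y - (1 : ℕ) - 1 - (0 : ℕ)), 2) :: l2 := hl2
  have cN2 : List.IsChain (fun p q => Nx (Gl b) (ph ρ k p) (ph ρ k q)) (N2 X Y 1 n 1) := by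
    refine Gc748.fl_chain fun i hi => ?_
    have e1 : Y - (1 : ℕ) - 1 - ((i : ℕ) : ℤ) = Y - (1 : ℕ) - 1 - ((i + 1 : ℕ) : ℤ) + 1 := by
      push_cast; ring
    simp only [e1]
    refine st (X + 1) _ (by omega) (by omega) (by omega) (by omega) (hA _ _ ?_ ?_ ?_ ?_ ?_ ?_)
      (hA _ _ ?_ ?_ ?_ ?_ ?_ ?_) (hA' _ _ ?_ ?_ ?_ ?_ ?_) <;> omega
  show List.IsChain (fun p q => Nx (Gl b) (ph ρ k p) (ph ρ k q)) (some ((X, Y), 2) ::
    some ((X + 1, Y - 1), 1) :: some ((X + 1, Y - 1), 2) :: N2 X Y 1 n 1)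
  rw [eN2] at cN2 ⊢
  simp only [List.isChain_cons_cons]
  refine ⟨?_, ?_, ?_, cN2⟩
  · refine nx_go (t' := (X, Y - 1)) (d1 := 3) (d' := 1) (by decide) ?_ ?_
      (nx_go (t' := (X + 1, Y - 1)) (d1 := 2) (d' := 0) (by decide) ?_ ?_ (nx_st (by decide) ?_))
    · rw [S.pln.pl (X, Y) (by unfold Inn; simp only; omega) 3
        (hA _ _ (by omega) (by omega) (by omega) (by omega) (by omega) (by omega)) (by
          rw [nbt_3]
          exact hA _ _ (by omega) (by omega) (by omega) (by omega) (by omega) (by omega)), nbt_3, z3]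
    · intro h; simp only [Prod.mk.injEq] at h; omega
    · rw [S.pln.pl (X, Y - 1) (by unfold Inn; simp only; omega) 2
        (hA _ _ (by omega) (by omega) (by omega) (by omega) (by omega) (by omega)) (by
          rw [nbt_2]
          exact hA _ _ (by omega) (by omega) (by omega) (by omega) (by omega) (by omega)), nbt_2, z2]
    · intro h; simp only [Prod.mk.injEq] at h; omega
    · refine S.pln.pl' (X + 1, Y - 1) (by unfold Inn; simp only; omega) 1 fun h => ?_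
      rw [nbt_1] at h
      exact hA' (X + 1) (Y - 1 + 1) (by omega) (by omega) (by omega) (by omega) (by omega) h.2
  · refine nx_st (by decide) ?_
    refine S.pln.pl' (X + 1, Y - 1) (by unfold Inn; simp only; omega) 2 fun h => ?_
    rw [nbt_2] at h
    exact hA' (X + 1 + 1) (Y - 1) (by omega) (by omega) (by omega) (by omega) (by omega) h.2
  · have e1 : (X + ((1 : ℕ) : ℤ), Y - ((1 : ℕ) : ℤ) - 1 - ((0 : ℕ) : ℤ)) = (X + 1, Y - 2) := by
      ext <;> simp only <;> omega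
    rw [e1]
    have h2 := st (X + 1) (Y - 2) (by omega) (by omega) (by omega) (by omega)
      (hA _ _ (by omega) (by omega) (by omega) (by omega) (by omega) (by omega))
      (hA _ _ (by omega) (by omega) (by omega) (by omega) (by omega) (by omega))
      (hA' _ _ (by omega) (by omega) (by omega) (by omega) (by omega))
    have e2 : Y - 2 + 1 = Y - 1 := by ring
    rwa [e2] at h2

end Crest.Agent.R158.Wd377
end

-- ▼ part R158/Wd7_377
section

/-!
# R158, block WD (helper377), file Wd7: one tile at a flat wall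

* `Std.ring` : ring of a region in the standard window: `A0 ++ N1 ++ Di ++ N2`, `A0` far
* `Std.tile` : the region with the tile `(X+1, Y)` added has a word, ring `A0 ++ N1 ++ Gi ++ N2`
* **`tile_MK`** : the observable changes by at most `C (1/n)^(1+c)`
-/

set_option autoImplicit false
set_option linter.unusedSectionVars false

namespace Crest.Agent.R158.Wd377

open MeasureTheory
open Crest.Agent.R158.Sw300 (Port Wd L M S u be tls pos Ok Fc cyc Adj thru sd)
open Crest.Agent.R158.Ob664 (GW HW HV HG HG_spec Gl)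
open Crest.Agent.R158.Env664 (IsWord PortOf)
open Crest.Agent.R158.Xr249 (Nx addP bas rot)
open Crest.Agent.R158.Sl434 hiding cyc mem_L_of_free Loc
open Crest.Agent.R158.Gc748 (stp InS mem_stp N1 N2 JlS JlE JlN JoS JoW JoN mem_fl fl RW)
open Crest.Agent.R158.Pj679 (nbt nbt_0 nbt_1 nbt_2 nbt_3)
open Crest.Agent.R158.Rs689 (PB hf)

variable {ρ : Equiv.Perm (ℤ × ℤ)} {k : ZMod 4} {X Y : ℤ} {r n e m : ℕ}
variable {A A' : Finset (ℤ × ℤ)} {b b' : Port (ℤ × ℤ) → Port (ℤ × ℤ)}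
variable {w w' : Wd (ℤ × ℤ)}

theorem Std.mem (S : Std ρ k X Y n A b) {x y : ℤ} (h1 : X - n ≤ x) (h2 : x ≤ X + 2)
    (h3 : Y - n - 1 ≤ y) (h4 : y ≤ Y + n) (h5 : y < Y → x ≤ X + 1) (h6 : Y ≤ y → x ≤ X) :
    ρ (x, y) ∈ A :=
  (S.shp (x, y) (by unfold Big; simp only; omega)).2 (by unfold Shp; simp only; omega)

theorem Std.nmem (S : Std ρ k X Y n A b) {x y : ℤ} (h1 : X - n ≤ x) (h2 : x ≤ X + 2)
    (h3 : Y - n - 1 ≤ y) (h4 : y ≤ Y + n) (h5 : ¬ ((y < Y → x ≤ X + 1) ∧ (Y ≤ y → x ≤ X))) :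
    ρ (x, y) ∉ A := fun h6 => by
  have := (S.shp (x, y) (by unfold Big; simp only; omega)).1 h6
  unfold Shp at this
  simp only at this
  omega

theorem nbt_ne (t : ℤ × ℤ) (d : ZMod 4) : nbt t d ≠ t := by
  obtain ⟨x, y⟩ := t
  rcases Xr249.Reg.d4 d with rfl | rfl | rfl | rfl <;>
    simp only [nbt_0, nbt_1, nbt_2, nbt_3, ne_eq, Prod.mk.injEq] <;> omega

/-- the walls of the window -/
theorem of_N1 {y : ℤ} (hn : 2 ≤ n) (h1 : Y + 1 ≤ y) (h2 : y < Y + n) :
    (some ((X, y), 2) : Port (ℤ × ℤ)) ∈ N1 X Y 1 n := by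
  refine mem_fl.2 ⟨(Y + n - 1 - y).toNat, by omega, ?_⟩
  have : Y + n - 1 - ((Y + n - 1 - y).toNat : ℤ) = y := by omega
  rw [this]

theorem of_N2 {y : ℤ} (hn : 2 ≤ n) (h1 : Y - n ≤ y) (h2 : y ≤ Y - 2) :
    (some ((X + 1, y), 2) : Port (ℤ × ℤ)) ∈ N2 X Y 1 n 1 := by
  refine mem_fl.2 ⟨(Y - 2 - y).toNat, by omega, ?_⟩
  have : Y - (1 : ℕ) - 1 - ((Y - 2 - y).toNat : ℤ) = y := by omega
  rw [this]
  rfl

/-- a free end of a tile of the window is on the explicit wall -/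
theorem Std.free (S : Std ρ k X Y n A b) (hn : 2 ≤ n) {t : ℤ × ℤ} {d : ZMod 4}
    (ht : Inn X Y n 1 t) (hA : ρ t ∈ A)
    (hb : b (ph ρ k (some (t, d))) = ph ρ k (some (t, d))) :
    some (t, d) ∈ N1 X Y 1 n ++ DiL X Y ++ N2 X Y 1 n 1 := by
  have h1 : ρ (nbt t d) ∉ A := by
    intro h2
    rw [S.pln.pl t ht d hA h2] at hb
    have := ph_inj hb
    simp only [Option.some.injEq, Prod.mk.injEq] at this
    exact nbt_ne t d this.1
  have h2 := (S.shp t (big_inn ht)).1 hA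
  have h3 : ¬ Shp X Y 1 (nbt t d) := fun h => h1 ((S.shp _ (big_nbt ht d)).2 h)
  obtain ⟨x, y⟩ := t
  unfold Inn at ht
  unfold Shp at h2 h3
  simp only [List.mem_append]
  rcases Xr249.Reg.d4 d with rfl | rfl | rfl | rfl
  · exfalso
    simp only [nbt_0] at h3
    simp only at h2
    omega
  · simp only [nbt_1] at h3
    simp only at h2 ht
    have hx : x = X + 1 := by omega
    have hy : y = Y - 1 := by omega
    subst hx; subst hy
    left; right; simp [DiL]
  · simp only [nbt_2] at h3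
    simp only at h2 ht
    by_cases hy : Y ≤ y
    · have hx : x = X := by omega
      subst hx
      by_cases hy' : y = Y
      · subst hy'
        left; right; simp [DiL]
      · left; left
        exact of_N1 hn (by omega) (by omega)
    · have hx : x = X + 1 := by omega
      subst hx
      by_cases hy' : y = Y - 1
      · subst hy'
        left; right; simp [DiL]
      · right
        exact of_N2 hn (by omega) (by omega)
  · exfalso
    simp only [nbt_3] at h3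
    simp only at h2
    omega

/-- tiles of the explicit wall -/
theorem wall_inn (hn : 2 ≤ n) {x : Port (ℤ × ℤ)}
    (hx : x ∈ N1 X Y 1 n ++ DiL X Y ++ N2 X Y 1 n 1) :
    ∃ t d, x = some (t, d) ∧ Inn X Y n 1 t := by
  simp only [List.mem_append] at hx
  rcases hx with (hx | hx) | hx
  · obtain ⟨y, rfl, h1, h2⟩ := mem_N1' (by omega) hx
    exact ⟨_, _, rfl, by unfold Inn; simp only; omega⟩
  · simp only [DiL, List.mem_cons, List.not_mem_nil, or_false] at hx
    rcases hx with rfl | rfl | rfl <;> exact ⟨_, _, rfl, by unfold Inn; simp only; omega⟩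
  · obtain ⟨y, rfl, h1, h2⟩ := mem_N2' (by omega) hx
    exact ⟨_, _, rfl, by unfold Inn; simp only; omega⟩

/-- **ring of the standard window** -/
theorem Std.ring (S : Std ρ k X Y n A b) (hn : 2 ≤ n) (hw : GW A b w) :
    ∃ A0, L w ~r A0 ++ (N1 X Y 1 n).map (ph ρ k) ++ (DiL X Y).map (ph ρ k) ++
        (N2 X Y 1 n 1).map (ph ρ k) ∧ ∀ a ∈ A0, a ∈ Far ρ X Y n 1 := by
  obtain ⟨l1, l2, e1, m1, m2⟩ := Gc748.fl_split
    (fun i : ℕ => (some ((X, Y + n - 1 - i), 2) : Port (ℤ × ℤ))) (n - 1 - 1) 0 (Nat.zero_le _)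
  have e2 : l1 = [] := by
    rcases l1 with _ | ⟨a, l⟩
    · rfl
    · obtain ⟨j, hj, -⟩ := (m1 a).1 (by simp)
      omega
  subst e2
  have eN1 : N1 X Y 1 n = some ((X, Y + n - 1 - ((0 : ℕ) : ℤ)), 2) :: l2 := e1
  have hc := S.chain hn
  have ew : (N1 X Y 1 n ++ DiL X Y ++ N2 X Y 1 n 1).map (ph ρ k) =
      ph ρ k (some ((X, Y + n - 1 - ((0 : ℕ) : ℤ)), 2)) ::
        (l2 ++ DiL X Y ++ N2 X Y 1 n 1).map (ph ρ k) := by
    rw [eN1]; rfl
  rw [ew] at hc
  have hy : ph ρ k (some ((X, Y + n - 1 - ((0 : ℕ) : ℤ)), 2)) ∈ L w := by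
    rw [ph_some, mem_L hw]
    refine ⟨S.mem (by omega) (by omega) (by omega) (by omega) (by omega) (by omega), ?_⟩
    rw [← ph_some ρ k]
    refine S.pln.pl' _ (by unfold Inn; simp only; omega) _ fun h => ?_
    rw [nbt_2] at h
    exact S.nmem (by omega) (by omega) (by omega) (by omega) (by omega) h.2
  have hyn : ph ρ k (some ((X, Y + n - 1 - ((0 : ℕ) : ℤ)), 2)) ∉
      (l2 ++ DiL X Y ++ N2 X Y 1 n 1).map (ph ρ k) := by
    intro h
    obtain ⟨z, hz, hz2⟩ := List.mem_map.1 h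
    have hz3 := ph_inj hz2
    subst hz3
    simp only [List.mem_append] at hz
    rcases hz with (hz | hz) | hz
    · obtain ⟨j, h1, h2, h3⟩ := (m2 _).1 hz
      simp only [Option.some.injEq, Prod.mk.injEq] at h3
      omega
    · simp only [DiL, List.mem_cons, Option.some.injEq, Prod.mk.injEq, List.not_mem_nil,
        or_false] at hz
      omega
    · obtain ⟨y, h1, h2, h3⟩ := mem_N2' (by omega) hz
      simp only [Option.some.injEq, Prod.mk.injEq] at h1
      omega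
  obtain ⟨rest, hr⟩ := ring_pre (nx_det b) (gw_ring hw) hy hc hyn
  have hr2 : L w ~r rest ++ (N1 X Y 1 n).map (ph ρ k) ++ (DiL X Y).map (ph ρ k) ++
        (N2 X Y 1 n 1).map (ph ρ k) := by
    refine hr.trans ?_
    have := List.isRotated_append (l := (N1 X Y 1 n ++ DiL X Y ++ N2 X Y 1 n 1).map (ph ρ k))
      (l' := rest)
    have e5 : rest ++ (N1 X Y 1 n).map (ph ρ k) ++ (DiL X Y).map (ph ρ k) ++
        (N2 X Y 1 n 1).map (ph ρ k) =
        rest ++ (N1 X Y 1 n ++ DiL X Y ++ N2 X Y 1 n 1).map (ph ρ k) := by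
      simp only [List.map_append, List.append_assoc]
    rw [e5]
    refine List.IsRotated.trans ?_ this
    rw [ew]
    exact List.IsRotated.refl _
  refine ⟨rest, hr2, ?_⟩
  intro a ha t d e' ht
  have haL : a ∈ L w := hr2.mem_iff.2 (by simp [ha])
  have ea : a = ph ρ k (some (t, d - k)) := by rw [e']; simp
  rw [e', mem_L hw] at haL
  have hb : b (ph ρ k (some (t, d - k))) = ph ρ k (some (t, d - k)) := by
    rw [← ea, e']; exact haL.2
  have h1 := S.free hn ht haL.1 hb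
  have hnd := (hr2.nodup_iff).1 (Sw300.nodup hw.word.1)
  have h2 : a ∈ (N1 X Y 1 n).map (ph ρ k) ++ (DiL X Y).map (ph ρ k) ++
      (N2 X Y 1 n 1).map (ph ρ k) := by
    rw [ea, ← List.map_append, ← List.map_append]
    exact List.mem_map_of_mem h1
  have e3 : rest ++ (N1 X Y 1 n).map (ph ρ k) ++ (DiL X Y).map (ph ρ k) ++
        (N2 X Y 1 n 1).map (ph ρ k) = rest ++ ((N1 X Y 1 n).map (ph ρ k) ++
        (DiL X Y).map (ph ρ k) ++ (N2 X Y 1 n 1).map (ph ρ k)) := by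
    simp only [List.append_assoc]
  rw [e3] at hnd
  exact notMem_left hnd h2 ha

theorem zk (k : ZMod 4) : k = 2 + k + 2 ∧ 1 + k = k + 1 ∧ 3 + k = k + 3 ∧ 2 + k = k + 2 ∧
    0 + k = k := by revert k; decide

/-- **the region with one more tile** -/
theorem Std.tile (S : Std ρ k X Y n A b) (hn : 2 ≤ n)
    (P : Pln ρ k (Inn X Y n 1) (insert (ρ (X + 1, Y)) A) b')
    (hF : ∀ x ∈ Far ρ X Y n 1, b' x = b x) (hw : GW A b w) :
    ∃ w' A0, GW (insert (ρ (X + 1, Y)) A) b' w' ∧ (∀ a ∈ A0, a ∈ Far ρ X Y n 1) ∧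
      L w ~r A0 ++ (N1 X Y 1 n).map (ph ρ k) ++ (DiL X Y).map (ph ρ k) ++
        (N2 X Y 1 n 1).map (ph ρ k) ∧
      L w' ~r A0 ++ (N1 X Y 1 n).map (ph ρ k) ++ (GiL X Y).map (ph ρ k) ++
        (N2 X Y 1 n 1).map (ph ρ k) := by
  obtain ⟨A0, hr, hA0⟩ := S.ring hn hw
  obtain ⟨k0, k1, k2, k3, k4⟩ := zk k
  have z3 : (3 : ZMod 4) + 2 = 1 := by decide
  have z2 : (2 : ZMod 4) + 2 = 0 := by decide
  have z1 : (1 : ZMod 4) + 2 = 3 := by decide
  have z0 : (0 : ZMod 4) + 2 = 2 := by decide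
  have hnew : ρ (X + 1, Y) ∉ A :=
    S.nmem (by omega) (by omega) (by omega) (by omega) (by omega)
  have hp1 : ρ (X, Y) ∈ A := S.mem (by omega) (by omega) (by omega) (by omega) (by omega) (by omega)
  have hq1 : ρ (X + 1, Y - 1) ∈ A :=
    S.mem (by omega) (by omega) (by omega) (by omega) (by omega) (by omega)
  have hr2 : L w ~r ph ρ k (some ((X, Y), 2)) :: ph ρ k (some ((X + 1, Y - 1), 1)) ::
      (ph ρ k (some ((X + 1, Y - 1), 2)) :: (N2 X Y 1 n 1).map (ph ρ k) ++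
        (A0 ++ (N1 X Y 1 n).map (ph ρ k))) := by
    refine hr.trans ?_
    have := List.isRotated_append (l := A0 ++ (N1 X Y 1 n).map (ph ρ k))
      (l' := (DiL X Y).map (ph ρ k) ++ (N2 X Y 1 n 1).map (ph ρ k))
    simpa [DiL, List.append_assoc] using this
  have memA' : ∀ t : ℤ × ℤ, ρ t ∈ insert (ρ (X + 1, Y)) A ↔ (t = (X + 1, Y) ∨ ρ t ∈ A) := by
    intro t
    rw [Finset.mem_insert, EmbeddingLike.apply_eq_iff_eq]
  have same : ∀ t : ℤ × ℤ, t ≠ (X + 1, Y) → (ρ t ∈ insert (ρ (X + 1, Y)) A ↔ ρ t ∈ A) := by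
    intro t ht
    rw [memA']; tauto
  have hb : ∀ x, b' x = if x = some (ρ (X + 1, Y), k + 3) then ph ρ k (some ((X + 1, Y - 1), 1))
      else if x = ph ρ k (some ((X + 1, Y - 1), 1)) then some (ρ (X + 1, Y), k + 3) else
      if x = ph ρ k (some ((X, Y), 2)) then some (ρ (X + 1, Y), k) else
      if x = some (ρ (X + 1, Y), k) then ph ρ k (some ((X, Y), 2)) else b x := by
    have e3 : (some (ρ (X + 1, Y), k + 3) : Port (ℤ × ℤ)) = ph ρ k (some ((X + 1, Y), 3)) := by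
      rw [ph_some, k2]
    have e0 : (some (ρ (X + 1, Y), k) : Port (ℤ × ℤ)) = ph ρ k (some ((X + 1, Y), 0)) := by
      rw [ph_some, k4]
    rw [e3, e0]
    intro x
    by_cases hx : x ∈ Far ρ X Y n 1
    · have hne : ∀ t d, Inn X Y n 1 t → x ≠ ph ρ k (some (t, d)) := by
        rintro t d ht rfl
        exact (far_ph.1 hx) ht
      rw [hF x hx, if_neg (hne _ _ (by unfold Inn; simp only; omega)),
        if_neg (hne _ _ (by unfold Inn; simp only; omega)),
        if_neg (hne _ _ (by unfold Inn; simp only; omega)),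
        if_neg (hne _ _ (by unfold Inn; simp only; omega))]
    · have hx' : ∃ t d, x = ph ρ k (some (t, d)) ∧ Inn X Y n 1 t := by
        by_contra hcon
        push Not at hcon
        apply hx
        intro t d e' hi
        exact hcon t (d - k) (by rw [e']; simp) hi
      obtain ⟨t, d, rfl, ht⟩ := hx'
      simp only [ph_inj_iff, Option.some.injEq, Prod.mk.injEq]
      by_cases h1 : t = (X + 1, Y)
      · subst h1
        have c1 : ∀ d : ZMod 4, ¬ ((X + 1, Y) = (X + 1, Y - 1) ∧ d = (1 : ZMod 4)) := by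
          rintro d ⟨h, -⟩
          have := congrArg Prod.snd h
          simp only at this
          omega
        have c2 : ∀ d : ZMod 4, ¬ ((X + 1, Y) = (X, Y) ∧ d = (2 : ZMod 4)) := by
          rintro d ⟨h, -⟩; simp at h
        have c4 : ∀ d d' : ZMod 4, d ≠ d' → ¬ ((X + 1, Y) = (X + 1, Y) ∧ d = d') :=
          fun d d' h h' => h h'.2
        rcases Xr249.Reg.d4 d with rfl | rfl | rfl | rfl
        · rw [if_neg (c4 _ _ (by decide)), if_neg (c1 _), if_neg (c2 _), if_pos ⟨rfl, rfl⟩,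
            P.pl _ ht 0 ((memA' _).2 (Or.inl rfl)) ((memA' _).2 (Or.inr (by
              rw [nbt_0]; simpa using hp1))), nbt_0, z0]
          simp
        · have hn1 : ρ (nbt (X + 1, Y) 1) ∉ insert (ρ (X + 1, Y)) A := by
            rw [same _ (nbt_ne _ _)]
            exact S.nmem (x := X + 1) (y := Y + 1) (by omega) (by omega) (by omega) (by omega)
              (by omega)
          rw [if_neg (c4 _ _ (by decide)), if_neg (c1 _), if_neg (c2 _),
            if_neg (c4 _ _ (by decide)), P.pl' _ ht 1 fun h => hn1 h.2,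
            S.pln.pl' _ ht 1 fun h => hnew h.1]
        · have hn1 : ρ (nbt (X + 1, Y) 2) ∉ insert (ρ (X + 1, Y)) A := by
            rw [same _ (nbt_ne _ _)]
            exact S.nmem (x := X + 1 + 1) (y := Y) (by omega) (by omega) (by omega) (by omega)
              (by omega)
          rw [if_neg (c4 _ _ (by decide)), if_neg (c1 _), if_neg (c2 _),
            if_neg (c4 _ _ (by decide)), P.pl' _ ht 2 fun h => hn1 h.2,
            S.pln.pl' _ ht 2 fun h => hnew h.1]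
        · rw [if_pos ⟨rfl, rfl⟩, P.pl _ ht 3 ((memA' _).2 (Or.inl rfl)) ((memA' _).2 (Or.inr (by
              rw [nbt_3]; exact hq1))), nbt_3, z3]
      · have c3 : ∀ d' : ZMod 4, ¬ (t = (X + 1, Y) ∧ d = d') := fun d' h => h1 h.1
        by_cases h2 : nbt t d = (X + 1, Y)
        · have ht2 : t = nbt (X + 1, Y) (d + 2) := by rw [← h2, nbt_nbt]
          rcases Xr249.Reg.d4 d with rfl | rfl | rfl | rfl
          · exfalso
            rw [z0, nbt_2] at ht2
            subst ht2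
            unfold Inn at ht; simp only at ht; omega
          · rw [z1, nbt_3] at ht2
            subst ht2
            rw [if_neg (c3 _), if_pos ⟨rfl, rfl⟩, P.pl _ ht 1 ((memA' _).2 (Or.inr hq1))
              ((memA' _).2 (Or.inl h2)), h2, z1]
          · rw [z2, nbt_0] at ht2
            simp only [add_sub_cancel_right] at ht2
            subst ht2
            rw [if_neg (c3 _), if_neg (by rintro ⟨h, -⟩; simp at h), if_pos ⟨rfl, rfl⟩,
              P.pl _ ht 2 ((memA' _).2 (Or.inr hp1)) ((memA' _).2 (Or.inl h2)), h2, z2]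
          · rw [z3, nbt_1] at ht2
            subst ht2
            have hn1 : ρ (X + 1, Y + 1) ∉ A :=
              S.nmem (by omega) (by omega) (by omega) (by omega) (by omega)
            rw [if_neg (c3 _), if_neg (by rintro ⟨-, h⟩; exact absurd h (by decide)),
              if_neg (by rintro ⟨-, h⟩; exact absurd h (by decide)), if_neg (c3 _),
              P.pl' _ ht 3 fun h => hn1 ((same _ h1).1 h.1), S.pln.pl' _ ht 3 fun h => hn1 h.1]
        · have c1 : ¬ (t = (X + 1, Y - 1) ∧ d = (1 : ZMod 4)) := by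
            rintro ⟨rfl, rfl⟩
            apply h2; rw [nbt_1]; simp
          have c2 : ¬ (t = (X, Y) ∧ d = (2 : ZMod 4)) := by
            rintro ⟨rfl, rfl⟩
            exact h2 (nbt_2 _)
          rw [if_neg (c3 _), if_neg c1, if_neg c2, if_neg (c3 _)]
          by_cases h3 : ρ t ∈ A ∧ ρ (nbt t d) ∈ A
          · rw [P.pl _ ht d ((same _ h1).2 h3.1) ((same _ h2).2 h3.2),
              S.pln.pl _ ht d h3.1 h3.2]
          · rw [P.pl' _ ht d fun h => h3 ⟨(same _ h1).1 h.1, (same _ h2).1 h.2⟩,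
              S.pln.pl' _ ht d h3]
  obtain ⟨w', h', hr'⟩ := add2 hw hnew hr2 (by simp) (by simp)
    (by rw [ph_some, Sw300.sd_some]; exact k0) (by rw [ph_some, Sw300.sd_some]; exact k1) hb
  refine ⟨w', A0, h', hA0, hr, hr'.trans ?_⟩
  have := List.isRotated_append (l := (GiL X Y).map (ph ρ k) ++ (N2 X Y 1 n 1).map (ph ρ k))
    (l' := A0 ++ (N1 X Y 1 n).map (ph ρ k))
  have e4 : some (ρ (X + 1, Y), k + 1) :: some (ρ (X + 1, Y), k + 2) ::
      (ph ρ k (some ((X + 1, Y - 1), 2)) :: (N2 X Y 1 n 1).map (ph ρ k) ++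
        (A0 ++ (N1 X Y 1 n).map (ph ρ k))) =
      (GiL X Y).map (ph ρ k) ++ (N2 X Y 1 n 1).map (ph ρ k) ++
        (A0 ++ (N1 X Y 1 n).map (ph ρ k)) := by
    simp only [GiL, List.map_cons, List.map_nil, ph_some, k1, k3, List.cons_append,
      List.nil_append]
  rw [e4]
  refine this.trans ?_
  simp only [List.append_assoc]
  exact List.IsRotated.refl _

end Crest.Agent.R158.Wd377
end

-- ▼ part R158/Wd8_377
section

/-!
# R158, block WD (helper377), file Wd8: one tile at a flat wall, mean values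

* **`tile_MK`** (any chart): `MK A b m → MK A' b' m ∧ ‖HG A b m - HG A' b' m‖ ≤ C (1/n)^(1+c)`
* **`right_tile`** : new tile `(X+1, Y)` at a right wall, rows below already displaced
* **`left_tile`** : new tile `(X-1, Y)` at a left wall, rows above already displaced
* `beD_plain`, `beD_far` : the glueing `beD A p y0 xr` away from the slit
* **`HA_right_tile`, `HA_left_tile`** : the same for the official `HA A m p y0`
-/

set_option autoImplicit false
set_option linter.unusedSectionVars false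

namespace Crest.Agent.R158.Wd377

open MeasureTheory
open Crest.Agent.R158.Sw300 (Port Wd L M S u be tls pos Ok Fc cyc Adj thru sd)
open Crest.Agent.R158.Ob664 (GW HW HV HG HG_spec Gl HA rgt)
open Crest.Agent.R158.Env664 (IsWord PortOf portOf_some beP nbP res beD nbD nbP_W nbP_N nbP_E nbP_S)
open Crest.Agent.R158.Xr249 (Nx addP bas rot)
open Crest.Agent.R158.Sl434 hiding cyc mem_L_of_free Loc
open Crest.Agent.R158.Gc748 (stp InS mem_stp N1 N2 JlS JlE JlN JoS JoW JoN mem_fl fl RW)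
open Crest.Agent.R158.Pj679 (nbt nbt_0 nbt_1 nbt_2 nbt_3)
open Crest.Agent.R158.Rs689 (PB hf)

variable {ρ : Equiv.Perm (ℤ × ℤ)} {k : ZMod 4} {X Y : ℤ} {r n e m : ℕ}
variable {A A' : Finset (ℤ × ℤ)} {b b' : Port (ℤ × ℤ) → Port (ℤ × ℤ)}
variable {w w' : Wd (ℤ × ℤ)}

theorem map_near {l : List (Port (ℤ × ℤ))}
    (h : ∀ x ∈ l, ∃ t d, x = some (t, d) ∧ Inn X Y n 1 t) {x : Port (ℤ × ℤ)}
    (hx : x ∈ l.map (ph ρ k)) : x ∉ Far ρ X Y n 1 := by
  obtain ⟨y, hy, rfl⟩ := List.mem_map.1 hx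
  obtain ⟨t, d, rfl, ht⟩ := h y hy
  intro h2
  exact far_ph.1 h2 ht

/-- **one tile, any chart, words** -/
theorem Std.step (S : Std ρ k X Y n A b) (hn : 2 ≤ n) (hk : k = 0 ∨ k = 2)
    (P : Pln ρ k (Inn X Y n 1) (insert (ρ (X + 1, Y)) A) b')
    (hF : ∀ x ∈ Far ρ X Y n 1, b' x = b x) (hw : GW A b w) {m1 m2 m3 : Port (ℤ × ℤ)}
    (h1 : m1 ∈ L w) (h2 : m2 ∈ L w) (h3 : m3 ∈ L w) (f1 : m1 ∈ Far ρ X Y n 1)
    (f2 : m2 ∈ Far ρ X Y n 1) (f3 : m3 ∈ Far ρ X Y n 1)
    (hc : cyc (pos w m1) (pos w m2) (pos w m3)) {wS : Wd (ℤ × ℤ)} {bS : ℤ × ℤ}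
    (h : StW X Y 1 n 1 wS bS) :
    ∃ w', GW (insert (ρ (X + 1, Y)) A) b' w' ∧ m1 ∈ L w' ∧ m2 ∈ L w' ∧ m3 ∈ L w' ∧
      cyc (pos w' m1) (pos w' m2) (pos w' m3) ∧ ‖HW w m1 m2 m3 - HW w' m1 m2 m3‖ ≤
        2 * (PB fun _ : ℤ × ℤ => hf).real (X2 wS (JL X Y 1 1) (JO X Y n 1)) := by
  obtain ⟨w', A0, hw', hA0, hr, hr'⟩ := S.tile hn P hF hw
  have far : ∀ {x}, x ∈ L w → x ∈ Far ρ X Y n 1 → x ∈ A0 := by
    intro x hx hf
    have h4 := hr.mem_iff.1 hx
    simp only [List.mem_append] at h4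
    rcases h4 with ((h4 | h4) | h4) | h4
    · exact h4
    · exact absurd hf (map_near (fun x hx => wall_inn hn (by simp [hx])) h4)
    · exact absurd hf (map_near (fun x hx => wall_inn hn (by simp [hx])) h4)
    · exact absurd hf (map_near (fun x hx => wall_inn hn (by simp [hx])) h4)
  have a1 := far h1 f1
  have a2 := far h2 f2
  have a3 := far h3 f3
  have nD : ∀ a ∈ (DiL X Y).map (ph ρ k), a ∈ Near ρ X Y 1 1 := by
    intro a ha
    obtain ⟨y, hy, rfl⟩ := List.mem_map.1 ha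
    simp only [DiL, List.mem_cons, List.not_mem_nil, or_false] at hy
    rcases hy with rfl | rfl | rfl <;> exact near_ph.2 (by unfold Inn; simp only; omega)
  have nG : ∀ a ∈ (GiL X Y).map (ph ρ k), a ∈ Near ρ X Y 1 1 := by
    intro a ha
    obtain ⟨y, hy, rfl⟩ := List.mem_map.1 ha
    simp only [GiL, List.mem_cons, List.not_mem_nil, or_false] at hy
    rcases hy with rfl | rfl | rfl <;> exact near_ph.2 (by unfold Inn; simp only; omega)
  obtain ⟨k1, k2⟩ := gls_norm S.win (S.win' P) le_rfl hk hF hw hw' h hr hr' hA0 nD nG a1 a2 a3 hc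
  have memL' : ∀ {x}, x ∈ A0 → x ∈ L w' := fun hx => hr'.mem_iff.2 (by simp [hx])
  exact ⟨w', hw', memL' a1, memL' a2, memL' a3, k1, k2⟩

/-- **one tile, any chart** -/
theorem tile_MK : ∃ C c : ℝ, 1 ≤ C ∧ 0 < c ∧ c ≤ 1 ∧ ∀ (ρ : Equiv.Perm (ℤ × ℤ)) (k : ZMod 4)
    (X Y : ℤ) (n : ℕ) (A : Finset (ℤ × ℤ)) (b b' : Port (ℤ × ℤ) → Port (ℤ × ℤ))
    (m1 m2 m3 : Port (ℤ × ℤ)), (k = 0 ∨ k = 2) → 2 ≤ n → Std ρ k X Y n A b →
    Pln ρ k (Inn X Y n 1) (insert (ρ (X + 1, Y)) A) b' → (∀ x ∈ Far ρ X Y n 1, b' x = b x) →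
    m1 ∈ Far ρ X Y n 1 → m2 ∈ Far ρ X Y n 1 → m3 ∈ Far ρ X Y n 1 → MK A b m1 m2 m3 →
    MK (insert (ρ (X + 1, Y)) A) b' m1 m2 m3 ∧
      ‖HG A b m1 m2 m3 - HG (insert (ρ (X + 1, Y)) A) b' m1 m2 m3‖ ≤
        C * ((1 : ℝ) / n) ^ (1 + c) := by
  obtain ⟨c, hc, hc1, hP⟩ := Pj679.stp_prob''
  obtain ⟨C, hC, hP⟩ := hP 1
  refine ⟨2 * C, c, by linarith, hc, hc1, ?_⟩
  intro ρ k X Y n A b b' m1 m2 m3 hk hn S P hF f1 f2 f3 hMK
  obtain ⟨w, hw, h1, h2, h3, hcy, e1⟩ := hMK.spec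
  obtain ⟨wS, bS, hS⟩ := exists_stW X Y 1 n 1 le_rfl (by omega)
  obtain ⟨w', hw', k1, k2, k3, hcy', hle⟩ := S.step hn hk P hF hw h1 h2 h3 f1 f2 f3 hcy hS
  refine ⟨⟨w', hw', k1, k2, k3, hcy'⟩, ?_⟩
  rw [e1, HG_eq hw' k1 k2 k3 hcy']
  refine hle.trans ?_
  have h4 := hP X Y 1 n le_rfl (by omega) wS bS hS.rwd
  rw [Nat.cast_one] at h4
  have h5 : (PB fun _ : ℤ × ℤ => hf).real (X2 wS (JL X Y 1 1) (JO X Y n 1)) ≤
      C * ((1 : ℝ) / n) ^ (1 + c) := by
    refine (measureReal_mono ?_).trans h4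
    rintro s ⟨i, hi, j, hj, h6, h7, h8⟩
    exact ⟨i, j, mem_JL.1 hi, mem_JL.1 hj, h6, mem_JO.1 h7, mem_JO.1 h8⟩
  linarith

/-! ### plain coordinates -/

theorem nbP_nbt (t : ℤ × ℤ) (d : ZMod 4) : nbP (some (t, d)) = some (nbt t d, d + 2) := by
  obtain ⟨x, y⟩ := t
  rcases Xr249.Reg.d4 d with rfl | rfl | rfl | rfl
  · rw [nbP_W, nbt_0]; rfl
  · rw [nbP_N, nbt_1]; rfl
  · rw [nbP_E, nbt_2]; rfl
  · rw [nbP_S, nbt_3]; rfl

theorem beP_pos {t : ℤ × ℤ} {d : ZMod 4} (h : t ∈ A ∧ nbt t d ∈ A) :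
    beP A (some (t, d)) = some (nbt t d, d + 2) := by
  unfold beP res
  rw [nbP_nbt, if_pos ⟨portOf_some.2 h.1, portOf_some.2 h.2⟩]

theorem beP_neg {t : ℤ × ℤ} {d : ZMod 4} (h : ¬ (t ∈ A ∧ nbt t d ∈ A)) :
    beP A (some (t, d)) = some (t, d) := by
  unfold beP res
  rw [nbP_nbt, if_neg fun h' => h ⟨portOf_some.1 h'.1, portOf_some.1 h'.2⟩]

/-- plain glueing, identity chart -/
theorem pln_id {Q : ℤ × ℤ → Prop}
    (h : ∀ t, Q t → ∀ d, b (some (t, d)) = beP A (some (t, d))) :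
    Pln (Equiv.refl _) 0 Q A b := by
  constructor
  · intro t ht d h1 h2
    simp only [ph_some, Equiv.refl_apply, add_zero] at h1 h2 ⊢
    rw [h t ht, beP_pos ⟨h1, h2⟩]
  · intro t ht d h1
    simp only [ph_some, Equiv.refl_apply, add_zero] at h1 ⊢
    rw [h t ht, beP_neg h1]

/-- rotation by 180 degrees -/
def ng : Equiv.Perm (ℤ × ℤ) where
  toFun t := (-t.1, -t.2)
  invFun t := (-t.1, -t.2)
  left_inv t := by simp
  right_inv t := by simp

theorem ng_nbt (t : ℤ × ℤ) (d : ZMod 4) : ng (nbt t d) = nbt (ng t) (d + 2) := by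
  obtain ⟨x, y⟩ := t
  have z3 : (3 : ZMod 4) + 2 = 1 := by decide
  have z2 : (2 : ZMod 4) + 2 = 0 := by decide
  have z1 : (1 : ZMod 4) + 2 = 3 := by decide
  have z0 : (0 : ZMod 4) + 2 = 2 := by decide
  rcases Xr249.Reg.d4 d with rfl | rfl | rfl | rfl
  · rw [z0, nbt_0, nbt_2]
    exact Prod.ext (show -(x - 1) = -x + 1 by ring) rfl
  · rw [z1, nbt_1, nbt_3]
    exact Prod.ext rfl (show -(y + 1) = -y - 1 by ring)
  · rw [z2, nbt_2, nbt_0]
    exact Prod.ext (show -(x + 1) = -x - 1 by ring) rfl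
  · rw [z3, nbt_3, nbt_1]
    exact Prod.ext rfl (show -(y - 1) = -y + 1 by ring)

/-- plain glueing, rotated chart -/
theorem pln_ng {Q : ℤ × ℤ → Prop}
    (h : ∀ t, Q t → ∀ d, b (some (ng t, d)) = beP A (some (ng t, d))) :
    Pln ng 2 Q A b := by
  constructor
  · intro t ht d h1 h2
    simp only [ph_some]
    rw [h t ht, beP_pos ⟨h1, by rw [← ng_nbt]; exact h2⟩, ← ng_nbt]
  · intro t ht d h1
    simp only [ph_some]
    rw [h t ht, beP_neg (by rw [← ng_nbt]; exact h1)]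

/-- the box of a right wall tile -/
def BxR (X Y : ℤ) (n : ℕ) (t : ℤ × ℤ) : Prop :=
  X - n < t.1 ∧ t.1 ≤ X + 1 ∧ Y - n ≤ t.2 ∧ t.2 < Y + n
/-- the box of a left wall tile -/
def BxL (X Y : ℤ) (n : ℕ) (t : ℤ × ℤ) : Prop :=
  X - 1 ≤ t.1 ∧ t.1 < X + n ∧ Y - n < t.2 ∧ t.2 ≤ Y + n

/-- ports of tiles outside `Q`, and the leg -/
def Off (Q : ℤ × ℤ → Prop) (x : Port (ℤ × ℤ)) : Prop := ∀ t d, x = some (t, d) → ¬ Q t

theorem off_right {x : Port (ℤ × ℤ)} :
    x ∈ Far (Equiv.refl _) X Y n 1 ↔ Off (BxR X Y n) x := by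
  unfold Far Off Inn BxR
  simp only [Equiv.refl_apply, Set.mem_ofPred_eq]
  exact Iff.rfl

theorem off_left {x : Port (ℤ × ℤ)} :
    x ∈ Far ng (-X) (-Y) n 1 ↔ Off (BxL X Y n) x := by
  constructor
  · intro h t d e' ht
    refine h (-t.1, -t.2) d (by rw [e']; simp [ng]) ?_
    unfold BxL at ht
    unfold Inn
    simp only
    omega
  · intro h t d e' ht
    refine h (ng t) d e' ?_
    unfold Inn at ht
    unfold BxL
    simp only [ng, Equiv.coe_fn_mk]
    omega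



end Crest.Agent.R158.Wd377
end

-- ▼ part R158/Wd9_377

/-!
# R158, block WD (helper377), file Wd9: one tile at a flat wall for the official `HA`

* `beD_plain` : away from the slit `beD A p y0 xr` is the plain glueing
* `beD_far` : `beD (insert t A) p y0 xr` and `beD A p y0 xr` agree away from `t`
* `rgt_insert` : the right end of the run of `z` does not change
* `MH A p y0 m1 m2 m3` : marked region with the slit at `(p, y0)`
* **`HA_right_tile`, `HA_left_tile`**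
-/

set_option autoImplicit false
set_option linter.unusedSectionVars false

namespace Crest.Agent.R158.Wd377

open MeasureTheory
open Crest.Agent.R158.Sw300 (Port Wd L M S u be tls pos Ok Fc cyc Adj thru sd)
open Crest.Agent.R158.Ob664 (GW HW HV HG HG_spec Gl HA rgt)
open Crest.Agent.R158.Env664
open Crest.Agent.R158.Pj679 (nbt nbt_0 nbt_1 nbt_2 nbt_3)

variable {X Y : ℤ} {n : ℕ} {A A' : Finset (ℤ × ℤ)} {p y0 xr : ℤ}

/-- away from the slit the partner is the lattice partner -/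
theorem nbD_nbt {t : ℤ × ℤ} (h : ¬ ((t.2 = y0 ∨ t.2 = y0 - 1) ∧ p ≤ t.1 ∧ t.1 ≤ xr + 1))
    (hp : p ≤ xr + 1) (d : ZMod 4) : nbD p y0 xr (some (t, d)) = nbP (some (t, d)) := by
  obtain ⟨x, y⟩ := t
  simp only at h
  rcases Xr249.Reg.d4 d with rfl | rfl | rfl | rfl
  · rw [nbD_W, nbP_W]
  · rw [nbD_N (by omega), nbP_N]
  · rw [nbD_E, nbP_E]
  · rw [nbD_S (by omega), nbP_S]

/-- **away from the slit the glueing is plain** -/
theorem beD_plain {t : ℤ × ℤ} (h : ¬ ((t.2 = y0 ∨ t.2 = y0 - 1) ∧ p ≤ t.1 ∧ t.1 ≤ xr + 1))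
    (hp : p ≤ xr + 1) (d : ZMod 4) : beD A p y0 xr (some (t, d)) = beP A (some (t, d)) := by
  unfold beD beP res
  rw [nbD_nbt h hp d]

/-- **one more tile `t` away from the slit changes the glueing only next to `t`** -/
theorem beD_far {t : ℤ × ℤ} (h : ¬ ((t.2 = y0 ∨ t.2 = y0 - 1) ∧ p ≤ t.1 ∧ t.1 ≤ xr + 1))
    (hp : p ≤ xr + 1) {x : Port (ℤ × ℤ)} (hx : ∀ d, x ≠ some (t, d))
    (hnb : ∀ u d, x = some (u, d) → nbt u d = t → u ∉ A) :
    beD (insert t A) p y0 xr x = beD A p y0 xr x := by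
  have h1 : PortOf (insert t A) x ↔ PortOf A x := by
    rcases x with _ | ⟨u, d⟩
    · exact ⟨fun _ => portOf_none A, fun _ => portOf_none _⟩
    · rw [portOf_some, portOf_some, Finset.mem_insert]
      constructor
      · rintro (h2 | h2)
        · exact absurd (by rw [h2]) (hx d)
        · exact h2
      · exact Or.inr
  have h2 : PortOf A x → (PortOf (insert t A) (nbD p y0 xr x) ↔ PortOf A (nbD p y0 xr x)) := by
    intro hA
    have key : ∀ d, nbD p y0 xr x ≠ some (t, d) := by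
      intro d' e'
      rcases x with _ | ⟨⟨x1, y1⟩, d⟩
      · rw [nbD_leg] at e'
        simp only [Option.some.injEq, Prod.mk.injEq] at e'
        obtain ⟨rfl, -⟩ := e'
        exact h ⟨Or.inl rfl, le_refl _, hp⟩
      · have hA' := portOf_some.1 hA
        have key2 : nbP (some ((x1, y1), d)) ≠ some (t, d') := by
          intro e2
          rw [nbP_nbt] at e2
          simp only [Option.some.injEq, Prod.mk.injEq] at e2
          exact hnb _ _ rfl e2.1 hA'
        rcases Xr249.Reg.d4 d with rfl | rfl | rfl | rfl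
        · rw [nbD_W] at e'
          rw [nbP_W] at key2
          exact key2 e'
        · by_cases hc : y1 = y0 - 1 ∧ p ≤ x1 ∧ x1 ≤ xr
          · rw [nbD_N1 hc] at e'
            simp only [Option.some.injEq, Prod.mk.injEq] at e'
            obtain ⟨rfl, -⟩ := e'
            exact h ⟨Or.inl rfl, (by omega : p ≤ x1 + 1), (by omega : x1 + 1 ≤ xr + 1)⟩
          · rw [nbD_N hc] at e'
            rw [nbP_N] at key2
            exact key2 e'
        · rw [nbD_E] at e'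
          rw [nbP_E] at key2
          exact key2 e'
        · by_cases hc1 : y1 = y0 ∧ x1 = p
          · rw [nbD_Sleg hc1] at e'
            exact absurd e' (by simp)
          by_cases hc : y1 = y0 ∧ p < x1 ∧ x1 ≤ xr
          · rw [nbD_S1 hc] at e'
            simp only [Option.some.injEq, Prod.mk.injEq] at e'
            obtain ⟨rfl, -⟩ := e'
            exact h ⟨Or.inr rfl, (by omega : p ≤ x1 - 1), (by omega : x1 - 1 ≤ xr + 1)⟩
          · rw [nbD_S (by omega)] at e'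
            rw [nbP_S] at key2
            exact key2 e'
    rcases hz : nbD p y0 xr x with _ | ⟨u, d⟩
    · exact ⟨fun _ => portOf_none A, fun _ => portOf_none _⟩
    · rw [portOf_some, portOf_some, Finset.mem_insert]
      constructor
      · rintro (h3 | h3)
        · exact absurd (by rw [hz, h3]) (key d)
        · exact h3
      · exact Or.inr
  unfold beD res
  by_cases hA : PortOf A x
  · by_cases hB : PortOf A (nbD p y0 xr x)
    · rw [if_pos ⟨h1.2 hA, (h2 hA).2 hB⟩, if_pos ⟨hA, hB⟩]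
    · rw [if_neg fun h3 => hB ((h2 hA).1 h3.2), if_neg fun h3 => hB h3.2]
  · rw [if_neg fun h3 => hA (h1.1 h3.1), if_neg fun h3 => hA h3.1]





end Crest.Agent.R158.Wd377
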