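import Crest.Agent.R158.Vw2_802
import Crest.Agent.R158.Hc2_854
import Crest.Agent.R158.Wd9_377
import Crest.Agent.R158.Bh4_679
import Crest.Agent.R158.Wd10_377
import Crest.Agent.R158.Hb1_656

-- ▼ part R158/Hc4_854
section

/-!
# R158, block BL (helper854), file Hc4: tools for the chain of the left walls

* `chainDP` : the chain from the top to the bottom with an invariant, both directions
* `MkQ`, **`ball_iff`** : the ball step in both directions
* `beD_off` : two regions which agree off a box away from the slit are glued in the same way far off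
* `bridgeL` : helper802's patterns of left walls are helper161's patterns
* `card_LL_le`, `cols_LL_le` : counting
-/

set_option autoImplicit false
set_option linter.unusedSectionVars false

noncomputable section

namespace Crest.Agent.R158.Hc854

open Crest.Agent.R158.Bh679 (Gr mem_Gr)
open Crest.Agent.R158.Sp896 (V)
open Crest.Agent.R158.Sw300 (Port Wd)
open Crest.Agent.R158.Cb771 (dir)
open Crest.Agent.R158.Env664
open Crest.Agent.R158.Ob664 (GW HG)
open Crest.Agent.R158.Hb656 (Hang shD RL LL mkS mem_shD mem_RL mem_LL)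
open Crest.Agent.R158.Cw161 (Bx Sh pat FarM)
open Crest.Agent.R158.Wd377 (MK)
open Crest.Agent.R158.Vw802 (Pat Pat.okL)

/-! ### the chain -/

section chain

variable {E : Type*} [SeminormedAddCommGroup E]

/-- **the chain from the top to the bottom, both directions** -/
theorem chainDP {LL : Finset (ℤ × ℤ)} (P : Finset (ℤ × ℤ) → Prop) (H : Finset (ℤ × ℤ) → E)
    {L2 δ k0 : ℤ} {K : ℕ} (hδ : 0 ≤ δ) (hL : 2 * δ ≤ L2)
    (lo : ∀ t ∈ LL, k0 * L2 - δ ≤ t.2) (hi : ∀ t ∈ LL, t.2 < (k0 + K) * L2 - δ) {ε1 ε2 : ℝ}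
    (hε1 : 0 ≤ ε1) (hε2 : 0 ≤ ε2)
    (thin : ∀ k y X : ℤ, k * L2 + δ ≤ y → y < (k + 1) * L2 - δ → (X, y) ∈ LL →
      (P (Sd LL y (y + 1) X) ↔ P (insert (X, y) (Sd LL y (y + 1) X))) ∧
      (P (Sd LL y (y + 1) X) →
        ‖H (insert (X, y) (Sd LL y (y + 1) X)) - H (Sd LL y (y + 1) X)‖ ≤ ε1))
    (thick : ∀ k X : ℤ, (∃ t ∈ LL, t.1 = X ∧ k * L2 - δ ≤ t.2 ∧ t.2 < k * L2 + δ) →
      (P (Sd LL (k * L2 - δ) (k * L2 + δ) X) ↔
        P (Sd LL (k * L2 - δ) (k * L2 + δ) X ∪ Gr LL (k * L2 - δ) (k * L2 + δ) X)) ∧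
      (P (Sd LL (k * L2 - δ) (k * L2 + δ) X) →
      ‖H (Sd LL (k * L2 - δ) (k * L2 + δ) X ∪ Gr LL (k * L2 - δ) (k * L2 + δ) X) -
        H (Sd LL (k * L2 - δ) (k * L2 + δ) X)‖ ≤ ε2)) :
    (P ∅ ↔ P LL) ∧
      (P ∅ → ‖H LL - H ∅‖ ≤ LL.card * ε1 + (K + 1) * (LL.image Prod.fst).card * ε2) := by
  have f : P ∅ → P LL ∧ ‖H LL - H ∅‖ ≤ LL.card * ε1 + (K + 1) * (LL.image Prod.fst).card * ε2 :=
    fun h => chainD P H hδ hL lo hi hε1 hε2
      (fun k y X h1 h2 h3 h4 => ⟨(thin k y X h1 h2 h3).1.1 h4, (thin k y X h1 h2 h3).2 h4⟩)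
      (fun k X h1 h4 => ⟨(thick k X h1).1.1 h4, (thick k X h1).2 h4⟩) h
  refine ⟨⟨fun h => (f h).1, fun h => ?_⟩, fun h => (f h).2⟩
  by_contra h0
  refine (chainD (fun S => ¬ P S) (fun _ => (0 : ℝ)) (k0 := k0) (K := K) hδ hL lo hi
    (le_refl 0) (le_refl 0) (fun k y X h1 h2 h3 h4 => ⟨fun h5 => h4 ((thin k y X h1 h2 h3).1.2 h5), ?_⟩)
    (fun k X h1 h4 => ⟨fun h5 => h4 ((thick k X h1).1.2 h5), ?_⟩) h0).1 h
  · simp
  · simp

end chain

/-! ### balls, both directions -/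

/-- a mark `m` of the first region and its image `y` in the second region, symmetric -/
def MkQ (X Y : ℤ) (r : ℕ) (A : Finset (ℤ × ℤ)) (b : Port (ℤ × ℤ) → Port (ℤ × ℤ))
    (A' : Finset (ℤ × ℤ)) (b' : Port (ℤ × ℤ) → Port (ℤ × ℤ)) (m y : Port (ℤ × ℤ)) : Prop :=
  (y = m ∧ ∀ t d, m = some (t, d) → ¬ Bx X Y r t) ∨
    ∃ t d t' d', m = some (t, d) ∧ Bx X Y r t ∧ t ∈ A ∧ b m = m ∧ y = some (t', d') ∧
      Bx X Y r t' ∧ t' ∈ A' ∧ b' y = y

theorem MkQ.mkP {X Y : ℤ} {r : ℕ} {A A' : Finset (ℤ × ℤ)} {b b' : Port (ℤ × ℤ) → Port (ℤ × ℤ)}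
    {m y : Port (ℤ × ℤ)} (h : MkQ X Y r A b A' b' m y) : MkP X Y r A' b' m y := by
  rcases h with h | ⟨t, d, t', d', h1, h2, -, -, h5, h6, h7, h8⟩
  · exact Or.inl h
  · exact Or.inr ⟨t, d, t', d', h1, h2, h5, h6, h7, h8⟩

theorem MkQ.symm {X Y : ℤ} {r : ℕ} {A A' : Finset (ℤ × ℤ)} {b b' : Port (ℤ × ℤ) → Port (ℤ × ℤ)}
    {m y : Port (ℤ × ℤ)} (h : MkQ X Y r A b A' b' m y) : MkQ X Y r A' b' A b y m := by
  rcases h with ⟨h1, h2⟩ | ⟨t, d, t', d', h1, h2, h3, h4, h5, h6, h7, h8⟩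
  · exact Or.inl ⟨h1.symm, fun t d e => h2 t d (h1 ▸ e)⟩
  · exact Or.inr ⟨t', d', t, d, h5, h6, h7, h8, h1, h2, h3, h4⟩

theorem MkQ.far {X Y : ℤ} {r n : ℕ} (hrn : r ≤ n) {A A' : Finset (ℤ × ℤ)}
    {b b' : Port (ℤ × ℤ) → Port (ℤ × ℤ)}
    {m y : Port (ℤ × ℤ)} (h : MkQ X Y r A b A' b' m y) (hf : FarM X Y n m) : FarM X Y n y := by
  rcases h with ⟨h1, h2⟩ | ⟨t, d, t', d', h1, h2, -⟩
  · rw [h1]; exact hf
  · exfalso
    refine hf t d h1 ?_
    unfold Bx at h2 ⊢
    omega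

/-- **the ball theorem, both directions** -/
theorem ball_iff : ∃ C a : ℝ, 0 < C ∧ 0 < a ∧ ∀ (sh : Sh) (k : ZMod 4) (X Y : ℤ) (r n : ℕ),
    1 ≤ r → r + 1 ≤ n → ∀ {A A' : Finset (ℤ × ℤ)} {b b' : Port (ℤ × ℤ) → Port (ℤ × ℤ)},
    Cw161.Win sh k X Y r n A b → Cw161.Win sh k X Y r n A' b' →
    (∀ t, Bx X Y n t → ¬ Bx X Y r t → t ∈ A → pat X Y sh k t) →
    (∀ x, FarM X Y n x → b' x = b x) → (∀ t, ¬ Bx X Y r t → (t ∈ A ↔ t ∈ A')) →
    (∃ w, GW A b w) → (∃ w', GW A' b' w') → ∀ {m1 m2 m3 y1 y2 y3 : Port (ℤ × ℤ)},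
    MkQ X Y r A b A' b' m1 y1 → MkQ X Y r A b A' b' m2 y2 → MkQ X Y r A b A' b' m3 y3 →
    (FarM X Y n m1 ∨ FarM X Y n m2) → (FarM X Y n m2 ∨ FarM X Y n m3) →
    (FarM X Y n m3 ∨ FarM X Y n m1) →
    (MK A b m1 m2 m3 ↔ MK A' b' y1 y2 y3) ∧
      (MK A b m1 m2 m3 → ‖HG A' b' y1 y2 y3 - HG A b m1 m2 m3‖ ≤ C * ((r : ℝ) / n) ^ a) := by
  obtain ⟨C, a, hC, ha, hX⟩ := ball_mk
  refine ⟨C, a, hC, ha, ?_⟩
  intro sh k X Y r n hr hn A A' b b' h h' hnp hF hAA hw hw' m1 m2 m3 y1 y2 y3 p1 p2 p3 f12 f23 f31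
  have hrn : r ≤ n := by omega
  have f : MK A b m1 m2 m3 → _ := fun hm => hX sh k X Y r n hr hn h h' hnp hF
    (fun t ht hA => (hAA t ht).1 hA) hw' hm p1.mkP p2.mkP p3.mkP f12 f23 f31
  refine ⟨⟨fun hm => (f hm).1, fun hm => ?_⟩, fun hm => ?_⟩
  · exact (hX sh k X Y r n hr hn h' h (fun t h1 h2 h3 => hnp t h1 h2 ((hAA t h2).2 h3))
      (fun x hx => (hF x hx).symm) (fun t ht hA => (hAA t ht).2 hA) hw hm p1.symm.mkP p2.symm.mkP
      p3.symm.mkP (f12.imp (p1.far hrn) (p2.far hrn)) (f23.imp (p2.far hrn) (p3.far hrn))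
      (f31.imp (p3.far hrn) (p1.far hrn))).1
  · rw [norm_sub_rev]; exact (f hm).2

/-! ### glueings far from the box -/

/-- the tile is not on the slit -/
def OffS (p y0 xr : ℤ) (t : ℤ × ℤ) : Prop :=
  ¬ ((t.2 = y0 ∨ t.2 = y0 - 1) ∧ p ≤ t.1 ∧ t.1 ≤ xr + 1)

theorem nbD_inv {p y0 xr : ℤ} {u : ℤ × ℤ} {d' : ZMod 4} (h : OffS p y0 xr u) (hp : p ≤ xr + 1)
    {x : Port (ℤ × ℤ)} (e : nbD p y0 xr x = some (u, d')) : x = nbP (some (u, d')) := by
  unfold OffS at h
  rcases x with _ | ⟨⟨x1, y1⟩, d⟩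
  · rw [nbD_leg] at e
    simp only [Option.some.injEq, Prod.mk.injEq] at e
    obtain ⟨rfl, -⟩ := e
    exact absurd ⟨Or.inl rfl, le_refl _, hp⟩ h
  · rcases z4 d with rfl | rfl | rfl | rfl
    · rw [nbD_W] at e
      rw [← e, nbP_E, sub_add_cancel]
    · by_cases hc : y1 = y0 - 1 ∧ p ≤ x1 ∧ x1 ≤ xr
      · rw [nbD_N1 hc] at e
        simp only [Option.some.injEq, Prod.mk.injEq] at e
        obtain ⟨rfl, -⟩ := e
        exact absurd ⟨Or.inl rfl, (by omega : p ≤ x1 + 1), (by omega : x1 + 1 ≤ xr + 1)⟩ h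
      · rw [nbD_N hc] at e
        rw [← e, nbP_S, add_sub_cancel_right]
    · rw [nbD_E] at e
      rw [← e, nbP_W, add_sub_cancel_right]
    · by_cases hc1 : y1 = y0 ∧ x1 = p
      · rw [nbD_Sleg hc1] at e
        exact absurd e (by simp)
      by_cases hc : y1 = y0 ∧ p < x1 ∧ x1 ≤ xr
      · rw [nbD_S1 hc] at e
        simp only [Option.some.injEq, Prod.mk.injEq] at e
        obtain ⟨rfl, -⟩ := e
        exact absurd ⟨Or.inr rfl, (by omega : p ≤ x1 - 1), (by omega : x1 - 1 ≤ xr + 1)⟩ h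
      · rw [nbD_S (by omega)] at e
        rw [← e, nbP_N, sub_add_cancel]

/-- **the glueing far from a box where the regions differ** -/
theorem beD_off {A A' : Finset (ℤ × ℤ)} {p y0 xr X Y : ℤ} {r n : ℕ} (hp : p ≤ xr + 1)
    (hrn : r + 1 ≤ n) (hQ : ∀ t, Bx X Y r t → OffS p y0 xr t)
    (hAA : ∀ t, ¬ Bx X Y r t → (t ∈ A ↔ t ∈ A')) (x : Port (ℤ × ℤ)) (hx : FarM X Y n x) :
    beD A' p y0 xr x = beD A p y0 xr x := by
  have hbx : ∀ {t : ℤ × ℤ}, ¬ Bx X Y n t → ¬ Bx X Y r t := by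
    intro t ht h; apply ht; unfold Bx at *; omega
  have h1 : PortOf A' x ↔ PortOf A x := by
    rcases x with _ | ⟨t, d⟩
    · exact ⟨fun _ => portOf_none A, fun _ => portOf_none _⟩
    · rw [portOf_some, portOf_some]
      exact (hAA t (hbx (hx t d rfl))).symm
  have h2 : PortOf A' (nbD p y0 xr x) ↔ PortOf A (nbD p y0 xr x) := by
    rcases hz : nbD p y0 xr x with _ | ⟨u, d⟩
    · exact ⟨fun _ => portOf_none A, fun _ => portOf_none _⟩
    · rw [portOf_some, portOf_some]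
      by_cases hu : Bx X Y r u
      · exfalso
        have h3 := nbD_inv (hQ u hu) hp hz
        rw [Cw161.nbP_dir] at h3
        refine hx _ _ h3 ?_
        have h4 := Cw161.bx_dir d hu
        unfold Bx at h4 ⊢
        push_cast at h4
        omega
      · exact (hAA u hu).symm
  unfold beD res
  by_cases hA : PortOf A x ∧ PortOf A (nbD p y0 xr x)
  · rw [if_pos ⟨h1.2 hA.1, h2.2 hA.2⟩, if_pos hA]
  · rw [if_neg fun h3 => hA ⟨h1.1 h3.1, h2.1 h3.2⟩, if_neg hA]

/-! ### patterns -/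

/-- **the patterns of left walls in helper161's form** -/
theorem bridgeL (q : Pat) (a Y : ℤ) : ∃ (sh : Sh) (k : ZMod 4), ∀ t : ℤ × ℤ,
    (pat (a - 1) (Y - 1) sh k t ↔ q.okL a Y t.1 t.2) := by
  cases q
  · refine ⟨.h1, 2, fun t => ?_⟩
    rw [Cw161.pat_s2]
    simp only [Pat.okL]
    constructor <;> intro h <;> omega
  · refine ⟨.h0, 2, fun t => ?_⟩
    rw [Cw161.pat_h2]
    simp only [Pat.okL]
    constructor <;> intro h <;> omega
  · refine ⟨.q, 0, fun t => ?_⟩
    rw [Cw161.pat_q0]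
    simp only [Pat.okL]
    constructor <;> intro h <;> omega
  · refine ⟨.q, 3, fun t => ?_⟩
    rw [Cw161.pat_q3]
    simp only [Pat.okL]
    constructor <;> intro h <;> omega
  · refine ⟨.t, 1, fun t => ?_⟩
    rw [Cw161.pat_t1]
    simp only [Pat.okL]
    constructor <;> intro h <;> omega
  · refine ⟨.t, 2, fun t => ?_⟩
    rw [Cw161.pat_t2]
    simp only [Pat.okL]
    constructor <;> intro h <;> omega

/-! ### counting -/

section count

variable {F H : Finset V} {L δ : ℤ}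

theorem LL_sub (hL : 0 < L) (hs : H ⊆ F) : LL F H L δ ⊆
    F.biUnion fun c => (Finset.Ico (c.2 * L) (c.2 * L + L)).image fun y => (c.1 * L + δ - 1, y) := by
  rintro ⟨X, y⟩ ht
  obtain ⟨c, r, h1, h2, h3, h4, h5⟩ := Vw802.ll_col hL hs ht
  rw [Finset.mem_biUnion]
  refine ⟨(c + 1, r), hs h4, ?_⟩
  rw [Finset.mem_image]
  refine ⟨y, Finset.mem_Ico.2 ⟨h2, h3⟩, ?_⟩
  rw [h1]
  simp only [Prod.mk.injEq, and_true]
  ring

theorem card_LL_le (hL : 0 < L) (hs : H ⊆ F) : ((LL F H L δ).card : ℝ) ≤ F.card * L := by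
  have h1 : (LL F H L δ).card ≤ F.card * L.toNat := by
    refine (Finset.card_le_card (LL_sub hL hs)).trans (Finset.card_biUnion_le.trans ?_)
    refine (Finset.sum_le_card_nsmul _ _ L.toNat fun c _ => ?_).trans (by simp)
    refine Finset.card_image_le.trans ?_
    rw [Int.card_Ico]
    omega
  have h2 : ((L.toNat : ℕ) : ℝ) = (L : ℝ) := by
    have : ((L.toNat : ℕ) : ℤ) = L := Int.toNat_of_nonneg hL.le
    exact_mod_cast this
  calc ((LL F H L δ).card : ℝ) ≤ ((F.card * L.toNat : ℕ) : ℝ) := by exact_mod_cast h1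
    _ = F.card * L := by push_cast; rw [h2]

theorem cols_LL_le (hL : 0 < L) (hs : H ⊆ F) : ((LL F H L δ).image Prod.fst).card ≤ F.card := by
  refine le_trans (Finset.card_le_card (t := F.image fun c => c.1 * L + δ - 1) ?_)
    Finset.card_image_le
  intro X hX
  obtain ⟨⟨X', y⟩, h1, rfl⟩ := Finset.mem_image.1 hX
  obtain ⟨c, r, h1, h2, h3, h4, h5⟩ := Vw802.ll_col hL hs h1
  refine Finset.mem_image.2 ⟨(c + 1, r), hs h4, ?_⟩
  simp only
  rw [h1]; ring

/-- vertical extent -/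
theorem ext_LL (F : Finset V) : ∃ (k0 : ℤ) (K : ℕ), ∀ (H : Finset V) (L δ g : ℤ), 0 < L → H ⊆ F →
    0 ≤ g → 2 * g ≤ L → Even L → ∀ t ∈ LL F H L δ, k0 * (L / 2) - g ≤ t.2 ∧
      t.2 < (k0 + K) * (L / 2) - g := by
  obtain ⟨m, hm⟩ := (F.image Prod.snd).bddBelow
  obtain ⟨M, hM⟩ := (F.image Prod.snd).bddAbove
  refine ⟨2 * m, (2 * (M - m) + 3).toNat, ?_⟩
  rintro H L δ g hL hs hg hgL ⟨s, rfl⟩ ⟨X, y⟩ ht
  obtain ⟨c, r, h1, h2, h3, h4, h5⟩ := Vw802.ll_col hL hs ht
  have h6 : m ≤ r := hm (by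
    simp only [Finset.coe_image, Set.mem_image]
    exact ⟨(c + 1, r), hs h4, rfl⟩)
  have h7 : r ≤ M := hM (by
    simp only [Finset.coe_image, Set.mem_image]
    exact ⟨(c + 1, r), hs h4, rfl⟩)
  have e1 : (s + s) / 2 = s := by omega
  have e2 : (((2 * (M - m) + 3).toNat : ℕ) : ℤ) = 2 * (M - m) + 3 := by omega
  rw [e1, e2]
  have hs0 : 0 < s := by omega
  constructor
  · show 2 * m * s - g ≤ y
    nlinarith
  · show y < (2 * m + (2 * (M - m) + 3)) * s - g
    nlinarith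

end count

end Crest.Agent.R158.Hc854
end
end

-- ▼ part R158/Hc5_854
section

/-!
# R158, block BL (helper854), file Hc5: the steps of the chain of the left walls

* `Ctx` : the data of the chain
* `mkS_pos` : position of the marks
* `thinL` : one flat tile
* `thickL` : a group at a vertex or at a mark
-/

set_option autoImplicit false
set_option linter.unusedSectionVars false

noncomputable section

namespace Crest.Agent.R158.Hc854

open Crest.Agent.R158.Bh679 (Gr mem_Gr NP Away Words)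
open Crest.Agent.R158.Sp896 (V)
open Crest.Agent.R158.Sw300 (Port Wd)
open Crest.Agent.R158.Cb771 (dir)
open Crest.Agent.R158.Env664
open Crest.Agent.R158.Ob664 (GW HG)
open Crest.Agent.R158.Hb656 (Hang shD RL LL mkS mem_shD mem_RL mem_LL mk2)
open Crest.Agent.R158.Cw161 (Bx Sh pat FarM)
open Crest.Agent.R158.Wd377 (MK Off BxL)
open Crest.Agent.R158.Vw802 (Pat Pat.okL NoPinch mD)

/-- the data of the chain of the left walls -/
structure Ctx (F H : Finset V) (L δ p y0 xr : ℤ) (g : ℕ) : Prop where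
  hang : ∃ k i0 i1 up, Hang F H k i0 i1 up
  np : NoPinch F
  ev : Even L
  dd : δ = 0 ∨ δ = 1
  hg : 8 ≤ g
  hgL : 32 * (g : ℤ) ≤ L
  hp : p ≤ xr + 1
  aw : Away H L p y0 xr
  wd : Words F H L δ p y0 xr (LL F H L δ)

/-- region of the state `S` -/
abbrev rg (F H : Finset V) (L δ : ℤ) (S : Finset V) : Finset V := shD F H L δ ∪ S

/-- mark of the boundary edge `e` in the state `S` -/
abbrev mq' (H : Finset V) (L δ : ℤ) (S : Finset V) (e : V × ZMod 4) : Port V :=
  some (mkS H L δ S (mk2 L e.1 e.2))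

variable {F H : Finset V} {L δ p y0 xr : ℤ} {g : ℕ}

theorem Ctx.sub (h : Ctx F H L δ p y0 xr g) : H ⊆ F := by
  obtain ⟨k, i0, i1, up, hh⟩ := h.hang
  exact hh.sub

/-- the tiles near the moved part are not on the slit -/
theorem Ctx.offS (h : Ctx F H L δ p y0 xr g) {s t : V} (hs : s ∈ D H L) {q : ℤ}
    (hq : 2 * q + 2 < L) (h1 : |t.1 - s.1| ≤ q) (h2 : |t.2 - s.2| ≤ q) : OffS p y0 xr t := by
  rintro ⟨h3, h4, h5⟩
  have := h.aw t.1 h4 h5 s hs
  rw [abs_le] at h1 h2
  rcases this with h6 | h6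
  · have : |t.1 - s.1| ≤ q := abs_le.2 h1
    omega
  · have : |y0 - s.2| ≤ q + 1 := by rw [abs_le]; omega
    omega


theorem mk2_0 (L : ℤ) (c : V) : mk2 L c 0 = ((c.1 * L, c.2 * L + L / 2), 0) := rfl
theorem mk2_1 (L : ℤ) (c : V) : mk2 L c 1 = ((c.1 * L + L / 2, c.2 * L + L - 1), 1) := rfl
theorem mk2_2 (L : ℤ) (c : V) : mk2 L c 2 = ((c.1 * L + L - 1, c.2 * L + L / 2 - 1), 2) := rfl
theorem mk2_3 (L : ℤ) (c : V) : mk2 L c 3 = ((c.1 * L + L / 2 - 1, c.2 * L), 3) := rfl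

/-- marks move by at most two columns -/
theorem mkS_near (H : Finset V) (L δ : ℤ) (hδ : δ = 0 ∨ δ = 1) (S : Finset V) (m : V × ZMod 4) :
    |(mkS H L δ S m).1.1 - m.1.1| ≤ 2 ∧ (mkS H L δ S m).1.2 = m.1.2 ∧ (mkS H L δ S m).2 = m.2 := by
  unfold mkS
  split_ifs
  · refine ⟨?_, rfl, rfl⟩
    show |m.1.1 + δ + 1 - m.1.1| ≤ 2
    rw [abs_le]; omega
  · refine ⟨?_, rfl, rfl⟩
    show |m.1.1 + δ - 1 - m.1.1| ≤ 2
    rw [abs_le]; omega
  · refine ⟨?_, rfl, rfl⟩
    show |m.1.1 + δ - m.1.1| ≤ 2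
    rw [abs_le]; omega
  · exact ⟨by simp, rfl, rfl⟩

/-- tiles of the left layer are never in front of a right mark -/
theorem LL_col' (hL : 1 < L) (hs : H ⊆ F) {S : Finset V} (hS : S ⊆ LL F H L δ) {c : V} :
    ((c.1 * L + L - 1 + δ + 1, c.2 * L + L / 2 - 1) : V) ∉ S := by
  intro h
  obtain ⟨c', r, h1, -⟩ := Vw802.ll_col (by omega) hs (hS h)
  have h2 : (c.1 - c') * L = -1 := by linarith
  have h3 : (c.1 - c') = 0 ∨ 1 ≤ (c.1 - c') ∨ (c.1 - c') ≤ -1 := by omega
  rcases h3 with h3 | h3 | h3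
  · rw [h3] at h2; omega
  · nlinarith
  · nlinarith

/-- **when the marks do not move** -/
theorem mkS_same (hL : 1 < L) (hs : H ⊆ F) {S S' : Finset V} (hS : S ⊆ LL F H L δ)
    (hS' : S' ⊆ LL F H L δ) {c : V} {d : ZMod 4}
    (h : d = 0 → c ∈ H → (((c.1 * L + δ - 1, c.2 * L + L / 2) : V) ∈ S ↔
      ((c.1 * L + δ - 1, c.2 * L + L / 2) : V) ∈ S')) :
    mkS H L δ S (mk2 L c d) = mkS H L δ S' (mk2 L c d) := by
  have hmem : (mk2 L c d).1 ∈ D H L → c ∈ H := by
    intro h1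
    rcases z4 d with rfl | rfl | rfl | rfl
    · rw [mk2_0] at h1
      exact (mD (by omega) (by omega) (by omega) (by omega) (by omega)).1 h1
    · rw [mk2_1] at h1
      exact (mD (by omega) (by omega) (by omega) (by omega) (by omega)).1 h1
    · rw [mk2_2] at h1
      exact (mD (by omega) (by omega) (by omega) (by omega) (by omega)).1 h1
    · rw [mk2_3] at h1
      exact (mD (by omega) (by omega) (by omega) (by omega) (by omega)).1 h1
  unfold mkS
  by_cases h0 : (mk2 L c d).1 ∈ D H L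
  · rw [if_pos h0, if_pos h0]
    have hc := hmem h0
    rcases z4 d with rfl | rfl | rfl | rfl
    · have e := h rfl hc
      rw [mk2_0]
      have n02 : ¬ ((0 : ZMod 4) = 2) := by decide
      simp only [n02, false_and, if_false, true_and]
      by_cases h1 : ((c.1 * L + δ - 1, c.2 * L + L / 2) : V) ∈ S
      · rw [if_pos h1, if_pos (e.1 h1)]
      · rw [if_neg h1, if_neg (fun h2 => h1 (e.2 h2))]
    · rw [mk2_1]
      have n12 : ¬ ((1 : ZMod 4) = 2) := by decide
      have n10 : ¬ ((1 : ZMod 4) = 0) := by decide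
      simp only [n12, n10, false_and, if_false]
    · rw [mk2_2]
      have n20 : ¬ ((2 : ZMod 4) = 0) := by decide
      simp only [n20, false_and, if_false, true_and]
      rw [if_neg (LL_col' hL hs hS), if_neg (LL_col' hL hs hS')]
    · rw [mk2_3]
      have n12 : ¬ ((3 : ZMod 4) = 2) := by decide
      have n10 : ¬ ((3 : ZMod 4) = 0) := by decide
      simp only [n12, n10, false_and, if_false]
  · rw [if_neg h0, if_neg h0]

/-- the half row of a flat tile lies in its macroscopic row -/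
theorem half_row {s k y r : ℤ} (hs : 0 < s) (h1 : k * s ≤ y) (h2 : y < (k + 1) * s)
    (h3 : r * (s + s) ≤ y) (h4 : y < r * (s + s) + (s + s)) :
    r * (s + s) ≤ k * s ∧ (k + 1) * s ≤ r * (s + s) + (s + s) := by
  have e1 : k < 2 * r + 2 := by
    by_contra h
    have : (2 * r + 2) * s ≤ k * s := mul_le_mul_of_nonneg_right (by omega) hs.le
    nlinarith
  have e2 : 2 * r < k + 1 := by
    by_contra h
    have : (k + 1) * s ≤ (2 * r) * s := mul_le_mul_of_nonneg_right (by omega) hs.le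
    nlinarith
  constructor
  · have : (2 * r) * s ≤ k * s := mul_le_mul_of_nonneg_right (by omega) hs.le
    nlinarith
  · have : (k + 1) * s ≤ (2 * r + 2) * s := mul_le_mul_of_nonneg_right (by omega) hs.le
    nlinarith

/-- a height between two lines is not near a line -/
theorem no_line {s k y g m : ℤ} (hs : 0 < s) (h1 : k * s + g ≤ y) (h2 : y < (k + 1) * s - g) :
    m * s ≤ y - g ∨ y + g < m * s := by
  rcases le_or_gt m k with h | h
  · left
    have : m * s ≤ k * s := mul_le_mul_of_nonneg_right h hs.le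
    linarith
  · right
    have : (k + 1) * s ≤ m * s := mul_le_mul_of_nonneg_right (by omega) hs.le
    linarith

/-- odd multiples of `s` are far from zero -/
theorem odd_far {s m : ℤ} (hs : 0 < s) : s ≤ m * (s + s) + s ∨ m * (s + s) + s ≤ -s := by
  rcases le_or_gt 0 m with h | h
  · left; nlinarith
  · right; nlinarith

/-- the marked region of the state `S` -/
def PS (F H : Finset V) (L δ p y0 xr : ℤ) (e : Fin 3 → V × ZMod 4) (S : Finset V) : Prop :=
  MK (rg F H L δ S) (beD (rg F H L δ S) p y0 xr) (mq' H L δ S (e 0)) (mq' H L δ S (e 1))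
    (mq' H L δ S (e 2))

/-- the observable of the state `S` -/
def GS (F H : Finset V) (L δ p y0 xr : ℤ) (e : Fin 3 → V × ZMod 4) (S : Finset V) : ℂ :=
  HG (rg F H L δ S) (beD (rg F H L δ S) p y0 xr) (mq' H L δ S (e 0)) (mq' H L δ S (e 1))
    (mq' H L δ S (e 2))

theorem Sd_sub {LL : Finset V} {y y' X : ℤ} : Sd LL y y' X ⊆ LL := Finset.filter_subset _ _

/-- **one flat tile** -/
theorem thinL : ∃ C c : ℝ, 1 ≤ C ∧ 0 < c ∧ ∀ {F H : Finset V} {L δ p y0 xr : ℤ} {g : ℕ},
    Ctx F H L δ p y0 xr g → ∀ e : Fin 3 → V × ZMod 4, ∀ k y X : ℤ,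
    k * (L / 2) + g ≤ y → y < (k + 1) * (L / 2) - g → (X, y) ∈ LL F H L δ →
    (PS F H L δ p y0 xr e (Sd (LL F H L δ) y (y + 1) X) ↔
      PS F H L δ p y0 xr e (insert (X, y) (Sd (LL F H L δ) y (y + 1) X))) ∧
    (PS F H L δ p y0 xr e (Sd (LL F H L δ) y (y + 1) X) →
      ‖GS F H L δ p y0 xr e (insert (X, y) (Sd (LL F H L δ) y (y + 1) X)) -
        GS F H L δ p y0 xr e (Sd (LL F H L δ) y (y + 1) X)‖ ≤ C * (1 / ((g - 1 : ℕ) : ℝ)) ^ (1 + c)) := by
  obtain ⟨C, c, hC, hc, -, hX⟩ := Wd377.left_D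
  refine ⟨C, c, hC, hc, ?_⟩
  intro F H L δ p y0 xr g h e k y X h1 h2 h3
  have hs := h.sub
  have hg := h.hg
  have hgL := h.hgL
  have hδ := h.dd
  obtain ⟨s, rfl⟩ := h.ev
  have e2 : (s + s) / 2 = s := by omega
  rw [e2] at h1 h2
  have hs0 : 0 < s := by omega
  obtain ⟨c', r, hc1, hc2, hc3, hc4, hc5⟩ := Vw802.ll_col (by omega) hs h3
  obtain ⟨r1, r2⟩ := half_row (k := k) hs0 (by omega) (by omega) hc2 hc3
  have hL8 : 8 ≤ s + s := by omega
  have hδ' : -1 ≤ δ ∧ δ ≤ 1 := by omega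
  have hsub : Sd (LL F H (s + s) δ) y (y + 1) X ⊆ LL F H (s + s) δ := Sd_sub
  have hsub' : insert (X, y) (Sd (LL F H (s + s) δ) y (y + 1) X) ⊆ LL F H (s + s) δ :=
    Finset.insert_subset h3 hsub
  have hn : ((g - 1 : ℕ) : ℤ) = g - 1 := by omega
  -- the marks do not move
  have hmk : ∀ i, mq' H (s + s) δ (Sd (LL F H (s + s) δ) y (y + 1) X) (e i) =
      mq' H (s + s) δ (insert (X, y) (Sd (LL F H (s + s) δ) y (y + 1) X)) (e i) := by
    intro i
    unfold mq'
    congr 1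
    refine mkS_same (by omega) hs hsub hsub' fun _ _ => ?_
    rw [Finset.mem_insert, e2]
    constructor
    · exact Or.inr
    · rintro (h4 | h4)
      · exfalso
        simp only [Prod.mk.injEq] at h4
        have h5 := no_line (m := 2 * (e i).1.2 + 1) hs0 h1 h2
        have h6 : (2 * (e i).1.2 + 1) * s = (e i).1.2 * (s + s) + s := by ring
        rw [h6] at h5
        omega
      · exact h4
  -- the marks are far
  have hoff : ∀ i, Off (BxL (X + 1) y (g - 1)) (mq' H (s + s) δ (Sd (LL F H (s + s) δ) y (y + 1) X)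
      (e i)) := by
    intro i t d ht hB
    unfold mq' at ht
    simp only [Option.some.injEq] at ht
    obtain ⟨n1, n2, -⟩ := mkS_near H (s + s) δ hδ (Sd (LL F H (s + s) δ) y (y + 1) X)
      (mk2 (s + s) (e i).1 (e i).2)
    rw [ht] at n1 n2
    simp only at n1 n2
    rw [abs_le] at n1
    unfold BxL at hB
    rw [hn] at hB
    have h5 := no_line (m := 2 * (e i).1.2 + 1) hs0 h1 h2
    have h6 : (2 * (e i).1.2 + 1) * s = (e i).1.2 * (s + s) + s := by ring
    rw [h6] at h5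
    have h7 := odd_far (s := s) (m := (e i).1.1 - c' - 1) hs0
    have h8 : ((e i).1.1 - c' - 1) * (s + s) = (e i).1.1 * (s + s) - c' * (s + s) - (s + s) := by
      ring
    rw [h8] at h7
    generalize he : e i = ei at *
    obtain ⟨c1, d1⟩ := ei
    simp only at *
    rcases z4 d1 with rfl | rfl | rfl | rfl
    · rw [mk2_0, e2] at n1 n2
      simp only at n1 n2
      omega
    · rw [mk2_1, e2] at n1 n2
      simp only at n1 n2
      omega
    · rw [mk2_2, e2] at n1 n2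
      simp only at n1 n2
      omega
    · rw [mk2_3, e2] at n1 n2
      simp only at n1 n2
      omega
  have hD : (X + 1 - δ, y) ∈ D H (s + s) := (mem_LL.1 h3).1
  have key := hX (X + 1) y (g - 1) (rg F H (s + s) δ (Sd (LL F H (s + s) δ) y (y + 1) X)) p y0 xr
    _ _ _ (by omega) h.hp ?_ ?_ (hoff 0) (hoff 1) (hoff 2) (h.wd _ hsub)
  · have e3 : (X + 1 - 1, y) = ((X, y) : V) := by rw [add_sub_cancel_right]
    rw [e3] at key
    unfold PS GS
    rw [← hmk 0, ← hmk 1, ← hmk 2]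
    have e4 : rg F H (s + s) δ (insert (X, y) (Sd (LL F H (s + s) δ) y (y + 1) X)) =
        insert (X, y) (rg F H (s + s) δ (Sd (LL F H (s + s) δ) y (y + 1) X)) :=
      Finset.union_insert _ _ _
    rw [e4, norm_sub_rev]
    exact key
  · intro x1 y1 a1 a2 a3 a4
    rw [hn] at a2 a3 a4
    have h5 := (Vw802.flatL (δ := δ) (y := y) (y' := y + 1) (x1 := x1) (y1 := y1) hL8 hδ' hs hc4 hc5
      (by omega) (by omega) (by omega) (by omega) (by omega)).1
    rw [← hc1] at h5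
    rw [h5]
    constructor <;> intro h6 <;> omega
  · intro t hB
    unfold BxL at hB
    rw [hn] at hB
    refine h.offS hD (q := g + 2) (by omega) ?_ ?_
    · rw [abs_le]; simp only; omega
    · rw [abs_le]; simp only; omega

end Crest.Agent.R158.Hc854
end
end

-- ▼ part R158/Hc6_854

/-!
# R158, block BL (helper854), file Hc6: the thick groups of the chain of the left walls

* `mark_near` : the only mark near a group is the mark of its own wall
* **`thickL`** : a group at a vertex or at a mark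
-/

set_option autoImplicit false
set_option linter.unusedSectionVars false

noncomputable section

namespace Crest.Agent.R158.Hc854

open Crest.Agent.R158.Bh679 (Gr mem_Gr NP Away Words)
open Crest.Agent.R158.Sp896 (V)
open Crest.Agent.R158.Sw300 (Port Wd)
open Crest.Agent.R158.Cb771 (dir)
open Crest.Agent.R158.Env664
open Crest.Agent.R158.Ob664 (GW HG)
open Crest.Agent.R158.Hb656 (Hang shD RL LL mkS mem_shD mem_RL mem_LL mk2)
open Crest.Agent.R158.Cw161 (Bx Sh pat FarM)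
open Crest.Agent.R158.Wd377 (MK)
open Crest.Agent.R158.Vw802 (Pat Pat.okL NoPinch mD)

variable {F H : Finset V} {L δ p y0 xr : ℤ} {g : ℕ}

theorem small_mul {s m : ℤ} (hs : 0 < s) (h1 : -s < m * s) (h2 : m * s < s) : m = 0 := by
  have h3 : m < 1 := by
    by_contra h
    have : 1 * s ≤ m * s := mul_le_mul_of_nonneg_right (by omega) hs.le
    linarith
  have h4 : -1 < m := by
    by_contra h
    have : m * s ≤ -1 * s := mul_le_mul_of_nonneg_right (by omega) hs.le
    linarith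
  omega

/-- **the only mark near a group of the left layer is the mark of its own wall** -/
theorem mark_near {s : ℤ} (hs : 128 ≤ s) (hδ : δ = 0 ∨ δ = 1) (hg : 8 * (g : ℤ) ≤ s)
    {c r X yt k : ℤ}
    (hX : X = c * (s + s) + (s + s) + δ - 1) (h2 : r * (s + s) ≤ yt) (h3 : yt < r * (s + s) + (s + s))
    (h5 : (c, r) ∉ F) (h6 : k * s - g ≤ yt) (h7 : yt < k * s + g) {e : V × ZMod 4}
    (he : e.1 ∈ F) {S : Finset V}
    (n1 : |(mkS H (s + s) δ S (mk2 (s + s) e.1 e.2)).1.1 - X| ≤ (s + s) / 4)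
    (n2 : |(mkS H (s + s) δ S (mk2 (s + s) e.1 e.2)).1.2 - k * s| ≤ (s + s) / 4) :
    e = ((c + 1, r), 0) ∧ k = 2 * r + 1 := by
  obtain ⟨m1, m2, -⟩ := mkS_near H (s + s) δ hδ S (mk2 (s + s) e.1 e.2)
  rw [m2] at n2
  rw [abs_le] at m1 n1 n2
  generalize (mkS H (s + s) δ S (mk2 (s + s) e.1 e.2)).1.1 = τ at m1 n1
  obtain ⟨⟨c1, r1⟩, d⟩ := e
  have e2 : (s + s) / 2 = s := by omega
  have k1 := odd_far (s := s) (m := c1 - c - 1) (by omega)
  have k1' : (c1 - c - 1) * (s + s) = c1 * (s + s) - c * (s + s) - (s + s) := by ring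
  -- the row
  have row : (|r1 * (s + s) + s - k * s| ≤ (s + s) / 4 + 1) → k = 2 * r1 + 1 ∧ r = r1 := by
    intro h
    rw [abs_le] at h
    have a1 : (2 * r1 + 1 - k) * s = r1 * (s + s) + s - k * s := by ring
    have a2 := small_mul (s := s) (m := 2 * r1 + 1 - k) (by omega) (by rw [a1]; omega)
      (by rw [a1]; omega)
    have a3 : k = 2 * r1 + 1 := by omega
    refine ⟨a3, ?_⟩
    subst a3
    have a4 : (2 * r1 + 1) * s = r1 * (s + s) + s := by ring
    rw [a4] at h6 h7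
    have a5 : (r - r1) * (s + s) = r * (s + s) - r1 * (s + s) := by ring
    have a6 := small_mul (s := s + s) (m := r - r1) (by omega) (by rw [a5]; omega)
      (by rw [a5]; omega)
    omega
  simp only at he
  rcases z4 d with rfl | rfl | rfl | rfl
  · rw [mk2_0, e2] at m1 n2
    simp only at m1 n1 n2
    have a1 : (c1 - c - 1) * (s + s) = c1 * (s + s) - c * (s + s) - (s + s) := by ring
    have a2 := small_mul (s := s + s) (m := c1 - c - 1) (by omega) (by rw [a1]; omega)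
      (by rw [a1]; omega)
    obtain ⟨a3, a4⟩ := row (by rw [abs_le]; omega)
    have a5 : c1 = c + 1 := by omega
    subst a5
    subst a4
    exact ⟨rfl, a3⟩
  · exfalso
    rw [mk2_1, e2] at m1 n2
    simp only at m1 n1 n2
    omega
  · exfalso
    rw [mk2_2, e2] at m1 n2
    simp only at m1 n1 n2
    have a1 : (c1 - c) * (s + s) = c1 * (s + s) - c * (s + s) := by ring
    have a2 := small_mul (s := s + s) (m := c1 - c) (by omega) (by rw [a1]; omega)
      (by rw [a1]; omega)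
    obtain ⟨a3, a4⟩ := row (by rw [abs_le]; omega)
    have a5 : c1 = c := by omega
    subst a5
    subst a4
    exact h5 he
  · exfalso
    rw [mk2_3, e2] at m1 n2
    simp only at m1 n1 n2
    omega

/-- the window of a thick group, vertex or middle of a side -/
theorem win_thick {s : ℤ} (hs : 128 ≤ s) (hδ : δ = 0 ∨ δ = 1) (hg : 8 * (g : ℤ) ≤ s)
    (hH : ∃ k i0 i1 up, Hang F H k i0 i1 up) (hp : NoPinch F) {c r yt k : ℤ}
    (h2 : r * (s + s) ≤ yt) (h3 : yt < r * (s + s) + (s + s)) (h4 : (c + 1, r) ∈ H)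
    (h5 : (c, r) ∉ F) (h6 : k * s - g ≤ yt) (h7 : yt < k * s + g) :
    ∃ (q : Pat) (a : ℤ), (a = c * (s + s) + (s + s) + δ - 1 ∨ a = c * (s + s) + (s + s) + δ) ∧
      ∀ x1 y1 : ℤ, c * (s + s) + (s + s) + δ - 1 - (s + s) / 4 ≤ x1 →
      x1 ≤ c * (s + s) + (s + s) + δ - 1 + (s + s) / 4 → k * s - (s + s) / 4 ≤ y1 →
      y1 ≤ k * s + (s + s) / 4 →
      (y1 < k * s - g ∨ k * s + g ≤ y1 ∨ x1 ≠ c * (s + s) + (s + s) + δ - 1) →
      ((x1, y1) ∈ shD F H (s + s) δ ∪
          Sd (LL F H (s + s) δ) (k * s - g) (k * s + g) (c * (s + s) + (s + s) + δ - 1) ↔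
        q.okL a (k * s) x1 y1) ∧
      ((x1, y1) ∈ shD F H (s + s) δ ∪
          (Sd (LL F H (s + s) δ) (k * s - g) (k * s + g) (c * (s + s) + (s + s) + δ - 1) ∪
        Gr (LL F H (s + s) δ) (k * s - g) (k * s + g) (c * (s + s) + (s + s) + δ - 1)) ↔
        q.okL a (k * s) x1 y1) := by
  obtain ⟨k', i0, i1, up, hh⟩ := hH
  have hsub := hh.sub
  rcases Int.even_or_odd' k with ⟨j, rfl | rfl⟩
  · have e1 : 2 * j * s = j * (s + s) := by ring
    rw [e1] at h6 h7 ⊢
    refine Vw802.vertL (by omega) hδ hh hp (by omega) ?_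
    have a1 : (r - j) * (s + s) = r * (s + s) - j * (s + s) := by ring
    rcases le_or_gt (j * (s + s)) yt with h | h
    · have a2 := small_mul (s := s + s) (m := r - j) (by omega) (by rw [a1]; omega)
        (by rw [a1]; omega)
      have : r = j := by omega
      subst this
      exact Or.inl ⟨h4, h5⟩
    · have a3 : (r - (j - 1)) * (s + s) = r * (s + s) - j * (s + s) + (s + s) := by ring
      have a2 := small_mul (s := s + s) (m := r - (j - 1)) (by omega) (by rw [a3]; omega)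
        (by rw [a3]; omega)
      have : r = j - 1 := by omega
      subst this
      exact Or.inr ⟨h4, h5⟩
  · have e1 : (2 * j + 1) * s = j * (s + s) + s := by ring
    rw [e1] at h6 h7 ⊢
    have a1 : (r - j) * (s + s) = r * (s + s) - j * (s + s) := by ring
    have a2 := small_mul (s := s + s) (m := r - j) (by omega) (by rw [a1]; omega)
      (by rw [a1]; omega)
    have : r = j := by omega
    subst this
    refine ⟨.h1, c * (s + s) + (s + s) + δ, Or.inr rfl, fun x1 y1 b1 b2 b3 b4 b5 => ?_⟩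
    exact Vw802.midL (by omega) (by omega) hsub (by omega) h4 h5 (by omega) (by omega) x1 y1 b1 b2
      b3 b4 b5

/-- the mark of a left wall -/
theorem mkS_left (hL : 1 < L) {c : V} (hc : c ∈ H) (S : Finset V) :
    mkS H L δ S (mk2 L c 0) = if ((c.1 * L + δ - 1, c.2 * L + L / 2) : V) ∈ S then
      ((c.1 * L + δ - 1, c.2 * L + L / 2), 0) else ((c.1 * L + δ, c.2 * L + L / 2), 0) := by
  have h1 : (mk2 L c 0).1 ∈ D H L := by
    rw [mk2_0]
    exact (mD (by omega) (by omega) (by omega) (by omega) (by omega)).2 hc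
  unfold mkS
  rw [if_pos h1, mk2_0]
  have n02 : ¬ ((0 : ZMod 4) = 2) := by decide
  simp only [n02, false_and, if_false, true_and]

/-- **a group at a vertex or at a mark** -/
theorem thickL : ∃ C a : ℝ, 0 < C ∧ 0 < a ∧ ∀ {F H : Finset V} {L δ p y0 xr : ℤ} {g : ℕ},
    Ctx F H L δ p y0 xr g → ∀ e : Fin 3 → V × ZMod 4, Function.Injective e →
    (∀ i, (e i).1 ∈ F) → ∀ k X : ℤ,
    (∃ t ∈ LL F H L δ, t.1 = X ∧ k * (L / 2) - g ≤ t.2 ∧ t.2 < k * (L / 2) + g) →
    (PS F H L δ p y0 xr e (Sd (LL F H L δ) (k * (L / 2) - g) (k * (L / 2) + g) X) ↔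
      PS F H L δ p y0 xr e (Sd (LL F H L δ) (k * (L / 2) - g) (k * (L / 2) + g) X ∪
        Gr (LL F H L δ) (k * (L / 2) - g) (k * (L / 2) + g) X)) ∧
    (PS F H L δ p y0 xr e (Sd (LL F H L δ) (k * (L / 2) - g) (k * (L / 2) + g) X) →
      ‖GS F H L δ p y0 xr e (Sd (LL F H L δ) (k * (L / 2) - g) (k * (L / 2) + g) X ∪
        Gr (LL F H L δ) (k * (L / 2) - g) (k * (L / 2) + g) X) -
        GS F H L δ p y0 xr e (Sd (LL F H L δ) (k * (L / 2) - g) (k * (L / 2) + g) X)‖ ≤
        C * (((g + 2 : ℕ) : ℝ) / ((L / 8).toNat : ℕ)) ^ a) := by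
  obtain ⟨C, a, hC, ha, hX⟩ := ball_iff
  refine ⟨C, a, hC, ha, ?_⟩
  rintro F H L δ p y0 xr g h e he heF k X ⟨⟨X', yt⟩, ht, rfl, h6, h7⟩
  have hs := h.sub
  have hg := h.hg
  have hgL := h.hgL
  have hδ := h.dd
  have hp := h.hp
  have hang := h.hang
  have hnp := h.np
  have hoffS := fun {s t : V} (hs : s ∈ D H L) {q : ℤ} (hq : 2 * q + 2 < L) => h.offS (t := t) hs hq
  have hwd := h.wd
  obtain ⟨s, rfl⟩ := h.ev
  have e2 : (s + s) / 2 = s := by omega
  rw [e2] at h6 h7 ⊢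
  simp only at h6 h7 ⊢
  obtain ⟨c, r, hc1, h2, h3, h4, h5⟩ := Vw802.ll_col (by omega) hs ht
  obtain ⟨q, a', ha', hw⟩ := win_thick (by omega) hδ (by omega) hang hnp h2 h3 h4 h5 h6 h7
  rw [← hc1] at ha' hw
  have ha'' : a' = X' ∨ a' = X' + 1 := by omega
  obtain ⟨sh, kk, hb⟩ := bridgeL q a' (k * s)
  obtain ⟨n, hn⟩ : ∃ n : ℕ, n = ((s + s) / 8).toNat := ⟨_, rfl⟩
  have hn' : (n : ℤ) = (s + s) / 8 := by rw [hn]; exact Int.toNat_of_nonneg (by omega)
  rw [← hn]
  set S := Sd (LL F H (s + s) δ) (k * s - g) (k * s + g) X' with hSd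
  set S' := S ∪ Gr (LL F H (s + s) δ) (k * s - g) (k * s + g) X' with hSd'
  have hsub : S ⊆ LL F H (s + s) δ := Sd_sub
  have hsub' : S' ⊆ LL F H (s + s) δ :=
    Finset.union_subset hsub (Finset.filter_subset _ _)
  -- windows
  have hA : ∀ t, Bx (a' - 1) (k * s - 1) (n + 1) t → ¬ Bx (a' - 1) (k * s - 1) (g + 2 - 1) t →
      (t ∈ rg F H (s + s) δ S ↔ pat (a' - 1) (k * s - 1) sh kk t) ∧
      (t ∈ rg F H (s + s) δ S' ↔ pat (a' - 1) (k * s - 1) sh kk t) := by
    intro t b1 b2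
    rw [hb]
    have e3 : ((g + 2 - 1 : ℕ) : ℤ) = g + 1 := by omega
    unfold Bx at b1 b2
    rw [e3] at b2
    push_cast at b1
    exact hw t.1 t.2 (by omega) (by omega) (by omega) (by omega) (by omega)
  have hoff : ∀ t, Bx (a' - 1) (k * s - 1) n t → OffS p y0 xr t := by
    intro t b1
    have hD : ((X' + 1 - δ, yt) : V) ∈ D H (s + s) := (mem_LL.1 ht).1
    unfold Bx at b1
    refine hoffS hD (q := n + g + 4) (by omega) ?_ ?_
    · rw [abs_le]; simp only; omega
    · rw [abs_le]; simp only; omega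
  have hrn : g + 2 + 1 ≤ n := by omega
  have W : Cw161.Win sh kk (a' - 1) (k * s - 1) (g + 2) n (rg F H (s + s) δ S)
      (beD (rg F H (s + s) δ S) p y0 xr) :=
    Cw161.win_plain (by omega) hrn (fun t b1 b2 => (hA t b1 b2).1)
      (fun t d b1 => Wd377.beD_plain (hoff t b1) hp d)
  have W' : Cw161.Win sh kk (a' - 1) (k * s - 1) (g + 2) n (rg F H (s + s) δ S')
      (beD (rg F H (s + s) δ S') p y0 xr) :=
    Cw161.win_plain (by omega) hrn (fun t b1 b2 => (hA t b1 b2).2)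
      (fun t d b1 => Wd377.beD_plain (hoff t b1) hp d)
  have hbr : ∀ {t : V}, Bx (a' - 1) (k * s - 1) (g + 2) t → Bx (a' - 1) (k * s - 1) n t := by
    intro t b1; unfold Bx at b1 ⊢; push_cast at b1; omega
  have hAA : ∀ t, ¬ Bx (a' - 1) (k * s - 1) (g + 2) t →
      (t ∈ rg F H (s + s) δ S ↔ t ∈ rg F H (s + s) δ S') := by
    intro t b1
    unfold rg
    rw [hSd', Finset.mem_union, Finset.mem_union, Finset.mem_union, mem_Gr]
    constructor
    · rintro (h8 | h8)
      · exact Or.inl h8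
      · exact Or.inr (Or.inl h8)
    · rintro (h8 | h8 | ⟨-, h8, h9, h10⟩)
      · exact Or.inl h8
      · exact Or.inr h8
      · exfalso
        apply b1
        unfold Bx
        push_cast
        omega
  have hF : ∀ x, FarM (a' - 1) (k * s - 1) n x →
      beD (rg F H (s + s) δ S') p y0 xr x = beD (rg F H (s + s) δ S) p y0 xr x :=
    fun x hx => beD_off hp hrn (fun t b1 => hoff t (hbr b1)) hAA x hx
  -- marks
  have near : ∀ (S0 : Finset V) i, Bx (a' - 1) (k * s - 1) n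
      (mkS H (s + s) δ S0 (mk2 (s + s) (e i).1 (e i).2)).1 →
      e i = ((c + 1, r), 0) ∧ k = 2 * r + 1 := by
    intro S0 i b1
    unfold Bx at b1
    refine mark_near (F := F) (by omega) hδ (by omega) hc1 h2 h3 h5 h6 h7 (heF i) (S := S0)
      (H := H) ?_ ?_
    · rw [abs_le]; omega
    · rw [abs_le]; omega
  have hQ : ∀ i, MkQ (a' - 1) (k * s - 1) (g + 2) (rg F H (s + s) δ S)
      (beD (rg F H (s + s) δ S) p y0 xr) (rg F H (s + s) δ S')
      (beD (rg F H (s + s) δ S') p y0 xr) (mq' H (s + s) δ S (e i)) (mq' H (s + s) δ S' (e i)) := by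
    intro i
    by_cases hc : e i = ((c + 1, r), 0) ∧ k = 2 * r + 1
    · obtain ⟨hei, hk⟩ := hc
      have e4 : k * s = r * (s + s) + s := by rw [hk]; ring
      have e5 : (c + 1) * (s + s) + δ - 1 = X' := by rw [hc1]; ring
      have e6 : (c + 1) * (s + s) + δ = X' + 1 := by rw [hc1]; ring
      have hfr : ((X', k * s) : V) ∈ LL F H (s + s) δ := by
        have := (Vw802.row_ll (F := F) (δ := δ) (c := c) (r := r) (x := X') (y := k * s)
          (by omega : 8 ≤ s + s) hs (by omega) (by omega) (by omega) (by omega)).2 ⟨by omega, h4, h5⟩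
        exact this
      have hnS : ((X', k * s) : V) ∉ S := by
        rw [hSd, mem_Sd]
        simp only
        omega
      have hinS' : ((X', k * s) : V) ∈ S' := by
        rw [hSd', Finset.mem_union, mem_Gr]
        exact Or.inr ⟨hfr, rfl, by simp only; omega, by simp only; omega⟩
      have v1 : mkS H (s + s) δ S (mk2 (s + s) (e i).1 (e i).2) = ((X' + 1, k * s), 0) := by
        rw [hei, mkS_left (by omega) h4]
        simp only [e2]
        rw [e5, e6, ← e4, if_neg hnS]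
      have v2 : mkS H (s + s) δ S' (mk2 (s + s) (e i).1 (e i).2) = ((X', k * s), 0) := by
        rw [hei, mkS_left (by omega) h4]
        simp only [e2]
        rw [e5, e6, ← e4, if_pos hinS']
      have hfl : ∀ x1 : ℤ, X' - 1 ≤ x1 → x1 ≤ X' + 1 →
          ((((x1, k * s) : V) ∈ rg F H (s + s) δ S ↔ X' < x1) ∧
          (((x1, k * s) : V) ∈ rg F H (s + s) δ S' ↔ X' ≤ x1)) := by
        intro x1 b1 b2
        have := Vw802.flatL (δ := δ) (y := k * s - g) (y' := k * s + g) (x1 := x1) (y1 := k * s)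
          (by omega : 8 ≤ s + s) (by omega) hs h4 h5 (by omega) (by omega) (by omega) (by omega)
          (by omega)
        rw [← hc1] at this
        constructor
        · refine this.1.trans ?_
          constructor <;> intro h8 <;> omega
        · refine this.2.trans ?_
          constructor <;> intro h8 <;> omega
      have b1 : Bx (a' - 1) (k * s - 1) (g + 2) (X' + 1, k * s) := by
        unfold Bx; push_cast; omega
      have b2 : Bx (a' - 1) (k * s - 1) (g + 2) (X', k * s) := by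
        unfold Bx; push_cast; omega
      right
      refine ⟨(X' + 1, k * s), 0, (X', k * s), 0, ?_, b1, ?_, ?_, ?_, b2, ?_, ?_⟩
      · unfold mq'; rw [v1]
      · exact ((hfl (X' + 1) (by omega) (by omega)).1).2 (by omega)
      · unfold mq'
        rw [v1, Wd377.beD_plain (hoff _ (hbr b1)) hp]
        refine Cw161.beP_free (Or.inr ?_)
        rw [Cw161.dir0, Prod.mk_add_mk, add_zero]
        intro h8
        have := ((hfl (X' + 1 + -1) (by omega) (by omega)).1).1 h8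
        omega
      · unfold mq'; rw [v2]
      · exact ((hfl X' (by omega) (by omega)).2).2 (by omega)
      · unfold mq'
        rw [v2, Wd377.beD_plain (hoff _ (hbr b2)) hp]
        refine Cw161.beP_free (Or.inr ?_)
        rw [Cw161.dir0, Prod.mk_add_mk, add_zero]
        intro h8
        have := ((hfl (X' + -1) (by omega) (by omega)).2).1 h8
        omega
    · left
      have e7 : mkS H (s + s) δ S (mk2 (s + s) (e i).1 (e i).2) =
          mkS H (s + s) δ S' (mk2 (s + s) (e i).1 (e i).2) := by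
        refine mkS_same (by omega) hs hsub hsub' fun hd hH => ?_
        rw [hSd', Finset.mem_union]
        constructor
        · exact Or.inl
        · rintro (h8 | h8)
          · exact h8
          · exfalso
            rw [mem_Gr] at h8
            obtain ⟨-, h9, h10, h11⟩ := h8
            simp only at h9 h10 h11
            rw [e2] at h10 h11
            refine hc (near ∅ i ?_)
            obtain ⟨n1, n2, -⟩ := mkS_near H (s + s) δ hδ ∅ (mk2 (s + s) (e i).1 (e i).2)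
            rw [hd, mk2_0, e2] at n1 n2
            rw [hd]
            rw [mk2_0, e2]
            simp only at n1 n2
            rw [abs_le] at n1
            unfold Bx
            omega
      refine ⟨by unfold mq'; rw [e7], ?_⟩
      intro t d h8 h9
      unfold mq' at h8
      simp only [Option.some.injEq] at h8
      refine hc (near S i ?_)
      rw [h8]
      exact hbr h9
  have hfar : ∀ i j, i ≠ j → FarM (a' - 1) (k * s - 1) n (mq' H (s + s) δ S (e i)) ∨
      FarM (a' - 1) (k * s - 1) n (mq' H (s + s) δ S (e j)) := by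
    intro i j hij
    by_contra hcon
    have key : ∀ i, ¬ FarM (a' - 1) (k * s - 1) n (mq' H (s + s) δ S (e i)) →
        e i = ((c + 1, r), 0) := by
      intro i hi
      unfold FarM at hi
      push Not at hi
      obtain ⟨t, d, h8, h9⟩ := hi
      unfold mq' at h8
      simp only [Option.some.injEq] at h8
      exact (near S i (by rw [h8]; exact h9)).1
    rw [not_or] at hcon
    exact hij (he ((key i hcon.1).trans (key j hcon.2).symm))
  exact hX sh kk (a' - 1) (k * s - 1) (g + 2) n (by omega) hrn W W'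
    (Cw161.np_plain fun t b1 b2 => (hA t b1 b2).1) hF hAA (hwd _ hsub) (hwd _ hsub')
    (hQ 0) (hQ 1) (hQ 2) (hfar 0 1 (by decide)) (hfar 1 2 (by decide)) (hfar 2 0 (by decide))

end Crest.Agent.R158.Hc854
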