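import Crest.Agent.R158.Hg2_896

/-!
# Row 158, BL (helper896), file Hg3: the shifted regions are hole-free and connected (leaf B2)

* `shD_CC`, `shD_CA` : `shD F H L s`, `s = 1 ∨ s = -1`
-/

set_option autoImplicit false
set_option linter.unusedVariables false

noncomputable section

namespace Crest.Agent.R158.Hg896

open Crest.Agent.R158.Env664 (Adj4 Mac D mem_D div_iff Run CutAdj)
open Crest.Agent.R158.Xr249
open Crest.Agent.R158.Hb656 (Hang shD mem_shD)

theorem D_CC {F : Finset (ℤ × ℤ)} (h : CC F) {L : ℤ} (hL : 0 < L) : CC (D F L) := by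
  intro a ha b hb
  rw [mem_D hL] at ha hb
  refine lift_path hL (Y := {t | t ∉ F}) (fun t ht => ?_) (h _ ha _ hb) ha rfl rfl
  exact fun h => ht ((mem_D hL t).1 h)

theorem D_CA {F : Finset (ℤ × ℤ)} (h : CA F) {L : ℤ} (hL : 0 < L) : CA (D F L) := by
  intro a ha b hb
  rw [mem_D hL] at ha hb
  refine lift_path hL (Y := {t | t ∈ F}) (fun t ht => ?_) (h _ ha _ hb) ha rfl rfl
  exact (mem_D hL t).2 ht


section

variable {F H : Finset (ℤ × ℤ)} {k i0 i1 L s : ℤ} {up : Bool}






end

end Crest.Agent.R158.Hg896
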