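import Crest.Agent.R158.Hp1_814
import Crest.Agent.R158.Rs5_689

-- ▼ part R158/Hp2_814
section

/-!
# Row 158, Block HP (helper814): half annuli, planar topology

* `HA z s R` : half annulus `{v | z.2 ≤ v.2, s ≤ sd z v ≤ R}` (a finset)
* `BL z s R`, `BR z s R` : bottom sites on the left / right; `Inn z s` : inner boundary without corners
* `half_cross` : a walk of the half annulus from `BL` to `BR` meets each walk from `Inn` to `sd = R`
* `oc_last`, `oc_first` : restriction of connections to sub-annuli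
-/

set_option autoImplicit false

noncomputable section

namespace Crest.Agent.R158.Hp814

open MeasureTheory ProbabilityTheory unitInterval
open Crest.Agent.R161.Geo729 Crest.Agent.R161.Topo374 Crest.Agent.R161.Dual374
open Crest.Agent.R161.Tas682 Crest.Agent.R158.Rs689

/-- half annulus -/
def HA (z : P2) (s R : ℤ) : Finset P2 :=
  (Finset.Icc (z.1 - R) (z.1 + R) ×ˢ Finset.Icc z.2 (z.2 + R)).filter fun v => s ≤ sd z v

theorem mem_HA {z : P2} {s R : ℤ} {v : P2} :
    v ∈ HA z s R ↔ z.2 ≤ v.2 ∧ s ≤ sd z v ∧ sd z v ≤ R := by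
  simp only [HA, Finset.mem_filter, Finset.mem_product, Finset.mem_Icc, sd_le]
  omega

theorem HA_mono {z : P2} {s s' R R' : ℤ} (hs : s' ≤ s) (hR : R ≤ R') : HA z s R ⊆ HA z s' R' := by
  intro v hv
  rw [mem_HA] at hv ⊢
  omega

/-- bottom sites on the left -/
def BL (z : P2) (s R : ℤ) : Set P2 := {v | v.2 = z.2 ∧ z.1 - R ≤ v.1 ∧ v.1 ≤ z.1 - s}

/-- bottom sites on the right -/
def BR (z : P2) (s R : ℤ) : Set P2 := {v | v.2 = z.2 ∧ z.1 + s ≤ v.1 ∧ v.1 ≤ z.1 + R}

/-- sites at distance `s` -/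
def Sp (z : P2) (s : ℤ) : Set P2 := {v | sd z v = s}

/-- sites at distance `s` with a neighbour at a smaller distance (no corners) -/
def Inn (z : P2) (s : ℤ) : Set P2 := {v | sd z v = s ∧ ∃ u, Nbr u v ∧ sd z u < s ∧ z.2 ≤ u.2}


theorem sd_nonneg' (z v : P2) : 0 ≤ sd z v := by
  unfold sd
  exact (abs_nonneg _).trans (le_max_left _ _)

theorem sd_comm (z v : P2) : sd z v = sd v z := by
  unfold sd
  rw [abs_sub_comm, abs_sub_comm z.2]

theorem le_sd {z v : P2} {k : ℤ} : k ≤ sd z v ↔ v.1 ≤ z.1 - k ∨ z.1 + k ≤ v.1 ∨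
    v.2 ≤ z.2 - k ∨ z.2 + k ≤ v.2 ∨ k ≤ 0 := by
  unfold sd
  rw [le_max_iff, le_abs, le_abs]
  constructor
  · rintro ((h | h) | (h | h)) <;> omega
  · intro h
    have h1 := abs_nonneg (v.1 - z.1)
    rcases h with h | h | h | h | h
    · left; right; omega
    · left; left; omega
    · right; right; omega
    · right; left; omega
    · by_cases h2 : 0 ≤ v.1 - z.1
      · left; left; omega
      · left; right; omega

/-- horizontal walks -/
theorem hwalk' {T : Set V} (y : ℤ) {x x' : ℤ} (hxx : x ≤ x')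
    (h : ∀ k : ℤ, x ≤ k → k ≤ x' → ((k, y) : V) ∈ T) : Walk T (x, y) (x', y) := by
  obtain ⟨n, rfl⟩ : ∃ n : ℕ, x' = x + n := ⟨(x' - x).toNat, by omega⟩
  clear hxx
  induction n with
  | zero => simpa using Walk.refl (h x le_rfl (by simp))
  | succ n ih =>
      have h1 := ih (fun k h1 h2 => h k h1 (by push_cast; omega))
      refine h1.trans (Walk.step h1.right (h _ (by push_cast; omega) le_rfl) ?_)
      left
      refine ⟨rfl, Or.inl ?_⟩
      push_cast
      ring

/-- horizontal walks in either direction -/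
theorem hwalk2 {T : Set V} (y : ℤ) (x x' : ℤ)
    (h : ∀ k : ℤ, min x x' ≤ k → k ≤ max x x' → ((k, y) : V) ∈ T) : Walk T (x, y) (x', y) := by
  rcases le_total x x' with hx | hx
  · rw [min_eq_left hx, max_eq_right hx] at h
    exact hwalk' y hx h
  · rw [min_eq_right hx, max_eq_left hx] at h
    exact (hwalk' y hx h).symm

/-- **Crossing lemma in the half annulus.** -/
theorem half_cross {z : P2} {s R : ℤ} (hs : 1 ≤ s) {T1 T2 : Set P2} {u w x v : P2}
    (h1 : Walk T1 u w) (h2 : Walk T2 x v)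
    (hT1 : ∀ t ∈ T1, t ∈ HA z s R) (hT2 : ∀ t ∈ T2, t ∈ HA z s R)
    (hu : u ∈ BL z s R) (hw : w ∈ BR z s R) (hx : x ∈ Inn z s) (hv : v ∈ Sp z R) :
    (T1 ∩ T2).Nonempty := by
  obtain ⟨hu2, hu1, hu1'⟩ := hu
  obtain ⟨hw2, hw1, hw1'⟩ := hw
  obtain ⟨hxs, x0, hx0, hx0s, hx02⟩ := hx
  have hR : 0 ≤ R := by
    have := sd_nonneg' z v
    have h3 : sd z v = R := hv
    omega
  -- extension of `T1`
  set A1 : Set P2 := {t | t.2 = z.2 - 1 ∧ z.1 - R - 1 ≤ t.1 ∧ t.1 ≤ z.1 + R + 1 ∧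
    (t.1 ≤ z.1 - s ∨ z.1 + s ≤ t.1)} with hA1
  have w1 : Walk (T1 ∪ A1) (z.1 - R - 1, z.2 - 1) (z.1 + R + 1, z.2 - 1) := by
    have e1 : Walk (T1 ∪ A1) (z.1 - R - 1, z.2 - 1) (u.1, z.2 - 1) :=
      hwalk' _ (by omega) fun k h3 h4 => Or.inr ⟨rfl, h3, by simp only; omega, by simp only; omega⟩
    have e2 : Walk (T1 ∪ A1) (u.1, z.2 - 1) u := by
      refine Walk.step e1.right (Or.inl h1.left) (Or.inr ⟨rfl, ?_⟩)
      simp only
      omega
    have e3 : Walk (T1 ∪ A1) u w := h1.mono Set.subset_union_left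
    have e5 : Walk (T1 ∪ A1) (w.1, z.2 - 1) (z.1 + R + 1, z.2 - 1) :=
      hwalk' _ (by omega) fun k h3 h4 => Or.inr ⟨rfl, by simp only; omega, h4, by simp only; omega⟩
    have e4 : Walk (T1 ∪ A1) w (w.1, z.2 - 1) := by
      refine Walk.step e3.right e5.left (Or.inr ⟨rfl, ?_⟩)
      simp only
      omega
    exact (((e1.trans e2).trans e3).trans e4).trans e5
  -- extension of `T2`
  set A2 : Set P2 := {t | (t.1 = z.1 ∧ t.2 = z.2 - 1) ∨ (sd z t < s ∧ z.2 ≤ t.2) ∨
    ((t.1 = z.1 - R - 1 ∨ t.1 = z.1 + R + 1) ∧ z.2 ≤ t.2 ∧ t.2 ≤ z.2 + R)} with hA2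
  have hx0' := sd_le.1 (show sd z x0 ≤ s - 1 by omega)
  have e1 : Walk (T2 ∪ A2) (z.1, z.2 - 1) (z.1, z.2) := by
    refine Walk.step (Or.inr (Or.inl ⟨rfl, rfl⟩)) (Or.inr (Or.inr (Or.inl ⟨?_, le_rfl⟩))) ?_
    · have : sd z (z.1, z.2) ≤ 0 := sd_le.2 (by simp)
      omega
    · unfold Nbr
      simp
  have e2 : Walk (T2 ∪ A2) (z.1, z.2) (x0.1, z.2) := by
    refine hwalk2 _ _ _ fun k h3 h4 => Or.inr (Or.inr (Or.inl ⟨?_, le_rfl⟩))
    have : sd z (k, z.2) ≤ s - 1 := sd_le.2 (by simp only; omega)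
    omega
  have e3 : Walk (T2 ∪ A2) (x0.1, z.2) (x0.1, x0.2) := by
    refine vwalk' _ hx02 fun k h3 h4 => Or.inr (Or.inr (Or.inl ⟨?_, h3⟩))
    have : sd z (x0.1, k) ≤ s - 1 := sd_le.2 (by simp only; omega)
    omega
  have e4 : Walk (T2 ∪ A2) x0 x :=
    Walk.step (Or.inr (Or.inr (Or.inl ⟨hx0s, hx02⟩))) (Or.inl h2.left) hx0
  have e5 : Walk (T2 ∪ A2) x v := h2.mono Set.subset_union_left
  have e6 : Walk (T2 ∪ A2) (z.1, z.2 - 1) v := (((e1.trans e2).trans e3).trans e4).trans e5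
  have hvm := mem_HA.1 (hT2 v h2.right)
  have hv' := sd_le.1 hvm.2.2
  obtain ⟨q, hq, hq2⟩ : ∃ q : P2, q.2 = z.2 + R ∧ Walk (T2 ∪ A2) (z.1, z.2 - 1) q := by
    have h3 : v.1 = z.1 - R ∨ v.1 = z.1 + R ∨ v.2 = z.2 + R := by
      rcases sd_eq (show sd z v = R from hv) with h | h | h | h
      · exact Or.inl h
      · exact Or.inr (Or.inl h)
      · right; right; omega
      · exact Or.inr (Or.inr h)
    rcases h3 with h3 | h3 | h3
    · have e7 : Walk (T2 ∪ A2) (z.1 - R - 1, v.2) (z.1 - R - 1, z.2 + R) := by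
        refine vwalk' _ (by omega) fun k h4 h5 => Or.inr (Or.inr (Or.inr ⟨Or.inl rfl, ?_, h5⟩))
        simp only
        omega
      have e8 : Walk (T2 ∪ A2) v (z.1 - R - 1, v.2) := by
        refine Walk.step (Or.inl h2.right) e7.left (Or.inl ⟨rfl, ?_⟩)
        simp only
        omega
      exact ⟨_, rfl, (e6.trans e8).trans e7⟩
    · have e7 : Walk (T2 ∪ A2) (z.1 + R + 1, v.2) (z.1 + R + 1, z.2 + R) := by
        refine vwalk' _ (by omega) fun k h4 h5 => Or.inr (Or.inr (Or.inr ⟨Or.inr rfl, ?_, h5⟩))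
        simp only
        omega
      have e8 : Walk (T2 ∪ A2) v (z.1 + R + 1, v.2) := by
        refine Walk.step (Or.inl h2.right) e7.left (Or.inl ⟨rfl, ?_⟩)
        simp only
        omega
      exact ⟨_, rfl, (e6.trans e8).trans e7⟩
    · exact ⟨v, h3, e6⟩
  obtain ⟨t, ht1, ht2⟩ := cross w1 hq2 (by
    rintro t (ht | ht)
    · have h3 := mem_HA.1 (hT1 t ht)
      have h4 := sd_le.1 h3.2.2
      simp only
      omega
    · have := ht.1
      simp only
      omega) (by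
    rintro t (ht | ht)
    · have h3 := mem_HA.1 (hT2 t ht)
      have h4 := sd_le.1 h3.2.2
      simp only
      omega
    · simp only
      rcases ht with ht | ht | ht
      · omega
      · have h4 := sd_le.1 (show sd z t ≤ s - 1 by omega)
        have h5 := sd_nonneg' z x
        have h6 : sd z x ≤ R := (mem_HA.1 (hT2 x h2.left)).2.2
        omega
      · omega)
  rcases ht1 with ht1 | ht1
  · have h3 := mem_HA.1 (hT1 t ht1)
    have h4 := sd_le.1 h3.2.2
    rcases ht2 with ht2 | ht2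
    · exact ⟨t, ht1, ht2⟩
    · exfalso
      rcases ht2 with ht2 | ht2 | ht2 <;> omega
  · exfalso
    obtain ⟨h3, h4, h5, h6⟩ := ht1
    rcases ht2 with ht2 | ht2
    · have h7 := mem_HA.1 (hT2 t ht2)
      omega
    · rcases ht2 with ht2 | ht2 | ht2 <;> omega

/-! ### restriction of connections -/

/-- a connection either stays in `{k ≤ f}` or visits `{f < k}` -/
theorem oc_stay {z : Cf} {S : Set P2} (f : P2 → ℤ) (k : ℤ) {u v : P2} (h : OC z S u v) :
    OC z (S ∩ {p | k ≤ f p}) u v ∨ ∃ t, f t < k ∧ OC z S u t := by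
  by_cases h1 : ∃ t, f t < k ∧ OC z S u t
  · exact Or.inr h1
  · left
    push Not at h1
    obtain ⟨hu, h⟩ := h
    have hku : k ≤ f u := by
      by_contra h2
      exact h1 u (by omega) (OC.refl hu)
    refine ⟨⟨hu, hku⟩, ?_⟩
    induction h with
    | refl => exact .refl
    | @tail b c h2 h3 ih =>
      have hb : k ≤ f b := by
        by_contra h4
        exact h1 b (by omega) ⟨hu, h2⟩
      have hc : k ≤ f c := by
        by_contra h4
        exact h1 c (by omega) ⟨hu, h2.tail h3⟩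
      exact ih.tail ⟨h3.1, ⟨h3.2.1, hb⟩, ⟨h3.2.2, hc⟩⟩

/-- last exit from `{sd z < k}`, with a neighbour inside -/
theorem last_exit_inn {y : Cf} {S : Set P2} {z : P2} {k : ℤ} {u v : P2} (h : OC y S u v)
    (hu : sd z u < k) (hv : k ≤ sd z v) (hS : ∀ t ∈ S, z.2 ≤ t.2) :
    ∃ w, w ∈ Inn z k ∧ OC y (S ∩ {p | k ≤ sd z p}) w v ∧ OC y S u w := by
  obtain ⟨huS, h⟩ := h
  induction h with
  | refl => omega
  | @tail b c h1 h2 ih =>
    by_cases hb : k ≤ sd z b
    · obtain ⟨w, h3, h4, h5⟩ := ih hb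
      exact ⟨w, h3, ⟨h4.1, h4.2.tail ⟨h2.1, h4.right, ⟨h2.2.2, hv⟩⟩⟩, h5⟩
    · have h3 := sd_nbr z b c (pstep_nbr h2.1)
      refine ⟨c, ⟨by omega, b, pstep_nbr h2.1, by omega, hS b h2.2.1⟩,
        OC.refl ⟨h2.2.2, hv⟩, ⟨huS, h1.tail h2⟩⟩

/-- first hit of `{sd z = k}` -/
theorem first_hit_sd {y : Cf} {S : Set P2} {z : P2} {k : ℤ} {u v : P2} (h : OC y S u v)
    (hu : sd z u ≤ k) (hv : k ≤ sd z v) :
    ∃ w, sd z w = k ∧ OC y (S ∩ {p | sd z p ≤ k}) u w :=
  first_hit (sd z) (sd_nbr z) k h hu hv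

/-- crossing of a half annulus -/
def HX (z : P2) (s R : ℤ) : Set Cf := EV (HA z s R) (Sp z s) (Sp z R)

/-- open half circuit -/
def HO (z : P2) (s : ℤ) : Set Cf := EV (HA z s (2 * s)) (BL z s (2 * s)) (BR z s (2 * s))

theorem HX_sub {z : P2} {s s' R R' : ℤ} (hs : s ≤ s') (hsR : s' ≤ R') (hR : R' ≤ R) :
    HX z s R ⊆ HX z s' R' := by
  rintro y ⟨u, hu, v, hv, h⟩
  obtain ⟨w, h1, h2, _⟩ := last_exit (sd z) (sd_nbr z) s' h
    (by have : sd z u = s := hu; omega) (by have : sd z v = R := hv; omega)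
  obtain ⟨w', h3, h4⟩ := first_hit (sd z) (sd_nbr z) R' h2
    (by omega) (by have : sd z v = R := hv; omega)
  refine ⟨w, h1, w', h3, h4.monoS ?_⟩
  rintro t ⟨⟨h5, h6⟩, h7⟩
  have h5' := mem_HA.1 h5
  have h6' : s' ≤ sd z t := h6
  have h7' : sd z t ≤ R' := h7
  exact mem_HA.2 ⟨h5'.1, h6', h7'⟩

/-- crossing of a full annulus -/
def FX (z : P2) (s R : ℤ) : Set Cf := EV {v | s ≤ sd z v ∧ sd z v ≤ R} (Sp z s) (Sp z R)

theorem HX_sub_FX (z : P2) (s R : ℤ) : HX z s R ⊆ FX z s R :=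
  EV_mono (fun _ hv => (mem_HA.1 hv).2) subset_rfl subset_rfl

/-- **RSW hypothesis**: open half circuits up to scale `N1`, no crossings of annuli up to scale
`N2`. -/
structure Rsw (p : I) (c : ℝ) (N1 N2 : ℤ) : Prop where
  pos : 0 < c
  ho : ∀ (z : P2) (n : ℤ), 1 ≤ n → n ≤ N1 → c ≤ (nu p).real (HO z n)
  fx : ∀ (z : P2) (n : ℤ), 1 ≤ n → n ≤ N2 → (nu p).real (FX z n (2 * n)) ≤ 1 - c

theorem Rsw.hx {p : I} {c : ℝ} {N1 N2 : ℤ} (h : Rsw p c N1 N2) (z : P2) (n : ℤ) (h1 : 1 ≤ n)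
    (h2 : n ≤ N2) : (nu p).real (HX z n (2 * n)) ≤ 1 - c :=
  (measureReal_mono (HX_sub_FX _ _ _)).trans (h.fx z n h1 h2)

theorem Rsw.c_lt_one {p : I} {c : ℝ} {N1 N2 : ℤ} (h : Rsw p c N1 N2) (hN : 1 ≤ N2) : c ≤ 1 := by
  have h1 := h.fx (0, 0) 1 le_rfl hN
  have h2 : 0 ≤ (nu p).real (FX (0, 0) 1 (2 * 1)) := measureReal_nonneg
  linarith

theorem EI_disj {S T : Finset P2} (h : Disjoint S T) : Disjoint (EI S) (EI T) := by
  rw [Finset.disjoint_left]
  intro e h1 h2
  rw [mem_EI] at h1 h2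
  exact (Finset.disjoint_left.1 h) h1.1 h2.1

theorem HX_dep (z : P2) (s R : ℤ) : Dep (EI (HA z s R)) (HX z s R) := ev_dep _ _ _

/-- one step of the one-arm bound -/
theorem HX_step {p : I} {c : ℝ} {N1 N2 : ℤ} (h : Rsw p c N1 N2) (z : P2) {s R : ℤ} (hs : 1 ≤ s)
    (hsN : s ≤ N2) (hR : 2 * s + 1 ≤ R) :
    (nu p).real (HX z s R) ≤ (1 - c) * (nu p).real (HX z (2 * s + 1) R) := by
  have h1 : HX z s R ⊆ HX z s (2 * s) ∩ HX z (2 * s + 1) R := fun y hy =>
    ⟨HX_sub le_rfl (by omega) (by omega) hy, HX_sub (by omega) hR le_rfl hy⟩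
  have h2 : (nu p).real (HX z s (2 * s) ∩ HX z (2 * s + 1) R) =
      (nu p).real (HX z s (2 * s)) * (nu p).real (HX z (2 * s + 1) R) := by
    refine PB_indep_real _ (EI_disj ?_) (HX_dep _ _ _) (HX_dep _ _ _)
    rw [Finset.disjoint_left]
    intro v h3 h4
    rw [mem_HA] at h3 h4
    omega
  calc (nu p).real (HX z s R) ≤ _ := measureReal_mono h1
    _ = _ := h2
    _ ≤ _ := mul_le_mul_of_nonneg_right (h.hx z s hs hsN) measureReal_nonneg

end Crest.Agent.R158.Hp814
end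
end

-- ▼ part R158/Hp3_814
section

/-!
# Row 158, Block HP (helper814): symmetries, one arm, segment form of the half-plane two arms

* `Sy` : symmetries of the lattice; `Sy.prob`, `Sy.oc`
* `HX_pow` : `P(crossing of the half annulus (s,R)) ≤ 4 (s/R)^a`
* `SegE z R` : `z` is joined to distance `R` in the half box and is the rightmost bottom site of its
  cluster; `segE_le : P(SegE z R) ≤ C / R`
-/

set_option autoImplicit false

noncomputable section

namespace Crest.Agent.R158.Hp814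

open MeasureTheory ProbabilityTheory unitInterval
open Crest.Agent.R161.Geo729 Crest.Agent.R161.Topo374 Crest.Agent.R161.Dual374
open Crest.Agent.R161.Tas682 Crest.Agent.R158.Rs689 Crest.Agent.R161.Sym597

/-! ### symmetries -/

/-- lattice symmetries -/
structure Sy where
  V : P2 ≃ P2
  E : Edge ≃ Edge
  ok : ∀ e, (src (E e) = V (src e) ∧ tgt (E e) = V (tgt e)) ∨
    (src (E e) = V (tgt e) ∧ tgt (E e) = V (src e))

namespace Sy

/-- inverse symmetry -/
def symm (g : Sy) : Sy where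
  V := g.V.symm
  E := g.E.symm
  ok e := by
    rcases g.ok (g.E.symm e) with ⟨h1, h2⟩ | ⟨h1, h2⟩
    · left
      rw [Equiv.apply_symm_apply] at h1 h2
      rw [h1, h2]
      simp
    · right
      rw [Equiv.apply_symm_apply] at h1 h2
      rw [h1, h2]
      simp

theorem pstep (g : Sy) {z : Cf} {a b : P2} (h : PStep (fun e => z (g.E e) = true) a b) :
    PStep (fun e => z e = true) (g.V a) (g.V b) := by
  obtain ⟨e, he, h1⟩ := h
  refine ⟨g.E e, he, ?_⟩
  rcases h1 with ⟨rfl, rfl⟩ | ⟨rfl, rfl⟩ <;> rcases g.ok e with ⟨h2, h3⟩ | ⟨h2, h3⟩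
  · exact Or.inl ⟨h2.symm, h3.symm⟩
  · exact Or.inr ⟨h3.symm, h2.symm⟩
  · exact Or.inr ⟨h3.symm, h2.symm⟩
  · exact Or.inl ⟨h2.symm, h3.symm⟩

theorem oc_map (g : Sy) {z : Cf} {S S' : Set P2} (hS : ∀ v ∈ S, g.V v ∈ S') {u v : P2}
    (h : OC (fun e => z (g.E e)) S u v) : OC z S' (g.V u) (g.V v) := by
  obtain ⟨hu, h⟩ := h
  refine ⟨hS u hu, ?_⟩
  induction h with
  | refl => exact .refl
  | tail h1 h2 ih => exact ih.tail ⟨g.pstep h2.1, hS _ h2.2.1, hS _ h2.2.2⟩

theorem oc_iff (g : Sy) {z : Cf} {S S' : Set P2} (hS : ∀ v, v ∈ S ↔ g.V v ∈ S') {u v : P2} :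
    OC (fun e => z (g.E e)) S u v ↔ OC z S' (g.V u) (g.V v) := by
  refine ⟨g.oc_map fun v hv => (hS v).1 hv, fun h => ?_⟩
  have h1 : (fun e => (fun e => z (g.E e)) (g.symm.E e)) = z := by
    funext e
    show z (g.E (g.E.symm e)) = z e
    rw [Equiv.apply_symm_apply]
  have h2 := g.symm.oc_map (z := fun e => z (g.E e)) (S := S') (S' := S) (u := g.V u)
    (v := g.V v) (fun v hv => by
      rw [hS]
      show g.V (g.V.symm v) ∈ S'
      rwa [Equiv.apply_symm_apply]) (by rw [h1]; exact h)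
  have h3 : ∀ v, g.symm.V (g.V v) = v := fun v => g.V.symm_apply_apply v
  rwa [h3, h3] at h2

theorem prob (g : Sy) (p : I) {A : Set Cf} (hA : MeasurableSet A) :
    (nu p).real {z | (fun e => z (g.E e)) ∈ A} = (nu p).real A := by
  have h := PB_map_equiv g.E.symm (fun _ : Edge => p)
  have hm : Measurable (fun (z : Cf) (e : Edge) => z (g.E e)) :=
    measurable_pi_lambda _ fun e => measurable_pi_apply _
  have h2 : (nu p).map (fun (z : Cf) (e : Edge) => z (g.E e)) = nu p := h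
  conv_rhs => rw [← h2]
  rw [measureReal_def, measureReal_def, Measure.map_apply hm hA]
  rfl

end Sy

/-- translations -/
def syT (a : P2) : Sy where
  V := Equiv.addRight a
  E := shE a
  ok e := Or.inl ⟨src_shE a e, tgt_shE a e⟩

/-- reflections of 597 -/
def syR (R : Refl) : Sy where
  V := R.VEquiv
  E := R.EEquiv
  ok e := R.edge_v e

theorem sd_add (a z v : P2) : sd (z + a) (v + a) = sd z v := by
  unfold sd
  simp

/-! ### one arm -/

theorem Rsw.mono {p : I} {c c' : ℝ} {N1 N2 N1' N2' : ℤ} (h : Rsw p c N1 N2) (hc : 0 < c')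
    (hcc : c' ≤ c) (hN1 : N1' ≤ N1) (hN2 : N2' ≤ N2) : Rsw p c' N1' N2' where
  pos := hc
  ho z n h1 h2 := hcc.trans (h.ho z n h1 (h2.trans hN1))
  fx z n h1 h2 := (h.fx z n h1 (h2.trans hN2)).trans (by linarith)

/-- the exponent -/
def aex (c : ℝ) : ℝ := Real.logb 2 (1 - c)⁻¹

theorem aex_pos {c : ℝ} (hc : 0 < c) (hc2 : c ≤ 1 / 2) : 0 < aex c := by
  unfold aex
  apply Real.logb_pos (by norm_num)
  rw [one_lt_inv₀ (by linarith)]
  linarith

theorem aex_le_one {c : ℝ} (hc : 0 < c) (hc2 : c ≤ 1 / 2) : aex c ≤ 1 := by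
  unfold aex
  have h1 : (1 - c)⁻¹ ≤ 2 := by
    rw [inv_le_comm₀ (by linarith) (by norm_num)]
    linarith
  have h2 : (0 : ℝ) < (1 - c)⁻¹ := inv_pos.2 (by linarith)
  calc Real.logb 2 (1 - c)⁻¹ ≤ Real.logb 2 2 :=
        Real.logb_le_logb_of_le (by norm_num) h2 h1
    _ = 1 := Real.logb_self_eq_one (by norm_num)

theorem two_rpow_aex {c : ℝ} (hc : 0 < c) (hc2 : c ≤ 1 / 2) : (2 : ℝ) ^ aex c = (1 - c)⁻¹ := by
  unfold aex
  exact Real.rpow_logb (by norm_num) (by norm_num) (inv_pos.2 (by linarith))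

theorem HX_pow_aux {p : I} {c : ℝ} {N1 N2 : ℤ} (h : Rsw p c N1 N2) (hc2 : c ≤ 1 / 2) (z : P2) (n : ℕ) :
    ∀ s R : ℤ, 1 ≤ s → R ≤ N2 → (R - s).toNat ≤ n →
      (nu p).real (HX z s R) ≤ 2 * (((s : ℝ) + 1) / (R + 1)) ^ aex c ∨ R < s := by
  have hc := h.pos
  induction n with
  | zero =>
    intro s R hs hR hn
    by_cases h1 : R < s
    · exact Or.inr h1
    · left
      have h2 : R = s := by omega
      subst h2
      have h3 : (0 : ℝ) < (R : ℝ) + 1 := by
        have : (1 : ℝ) ≤ R := by exact_mod_cast hs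
        linarith
      rw [div_self h3.ne', Real.one_rpow]
      exact measureReal_le_one.trans (by norm_num)
  | succ n ih =>
    intro s R hs hR hn
    by_cases h1 : R < s
    · exact Or.inr h1
    left
    have hs0 : (1 : ℝ) ≤ s := by exact_mod_cast hs
    have hR0 : (s : ℝ) ≤ R := by exact_mod_cast (not_lt.1 h1)
    have hRp : (0 : ℝ) < (R : ℝ) + 1 := by linarith
    by_cases h2 : 2 * s + 1 ≤ R
    · have h3 := HX_step h z hs (by omega) h2
      rcases ih (2 * s + 1) R (by omega) hR (by omega) with h4 | h4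
      · refine h3.trans ?_
        have h5 : ((((2 * s + 1 : ℤ) : ℝ) + 1) / (R + 1)) ^ aex c =
            (1 - c)⁻¹ * (((s : ℝ) + 1) / (R + 1)) ^ aex c := by
          rw [← two_rpow_aex hc hc2, ← Real.mul_rpow (by norm_num) (by positivity)]
          congr 1
          push_cast
          ring
        rw [h5] at h4
        have h6 : 0 < 1 - c := by linarith
        calc (1 - c) * (nu p).real (HX z (2 * s + 1) R)
            ≤ (1 - c) * (2 * ((1 - c)⁻¹ * (((s : ℝ) + 1) / (R + 1)) ^ aex c)) :=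
              mul_le_mul_of_nonneg_left h4 h6.le
          _ = 2 * (((s : ℝ) + 1) / (R + 1)) ^ aex c := by
              field_simp
      · omega
    · have h3 : (1 : ℝ) / 2 ≤ ((s : ℝ) + 1) / (R + 1) := by
        rw [div_le_div_iff₀ (by norm_num) hRp]
        have : (R : ℝ) ≤ 2 * s := by exact_mod_cast (show R ≤ 2 * s by omega)
        linarith
      have h4 : ((1 : ℝ) / 2) ^ aex c ≤ (((s : ℝ) + 1) / (R + 1)) ^ aex c :=
        Real.rpow_le_rpow (by norm_num) h3 (aex_pos hc hc2).le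
      have h5 : ((1 : ℝ) / 2) ^ aex c = 1 - c := by
        rw [one_div, Real.inv_rpow (by norm_num), two_rpow_aex hc hc2, inv_inv]
      have h6 : (nu p).real (HX z s R) ≤ 1 := measureReal_le_one
      linarith

/-- **One arm in the half annulus.** -/
theorem HX_pow {p : I} {c : ℝ} {N1 N2 : ℤ} (h : Rsw p c N1 N2) (hc2 : c ≤ 1 / 2) (z : P2) {s R : ℤ}
    (hs : 1 ≤ s) (hsR : s ≤ R) (hR : R ≤ N2) :
    (nu p).real (HX z s R) ≤ 4 * ((s : ℝ) / R) ^ aex c := by
  have hc := h.pos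
  rcases HX_pow_aux h hc2 z _ s R hs hR le_rfl with h1 | h1
  · refine h1.trans ?_
    have hs0 : (1 : ℝ) ≤ s := by exact_mod_cast hs
    have hR0 : (s : ℝ) ≤ R := by exact_mod_cast hsR
    have hsp : (0 : ℝ) < s := by linarith
    have hRp : (0 : ℝ) < R := by linarith
    have hq : (0 : ℝ) ≤ (s : ℝ) / R := by positivity
    have h2 : ((s : ℝ) + 1) / (R + 1) ≤ 2 * (s / R) := by
      rw [← mul_div_assoc, div_le_div_iff₀ (by linarith) (by linarith)]
      nlinarith
    have h3 : (((s : ℝ) + 1) / (R + 1)) ^ aex c ≤ (2 * (s / R)) ^ aex c :=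
      Real.rpow_le_rpow (by positivity) h2 (aex_pos hc hc2).le
    rw [Real.mul_rpow (by norm_num) (by positivity)] at h3
    have h4 : (2 : ℝ) ^ aex c ≤ 2 := by
      calc (2 : ℝ) ^ aex c ≤ 2 ^ (1 : ℝ) :=
            Real.rpow_le_rpow_of_exponent_le (by norm_num) (aex_le_one hc hc2)
        _ = 2 := Real.rpow_one _
    have h5 : 0 ≤ ((s : ℝ) / R) ^ aex c := by positivity
    nlinarith
  · omega

/-! ### segment form -/

/-- `z` is joined to distance `R` in the half box, and is the rightmost bottom site of its cluster -/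
def SegE (z : P2) (R : ℤ) : Set Cf :=
  {y | (∃ v ∈ Sp z R, OC y (HA z 0 R) z v) ∧ ∀ x : ℤ, z.1 < x → ¬ OC y (HA z 0 R) (x, z.2) z}

theorem segE_dep (z : P2) (R : ℤ) : Dep (EI (HA z 0 R)) (SegE z R) := by
  intro y y' h
  have h1 : ∀ a b, OC y (HA z 0 R) a b ↔ OC y' (HA z 0 R) a b := fun a b => oc_dep _ a b y y' h
  simp only [SegE, Set.mem_ofPred_eq, h1]

theorem segE_shift (p : I) (z a : P2) (R : ℤ) :
    (nu p).real (SegE (z + a) R) = (nu p).real (SegE z R) := by
  rw [← (syT a).prob p (segE_dep z R).measurableSet]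
  congr 1
  ext y
  have key : ∀ u v : P2, OC (fun e => y ((syT a).E e)) (HA z 0 R) u v ↔
      OC y (HA (z + a) 0 R) (u + a) (v + a) := by
    intro u v
    exact (syT a).oc_iff (fun v => by
      show v ∈ HA z 0 R ↔ v + a ∈ HA (z + a) 0 R
      rw [mem_HA, mem_HA, sd_add, Prod.snd_add, Prod.snd_add]
      omega)
  constructor
  · rintro ⟨⟨v, hv, h1⟩, h2⟩
    refine ⟨⟨v - a, ?_, ?_⟩, fun x hx h3 => h2 (x + a.1) ?_ ?_⟩
    · have : sd (z + a) v = R := hv
      show sd z (v - a) = R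
      rw [← sd_add a, sub_add_cancel]
      exact this
    · rw [key, sub_add_cancel]
      exact h1
    · rw [Prod.fst_add]
      omega
    · rw [key] at h3
      exact h3
  · rintro ⟨⟨v, hv, h1⟩, h2⟩
    refine ⟨⟨v + a, ?_, ?_⟩, fun x hx h3 => h2 (x - a.1) ?_ ?_⟩
    · show sd (z + a) (v + a) = R
      rw [sd_add]
      exact hv
    · rw [key] at h1
      exact h1
    · rw [Prod.fst_add] at hx
      omega
    · rw [key]
      have : ((x - a.1, z.2) : P2) + a = (x, (z + a).2) := by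
        ext <;> simp
      rw [this]
      exact h3

theorem EN_ge (w : Edge → I) (S : Finset P2) (F : Set P2) {e : ℝ} (l : List P2) :
    ∀ l0 : List P2, l.Pairwise (fun a b => b.1 < a.1) → (∀ y ∈ l0, ∀ x ∈ l, x.1 < y.1) →
      (∀ x ∈ l, ∀ l' : List P2, (∀ y ∈ l', x.1 < y.1 ∧ (y ∈ l0 ∨ y ∈ l)) →
        e ≤ (PB w).real (First S F l' x)) →
      l.length * e ≤ EN w S F l0 l := by
  induction l with
  | nil => intro l0 _ _ _; simp [EN]
  | cons a l ih =>
    intro l0 hp h0 he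
    rw [List.pairwise_cons] at hp
    have h1 := ih (a :: l0) hp.2 (by
      intro y hy x hx
      rcases List.mem_cons.1 hy with rfl | hy
      · exact hp.1 x hx
      · exact h0 y hy x (List.mem_cons_of_mem _ hx)) (by
      intro x hx l' hl'
      refine he x (List.mem_cons_of_mem _ hx) l' fun y hy => ?_
      obtain ⟨h2, h3⟩ := hl' y hy
      refine ⟨h2, ?_⟩
      rcases h3 with h3 | h3
      · rcases List.mem_cons.1 h3 with rfl | h3
        · exact Or.inr List.mem_cons_self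
        · exact Or.inl h3
      · exact Or.inr (List.mem_cons_of_mem _ h3))
    have h2 := he a List.mem_cons_self l0 fun y hy =>
      ⟨h0 y hy a List.mem_cons_self, Or.inl hy⟩
    simp only [EN, List.length_cons]
    push_cast
    linarith

/-- **Segment form of the half-plane two arms**, dyadic form. -/
theorem segE_count {p : I} {c : ℝ} {N1 N2 : ℤ} (h : Rsw p c N1 N2) (z : P2) (m : ℕ) (hm : 1 ≤ m)
    (hN : (m : ℤ) ≤ N2) :
    (2 * m + 1 : ℝ) * (nu p).real (SegE z (4 * m)) ≤ 1 / c := by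
  set l : List P2 := (List.range (2 * m + 1)).map fun k : ℕ => (z.1 + (m : ℤ) - (k : ℤ), z.2) with hl
  have hlen : l.length = 2 * m + 1 := by simp [hl]
  have hmem : ∀ x ∈ l, x.2 = z.2 ∧ z.1 - m ≤ x.1 ∧ x.1 ≤ z.1 + m := by
    intro x hx
    rw [hl, List.mem_map] at hx
    obtain ⟨k, hk, rfl⟩ := hx
    rw [List.mem_range] at hk
    refine ⟨rfl, ?_, ?_⟩
    · simp only; omega
    · simp only; omega
  have hpair : l.Pairwise (fun a b => b.1 < a.1) := by
    rw [hl, List.pairwise_map]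
    refine List.pairwise_lt_range.imp fun {a b} hab => ?_
    simp only
    omega
  have h1 : l.length * (nu p).real (SegE z (4 * m)) ≤
      EN (fun _ => p) (HA z 0 (2 * m)) (Sp z (2 * m)) [] l := by
    refine EN_ge _ _ _ l [] hpair (by simp) ?_
    intro x hx l' hl'
    obtain ⟨hx2, hx1, hx1'⟩ := hmem x hx
    have hxz : x = z + (x - z) := by simp
    have h2 : (nu p).real (SegE x (4 * m)) = (nu p).real (SegE z (4 * m)) := by
      conv_lhs => rw [hxz]
      exact segE_shift p z (x - z) _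
    rw [← h2]
    refine measureReal_mono ?_
    rintro y ⟨⟨v, hv, h3⟩, h4⟩
    have hsub : ((HA z 0 (2 * m) : Finset P2) : Set P2) ⊆ (HA x 0 (4 * m) : Finset P2) := by
      intro t ht
      have ht' := mem_HA.1 ht
      have h5 := sd_le.1 ht'.2.2
      refine mem_HA.2 ⟨by omega, sd_nonneg' _ _, sd_le.2 ⟨by omega, by omega, by omega, by omega⟩⟩
    have hxz0 : sd z x ≤ m := sd_le.2 ⟨by omega, by omega, by omega, by omega⟩
    have hvz : 2 * (m : ℤ) ≤ sd z v := by
      have h5 : sd x v = 4 * m := hv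
      have h6 : 4 * (m : ℤ) ≤ sd x v := h5.ge
      rw [le_sd] at h6 ⊢
      omega
    constructor
    · obtain ⟨w, h5, h6⟩ := first_hit_sd (z := z) (k := 2 * m) h3 (by omega) hvz
      refine ⟨w, h5, h6.monoS ?_⟩
      rintro t ⟨ht1, ht2⟩
      have ht1' := mem_HA.1 ht1
      have ht2' : sd z t ≤ 2 * m := ht2
      exact mem_HA.2 ⟨by omega, sd_nonneg' _ _, ht2'⟩
    · intro y' hy' h5
      obtain ⟨h6, h7⟩ := hl' y' hy'
      have h8 : y'.2 = z.2 := by
        rcases h7 with h7 | h7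
        · simp at h7
        · exact (hmem y' h7).1
      refine h4 y'.1 h6 ?_
      have h9 : ((y'.1, x.2) : P2) = y' := by
        ext
        · rfl
        · simp only; omega
      rw [h9]
      exact h5.monoS hsub
  have h2 : (PB fun _ : Edge => p).real (Some1 (HA z 0 (2 * m)) (Sp z (2 * m)) l) ≤ 1 - c := by
    refine le_trans (measureReal_mono ?_) (h.hx z m (by omega) hN)
    rintro y ⟨x, hx, v, hv, h3⟩
    obtain ⟨hx2, hx1, hx1'⟩ := hmem x hx
    have hv' : sd z v = 2 * m := hv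
    obtain ⟨w, h4, h5, _⟩ := last_exit (sd z) (sd_nbr z) m h3
      (sd_le.2 ⟨by omega, by omega, by omega, by omega⟩) (by omega)
    refine ⟨w, h4, v, hv, h5.monoS ?_⟩
    rintro t ⟨ht1, ht2⟩
    have ht1' := mem_HA.1 ht1
    have ht2' : (m : ℤ) ≤ sd z t := ht2
    exact mem_HA.2 ⟨by omega, ht2', by omega⟩
  have h3 := EN_le (fun _ => p) (q := 1 - c) (by linarith [h.pos]) (Sp z (2 * m)) l
    (HA z 0 (2 * m)) h2
  have hc := h.pos
  rw [hlen] at h1
  push_cast at h1
  refine h1.trans (h3.trans ?_)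
  rw [sub_sub_cancel]
  apply div_le_div_of_nonneg_right measureReal_le_one hc.le

theorem segE_mono (z : P2) {R R' : ℤ} (hR : 0 ≤ R') (h : R' ≤ R) : SegE z R ⊆ SegE z R' := by
  rintro y ⟨⟨v, hv, h3⟩, h4⟩
  have hsub : ((HA z 0 R' : Finset P2) : Set P2) ⊆ (HA z 0 R : Finset P2) := by
    exact_mod_cast HA_mono le_rfl h
  constructor
  · have hv' : sd z v = R := hv
    obtain ⟨w, h5, h6⟩ := first_hit_sd (z := z) (k := R') h3 (by
      have : sd z z ≤ 0 := sd_le.2 ⟨by omega, by omega, by omega, by omega⟩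
      omega) (by omega)
    refine ⟨w, h5, h6.monoS ?_⟩
    rintro t ⟨ht1, ht2⟩
    have ht1' := mem_HA.1 ht1
    have ht2' : sd z t ≤ R' := ht2
    exact mem_HA.2 ⟨by omega, sd_nonneg' _ _, ht2'⟩
  · intro x hx h5
    exact h4 x hx (h5.monoS hsub)

/-- **Segment form of the half-plane two arms.** -/
theorem segE_le {p : I} {c : ℝ} {N1 N2 : ℤ} (h : Rsw p c N1 N2) (z : P2) {R : ℤ} (hR : 1 ≤ R)
    (hN : R ≤ N2) : (nu p).real (SegE z R) ≤ 4 / (c * R) := by
  have hc := h.pos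
  have hc1 := h.c_lt_one (hR.trans hN)
  have hR0 : (1 : ℝ) ≤ R := by exact_mod_cast hR
  by_cases h4 : R < 4
  · refine measureReal_le_one.trans ?_
    rw [le_div_iff₀ (by positivity), one_mul]
    have h5 : (R : ℝ) ≤ 4 := by exact_mod_cast h4.le
    nlinarith
  · obtain ⟨m, hm⟩ : ∃ m : ℕ, (m : ℤ) = R / 4 := ⟨(R / 4).toNat, by omega⟩
    have h5 := segE_count h z m (by omega) (by omega)
    have h6 : (nu p).real (SegE z R) ≤ (nu p).real (SegE z (4 * m)) :=
      measureReal_mono (segE_mono z (by omega) (by omega))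
    refine h6.trans ?_
    have h7 : (R : ℝ) ≤ 4 * (2 * m + 1) := by
      have : R ≤ 4 * (2 * m + 1) := by omega
      exact_mod_cast this
    rw [le_div_iff₀ (by positivity)]
    rw [le_div_iff₀ hc] at h5
    have h8 : 0 ≤ (nu p).real (SegE z (4 * m)) := measureReal_nonneg
    nlinarith [mul_nonneg h8 hc.le]

end Crest.Agent.R158.Hp814
end
end

-- ▼ part R158/Hp4_814

/-!
# Row 158, Block HP (helper814): half-plane two arms (ball form) and three arms

* `missR_le`, `missL_le` : `P(some crossing cluster of the half annulus misses the right (left) part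
  of the bottom side) ≤ 40 c⁻³ s / R`
* `TTh`, `TWh` : two distinct crossing clusters / a crossing cluster missing the flat side
* `two_arm : P(TTh ∪ TWh) ≤ C s / R`, `three_arm : P(TTh) ≤ C (s/R)^(1+a)`
-/

set_option autoImplicit false

noncomputable section

namespace Crest.Agent.R158.Hp814

open MeasureTheory ProbabilityTheory unitInterval
open Crest.Agent.R161.Geo729 Crest.Agent.R161.Topo374 Crest.Agent.R161.Dual374
open Crest.Agent.R161.Tas682 Crest.Agent.R158.Rs689 Crest.Agent.R161.Sym597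

open Classical in
/-- list of the inner boundary sites -/
def innL (z : P2) (s R : ℤ) : List P2 := ((HA z s R).filter fun x => x ∈ Inn z s).toList

theorem mem_innL {z : P2} {s R : ℤ} {x : P2} : x ∈ innL z s R ↔ x ∈ HA z s R ∧ x ∈ Inn z s := by
  classical
  simp [innL]

/-- some crossing cluster misses the right part of the bottom side -/
def MissR (z : P2) (s R : ℤ) : Set Cf := Miss (HA z s R) (Sp z R) (BR z s R) (innL z s R)

/-- some crossing cluster misses the left part of the bottom side -/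
def MissL (z : P2) (s R : ℤ) : Set Cf := Miss (HA z s R) (Sp z R) (BL z s R) (innL z s R)

theorem mem_missR {z : P2} {s R : ℤ} {y : Cf} : y ∈ MissR z s R ↔
    ∃ x ∈ Inn z s, ∃ v ∈ Sp z R, OC y (HA z s R) x v ∧ ∀ b ∈ BR z s R, ¬ OC y (HA z s R) b x := by
  constructor
  · rintro ⟨x, hx, v, hv, h⟩
    exact ⟨x, (mem_innL.1 hx).2, v, hv, h⟩
  · rintro ⟨x, hx, v, hv, h⟩
    exact ⟨x, mem_innL.2 ⟨h.1.left, hx⟩, v, hv, h⟩

theorem mem_missL {z : P2} {s R : ℤ} {y : Cf} : y ∈ MissL z s R ↔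
    ∃ x ∈ Inn z s, ∃ v ∈ Sp z R, OC y (HA z s R) x v ∧ ∀ b ∈ BL z s R, ¬ OC y (HA z s R) b x := by
  constructor
  · rintro ⟨x, hx, v, hv, h⟩
    exact ⟨x, (mem_innL.1 hx).2, v, hv, h⟩
  · rintro ⟨x, hx, v, hv, h⟩
    exact ⟨x, mem_innL.2 ⟨h.1.left, hx⟩, v, hv, h⟩

theorem miss_dep (S : Finset P2) (F B : Set P2) (l : List P2) : Dep (EI S) (Miss S F B l) := by
  intro y y' h
  have h1 : ∀ a b, OC y S a b ↔ OC y' S a b := fun a b => oc_dep _ a b y y' h
  simp only [Miss, Set.mem_ofPred_eq, h1]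

/-- a cluster of `BL` sites reaches distance `R`, and no cluster of these sites reaches `BR` -/
def F1 (z : P2) (s R : ℤ) : Set Cf :=
  {y | (∃ u ∈ BL z s (2 * s), ∃ v ∈ Sp z R, OC y (HA z s R) u v) ∧
    ∀ u ∈ BL z s (2 * s), ∀ b ∈ BR z s R, ¬ OC y (HA z s R) b u}

theorem oc_enter {y : Cf} {S W : Set P2} {u w : P2} (h : OC y S u w) (hu : u ∉ W) (hw : w ∈ W) :
    ∃ a b, OC y (S \ W) u a ∧ b ∈ W ∧ Nbr a b := by
  obtain ⟨huS, h⟩ := h
  have key : (∃ a b, OC y (S \ W) u a ∧ b ∈ W ∧ Nbr a b) ∨ OC y (S \ W) u w := by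
    clear hw
    induction h with
    | refl => exact Or.inr (OC.refl ⟨huS, hu⟩)
    | @tail b c h1 h2 ih =>
      rcases ih with ih | ih
      · exact Or.inl ih
      · by_cases hc : c ∈ W
        · exact Or.inl ⟨b, c, ih, hc, pstep_nbr h2.1⟩
        · exact Or.inr ⟨ih.1, ih.2.tail ⟨h2.1, ih.right, ⟨h2.2.2, hc⟩⟩⟩
  rcases key with h1 | h1
  · exact h1
  · exact absurd hw h1.right.2

theorem cl_walk {y : Cf} {S : Finset P2} {L : Set P2} {v : P2} (hv : v ∈ Cl y S L) :
    ∃ u ∈ L, u ∈ S ∧ Walk (Cl y S L : Set P2) u v := by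
  have h := hv
  rw [mem_Cl] at h
  obtain ⟨u, hu, h1⟩ := h
  refine ⟨u, hu, h1.left, (h1.walk).mono ?_⟩
  rintro t ⟨ht, _⟩
  show t ∈ Cl y S L
  rw [mem_Cl]
  exact ⟨u, hu, ht⟩

theorem BR_sub {z : P2} {s s' R R' : ℤ} (hs : s' ≤ s) (hR : R ≤ R') : BR z s R ⊆ BR z s' R' := by
  rintro v ⟨h1, h2, h3⟩
  exact ⟨h1, by omega, by omega⟩

theorem BL_sub {z : P2} {s s' R R' : ℤ} (hs : s' ≤ s) (hR : R ≤ R') : BL z s R ⊆ BL z s' R' := by
  rintro v ⟨h1, h2, h3⟩
  exact ⟨h1, by omega, by omega⟩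



/-- **Step 1.** The crossing cluster which misses `BR` can be joined to the bottom-left side. -/
theorem step1 (p : I) (z : P2) {s R : ℤ} (hs : 1 ≤ s) (hR : 2 * s ≤ R) :
    (nu p).real (MissR z s R) * (nu p).real (HO z s) ≤ (nu p).real (F1 z s R) := by
  classical
  set A := HA z s R with hA
  set B := BR z s R with hB
  set X : Finset P2 → Set Cf := fun W => Some1 (A \ W) (Sp z R) (innL z s R) with hX
  set O : Finset P2 → Set Cf := fun W => EV ((A \ W) ∩ HA z s (2 * s) : Finset P2)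
    (BL z s (2 * s)) {a | ∃ b ∈ W, Nbr a b} with hO
  have hXd : ∀ W, Dep (EI (A \ W)) (X W) := fun W => some1_dep _ _ _
  have hOd : ∀ W, Dep (EI (A \ W)) (O W) := fun W =>
    (ev_dep ((A \ W) ∩ HA z s (2 * s)) _ _).mono (EI_mono Finset.inter_subset_left)
  have e1 : (nu p).real (MissR z s R) =
      ∑ W ∈ A.powerset, (PB fun _ => p).real {y | Cl y A B = W} * (PB fun _ => p).real (X W) := by
    rw [← expl_sum (fun _ => p) A B X hXd]
    congr 1
    ext y
    exact miss_iff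
  have e2 : ∀ W ∈ A.powerset, (PB fun _ => p).real {y | Cl y A B = W} *
      (PB fun _ => p).real (X W) * (nu p).real (HO z s) ≤
      (PB fun _ => p).real {y | Cl y A B = W} * (PB fun _ => p).real (X W ∩ O W) := by
    intro W _
    by_cases hW : ∃ y0, Cl y0 A B = W
    swap
    · have : {y : Cf | Cl y A B = W} = ∅ := by
        ext y
        simp only [Set.mem_ofPred_eq, Set.mem_empty_iff_false, iff_false]
        exact fun h => hW ⟨y, h⟩
      rw [this]
      simp
    obtain ⟨y0, hy0⟩ := hW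
    rw [mul_assoc]
    refine mul_le_mul_of_nonneg_left ?_ measureReal_nonneg
    by_cases hU : ∃ u ∈ BL z s (2 * s), u ∈ W
    · obtain ⟨u, hu, huW⟩ := hU
      have h0 : X W = ∅ := by
        ext y
        simp only [Set.mem_empty_iff_false, iff_false]
        rintro ⟨x, hx, v, hv, h1⟩
        rw [← hy0] at huW
        obtain ⟨b, hb, hbA, hw⟩ := cl_walk huW
        have h2 := half_cross hs hw.symm h1.walk (fun t ht => Cl_sub ht) (fun t ht => by
          have := ht.2
          simp only [Finset.coe_sdiff, Set.mem_sdiff, Finset.mem_coe] at this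
          exact this.1) (BL_sub le_rfl hR hu) hb (mem_innL.1 hx).2 hv
        obtain ⟨t, ht1, ht2⟩ := h2
        have h3 := ht2.2
        simp only [Finset.coe_sdiff, Set.mem_sdiff, Finset.mem_coe] at h3
        exact h3.2 (hy0 ▸ ht1)
      rw [h0]
      simp
    · push Not at hU
      have h1 : (nu p).real (HO z s) ≤ (PB fun _ => p).real (O W) := by
        refine measureReal_mono ?_
        rintro y ⟨u, hu, w, hw, h1⟩
        have hwW : w ∈ W := by
          rw [← hy0, mem_Cl]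
          exact ⟨w, BR_sub le_rfl hR hw, OC.refl (HA_mono le_rfl hR h1.right)⟩
        obtain ⟨a, b, h2, h3, h4⟩ := oc_enter (W := (W : Set P2)) h1 (hU u hu) hwW
        refine ⟨u, hu, a, ⟨b, h3, h4⟩, h2.monoS ?_⟩
        rintro t ⟨ht1, ht2⟩
        simp only [Finset.coe_inter, Finset.coe_sdiff, Set.mem_inter_iff, Set.mem_sdiff,
          Finset.mem_coe]
        exact ⟨⟨HA_mono le_rfl hR ht1, ht2⟩, ht1⟩
      calc (PB fun _ => p).real (X W) * (nu p).real (HO z s)
          ≤ (PB fun _ => p).real (X W) * (PB fun _ => p).real (O W) :=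
            mul_le_mul_of_nonneg_left h1 measureReal_nonneg
        _ ≤ _ := harris _ (hXd W) (hOd W) (ev_inc _ _ _) (ev_inc _ _ _)
  have e3 := expl_ge (fun _ => p) A B (F1 z s R) (fun W => X W ∩ O W)
    (fun W => (hXd W).inter (hOd W)) (by
    rintro y ⟨⟨x, hx, v, hv, h1⟩, u, hu, a, ⟨b, hbW, hab⟩, h2⟩
    set W := Cl y A B with hW
    have h2' : OC y (A \ W : Finset P2) u a := h2.monoS (by
      intro t ht
      simp only [Finset.coe_inter, Set.mem_inter_iff] at ht
      exact ht.1)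
    obtain ⟨w, hw, hwA, hwalk⟩ := cl_walk hbW
    have hwm : ∀ t, t ∈ ((A \ W : Finset P2) : Set P2) → t ∈ A ∧ t ∉ W := by
      intro t ht
      simpa using ht
    -- the walk from the bottom left to the bottom right
    have w1 : Walk ({t | OC y (A \ W : Finset P2) u t ∧ t ∈ ((A \ W : Finset P2) : Set P2)} ∪
        (W : Set P2)) u w := by
      have e1 := h2'.walk.mono (T' := {t | OC y (A \ W : Finset P2) u t ∧
        t ∈ ((A \ W : Finset P2) : Set P2)} ∪ (W : Set P2)) Set.subset_union_left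
      have e2 := hwalk.symm.mono (T' := {t | OC y (A \ W : Finset P2) u t ∧
        t ∈ ((A \ W : Finset P2) : Set P2)} ∪ (W : Set P2)) Set.subset_union_right
      exact (e1.trans (Walk.step e1.right e2.left hab)).trans e2
    obtain ⟨t, ht1, ht2⟩ := half_cross hs w1 h1.walk (by
      rintro t (ht | ht)
      · exact (hwm t ht.2).1
      · exact Cl_sub ht) (fun t ht => (hwm t ht.2).1) (BL_sub le_rfl hR hu) hw
      (mem_innL.1 hx).2 hv
    have h5 : OC y (A \ W : Finset P2) u t := by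
      rcases ht1 with ht1 | ht1
      · exact ht1.1
      · exact absurd ht1 (hwm t ht2.2).2
    have h6 : OC y (A \ W : Finset P2) u v := (h5.trans ht2.1.symm).trans h1
    refine ⟨⟨u, hu, v, hv, oc_sdiff h6⟩, ?_⟩
    intro u' hu' b' hb' h7
    -- the cluster of `u'` would separate
    obtain ⟨t', ht3, ht4⟩ := half_cross hs h7.symm.walk h1.walk (fun t ht => ht.2)
      (fun t ht => (hwm t ht.2).1) (BL_sub le_rfl hR hu') hb' (mem_innL.1 hx).2 hv
    have h8 : OC y A b' t' := h7.trans ht3.1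
    exact (hwm t' ht4.2).2 (mem_Cl.2 ⟨b', hb', h8⟩))
  rw [e1, Finset.sum_mul]
  exact (Finset.sum_le_sum e2).trans e3

/-- a site of `BL z s (2s)` is joined to distance `R` in the half box, but to no bottom site on the
right of `z.1 + 2 s` -/
def F2 (z : P2) (s R : ℤ) : Set Cf :=
  {y | ∃ u ∈ BL z s (2 * s), (∃ v ∈ Sp z R, OC y (HA z 0 R) u v) ∧
    ∀ x : ℤ, z.1 + 2 * s < x → ¬ OC y (HA z 0 R) (x, z.2) u}

/-- **Step 2.** -/
theorem step2 {p : I} {c : ℝ} (z : P2) {s R : ℤ} (hs : 1 ≤ s) (hR : 2 * s ≤ R)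
    (hc : (nu p).real (HX z s (2 * s)) ≤ 1 - c) :
    (nu p).real (F1 z s R) * c ≤ (nu p).real (F2 z s R) := by
  classical
  set A := HA z s R with hA
  set B := BL z s (2 * s) with hB
  set Q : Finset P2 → Prop := fun W => (∃ v ∈ Sp z R, v ∈ W) ∧ ∀ b ∈ BR z s R, b ∉ W with hQ
  set Y : Finset P2 → Set Cf := fun W => if Q W then
    (EV (HA z s (2 * s) \ W : Finset P2) (Sp z s) (Sp z (2 * s)))ᶜ else ∅ with hY
  have hAsub : ∀ W, HA z s (2 * s) \ W ⊆ A \ W := fun W =>
    Finset.sdiff_subset_sdiff (HA_mono le_rfl hR) (Finset.Subset.refl _)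
  have hYd : ∀ W, Dep (EI (A \ W)) (Y W) := by
    intro W
    simp only [hY]
    split_ifs
    · exact ((ev_dep (HA z s (2 * s) \ W) _ _).mono (EI_mono (hAsub W))).compl
    · intro z z' _; rfl
  have e1 : (nu p).real (F1 z s R) = ∑ W ∈ A.powerset,
      (PB fun _ => p).real {y | Cl y A B = W} * (if Q W then 1 else 0) := by
    rw [sum_Cl (fun _ => p) A B Q]
    congr 1
    ext y
    simp only [F1, hQ, Set.mem_ofPred_eq, mem_Cl]
    constructor
    · rintro ⟨⟨u, hu, v, hv, h1⟩, h2⟩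
      refine ⟨⟨v, hv, u, hu, h1⟩, ?_⟩
      rintro b hb ⟨u', hu', h3⟩
      exact h2 u' hu' b hb h3.symm
    · rintro ⟨⟨v, hv, u, hu, h1⟩, h2⟩
      refine ⟨⟨u, hu, v, hv, h1⟩, ?_⟩
      intro u' hu' b hb h3
      exact h2 b hb ⟨u', hu', h3.symm⟩
  have e2 : ∀ W ∈ A.powerset, (PB fun _ => p).real {y | Cl y A B = W} *
      (if Q W then 1 else 0) * c ≤
      (PB fun _ => p).real {y | Cl y A B = W} * (PB fun _ => p).real (Y W) := by
    intro W _
    rw [mul_assoc]
    refine mul_le_mul_of_nonneg_left ?_ measureReal_nonneg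
    simp only [hY]
    split_ifs
    · rw [one_mul, probReal_compl_eq_one_sub (ev_dep _ _ _).measurableSet]
      have h1 : (PB fun _ : Edge => p).real
          (EV (HA z s (2 * s) \ W : Finset P2) (Sp z s) (Sp z (2 * s))) ≤
          (nu p).real (HX z s (2 * s)) := by
        refine measureReal_mono ?_
        refine EV_mono ?_ subset_rfl subset_rfl
        simp
      linarith
    · simp
  have e3 := expl_ge (fun _ => p) A B (F2 z s R) Y hYd (by
    intro y hy
    set W := Cl y A B with hW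
    simp only [hY] at hy
    split_ifs at hy with hq
    swap
    · exact absurd hy (by simp)
    obtain ⟨⟨v, hv, hvW⟩, hq2⟩ := hq
    rw [hW, mem_Cl] at hvW
    obtain ⟨u, hu, h1⟩ := hvW
    have hAD : ((A : Finset P2) : Set P2) ⊆ (HA z 0 R : Finset P2) := by
      exact_mod_cast HA_mono (by omega) le_rfl
    refine ⟨u, hu, ⟨v, hv, h1.monoS hAD⟩, ?_⟩
    intro x hx h2
    have hxD := mem_HA.1 h2.left
    have hxB : ((x, z.2) : P2) ∈ BR z s R := by
      have := sd_le.1 hxD.2.2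
      exact ⟨rfl, by simp only; omega, by simp only at this ⊢; omega⟩
    have hxW := hq2 _ hxB
    have hxs : 2 * s ≤ sd z (x, z.2) := by
      rw [le_sd]
      simp only
      omega
    have hmemA : ∀ t, t ∈ ((HA z 0 R : Finset P2) : Set P2) ∩ {q | s ≤ sd z q} → t ∈ A := by
      rintro t ⟨ht1, ht2⟩
      have h3 := mem_HA.1 ht1
      have h4 : s ≤ sd z t := ht2
      exact mem_HA.2 ⟨h3.1, h4, h3.2.2⟩
    rcases oc_stay (sd z) s h2 with h3 | ⟨t, ht, h3⟩
    · apply hxW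
      rw [hW, mem_Cl]
      exact ⟨u, hu, (h3.monoS (fun t ht => hmemA t ht)).symm⟩
    · obtain ⟨w', h4, h5, _⟩ := last_exit (sd z) (sd_nbr z) s h3.symm (by omega) (by omega)
      have h6 : OC y A w' (x, z.2) := h5.monoS (fun t ht => hmemA t ht)
      have h7 : w' ∉ Cl y A B := fun h8 => hxW (Cl_step h8 h6)
      have h8 := oc_out h7 h6
      obtain ⟨w'', h9, h10⟩ := first_hit_sd (z := z) (k := 2 * s) h8 (by omega) hxs
      apply hy
      refine ⟨w', h4, w'', h9, h10.monoS ?_⟩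
      rintro t ⟨ht1, ht2⟩
      simp only [Finset.coe_sdiff, Set.mem_sdiff, Finset.mem_coe] at ht1 ⊢
      have ht3 : sd z t ≤ 2 * s := ht2
      have ht4 := mem_HA.1 ht1.1
      exact ⟨mem_HA.2 ⟨ht4.1, ht4.2.1, ht3⟩, ht1.2⟩)
  rw [e1, Finset.sum_mul]
  exact (Finset.sum_le_sum e2).trans e3

/-- **Step 3.** -/
theorem step3 (z : P2) {s R : ℤ} (hR : 4 * s ≤ R) (hR0 : 0 ≤ R) :
    F2 z s R ⊆ ⋃ i ∈ Finset.Icc (-(2 * s)) (2 * s), SegE (z.1 + i, z.2) (R - 2 * s) := by
  classical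
  rintro y ⟨u, hu, ⟨v, hv, h1⟩, h2⟩
  obtain ⟨hu2, hu1, hu1'⟩ := hu
  set J : Finset ℤ := (Finset.Icc (-R) R).filter fun i => OC y (HA z 0 R) u (z.1 + i, z.2) with hJ
  have hJm : ∀ i, i ∈ J ↔ OC y (HA z 0 R) u (z.1 + i, z.2) := by
    intro i
    simp only [hJ, Finset.mem_filter, Finset.mem_Icc, and_iff_right_iff_imp]
    intro h3
    have h4 := sd_le.1 (mem_HA.1 h3.right).2.2
    simp only at h4
    omega
  have hu' : u = (z.1 + (u.1 - z.1), z.2) := by
    ext
    · simp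
    · exact hu2
  have huJ : u.1 - z.1 ∈ J := by
    rw [hJm, ← hu']
    exact OC.refl h1.left
  have hne : J.Nonempty := ⟨_, huJ⟩
  set i := J.max' hne with hi
  have hiJ : i ∈ J := J.max'_mem hne
  have hmax : ∀ j ∈ J, j ≤ i := fun j hj => J.le_max' j hj
  have hi1 : u.1 - z.1 ≤ i := hmax _ huJ
  have hi2 : i ≤ 2 * s := by
    by_contra h3
    exact h2 (z.1 + i) (by omega) ((hJm i).1 hiJ).symm
  simp only [Set.mem_iUnion, Finset.mem_Icc]
  refine ⟨i, ⟨by omega, hi2⟩, ?_⟩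
  have h3 : OC y (HA z 0 R) (z.1 + i, z.2) v := ((hJm i).1 hiJ).symm.trans h1
  have hv' : sd z v = R := hv
  have hvs : R - 2 * s ≤ sd (z.1 + i, z.2) v := by
    have h4 : R ≤ sd z v := hv'.ge
    rw [le_sd] at h4 ⊢
    simp only
    omega
  constructor
  · obtain ⟨w, h5, h6⟩ := first_hit_sd (z := ((z.1 + i, z.2) : P2)) (k := R - 2 * s) h3 (by
      have : sd ((z.1 + i, z.2) : P2) (z.1 + i, z.2) ≤ 0 :=
        sd_le.2 ⟨by omega, by omega, by omega, by omega⟩
      omega) hvs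
    refine ⟨w, h5, h6.monoS ?_⟩
    rintro t ⟨ht1, ht2⟩
    have ht1' := mem_HA.1 ht1
    have ht2' : sd ((z.1 + i, z.2) : P2) t ≤ R - 2 * s := ht2
    exact mem_HA.2 ⟨ht1'.1, sd_nonneg' _ _, ht2'⟩
  · intro x hx h5
    have hsub : ((HA (z.1 + i, z.2) 0 (R - 2 * s) : Finset P2) : Set P2) ⊆
        (HA z 0 R : Finset P2) := by
      intro t ht
      have ht' := mem_HA.1 ht
      have h6 := sd_le.1 ht'.2.2
      simp only at h6 ht'
      exact mem_HA.2 ⟨ht'.1, sd_nonneg' _ _, sd_le.2 ⟨by omega, by omega, by omega, by omega⟩⟩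
    have h6 : OC y (HA z 0 R) u (x, z.2) := ((hJm i).1 hiJ).trans (h5.monoS hsub).symm
    have h7 : x - z.1 ∈ J := by
      rw [hJm]
      have : ((z.1 + (x - z.1), z.2) : P2) = (x, z.2) := by
        ext <;> simp
      rw [this]
      exact h6
    have := hmax _ h7
    simp only at hx
    omega

/-- **Half-plane two arms, ball form.** -/
theorem missR_le {p : I} {c : ℝ} {N1 N2 : ℤ} (h : Rsw p c N1 N2) (z : P2) {s R : ℤ} (hs : 1 ≤ s)
    (hsR : s ≤ R) (hsN : s ≤ N1) (hN : R ≤ N2) :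
    (nu p).real (MissR z s R) ≤ 40 / c ^ 3 * ((s : ℝ) / R) := by
  have hc := h.pos
  have hc1 := h.c_lt_one (by omega)
  have hs0 : (1 : ℝ) ≤ s := by exact_mod_cast hs
  have hR0 : (s : ℝ) ≤ R := by exact_mod_cast hsR
  have hRp : (0 : ℝ) < R := by linarith
  have hc3 : c ^ 3 ≤ 1 := pow_le_one₀ hc.le hc1
  by_cases h4 : 4 * s ≤ R
  · have h1 := step1 p z hs (by omega : 2 * s ≤ R)
    have h2 := step2 (p := p) (c := c) z hs (by omega : 2 * s ≤ R) (h.hx z s hs (by omega))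
    have h3 : (nu p).real (F2 z s R) ≤ (4 * s + 1) * (4 / (c * (R - 2 * s : ℤ))) := by
      refine (measureReal_mono (step3 z h4 (by omega)) (measure_ne_top _ _)).trans ?_
      refine (measureReal_biUnion_finset_le _ _).trans ?_
      refine (Finset.sum_le_card_nsmul _ _ (4 / (c * (R - 2 * s : ℤ))) fun i _ =>
        segE_le h _ (by omega) (by omega)).trans ?_
      rw [Int.card_Icc, nsmul_eq_mul]
      refine le_of_eq ?_
      congr 1
      have : (((2 * s + 1 - -(2 * s)).toNat : ℕ) : ℤ) = 4 * s + 1 := by omega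
      exact_mod_cast this
    have h5 := h.ho z s hs hsN
    have h6 : 0 ≤ (nu p).real (MissR z s R) := measureReal_nonneg
    have h7 : (nu p).real (MissR z s R) * c ^ 2 ≤ (4 * s + 1) * (4 / (c * (R - 2 * s : ℤ))) := by
      calc (nu p).real (MissR z s R) * c ^ 2 = (nu p).real (MissR z s R) * c * c := by ring
        _ ≤ (nu p).real (MissR z s R) * (nu p).real (HO z s) * c := by
            gcongr
        _ ≤ (nu p).real (F1 z s R) * c := mul_le_mul_of_nonneg_right h1 hc.le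
        _ ≤ _ := h2.trans h3
    have h8 : (4 * (s : ℝ) + 1) * (4 / (c * (R - 2 * s : ℤ))) ≤ 40 * s / (c * R) := by
      have h9 : (R : ℝ) / 2 ≤ ((R - 2 * s : ℤ) : ℝ) := by
        push_cast
        have : (4 : ℝ) * s ≤ R := by exact_mod_cast h4
        linarith
      have h10 : (0 : ℝ) < R / 2 := by positivity
      have h12 : (0 : ℝ) < ((R - 2 * s : ℤ) : ℝ) := lt_of_lt_of_le h10 h9
      have h13 : 4 * (s : ℝ) + 1 ≤ 5 * s := by linarith
      calc (4 * (s : ℝ) + 1) * (4 / (c * (R - 2 * s : ℤ)))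
          ≤ (5 * s) * (4 / (c * (R / 2))) := by
            gcongr
        _ = 40 * s / (c * R) := by
            field_simp
            ring
    rw [← mul_div_assoc, ← mul_div_right_comm, div_div, le_div_iff₀ (by positivity)]
    have h11 := h7.trans h8
    rw [le_div_iff₀ (by positivity)] at h11
    calc (nu p).real (MissR z s R) * (c ^ 3 * (R : ℝ)) =
        (nu p).real (MissR z s R) * c ^ 2 * (c * (R : ℝ)) := by ring
      _ ≤ 40 * (s : ℝ) := h11
  · refine measureReal_le_one.trans ?_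
    have h5 : (R : ℝ) ≤ 4 * s := by exact_mod_cast (show R ≤ 4 * s by omega)
    rw [← mul_div_assoc, ← mul_div_right_comm, div_div, le_div_iff₀ (by positivity), one_mul]
    nlinarith

/-! ### reflection -/

/-- reflection in the vertical line through `z` -/
def syV (z : P2) : Sy := syR (Refl.vert (2 * z.1))

theorem syV_V (z v : P2) : (syV z).V v = (2 * z.1 - v.1, v.2) := rfl

theorem sd_syV (z v : P2) : sd z ((syV z).V v) = sd z v := by
  rw [syV_V]
  unfold sd
  simp only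
  have : 2 * z.1 - v.1 - z.1 = -(v.1 - z.1) := by ring
  rw [this, abs_neg]

theorem syV_VV (z v : P2) : (syV z).V ((syV z).V v) = v := by
  rw [syV_V, syV_V]
  ext
  · simp
  · rfl

theorem missL_eq (p : I) (z : P2) (s R : ℤ) :
    (nu p).real (MissL z s R) = (nu p).real (MissR z s R) := by
  have hm : MeasurableSet (MissR z s R) := (miss_dep _ _ _ _).measurableSet
  rw [← (syV z).prob p hm]
  congr 1
  ext y
  have hS : ∀ v, v ∈ ((HA z s R : Finset P2) : Set P2) ↔
      (syV z).V v ∈ ((HA z s R : Finset P2) : Set P2) := by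
    intro v
    rw [Finset.mem_coe, Finset.mem_coe, mem_HA, mem_HA, sd_syV]
    exact Iff.rfl
  have key : ∀ u v : P2, OC (fun e => y ((syV z).E e)) (HA z s R) u v ↔
      OC y (HA z s R) ((syV z).V u) ((syV z).V v) := fun u v => (syV z).oc_iff hS
  have hSp : ∀ v, v ∈ Sp z R → (syV z).V v ∈ Sp z R := by
    intro v hv
    show sd z _ = R
    rw [sd_syV]
    exact hv
  have hInn : ∀ v, v ∈ Inn z s → (syV z).V v ∈ Inn z s := by
    rintro v ⟨h1, u, h2, h3, h4⟩
    refine ⟨by rw [sd_syV]; exact h1, (syV z).V u, ?_, by rw [sd_syV]; exact h3, h4⟩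
    rw [syV_V, syV_V]
    unfold Nbr at h2 ⊢
    simp only
    omega
  have hRL : ∀ v, v ∈ BR z s R → (syV z).V v ∈ BL z s R := by
    rintro v ⟨h1, h2, h3⟩
    rw [syV_V]
    exact ⟨h1, by simp only; omega, by simp only; omega⟩
  have hLR : ∀ v, v ∈ BL z s R → (syV z).V v ∈ BR z s R := by
    rintro v ⟨h1, h2, h3⟩
    rw [syV_V]
    exact ⟨h1, by simp only; omega, by simp only; omega⟩
  rw [mem_missL]
  simp only [Set.mem_ofPred_eq, mem_missR, key]
  constructor
  · rintro ⟨x, hx, v, hv, h1, h2⟩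
    refine ⟨(syV z).V x, hInn x hx, (syV z).V v, hSp v hv, ?_, ?_⟩
    · rw [syV_VV, syV_VV]
      exact h1
    · intro b hb h3
      rw [syV_VV] at h3
      exact h2 _ (hRL b hb) h3
  · rintro ⟨x, hx, v, hv, h1, h2⟩
    refine ⟨(syV z).V x, hInn x hx, (syV z).V v, hSp v hv, h1, ?_⟩
    intro b hb h3
    refine h2 ((syV z).V b) (hLR b hb) ?_
    rw [syV_VV]
    exact h3

theorem missL_le {p : I} {c : ℝ} {N1 N2 : ℤ} (h : Rsw p c N1 N2) (z : P2) {s R : ℤ} (hs : 1 ≤ s)
    (hsR : s ≤ R) (hsN : s ≤ N1) (hN : R ≤ N2) :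
    (nu p).real (MissL z s R) ≤ 40 / c ^ 3 * ((s : ℝ) / R) := by
  rw [missL_eq]
  exact missR_le h z hs hsR hsN hN

/-! ### two crossing clusters -/

/-- two distinct crossing clusters of the half annulus -/
def TTh (z : P2) (s R : ℤ) : Set Cf :=
  {y | ∃ x ∈ Sp z s, ∃ v ∈ Sp z R, ∃ x' ∈ Sp z s, ∃ v' ∈ Sp z R, OC y (HA z s R) x v ∧
    OC y (HA z s R) x' v' ∧ ¬ OC y (HA z s R) x x'}

/-- a crossing cluster of the half annulus which misses the flat side -/
def TWh (z : P2) (s R : ℤ) : Set Cf :=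
  {y | ∃ x ∈ Sp z s, ∃ v ∈ Sp z R, OC y (HA z s R) x v ∧
    ∀ b : P2, b.2 = z.2 → ¬ OC y (HA z s R) b x}

/-- restriction of a crossing to `HA z (s+1) R` -/
theorem cross_shrink {y : Cf} {z : P2} {s R : ℤ} (hsR : s + 1 ≤ R) {x v : P2} (hx : x ∈ Sp z s)
    (hv : v ∈ Sp z R) (h : OC y (HA z s R) x v) :
    ∃ w ∈ Inn z (s + 1), OC y (HA z (s + 1) R) w v ∧ OC y (HA z s R) x w := by
  have hx' : sd z x = s := hx
  have hv' : sd z v = R := hv
  obtain ⟨w, h1, h2, h3⟩ := last_exit_inn (z := z) (k := s + 1) h (by omega) (by omega)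
    (fun t ht => (mem_HA.1 ht).1)
  refine ⟨w, h1, h2.monoS ?_, h3⟩
  rintro t ⟨ht1, ht2⟩
  have ht1' := mem_HA.1 ht1
  have ht2' : s + 1 ≤ sd z t := ht2
  exact mem_HA.2 ⟨ht1'.1, ht2', ht1'.2.2⟩

theorem TWh_sub {z : P2} {s R : ℤ} (hsR : s + 1 ≤ R) : TWh z s R ⊆ MissR z (s + 1) R := by
  rintro y ⟨x, hx, v, hv, h1, h2⟩
  obtain ⟨w, hw, h3, h4⟩ := cross_shrink hsR hx hv h1
  rw [mem_missR]
  refine ⟨w, hw, v, hv, h3, ?_⟩
  intro b hb h5
  have hsub : ((HA z (s + 1) R : Finset P2) : Set P2) ⊆ (HA z s R : Finset P2) := by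
    exact_mod_cast HA_mono (by omega) le_rfl
  exact h2 b hb.1 ((h5.monoS hsub).trans h4.symm)

theorem TTh_sub {z : P2} {s R : ℤ} (hs : 0 ≤ s) (hsR : s + 1 ≤ R) : TTh z s R ⊆
    Two (HA z (s + 1) R) (Sp z R) (BR z (s + 1) R) (innL z (s + 1) R) ∪
    Two (HA z (s + 1) R) (Sp z R) (BL z (s + 1) R) (innL z (s + 1) R) := by
  rintro y ⟨x, hx, v, hv, x', hx', v', hv', h1, h1', h2⟩
  obtain ⟨w, hw, h3, h4⟩ := cross_shrink hsR hx hv h1
  obtain ⟨w', hw', h3', h4'⟩ := cross_shrink hsR hx' hv' h1'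
  have hsub : ((HA z (s + 1) R : Finset P2) : Set P2) ⊆ (HA z s R : Finset P2) := by
    exact_mod_cast HA_mono (by omega) le_rfl
  have hne : ¬ OC y (HA z (s + 1) R) w w' := by
    intro h5
    exact h2 ((h4.trans (h5.monoS hsub)).trans h4'.symm)
  have hwl : w ∈ innL z (s + 1) R := mem_innL.2 ⟨h3.left, hw⟩
  have hwl' : w' ∈ innL z (s + 1) R := mem_innL.2 ⟨h3'.left, hw'⟩
  by_cases hb : ∀ b ∈ BR z (s + 1) R, ¬ OC y (HA z (s + 1) R) b w
  · left
    exact ⟨w, hwl, v, hv, h3, hb, w', hwl', v', hv', h3', hne⟩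
  · right
    refine ⟨w, hwl, v, hv, h3, ?_, w', hwl', v', hv', h3', hne⟩
    push Not at hb
    obtain ⟨b, hb, hbw⟩ := hb
    intro a ha haw
    have h6 : OC y (HA z (s + 1) R) a b := haw.trans hbw.symm
    obtain ⟨t, ht1, ht2⟩ := half_cross (by omega : 1 ≤ s + 1) h6.walk h3'.walk (fun t ht => ht.2)
      (fun t ht => ht.2) ha hb hw' hv'
    exact hne ((haw.symm.trans ht1.1).trans ht2.1.symm)

theorem some1_sub {z : P2} {s R : ℤ} : Some1 (HA z s R) (Sp z R) (innL z s R) ⊆ HX z s R := by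
  rintro y ⟨x, hx, v, hv, h⟩
  exact ⟨x, (mem_innL.1 hx).2.1, v, hv, h⟩

theorem two_sub_miss {S : Finset P2} {F B : Set P2} {l : List P2} : Two S F B l ⊆ Miss S F B l := by
  rintro y ⟨x, hx, v, hv, h1, h2, _⟩
  exact ⟨x, hx, v, hv, h1, h2⟩

theorem ratio_bound {s R : ℝ} (hs : 1 ≤ s) (hR : 0 < R) : (s + 1) / R ≤ 2 * (s / R) := by
  rw [← mul_div_assoc, div_le_div_iff_of_pos_right hR]
  linarith

/-- **Half-plane two arms.** -/
theorem two_arm {p : I} {c : ℝ} {N1 N2 : ℤ} (h : Rsw p c N1 N2) (z : P2) {s R : ℤ} (hs : 1 ≤ s)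
    (hsR : s ≤ R) (hsN : s + 1 ≤ N1) (hN : R ≤ N2) :
    (nu p).real (TTh z s R ∪ TWh z s R) ≤ 160 / c ^ 3 * ((s : ℝ) / R) := by
  have hc := h.pos
  have hc1 := h.c_lt_one (by omega)
  have hs0 : (1 : ℝ) ≤ s := by exact_mod_cast hs
  have hR0 : (s : ℝ) ≤ R := by exact_mod_cast hsR
  have hRp : (0 : ℝ) < R := by linarith
  have hc3 : c ^ 3 ≤ 1 := pow_le_one₀ hc.le hc1
  by_cases h4 : s + 1 ≤ R
  · have h1 : TTh z s R ∪ TWh z s R ⊆ MissR z (s + 1) R ∪ MissL z (s + 1) R := by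
      rintro y (hy | hy)
      · rcases TTh_sub (by omega) h4 hy with hy | hy
        · exact Or.inl (two_sub_miss hy)
        · exact Or.inr (two_sub_miss hy)
      · exact Or.inl (TWh_sub h4 hy)
    have h2 := missR_le h z (by omega : 1 ≤ s + 1) h4 hsN hN
    have h3 := missL_le h z (by omega : 1 ≤ s + 1) h4 hsN hN
    have h5 := ratio_bound hs0 hRp
    push_cast at h2 h3
    have h6 : 0 ≤ 40 / c ^ 3 := by positivity
    calc (nu p).real (TTh z s R ∪ TWh z s R)
        ≤ (nu p).real (MissR z (s + 1) R) + (nu p).real (MissL z (s + 1) R) :=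
          (measureReal_mono h1).trans (measureReal_union_le _ _)
      _ ≤ 80 / c ^ 3 * (((s : ℝ) + 1) / R) := by
          have : 80 / c ^ 3 * (((s : ℝ) + 1) / R) =
            40 / c ^ 3 * (((s : ℝ) + 1) / R) + 40 / c ^ 3 * (((s : ℝ) + 1) / R) := by ring
          linarith
      _ ≤ 80 / c ^ 3 * (2 * ((s : ℝ) / R)) := mul_le_mul_of_nonneg_left h5 (by positivity)
      _ = _ := by ring
  · refine measureReal_le_one.trans ?_
    have h5 : s = R := by omega
    rw [h5, div_self hRp.ne', mul_one, le_div_iff₀ (by positivity)]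
    linarith

/-- **Half-plane three arms.** -/
theorem three_arm {p : I} {c : ℝ} {N1 N2 : ℤ} (h : Rsw p c N1 N2) (hc2 : c ≤ 1 / 2) (z : P2) {s R : ℤ}
    (hs : 1 ≤ s) (hsR : s ≤ R) (hsN : s + 1 ≤ N1) (hN : R ≤ N2) :
    (nu p).real (TTh z s R) ≤ 1280 / c ^ 4 * ((s : ℝ) / R) ^ (1 + aex c) := by
  have hc := h.pos
  have hs0 : (1 : ℝ) ≤ s := by exact_mod_cast hs
  have hR0 : (s : ℝ) ≤ R := by exact_mod_cast hsR
  have hsp : (0 : ℝ) < s := by linarith
  have hRp : (0 : ℝ) < R := by linarith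
  have hc4 : c ^ 4 ≤ 1 := pow_le_one₀ hc.le (by linarith)
  have ha := aex_pos hc hc2
  have ha1 := aex_le_one hc hc2
  have hq : 0 < (s : ℝ) / R := by positivity
  by_cases h4 : 2 * (s + 1) ≤ R
  · set S := HA z (s + 1) R
    set l := innL z (s + 1) R
    have h1 : (nu p).real (Some1 S (Sp z R) l) ≤ 1 - c :=
      (measureReal_mono (some1_sub.trans (HX_sub le_rfl (by omega) h4))).trans
        (h.hx z (s + 1) (by omega) (by omega))
    have h2 : (nu p).real (Some1 S (Sp z R) l) ≤ 4 * (((s + 1 : ℤ) : ℝ) / R) ^ aex c :=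
      (measureReal_mono some1_sub).trans (HX_pow h hc2 z (by omega) (by omega) hN)
    have h3 := two_le (fun _ => p) (q := 1 - c) (by linarith) S (Sp z R) (BR z (s + 1) R) l h1
    have h3' := two_le (fun _ => p) (q := 1 - c) (by linarith) S (Sp z R) (BL z (s + 1) R) l h1
    rw [sub_sub_cancel] at h3 h3'
    have h5 := missR_le h z (by omega : 1 ≤ s + 1) (by omega : s + 1 ≤ R) hsN hN
    have h6 := missL_le h z (by omega : 1 ≤ s + 1) (by omega : s + 1 ≤ R) hsN hN
    push_cast at h2 h5 h6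
    have h7 := ratio_bound hs0 hRp
    set t : ℝ := (s : ℝ) / R with ht
    have h8 : (((s : ℝ) + 1) / R) ^ aex c ≤ 2 * t ^ aex c := by
      calc (((s : ℝ) + 1) / R) ^ aex c ≤ (2 * t) ^ aex c :=
            Real.rpow_le_rpow (by positivity) h7 ha.le
        _ = 2 ^ aex c * t ^ aex c := Real.mul_rpow (by norm_num) hq.le
        _ ≤ 2 * t ^ aex c := by
            refine mul_le_mul_of_nonneg_right ?_ (by positivity)
            calc (2 : ℝ) ^ aex c ≤ 2 ^ (1 : ℝ) :=
                  Real.rpow_le_rpow_of_exponent_le (by norm_num) ha1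
              _ = 2 := Real.rpow_one _
    have h9 : (nu p).real (Some1 S (Sp z R) l) ≤ 8 * t ^ aex c := by linarith
    have key : ∀ M : ℝ, 0 ≤ M → M ≤ 40 / c ^ 3 * (((s : ℝ) + 1) / R) →
        M / c * (nu p).real (Some1 S (Sp z R) l) ≤ 640 / c ^ 4 * (t * t ^ aex c) := by
      intro M hM0 hM
      have h10 : M ≤ 80 / c ^ 3 * t := by
        refine hM.trans ?_
        calc 40 / c ^ 3 * (((s : ℝ) + 1) / R) ≤ 40 / c ^ 3 * (2 * t) :=
              mul_le_mul_of_nonneg_left h7 (by positivity)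
          _ = 80 / c ^ 3 * t := by ring
      calc M / c * (nu p).real (Some1 S (Sp z R) l)
          ≤ (80 / c ^ 3 * t) / c * (8 * t ^ aex c) := by
            gcongr
        _ = 640 / c ^ 4 * (t * t ^ aex c) := by
            field_simp
            ring
    have h10 : (nu p).real (TTh z s R) ≤
        (nu p).real (Two S (Sp z R) (BR z (s + 1) R) l) +
        (nu p).real (Two S (Sp z R) (BL z (s + 1) R) l) :=
      (measureReal_mono (TTh_sub (by omega) (by omega))).trans (measureReal_union_le _ _)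
    have h11 := h3.trans (key _ measureReal_nonneg h5)
    have h12 := h3'.trans (key _ measureReal_nonneg h6)
    rw [Real.rpow_add hq, Real.rpow_one]
    have h13 : 1280 / c ^ 4 * (t * t ^ aex c) =
        640 / c ^ 4 * (t * t ^ aex c) + 640 / c ^ 4 * (t * t ^ aex c) := by ring
    rw [h13]
    exact h10.trans (add_le_add h11 h12)
  · refine measureReal_le_one.trans ?_
    have h5 : (R : ℝ) ≤ 4 * s := by exact_mod_cast (show R ≤ 4 * s by omega)
    have h6 : (1 : ℝ) / 4 ≤ (s : ℝ) / R := by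
      rw [div_le_div_iff₀ (by norm_num) hRp]
      linarith
    have h7 : (s : ℝ) / R ≤ 1 := by
      rw [div_le_one hRp]
      exact hR0
    have h8 : ((1 : ℝ) / 4) ^ (2 : ℝ) ≤ ((s : ℝ) / R) ^ (1 + aex c) := by
      calc ((1 : ℝ) / 4) ^ (2 : ℝ) ≤ ((s : ℝ) / R) ^ (2 : ℝ) :=
            Real.rpow_le_rpow (by norm_num) h6 (by norm_num)
        _ ≤ ((s : ℝ) / R) ^ (1 + aex c) :=
            Real.rpow_le_rpow_of_exponent_ge hq h7 (by linarith)
    have h9 : ((1 : ℝ) / 4) ^ (2 : ℝ) = 1 / 16 := by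
      rw [Real.rpow_two]
      norm_num
    rw [h9] at h8
    have h10 : (1280 : ℝ) ≤ 1280 / c ^ 4 := by
      rw [le_div_iff₀ (by positivity)]
      nlinarith
    nlinarith

end Crest.Agent.R158.Hp814
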