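import Crest.Agent.R158.It4_200
import Crest.Agent.R161.Tas1_682
import Crest.Agent.R158.Ru2_874
import Crest.Agent.R158.Cpl2_963
import Crest.Agent.R158.Kd2_458

-- ▼ part R158/Sq1_200
section

/-!
# Row 158, SEP leaf S1 (helper200): four-arm duality in a rectangle

`dual4`: `e = vw` an edge of the rectangle `B`, `v` and `w` both joined to the boundary of `B` by open edges of
`B` other than `e`, but not joined to each other.  Then both faces of `e` are joined to faces outside `B`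
across closed edges of `B` other than `e`.
-/

set_option autoImplicit false

noncomputable section

namespace Crest.Agent.R158.Sq200

open Crest.Agent.R161.Geo729 Crest.Agent.R161.Dual374 Crest.Agent.R161.Tas682
open Crest.Agent.R158.It200

/-- the edge has both endpoints in `S` -/
def InE (S : Set P2) (e : Edge) : Prop := src e ∈ S ∧ tgt e ∈ S

/-- the face (lower-left corner `f`) is outside the rectangle -/
def OutF (x0 x1 y0 y1 : ℤ) (f : P2) : Prop := ¬ (x0 ≤ f.1 ∧ f.1 < x1 ∧ y0 ≤ f.2 ∧ f.2 < y1)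

/-- boundary vertices of the rectangle -/
def BdV (x0 x1 y0 y1 : ℤ) (v : P2) : Prop := v.1 = x0 ∨ v.1 = x1 ∨ v.2 = y0 ∨ v.2 = y1

/-- open connection in `S` off the edge `e` -/
def OCe (z : Cf) (S : Set P2) (e : Edge) (u v : P2) : Prop :=
  Relation.ReflTransGen (PStep (fun e' => z e' = true ∧ e' ≠ e ∧ InE S e')) u v

/-- dual connection across closed edges of `S` off the edge `e` -/
def DCe (z : Cf) (S : Set P2) (e : Edge) (f g : P2) : Prop :=
  Relation.ReflTransGen (DStep (fun e' => z e' = false ∧ e' ≠ e ∧ InE S e')) f g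

theorem iter_of_mem {z : Cfz} {c d : Corner} (hfin : (Lp z c).Finite) (h : d ∈ Lp z c) :
    ∃ n : ℕ, (nx z)^[n] c = d := by
  obtain ⟨n, hn⟩ := (sc_iff_pow (f := nxE z) hfin).1 h
  refine ⟨n, ?_⟩
  rw [← hn, ← Equiv.Perm.iterate_eq_pow]
  rfl

theorem iter_mem_Lp (z : Cfz) (c : Corner) (n : ℕ) : (nx z)^[n] c ∈ Lp z c := by
  induction n with
  | zero => exact mem_Lp_self z c
  | succ n ih => rw [Function.iterate_succ_apply']; exact nx_mem_Lp.2 ih

theorem src_ne_tgt (e : Edge) : src e ≠ tgt e := by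
  obtain ⟨⟨x, y⟩, s⟩ := e
  cases s <;> simp [src, tgt]

theorem eq_of_ah {d i : Corner} (h : ah d = ah i) (h1 : d.1 = i.1) : d = i := by
  rcases (ah_eq_iff d (ah i)).1 h with h2 | h2 <;> rcases (ah_eq_iff i (ah i)).1 rfl with h3 | h3
  · rw [h2, ← h3]
  · exfalso
    rw [h2, h3] at h1
    simp only [fst_i1, ah_i2, fst_i2] at h1
    exact src_ne_tgt _ h1
  · exfalso
    rw [h2, h3] at h1
    simp only [fst_i1, ah_i1, fst_i2] at h1
    exact src_ne_tgt _ h1.symm
  · rw [h2, ← h3]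

/-- a boundary vertex has a corner whose face is outside and touches an outside vertex -/
theorem bd_corner {x0 x1 y0 y1 : ℤ} {b : P2} (hb : BdV x0 x1 y0 y1 b) :
    ∃ (q q' : Fin 4) (v' : P2), v' ∉ Rect x0 x1 y0 y1 ∧ fc (b, q) = fc (v', q') ∧
      OutF x0 x1 y0 y1 (fc (b, q)) := by
  obtain ⟨a, b⟩ := b
  rcases hb with h | h | h | h
  · refine ⟨3, 0, (a - 1, b), ?_, ?_, ?_⟩
    · simp only [Rect, Set.mem_setOf_eq]; simp only at h; omega
    · simp [fc]
    · simp only [OutF, fc]; simp only at h; omega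
  · refine ⟨0, 3, (a + 1, b), ?_, ?_, ?_⟩
    · simp only [Rect, Set.mem_setOf_eq]; simp only at h; omega
    · simp [fc]
    · simp only [OutF, fc]; simp only at h; omega
  · refine ⟨1, 0, (a, b - 1), ?_, ?_, ?_⟩
    · simp only [Rect, Set.mem_setOf_eq]; simp only at h; omega
    · simp [fc]
    · simp only [OutF, fc]; simp only at h; omega
  · refine ⟨0, 1, (a, b + 1), ?_, ?_, ?_⟩
    · simp only [Rect, Set.mem_setOf_eq]; simp only at h; omega
    · simp [fc]
    · simp only [OutF, fc]; simp only at h; omega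

/-- all edges of an inside face are inside -/
theorem inE_of_face {x0 x1 y0 y1 : ℤ} {d : Corner} (h : ¬ OutF x0 x1 y0 y1 (fc d)) :
    InE (Rect x0 x1 y0 y1) (ah d) := by
  obtain ⟨⟨a, b⟩, q⟩ := d
  simp only [OutF, not_not] at h
  fin_cases q <;> simp [fc] at h <;> simp [InE, ah, Rect, src, tgt] <;> omega

theorem JL_01 (z : Cfz) (c d : Corner) : JL z c d = 0 ∨ JL z c d = 1 := by
  by_cases h : d ∈ Lp z c
  · exact Or.inr (JL_mem h)
  · exact Or.inl (JL_not_mem h)

/-- one half of the four-arm duality, at an incoming corner `i` of the edge `ah i` -/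
theorem dual4_half {z : Cf} {x0 x1 y0 y1 : ℤ} {i : Corner} {a b : P2}
    (ha : BdV x0 x1 y0 y1 a) (hb : BdV x0 x1 y0 y1 b)
    (h1 : OCe z (Rect x0 x1 y0 y1) (ah i) i.1 a) (h2 : OCe z (Rect x0 x1 y0 y1) (ah i) (wa i) b)
    (hi : i.1 ∈ Rect x0 x1 y0 y1)
    (hn : ¬ OCe z (Rect x0 x1 y0 y1) (ah i) i.1 (wa i)) :
    ∃ f', OutF x0 x1 y0 y1 f' ∧ DCe z (Rect x0 x1 y0 y1) (ah i) (fc (nxc i)) f' := by
  classical
  set B := Rect x0 x1 y0 y1 with hB
  set e := ah i with he
  set z1 : Cf := fun e' => if e' ≠ e ∧ InE B e' then z e' else false with hz1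
  have hz1t : ∀ e', z1 e' = true ↔ z e' = true ∧ e' ≠ e ∧ InE B e' := by
    intro e'
    simp only [hz1]
    split_ifs with h
    · exact ⟨fun h' => ⟨h', h⟩, fun h' => h'.1⟩
    · exact ⟨fun h' => by simp at h', fun h' => absurd h'.2 h⟩
  have hcl : ∀ u w, Relation.ReflTransGen (PStep (fun e' => z1 e' = true)) u w ↔ OCe z B e u w := by
    intro u w
    unfold OCe
    simp only [hz1t]
  have hOB : ∀ u w, u ∈ B → OCe z B e u w → w ∈ B := by
    intro u w hu hw
    induction hw with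
    | refl => exact hu
    | tail _ hs _ =>
        obtain ⟨e', ⟨_, _, h3⟩, ⟨_, rfl⟩ | ⟨_, rfl⟩⟩ := hs
        · exact h3.2
        · exact h3.1
  have hBfin : B.Finite := by
    have : B ⊆ (Set.Icc x0 x1) ×ˢ (Set.Icc y0 y1) := by
      intro v hv
      simp only [hB, Rect, Set.mem_setOf_eq] at hv
      simp only [Set.mem_prod, Set.mem_Icc]
      omega
    exact ((Set.finite_Icc x0 x1).prod (Set.finite_Icc y0 y1)).subset this
  have hclB : OCl z1 i.1 ⊆ B := fun w hw => hOB _ _ hi ((hcl _ _).1 hw)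
  obtain ⟨c, hc, hfin, hval⟩ := outer_open (z := z1) (v := i.1) (hBfin.subset hclB)
  have hsym : ∀ {u w : P2}, Relation.ReflTransGen (PStep (fun e' => z1 e' = true)) u w →
      Relation.ReflTransGen (PStep (fun e' => z1 e' = true)) w u :=
    fun h => rtg_symm (fun _ _ h => PStep.symm h) h
  have hLv : ∀ d ∈ Lp z1 c, d.1 ∈ OCl z1 i.1 := fun d hd =>
    Relation.ReflTransGen.trans hc (Lp_v d hd)
  have hsupp : ∀ d, JL z1 c d ≠ 0 → x0 ≤ d.1.1 ∧ d.1.1 ≤ x1 ∧ y0 ≤ d.1.2 ∧ d.1.2 ≤ y1 := by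
    intro d hd
    have : d ∈ Lp z1 c := by
      by_contra h
      exact hd (JL_not_mem h)
    have h3 := hclB (hLv d this)
    simpa [hB, Rect] using h3
  have hout : ∀ v', v' ∉ B → hv z1 c v' = 0 := by
    intro v' hv'
    refine Hv_out (JL_fs hfin) (JL_inv z1 c).cons hsupp ?_
    simp only [hB, Rect, Set.mem_setOf_eq] at hv'
    omega
  -- boundary vertices with height `-1`
  have hbd : ∀ b, BdV x0 x1 y0 y1 b → hv z1 c b = -1 →
      ∃ d ∈ Lp z1 c, d.1 = b ∧ OutF x0 x1 y0 y1 (fc d) := by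
    intro b hb hvb
    obtain ⟨q, q', v', hv', hf', hof⟩ := bd_corner hb
    have g1 := hv_grad hfin (b, q)
    have g2 := hv_grad hfin (v', q')
    rw [← hf', hout v' hv'] at g2
    have h3 : JL z1 c (v', q') = 0 := by
      by_contra h
      have := hsupp _ h
      simp only [hB, Rect, Set.mem_setOf_eq] at hv'
      exact hv' this
    rw [h3] at g2
    simp only at g1
    rw [hvb] at g1
    have h4 : JL z1 c (b, q) = 1 := by linarith
    refine ⟨(b, q), ?_, rfl, hof⟩
    by_contra h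
    rw [JL_not_mem h] at h4
    exact absurd h4 (by norm_num)
  have hInv := JL_inv z1 c
  have hFs := JL_fs hfin
  -- heights at the two endpoints
  have hvi : hv z1 c i.1 = -1 := hval _ .refl
  have hnw : wa i ∉ OCl z1 i.1 := fun h => hn ((hcl _ _).1 h)
  have hvw : hv z1 c (wa i) ≠ -1 := by
    intro h
    have h3 : hv z1 c b = -1 := by
      have := hInv.hv_path hFs ((hcl _ _).2 h2)
      unfold hv at h ⊢
      rw [← this, h]
    obtain ⟨d, hd, hdb, _⟩ := hbd b hb h3
    apply hnw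
    have h4 := hLv d hd
    rw [hdb] at h4
    exact Relation.ReflTransGen.trans h4 (hsym ((hcl _ _).2 h2))
  have hvw0 : hv z1 c (wa i) = 0 := by
    rcases sg_cases hfin with ⟨_, _, h3, _⟩ | ⟨_, _, h3, _⟩
    · exact (h3 (wa i)).resolve_left hvw
    · exfalso
      have := h3 i.1
      rw [hvi] at this
      omega
  -- the corner `i` is on the strand
  have hiL : i ∈ Lp z1 c := by
    have g1 := hv_grad hfin i
    have g2 := hv_grad hfin (nxo i)
    rw [fc_nxo, fst_nxo, hvw0] at g2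
    rw [hvi] at g1
    by_contra h
    rw [JL_not_mem h] at g1
    have h3 : JL z1 c (nxo i) = -1 := by linarith
    rcases JL_01 z1 c (nxo i) with h4 | h4 <;> rw [h4] at h3 <;> omega
  have hei : z1 e = false := by
    simp only [hz1]; rw [if_neg]; rintro ⟨h, _⟩; exact h rfl
  have hnxi : nx z1 i = nxc i := nx_closed hei
  have hoL : nxc i ∈ Lp z1 c := by rw [← hnxi]; exact nx_mem_Lp.2 hiL
  have hfin' : (Lp z1 (nxc i)).Finite := by rw [Lp_eq hoL]; exact hfin
  -- the strand visits an outside face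
  have hex : ∃ n : ℕ, OutF x0 x1 y0 y1 (fc ((nx z1)^[n] (nxc i))) := by
    have h3 : hv z1 c a = -1 := by
      have := hInv.hv_path hFs ((hcl _ _).2 h1)
      unfold hv at hvi ⊢
      rw [← this, hvi]
    obtain ⟨d, hd, _, hdo⟩ := hbd a ha h3
    have : d ∈ Lp z1 (nxc i) := by rw [Lp_eq hoL]; exact hd
    obtain ⟨n, hn⟩ := iter_of_mem hfin' this
    exact ⟨n, by rw [hn]; exact hdo⟩
  set n := Nat.find hex with hndef
  have hnout : OutF x0 x1 y0 y1 (fc ((nx z1)^[n] (nxc i))) := Nat.find_spec hex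
  have hmin : ∀ j < n, ¬ OutF x0 x1 y0 y1 (fc ((nx z1)^[j] (nxc i))) := fun j hj =>
    Nat.find_min hex hj
  have hne : ∀ j < n, ah ((nx z1)^[j] (nxc i)) ≠ e := by
    intro j hj h
    have hm : (nx z1)^[j] (nxc i) ∈ Lp z1 c := by
      have := iter_mem_Lp z1 (nxc i) j
      rw [Lp_eq hoL] at this
      exact this
    have hv1 : ((nx z1)^[j] (nxc i)).1 = i.1 := by
      rcases ah_ends ((nx z1)^[j] (nxc i)) with ⟨p1, -⟩ | ⟨p1, -⟩ <;> rw [h] at p1 <;>
        rcases ah_ends i with ⟨q1, q2⟩ | ⟨q1, q2⟩ <;> rw [← he] at q1 q2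
      · rw [p1, q1]
      · exfalso; apply hnw; rw [q2, ← p1]; exact hLv _ hm
      · exfalso; apply hnw; rw [q2, ← p1]; exact hLv _ hm
      · rw [p1, q1]
    have h5 : (nx z1)^[j] (nxc i) = i := eq_of_ah (h.trans he) hv1
    have h6 : (nx z1)^[j + 1] (nxc i) = nxc i := by
      rw [Function.iterate_succ_apply', h5, hnxi]
    apply hmin (n - (j + 1)) (by omega)
    have h7 : (nx z1)^[n] (nxc i) = (nx z1)^[n - (j + 1)] (nxc i) := by
      conv_lhs => rw [show n = (n - (j + 1)) + (j + 1) by omega]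
      rw [Function.iterate_add_apply, h6]
    rw [← h7]; exact hnout
  refine ⟨_, hnout, ?_⟩
  have hp := side_f' z1 (nxc i) n
  unfold DCe
  refine Relation.ReflTransGen.mono ?_ _ _ hp
  rintro f g ⟨e', ⟨h3, j, hj, h4⟩, h5⟩
  have h6 : InE B e' := by rw [h4]; exact inE_of_face (hmin j hj)
  have h7 : e' ≠ e := by rw [h4]; exact hne j hj
  refine ⟨e', ⟨?_, h7, h6⟩, h5⟩
  simp only [hz1] at h3
  rw [if_pos ⟨h7, h6⟩] at h3
  exact h3

/-- **four-arm duality**: if the two endpoints of `e` are joined to the boundary of the rectangle, but not to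
each other, off `e`, then both faces of `e` are dual-joined to the outside, off `e`. -/
theorem dual4 {z : Cf} {x0 x1 y0 y1 : ℤ} {e : Edge} {a b : P2}
    (he : InE (Rect x0 x1 y0 y1) e)
    (ha : BdV x0 x1 y0 y1 a) (hb : BdV x0 x1 y0 y1 b)
    (h1 : OCe z (Rect x0 x1 y0 y1) e (src e) a) (h2 : OCe z (Rect x0 x1 y0 y1) e (tgt e) b)
    (hn : ¬ OCe z (Rect x0 x1 y0 y1) e (src e) (tgt e)) :
    (∃ f', OutF x0 x1 y0 y1 f' ∧ DCe z (Rect x0 x1 y0 y1) e (fA e) f') ∧
      (∃ f', OutF x0 x1 y0 y1 f' ∧ DCe z (Rect x0 x1 y0 y1) e (fB e) f') := by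
  have w1 : wa (i1 e) = tgt e := by rw [← fst_nxo, nxo_i1, fst_o2]
  have w2 : wa (i2 e) = src e := by rw [← fst_nxo, nxo_i2, fst_o1]
  have hn' : ¬ OCe z (Rect x0 x1 y0 y1) e (tgt e) (src e) := fun h =>
    hn (rtg_symm (fun _ _ h => PStep.symm h) h)
  have A := dual4_half (z := z) (i := i1 e) ha hb (by rw [ah_i1, fst_i1]; exact h1)
    (by rw [ah_i1, w1]; exact h2) (by rw [fst_i1]; exact he.1) (by rw [ah_i1, fst_i1, w1]; exact hn)
  have B := dual4_half (z := z) (i := i2 e) hb ha (by rw [ah_i2, fst_i2]; exact h2)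
    (by rw [ah_i2, w2]; exact h1) (by rw [fst_i2]; exact he.2) (by rw [ah_i2, fst_i2, w2]; exact hn')
  rw [nxc_i1, ah_i1] at A
  rw [nxc_i2, ah_i2] at B
  have hf : (fc (o1 e) = fA e ∧ fc (o2 e) = fB e) ∨ (fc (o1 e) = fB e ∧ fc (o2 e) = fA e) := by
    obtain ⟨⟨x, y⟩, s⟩ := e
    cases s <;> simp [o1, o2, fc, fA, fB]
  rcases hf with ⟨q1, q2⟩ | ⟨q1, q2⟩
  · rw [q1] at A; rw [q2] at B; exact ⟨A, B⟩
  · rw [q1] at A; rw [q2] at B; exact ⟨B, A⟩

end Crest.Agent.R158.Sq200
end
end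

-- ▼ part R158/Kd3_458

/-!
# Row 158 (helper458), SEP: deterministic lemmas on "two distinct crossing clusters"

`TT D I O` (helper874) : two distinct open clusters of `D` join `I` to `O`; `An x a b` (helper963).

* `sepA1` : two different clusters of `S` landing at `x`, `x'` : `a < sd x x'`
* `sepA2` : they stay different when the boxes of radius `s` around `x`, `x'` are opened
* `reroute` : a connection can be pushed off the box of radius `a` around `c`
* `reroute2` : off two boxes.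
-/

set_option autoImplicit false

noncomputable section

namespace Crest.Agent.R158.Kd458

open Crest.Agent.R161.Geo729 Crest.Agent.R161.Topo374 Crest.Agent.R161.Dual374
open Crest.Agent.R161.Tas682
open Crest.Agent.R158.Ru874 hiding An
open Crest.Agent.R158.Cpl963

/-- no two distinct clusters of `S ∩ An x a b` cross the annulus -/
def Gd (z : Cf) (S : Set P2) (x : P2) (a b : ℤ) : Prop :=
  z ∉ TT (S ∩ An x a b) {v | sd x v = a} {v | sd x v = b}

/-- both end points in the box of radius `s` around `x` -/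
def NB (x : P2) (s : ℤ) (e : Edge) : Prop := sd x (src e) ≤ s ∧ sd x (tgt e) ≤ s

theorem gd_join {z : Cf} {S : Set P2} {x : P2} {a b : ℤ} (hG : Gd z S x a b) (hab : a ≤ b)
    {u v u' v' : P2} (h : OC z S u v) (hu : sd x u ≤ a) (hv : b ≤ sd x v)
    (h' : OC z S u' v') (hu' : sd x u' ≤ a) (hv' : b ≤ sd x v') : OC z S u u' := by
  obtain ⟨p, q, hp, hq, h1, h2⟩ := cross_sub x hab h hu hv
  obtain ⟨p', q', hp', hq', h1', h2'⟩ := cross_sub x hab h' hu' hv'
  have : OC z (S ∩ An x a b) p p' := by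
    by_contra hn
    exact hG ⟨p, hp, q, hq, p', hp', q', hq', h1, h1', hn⟩
  exact (h2.trans (this.monoS Set.inter_subset_left)).trans h2'.symm

theorem sd_self (x : P2) : sd x x = 0 := by simp [sd]

theorem sd_symm (x y : P2) : sd x y = sd y x := by
  unfold sd
  rw [abs_sub_comm, abs_sub_comm y.2]

theorem sd_tri (x y w : P2) : sd x w ≤ sd x y + sd y w := by
  unfold sd
  have h1 : |w.1 - x.1| ≤ |y.1 - x.1| + |w.1 - y.1| := by
    calc |w.1 - x.1| = |(y.1 - x.1) + (w.1 - y.1)| := by ring_nf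
      _ ≤ _ := abs_add_le _ _
  have h2 : |w.2 - x.2| ≤ |y.2 - x.2| + |w.2 - y.2| := by
    calc |w.2 - x.2| = |(y.2 - x.2) + (w.2 - y.2)| := by ring_nf
      _ ≤ _ := abs_add_le _ _
  have h3 := le_max_left |y.1 - x.1| |y.2 - x.2|
  have h4 := le_max_right |y.1 - x.1| |y.2 - x.2|
  have h5 := le_max_left |w.1 - y.1| |w.2 - y.2|
  have h6 := le_max_right |w.1 - y.1| |w.2 - y.2|
  apply max_le <;> omega

theorem sd_nonneg (x y : P2) : 0 ≤ sd x y := by
  unfold sd
  exact le_max_of_le_left (abs_nonneg _)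

/-- **Separation of the landing points.** -/
theorem sepA1 {z : Cf} {S : Set P2} {x x' p p' : P2} {a b : ℤ} (h : OC z S x p) (h' : OC z S x' p')
    (hn : ¬ OC z S p p') (ha : 0 ≤ a) (hab : a ≤ b) (hp : b ≤ sd x p) (hp' : b ≤ sd x p')
    (hG : Gd z S x a b) : a < sd x x' := by
  by_contra hle
  push Not at hle
  have := gd_join hG hab h (by rw [sd_self]; exact ha) hp h' hle hp'
  exact hn ((h.symm.trans this).trans h')

/-- **Opening the boxes around the landing points does not join the two clusters.** -/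
theorem sepA2 {z y : Cf} {S : Set P2} {x x' p p' : P2} {s c : ℤ} (h : OC z S x p) (h' : OC z S x' p')
    (hn : ¬ OC z S p p') (hs : 0 ≤ s) (hsc : s ≤ c) (hxx : s + c ≤ sd x x')
    (hp : c ≤ sd x p) (hp' : c ≤ sd x p') (hq : c ≤ sd x' p) (hq' : c ≤ sd x' p')
    (hG : Gd z S x s c) (hG' : Gd z S x' s c)
    (hy : ∀ e, y e = true → z e = true ∨ NB x s e ∨ NB x' s e) : ¬ OC y S p p' := by
  intro hc
  -- the cluster of the first box
  set K : P2 → Prop := fun w => OC z S p w ∨ ∃ w0, sd x w0 ≤ s ∧ OC z S w0 w with hK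
  -- a connection from the first box to far away is in the cluster of `p`
  have hfar : ∀ {w0 w : P2}, sd x w0 ≤ s → OC z S w0 w → c ≤ sd x w → OC z S p w := by
    intro w0 w hw0 hc0 hw
    have := gd_join hG hsc h (by rw [sd_self]; exact hs) hp hc0 hw0 hw
    exact h.symm.trans (this.trans hc0)
  have hfar' : ∀ {w0 w : P2}, sd x' w0 ≤ s → OC z S w0 w → c ≤ sd x' w → OC z S p' w := by
    intro w0 w hw0 hc0 hw
    have := gd_join hG' hsc h' (by rw [sd_self]; exact hs) hq' hc0 hw0 hw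
    exact h'.symm.trans (this.trans hc0)
  have hKx' : ∀ w, K w → sd x' w ≤ s → False := by
    intro w hw hws
    have hw1 : OC z S p w := by
      rcases hw with hw | ⟨w0, h0, hw⟩
      · exact hw
      · apply hfar h0 hw
        have h1 := sd_tri x w x'
        rw [sd_symm w x'] at h1
        omega
    have h2 := hfar' hws hw1.symm hq
    exact hn h2.symm
  have hKp' : ¬ K p' := by
    rintro (hw | ⟨w0, h0, hw⟩)
    · exact hn hw
    · exact hn (hfar h0 hw hp')
  have hstep : ∀ w, K w → ∀ w', OStep y S w w' → K w' := by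
    rintro w hw w' ⟨⟨e, he, hh⟩, hwS, hwS'⟩
    rcases hy e he with h1 | h1 | h1
    · have hst : OStep z S w w' := ⟨⟨e, h1, hh⟩, hwS, hwS'⟩
      rcases hw with hw | ⟨w0, h0, hw⟩
      · exact Or.inl ⟨hw.1, hw.2.tail hst⟩
      · exact Or.inr ⟨w0, h0, hw.1, hw.2.tail hst⟩
    · refine Or.inr ⟨w', ?_, OC.refl hwS'⟩
      rcases hh with ⟨_, rfl⟩ | ⟨_, rfl⟩
      · exact h1.2
      · exact h1.1
    · exfalso
      apply hKx' w hw
      rcases hh with ⟨rfl, _⟩ | ⟨rfl, _⟩
      · exact h1.1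
      · exact h1.2
  have hall : ∀ w, Relation.ReflTransGen (OStep y S) p w → K w := by
    intro w hw
    induction hw with
    | refl => exact Or.inl (OC.refl h.right)
    | tail _ hs ih => exact hstep _ ih _ hs
  exact hKp' (hall p' hc.2)

/-- a connection stays off a box or visits it -/
theorem stay_or_visit {z : Cf} {S : Set P2} (c : P2) (a : ℤ) {p q : P2} (h : OC z S p q)
    (hp : a ≤ sd c p) :
    OC z (S ∩ {v | a ≤ sd c v}) p q ∨ ∃ w, sd c w ≤ a ∧ OC z S p w ∧ OC z S w q := by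
  obtain ⟨hpS, h⟩ := h
  induction h with
  | refl => exact Or.inl (OC.refl ⟨hpS, hp⟩)
  | @tail b w h1 h2 ih =>
      have hbw : OC z S b w := ⟨h2.2.1, .single h2⟩
      rcases ih with ih | ⟨w', h3, h4, h5⟩
      · by_cases hw : a ≤ sd c w
        · exact Or.inl ⟨ih.1, ih.2.tail ⟨h2.1, ih.right, ⟨h2.2.2, hw⟩⟩⟩
        · exact Or.inr ⟨w, by omega, ⟨hpS, h1.tail h2⟩, OC.refl h2.2.2⟩
      · exact Or.inr ⟨w', h3, h4, h5.trans hbw⟩

/-- **Rerouting** (helper580): a connection between points outside `{sd c · < b}` can be pushed off the box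
of radius `a`, if only one cluster crosses the annulus. -/
theorem reroute {z : Cf} {S : Set P2} {c : P2} {a b : ℤ} (hab : a ≤ b) (hG : Gd z S c a b) {p q : P2}
    (h : OC z S p q) (hp : b ≤ sd c p) (hq : b ≤ sd c q) : OC z (S ∩ {v | a ≤ sd c v}) p q := by
  rcases stay_or_visit c a h (by omega) with h | ⟨w, hw, h1, h2⟩
  · exact h
  · -- first hits of the sphere of radius `a`
    have key : ∀ {u : P2}, OC z S u w → b ≤ sd c u →
        ∃ w1 v1, sd c w1 = a ∧ sd c v1 = b ∧ OC z (S ∩ {v | a ≤ sd c v}) u w1 ∧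
          OC z (S ∩ An c a b) w1 v1 := by
      intro u hu hub
      obtain ⟨w1, hw1, h3⟩ := first_hit (fun v => - sd c v) (fun s t hst => by
        have := sd_nbr c t s hst.symm
        omega) (-a) hu (by omega) (by omega)
      have hw1' : sd c w1 = a := by omega
      have h4 : OC z (S ∩ {v | a ≤ sd c v}) u w1 := h3.monoS (by
        rintro v ⟨hv1, hv2⟩
        refine ⟨hv1, ?_⟩
        have : - sd c v ≤ - a := hv2
        show a ≤ sd c v
        omega)
      obtain ⟨v1, hv1, h5⟩ := first_hit (sd c) (sd_nbr c) b h4.symm (by omega) hub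
      refine ⟨w1, v1, hw1', hv1, h4, h5.monoS ?_⟩
      rintro v ⟨⟨hv1, hv2⟩, hv3⟩
      exact ⟨hv1, hv2, hv3⟩
    obtain ⟨w1, v1, hw1, hv1, h3, h4⟩ := key h1 hp
    obtain ⟨w2, v2, hw2, hv2, h5, h6⟩ := key h2.symm hq
    have h7 : OC z (S ∩ An c a b) w1 w2 := by
      by_contra hn
      exact hG ⟨w1, hw1, v1, hv1, w2, hw2, v2, hv2, h4, h6, hn⟩
    have h8 : OC z (S ∩ {v | a ≤ sd c v}) w1 w2 := h7.monoS (by
      rintro v ⟨hv1, hv2⟩
      exact ⟨hv1, hv2.1⟩)
    exact (h3.trans h8).trans h5.symm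

/-- the hypothesis `Gd` is local -/
theorem Gd.congr {z : Cf} {S S' : Set P2} {c : P2} {a b : ℤ} (hG : Gd z S c a b)
    (h : S ∩ An c a b = S' ∩ An c a b) : Gd z S' c a b := by
  unfold Gd at *
  rwa [← h]

/-- rerouting off two boxes -/
theorem reroute2 {z : Cf} {S : Set P2} {c c' : P2} {a b : ℤ} (hab : a ≤ b) (hcc : a + b ≤ sd c c')
    (hG : Gd z S c a b) (hG' : Gd z S c' a b) {p q : P2} (h : OC z S p q)
    (hp : b ≤ sd c p) (hq : b ≤ sd c q) (hp' : b ≤ sd c' p) (hq' : b ≤ sd c' q) :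
    OC z (S ∩ {v | a ≤ sd c v} ∩ {v | a ≤ sd c' v}) p q := by
  have h1 := reroute hab hG h hp hq
  refine reroute hab (hG'.congr ?_) h1 hp' hq'
  ext v
  constructor
  · rintro ⟨hv1, hv2⟩
    refine ⟨⟨hv1, ?_⟩, hv2⟩
    have h3 := sd_tri c v c'
    rw [sd_symm v c'] at h3
    have h4 := hv2.2
    show a ≤ sd c v
    omega
  · rintro ⟨⟨hv1, _⟩, hv2⟩
    exact ⟨hv1, hv2⟩

end Crest.Agent.R158.Kd458
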