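import Crest.Agent.R158.Ka7_470
import Crest.Agent.R158.Nz4_399
import Crest.Agent.R158.Pt6_266

-- ▼ part R158/Lr1_158
section

/-!
R158, block Q1d, leaf LR (helper158), part 1: the local rule of the phases in the four charts of the
double of a half environment.

* `Stp R B X X' k` : clockwise step between two free sides of the region `R` (`k = 0` flat, `1` convex,
  `-1` reflex), all the positions involved lie in `B`
* `nxe R X`, `tur R X` : the next side and the turning, as functions of `X`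
* `PhH A ch ps cc cl` : the phases `ch` of the undoubled half environment are
  `π/12 ps - π/3 cc` at the free ends (natural sign), the seam at the left mouth is `π/3 cl`,
  `ps` = lifted direction
* `Phi`, `Cg` : phase and charge of the sides of the chart `i`
* **`phi_glue`** : `Phi i (v, d) = Phi i (v + dir d, d + 2)` for neighbours of the chart
* **`local_rule`** : `Phi i X' - Phi i X = eps (π/12 k + π/3 (Cg i X - Cg i X'))`
-/

set_option autoImplicit false

namespace Crest.Agent.R158.Lr158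

open Crest.Agent.R158.Sw300 (Port)
open Crest.Agent.R158.Env664 (TG)
open Crest.Agent.R158.Ka470
open Crest.Agent.R158.Nz399 (dch un jm)
open Crest.Agent.R158.Pt266 (dir)

/-! ### directions -/

theorem z4 (d : ZMod 4) : d = 0 ∨ d = 1 ∨ d = 2 ∨ d = 3 := by revert d; decide

theorem dir0 : dir 0 = (-1, 0) := by decide
theorem dir1 : dir 1 = (0, 1) := by decide
theorem dir2 : dir 2 = (1, 0) := by decide
theorem dir3 : dir 3 = (0, -1) := by decide

theorem dir_neg (d : ZMod 4) : dir (-d) = ((dir d).1, -(dir d).2) := by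
  revert d; decide

theorem dir_opp (d : ZMod 4) : dir (d + 2) = -dir d := by
  revert d; decide

theorem dir_pm (d : ZMod 4) : dir (d - 1) + dir (d + 1) = 0 := by
  revert d; decide

theorem dir_bd (d : ZMod 4) : (-1 ≤ (dir d).1 ∧ (dir d).1 ≤ 1) ∧ -1 ≤ (dir d).2 ∧ (dir d).2 ≤ 1 := by
  revert d; decide

theorem dir_hv (d : ZMod 4) : ((dir d).2 = 0 ∨ (dir (d + 1)).2 = 0) ∧
    ((dir d).1 = 0 ∨ (dir (d + 1)).1 = 0) := by
  revert d; decide

/-! ### steps -/

/-- clockwise step between two sides of the region `R`, inside `B` -/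
inductive Stp (R B : Set (ℤ × ℤ)) : (ℤ × ℤ) × ZMod 4 → (ℤ × ℤ) × ZMod 4 → ℤ → Prop
  | flat {t : ℤ × ℤ} {d : ZMod 4} (h1 : t ∈ R) (h2 : t + dir (d + 1) ∈ R) (h3 : t + dir d ∉ R)
      (h4 : t + dir (d + 1) + dir d ∉ R) (b1 : t ∈ B) (b2 : t + dir (d + 1) ∈ B)
      (b3 : t + dir d ∈ B) (b4 : t + dir (d + 1) + dir d ∈ B) :
      Stp R B (t, d) (t + dir (d + 1), d) 0
  | convex {t : ℤ × ℤ} {d : ZMod 4} (h1 : t ∈ R) (h2 : t + dir d ∉ R) (h3 : t + dir (d + 1) ∉ R)
      (b1 : t ∈ B) (b2 : t + dir d ∈ B) (b3 : t + dir (d + 1) ∈ B) :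
      Stp R B (t, d) (t, d + 1) 1
  | reflex {t : ℤ × ℤ} {d : ZMod 4} (h1 : t ∈ R) (h2 : t + dir (d + 1) ∈ R)
      (h3 : t + dir (d + 1) + dir d ∈ R) (h4 : t + dir d ∉ R) (b1 : t ∈ B)
      (b2 : t + dir (d + 1) ∈ B) (b3 : t + dir (d + 1) + dir d ∈ B) (b4 : t + dir d ∈ B) :
      Stp R B (t, d) (t + dir (d + 1) + dir d, d + 3) (-1)

/-- reflection of a side -/
def rfx (c : ℤ) (X : (ℤ × ℤ) × ZMod 4) : (ℤ × ℤ) × ZMod 4 := ((X.1.1, c - X.1.2), -X.2)


theorem rf_dir (c : ℤ) (t : ℤ × ℤ) (d : ZMod 4) :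
    ((t + dir d).1, c - (t + dir d).2) = (t.1, c - t.2) + dir (-d) := by
  rw [dir_neg]
  ext
  · simp
  · simp; ring

/-- **a mirrored step is a step in the opposite order** -/
theorem Stp.mirror {R B R' B' : Set (ℤ × ℤ)} {c : ℤ}
    (hR : ∀ v : ℤ × ℤ, v ∈ B → (v ∈ R ↔ (v.1, c - v.2) ∈ R'))
    (hB : ∀ v : ℤ × ℤ, v ∈ B → (v.1, c - v.2) ∈ B') {X X' : (ℤ × ℤ) × ZMod 4} {k : ℤ}
    (h : Stp R B X X' k) : Stp R' B' (rfx c X') (rfx c X) k := by
  have r1 := fun (v : ℤ × ℤ) hb (h : v ∈ R) => (hR v hb).1 h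
  have r2 := fun (v : ℤ × ℤ) hb (h : v ∉ R) => fun h' => h ((hR v hb).2 h')
  cases h with
  | @flat t d h1 h2 h3 h4 b1 b2 b3 b4 =>
    have e1 : ((t + dir (d + 1)).1, c - (t + dir (d + 1)).2) = (t.1, c - t.2) + dir (-d - 1) := by
      rw [rf_dir]; congr 2; ring
    have e2 : ((t + dir d).1, c - (t + dir d).2) = (t.1, c - t.2) + dir (-d) := rf_dir _ _ _
    have e3 : ((t + dir (d + 1) + dir d).1, c - (t + dir (d + 1) + dir d).2) =
        (t.1, c - t.2) + dir (-d - 1) + dir (-d) := by rw [rf_dir, e1]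
    have e4 : (t.1, c - t.2) + dir (-d - 1) + dir (-d + 1) = (t.1, c - t.2) := by
      rw [add_assoc, dir_pm, add_zero]
    have r1' := r1 _ b1 h1
    have r2' := r1 _ b2 h2
    have r3' := r2 _ b3 h3
    have r4' := r2 _ b4 h4
    have c1 := hB _ b1
    have c2 := hB _ b2
    have c3 := hB _ b3
    have c4 := hB _ b4
    rw [e1] at r2' c2
    rw [e2] at r3' c3
    rw [e3] at r4' c4
    have := Stp.flat (R := R') (B := B') (t := (t.1, c - t.2) + dir (-d - 1)) (d := -d)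
      r2' (by rw [e4]; exact r1') r4' (by rw [e4]; exact r3') c2 (by rw [e4]; exact c1) c4
      (by rw [e4]; exact c3)
    rw [e4] at this
    show Stp R' B' (((t + dir (d + 1)).1, c - (t + dir (d + 1)).2), -d) ((t.1, c - t.2), -d) 0
    rw [e1]
    exact this
  | @convex t d h1 h2 h3 b1 b2 b3 =>
    have r1' := r1 _ b1 h1
    have r2' := r2 _ b2 h2
    have r3' := r2 _ b3 h3
    have c1 := hB _ b1
    have c2 := hB _ b2
    have c3 := hB _ b3
    rw [rf_dir] at r2' c2 r3' c3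
    have e : -(d + 1) + 1 = -d := by ring
    have := Stp.convex (R := R') (B := B') (t := (t.1, c - t.2)) (d := -(d + 1)) r1' r3'
      (by rw [e]; exact r2') c1 c3 (by rw [e]; exact c2)
    rw [e] at this
    exact this
  | @reflex t d h1 h2 h3 h4 b1 b2 b3 b4 =>
    have e1 : ((t + dir (d + 1)).1, c - (t + dir (d + 1)).2) = (t.1, c - t.2) + dir (-d - 1) := by
      rw [rf_dir]; congr 2; ring
    have e2 : ((t + dir d).1, c - (t + dir d).2) = (t.1, c - t.2) + dir (-d) := rf_dir _ _ _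
    have e3 : ((t + dir (d + 1) + dir d).1, c - (t + dir (d + 1) + dir d).2) =
        (t.1, c - t.2) + dir (-d - 1) + dir (-d) := by rw [rf_dir, e1]
    have f1 : dir (-d - 1) + dir (-d + 1) = 0 := dir_pm _
    have f2 : dir (-d + 2) = -dir (-d) := dir_opp _
    have g1 : (-d + 1 : ZMod 4) + 1 = -d + 2 := by ring
    have e4 : (t.1, c - t.2) + dir (-d - 1) + dir (-d) + dir (-d + 1 + 1) =
        (t.1, c - t.2) + dir (-d - 1) := by
      rw [g1, f2]; abel
    have e5 : (t.1, c - t.2) + dir (-d - 1) + dir (-d) + dir (-d + 1 + 1) + dir (-d + 1) =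
        (t.1, c - t.2) := by
      rw [e4, add_assoc, f1, add_zero]
    have e6 : (t.1, c - t.2) + dir (-d - 1) + dir (-d) + dir (-d + 1) =
        (t.1, c - t.2) + dir (-d) := by
      rw [add_right_comm, add_assoc (t.1, c - t.2), f1, add_zero]
    have r1' := r1 _ b1 h1
    have r2' := r1 _ b2 h2
    have r3' := r1 _ b3 h3
    have r4' := r2 _ b4 h4
    have c1 := hB _ b1
    have c2 := hB _ b2
    have c3 := hB _ b3
    have c4 := hB _ b4
    rw [e1] at r2' c2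
    rw [e3] at r3' c3
    rw [e2] at r4' c4
    have := Stp.reflex (R := R') (B := B') (t := (t.1, c - t.2) + dir (-d - 1) + dir (-d))
      (d := -d + 1) r3' (by rw [e4]; exact r2') (by rw [e5]; exact r1') (by rw [e6]; exact r4')
      c3 (by rw [e4]; exact c2) (by rw [e5]; exact c1) (by rw [e6]; exact c4)
    rw [e5] at this
    have g2 : -(d + 3) = -d + 1 := by
      have : (4 : ZMod 4) = 0 := by decide
      linear_combination -this
    have g3 : (-d + 1 + 3 : ZMod 4) = -d := by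
      have : (4 : ZMod 4) = 0 := by decide
      linear_combination this
    rw [g3] at this
    show Stp R' B' (((t + dir (d + 1) + dir d).1, c - (t + dir (d + 1) + dir d).2), -(d + 3))
      ((t.1, c - t.2), -d) (-1)
    rw [e3, g2]
    exact this

theorem Stp.mono {R B R' B' : Set (ℤ × ℤ)} (hR : ∀ v : ℤ × ℤ, v ∈ B → (v ∈ R ↔ v ∈ R'))
    (hB : ∀ v : ℤ × ℤ, v ∈ B → v ∈ B') {X X' : (ℤ × ℤ) × ZMod 4} {k : ℤ}
    (h : Stp R B X X' k) : Stp R' B' X X' k := by
  have r1 := fun (v : ℤ × ℤ) hb (h : v ∈ R) => (hR v hb).1 h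
  have r2 := fun (v : ℤ × ℤ) hb (h : v ∉ R) => fun h' => h ((hR v hb).2 h')
  cases h with
  | flat h1 h2 h3 h4 b1 b2 b3 b4 =>
    exact .flat (r1 _ b1 h1) (r1 _ b2 h2) (r2 _ b3 h3) (r2 _ b4 h4) (hB _ b1) (hB _ b2) (hB _ b3)
      (hB _ b4)
  | convex h1 h2 h3 b1 b2 b3 =>
    exact .convex (r1 _ b1 h1) (r2 _ b2 h2) (r2 _ b3 h3) (hB _ b1) (hB _ b2) (hB _ b3)
  | reflex h1 h2 h3 h4 b1 b2 b3 b4 =>
    exact .reflex (r1 _ b1 h1) (r1 _ b2 h2) (r1 _ b3 h3) (r2 _ b4 h4) (hB _ b1) (hB _ b2)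
      (hB _ b3) (hB _ b4)

open Classical in
/-- the next side, clockwise -/
noncomputable def nxe (R : Set (ℤ × ℤ)) (X : (ℤ × ℤ) × ZMod 4) : (ℤ × ℤ) × ZMod 4 :=
  if X.1 + dir (X.2 + 1) ∉ R then (X.1, X.2 + 1)
  else if X.1 + dir (X.2 + 1) + dir X.2 ∉ R then (X.1 + dir (X.2 + 1), X.2)
  else (X.1 + dir (X.2 + 1) + dir X.2, X.2 + 3)

theorem Stp.nxe {R B : Set (ℤ × ℤ)} {X X' : (ℤ × ℤ) × ZMod 4} {k : ℤ} (h : Stp R B X X' k) :
    nxe R X = X' := by
  unfold Lr158.nxe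
  cases h with
  | flat h1 h2 h3 h4 b1 b2 b3 b4 =>
    simp only
    rw [if_neg (not_not.2 h2), if_pos h4]
  | convex h1 h2 h3 b1 b2 b3 =>
    simp only
    rw [if_pos h3]
  | reflex h1 h2 h3 h4 b1 b2 b3 b4 =>
    simp only
    rw [if_neg (not_not.2 h2), if_neg (not_not.2 h3)]

end Crest.Agent.R158.Lr158
end

-- ▼ part R158/Lr2_158

/-!
R158, block Q1d, leaf LR (helper158), part 2: phases and charges of the sides of the four charts.

* `PhH A ch ps cc cl` : phases of the undoubled half environment (natural sign)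
* `upp h i X` : port of the undoubled half behind the side `X` of the chart `i`
* `Phi ch O cl h i X`, `Cg cc cl h i X`, `eps h i X`
* **`phi_glue`**, **`local_rule`**
-/

set_option autoImplicit false

namespace Crest.Agent.R158.Lr158

open Crest.Agent.R158.Sw300 (Port)
open Crest.Agent.R158.Env664 (TG)
open Crest.Agent.R158.Nm211 (Dir mv dx dy)
open Crest.Agent.R158.Ka470
open Crest.Agent.R158.Ka470.Half
open Crest.Agent.R158.Nz399 (dch un jm)
open Crest.Agent.R158.Pt266 (dir)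

/-- seam at the left mouth -/
def sea (A : Half) : TG × ZMod 4 → ℤ
  | (Sum.inl v, d) => if d = 0 ∧ v.1 = A.xl ∧ A.y1 ≤ v.2 ∧ v.2 < A.y0 then -1 else 0
  | (Sum.inr v, d) => if d = 2 ∧ v.1 = A.R - 1 then 1 else 0

/-- tiles that are neither in a mouth nor on the crosscut -/
def NM (A : Half) : Set (ℤ × ℤ) := {v | ¬ A.Mou v}

/-- **phases of an undoubled half environment**, natural sign: `ps` lifted direction, `cc` charge,
`cl` charge of the seam at the left mouth -/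
structure PhH (A : Half) (ch : Port TG → ℝ) (ps cc : TG × ZMod 4 → ℤ) (cl : ℤ) : Prop where
  free : ∀ t d, A.tH t → A.FrH t d → (d = 1 → ¬ A.cutT t) →
    ch (some (t, d)) = Real.pi / 12 * ps (t, d) - Real.pi / 3 * cc (t, d)
  glue : ∀ p q, A.Gh p q → ch (some p) - ch (some q) = Real.pi / 3 * (cl * sea A p : ℤ)
  wl : ∀ y, A.Y ≤ y → y < A.y1 → ps (Sum.inl (A.xl, y), 0) = 4
  wr : ∀ y, A.Y ≤ y → y < A.y1 → ps (Sum.inl (A.xr, y), 2) = 2
  fl : ∀ i, 0 ≤ i → i < A.R → ps (Sum.inr (i, A.y1), 3) = 3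
  st : ∀ X X' k, Stp (A.H : Set (ℤ × ℤ)) (NM A) X X' k →
    ps (Sum.inl X'.1, X'.2) = ps (Sum.inl X.1, X.2) + k

/-- `O` = the open ports of the half -/
def OpenH (A : Half) (O : Finset (Port TG)) : Prop :=
  ∀ t d, A.tH t → ((some (t, d) : Port TG) ∈ O ↔ d = 1 ∧ A.cutT t)

/-- direction of `mv` -/
theorem dir_mv (a : ZMod 4) : ∃ d : Dir, ex d = a ∧ en d = a + 2 ∧ ∀ v, mv v d = v + dir a := by
  rcases z4 a with rfl | rfl | rfl | rfl
  · refine ⟨3, rfl, rfl, fun v => ?_⟩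
    rw [dir0]; obtain ⟨x, y⟩ := v; simp [mv, dx, dy]
  · refine ⟨0, rfl, rfl, fun v => ?_⟩
    rw [dir1]; obtain ⟨x, y⟩ := v; simp [mv, dx, dy]
  · refine ⟨1, rfl, rfl, fun v => ?_⟩
    rw [dir2]; obtain ⟨x, y⟩ := v; simp [mv, dx, dy]
  · refine ⟨2, rfl, rfl, fun v => ?_⟩
    rw [dir3]; obtain ⟨x, y⟩ := v; simp [mv, dx, dy]

variable {A : Half} {ρ : ℕ}

/-- port of the undoubled half behind a side of the chart `i` -/
noncomputable def upp (h : A.Sz ρ) (i : Fin 4) (X : (ℤ × ℤ) × ZMod 4) : TG × ZMod 4 :=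
  (((chf h i).emb X.1).1, Ka470.sg ((chf h i).emb X.1).2 X.2)

/-- gauge -/
noncomputable def gg (A : Half) (cl : ℤ) (i : Fin 4) (v : ℤ × ℤ) : ℝ :=
  if i = 2 ∧ v.1 < A.xl then -(Real.pi / 3 * cl) else 0

/-- **phase of a side of the chart `i`** -/
noncomputable def Phi (ch : Port TG → ℝ) (O : Finset (Port TG)) (cl : ℤ) (h : A.Sz ρ) (i : Fin 4)
    (X : (ℤ × ℤ) × ZMod 4) : ℝ :=
  dch ch O (some ((chf h i).pt X.1 X.2)) + gg A cl i X.1

/-- `1` on the copy `false`, `-1` on the copy `true` -/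
noncomputable def eps (h : A.Sz ρ) (i : Fin 4) (X : (ℤ × ℤ) × ZMod 4) : ℤ :=
  if ((chf h i).emb X.1).2 then -1 else 1

/-- **charge of a side of the chart `i`**, decreasing along a gap of charge `1` in the clockwise
order of the chart -/
noncomputable def Cg (cc : TG × ZMod 4 → ℤ) (cl : ℤ) (h : A.Sz ρ) (i : Fin 4)
    (X : (ℤ × ℤ) × ZMod 4) : ℤ :=
  eps h i X * (cc (upp h i X) + if i = 2 ∧ X.1.1 < A.xl then cl else 0)

theorem pt_eq (h : A.Sz ρ) (i : Fin 4) (v : ℤ × ℤ) (a : ZMod 4) :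
    (chf h i).pt v a = ((chf h i).emb v, a) := by
  unfold Ch.pt
  rw [chf_F]
  rfl

theorem un_pt (h : A.Sz ρ) (i : Fin 4) (v : ℤ × ℤ) (a : ZMod 4) :
    un (some ((chf h i).pt v a)) = some (upp h i (v, a)) := by
  rw [pt_eq]
  rfl

theorem dch_eq (ch : Port TG → ℝ) (O : Finset (Port TG)) (h : A.Sz ρ) (i : Fin 4) (v : ℤ × ℤ)
    (a : ZMod 4) : dch ch O (some ((chf h i).pt v a)) =
      if (some (upp h i (v, a)) : Port TG) ∈ O then 0 else ch (some (upp h i (v, a))) := by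
  unfold dch
  rw [un_pt]

/-! ### real ends -/

/-- a side facing a position seen by the chart outside its region -/
structure REnd (h : A.Sz ρ) (i : Fin 4) (B : Set (ℤ × ℤ)) (X : (ℤ × ℤ) × ZMod 4) : Prop where
  m : X.1 ∈ (chf h i).R
  n : X.1 + dir X.2 ∉ (chf h i).R
  b1 : X.1 ∈ B
  b2 : X.1 + dir X.2 ∈ B

theorem tH_emb (h : A.Sz ρ) (i : Fin 4) {v : ℤ × ℤ} (hv : v ∈ (chf h i).R) :
    A.tH ((chf h i).emb v).1 := by
  fin_cases i
  · exact hv
  · exact A.mem_rf.1 hv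
  · obtain ⟨x, y⟩ := v
    have h1 : (x, A.ry y) ∈ (A.picM _ h.r).P := (Pic.mem_R _).1 hv
    rw [mem_picM] at h1
    have hρ := h.pos
    have hr := h.r
    have hx := A.hx
    show A.tH (if x < A.xl then Sum.inr (A.R - (A.xl - x), A.ry y) else if x ≤ A.xr then
      Sum.inl (x, A.ry y) else Sum.inr (x - A.xr - 1, A.ry y))
    split_ifs with h2 h3
    · show (0 ≤ A.R - (A.xl - x) ∧ A.R - (A.xl - x) < A.R) ∧ A.y1 ≤ A.ry y ∧ A.ry y < A.y0
      omega
    · exact A.row _ _ (by omega) (by omega) (by omega) (by omega)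
    · show (0 ≤ x - A.xr - 1 ∧ x - A.xr - 1 < A.R) ∧ A.y1 ≤ A.ry y ∧ A.ry y < A.y0
      omega
  · obtain ⟨x, y⟩ := v
    have h1 : (x, A.ry y) ∈ A.picS.P := (Pic.mem_R _).1 hv
    exact A.mem_picS.1 h1

/-- ports that are free in the double are free in the half and not open -/
theorem free_dbl {t : TG} {k : Bool} {a : ZMod 4} (hf : Free A.Gd ((t, k), a)) :
    A.FrH t (Ka470.sg k a) ∧ (Ka470.sg k a = 1 → ¬ A.cutT t) := by
  refine ⟨fun q hq => ?_, fun h1 hc => ?_⟩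
  · have h2 := Gd.base k hq
    rw [sg_sg] at h2
    exact hf _ h2
  · have h2 : a = Ka470.sg k 1 := by rw [← h1, sg_sg]
    subst h2
    cases k
    · exact hf _ (Gd.c1 hc)
    · have h3 := Gd.c2 (A := A) hc
      rw [← Half.sg_three] at h3
      exact hf _ h3

theorem REnd.free {h : A.Sz ρ} {i : Fin 4} {B : Set (ℤ × ℤ)} (hB : A.Good ρ i B)
    {X : (ℤ × ℤ) × ZMod 4} (hX : REnd h i B X) :
    A.FrH (upp h i X).1 (upp h i X).2 ∧ ((upp h i X).2 = 1 → ¬ A.cutT (upp h i X).1) := by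
  obtain ⟨d, h1, -, h2⟩ := dir_mv X.2
  have hV := hB.view h X.1 hX.m hX.b1 d (by rw [h2]; exact hX.b2) (by rw [h2]; exact hX.n)
  rw [h1, pt_eq] at hV
  exact free_dbl hV

/-- **phase of a real end** -/
theorem phi_end {ch : Port TG → ℝ} {ps cc : TG × ZMod 4 → ℤ} {cl : ℤ} (H : PhH A ch ps cc cl)
    {O : Finset (Port TG)} (hO : OpenH A O) {h : A.Sz ρ} {i : Fin 4} {B : Set (ℤ × ℤ)}
    (hB : A.Good ρ i B) {X : (ℤ × ℤ) × ZMod 4} (hX : REnd h i B X) :
    Phi ch O cl h i X = Real.pi / 12 * ps (upp h i X) -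
      Real.pi / 3 * (eps h i X * Cg cc cl h i X : ℤ) := by
  obtain ⟨h1, h2⟩ := hX.free hB
  have ht : A.tH (upp h i X).1 := tH_emb h i hX.m
  unfold Phi
  rw [dch_eq]
  have h3 : (some (upp h i (X.1, X.2)) : Port TG) ∉ O := by
    intro hm
    have := (hO _ _ ht).1 hm
    exact h2 this.1 this.2
  rw [if_neg h3]
  have h4 : ch (some (upp h i (X.1, X.2))) = Real.pi / 12 * ps (upp h i X) -
      Real.pi / 3 * cc (upp h i X) := H.free _ _ ht h1 h2
  rw [h4]
  have h5 : eps h i X * Cg cc cl h i X =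
      cc (upp h i X) + if i = 2 ∧ X.1.1 < A.xl then cl else 0 := by
    unfold Cg eps
    split_ifs <;> ring
  rw [h5]
  unfold gg
  split_ifs <;> push_cast <;> ring

end Crest.Agent.R158.Lr158
private theorem rz_32ddf1c092 : type_of% @_root_.Crest.Agent.R158.Lr158.sea.eq_1 := @_root_.Crest.Agent.R158.Lr158.sea.eq_1 -- L25
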