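import Crest.Agent.R158.Nz8_399
import Crest.Agent.R158.Lr2_158
import Crest.Agent.R158.Cc1_841
import Crest.Agent.R158.Ka9_470
import Crest.Agent.R158.Cc3_841

-- ▼ part R158/Ka11_470
section

/-!
R158, block Q1d (helper470), part 11: the corners of a half environment as special points.

* `gcv`, `grf` : rotations of the convex and reflex corners
* `corner_ver` : a corner of the mirrored region is a macroscopic vertex or an end of the crosscut
* `XC` : the list of the corners of the second copy, `XC_ok` : they are admissible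
-/

set_option autoImplicit false

noncomputable section

namespace Crest.Agent.R158.Ka470

open Crest.Agent.R158.Nm211
open Crest.Agent.R158.Env664 (TG)
open Crest.Agent.R158.Cc841 (tA tB tC tD nt Vx mem_Vx cv rf dg)
open Crest.Agent.R158.Nz399 (Kind Tk mem_Tk qd pl rt patK patK_pl pl_Bv fe we Chg SpOk XOk Sp Fk
  Tf kd cnt mouth_l mouth_r)
open Crest.Agent.R158.Pt266 (dir)
open Crest.Agent.R158.Lr158 (REnd)

/-! ### rotated patterns -/

/-- rotated convex pattern -/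
def pcv (g : ℕ) (bx bz : Bool) : Bool :=
  match g with
  | 0 => bx && bz
  | 1 => !bx && bz
  | 2 => !bx && !bz
  | _ => bx && !bz

/-- rotated reflex pattern -/
def prf (g : ℕ) (bx bz : Bool) : Bool :=
  match g with
  | 0 => bx || bz
  | 1 => !bx || bz
  | 2 => !bx || !bz
  | _ => bx || !bz

theorem patK_cv (g : ℕ) (hg : g < 4) (bx bz : Bool) : patK .cv g bx bz = pcv g bx bz := by
  obtain rfl | rfl | rfl | rfl : g = 0 ∨ g = 1 ∨ g = 2 ∨ g = 3 := by omega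
  all_goals (clear hg; revert bx bz; decide)

theorem patK_rf (g : ℕ) (hg : g < 4) (bx bz : Bool) : patK .rf g bx bz = prf g bx bz := by
  obtain rfl | rfl | rfl | rfl : g = 0 ∨ g = 1 ∨ g = 2 ∨ g = 3 := by omega
  all_goals (clear hg; revert bx bz; decide)

/-- rotation of a convex corner -/
def gcv (R : Finset (ℤ × ℤ)) (p : ℤ × ℤ) : ℕ :=
  if tD p ∈ R then 0 else if tC p ∈ R then 1 else if tA p ∈ R then 2 else 3

/-- rotation of a reflex corner -/
def grf (R : Finset (ℤ × ℤ)) (p : ℤ × ℤ) : ℕ :=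
  if tA p ∉ R then 0 else if tB p ∉ R then 1 else if tD p ∉ R then 2 else 3

theorem gcv_lt (R : Finset (ℤ × ℤ)) (p : ℤ × ℤ) : gcv R p < 4 := by
  unfold gcv; split_ifs <;> omega

theorem grf_lt (R : Finset (ℤ × ℤ)) (p : ℤ × ℤ) : grf R p < 4 := by
  unfold grf; split_ifs <;> omega

/-- values of the pattern at the four tiles of the vertex -/
theorem pat_tiles {R : Finset (ℤ × ℤ)} {N : ℕ} (hN : 1 ≤ N) {p : ℤ × ℤ}
    {pat : Bool → Bool → Bool} (h : Patt R (Bv N p) p pat) :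
    (tD p ∈ R ↔ pat true true = true) ∧ (tC p ∈ R ↔ pat false true = true) ∧
      (tB p ∈ R ↔ pat true false = true) ∧ (tA p ∈ R ↔ pat false false = true) := by
  have hN' : (1 : ℤ) ≤ N := by exact_mod_cast hN
  have mem : ∀ u : ℤ × ℤ, p.1 - 1 ≤ u.1 → u.1 ≤ p.1 → p.2 - 1 ≤ u.2 → u.2 ≤ p.2 →
      u ∈ Bv N p := fun u h1 h2 h3 h4 => ⟨⟨by omega, by omega⟩, by omega, by omega⟩
  refine ⟨?_, ?_, ?_, ?_⟩
  · have := h (tD p) (mem _ (by simp [tD]) (by simp [tD]) (by simp [tD]) (by simp [tD]))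
    rw [this]
    simp [tD]
  · have := h (tC p) (mem _ (by simp [tC]) (by simp [tC]) (by simp [tC]) (by simp [tC]))
    rw [this]
    simp [tC]
  · have := h (tB p) (mem _ (by simp [tB]) (by simp [tB]) (by simp [tB]) (by simp [tB]))
    rw [this]
    simp [tB]
  · have := h (tA p) (mem _ (by simp [tA]) (by simp [tA]) (by simp [tA]) (by simp [tA]))
    rw [this]
    simp [tA]

theorem patt_congr {R : Finset (ℤ × ℤ)} {B : Set (ℤ × ℤ)} {p : ℤ × ℤ}
    {pat pat' : Bool → Bool → Bool} (h : Patt R B p pat) (he : ∀ a b, pat a b = pat' a b) :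
    Patt R B p pat' := by
  intro u hu
  rw [h u hu, he]

/-- **a vertex with one tile is a rotated convex corner** -/
theorem patt_cv {R : Finset (ℤ × ℤ)} {N : ℕ} (hN : 1 ≤ N) {p : ℤ × ℤ}
    {pat : Bool → Bool → Bool} (h : Patt R (Bv N p) p pat) (hp : p ∈ cv R) :
    Patt R (Bv N p) p (patK .cv (gcv R p)) := by
  obtain ⟨hD, hC, hB, hA⟩ := pat_tiles hN h
  have hnt := (Finset.mem_filter.1 hp).2
  unfold nt at hnt
  refine patt_congr h fun a b => ?_
  rw [patK_cv _ (gcv_lt R p)]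
  unfold gcv
  by_cases h1 : tD p ∈ R <;> by_cases h2 : tC p ∈ R <;> by_cases h3 : tB p ∈ R <;>
    by_cases h4 : tA p ∈ R <;> simp only [h1, h2, h3, h4, if_true, if_false, true_iff, false_iff,
      Bool.not_eq_true] at hnt hD hC hB hA ⊢ <;> first
    | omega
    | (cases a <;> cases b <;> simp [hA, hB, hC, hD, pcv])

/-- **a vertex with three tiles is a rotated reflex corner** -/
theorem patt_rfx {R : Finset (ℤ × ℤ)} {N : ℕ} (hN : 1 ≤ N) {p : ℤ × ℤ}
    {pat : Bool → Bool → Bool} (h : Patt R (Bv N p) p pat) (hp : p ∈ rf R) :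
    Patt R (Bv N p) p (patK .rf (grf R p)) := by
  obtain ⟨hD, hC, hB, hA⟩ := pat_tiles hN h
  have hnt := (Finset.mem_filter.1 hp).2
  unfold nt at hnt
  refine patt_congr h fun a b => ?_
  rw [patK_rf _ (grf_lt R p)]
  unfold grf
  by_cases h1 : tD p ∈ R <;> by_cases h2 : tC p ∈ R <;> by_cases h3 : tB p ∈ R <;>
    by_cases h4 : tA p ∈ R <;> simp only [h1, h2, h3, h4, if_true, if_false, true_iff, false_iff,
      Bool.not_eq_true, not_true, not_false_iff] at hnt hD hC hB hA ⊢ <;> first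
    | omega
    | (cases a <;> cases b <;> simp [hA, hB, hC, hD, prf])

/-- the converse: a rotated convex pattern is a vertex with one tile -/
theorem cv_of_patt {R : Finset (ℤ × ℤ)} {N : ℕ} (hN : 1 ≤ N) {p : ℤ × ℤ} {g : ℕ} (hg : g < 4)
    (h : Patt R (Bv N p) p (patK .cv g)) : p ∈ cv R ∧ gcv R p = g := by
  obtain ⟨hD, hC, hB, hA⟩ := pat_tiles hN h
  rw [patK_cv _ hg] at hD hC hB hA
  obtain rfl | rfl | rfl | rfl : g = 0 ∨ g = 1 ∨ g = 2 ∨ g = 3 := by omega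
  all_goals
    simp only [pcv, Bool.and_true, Bool.and_false, Bool.not_true,
      Bool.not_false, Bool.and_self, iff_true, Bool.false_eq_true, iff_false] at hD hC hB hA
  · refine ⟨Finset.mem_filter.2 ⟨mem_Vx.2 (Or.inr (Or.inr (Or.inr hD))), ?_⟩, ?_⟩
    · unfold nt; rw [if_neg hA, if_neg hB, if_neg hC, if_pos hD]
    · unfold gcv; rw [if_pos hD]
  · refine ⟨Finset.mem_filter.2 ⟨mem_Vx.2 (Or.inr (Or.inr (Or.inl hC))), ?_⟩, ?_⟩
    · unfold nt; rw [if_neg hA, if_neg hB, if_pos hC, if_neg hD]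
    · unfold gcv; rw [if_neg hD, if_pos hC]
  · refine ⟨Finset.mem_filter.2 ⟨mem_Vx.2 (Or.inl hA), ?_⟩, ?_⟩
    · unfold nt; rw [if_pos hA, if_neg hB, if_neg hC, if_neg hD]
    · unfold gcv; rw [if_neg hD, if_neg hC, if_pos hA]
  · refine ⟨Finset.mem_filter.2 ⟨mem_Vx.2 (Or.inr (Or.inl hB)), ?_⟩, ?_⟩
    · unfold nt; rw [if_neg hA, if_pos hB, if_neg hC, if_neg hD]
    · unfold gcv; rw [if_neg hD, if_neg hC, if_neg hA]

/-! ### rotation of directions -/


/-! ### the corners are macroscopic vertices -/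

theorem ediv_pred {L x : ℤ} (hL : 0 < L) (h : ¬ L ∣ x) : (x - 1) / L = x / L := by
  have h1 := Int.mul_ediv_add_emod x L
  have h2 := Int.emod_nonneg x hL.ne'
  have h3 := Int.emod_lt_of_pos x hL
  have h4 : x % L ≠ 0 := fun h5 => h (Int.dvd_of_emod_eq_zero h5)
  refine (Env664.div_iff hL _ _).2 ⟨?_, ?_⟩
  · have : x / L * L = L * (x / L) := mul_comm _ _
    omega
  · have : x / L * L = L * (x / L) := mul_comm _ _
    omega

/-- not a corner -/
def Flat (H : Finset (ℤ × ℤ)) (p : ℤ × ℤ) : Prop :=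
  ((tA p ∈ H ↔ tB p ∈ H) ∧ (tC p ∈ H ↔ tD p ∈ H)) ∨
    ((tA p ∈ H ↔ tC p ∈ H) ∧ (tB p ∈ H ↔ tD p ∈ H))

theorem not_flat {H : Finset (ℤ × ℤ)} {p : ℤ × ℤ} (hp : p ∈ cv H ∨ p ∈ rf H ∨ p ∈ dg H) :
    ¬ Flat H p := by
  unfold Flat
  rcases hp with hp | hp | hp
  · have h := (Finset.mem_filter.1 hp).2
    unfold nt at h
    split_ifs at h <;> simp_all
  · have h := (Finset.mem_filter.1 hp).2
    unfold nt at h
    split_ifs at h <;> simp_all
  · have h := (Finset.mem_filter.1 hp).2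
    tauto

namespace Half

variable {A : Half}

theorem corner_ver {L a b c : ℤ} (m : A.Mc L a b c) {p : ℤ × ℤ} (hp : ¬ Flat A.H p) :
    (L ∣ p.1 ∧ L ∣ p.2) ∨ p = (A.xl, A.y0) ∨ p = (A.xr + 1, A.y0) := by
  have hL := m.hL
  have same : ∀ t t' : ℤ × ℤ, t.1 / L = t'.1 / L → t.2 / L = t'.2 / L →
      (A.xl ≤ t.1 → t.1 ≤ A.xr → t.2 / L = c → (t.2 < A.y0 ↔ t'.2 < A.y0)) →
      (A.xl ≤ t'.1 → t'.1 ≤ A.xr → t'.2 / L = c → (t.2 < A.y0 ↔ t'.2 < A.y0)) →
      (t ∈ A.H ↔ t' ∈ A.H) := fun t t' h1 h2 h3 h4 =>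
    ⟨m.same t t' h1 h2 h3, m.same t' t h1.symm h2.symm fun g1 g2 g3 => (h4 g1 g2 g3).symm⟩
  have h1 : L ∣ p.1 := by
    by_contra hcon
    have e := ediv_pred hL hcon
    exact hp (Or.inl ⟨same _ _ e rfl (fun _ _ _ => Iff.rfl) (fun _ _ _ => Iff.rfl),
      same _ _ e rfl (fun _ _ _ => Iff.rfl) (fun _ _ _ => Iff.rfl)⟩)
  by_cases h2 : L ∣ p.2
  · exact Or.inl ⟨h1, h2⟩
  right
  have e := ediv_pred hL h2
  have h3 : p.2 = A.y0 := by
    by_contra hcon
    refine hp (Or.inr ⟨same _ _ rfl e (fun _ _ _ => ?_) (fun _ _ _ => ?_),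
      same _ _ rfl e (fun _ _ _ => ?_) (fun _ _ _ => ?_)⟩) <;>
      (simp only [tA, tB, tC, tD]; omega)
  have hx := A.hx
  have hY := A.hY
  have h01 := A.h1
  have hW := A.hW
  obtain ⟨x, y⟩ := p
  simp only at h3 e
  subst h3
  simp only [Prod.mk.injEq, and_true]
  by_cases g1 : A.xl ≤ x - 1 ∧ x - 1 ≤ A.xr <;> by_cases g2 : A.xl ≤ x ∧ x ≤ A.xr
  · exfalso
    refine hp (Or.inl ⟨iff_of_true ?_ ?_, iff_of_false ?_ ?_⟩)
    · exact A.row _ _ (by omega) (by omega) (by omega) (by omega)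
    · exact A.row _ _ (by omega) (by omega) (by omega) (by omega)
    · exact A.top _ _ (by omega) (by omega) (by omega) (by omega)
    · exact A.top _ _ (by omega) (by omega) (by omega) (by omega)
  · right; omega
  · left; omega
  · exfalso
    refine hp (Or.inr ⟨same _ _ rfl e (fun k1 k2 _ => absurd ⟨k1, k2⟩ g1)
      (fun k1 k2 _ => absurd ⟨k1, k2⟩ g1),
      same _ _ rfl e (fun k1 k2 _ => absurd ⟨k1, k2⟩ g2) (fun k1 k2 _ => absurd ⟨k1, k2⟩ g2)⟩)

/-- reflection of vertices -/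
def mir (A : Half) (p : ℤ × ℤ) : ℤ × ℤ := (p.1, 2 * A.y0 - p.2)

theorem mir_mir (p : ℤ × ℤ) : A.mir (A.mir p) = p := by
  obtain ⟨x, y⟩ := p
  simp [mir]

/-- the mirrored region -/
def Hm (A : Half) : Finset (ℤ × ℤ) := A.H.image A.rf

theorem mem_Hm {u : ℤ × ℤ} : u ∈ A.Hm ↔ A.rf u ∈ A.H := A.mem_rf

theorem tiles_mir (p : ℤ × ℤ) : (tA p ∈ A.Hm ↔ tC (A.mir p) ∈ A.H) ∧
    (tC p ∈ A.Hm ↔ tA (A.mir p) ∈ A.H) ∧ (tB p ∈ A.Hm ↔ tD (A.mir p) ∈ A.H) ∧
    (tD p ∈ A.Hm ↔ tB (A.mir p) ∈ A.H) := by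
  have e1 : A.rf (tA p) = tC (A.mir p) := by
    simp only [Half.rf, tA, tC, mir, Prod.mk.injEq]; constructor
    · trivial
    · ring
  have e2 : A.rf (tC p) = tA (A.mir p) := by
    simp only [Half.rf, tA, tC, mir, Prod.mk.injEq]; constructor
    · trivial
    · ring
  have e3 : A.rf (tB p) = tD (A.mir p) := by
    simp only [Half.rf, tB, tD, mir, Prod.mk.injEq]; constructor
    · trivial
    · ring
  have e4 : A.rf (tD p) = tB (A.mir p) := by
    simp only [Half.rf, tB, tD, mir, Prod.mk.injEq]; constructor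
    · trivial
    · ring
  rw [mem_Hm, mem_Hm, mem_Hm, mem_Hm, e1, e2, e3, e4]
  exact ⟨Iff.rfl, Iff.rfl, Iff.rfl, Iff.rfl⟩

theorem flat_mir {p : ℤ × ℤ} (h : Flat A.H (A.mir p)) : Flat A.Hm p := by
  obtain ⟨h1, h2, h3, h4⟩ := A.tiles_mir p
  unfold Flat at h ⊢
  rw [h1, h2, h3, h4]
  tauto

theorem nt_mir (p : ℤ × ℤ) : nt A.Hm p = nt A.H (A.mir p) := by
  obtain ⟨h1, h2, h3, h4⟩ := A.tiles_mir p
  unfold nt
  simp only [h1, h2, h3, h4]
  ring


/-- **the corners of the mirrored region** -/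
theorem corner_ver' {L a b c : ℤ} (m : A.Mc L a b c) {p : ℤ × ℤ}
    (hp : p ∈ cv A.Hm ∨ p ∈ Cc841.rf A.Hm ∨ p ∈ dg A.Hm) :
    p ∈ A.Ver L 1 ∨ p = (A.xl, A.y0) ∨ p = (A.xr + 1, A.y0) := by
  have h1 := not_flat hp
  rcases corner_ver m fun h => h1 (flat_mir h) with h | h | h
  · exact Or.inl h
  · right; left
    rw [← A.mir_mir p, h]
    simp only [mir, Prod.mk.injEq, true_and]; ring
  · right; right
    rw [← A.mir_mir p, h]
    simp only [mir, Prod.mk.injEq, true_and]; ring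

theorem tiles_l : tA (A.xl, A.y0) ∉ A.H ∧ tB (A.xl, A.y0) ∈ A.H ∧ tC (A.xl, A.y0) ∉ A.H ∧
    tD (A.xl, A.y0) ∉ A.H := by
  have hx := A.hx
  have hY := A.hY
  have h01 := A.h1
  have hW := A.hW
  refine ⟨?_, ?_, ?_, ?_⟩
  · exact A.left _ _ (by omega) (by omega) (by omega) (by omega)
  · exact A.row _ _ (by omega) (by omega) (by omega) (by omega)
  · exact A.left _ _ (by omega) (by omega) (by omega) (by omega)
  · exact A.top _ _ (by omega) (by omega) (by omega) (by omega)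

theorem tiles_r : tA (A.xr + 1, A.y0) ∈ A.H ∧ tB (A.xr + 1, A.y0) ∉ A.H ∧
    tC (A.xr + 1, A.y0) ∉ A.H ∧ tD (A.xr + 1, A.y0) ∉ A.H := by
  have hx := A.hx
  have hY := A.hY
  have h01 := A.h1
  have hW := A.hW
  refine ⟨?_, ?_, ?_, ?_⟩
  · exact A.row _ _ (by omega) (by omega) (by omega) (by omega)
  · exact A.right _ _ (by omega) (by omega) (by omega) (by omega)
  · exact A.top _ _ (by omega) (by omega) (by omega) (by omega)
  · exact A.right _ _ (by omega) (by omega) (by omega) (by omega)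

theorem mir_l : A.mir (A.xl, A.y0) = (A.xl, A.y0) := by
  simp only [mir, Prod.mk.injEq, true_and]; ring

theorem mir_r : A.mir (A.xr + 1, A.y0) = (A.xr + 1, A.y0) := by
  simp only [mir, Prod.mk.injEq, true_and]; ring

theorem mem_cv_iff {R : Finset (ℤ × ℤ)} {p : ℤ × ℤ} : p ∈ cv R ↔ nt R p = 1 := by
  unfold cv
  rw [Finset.mem_filter]
  refine ⟨fun h => h.2, fun h => ⟨mem_Vx.2 ?_, h⟩⟩
  by_contra hcon
  push Not at hcon
  unfold nt at h
  rw [if_neg hcon.1, if_neg hcon.2.1, if_neg hcon.2.2.1, if_neg hcon.2.2.2] at h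
  omega

theorem mem_rf_iff {R : Finset (ℤ × ℤ)} {p : ℤ × ℤ} : p ∈ Cc841.rf R ↔ nt R p = 3 := by
  unfold Cc841.rf
  rw [Finset.mem_filter]
  refine ⟨fun h => h.2, fun h => ⟨mem_Vx.2 ?_, h⟩⟩
  by_contra hcon
  push Not at hcon
  unfold nt at h
  rw [if_neg hcon.1, if_neg hcon.2.1, if_neg hcon.2.2.1, if_neg hcon.2.2.2] at h
  omega

theorem cut_l : (A.xl, A.y0) ∈ cv A.Hm := by
  obtain ⟨h1, h2, h3, h4⟩ := A.tiles_l
  rw [mem_cv_iff, nt_mir, mir_l]
  unfold nt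
  rw [if_neg h1, if_pos h2, if_neg h3, if_neg h4]

theorem cut_r : (A.xr + 1, A.y0) ∈ cv A.Hm := by
  obtain ⟨h1, h2, h3, h4⟩ := A.tiles_r
  rw [mem_cv_iff, nt_mir, mir_r]
  unfold nt
  rw [if_pos h1, if_neg h2, if_neg h3, if_neg h4]

theorem ver_of_rf {L a b c : ℤ} (m : A.Mc L a b c) {p : ℤ × ℤ} (hp : p ∈ Cc841.rf A.Hm) :
    p ∈ A.Ver L 1 := by
  rcases corner_ver' m (Or.inr (Or.inl hp)) with h | h | h
  · exact h
  · have h1 := mem_cv_iff.1 A.cut_l
    rw [mem_rf_iff, h, h1] at hp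
    omega
  · have h1 := mem_cv_iff.1 A.cut_r
    rw [mem_rf_iff, h, h1] at hp
    omega

theorem ver_of_cv {L a b c : ℤ} (m : A.Mc L a b c) {p : ℤ × ℤ} (hp : p ∈ cv A.Hm)
    (h1 : p ≠ (A.xl, A.y0)) (h2 : p ≠ (A.xr + 1, A.y0)) : p ∈ A.Ver L 1 :=
  (corner_ver' m (Or.inl hp)).resolve_right fun h => h.elim h1 h2

/-- **the corners of the second copy** -/
def XC (A : Half) : Finset Sp :=
  (((cv A.Hm).erase (A.xl, A.y0)).erase (A.xr + 1, A.y0)).image
      (fun p => (⟨1, .cv, gcv A.Hm p, p⟩ : Sp)) ∪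
    ((Cc841.rf A.Hm).image (fun p => (⟨1, .rf, grf A.Hm p, p⟩ : Sp)) ∪
      {⟨2, .rf, 3, (A.xl, 2 * A.y0 - A.y1)⟩, ⟨2, .rf, 2, (A.xr + 1, 2 * A.y0 - A.y1)⟩})

theorem mem_XC {x : Sp} : x ∈ A.XC ↔
    (∃ p, p ∈ cv A.Hm ∧ p ≠ (A.xl, A.y0) ∧ p ≠ (A.xr + 1, A.y0) ∧
      x = ⟨1, .cv, gcv A.Hm p, p⟩) ∨
    (∃ p, p ∈ Cc841.rf A.Hm ∧ x = ⟨1, .rf, grf A.Hm p, p⟩) ∨
    x = ⟨2, .rf, 3, (A.xl, 2 * A.y0 - A.y1)⟩ ∨ x = ⟨2, .rf, 2, (A.xr + 1, 2 * A.y0 - A.y1)⟩ := by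
  unfold XC
  simp only [Finset.mem_union, Finset.mem_image, Finset.mem_erase, Finset.mem_insert,
    Finset.mem_singleton]
  constructor
  · rintro (⟨p, ⟨h1, h2, h3⟩, rfl⟩ | ⟨p, h1, rfl⟩ | h | h)
    · exact Or.inl ⟨p, h3, h2, h1, rfl⟩
    · exact Or.inr (Or.inl ⟨p, h1, rfl⟩)
    · exact Or.inr (Or.inr (Or.inl h))
    · exact Or.inr (Or.inr (Or.inr h))
  · rintro (⟨p, h1, h2, h3, rfl⟩ | ⟨p, h1, rfl⟩ | h | h)
    · exact Or.inl ⟨p, ⟨h3, h2, h1⟩, rfl⟩
    · exact Or.inr (Or.inl ⟨p, h1, rfl⟩)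
    · exact Or.inr (Or.inr (Or.inl h))
    · exact Or.inr (Or.inr (Or.inr h))

/-- location of the members -/
theorem XC_loc {L a b c : ℤ} (m : A.Mc L a b c) {x : Sp} (hx : x ∈ A.XC) :
    (x.i = 1 ∧ x.p ∈ A.Ver L 1 ∧ (x.f = .cv ∨ x.f = .rf)) ∨
      (x.i = 2 ∧ x.f = .rf ∧
        (x.p = (A.xl, 2 * A.y0 - A.y1) ∨ x.p = (A.xr + 1, 2 * A.y0 - A.y1))) := by
  rcases mem_XC.1 hx with ⟨p, h1, h2, h3, rfl⟩ | ⟨p, h1, rfl⟩ | rfl | rfl
  · exact Or.inl ⟨rfl, ver_of_cv m h1 h2 h3, Or.inl rfl⟩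
  · exact Or.inl ⟨rfl, ver_of_rf m h1, Or.inr rfl⟩
  · exact Or.inr ⟨rfl, rfl, Or.inl rfl⟩
  · exact Or.inr ⟨rfl, rfl, Or.inr rfl⟩

/-- members at the same place of the same chart are equal -/
theorem XC_inj {x y : Sp} (hx : x ∈ A.XC) (hy : y ∈ A.XC) (hi : x.i = y.i) (hp : x.p = y.p) :
    x = y := by
  have hlr := A.hx
  rcases mem_XC.1 hx with ⟨p, h1, h2, h3, rfl⟩ | ⟨p, h1, rfl⟩ | rfl | rfl <;>
    rcases mem_XC.1 hy with ⟨q, g1, g2, g3, rfl⟩ | ⟨q, g1, rfl⟩ | rfl | rfl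
  · cases hp; rfl
  · cases hp
    rw [mem_cv_iff] at h1
    rw [mem_rf_iff, h1] at g1
    omega
  · cases hi
  · cases hi
  · cases hp
    rw [mem_cv_iff] at g1
    rw [mem_rf_iff, g1] at h1
    omega
  · cases hp; rfl
  · cases hi
  · cases hi
  · cases hi
  · cases hi
  · rfl
  · have := congrArg Prod.fst hp
    simp only at this
    omega
  · cases hi
  · cases hi
  · have := congrArg Prod.fst hp
    simp only at this
    omega
  · rfl

end Half

end Crest.Agent.R158.Ka470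
end
private theorem rz_68ea38ee25 : type_of% @_root_.Crest.Agent.R158.Ka470.pcv.eq_1 := @_root_.Crest.Agent.R158.Ka470.pcv.eq_1 -- L31
private theorem rz_1de1c18a4d : type_of% @_root_.Crest.Agent.R158.Ka470.prf.eq_1 := @_root_.Crest.Agent.R158.Ka470.prf.eq_1 -- L39
end

-- ▼ part R158/Ka12_470

/-!
R158, block Q1d (helper470), part 12: the corners of the second copy are admissible special points.

* `rend_fe`, `rend_we` : ends of the rotated floor and wall are real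
* `CvC`, `RfC'` : charges across the vertices of the second copy; `XC_ok`
* `XC_comp`, `XC_nodg`, `cnt_cv`, `cnt_rf`, `cnt_le`, `card_XC`
-/

set_option autoImplicit false

noncomputable section

namespace Crest.Agent.R158.Ka470

open Crest.Agent.R158.Nm211
open Crest.Agent.R158.Env664 (TG D mem_D)
open Crest.Agent.R158.Cc841 (tA tB tC tD nt Vx mem_Vx cv dg HConn cvh mem_cvh)
open Crest.Agent.R158.Nz399 (Kind Tk mem_Tk qd pl rt patK patK_pl pl_Bv fe we Chg SpOk XOk Sp Fk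
  Tf kd cnt mouth_l mouth_r)
open Crest.Agent.R158.Pt266 (dir)
open Crest.Agent.R158.Lr158 (REnd)

namespace Half

variable {A : Half} {ρ : ℕ}





/-- **charges across a convex vertex of the second copy** -/
def CvC (h : A.Sz ρ) (L : ℤ) (C : Fin 4 → (ℤ × ℤ) × ZMod 4 → ℤ) : Prop :=
  ∀ p ∈ A.Ver L 1, ∀ g < 4, Patt (chf h 1).R (Bv (5 * ρ) p) p (patK .cv g) →
    ∀ a b : ℤ, 0 ≤ a → a < ((5 * ρ : ℕ) : ℤ) → 0 ≤ b → b < ((5 * ρ : ℕ) : ℤ) →
      C 1 (fe g p a) = C 1 (we g p b)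

/-- **charges across a reflex vertex of the second copy** (= 808's `RfC`) -/
def RfC' (h : A.Sz ρ) (L : ℤ) (C : Fin 4 → (ℤ × ℤ) × ZMod 4 → ℤ) : Prop :=
  ∀ i : Fin 4, ∀ p ∈ A.Ver L i, i = 1 ∨ (i = 2 ∧ p.2 = 2 * A.y0 - A.y1) → ∀ g < 4,
    Patt (chf h i).R (Bv (5 * ρ) p) p (patK .rf g) → ∀ a b : ℤ, -((5 * ρ : ℕ) : ℤ) ≤ a →
      a < 0 → -((5 * ρ : ℕ) : ℤ) ≤ b → b < 0 → C i (we g p a) = C i (fe g p b)



theorem chg_cv {h : A.Sz ρ} {L : ℤ} {C : Fin 4 → (ℤ × ℤ) × ZMod 4 → ℤ} (hC : CvC h L C) {n : ℕ}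
    (hn : n ≤ 5 * ρ) {p : ℤ × ℤ} (hp : p ∈ A.Ver L 1) {g : ℕ} (hg : g < 4)
    (hP : Patt (chf h 1).R (Bv (5 * ρ) p) p (patK .cv g)) : Chg (C 1) n g p .cv true :=
  ⟨rfl, fun a b ha ha' hb hb' => hC p hp g hg hP a b ha (by omega) hb (by omega)⟩

theorem chg_rf {h : A.Sz ρ} {L : ℤ} {C : Fin 4 → (ℤ × ℤ) × ZMod 4 → ℤ} (hC : RfC' h L C) {n : ℕ}
    (hn : n ≤ 5 * ρ) {i : Fin 4} {p : ℤ × ℤ} (hp : p ∈ A.Ver L i)
    (hi : i = 1 ∨ (i = 2 ∧ p.2 = 2 * A.y0 - A.y1)) {g : ℕ} (hg : g < 4)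
    (hP : Patt (chf h i).R (Bv (5 * ρ) p) p (patK .rf g)) : Chg (C i) n g p .rf true :=
  ⟨rfl, fun a b ha ha' hb hb' => hC i p hp hi g hg hP a b (by omega) ha' (by omega) hb'⟩



theorem copy2 (h : A.Sz ρ) {v : ℤ × ℤ} (hv : A.y0 ≤ v.2) : ((chf h 2).emb v).2 = true :=
  A.kk_ge hv

/-- **the corners are admissible** -/
theorem XC_ok {L a b c : ℤ} (m : A.Mc L a b c) (h : A.Sz ρ) (h' : A.Sz' ρ L)
    (h5 : 5 * (ρ : ℤ) ≤ A.y0 - A.y1) {C : Fin 4 → (ℤ × ℤ) × ZMod 4 → ℤ} (hC1 : CvC h L C)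
    (hC2 : RfC' h L C) {x : Sp} (hx : x ∈ A.XC) : SpOk h C x := by
  have hρ := h.pos
  have e3 : 3 * ρ ≤ 5 * ρ := by omega
  have e5 : 1 ≤ 5 * ρ := by omega
  rcases mem_XC.1 hx with ⟨p, h1, h2, h3, rfl⟩ | ⟨p, h1, rfl⟩ | rfl | rfl
  · have hv := ver_of_cv m h1 h2 h3
    obtain ⟨hg, pat, hpat⟩ := vert m h h' hv
    have hP : Patt (chf h 1).R (Bv (5 * ρ) p) p (patK .cv (gcv A.Hm p)) := patt_cv e5 hpat h1
    exact ⟨hg, hP, true, fun u _ _ => rfl, chg_cv hC1 e3 hv (gcv_lt _ _) hP⟩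
  · have hv := ver_of_rf m h1
    obtain ⟨hg, pat, hpat⟩ := vert m h h' hv
    have hP : Patt (chf h 1).R (Bv (5 * ρ) p) p (patK .rf (grf A.Hm p)) := patt_rfx e5 hpat h1
    exact ⟨hg, hP, true, fun u _ _ => rfl, chg_rf hC2 e3 hv (Or.inl rfl) (grf_lt _ _) hP⟩
  · obtain ⟨hg, hP⟩ := mouth_l m h h'
    refine ⟨hg, hP, true, fun u hu _ => copy2 h ?_, chg_rf (i := 2) hC2 e3
      ⟨Or.inl rfl, Or.inr rfl⟩ (Or.inr ⟨rfl, rfl⟩) (g := 3) (by norm_num) hP⟩
    obtain ⟨-, h1, -⟩ := hu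
    push_cast at h1
    omega
  · obtain ⟨hg, hP⟩ := mouth_r m h h'
    refine ⟨hg, hP, true, fun u hu _ => copy2 h ?_, chg_rf (i := 2) hC2 e3
      ⟨Or.inr rfl, Or.inr rfl⟩ (Or.inr ⟨rfl, rfl⟩) (g := 2) (by norm_num) hP⟩
    obtain ⟨-, h1, -⟩ := hu
    push_cast at h1
    omega

/-- **all the convex corners of the second copy are in the list** -/
theorem XC_comp {L a b c : ℤ} (m : A.Mc L a b c) (h : A.Sz ρ) {p : ℤ × ℤ} (hp : p ∈ A.Ver L 1)
    {g : ℕ} (hg : g < 4) (hP : Patt (chf h 1).R (Bv (5 * ρ) p) p (patK .cv g)) :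
    (⟨1, .cv, g, p⟩ : Sp) ∈ A.XC := by
  have hρ := h.pos
  obtain ⟨h1, h2⟩ := cv_of_patt (by omega) hg hP
  have h3 := hp.2
  refine mem_XC.2 (Or.inl ⟨p, h1, ?_, ?_, ?_⟩)
  · rintro rfl
    refine Cc841.not_mac m ?_
    simp only at h3
    rwa [show 2 * A.y0 - A.y0 = A.y0 by ring] at h3
  · rintro rfl
    refine Cc841.not_mac m ?_
    simp only at h3
    rwa [show 2 * A.y0 - A.y0 = A.y0 by ring] at h3
  · have h4 : gcv A.Hm p = g := h2
    rw [h4]

/-! ### counts -/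

theorem mem_mir {S : Finset (ℤ × ℤ)} {p : ℤ × ℤ} : p ∈ S.image A.mir ↔ A.mir p ∈ S := by
  rw [Finset.mem_image]
  constructor
  · rintro ⟨q, hq, rfl⟩
    rwa [A.mir_mir]
  · intro h
    exact ⟨_, h, A.mir_mir p⟩

theorem card_mir (S : Finset (ℤ × ℤ)) : (S.image A.mir).card = S.card :=
  Finset.card_image_of_injective _ fun p q e => by
    rw [← A.mir_mir p, e, A.mir_mir]

theorem erase_mir : ((cv A.Hm).erase (A.xl, A.y0)).erase (A.xr + 1, A.y0) = (cvh A).image A.mir := by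
  ext p
  have e : ∀ q : ℤ × ℤ, A.mir q = q → (A.mir p = q ↔ p = q) := fun q hq =>
    ⟨fun h => by rw [← A.mir_mir p, h, hq], fun h => by rw [h, hq]⟩
  rw [mem_mir, mem_cvh, Finset.mem_erase, Finset.mem_erase, mem_cv_iff, nt_mir, Ne, Ne, Ne, Ne,
    e _ A.mir_l, e _ A.mir_r]
  tauto

theorem rf_mir : Cc841.rf A.Hm = (Cc841.rf A.H).image A.mir := by
  ext p
  rw [mem_mir, mem_rf_iff, mem_rf_iff, nt_mir]

theorem cnt_cv : cnt A.XC .cv = (cvh A).card := by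
  have e : A.XC.filter (fun x => x.f = .cv) =
      (((cv A.Hm).erase (A.xl, A.y0)).erase (A.xr + 1, A.y0)).image
        (fun p => (⟨1, .cv, gcv A.Hm p, p⟩ : Sp)) := by
    ext x
    rw [Finset.mem_filter, mem_XC, Finset.mem_image]
    constructor
    · rintro ⟨⟨p, h1, h2, h3, rfl⟩ | ⟨p, h1, rfl⟩ | rfl | rfl, h4⟩
      · exact ⟨p, Finset.mem_erase.2 ⟨h3, Finset.mem_erase.2 ⟨h2, h1⟩⟩, rfl⟩
      all_goals cases h4
    · rintro ⟨p, hp, rfl⟩
      obtain ⟨h3, h4⟩ := Finset.mem_erase.1 hp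
      obtain ⟨h2, h1⟩ := Finset.mem_erase.1 h4
      exact ⟨Or.inl ⟨p, h1, h2, h3, rfl⟩, rfl⟩
  unfold cnt
  rw [e, Finset.card_image_of_injective, erase_mir, card_mir]
  intro p q hpq
  exact congrArg Sp.p hpq

theorem cnt_rf : cnt A.XC .rf = (Cc841.rf A.H).card + 2 := by
  have e : A.XC.filter (fun x => x.f = .rf) =
      (Cc841.rf A.Hm).image (fun p => (⟨1, .rf, grf A.Hm p, p⟩ : Sp)) ∪
        {⟨2, .rf, 3, (A.xl, 2 * A.y0 - A.y1)⟩, ⟨2, .rf, 2, (A.xr + 1, 2 * A.y0 - A.y1)⟩} := by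
    ext x
    rw [Finset.mem_filter, mem_XC, Finset.mem_union, Finset.mem_image, Finset.mem_insert,
      Finset.mem_singleton]
    constructor
    · rintro ⟨⟨p, h1, h2, h3, rfl⟩ | ⟨p, h1, rfl⟩ | rfl | rfl, h4⟩
      · cases h4
      · exact Or.inl ⟨p, h1, rfl⟩
      · exact Or.inr (Or.inl rfl)
      · exact Or.inr (Or.inr rfl)
    · rintro (⟨p, hp, rfl⟩ | rfl | rfl)
      · exact ⟨Or.inr (Or.inl ⟨p, hp, rfl⟩), rfl⟩
      · exact ⟨Or.inr (Or.inr (Or.inl rfl)), rfl⟩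
      · exact ⟨Or.inr (Or.inr (Or.inr rfl)), rfl⟩
  unfold cnt
  rw [e, Finset.card_union_of_disjoint, Finset.card_image_of_injective, rf_mir, card_mir,
    Finset.card_pair]
  · intro h
    cases h
  · intro p q hpq
    exact congrArg Sp.p hpq
  · rw [Finset.disjoint_left]
    intro x hx hx'
    obtain ⟨p, -, rfl⟩ := Finset.mem_image.1 hx
    rw [Finset.mem_insert, Finset.mem_singleton] at hx'
    rcases hx' with h | h <;> cases h

theorem cnt_zero {f : Fk} (h1 : f ≠ .cv) (h2 : f ≠ .rf) : cnt A.XC f = 0 := by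
  unfold cnt
  rw [Finset.card_eq_zero, Finset.filter_eq_empty_iff]
  intro x hx hf
  rcases mem_XC.1 hx with ⟨p, -, -, -, rfl⟩ | ⟨p, -, rfl⟩ | rfl | rfl
  · exact h1 hf.symm
  all_goals exact h2 hf.symm

/-- **at least as many reflex corners as convex ones** -/
theorem cnt_le (hc : HConn A.H) : cnt A.XC .cv ≤ cnt A.XC .rf := by
  have h := Cc841.half_count hc
  rw [cnt_cv, cnt_rf]
  omega

theorem cnt_union {X Y : Finset Sp} (hd : Disjoint X Y) (f : Fk) :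
    cnt (X ∪ Y) f = cnt X f + cnt Y f := by
  unfold cnt
  rw [Finset.filter_union, Finset.card_union_of_disjoint (Finset.disjoint_filter_filter hd)]

/-- **number of corners** -/
theorem card_XC {L a b c : ℤ} (m : A.Mc L a b c) {F : Finset (ℤ × ℤ)} (hF : A.H ⊆ D F L) :
    A.XC.card ≤ 4 * F.card + 2 := by
  classical
  have hL := m.hL
  have h1 : A.XC.card ≤ (cvh A).card + ((Cc841.rf A.H).card + 2) := by
    unfold XC
    refine (Finset.card_union_le _ _).trans (Nat.add_le_add ?_ ?_)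
    · refine Finset.card_image_le.trans ?_
      rw [erase_mir, card_mir]
    · refine (Finset.card_union_le _ _).trans (Nat.add_le_add ?_ Finset.card_le_two)
      refine Finset.card_image_le.trans ?_
      rw [rf_mir, card_mir]
  have h2 : (cvh A ∪ Cc841.rf A.H).card ≤ 4 * F.card := by
    have hsub : cvh A ∪ Cc841.rf A.H ⊆
        (F.image fun u => (L * (u.1 + 1), L * (u.2 + 1))) ∪
        ((F.image fun u => (L * u.1, L * (u.2 + 1))) ∪
        ((F.image fun u => (L * (u.1 + 1), L * u.2)) ∪ (F.image fun u => (L * u.1, L * u.2)))) := by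
      intro p hp
      have hv : L ∣ p.1 ∧ L ∣ p.2 := by
        rcases Finset.mem_union.1 hp with h | h
        · exact Cc841.cvh_ver m h
        · exact Cc841.rf_ver m h
      have hV : tA p ∈ A.H ∨ tB p ∈ A.H ∨ tC p ∈ A.H ∨ tD p ∈ A.H := by
        rcases Finset.mem_union.1 hp with h | h
        · have h3 := (mem_cvh.1 h).1
          rw [← Cc841.mem_cv] at h3
          exact mem_Vx.1 (Finset.mem_filter.1 h3).1
        · exact mem_Vx.1 (Finset.mem_filter.1 h).1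
      obtain ⟨⟨i, hi⟩, j, hj⟩ := hv
      obtain ⟨e1, e2, e3, e4⟩ := Cc841.cell_eq hL i j
      obtain ⟨x, y⟩ := p
      simp only at hi hj
      subst hi hj
      simp only [Finset.mem_union, Finset.mem_image]
      rcases hV with h | h | h | h
      · left
        have h4 := (mem_D hL _).1 (hF h)
        simp only [tA] at h4
        rw [e4] at h4
        exact ⟨_, h4, by simp⟩
      · right; left
        have h4 := (mem_D hL _).1 (hF h)
        simp only [tB] at h4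
        rw [e3] at h4
        exact ⟨_, h4, by simp⟩
      · right; right; left
        have h4 := (mem_D hL _).1 (hF h)
        simp only [tC] at h4
        rw [e2] at h4
        exact ⟨_, h4, by simp⟩
      · right; right; right
        have h4 := (mem_D hL _).1 (hF h)
        simp only [tD] at h4
        rw [e1] at h4
        exact ⟨_, h4, rfl⟩
    refine (Finset.card_le_card hsub).trans ?_
    refine (Finset.card_union_le _ _).trans ?_
    have k1 := Finset.card_image_le (s := F) (f := fun u : ℤ × ℤ => (L * (u.1 + 1), L * (u.2 + 1)))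
    have k2 := Finset.card_image_le (s := F) (f := fun u : ℤ × ℤ => (L * u.1, L * (u.2 + 1)))
    have k3 := Finset.card_image_le (s := F) (f := fun u : ℤ × ℤ => (L * (u.1 + 1), L * u.2))
    have k4 := Finset.card_image_le (s := F) (f := fun u : ℤ × ℤ => (L * u.1, L * u.2))
    have k5 := Finset.card_union_le (F.image fun u => (L * u.1, L * (u.2 + 1)))
      ((F.image fun u => (L * (u.1 + 1), L * u.2)) ∪ (F.image fun u => (L * u.1, L * u.2)))
    have k6 := Finset.card_union_le (F.image fun u => (L * (u.1 + 1), L * u.2))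
      (F.image fun u => (L * u.1, L * u.2))
    omega
  have h3 : (cvh A ∪ Cc841.rf A.H).card = (cvh A).card + (Cc841.rf A.H).card := by
    refine Finset.card_union_of_disjoint (Finset.disjoint_left.2 fun p hp hp' => ?_)
    have g1 := (mem_cvh.1 hp).1
    rw [Cc841.mem_rf, g1] at hp'
    omega
  omega

end Half

end Crest.Agent.R158.Ka470
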