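import Crest.Agent.R158.Ka1_470
import Crest.Agent.R158.Env_664

-- ▼ part R158/Ka2_470
section

/-!
R158, leaf F1 + deterministic half of F2 (helper470), part 2: windows.

`B1 ρ o` is the square `[o, o + ρ)²`, `B3 ρ o` the square of side `3ρ` around it.  A strand (arc or
loop) that visits a tile of `B1 ρ o` of a chart is contained in the part of the chart in `B3 ρ o` or
it crosses one of the four windows `[o.1 - ρ, o.1 + 2ρ) × [o.2 + ρ, o.2 + 2ρ)`, ... from the inner to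
the outer side.  Hence all exponential moments of the number of such strands are bounded.
-/

set_option autoImplicit false

namespace Crest.Agent.R158.Ka470

open Crest.Agent.R158.Nm211
open Crest.Agent.R158.Sw300 (thru)
open MeasureTheory

variable {T : Type*} {G : T × ZMod 4 → T × ZMod 4 → Prop}

/-- square of side `ρ` -/
def B1 (ρ : ℕ) (o : ℤ × ℤ) : Set (ℤ × ℤ) :=
  {v | (o.1 ≤ v.1 ∧ v.1 < o.1 + ρ) ∧ o.2 ≤ v.2 ∧ v.2 < o.2 + ρ}

/-- square of side `3ρ` -/
def B3 (ρ : ℕ) (o : ℤ × ℤ) : Set (ℤ × ℤ) :=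
  {v | (o.1 - ρ ≤ v.1 ∧ v.1 < o.1 + 2 * ρ) ∧ o.2 - ρ ≤ v.2 ∧ v.2 < o.2 + 2 * ρ}

theorem B1_sub (ρ : ℕ) (o : ℤ × ℤ) : B1 ρ o ⊆ B3 ρ o := by
  rintro ⟨x, y⟩ ⟨⟨h1, h2⟩, h3, h4⟩
  simp only at h1 h2 h3 h4
  refine ⟨⟨?_, ?_⟩, ?_, ?_⟩ <;> simp only <;> omega

/-- the chart sees the set `B` completely -/
def View (C : Ch T G) (B : Set (ℤ × ℤ)) : Prop :=
  ∀ v ∈ C.R, v ∈ B → ∀ d : Dir, mv v d ∈ B → mv v d ∉ C.R → Free G (C.pt v (ex d))

/-- windows -/
def WB (ρ : ℕ) (o : ℤ × ℤ) (d : Dir) : Set (ℤ × ℤ) :=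
  match d with
  | 0 => {v | (o.1 - ρ ≤ v.1 ∧ v.1 < o.1 + 2 * ρ) ∧ o.2 + ρ ≤ v.2 ∧ v.2 < o.2 + 2 * ρ}
  | 1 => {v | (o.1 + ρ ≤ v.1 ∧ v.1 < o.1 + 2 * ρ) ∧ o.2 - ρ ≤ v.2 ∧ v.2 < o.2 + 2 * ρ}
  | 2 => {v | (o.1 - ρ ≤ v.1 ∧ v.1 < o.1 + 2 * ρ) ∧ o.2 - ρ ≤ v.2 ∧ v.2 < o.2}
  | 3 => {v | (o.1 - ρ ≤ v.1 ∧ v.1 < o.1) ∧ o.2 - ρ ≤ v.2 ∧ v.2 < o.2 + 2 * ρ}

/-- states entering a window -/
noncomputable def XW (ρ : ℕ) (o : ℤ × ℤ) (d : Dir) : Finset (St ℤ) :=
  match d with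
  | 0 => (Finset.Ico (o.1 - ρ) (o.1 + 2 * ρ)).image fun x => ((x, o.2 + ρ), (0 : Dir))
  | 1 => (Finset.Ico (o.2 - ρ) (o.2 + 2 * ρ)).image fun y => ((o.1 + ρ, y), (1 : Dir))
  | 2 => (Finset.Ico (o.1 - ρ) (o.1 + 2 * ρ)).image fun x => ((x, o.2 - 1), (2 : Dir))
  | 3 => (Finset.Ico (o.2 - ρ) (o.2 + 2 * ρ)).image fun y => ((o.1 - 1, y), (3 : Dir))

/-- states beyond a window -/
def YW (ρ : ℕ) (o : ℤ × ℤ) (d : Dir) : Set (St ℤ) :=
  match d with
  | 0 => {c | o.2 + 2 * ρ ≤ c.1.2}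
  | 1 => {c | o.1 + 2 * ρ ≤ c.1.1}
  | 2 => {c | c.1.2 < o.2 - ρ}
  | 3 => {c | c.1.1 < o.1 - ρ}

/-- states in the part of the window seen by the chart -/
def DW (C : Ch T G) (ρ : ℕ) (o : ℤ × ℤ) (d : Dir) : Set (St ℤ) := {c | c.1 ∈ C.R ∧ c.1 ∈ WB ρ o d}

/-- `c` crosses the window -/
def Cross (C : Ch T G) (s : T → Bool) (ρ : ℕ) (o : ℤ × ℤ) (d : Dir) (c : St ℤ) : Prop :=
  c ∈ XW ρ o d ∧ Hit (C.f s) (DW C ρ o d) (YW ρ o d) c

theorem step_pos (C : Ch T G) (s : T → Bool) (c : St ℤ) :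
    (C.f s c).1.1 = c.1.1 + dx (C.f s c).2 ∧ (C.f s c).1.2 = c.1.2 + dy (C.f s c).2 := by
  have h : (C.f s c).1 = mv c.1 (C.f s c).2 := rfl
  rw [h]
  simp [mv]

theorem dxy (d : Dir) : (d = 0 ∧ dx d = 0 ∧ dy d = 1) ∨ (d = 1 ∧ dx d = 1 ∧ dy d = 0) ∨
    (d = 2 ∧ dx d = 0 ∧ dy d = -1) ∨ (d = 3 ∧ dx d = -1 ∧ dy d = 0) := by
  fin_cases d <;> simp [dx, dy]


/-- **leaving the big square means crossing a window**. -/
theorem exists_cross (C : Ch T G) (s : T → Bool) {ρ : ℕ} {o : ℤ × ℤ} {c : St ℤ}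
    (hc : c.1 ∈ B1 ρ o) {m : ℕ} (hR : ∀ j < m, ((C.f s)^[j] c).1 ∈ C.R)
    (hB : ∀ j < m, ((C.f s)^[j] c).1 ∈ B3 ρ o) (hm : ((C.f s)^[m] c).1 ∉ B3 ρ o) :
    ∃ d : Dir, ∃ j < m, Cross C s ρ o d ((C.f s)^[j] c) := by
  have hm0 : m ≠ 0 := by
    rintro rfl
    exact hm (B1_sub _ _ hc)
  obtain ⟨k, rfl⟩ := Nat.exists_eq_succ_of_ne_zero hm0
  set p : ℕ → St ℤ := fun j => (C.f s)^[j] c with hp
  have hstep : ∀ j, (p (j + 1)).1.1 = (p j).1.1 + dx (p (j + 1)).2 ∧
      (p (j + 1)).1.2 = (p j).1.2 + dy (p (j + 1)).2 := by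
    intro j
    have : p (j + 1) = C.f s (p j) := Function.iterate_succ_apply' _ _ _
    rw [this]
    exact step_pos C s (p j)
  have hk := hB k (Nat.lt_succ_self k)
  have hs := hstep k
  have hk' : p k ∈ {c : St ℤ | c.1 ∈ B3 ρ o} := hk
  have hm' : ¬ ((p (k + 1)).1 ∈ B3 ρ o) := hm
  simp only [B3, Set.mem_ofPred_eq] at hk' hm'
  simp only [B1, Set.mem_ofPred_eq] at hc
  have hp0 : p 0 = c := rfl
  have hin : ∀ j < k + 1, (o.1 - ρ ≤ (p j).1.1 ∧ (p j).1.1 < o.1 + 2 * ρ) ∧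
      o.2 - ρ ≤ (p j).1.2 ∧ (p j).1.2 < o.2 + 2 * ρ := hB
  -- the iterates after `j`
  have hit : ∀ (d : Dir) (j : ℕ), j < k + 1 → (∀ i, j ≤ i → i < k + 1 → (p i).1 ∈ WB ρ o d) →
      p (k + 1) ∈ YW ρ o d → Hit (C.f s) (DW C ρ o d) (YW ρ o d) (p j) := by
    intro d j hj h1 h2
    refine ⟨k + 1 - j, fun i hi => ?_, ?_⟩
    · have : (C.f s)^[i] (p j) = p (i + j) := by
        simp only [hp]; rw [Function.iterate_add_apply]
      rw [this]
      exact ⟨hR _ (by omega), h1 _ (by omega) (by omega)⟩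
    · have : (C.f s)^[k + 1 - j] (p j) = p (k + 1) := by
        simp only [hp]; rw [← Function.iterate_add_apply, Nat.sub_add_cancel hj.le]
      rw [this]; exact h2
  rcases dxy (p (k + 1)).2 with ⟨hd, h1, h2⟩ | ⟨hd, h1, h2⟩ | ⟨hd, h1, h2⟩ | ⟨hd, h1, h2⟩
  · -- north
    have hY : o.2 + 2 * ρ ≤ (p (k + 1)).1.2 := by
      by_contra h; exact hm' ⟨⟨by omega, by omega⟩, by omega, by omega⟩
    obtain ⟨j, hj, hj1, hj2⟩ := last_low (f := fun j => (p j).1.2) (A := o.2 + ρ - 1) (m := k + 1)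
      (by rw [hp0]; omega) (by omega)
    have hj' := hj2 (j + 1) (by omega) (by omega)
    have hsj := hstep j
    have hjk : j + 1 < k + 1 := by
      rcases Nat.lt_or_ge (j + 1) (k + 1) with h | h
      · exact h
      · exfalso
        have : j = k := by omega
        subst this
        have hρ : (0 : ℤ) < ρ := by omega
        omega
    have hin1 := hin (j + 1) hjk
    have hdir : (p (j + 1)).2 = 0 := by
      rcases dxy (p (j + 1)).2 with ⟨h, h3, h4⟩ | ⟨h, h3, h4⟩ | ⟨h, h3, h4⟩ | ⟨h, h3, h4⟩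
      · exact h
      all_goals (exfalso; omega)
    have hdy : dy (p (j + 1)).2 = 1 := by rw [hdir]; rfl
    refine ⟨0, j + 1, hjk, ?_, hit 0 (j + 1) hjk (fun i hi hi' => ?_) hY⟩
    · simp only [XW, Finset.mem_image, Finset.mem_Ico]
      refine ⟨(p (j + 1)).1.1, hin1.1, ?_⟩
      refine Prod.ext (Prod.ext rfl ?_) hdir.symm
      have e1 : ((C.f s)^[j + 1] c).1.1 = (p (j + 1)).1.1 := rfl
      have e2 : ((C.f s)^[j + 1] c).1.2 = (p (j + 1)).1.2 := rfl
      simp only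
      omega
    · have := hin i hi'
      have := hj2 i (by omega) (by omega)
      simp only [WB, Set.mem_ofPred_eq]
      omega
  · -- east
    have hY : o.1 + 2 * ρ ≤ (p (k + 1)).1.1 := by
      by_contra h; exact hm' ⟨⟨by omega, by omega⟩, by omega, by omega⟩
    obtain ⟨j, hj, hj1, hj2⟩ := last_low (f := fun j => (p j).1.1) (A := o.1 + ρ - 1) (m := k + 1)
      (by rw [hp0]; omega) (by omega)
    have hj' := hj2 (j + 1) (by omega) (by omega)
    have hsj := hstep j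
    have hjk : j + 1 < k + 1 := by
      rcases Nat.lt_or_ge (j + 1) (k + 1) with h | h
      · exact h
      · exfalso
        have : j = k := by omega
        subst this
        have hρ : (0 : ℤ) < ρ := by omega
        omega
    have hin1 := hin (j + 1) hjk
    have hdir : (p (j + 1)).2 = 1 := by
      rcases dxy (p (j + 1)).2 with ⟨h, h3, h4⟩ | ⟨h, h3, h4⟩ | ⟨h, h3, h4⟩ | ⟨h, h3, h4⟩
      · exfalso; omega
      · exact h
      all_goals (exfalso; omega)
    have hdy : dx (p (j + 1)).2 = 1 := by rw [hdir]; rfl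
    refine ⟨1, j + 1, hjk, ?_, hit 1 (j + 1) hjk (fun i hi hi' => ?_) hY⟩
    · simp only [XW, Finset.mem_image, Finset.mem_Ico]
      refine ⟨(p (j + 1)).1.2, hin1.2, ?_⟩
      refine Prod.ext (Prod.ext ?_ rfl) hdir.symm
      have e1 : ((C.f s)^[j + 1] c).1.1 = (p (j + 1)).1.1 := rfl
      have e2 : ((C.f s)^[j + 1] c).1.2 = (p (j + 1)).1.2 := rfl
      simp only
      omega
    · have := hin i hi'
      have := hj2 i (by omega) (by omega)
      simp only [WB, Set.mem_ofPred_eq]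
      omega
  · -- south
    have hY : (p (k + 1)).1.2 < o.2 - ρ := by
      by_contra h; exact hm' ⟨⟨by omega, by omega⟩, by omega, by omega⟩
    obtain ⟨j, hj, hj1, hj2⟩ := last_low (f := fun j => -(p j).1.2) (A := -o.2) (m := k + 1)
      (by rw [hp0]; omega) (by omega)
    have hj' := hj2 (j + 1) (by omega) (by omega)
    have hsj := hstep j
    have hjk : j + 1 < k + 1 := by
      rcases Nat.lt_or_ge (j + 1) (k + 1) with h | h
      · exact h
      · exfalso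
        have : j = k := by omega
        subst this
        have hρ : (0 : ℤ) < ρ := by omega
        omega
    have hin1 := hin (j + 1) hjk
    have hdir : (p (j + 1)).2 = 2 := by
      rcases dxy (p (j + 1)).2 with ⟨h, h3, h4⟩ | ⟨h, h3, h4⟩ | ⟨h, h3, h4⟩ | ⟨h, h3, h4⟩
      · exfalso; omega
      · exfalso; omega
      · exact h
      all_goals (exfalso; omega)
    have hdy : dy (p (j + 1)).2 = -1 := by rw [hdir]; rfl
    refine ⟨2, j + 1, hjk, ?_, hit 2 (j + 1) hjk (fun i hi hi' => ?_) hY⟩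
    · simp only [XW, Finset.mem_image, Finset.mem_Ico]
      refine ⟨(p (j + 1)).1.1, hin1.1, ?_⟩
      refine Prod.ext (Prod.ext rfl ?_) hdir.symm
      have e1 : ((C.f s)^[j + 1] c).1.1 = (p (j + 1)).1.1 := rfl
      have e2 : ((C.f s)^[j + 1] c).1.2 = (p (j + 1)).1.2 := rfl
      simp only
      omega
    · have := hin i hi'
      have := hj2 i (by omega) (by omega)
      simp only [WB, Set.mem_ofPred_eq]
      omega
  · -- west
    have hY : (p (k + 1)).1.1 < o.1 - ρ := by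
      by_contra h; exact hm' ⟨⟨by omega, by omega⟩, by omega, by omega⟩
    obtain ⟨j, hj, hj1, hj2⟩ := last_low (f := fun j => -(p j).1.1) (A := -o.1) (m := k + 1)
      (by rw [hp0]; omega) (by omega)
    have hj' := hj2 (j + 1) (by omega) (by omega)
    have hsj := hstep j
    have hjk : j + 1 < k + 1 := by
      rcases Nat.lt_or_ge (j + 1) (k + 1) with h | h
      · exact h
      · exfalso
        have : j = k := by omega
        subst this
        have hρ : (0 : ℤ) < ρ := by omega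
        omega
    have hin1 := hin (j + 1) hjk
    have hdir : (p (j + 1)).2 = 3 := by
      rcases dxy (p (j + 1)).2 with ⟨h, h3, h4⟩ | ⟨h, h3, h4⟩ | ⟨h, h3, h4⟩ | ⟨h, h3, h4⟩
      · exfalso; omega
      · exfalso; omega
      · exfalso; omega
      · exact h
    have hdy : dx (p (j + 1)).2 = -1 := by rw [hdir]; rfl
    refine ⟨3, j + 1, hjk, ?_, hit 3 (j + 1) hjk (fun i hi hi' => ?_) hY⟩
    · simp only [XW, Finset.mem_image, Finset.mem_Ico]
      refine ⟨(p (j + 1)).1.2, hin1.2, ?_⟩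
      refine Prod.ext (Prod.ext ?_ rfl) hdir.symm
      have e1 : ((C.f s)^[j + 1] c).1.1 = (p (j + 1)).1.1 := rfl
      have e2 : ((C.f s)^[j + 1] c).1.2 = (p (j + 1)).1.2 := rfl
      simp only
      omega
    · have := hin i hi'
      have := hj2 i (by omega) (by omega)
      simp only [WB, Set.mem_ofPred_eq]
      omega

/-- **dichotomy**: a walk of the complex that starts in `B1 ρ o` stays in the part of the chart in
`B3 ρ o`, or it crosses one of the four windows. -/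
theorem walk_dich {C : Ch T G} (hG : ∀ p q r, G p q → G p r → q = r) {s : T → Bool} {ρ : ℕ}
    {o : ℤ × ℤ} {c : St ℤ} (hc : c.1 ∈ C.R) (hc1 : c.1 ∈ B1 ρ o) (hV : View C (B3 ρ o))
    {y : T × ZMod 4} {l : List (T × ZMod 4)} (hw : Wk s G (C.pe c) y l) :
    (∃ m, (∀ j ≤ m, ((C.f s)^[j] c).1 ∈ C.R ∧ ((C.f s)^[j] c).1 ∈ B3 ρ o) ∧
      l = (List.range (m + 1)).map (fun j => C.pe ((C.f s)^[j] c)) ∧
      y = C.pt ((C.f s)^[m] c).1 (ex ((C.f s)^[m + 1] c).2)) ∨
    ∃ d : Dir, ∃ c', Cross C s ρ o d c' ∧ C.pe c' ∈ l := by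
  induction hw with
  | one =>
    left
    refine ⟨0, fun j hj => ?_, ?_, ?_⟩
    · have : j = 0 := by omega
      subst this
      exact ⟨hc, B1_sub _ _ hc1⟩
    · simp
    · exact C.exit_eq s c
  | @snoc q r l hw hg ih =>
    rcases ih with ⟨m, h1, h2, h3⟩ | ⟨d, c', h1, h2⟩
    swap
    · exact Or.inr ⟨d, c', h1, List.mem_append_left _ h2⟩
    have h4 : ((C.f s)^[m + 1] c).1 = mv ((C.f s)^[m] c).1 ((C.f s)^[m + 1] c).2 := by
      rw [Function.iterate_succ_apply']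
      rfl
    by_cases hB : ((C.f s)^[m + 1] c).1 ∈ B3 ρ o
    · left
      -- the next position is in the region
      have hnext : ((C.f s)^[m + 1] c).1 ∈ C.R := by
        by_contra hcon
        rw [h4] at hcon hB
        have h5 := hV _ (h1 m le_rfl).1 (h1 m le_rfl).2 _ hB hcon r
        rw [← h3] at h5
        exact h5 hg
      have h6 : G (C.pt ((C.f s)^[m] c).1 (ex ((C.f s)^[m + 1] c).2))
          (C.pe ((C.f s)^[m + 1] c)) := by
        rw [Function.iterate_succ_apply'] at hnext ⊢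
        exact C.glue_next s (h1 m le_rfl).1 hnext
      rw [← h3] at h6
      have hr : r = C.pe ((C.f s)^[m + 1] c) := hG _ _ _ hg h6
      refine ⟨m + 1, fun j hj => ?_, ?_, ?_⟩
      · rcases Nat.lt_or_ge j (m + 1) with h | h
        · exact h1 j (by omega)
        · have : j = m + 1 := by omega
          rw [this]; exact ⟨hnext, hB⟩
      · rw [h2, hr, List.range_succ (n := m + 1), List.map_append]
        rfl
      · rw [hr, C.exit_eq, ← Function.iterate_succ_apply' (C.f s)]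
    · right
      obtain ⟨d, j, hj, hx⟩ := exists_cross C s hc1 (m := m + 1) (fun j hj => (h1 j (by omega)).1)
        (fun j hj => (h1 j (by omega)).2) hB
      refine ⟨d, _, hx, List.mem_append_left _ ?_⟩
      rw [h2]
      exact List.mem_map.2 ⟨j, List.mem_range.2 hj, rfl⟩

/-- the port lists of the strands of a family are disjoint; every strand crosses a window -/
theorem card_le {β : Type*} [Fintype β] (ch : β → Ch T G) (oo : β → ℤ × ℤ) (s : T → Bool) (ρ : ℕ)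
    {Λ : Type*} [Fintype Λ] (P : Λ → Set (T × ZMod 4))
    (hdis : ∀ a b, a ≠ b → ∀ p ∈ P a, p ∉ P b)
    (hcr : ∀ a, ∃ w : β, ∃ d : Dir, ∃ c, Cross (ch w) s ρ (oo w) d c ∧ (ch w).pe c ∈ P a) :
    Fintype.card Λ ≤ ∑ w : β × Dir, KK ((ch w.1).f s) (DW (ch w.1) ρ (oo w.1) w.2)
      (YW ρ (oo w.1) w.2) (XW ρ (oo w.1) w.2) := by
  classical
  choose w d c h1 h2 using hcr
  have key : Fintype.card Λ ≤ (Finset.univ.sigma fun w : β × Dir =>
      (XW ρ (oo w.1) w.2).filter fun c => Hit ((ch w.1).f s) (DW (ch w.1) ρ (oo w.1) w.2)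
        (YW ρ (oo w.1) w.2) c).card := by
    rw [← Finset.card_univ]
    refine Finset.card_le_card_of_injOn
      (fun a => (⟨(w a, d a), c a⟩ : Sigma fun _ : β × Dir => St ℤ)) ?_ ?_
    · intro a _
      simp only [Finset.coe_sigma, Set.mem_sigma_iff, Finset.coe_univ, Set.mem_univ, true_and,
        Finset.coe_filter]
      exact ⟨(h1 a).1, (h1 a).2⟩
    · intro a _ b _ hab
      by_contra hne
      simp only [Sigma.mk.injEq, Prod.mk.injEq, heq_eq_eq] at hab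
      obtain ⟨⟨h3, -⟩, h5⟩ := hab
      refine hdis a b hne _ (h2 a) ?_
      rw [h3, h5]
      exact h2 b
  rw [Finset.card_sigma] at key
  exact key

end Crest.Agent.R158.Ka470
private theorem rz_48c7fd1acc : type_of% @_root_.Crest.Agent.R158.Ka470.WB.eq_1 := @_root_.Crest.Agent.R158.Ka470.WB.eq_1 -- L40
private theorem rz_646b524dec : type_of% @_root_.Crest.Agent.R158.Ka470.XW.eq_1 := @_root_.Crest.Agent.R158.Ka470.XW.eq_1 -- L48
end

-- ▼ part R158/Ka3_470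
section

/-!
R158, leaf F1 (helper470), part 3: half environments, their doubles, charts.

`Half` : a planar set of tiles `H` below a crosscut (row line `y0`, columns `xl..xr`) with a strip
glued to the two ends of the run in the rows `y1 ≤ y < y0`.  `Gd` : glueing of the double (copy
`true` = mirror image above the crosscut, side `d` becomes `-d`).
-/

set_option autoImplicit false

namespace Crest.Agent.R158.Ka470

open Crest.Agent.R158.Nm211
open Crest.Agent.R158.Env664 (TG)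

/-- half environment -/
structure Half where
  /-- planar tiles -/
  H : Finset (ℤ × ℤ)
  /-- left end of the run -/
  xl : ℤ
  /-- right end of the run -/
  xr : ℤ
  /-- bottom of the macroscopic row of the run -/
  Y : ℤ
  /-- floor of the strip -/
  y1 : ℤ
  /-- crosscut -/
  y0 : ℤ
  /-- width of the strip -/
  R : ℤ
  /-- width of the empty region beyond the run -/
  W : ℤ
  hY : Y ≤ y1
  h1 : y1 < y0
  hx : xl ≤ xr
  hR : 0 < R
  hW : 0 < W
  row : ∀ x y, Y ≤ y → y < y0 → xl ≤ x → x ≤ xr → (x, y) ∈ H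
  left : ∀ x y, Y ≤ y → y < y0 + W → xl - W ≤ x → x < xl → (x, y) ∉ H
  right : ∀ x y, Y ≤ y → y < y0 + W → xr < x → x ≤ xr + W → (x, y) ∉ H
  top : ∀ x y, xl ≤ x → x ≤ xr → y0 ≤ y → y < y0 + W → (x, y) ∉ H

namespace Half

variable (A : Half)

/-- tiles of the half environment -/
def tH : TG → Prop
  | Sum.inl v => v ∈ A.H
  | Sum.inr v => (0 ≤ v.1 ∧ v.1 < A.R) ∧ A.y1 ≤ v.2 ∧ v.2 < A.y0

/-- neighbour -/
def nb : TG → ZMod 4 → TG × ZMod 4
  | Sum.inl v, 0 => if v.1 = A.xl ∧ A.y1 ≤ v.2 ∧ v.2 < A.y0 then (Sum.inr (A.R - 1, v.2), 2)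
      else (Sum.inl (v.1 - 1, v.2), 2)
  | Sum.inl v, 1 => (Sum.inl (v.1, v.2 + 1), 3)
  | Sum.inl v, 2 => if v.1 = A.xr ∧ A.y1 ≤ v.2 ∧ v.2 < A.y0 then (Sum.inr (0, v.2), 0)
      else (Sum.inl (v.1 + 1, v.2), 0)
  | Sum.inl v, 3 => (Sum.inl (v.1, v.2 - 1), 1)
  | Sum.inr v, 0 => if v.1 = 0 then (Sum.inl (A.xr, v.2), 2) else (Sum.inr (v.1 - 1, v.2), 2)
  | Sum.inr v, 1 => (Sum.inr (v.1, v.2 + 1), 3)
  | Sum.inr v, 2 => if v.1 = A.R - 1 then (Sum.inl (A.xl, v.2), 0)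
      else (Sum.inr (v.1 + 1, v.2), 0)
  | Sum.inr v, 3 => (Sum.inr (v.1, v.2 - 1), 1)

/-- glueing of the half environment -/
def Gh (p q : TG × ZMod 4) : Prop := A.tH p.1 ∧ A.tH q.1 ∧ q = A.nb p.1 p.2

/-- tiles below the crosscut -/
def cutT : TG → Prop
  | Sum.inl v => (A.xl ≤ v.1 ∧ v.1 ≤ A.xr) ∧ v.2 = A.y0 - 1
  | Sum.inr v => (0 ≤ v.1 ∧ v.1 < A.R) ∧ v.2 = A.y0 - 1

/-- glueing of the double -/
inductive Gd : (TG × Bool) × ZMod 4 → (TG × Bool) × ZMod 4 → Prop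
  | base (k : Bool) {t t' : TG} {d d' : ZMod 4} : A.Gh (t, d) (t', d') →
      Gd ((t, k), sg k d) ((t', k), sg k d')
  | c1 {t : TG} : A.cutT t → Gd ((t, false), 1) ((t, true), 3)
  | c2 {t : TG} : A.cutT t → Gd ((t, true), 3) ((t, false), 1)

theorem gh_top {t : TG} (h : A.cutT t) (q : TG × ZMod 4) : ¬ A.Gh (t, 1) q := by
  rintro ⟨h1, h2, rfl⟩
  rcases t with v | v
  · have h3 : (v.1, v.2 + 1) ∈ A.H := h2
    obtain ⟨h4, h5⟩ := h
    have hW := A.hW
    exact A.top _ _ h4.1 h4.2 (by omega) (by omega) h3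
  · have h3 : (0 ≤ v.1 ∧ v.1 < A.R) ∧ A.y1 ≤ v.2 + 1 ∧ v.2 + 1 < A.y0 := h2
    obtain ⟨h4, h5⟩ := h
    omega

theorem sg_three : sg true (1 : ZMod 4) = 3 := by decide

/-- the glueing of the double is functional -/
theorem gd_fn : ∀ p q r, A.Gd p q → A.Gd p r → q = r := by
  intro p q r h1 h2
  cases h1 with
  | @base k t t' d d' h =>
    generalize hp : (((t, k), sg k d) : (TG × Bool) × ZMod 4) = p at h2
    cases h2 with
    | @base k' u u' e e' h' =>
      simp only [Prod.mk.injEq] at hp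
      obtain ⟨⟨rfl, rfl⟩, h3⟩ := hp
      have h4 := sg_inj _ h3
      subst h4
      have h5 := h.2.2
      have h6 := h'.2.2
      simp only at h5 h6
      rw [← h6] at h5
      simp only [Prod.mk.injEq] at h5
      rw [h5.1, h5.2]
    | @c1 u hu =>
      simp only [Prod.mk.injEq] at hp
      obtain ⟨⟨rfl, rfl⟩, h3⟩ := hp
      have h4 : d = 1 := h3
      subst h4
      exact absurd h (A.gh_top hu _)
    | @c2 u hu =>
      simp only [Prod.mk.injEq] at hp
      obtain ⟨⟨rfl, rfl⟩, h3⟩ := hp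
      rw [← sg_three] at h3
      have h4 := sg_inj _ h3
      subst h4
      exact absurd h (A.gh_top hu _)
  | @c1 t ht =>
    generalize hp : (((t, false), 1) : (TG × Bool) × ZMod 4) = p at h2
    cases h2 with
    | @base k' u u' e e' h' =>
      simp only [Prod.mk.injEq] at hp
      obtain ⟨⟨rfl, rfl⟩, h3⟩ := hp
      have h4 : e = 1 := h3.symm
      subst h4
      exact absurd h' (A.gh_top ht _)
    | @c1 u hu =>
      simp only [Prod.mk.injEq] at hp
      obtain ⟨⟨rfl, -⟩, -⟩ := hp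
      rfl
    | @c2 u hu => simp at hp
  | @c2 t ht =>
    generalize hp : (((t, true), 3) : (TG × Bool) × ZMod 4) = p at h2
    cases h2 with
    | @base k' u u' e e' h' =>
      simp only [Prod.mk.injEq] at hp
      obtain ⟨⟨rfl, rfl⟩, h3⟩ := hp
      rw [← sg_three] at h3
      have h4 := (sg_inj _ h3).symm
      subst h4
      exact absurd h' (A.gh_top ht _)
    | @c1 u hu => simp at hp
    | @c2 u hu =>
      simp only [Prod.mk.injEq] at hp
      obtain ⟨⟨rfl, -⟩, -⟩ := hp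
      rfl

theorem z4 (d : ZMod 4) : d = 0 ∨ d = 1 ∨ d = 2 ∨ d = 3 := by revert d; decide

theorem gh_symm : ∀ p q, A.Gh p q → A.Gh q p := by
  rintro ⟨t, d⟩ ⟨u, e⟩ ⟨h1, h2, h3⟩
  refine ⟨h2, h1, ?_⟩
  simp only at h1 h2 h3
  have hx := A.hx
  have hW := A.hW
  have hR := A.hR
  have hY := A.hY
  rcases t with ⟨x, y⟩ | ⟨x, y⟩ <;> rcases z4 d with rfl | rfl | rfl | rfl
  · by_cases hc : x = A.xl ∧ A.y1 ≤ y ∧ y < A.y0
    · have e1 : A.nb (Sum.inl (x, y)) 0 = (Sum.inr (A.R - 1, y), 2) := if_pos hc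
      rw [e1, Prod.mk.injEq] at h3
      obtain ⟨rfl, rfl⟩ := h3
      have e2 : A.nb (Sum.inr (A.R - 1, y)) 2 = (Sum.inl (A.xl, y), 0) := if_pos rfl
      rw [e2, hc.1]
    · have e1 : A.nb (Sum.inl (x, y)) 0 = (Sum.inl (x - 1, y), 2) := if_neg hc
      rw [e1, Prod.mk.injEq] at h3
      obtain ⟨rfl, rfl⟩ := h3
      have e2 : A.nb (Sum.inl (x - 1, y)) 2 = (Sum.inl (x - 1 + 1, y), 0) := if_neg (by
        rintro ⟨e3, e4, e5⟩
        simp only at e3 e4 e5
        exact A.right x y (by omega) (by omega) (by omega) (by omega) h1)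
      rw [e2, sub_add_cancel]
  · have e1 : A.nb (Sum.inl (x, y)) 1 = (Sum.inl (x, y + 1), 3) := rfl
    rw [e1, Prod.mk.injEq] at h3
    obtain ⟨rfl, rfl⟩ := h3
    show _ = (Sum.inl (x, y + 1 - 1), (1 : ZMod 4))
    rw [add_sub_cancel_right]
  · by_cases hc : x = A.xr ∧ A.y1 ≤ y ∧ y < A.y0
    · have e1 : A.nb (Sum.inl (x, y)) 2 = (Sum.inr (0, y), 0) := if_pos hc
      rw [e1, Prod.mk.injEq] at h3
      obtain ⟨rfl, rfl⟩ := h3
      have e2 : A.nb (Sum.inr (0, y)) 0 = (Sum.inl (A.xr, y), 2) := by simp [nb]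
      rw [e2, hc.1]
    · have e1 : A.nb (Sum.inl (x, y)) 2 = (Sum.inl (x + 1, y), 0) := if_neg hc
      rw [e1, Prod.mk.injEq] at h3
      obtain ⟨rfl, rfl⟩ := h3
      have e2 : A.nb (Sum.inl (x + 1, y)) 0 = (Sum.inl (x + 1 - 1, y), 2) := if_neg (by
        rintro ⟨e3, e4, e5⟩
        simp only at e3 e4 e5
        exact A.left x y (by omega) (by omega) (by omega) (by omega) h1)
      rw [e2, add_sub_cancel_right]
  · have e1 : A.nb (Sum.inl (x, y)) 3 = (Sum.inl (x, y - 1), 1) := rfl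
    rw [e1, Prod.mk.injEq] at h3
    obtain ⟨rfl, rfl⟩ := h3
    show _ = (Sum.inl (x, y - 1 + 1), (3 : ZMod 4))
    rw [sub_add_cancel]
  · by_cases hc : x = 0
    · have e1 : A.nb (Sum.inr (x, y)) 0 = (Sum.inl (A.xr, y), 2) := if_pos hc
      rw [e1, Prod.mk.injEq] at h3
      obtain ⟨rfl, rfl⟩ := h3
      have e2 : A.nb (Sum.inl (A.xr, y)) 2 = (Sum.inr (0, y), 0) := if_pos ⟨rfl, h1.2⟩
      rw [e2, hc]
    · have e1 : A.nb (Sum.inr (x, y)) 0 = (Sum.inr (x - 1, y), 2) := if_neg hc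
      rw [e1, Prod.mk.injEq] at h3
      obtain ⟨rfl, rfl⟩ := h3
      have h4 : (0 ≤ x ∧ x < A.R) ∧ A.y1 ≤ y ∧ y < A.y0 := h1
      have e2 : A.nb (Sum.inr (x - 1, y)) 2 = (Sum.inr (x - 1 + 1, y), 0) := if_neg (by
        intro e3
        simp only at e3
        omega)
      rw [e2, sub_add_cancel]
  · have e1 : A.nb (Sum.inr (x, y)) 1 = (Sum.inr (x, y + 1), 3) := rfl
    rw [e1, Prod.mk.injEq] at h3
    obtain ⟨rfl, rfl⟩ := h3
    show _ = (Sum.inr (x, y + 1 - 1), (1 : ZMod 4))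
    rw [add_sub_cancel_right]
  · by_cases hc : x = A.R - 1
    · have e1 : A.nb (Sum.inr (x, y)) 2 = (Sum.inl (A.xl, y), 0) := if_pos hc
      rw [e1, Prod.mk.injEq] at h3
      obtain ⟨rfl, rfl⟩ := h3
      have e2 : A.nb (Sum.inl (A.xl, y)) 0 = (Sum.inr (A.R - 1, y), 2) := if_pos ⟨rfl, h1.2⟩
      rw [e2, hc]
    · have e1 : A.nb (Sum.inr (x, y)) 2 = (Sum.inr (x + 1, y), 0) := if_neg hc
      rw [e1, Prod.mk.injEq] at h3
      obtain ⟨rfl, rfl⟩ := h3
      have h4 : (0 ≤ x ∧ x < A.R) ∧ A.y1 ≤ y ∧ y < A.y0 := h1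
      have e2 : A.nb (Sum.inr (x + 1, y)) 0 = (Sum.inr (x + 1 - 1, y), 2) := if_neg (by
        intro e3
        simp only at e3
        omega)
      rw [e2, add_sub_cancel_right]
  · have e1 : A.nb (Sum.inr (x, y)) 3 = (Sum.inr (x, y - 1), 1) := rfl
    rw [e1, Prod.mk.injEq] at h3
    obtain ⟨rfl, rfl⟩ := h3
    show _ = (Sum.inr (x, y - 1 + 1), (3 : ZMod 4))
    rw [sub_add_cancel]


/-! ### Charts of the double -/

/-- reflected height -/
def ry (y : ℤ) : ℤ := if y < A.y0 then y else 2 * A.y0 - 1 - y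

/-- copy -/
def kk (y : ℤ) : Bool := decide (A.y0 ≤ y)

theorem ry_lt {y : ℤ} (h : y < A.y0) : A.ry y = y := if_pos h
theorem ry_ge {y : ℤ} (h : A.y0 ≤ y) : A.ry y = 2 * A.y0 - 1 - y := if_neg (by omega)
theorem kk_lt {y : ℤ} (h : y < A.y0) : A.kk y = false := by simp [kk, h]
theorem kk_ge {y : ℤ} (h : A.y0 ≤ y) : A.kk y = true := by simp [kk, h]

theorem ry_kk_inj {y y' : ℤ} (h : A.ry y = A.ry y') (h' : A.kk y = A.kk y') : y = y' := by
  rcases lt_or_ge y A.y0 with h1 | h1 <;> rcases lt_or_ge y' A.y0 with h2 | h2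
  · rwa [ry_lt _ h1, ry_lt _ h2] at h
  · rw [kk_lt _ h1, kk_ge _ h2] at h'; simp at h'
  · rw [kk_ge _ h1, kk_lt _ h2] at h'; simp at h'
  · rw [ry_ge _ h1, ry_ge _ h2] at h; omega

/-- lift of a picture `P : Set (ℤ × ℤ)`, `tile : ℤ × ℤ → TG` of the half environment, symmetric with
respect to the crosscut: neighbours in the picture are glued in the double -/
theorem glue_sym {P : ℤ → ℤ → Prop} {tile : ℤ → ℤ → TG} (hP : ∀ x y, P x y → y < A.y0)
    (hE : ∀ x y, P x y → P (x + 1) y → A.Gh (tile x y, 2) (tile (x + 1) y, 0))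
    (hN : ∀ x y, P x y → P x (y + 1) → A.Gh (tile x y, 1) (tile x (y + 1), 3))
    (hC : ∀ x, P x (A.y0 - 1) → A.cutT (tile x (A.y0 - 1))) (v : ℤ × ℤ) (d : Dir)
    (h1 : P v.1 (A.ry v.2)) (h2 : P (mv v d).1 (A.ry (mv v d).2)) :
    A.Gd ((tile v.1 (A.ry v.2), A.kk v.2), ex d)
      ((tile (mv v d).1 (A.ry (mv v d).2), A.kk (mv v d).2), en d) := by
  obtain ⟨x, y⟩ := v
  have hW := fun x y (h : P x y ∧ P (x + 1) y) => A.gh_symm _ _ (hE x y h.1 h.2)
  have hS := fun x y (h : P x y ∧ P x (y + 1)) => A.gh_symm _ _ (hN x y h.1 h.2)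
  have s0 : ∀ k, sg k (0 : ZMod 4) = 0 := by decide
  have s2 : ∀ k, sg k (2 : ZMod 4) = 2 := by decide
  have s1 : sg false (1 : ZMod 4) = 1 := rfl
  have s3 : sg false (3 : ZMod 4) = 3 := rfl
  have s1' : sg true (1 : ZMod 4) = 3 := by decide
  have s3' : sg true (3 : ZMod 4) = 1 := by decide
  fin_cases d
  · -- north
    have e1 : mv (x, y) (0 : Dir) = (x, y + 1) := by simp [mv, dx, dy]
    change A.Gd ((tile x (A.ry y), A.kk y), 1)
      ((tile (mv (x, y) (0 : Dir)).1 (A.ry (mv (x, y) (0 : Dir)).2),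
        A.kk (mv (x, y) (0 : Dir)).2), 3)
    change P (mv (x, y) (0 : Dir)).1 (A.ry (mv (x, y) (0 : Dir)).2) at h2
    rw [e1] at h2 ⊢
    simp only at h1 h2 ⊢
    rcases lt_or_ge (y + 1) A.y0 with h | h
    · rw [ry_lt _ h, kk_lt _ h, ry_lt _ (by omega : y < A.y0), kk_lt _ (by omega : y < A.y0)]
      rw [ry_lt _ h] at h2
      rw [ry_lt _ (by omega : y < A.y0)] at h1
      exact Gd.base false (hN x y h1 h2)
    · rcases eq_or_lt_of_le h with h3 | h3
      · have h4 : y < A.y0 := by omega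
        rw [ry_ge _ h, kk_ge _ h, ry_lt _ h4, kk_lt _ h4]
        have e2 : 2 * A.y0 - 1 - (y + 1) = A.y0 - 1 := by omega
        have e3 : y = A.y0 - 1 := by omega
        rw [e2, e3]
        rw [ry_lt _ h4, e3] at h1
        exact Gd.c1 (hC x h1)
      · have h4 : A.y0 ≤ y := by omega
        rw [ry_ge _ h, kk_ge _ h, ry_ge _ h4, kk_ge _ h4]
        rw [ry_ge _ h] at h2
        rw [ry_ge _ h4] at h1
        have e2 : 2 * A.y0 - 1 - y = 2 * A.y0 - 1 - (y + 1) + 1 := by ring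
        rw [e2] at h1 ⊢
        have := Gd.base true (hS x _ ⟨h2, h1⟩)
        rwa [s1', s3'] at this
  · -- east
    have e1 : mv (x, y) (1 : Dir) = (x + 1, y) := by simp [mv, dx, dy]
    change A.Gd ((tile x (A.ry y), A.kk y), 2)
      ((tile (mv (x, y) (1 : Dir)).1 (A.ry (mv (x, y) (1 : Dir)).2),
        A.kk (mv (x, y) (1 : Dir)).2), 0)
    change P (mv (x, y) (1 : Dir)).1 (A.ry (mv (x, y) (1 : Dir)).2) at h2
    rw [e1] at h2 ⊢
    simp only at h1 h2 ⊢
    have := Gd.base (A.kk y) (hE x _ h1 h2)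
    rwa [s0, s2] at this
  · -- south
    have e1 : mv (x, y) (2 : Dir) = (x, y - 1) := by simp [mv, dx, dy, sub_eq_add_neg]
    change A.Gd ((tile x (A.ry y), A.kk y), 3)
      ((tile (mv (x, y) (2 : Dir)).1 (A.ry (mv (x, y) (2 : Dir)).2),
        A.kk (mv (x, y) (2 : Dir)).2), 1)
    change P (mv (x, y) (2 : Dir)).1 (A.ry (mv (x, y) (2 : Dir)).2) at h2
    rw [e1] at h2 ⊢
    simp only at h1 h2 ⊢
    rcases lt_or_ge y A.y0 with h | h
    · rw [ry_lt _ h, kk_lt _ h, ry_lt _ (by omega : y - 1 < A.y0),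
        kk_lt _ (by omega : y - 1 < A.y0)]
      rw [ry_lt _ h] at h1
      rw [ry_lt _ (by omega : y - 1 < A.y0)] at h2
      have e2 : y = y - 1 + 1 := by ring
      have := Gd.base false (hS x (y - 1) ⟨h2, by rwa [← e2]⟩)
      rwa [← e2, s1, s3] at this
    · rcases eq_or_lt_of_le h with h3 | h3
      · have h4 : y - 1 < A.y0 := by omega
        rw [ry_ge _ h, kk_ge _ h, ry_lt _ h4, kk_lt _ h4]
        have e2 : 2 * A.y0 - 1 - y = A.y0 - 1 := by omega
        have e3 : y - 1 = A.y0 - 1 := by omega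
        rw [e2, e3]
        rw [ry_lt _ h4, e3] at h2
        exact Gd.c2 (hC x h2)
      · have h4 : A.y0 ≤ y - 1 := by omega
        rw [ry_ge _ h, kk_ge _ h, ry_ge _ h4, kk_ge _ h4]
        rw [ry_ge _ h4] at h2
        rw [ry_ge _ h] at h1
        have e2 : 2 * A.y0 - 1 - (y - 1) = 2 * A.y0 - 1 - y + 1 := by ring
        rw [e2] at h2 ⊢
        have := Gd.base true (hN x _ h1 h2)
        rwa [s1', s3'] at this
  · -- west
    have e1 : mv (x, y) (3 : Dir) = (x - 1, y) := by simp [mv, dx, dy, sub_eq_add_neg]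
    change A.Gd ((tile x (A.ry y), A.kk y), 0)
      ((tile (mv (x, y) (3 : Dir)).1 (A.ry (mv (x, y) (3 : Dir)).2),
        A.kk (mv (x, y) (3 : Dir)).2), 2)
    change P (mv (x, y) (3 : Dir)).1 (A.ry (mv (x, y) (3 : Dir)).2) at h2
    rw [e1] at h2 ⊢
    simp only at h1 h2 ⊢
    have e2 : x = x - 1 + 1 := by ring
    have := Gd.base (A.kk y) (hW (x - 1) (A.ry y) ⟨h2, by rwa [← e2]⟩)
    rwa [← e2, s0, s2] at this

end Half

end Crest.Agent.R158.Ka470
private theorem rz_5f04ab3510 : type_of% @_root_.Crest.Agent.R158.Ka470.Half.nb.eq_1 := @_root_.Crest.Agent.R158.Ka470.Half.nb.eq_1 -- L57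
end

-- ▼ part R158/Ka4_470
section

/-!
R158, leaf F1 (helper470), part 4: the four charts of the double of a half environment.
-/

set_option autoImplicit false

namespace Crest.Agent.R158.Ka470

open Crest.Agent.R158.Nm211
open Crest.Agent.R158.Env664 (TG)

namespace Half

variable (A : Half)

/-- a port is free in the half environment -/
def FrH (t : TG) (a : ZMod 4) : Prop := ∀ q, ¬ A.Gh (t, a) q

theorem free_of {t : TG} {k : Bool} {a : ZMod 4} (h : A.FrH t a) (hc : a = 1 → ¬ A.cutT t) :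
    Free A.Gd ((t, k), sg k a) := by
  intro r hr
  generalize hp : (((t, k), sg k a) : (TG × Bool) × ZMod 4) = p at hr
  cases hr with
  | @base k' u u' e e' h' =>
    simp only [Prod.mk.injEq] at hp
    obtain ⟨⟨rfl, rfl⟩, h3⟩ := hp
    have h4 := sg_inj _ h3
    subst h4
    exact h _ h'
  | @c1 u hu =>
    simp only [Prod.mk.injEq] at hp
    obtain ⟨⟨rfl, rfl⟩, h3⟩ := hp
    exact hc h3 hu
  | @c2 u hu =>
    simp only [Prod.mk.injEq] at hp
    obtain ⟨⟨rfl, rfl⟩, h3⟩ := hp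
    rw [← sg_three] at h3
    exact hc (sg_inj _ h3) hu

/-! ### symmetric pictures -/

/-- a picture of the half environment below the crosscut -/
structure Pic where
  /-- positions -/
  P : Finset (ℤ × ℤ)
  /-- tiles -/
  tile : ℤ → ℤ → TG
  lt : ∀ x y, (x, y) ∈ P → y < A.y0
  inj : ∀ x y x' y', (x, y) ∈ P → (x', y') ∈ P → tile x y = tile x' y' → x = x' ∧ y = y'
  hE : ∀ x y, (x, y) ∈ P → (x + 1, y) ∈ P → A.Gh (tile x y, 2) (tile (x + 1) y, 0)
  hN : ∀ x y, (x, y) ∈ P → (x, y + 1) ∈ P → A.Gh (tile x y, 1) (tile x (y + 1), 3)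
  hC : ∀ x, (x, A.y0 - 1) ∈ P → A.cutT (tile x (A.y0 - 1))

variable {A}

/-- positions of the double -/
def Pic.R (p : A.Pic) : Finset (ℤ × ℤ) := p.P ∪ p.P.image fun v => (v.1, 2 * A.y0 - 1 - v.2)

theorem Pic.mem_R (p : A.Pic) {x y : ℤ} : (x, y) ∈ p.R ↔ (x, A.ry y) ∈ p.P := by
  unfold Pic.R
  rw [Finset.mem_union, Finset.mem_image]
  constructor
  · rintro (h | ⟨⟨a, b⟩, h, h'⟩)
    · rwa [ry_lt _ (p.lt _ _ h)]
    · have := p.lt _ _ h
      simp only [Prod.mk.injEq] at h'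
      obtain ⟨rfl, rfl⟩ := h'
      rw [ry_ge _ (by omega)]
      have e : 2 * A.y0 - 1 - (2 * A.y0 - 1 - b) = b := by ring
      rwa [e]
  · intro h
    rcases lt_or_ge y A.y0 with h1 | h1
    · left; rwa [ry_lt _ h1] at h
    · right
      rw [ry_ge _ h1] at h
      exact ⟨_, h, by simp⟩

/-- the chart of a picture -/
def Pic.ch (p : A.Pic) : Ch (TG × Bool) A.Gd where
  emb v := (p.tile v.1 (A.ry v.2), A.kk v.2)
  F _ := false
  R := p.R
  inj := by
    rintro ⟨x, y⟩ h1 ⟨x', y'⟩ h2 h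
    have h1' := p.mem_R.1 h1
    have h2' := p.mem_R.1 h2
    simp only [Prod.mk.injEq] at h
    obtain ⟨h3, h4⟩ := p.inj _ _ _ _ h1' h2' h.1
    rw [h3, A.ry_kk_inj h4 h.2]
  glue := by
    intro v hv d hd
    exact A.glue_sym (P := fun x y => (x, y) ∈ p.P) p.lt p.hE p.hN p.hC v d (p.mem_R.1 hv)
      (p.mem_R.1 hd)


/-- the picture sees the neighbours allowed by `Bx` -/
structure Pic.Sees (p : A.Pic) (Bx : ℤ → ℤ → Prop) : Prop where
  e : ∀ x y, (x, y) ∈ p.P → (x + 1, y) ∉ p.P → Bx (x + 1) y → A.FrH (p.tile x y) 2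
  w : ∀ x y, (x, y) ∈ p.P → (x - 1, y) ∉ p.P → Bx (x - 1) y → A.FrH (p.tile x y) 0
  n : ∀ x y, (x, y) ∈ p.P → (x, y + 1) ∉ p.P → y + 1 < A.y0 → Bx x (y + 1) →
    A.FrH (p.tile x y) 1
  s : ∀ x y, (x, y) ∈ p.P → (x, y - 1) ∉ p.P → Bx x (y - 1) → A.FrH (p.tile x y) 3
  cut : ∀ x y, (x, y) ∈ p.P → A.cutT (p.tile x y) → y = A.y0 - 1

theorem Pic.view (p : A.Pic) {Bx : ℤ → ℤ → Prop} (hs : p.Sees Bx) {B : Set (ℤ × ℤ)}
    (hB : ∀ v ∈ B, Bx v.1 (A.ry v.2)) : View p.ch B := by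
  rintro ⟨x, y⟩ hv hvB d hd hn
  have hv' : (x, A.ry y) ∈ p.P := p.mem_R.1 hv
  have hn' : ((mv (x, y) d).1, A.ry (mv (x, y) d).2) ∉ p.P := fun h => hn (p.mem_R.2 h)
  have hBd := hB _ hd
  have s0 : ∀ k, sg k (0 : ZMod 4) = 0 := by decide
  have s2 : ∀ k, sg k (2 : ZMod 4) = 2 := by decide
  have s1 : sg false (1 : ZMod 4) = 1 := rfl
  have s3 : sg false (3 : ZMod 4) = 3 := rfl
  have s1' : sg true (1 : ZMod 4) = 3 := by decide
  have s3' : sg true (3 : ZMod 4) = 1 := by decide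
  fin_cases d
  · have e1 : mv (x, y) (0 : Dir) = (x, y + 1) := by simp [mv, dx, dy]
    change ((mv (x, y) (0 : Dir)).1, A.ry (mv (x, y) (0 : Dir)).2) ∉ p.P at hn'
    change Bx (mv (x, y) (0 : Dir)).1 (A.ry (mv (x, y) (0 : Dir)).2) at hBd
    rw [e1] at hn' hBd
    simp only at hn' hBd
    change Free A.Gd ((p.tile x (A.ry y), A.kk y), 1)
    rcases lt_or_ge (y + 1) A.y0 with h | h
    · have h4 : y < A.y0 := by omega
      rw [ry_lt _ h] at hn' hBd
      rw [ry_lt _ h4] at hv' ⊢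
      rw [kk_lt _ h4, ← s1]
      refine A.free_of (hs.n x y hv' hn' h hBd) fun _ hc => ?_
      have := hs.cut x y hv' hc
      omega
    · rcases eq_or_lt_of_le h with h3 | h3
      · exfalso
        have h4 : y < A.y0 := by omega
        rw [ry_ge _ h] at hn'
        rw [ry_lt _ h4] at hv'
        apply hn'
        have e2 : 2 * A.y0 - 1 - (y + 1) = y := by omega
        rwa [e2]
      · have h4 : A.y0 ≤ y := by omega
        have e2 : A.ry (y + 1) = A.ry y - 1 := by rw [ry_ge _ h, ry_ge _ h4]; ring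
        rw [e2] at hn' hBd
        rw [kk_ge _ h4, ← s3']
        exact A.free_of (hs.s x _ hv' hn' hBd) fun h5 => absurd h5 (by decide)
  · have e1 : mv (x, y) (1 : Dir) = (x + 1, y) := by simp [mv, dx, dy]
    change ((mv (x, y) (1 : Dir)).1, A.ry (mv (x, y) (1 : Dir)).2) ∉ p.P at hn'
    change Bx (mv (x, y) (1 : Dir)).1 (A.ry (mv (x, y) (1 : Dir)).2) at hBd
    rw [e1] at hn' hBd
    change Free A.Gd ((p.tile x (A.ry y), A.kk y), 2)
    rw [← s2 (A.kk y)]
    exact A.free_of (hs.e x _ hv' hn' hBd) fun h5 => absurd h5 (by decide)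
  · have e1 : mv (x, y) (2 : Dir) = (x, y - 1) := by simp [mv, dx, dy, sub_eq_add_neg]
    change ((mv (x, y) (2 : Dir)).1, A.ry (mv (x, y) (2 : Dir)).2) ∉ p.P at hn'
    change Bx (mv (x, y) (2 : Dir)).1 (A.ry (mv (x, y) (2 : Dir)).2) at hBd
    rw [e1] at hn' hBd
    simp only at hn' hBd
    change Free A.Gd ((p.tile x (A.ry y), A.kk y), 3)
    rcases lt_or_ge y A.y0 with h | h
    · rw [ry_lt _ (by omega : y - 1 < A.y0)] at hn' hBd
      rw [ry_lt _ h] at hv' ⊢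
      rw [kk_lt _ h, ← s3]
      exact A.free_of (hs.s x y hv' hn' hBd) fun h5 => absurd h5 (by decide)
    · rcases eq_or_lt_of_le h with h3 | h3
      · exfalso
        have h4 : y - 1 < A.y0 := by omega
        rw [ry_lt _ h4] at hn'
        rw [ry_ge _ h] at hv'
        apply hn'
        have e2 : 2 * A.y0 - 1 - y = y - 1 := by omega
        rwa [e2] at hv'
      · have h4 : A.y0 ≤ y - 1 := by omega
        have e2 : A.ry (y - 1) = A.ry y + 1 := by rw [ry_ge _ h, ry_ge _ h4]; ring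
        rw [e2] at hn' hBd
        rw [kk_ge _ h, ← s1']
        have h6 : A.ry y + 1 < A.y0 := by rw [ry_ge _ h]; omega
        refine A.free_of (hs.n x _ hv' hn' h6 hBd) fun _ hc => ?_
        have := hs.cut x _ hv' hc
        omega
  · have e1 : mv (x, y) (3 : Dir) = (x - 1, y) := by simp [mv, dx, dy, sub_eq_add_neg]
    change ((mv (x, y) (3 : Dir)).1, A.ry (mv (x, y) (3 : Dir)).2) ∉ p.P at hn'
    change Bx (mv (x, y) (3 : Dir)).1 (A.ry (mv (x, y) (3 : Dir)).2) at hBd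
    rw [e1] at hn' hBd
    change Free A.Gd ((p.tile x (A.ry y), A.kk y), 0)
    rw [← s0 (A.kk y)]
    exact A.free_of (hs.w x _ hv' hn' hBd) fun h5 => absurd h5 (by decide)

variable (A)

/-! ### the picture of the strip -/

/-- the strip -/
noncomputable def picS : A.Pic where
  P := Finset.Ico 0 A.R ×ˢ Finset.Ico A.y1 A.y0
  tile x y := Sum.inr (x, y)
  lt x y h := by
    rw [Finset.mem_product, Finset.mem_Ico, Finset.mem_Ico] at h
    exact h.2.2
  inj x y x' y' _ _ h := by simpa using h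
  hE x y h h' := by
    rw [Finset.mem_product, Finset.mem_Ico, Finset.mem_Ico] at h h'
    refine ⟨h, h', ?_⟩
    have : A.nb (Sum.inr (x, y)) 2 = (Sum.inr (x + 1, y), 0) := if_neg (by
      simp only at h' ⊢; omega)
    exact this.symm
  hN x y h h' := by
    rw [Finset.mem_product, Finset.mem_Ico, Finset.mem_Ico] at h h'
    exact ⟨h, h', rfl⟩
  hC x h := by
    rw [Finset.mem_product, Finset.mem_Ico, Finset.mem_Ico] at h
    exact ⟨h.1, rfl⟩

theorem mem_picS {x y : ℤ} : (x, y) ∈ A.picS.P ↔ (0 ≤ x ∧ x < A.R) ∧ A.y1 ≤ y ∧ y < A.y0 := by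
  show (x, y) ∈ Finset.Ico 0 A.R ×ˢ Finset.Ico A.y1 A.y0 ↔ _
  rw [Finset.mem_product, Finset.mem_Ico, Finset.mem_Ico]

theorem seesS : A.picS.Sees fun x _ => 0 ≤ x ∧ x < A.R where
  e x y h h' hb := by
    rw [mem_picS] at h h'
    exact absurd ⟨hb, h.2⟩ h'
  w x y h h' hb := by
    rw [mem_picS] at h h'
    exact absurd ⟨hb, h.2⟩ h'
  n x y h h' hy hb := by
    rw [mem_picS] at h h'
    exact absurd ⟨hb, by omega, hy⟩ h'
  s x y h h' hb := by
    rw [mem_picS] at h h'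
    rintro q ⟨-, h2, rfl⟩
    have h3 : (0 ≤ x ∧ x < A.R) ∧ A.y1 ≤ y - 1 ∧ y - 1 < A.y0 := h2
    exact h' h3
  cut x y h hc := hc.2

/-! ### the picture of the run with the two ends of the strip -/

/-- the run -/
noncomputable def picM (m : ℤ) (hm : 2 * m ≤ A.R) : A.Pic where
  P := (Finset.Icc (A.xl - m) (A.xr + m) ×ˢ Finset.Ico A.Y A.y0).filter fun v =>
    (A.xl ≤ v.1 ∧ v.1 ≤ A.xr) ∨ A.y1 ≤ v.2
  tile x y := if x < A.xl then Sum.inr (A.R - (A.xl - x), y) else if x ≤ A.xr then Sum.inl (x, y)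
    else Sum.inr (x - A.xr - 1, y)
  lt x y h := by
    rw [Finset.mem_filter, Finset.mem_product, Finset.mem_Icc, Finset.mem_Ico] at h
    exact h.1.2.2
  inj x y x' y' h h' e := by
    rw [Finset.mem_filter, Finset.mem_product, Finset.mem_Icc, Finset.mem_Ico] at h h'
    simp only at h h' e
    have hx := A.hx
    split_ifs at e <;> simp only [Sum.inr.injEq, Sum.inl.injEq, Prod.mk.injEq] at e <;>
      omega
  hE x y h h' := by
    rw [Finset.mem_filter, Finset.mem_product, Finset.mem_Icc, Finset.mem_Ico] at h h'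
    simp only at h h'
    have hx := A.hx
    rcases lt_trichotomy (x + 1) A.xl with hc | hc | hc
    · rw [if_pos (by omega), if_pos hc]
      refine ⟨?_, ?_, ?_⟩
      · exact ⟨⟨by simp only; omega, by simp only; omega⟩, by simp only; omega, by simp only; omega⟩
      · exact ⟨⟨by simp only; omega, by simp only; omega⟩, by simp only; omega, by simp only; omega⟩
      · have : A.nb (Sum.inr (A.R - (A.xl - x), y)) 2 =
            (Sum.inr (A.R - (A.xl - x) + 1, y), 0) := if_neg (by simp only; omega)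
        rw [this]
        congr 3
        ring
    · rw [if_pos (by omega), if_neg (by omega), if_pos (by omega)]
      refine ⟨?_, ?_, ?_⟩
      · exact ⟨⟨by simp only; omega, by simp only; omega⟩, by simp only; omega, by simp only; omega⟩
      · exact A.row _ _ (by omega) (by omega) (by omega) (by omega)
      · have : A.nb (Sum.inr (A.R - (A.xl - x), y)) 2 =
            (Sum.inl (A.xl, y), 0) := if_pos (by simp only; omega)
        rw [this, hc]
    · rcases lt_trichotomy x A.xr with hd | hd | hd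
      · rw [if_neg (by omega), if_pos (by omega), if_neg (by omega), if_pos (by omega)]
        refine ⟨?_, ?_, ?_⟩
        · exact A.row _ _ (by omega) (by omega) (by omega) (by omega)
        · exact A.row _ _ (by omega) (by omega) (by omega) (by omega)
        · have : A.nb (Sum.inl (x, y)) 2 = (Sum.inl (x + 1, y), 0) := if_neg (by simp only; omega)
          rw [this]
      · rw [if_neg (by omega), if_pos (by omega), if_neg (by omega), if_neg (by omega)]
        refine ⟨?_, ?_, ?_⟩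
        · exact A.row _ _ (by omega) (by omega) (by omega) (by omega)
        · exact ⟨⟨by simp only; omega, by simp only; omega⟩, by simp only; omega, by simp only; omega⟩
        · have : A.nb (Sum.inl (x, y)) 2 = (Sum.inr (0, y), 0) := if_pos (by simp only; omega)
          rw [this]
          congr 3
          omega
      · rw [if_neg (by omega), if_neg (by omega), if_neg (by omega), if_neg (by omega)]
        refine ⟨?_, ?_, ?_⟩
        · exact ⟨⟨by simp only; omega, by simp only; omega⟩, by simp only; omega, by simp only; omega⟩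
        · exact ⟨⟨by simp only; omega, by simp only; omega⟩, by simp only; omega, by simp only; omega⟩
        · have : A.nb (Sum.inr (x - A.xr - 1, y)) 2 =
            (Sum.inr (x - A.xr - 1 + 1, y), 0) := if_neg (by simp only; omega)
          rw [this]
          congr 3
          ring
  hN x y h h' := by
    rw [Finset.mem_filter, Finset.mem_product, Finset.mem_Icc, Finset.mem_Ico] at h h'
    simp only at h h'
    have hx := A.hx
    split_ifs with h1 h2
    · refine ⟨?_, ?_, rfl⟩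
      · exact ⟨⟨by simp only; omega, by simp only; omega⟩, by simp only; omega, by simp only; omega⟩
      · exact ⟨⟨by simp only; omega, by simp only; omega⟩, by simp only; omega, by simp only; omega⟩
    · refine ⟨?_, ?_, rfl⟩
      · exact A.row _ _ (by omega) (by omega) (by omega) (by omega)
      · exact A.row _ _ (by omega) (by omega) (by omega) (by omega)
    · refine ⟨?_, ?_, rfl⟩
      · exact ⟨⟨by simp only; omega, by simp only; omega⟩, by simp only; omega, by simp only; omega⟩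
      · exact ⟨⟨by simp only; omega, by simp only; omega⟩, by simp only; omega, by simp only; omega⟩
  hC x h := by
    rw [Finset.mem_filter, Finset.mem_product, Finset.mem_Icc, Finset.mem_Ico] at h
    simp only at h
    have hx := A.hx
    split_ifs with h1 h2
    · exact ⟨⟨by simp only; omega, by simp only; omega⟩, rfl⟩
    · exact ⟨⟨by simp only; omega, by simp only; omega⟩, rfl⟩
    · exact ⟨⟨by simp only; omega, by simp only; omega⟩, rfl⟩

theorem mem_picM {m : ℤ} {hm : 2 * m ≤ A.R} {x y : ℤ} : (x, y) ∈ (A.picM m hm).P ↔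
    ((A.xl - m ≤ x ∧ x ≤ A.xr + m) ∧ A.Y ≤ y ∧ y < A.y0) ∧
      ((A.xl ≤ x ∧ x ≤ A.xr) ∨ A.y1 ≤ y) := by
  show (x, y) ∈ (Finset.Icc (A.xl - m) (A.xr + m) ×ˢ Finset.Ico A.Y A.y0).filter _ ↔ _
  rw [Finset.mem_filter, Finset.mem_product, Finset.mem_Icc, Finset.mem_Ico]

theorem seesM {m : ℤ} (hm : 2 * m ≤ A.R) :
    (A.picM m hm).Sees fun x y => (A.xl - m ≤ x ∧ x ≤ A.xr + m) ∧ A.Y ≤ y where
  e x y h h' hb := by
    rw [mem_picM] at h h'
    have hx := A.hx
    have hW := A.hW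
    have hR := A.hR
    -- `x = xr`, `y < y1`
    have h1 : x = A.xr ∧ y < A.y1 := by
      by_contra hcon
      exact h' ⟨⟨hb.1, hb.2, h.1.2.2⟩, by omega⟩
    obtain ⟨rfl, h2⟩ := h1
    rintro q ⟨-, h3, rfl⟩
    have e1 : (A.picM m hm).tile A.xr y = Sum.inl (A.xr, y) := by
      show (if A.xr < A.xl then _ else if A.xr ≤ A.xr then _ else _) = _
      rw [if_neg (by omega), if_pos le_rfl]
    have e2 : A.nb (Sum.inl (A.xr, y)) 2 = (Sum.inl (A.xr + 1, y), 0) := if_neg (by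
      simp only; omega)
    simp only [e1, e2] at h3
    exact A.right _ _ h.1.2.1 (by omega) (by omega) (by omega) h3
  w x y h h' hb := by
    rw [mem_picM] at h h'
    have hx := A.hx
    have hW := A.hW
    have hR := A.hR
    have h1 : x = A.xl ∧ y < A.y1 := by
      by_contra hcon
      exact h' ⟨⟨hb.1, hb.2, h.1.2.2⟩, by omega⟩
    obtain ⟨rfl, h2⟩ := h1
    rintro q ⟨-, h3, rfl⟩
    have e1 : (A.picM m hm).tile A.xl y = Sum.inl (A.xl, y) := by
      show (if A.xl < A.xl then _ else if A.xl ≤ A.xr then _ else _) = _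
      rw [if_neg (by omega), if_pos hx]
    have e2 : A.nb (Sum.inl (A.xl, y)) 0 = (Sum.inl (A.xl - 1, y), 2) := if_neg (by
      simp only; omega)
    simp only [e1, e2] at h3
    exact A.left _ _ h.1.2.1 (by omega) (by omega) (by omega) h3
  n x y h h' hy hb := by
    rw [mem_picM] at h h'
    exact absurd ⟨⟨hb.1, hb.2, hy⟩, by omega⟩ h'
  s x y h h' hb := by
    rw [mem_picM] at h h'
    have hx := A.hx
    have hR := A.hR
    have hY := A.hY
    -- floor of the strip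
    have h1 : y = A.y1 ∧ ¬ (A.xl ≤ x ∧ x ≤ A.xr) := by
      by_contra hcon
      exact h' ⟨⟨hb.1, hb.2, by omega⟩, by omega⟩
    obtain ⟨rfl, h2⟩ := h1
    rintro q ⟨-, h3, rfl⟩
    rcases lt_or_ge x A.xl with h4 | h4
    · have e1 : (A.picM m hm).tile x A.y1 = Sum.inr (A.R - (A.xl - x), A.y1) := if_pos h4
      simp only [e1] at h3
      have h5 : (0 ≤ A.R - (A.xl - x) ∧ A.R - (A.xl - x) < A.R) ∧ A.y1 ≤ A.y1 - 1 ∧
        A.y1 - 1 < A.y0 := h3
      omega
    · have e1 : (A.picM m hm).tile x A.y1 = Sum.inr (x - A.xr - 1, A.y1) := by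
        show (if x < A.xl then _ else if x ≤ A.xr then _ else _) = _
        rw [if_neg (by omega), if_neg (by omega)]
      simp only [e1] at h3
      have h5 : (0 ≤ x - A.xr - 1 ∧ x - A.xr - 1 < A.R) ∧ A.y1 ≤ A.y1 - 1 ∧
        A.y1 - 1 < A.y0 := h3
      omega
  cut x y h hc := by
    have e1 : (A.picM m hm).tile x y = if x < A.xl then Sum.inr (A.R - (A.xl - x), y)
      else if x ≤ A.xr then Sum.inl (x, y) else Sum.inr (x - A.xr - 1, y) := rfl
    rw [e1] at hc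
    split_ifs at hc
    · exact hc.2
    · exact hc.2
    · exact hc.2

/-! ### the two planar charts -/

/-- natural copy -/
def chA : Ch (TG × Bool) A.Gd where
  emb v := (Sum.inl v, false)
  F _ := false
  R := A.H
  inj := by
    rintro v _ w _ h
    simpa using h
  glue := by
    rintro ⟨x, y⟩ hv d hd
    have hW := A.hW
    have hY := A.hY
    have s1 : ∀ a : ZMod 4, sg false a = a := fun _ => rfl
    simp only [s1]
    fin_cases d
    · have e1 : mv (x, y) (0 : Dir) = (x, y + 1) := by simp [mv, dx, dy]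
      change mv (x, y) (0 : Dir) ∈ A.H at hd
      change A.Gd ((Sum.inl (x, y), false), 1) ((Sum.inl (mv (x, y) (0 : Dir)), false), 3)
      rw [e1] at hd ⊢
      exact Gd.base false ⟨hv, hd, rfl⟩
    · have e1 : mv (x, y) (1 : Dir) = (x + 1, y) := by simp [mv, dx, dy]
      change mv (x, y) (1 : Dir) ∈ A.H at hd
      change A.Gd ((Sum.inl (x, y), false), 2) ((Sum.inl (mv (x, y) (1 : Dir)), false), 0)
      rw [e1] at hd ⊢
      refine Gd.base false ⟨hv, hd, ?_⟩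
      have : A.nb (Sum.inl (x, y)) 2 = (Sum.inl (x + 1, y), 0) := if_neg (by
        rintro ⟨h1, h2, h3⟩
        simp only at h1 h2 h3
        exact A.right _ _ (by omega) (by omega) (by omega) (by omega) hd)
      exact this.symm
    · have e1 : mv (x, y) (2 : Dir) = (x, y - 1) := by simp [mv, dx, dy, sub_eq_add_neg]
      change mv (x, y) (2 : Dir) ∈ A.H at hd
      change A.Gd ((Sum.inl (x, y), false), 3) ((Sum.inl (mv (x, y) (2 : Dir)), false), 1)
      rw [e1] at hd ⊢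
      exact Gd.base false ⟨hv, hd, rfl⟩
    · have e1 : mv (x, y) (3 : Dir) = (x - 1, y) := by simp [mv, dx, dy, sub_eq_add_neg]
      change mv (x, y) (3 : Dir) ∈ A.H at hd
      change A.Gd ((Sum.inl (x, y), false), 0) ((Sum.inl (mv (x, y) (3 : Dir)), false), 2)
      rw [e1] at hd ⊢
      refine Gd.base false ⟨hv, hd, ?_⟩
      have : A.nb (Sum.inl (x, y)) 0 = (Sum.inl (x - 1, y), 2) := if_neg (by
        rintro ⟨h1, h2, h3⟩
        simp only at h1 h2 h3
        exact A.left _ _ (by omega) (by omega) (by omega) (by omega) hd)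
      exact this.symm

/-- reflection of a position -/
def rf (v : ℤ × ℤ) : ℤ × ℤ := (v.1, 2 * A.y0 - 1 - v.2)

theorem rf_rf (v : ℤ × ℤ) : A.rf (A.rf v) = v := by
  obtain ⟨x, y⟩ := v
  simp [rf]

theorem mem_rf {v : ℤ × ℤ} : v ∈ A.H.image A.rf ↔ A.rf v ∈ A.H := by
  rw [Finset.mem_image]
  constructor
  · rintro ⟨w, hw, rfl⟩; rwa [rf_rf]
  · intro h; exact ⟨_, h, rf_rf _ _⟩

/-- mirrored copy -/
def chB : Ch (TG × Bool) A.Gd where
  emb v := (Sum.inl (A.rf v), true)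
  F _ := false
  R := A.H.image A.rf
  inj := by
    rintro v _ w _ h
    simp only [Prod.mk.injEq, Sum.inl.injEq, and_true] at h
    rw [← A.rf_rf v, h, rf_rf]
  glue := by
    rintro ⟨x, y⟩ hv d hd
    have hW := A.hW
    have hY := A.hY
    rw [mem_rf] at hv hd
    have s1 : ∀ a : ZMod 4, sg false a = a := fun _ => rfl
    have t0 : sg true (0 : ZMod 4) = 0 := by decide
    have t2 : sg true (2 : ZMod 4) = 2 := by decide
    have t1 : sg true (1 : ZMod 4) = 3 := by decide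
    have t3 : sg true (3 : ZMod 4) = 1 := by decide
    simp only [s1]
    have e0 : A.rf (x, y) = (x, 2 * A.y0 - 1 - y) := rfl
    rw [e0] at hv
    fin_cases d
    · have e1 : A.rf (mv (x, y) (0 : Dir)) = (x, 2 * A.y0 - 1 - y - 1) := by
        simp only [mv, dx, dy, rf, Prod.mk.injEq]; constructor
        · simp
        · ring
      change A.rf (mv (x, y) (0 : Dir)) ∈ A.H at hd
      change A.Gd ((Sum.inl (A.rf (x, y)), true), 1)
        ((Sum.inl (A.rf (mv (x, y) (0 : Dir))), true), 3)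
      rw [e1] at hd ⊢
      rw [e0]
      have := Gd.base (A := A) true (t := Sum.inl (x, 2 * A.y0 - 1 - y)) (d := 3)
        (t' := Sum.inl (x, 2 * A.y0 - 1 - y - 1)) (d' := 1) ⟨hv, hd, rfl⟩
      rwa [t3, t1] at this
    · have e1 : A.rf (mv (x, y) (1 : Dir)) = (x + 1, 2 * A.y0 - 1 - y) := by
        simp [mv, dx, dy, rf]
      change A.rf (mv (x, y) (1 : Dir)) ∈ A.H at hd
      change A.Gd ((Sum.inl (A.rf (x, y)), true), 2)
        ((Sum.inl (A.rf (mv (x, y) (1 : Dir))), true), 0)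
      rw [e1] at hd ⊢
      rw [e0]
      have h4 : A.nb (Sum.inl (x, 2 * A.y0 - 1 - y)) 2 =
          (Sum.inl (x + 1, 2 * A.y0 - 1 - y), 0) := if_neg (by
        rintro ⟨h1, h2, h3⟩
        simp only at h1 h2 h3
        exact A.right _ _ (by omega) (by omega) (by omega) (by omega) hd)
      have := Gd.base (A := A) true (t := Sum.inl (x, 2 * A.y0 - 1 - y)) (d := 2)
        (t' := Sum.inl (x + 1, 2 * A.y0 - 1 - y)) (d' := 0) ⟨hv, hd, h4.symm⟩
      rwa [t2, t0] at this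
    · have e1 : A.rf (mv (x, y) (2 : Dir)) = (x, 2 * A.y0 - 1 - y + 1) := by
        simp only [mv, dx, dy, rf, Prod.mk.injEq]; constructor
        · simp
        · ring
      change A.rf (mv (x, y) (2 : Dir)) ∈ A.H at hd
      change A.Gd ((Sum.inl (A.rf (x, y)), true), 3)
        ((Sum.inl (A.rf (mv (x, y) (2 : Dir))), true), 1)
      rw [e1] at hd ⊢
      rw [e0]
      have := Gd.base (A := A) true (t := Sum.inl (x, 2 * A.y0 - 1 - y)) (d := 1)
        (t' := Sum.inl (x, 2 * A.y0 - 1 - y + 1)) (d' := 3) ⟨hv, hd, rfl⟩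
      rwa [t3, t1] at this
    · have e1 : A.rf (mv (x, y) (3 : Dir)) = (x - 1, 2 * A.y0 - 1 - y) := by
        simp [mv, dx, dy, rf, sub_eq_add_neg]
      change A.rf (mv (x, y) (3 : Dir)) ∈ A.H at hd
      change A.Gd ((Sum.inl (A.rf (x, y)), true), 0)
        ((Sum.inl (A.rf (mv (x, y) (3 : Dir))), true), 2)
      rw [e1] at hd ⊢
      rw [e0]
      have h4 : A.nb (Sum.inl (x, 2 * A.y0 - 1 - y)) 0 =
          (Sum.inl (x - 1, 2 * A.y0 - 1 - y), 2) := if_neg (by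
        rintro ⟨h1, h2, h3⟩
        simp only at h1 h2 h3
        exact A.left _ _ (by omega) (by omega) (by omega) (by omega) hd)
      have := Gd.base (A := A) true (t := Sum.inl (x, 2 * A.y0 - 1 - y)) (d := 0)
        (t' := Sum.inl (x - 1, 2 * A.y0 - 1 - y)) (d' := 2) ⟨hv, hd, h4.symm⟩
      rwa [t2, t0] at this

/-- positions of the mouths and of the crosscut -/
def Mou (v : ℤ × ℤ) : Prop :=
  ((A.xl ≤ v.1 ∧ v.1 ≤ A.xr) ∧ A.y1 ≤ v.2 ∧ v.2 < A.y0) ∧
    (v.1 = A.xl ∨ v.1 = A.xr ∨ v.2 = A.y0 - 1)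

theorem cut_mou {v : ℤ × ℤ} (h : A.cutT (Sum.inl v)) : A.Mou v := by
  have h1 := A.h1
  obtain ⟨h2, h3⟩ := h
  exact ⟨⟨h2, by omega, by omega⟩, Or.inr (Or.inr h3)⟩

/-- free sides of the planar part -/
theorem frH_inl {x y : ℤ} (hm : ¬ A.Mou (x, y)) :
    ((x + 1, y) ∉ A.H → A.FrH (Sum.inl (x, y)) 2) ∧ ((x - 1, y) ∉ A.H → A.FrH (Sum.inl (x, y)) 0) ∧
    ((x, y + 1) ∉ A.H → A.FrH (Sum.inl (x, y)) 1) ∧
    ((x, y - 1) ∉ A.H → A.FrH (Sum.inl (x, y)) 3) := by
  have hx := A.hx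
  refine ⟨?_, ?_, ?_, ?_⟩
  · rintro h q ⟨-, h2, rfl⟩
    have e : A.nb (Sum.inl (x, y)) 2 = (Sum.inl (x + 1, y), 0) := if_neg (by
      rintro ⟨h3, h4⟩
      simp only at h3 h4
      exact hm ⟨⟨by simp only; omega, h4⟩, Or.inr (Or.inl h3)⟩)
    simp only [e] at h2
    exact h h2
  · rintro h q ⟨-, h2, rfl⟩
    have e : A.nb (Sum.inl (x, y)) 0 = (Sum.inl (x - 1, y), 2) := if_neg (by
      rintro ⟨h3, h4⟩
      simp only at h3 h4
      exact hm ⟨⟨by simp only; omega, h4⟩, Or.inl h3⟩)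
    simp only [e] at h2
    exact h h2
  · rintro h q ⟨-, h2, rfl⟩
    exact h h2
  · rintro h q ⟨-, h2, rfl⟩
    exact h h2

theorem viewA {B : Set (ℤ × ℤ)} (hB : ∀ v ∈ B, ¬ A.Mou v) : View A.chA B := by
  rintro ⟨x, y⟩ hv hvB d hd hn
  have hm := hB _ hvB
  obtain ⟨f2, f0, f1, f3⟩ := A.frH_inl hm
  have s1 : ∀ a : ZMod 4, sg false a = a := fun _ => rfl
  change mv (x, y) d ∉ A.H at hn
  fin_cases d
  · have e1 : mv (x, y) (0 : Dir) = (x, y + 1) := by simp [mv, dx, dy]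
    change mv (x, y) (0 : Dir) ∉ A.H at hn
    rw [e1] at hn
    exact A.free_of (k := false) (f1 hn) fun _ hc => hm (A.cut_mou hc)
  · have e1 : mv (x, y) (1 : Dir) = (x + 1, y) := by simp [mv, dx, dy]
    change mv (x, y) (1 : Dir) ∉ A.H at hn
    rw [e1] at hn
    exact A.free_of (k := false) (f2 hn) fun _ hc => hm (A.cut_mou hc)
  · have e1 : mv (x, y) (2 : Dir) = (x, y - 1) := by simp [mv, dx, dy, sub_eq_add_neg]
    change mv (x, y) (2 : Dir) ∉ A.H at hn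
    rw [e1] at hn
    exact A.free_of (k := false) (f3 hn) fun _ hc => hm (A.cut_mou hc)
  · have e1 : mv (x, y) (3 : Dir) = (x - 1, y) := by simp [mv, dx, dy, sub_eq_add_neg]
    change mv (x, y) (3 : Dir) ∉ A.H at hn
    rw [e1] at hn
    exact A.free_of (k := false) (f0 hn) fun _ hc => hm (A.cut_mou hc)

theorem viewB {B : Set (ℤ × ℤ)} (hB : ∀ v ∈ B, ¬ A.Mou (A.rf v)) : View A.chB B := by
  rintro ⟨x, y⟩ hv hvB d hd hn
  have hm := hB _ hvB
  obtain ⟨f2, f0, f1, f3⟩ := A.frH_inl hm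
  change mv (x, y) d ∉ A.H.image A.rf at hn
  rw [mem_rf] at hn
  have t0 : sg true (0 : ZMod 4) = 0 := by decide
  have t2 : sg true (2 : ZMod 4) = 2 := by decide
  have t1 : sg true (1 : ZMod 4) = 3 := by decide
  have t3 : sg true (3 : ZMod 4) = 1 := by decide
  fin_cases d
  · have e1 : A.rf (mv (x, y) (0 : Dir)) = (x, 2 * A.y0 - 1 - y - 1) := by
      simp only [mv, dx, dy, rf, Prod.mk.injEq]; constructor
      · simp
      · ring
    change A.rf (mv (x, y) (0 : Dir)) ∉ A.H at hn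
    rw [e1] at hn
    change Free A.Gd ((Sum.inl (A.rf (x, y)), true), 1)
    rw [← t3]
    exact A.free_of (k := true) (f3 hn) fun _ hc => hm (A.cut_mou hc)
  · have e1 : A.rf (mv (x, y) (1 : Dir)) = (x + 1, 2 * A.y0 - 1 - y) := by
      simp [mv, dx, dy, rf]
    change A.rf (mv (x, y) (1 : Dir)) ∉ A.H at hn
    rw [e1] at hn
    change Free A.Gd ((Sum.inl (A.rf (x, y)), true), 2)
    rw [← t2]
    exact A.free_of (k := true) (f2 hn) fun _ hc => hm (A.cut_mou hc)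
  · have e1 : A.rf (mv (x, y) (2 : Dir)) = (x, 2 * A.y0 - 1 - y + 1) := by
      simp only [mv, dx, dy, rf, Prod.mk.injEq]; constructor
      · simp
      · ring
    change A.rf (mv (x, y) (2 : Dir)) ∉ A.H at hn
    rw [e1] at hn
    change Free A.Gd ((Sum.inl (A.rf (x, y)), true), 3)
    rw [← t1]
    exact A.free_of (k := true) (f1 hn) fun _ hc => hm (A.cut_mou hc)
  · have e1 : A.rf (mv (x, y) (3 : Dir)) = (x - 1, 2 * A.y0 - 1 - y) := by
      simp [mv, dx, dy, rf, sub_eq_add_neg]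
    change A.rf (mv (x, y) (3 : Dir)) ∉ A.H at hn
    rw [e1] at hn
    change Free A.Gd ((Sum.inl (A.rf (x, y)), true), 0)
    rw [← t0]
    exact A.free_of (k := true) (f0 hn) fun _ hc => hm (A.cut_mou hc)

end Half

end Crest.Agent.R158.Ka470
end

-- ▼ part R158/Ka5_470
section

/-!
R158, leaf F1 / F2 (helper470), part 5: finite cover of the double of a half environment by charts
and cells; exponential moments of the number of strands that are not contained in a patch.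
-/

set_option autoImplicit false

namespace Crest.Agent.R158.Ka470

open Crest.Agent.R158.Nm211
open Crest.Agent.R158.Rs689 (PB hf)
open Crest.Agent.R158.Env664 (TG)
open MeasureTheory

/-- lower left corner of the cell of `v` -/
def cel (ρ : ℕ) (v : ℤ × ℤ) : ℤ × ℤ := (ρ * (v.1 / ρ), ρ * (v.2 / ρ))

theorem cel_bd {ρ : ℕ} (hρ : 1 ≤ ρ) (x : ℤ) : (ρ : ℤ) * (x / ρ) ≤ x ∧ x < ρ * (x / ρ) + ρ := by
  have h0 : (0 : ℤ) < ρ := by exact_mod_cast hρ
  have h1 := Int.mul_ediv_add_emod x ρ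
  have h2 := Int.emod_nonneg x h0.ne'
  have h3 := Int.emod_lt_of_pos x h0
  constructor <;> linarith

theorem cel_mem {ρ : ℕ} (hρ : 1 ≤ ρ) (v : ℤ × ℤ) : v ∈ B1 ρ (cel ρ v) := by
  obtain ⟨h1, h2⟩ := cel_bd hρ v.1
  obtain ⟨h3, h4⟩ := cel_bd hρ v.2
  exact ⟨⟨h1, h2⟩, h3, h4⟩

/-- square of side `5ρ` -/
def B5 (ρ : ℕ) (o : ℤ × ℤ) : Set (ℤ × ℤ) :=
  {v | (o.1 - 2 * ρ ≤ v.1 ∧ v.1 < o.1 + 3 * ρ) ∧ o.2 - 2 * ρ ≤ v.2 ∧ v.2 < o.2 + 3 * ρ}

theorem B3_sub (ρ : ℕ) (o : ℤ × ℤ) : B3 ρ o ⊆ B5 ρ o := by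
  rintro ⟨x, y⟩ ⟨⟨h1, h2⟩, h3, h4⟩
  simp only at h1 h2 h3 h4
  refine ⟨⟨?_, ?_⟩, ?_, ?_⟩ <;> simp only <;> omega

theorem cel_B5 {ρ : ℕ} (hρ : 1 ≤ ρ) {v u : ℤ × ℤ} (hu : u ∈ B5 ρ (cel ρ v)) :
    (v.1 - 3 * ρ < u.1 ∧ u.1 < v.1 + 3 * ρ) ∧ v.2 - 3 * ρ < u.2 ∧ u.2 < v.2 + 3 * ρ := by
  obtain ⟨h1, h2⟩ := cel_bd hρ v.1
  obtain ⟨h3, h4⟩ := cel_bd hρ v.2
  obtain ⟨⟨h5, h6⟩, h7, h8⟩ := hu
  simp only [cel] at h5 h6 h7 h8
  refine ⟨⟨?_, ?_⟩, ?_, ?_⟩ <;> linarith

theorem B5_diam {ρ : ℕ} {o u v : ℤ × ℤ} (hu : u ∈ B5 ρ o) (hv : v ∈ B5 ρ o) :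
    (v.1 < u.1 + 5 * ρ ∧ u.1 < v.1 + 5 * ρ) ∧ v.2 < u.2 + 5 * ρ ∧ u.2 < v.2 + 5 * ρ := by
  obtain ⟨⟨h1, h2⟩, h3, h4⟩ := hu
  obtain ⟨⟨h5, h6⟩, h7, h8⟩ := hv
  refine ⟨⟨?_, ?_⟩, ?_, ?_⟩ <;> linarith

theorem cel_mem5 {ρ : ℕ} (hρ : 1 ≤ ρ) (v : ℤ × ℤ) : v ∈ B5 ρ (cel ρ v) :=
  B3_sub _ _ (B1_sub _ _ (cel_mem hρ v))

/-- number of cells that meet a box -/
theorem card_cells {ρ κ : ℕ} (hρ : 1 ≤ ρ) {R : Finset (ℤ × ℤ)} {X0 Y0 : ℤ}
    (h : ∀ v ∈ R, (X0 ≤ v.1 ∧ v.1 < X0 + κ * ρ) ∧ Y0 ≤ v.2 ∧ v.2 < Y0 + κ * ρ) :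
    (R.image (cel ρ)).card ≤ (κ + 1) ^ 2 := by
  classical
  have h0 : (0 : ℤ) < ρ := by exact_mod_cast hρ
  have key : ∀ X x : ℤ, X ≤ x → x < X + κ * ρ → X / ρ ≤ x / ρ ∧ x / ρ < X / ρ + κ + 1 := by
    intro X x h1 h2
    refine ⟨Int.ediv_le_ediv h0 h1, ?_⟩
    have h3 : X < ρ * (X / ρ) + ρ := (cel_bd hρ X).2
    apply Int.ediv_lt_of_lt_mul h0
    nlinarith
  have h1 : R.image (cel ρ) ⊆ ((Finset.Ico (X0 / ρ) (X0 / ρ + κ + 1)) ×ˢ
      (Finset.Ico (Y0 / ρ) (Y0 / ρ + κ + 1))).image fun q => ((ρ : ℤ) * q.1, (ρ : ℤ) * q.2) := by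
    intro o ho
    rw [Finset.mem_image] at ho
    obtain ⟨v, hv, rfl⟩ := ho
    obtain ⟨⟨h2, h3⟩, h4, h5⟩ := h v hv
    rw [Finset.mem_image]
    refine ⟨(v.1 / ρ, v.2 / ρ), ?_, rfl⟩
    rw [Finset.mem_product, Finset.mem_Ico, Finset.mem_Ico]
    exact ⟨key _ _ h2 h3, key _ _ h4 h5⟩
  refine (Finset.card_le_card h1).trans (Finset.card_image_le.trans ?_)
  rw [Finset.card_product, Int.card_Ico, Int.card_Ico]
  have e1 : (X0 / (ρ : ℤ) + κ + 1 - X0 / ρ).toNat = κ + 1 := by omega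
  have e2 : (Y0 / (ρ : ℤ) + κ + 1 - Y0 / ρ).toNat = κ + 1 := by omega
  rw [e1, e2, sq]

namespace Half

variable (A : Half)

/-- all the scales are large compared with `ρ` -/
structure Sz (ρ : ℕ) : Prop where
  pos : 1 ≤ ρ
  y : 5 * (ρ : ℤ) ≤ A.y1 - A.Y
  w : 5 * (ρ : ℤ) ≤ A.W
  r : 2 * (8 * (ρ : ℤ)) ≤ A.R

/-- all the scales are comparable with `ρ` -/
structure Bd (ρ κ : ℕ) : Prop where
  hH : ∃ X0 Y0 : ℤ, ∀ v ∈ A.H, (X0 ≤ v.1 ∧ v.1 < X0 + κ * ρ) ∧ Y0 ≤ v.2 ∧ v.2 < Y0 + κ * ρ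
  hR : A.R ≤ κ * ρ

variable {A}

/-- the four charts -/
noncomputable def chf {ρ : ℕ} (h : A.Sz ρ) : Fin 4 → Ch (TG × Bool) A.Gd
  | 0 => A.chA
  | 1 => A.chB
  | 2 => (A.picM (8 * (ρ : ℤ)) h.r).ch
  | 3 => A.picS.ch

theorem chf_F {ρ : ℕ} (h : A.Sz ρ) (i : Fin 4) (v : ℤ × ℤ) : (chf h i).F v = false := by
  fin_cases i <;> rfl

theorem ry_le {y : ℤ} : A.ry y < A.y0 := by
  rcases lt_or_ge y A.y0 with h | h
  · rwa [ry_lt _ h]
  · rw [ry_ge _ h]; omega

/-- chart `M` sees the cells near the mouths and the crosscut -/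
theorem viewM {ρ : ℕ} (h : A.Sz ρ) {B : Set (ℤ × ℤ)}
    (hB : ∀ u ∈ B, (A.xl - 8 * ρ ≤ u.1 ∧ u.1 ≤ A.xr + 8 * ρ) ∧ A.Y ≤ A.ry u.2) :
    View (chf h 2) B :=
  (A.picM (8 * (ρ : ℤ)) h.r).view (A.seesM h.r) hB

theorem viewS {ρ : ℕ} (h : A.Sz ρ) {B : Set (ℤ × ℤ)} (hB : ∀ u ∈ B, 0 ≤ u.1 ∧ u.1 < A.R) :
    View (chf h 3) B :=
  A.picS.view A.seesS hB

variable (A) in
/-- sets of positions that are completely seen by the chart `i` -/
def Good (ρ : ℕ) (i : Fin 4) (B : Set (ℤ × ℤ)) : Prop :=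
  match i with
  | 0 => ∀ u ∈ B, ¬ A.Mou u
  | 1 => ∀ u ∈ B, ¬ A.Mou (A.rf u)
  | 2 => ∀ u ∈ B, (A.xl - 8 * (ρ : ℤ) ≤ u.1 ∧ u.1 ≤ A.xr + 8 * ρ) ∧ A.Y ≤ A.ry u.2
  | 3 => ∀ u ∈ B, 0 ≤ u.1 ∧ u.1 < A.R

theorem Good.view {ρ : ℕ} (h : A.Sz ρ) {i : Fin 4} {B : Set (ℤ × ℤ)} (hB : A.Good ρ i B) :
    View (chf h i) B := by
  fin_cases i
  · exact A.viewA hB
  · exact A.viewB hB
  · exact viewM h hB
  · exact viewS h hB

theorem Good.mono {ρ : ℕ} {i : Fin 4} {B B' : Set (ℤ × ℤ)} (hB : A.Good ρ i B) (hs : B' ⊆ B) :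
    A.Good ρ i B' := by
  fin_cases i <;> exact fun u hu => hB u (hs hu)

/-- the heights seen by chart `M` -/
theorem ry_ge_Y {ρ : ℕ} (h : A.Sz ρ) {y0' y : ℤ} (h1 : A.y1 ≤ y0') (h2 : y0' < A.y0)
    (h3 : y0' < y + 5 * ρ) (h4 : y < y0' + 5 * ρ) : A.Y ≤ A.ry y := by
  have hy := h.y
  rcases lt_or_ge y A.y0 with h5 | h5
  · rw [ry_lt _ h5]; omega
  · rw [ry_ge _ h5]; omega

/-- natural tiles near a mouth or the crosscut belong to the run -/
theorem near_mou {ρ : ℕ} (h : A.Sz ρ) {v u : ℤ × ℤ} (hv : v ∈ A.H) (hu : A.Mou u)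
    (hd : (v.1 < u.1 + 5 * ρ ∧ u.1 < v.1 + 5 * ρ) ∧ v.2 < u.2 + 5 * ρ ∧ u.2 < v.2 + 5 * ρ) :
    (A.xl ≤ v.1 ∧ v.1 ≤ A.xr) ∧ A.Y ≤ v.2 ∧ v.2 < A.y0 := by
  obtain ⟨⟨⟨h1, h2⟩, h3, h4⟩, -⟩ := hu
  have hy := h.y
  have hw := h.w
  obtain ⟨x, y⟩ := v
  simp only at hd ⊢
  have hx : A.xl ≤ x ∧ x ≤ A.xr := by
    constructor
    · by_contra hcon
      exact A.left x y (by omega) (by omega) (by omega) (by omega) hv
    · by_contra hcon
      exact A.right x y (by omega) (by omega) (by omega) (by omega) hv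
  refine ⟨hx, by omega, ?_⟩
  by_contra hcon
  exact A.top x y hx.1 hx.2 (by omega) (by omega) hv

/-- **cover**: every tile of the double is seen in one of the four charts. -/
theorem cover_good {ρ : ℕ} (h : A.Sz ρ) {t : TG} (ht : A.tH t) (k : Bool) :
    ∃ i : Fin 4, ∃ v ∈ (chf h i).R, (chf h i).emb v = (t, k) ∧
      A.Good ρ i (B5 ρ (cel ρ v)) := by
  have hρ := h.pos
  have hy := h.y
  have hw := h.w
  have hr := h.r
  have hx := A.hx
  have h01 := A.h1
  rcases t with ⟨x, y⟩ | ⟨x, y⟩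
  · -- planar tile
    have hv : (x, y) ∈ A.H := ht
    cases k
    · by_cases hM : ∀ u ∈ B5 ρ (cel ρ (x, y)), ¬ A.Mou u
      · exact ⟨0, (x, y), hv, rfl, hM⟩
      · push Not at hM
        obtain ⟨u, hu, hu'⟩ := hM
        have hd := B5_diam hu (cel_mem5 hρ (x, y))
        obtain ⟨h1, h2, h3⟩ := near_mou h hv hu' hd
        simp only at h1 h2 h3
        refine ⟨2, (x, y), ?_, ?_, fun w hw => ?_⟩
        · refine (Pic.mem_R _).2 ?_
          rw [ry_lt _ h3]
          exact A.mem_picM.2 ⟨⟨by omega, h2, h3⟩, Or.inl h1⟩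
        · show ((A.picM _ _).tile x (A.ry y), A.kk y) = _
          rw [ry_lt _ h3, kk_lt _ h3]
          have : (A.picM (8 * (ρ : ℤ)) h.r).tile x y = Sum.inl (x, y) := by
            show (if x < A.xl then _ else if x ≤ A.xr then _ else _) = _
            rw [if_neg (by omega), if_pos h1.2]
          rw [this]
        · have hd' := B5_diam hu hw
          obtain ⟨⟨⟨h4, h5⟩, h6, h7⟩, -⟩ := hu'
          exact ⟨by omega, ry_ge_Y h h6 h7 (by omega) (by omega)⟩
    · -- mirrored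
      set v : ℤ × ℤ := A.rf (x, y) with hvdef
      have hrf : A.rf v = (x, y) := A.rf_rf _
      by_cases hM : ∀ u ∈ B5 ρ (cel ρ v), ¬ A.Mou (A.rf u)
      · refine ⟨1, v, ?_, ?_, hM⟩
        · exact A.mem_rf.2 (by rw [hrf]; exact hv)
        · show (Sum.inl (A.rf v), true) = _
          rw [hrf]
      · push Not at hM
        obtain ⟨u, hu, hu'⟩ := hM
        have hd := B5_diam hu (cel_mem5 hρ v)
        have hv1 : v.1 = x := rfl
        have hv2 : v.2 = 2 * A.y0 - 1 - y := rfl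
        have hu1 : (A.rf u).1 = u.1 := rfl
        have hu2 : (A.rf u).2 = 2 * A.y0 - 1 - u.2 := rfl
        obtain ⟨h1, h2, h3⟩ := near_mou h (v := (x, y)) hv hu' (by
          simp only; rw [hu1, hu2]; omega)
        simp only at h1 h2 h3
        have hge : A.y0 ≤ v.2 := by omega
        have hry : A.ry v.2 = y := by rw [ry_ge _ hge]; omega
        refine ⟨2, v, ?_, ?_, fun w hw => ?_⟩
        · have hmem : (v.1, A.ry v.2) ∈ (A.picM _ h.r).P := by
            rw [hry]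
            exact A.mem_picM.2 ⟨⟨by omega, h2, h3⟩, Or.inl (by omega)⟩
          exact (Pic.mem_R _).2 hmem
        · show ((A.picM _ _).tile v.1 (A.ry v.2), A.kk v.2) = _
          rw [hry, kk_ge _ hge, hv1]
          have : (A.picM (8 * (ρ : ℤ)) h.r).tile x y = Sum.inl (x, y) := by
            show (if x < A.xl then _ else if x ≤ A.xr then _ else _) = _
            rw [if_neg (by omega), if_pos h1.2]
          rw [this]
        · have hd' := B5_diam hu hw
          obtain ⟨⟨⟨h4, h5⟩, h6, h7⟩, -⟩ := hu'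
          rw [hu1] at h4 h5
          rw [hu2] at h6 h7
          refine ⟨by omega, ?_⟩
          rcases lt_or_ge w.2 A.y0 with h8 | h8
          · rw [ry_lt _ h8]; omega
          · rw [ry_ge _ h8]; omega
  · -- strip tile
    have hv : (0 ≤ x ∧ x < A.R) ∧ A.y1 ≤ y ∧ y < A.y0 := ht
    -- height in the picture
    obtain ⟨y', hy', hk⟩ : ∃ y', A.ry y' = y ∧ A.kk y' = k := by
      cases k
      · exact ⟨y, ry_lt _ hv.2.2, kk_lt _ hv.2.2⟩
      · refine ⟨2 * A.y0 - 1 - y, ?_, kk_ge _ (by omega)⟩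
        rw [ry_ge _ (by omega)]; ring
    have hyr : ∀ y'' : ℤ, y' - 3 * ρ < y'' → y'' < y' + 3 * ρ → A.Y ≤ A.ry y'' := by
      intro y'' h1 h2
      rcases lt_or_ge y' A.y0 with h3 | h3 <;> rcases lt_or_ge y'' A.y0 with h4 | h4
      · rw [ry_lt _ h3] at hy'; rw [ry_lt _ h4]; omega
      · rw [ry_lt _ h3] at hy'; rw [ry_ge _ h4]; omega
      · rw [ry_ge _ h3] at hy'; rw [ry_lt _ h4]; omega
      · rw [ry_ge _ h3] at hy'; rw [ry_ge _ h4]; omega
    by_cases hc : 3 * (ρ : ℤ) ≤ x ∧ x < A.R - 3 * ρ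
    · refine ⟨3, (x, y'), ?_, ?_, fun u hu => ?_⟩
      · refine (Pic.mem_R _).2 ?_
        rw [hy']
        exact A.mem_picS.2 hv
      · show (Sum.inr (x, A.ry y'), A.kk y') = _
        rw [hy', hk]
      · have := cel_B5 hρ hu
        simp only at this
        omega
    · have hc' : x < 3 * (ρ : ℤ) ∨ A.R - 3 * ρ ≤ x := by omega
      rcases hc' with hc' | hc'
      · refine ⟨2, (A.xr + 1 + x, y'), ?_, ?_, fun u hu => ?_⟩
        · refine (Pic.mem_R _).2 ?_
          rw [hy']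
          exact A.mem_picM.2 ⟨⟨by omega, by omega, hv.2.2⟩, Or.inr hv.2.1⟩
        · show ((A.picM _ _).tile (A.xr + 1 + x) (A.ry y'), A.kk y') = _
          rw [hy', hk]
          have : (A.picM (8 * (ρ : ℤ)) h.r).tile (A.xr + 1 + x) y = Sum.inr (x, y) := by
            show (if A.xr + 1 + x < A.xl then _ else if A.xr + 1 + x ≤ A.xr then _ else _) = _
            rw [if_neg (by omega), if_neg (by omega)]
            congr 2
            omega
          rw [this]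
        · have := cel_B5 hρ hu
          simp only at this
          exact ⟨by omega, hyr _ this.2.1 this.2.2⟩
      · refine ⟨2, (A.xl - (A.R - x), y'), ?_, ?_, fun u hu => ?_⟩
        · refine (Pic.mem_R _).2 ?_
          rw [hy']
          exact A.mem_picM.2 ⟨⟨by omega, by omega, hv.2.2⟩, Or.inr hv.2.1⟩
        · show ((A.picM _ _).tile (A.xl - (A.R - x)) (A.ry y'), A.kk y') = _
          rw [hy', hk]
          have : (A.picM (8 * (ρ : ℤ)) h.r).tile (A.xl - (A.R - x)) y = Sum.inr (x, y) := by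
            show (if A.xl - (A.R - x) < A.xl then _ else _) = _
            rw [if_pos (by omega)]
            congr 2
            omega
          rw [this]
        · have := cel_B5 hρ hu
          simp only at this
          exact ⟨by omega, hyr _ this.2.1 this.2.2⟩


end Half

end Crest.Agent.R158.Ka470
end

-- ▼ part R158/Ka6_470

/-!
R158, leaf F1 / F2 (helper470), part 6: exponential moments of the number of big strands.

* `Half.dich` : every walk of the double of a half environment stays in a box `B3` of side `3ρ` of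
  one of the four charts, or it is big (`BigS`)
* `Half.big_moment` : all exponential moments of the number of disjoint big strands are bounded
-/

set_option autoImplicit false

namespace Crest.Agent.R158.Ka470

open Crest.Agent.R158.Nm211
open Crest.Agent.R158.Rs689 (PB hf)
open Crest.Agent.R158.Sw300 (thru)
open Crest.Agent.R158.Env664 (TG)
open MeasureTheory

section window

variable {T : Type*} {G : T × ZMod 4 → T × ZMod 4 → Prop}

/-- the window is entered only from outside -/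
theorem window_ent (C : Ch T G) (ρ : ℕ) (o : ℤ × ℤ) (d : Dir) :
    ∀ c ∈ DW C ρ o d, ∀ s : ℤ × ℤ → Bool, nx6 s c ∉ XW ρ o d := by
  rintro c ⟨-, hc⟩ s hx
  have hs : (nx6 s c).1 = mv c.1 (nx6 s c).2 := rfl
  have h1 : (nx6 s c).1.1 = c.1.1 + dx (nx6 s c).2 ∧ (nx6 s c).1.2 = c.1.2 + dy (nx6 s c).2 := by
    rw [hs]; simp [mv]
  generalize nx6 s c = c' at hx h1
  fin_cases d
  · change c' ∈ (Finset.Ico (o.1 - ρ) (o.1 + 2 * ρ)).image
      (fun x => ((x, o.2 + ρ), (0 : Dir))) at hx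
    rw [Finset.mem_image] at hx
    obtain ⟨x, -, rfl⟩ := hx
    change (o.1 - ρ ≤ c.1.1 ∧ c.1.1 < o.1 + 2 * ρ) ∧ o.2 + ρ ≤ c.1.2 ∧ c.1.2 < o.2 + 2 * ρ at hc
    have h2 : dy (0 : Dir) = 1 := rfl
    have h3 := h1.2
    simp only [h2] at h3
    omega
  · change c' ∈ (Finset.Ico (o.2 - ρ) (o.2 + 2 * ρ)).image
      (fun y => ((o.1 + ρ, y), (1 : Dir))) at hx
    rw [Finset.mem_image] at hx
    obtain ⟨x, -, rfl⟩ := hx
    change (o.1 + ρ ≤ c.1.1 ∧ c.1.1 < o.1 + 2 * ρ) ∧ o.2 - ρ ≤ c.1.2 ∧ c.1.2 < o.2 + 2 * ρ at hc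
    have h2 : dx (1 : Dir) = 1 := rfl
    have h3 := h1.1
    simp only [h2] at h3
    omega
  · change c' ∈ (Finset.Ico (o.1 - ρ) (o.1 + 2 * ρ)).image
      (fun x => ((x, o.2 - 1), (2 : Dir))) at hx
    rw [Finset.mem_image] at hx
    obtain ⟨x, -, rfl⟩ := hx
    change (o.1 - ρ ≤ c.1.1 ∧ c.1.1 < o.1 + 2 * ρ) ∧ o.2 - ρ ≤ c.1.2 ∧ c.1.2 < o.2 at hc
    have h2 : dy (2 : Dir) = -1 := rfl
    have h3 := h1.2
    simp only [h2] at h3
    omega
  · change c' ∈ (Finset.Ico (o.2 - ρ) (o.2 + 2 * ρ)).image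
      (fun y => ((o.1 - 1, y), (3 : Dir))) at hx
    rw [Finset.mem_image] at hx
    obtain ⟨x, -, rfl⟩ := hx
    change (o.1 - ρ ≤ c.1.1 ∧ c.1.1 < o.1) ∧ o.2 - ρ ≤ c.1.2 ∧ c.1.2 < o.2 + 2 * ρ at hc
    have h2 : dx (3 : Dir) = -1 := rfl
    have h3 := h1.1
    simp only [h2] at h3
    omega

theorem window_box {ρ : ℕ} (hρ : 1 ≤ ρ) (o : ℤ × ℤ) (d : Dir) :
    ∀ c ∈ XW ρ o d, |c.1.1 - o.1| ≤ ((2 : ℕ) : ℤ) * ρ ∧ |c.1.2 - o.2| ≤ ((2 : ℕ) : ℤ) * ρ := by
  intro c hx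
  have h0 : (1 : ℤ) ≤ ρ := by exact_mod_cast hρ
  rw [abs_le, abs_le]
  push_cast
  fin_cases d
  · change c ∈ (Finset.Ico (o.1 - ρ) (o.1 + 2 * ρ)).image
      (fun x => ((x, o.2 + ρ), (0 : Dir))) at hx
    rw [Finset.mem_image] at hx
    obtain ⟨x, hx, rfl⟩ := hx
    rw [Finset.mem_Ico] at hx
    simp only
    omega
  · change c ∈ (Finset.Ico (o.2 - ρ) (o.2 + 2 * ρ)).image
      (fun y => ((o.1 + ρ, y), (1 : Dir))) at hx
    rw [Finset.mem_image] at hx
    obtain ⟨x, hx, rfl⟩ := hx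
    rw [Finset.mem_Ico] at hx
    simp only
    omega
  · change c ∈ (Finset.Ico (o.1 - ρ) (o.1 + 2 * ρ)).image
      (fun x => ((x, o.2 - 1), (2 : Dir))) at hx
    rw [Finset.mem_image] at hx
    obtain ⟨x, hx, rfl⟩ := hx
    rw [Finset.mem_Ico] at hx
    simp only
    omega
  · change c ∈ (Finset.Ico (o.2 - ρ) (o.2 + 2 * ρ)).image
      (fun y => ((o.1 - 1, y), (3 : Dir))) at hx
    rw [Finset.mem_image] at hx
    obtain ⟨x, hx, rfl⟩ := hx
    rw [Finset.mem_Ico] at hx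
    simp only
    omega

theorem window_far {ρ : ℕ} (o : ℤ × ℤ) (d : Dir) :
    ∀ c ∈ XW ρ o d, ∀ c' ∈ YW ρ o d, Far ρ c c' := by
  intro c hx c' hy
  unfold Far
  rw [le_abs, le_abs]
  fin_cases d
  · change c ∈ (Finset.Ico (o.1 - ρ) (o.1 + 2 * ρ)).image
      (fun x => ((x, o.2 + ρ), (0 : Dir))) at hx
    rw [Finset.mem_image] at hx
    obtain ⟨x, hx, rfl⟩ := hx
    change o.2 + 2 * ρ ≤ c'.1.2 at hy
    simp only
    omega
  · change c ∈ (Finset.Ico (o.2 - ρ) (o.2 + 2 * ρ)).image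
      (fun y => ((o.1 + ρ, y), (1 : Dir))) at hx
    rw [Finset.mem_image] at hx
    obtain ⟨x, hx, rfl⟩ := hx
    change o.1 + 2 * ρ ≤ c'.1.1 at hy
    simp only
    omega
  · change c ∈ (Finset.Ico (o.1 - ρ) (o.1 + 2 * ρ)).image
      (fun x => ((x, o.2 - 1), (2 : Dir))) at hx
    rw [Finset.mem_image] at hx
    obtain ⟨x, hx, rfl⟩ := hx
    change c'.1.2 < o.2 - ρ at hy
    simp only
    omega
  · change c ∈ (Finset.Ico (o.2 - ρ) (o.2 + 2 * ρ)).image
      (fun y => ((o.1 - 1, y), (3 : Dir))) at hx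
    rw [Finset.mem_image] at hx
    obtain ⟨x, hx, rfl⟩ := hx
    change c'.1.1 < o.1 - ρ at hy
    simp only
    omega

end window

theorem en_surj (a : ZMod 4) : ∃ d : Dir, en d = a := by
  revert a; decide

namespace Half

variable {A : Half}

/-- a set of ports is big if it contains a port through which a strand enters a window that it
crosses -/
def BigS {ρ : ℕ} (h : A.Sz ρ) (s : TG × Bool → Bool) (P : Set ((TG × Bool) × ZMod 4)) : Prop :=
  ∃ i : Fin 4, ∃ o ∈ (chf h i).R.image (cel ρ), ∃ (d : Dir) (c : St ℤ),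
    Cross (chf h i) s ρ o d c ∧ (chf h i).pe c ∈ P

theorem BigS.mono {ρ : ℕ} {h : A.Sz ρ} {s : TG × Bool → Bool}
    {P Q : Set ((TG × Bool) × ZMod 4)} (hP : BigS h s P) (hPQ : P ⊆ Q) : BigS h s Q := by
  obtain ⟨i, o, ho, d, c, hc, hp⟩ := hP
  exact ⟨i, o, ho, d, c, hc, hPQ hp⟩

/-- **dichotomy in the double of a half environment**: a walk stays in the box `B3 ρ (cel ρ v)` of
one of the four charts, or it is big. -/
theorem dich {ρ : ℕ} (h : A.Sz ρ) {s : TG × Bool → Bool} {x y : (TG × Bool) × ZMod 4}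
    {l : List ((TG × Bool) × ZMod 4)} (hx : A.tH x.1.1) (hw : Wk s A.Gd x y l) :
    BigS h s {p | p ∈ l} ∨
    ∃ i : Fin 4, ∃ c : St ℤ, (chf h i).pe c = x ∧ c.1 ∈ (chf h i).R ∧
      A.Good ρ i (B5 ρ (cel ρ c.1)) ∧ View (chf h i) (B5 ρ (cel ρ c.1)) ∧
      ∃ m, (∀ j ≤ m, (((chf h i).f s)^[j] c).1 ∈ (chf h i).R ∧
          (((chf h i).f s)^[j] c).1 ∈ B3 ρ (cel ρ c.1)) ∧
        l = (List.range (m + 1)).map (fun j => (chf h i).pe (((chf h i).f s)^[j] c)) ∧
        y = (chf h i).pt (((chf h i).f s)^[m] c).1 (ex (((chf h i).f s)^[m + 1] c).2) := by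
  obtain ⟨⟨t, k⟩, a⟩ := x
  obtain ⟨i, v, hv, he, hgd⟩ := cover_good h hx k
  have hV := hgd.view h
  obtain ⟨d, rfl⟩ := en_surj a
  have hpe : (chf h i).pe (v, d) = ((t, k), en d) := by
    show ((chf h i).emb v, sg ((chf h i).F v) (en d)) = _
    rw [he, chf_F]
    rfl
  rw [← hpe] at hw
  have hV3 := (hgd.mono (B3_sub _ _)).view h
  rcases walk_dich A.gd_fn (C := chf h i) (c := (v, d)) hv (cel_mem h.pos v) hV3 hw with
    ⟨m, h1, h2, h3⟩ | ⟨d', c', h1, h2⟩
  · exact Or.inr ⟨i, (v, d), hpe, hv, hgd, hV, m, h1, h2, h3⟩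
  · exact Or.inl ⟨i, _, Finset.mem_image_of_mem _ hv, d', c', h1, h2⟩

/-- number of cells -/
theorem cells {ρ κ : ℕ} (h : A.Sz ρ) (hb : A.Bd ρ κ) (i : Fin 4) :
    ((chf h i).R.image (cel ρ)).card ≤ (2 * κ + 16 + 1) ^ 2 := by
  have hρ := h.pos
  have hρ' : (1 : ℤ) ≤ ρ := by exact_mod_cast hρ
  obtain ⟨X0, Y0, hH⟩ := hb.hH
  have hκ : (0 : ℤ) ≤ (κ : ℤ) * ρ := by positivity
  have hx := A.hx
  have hY := A.hY
  have h01 := A.h1
  -- size of the run
  have hc1 := hH _ (A.row A.xl A.Y le_rfl (by omega) le_rfl hx)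
  have hc2 := hH _ (A.row A.xr (A.y0 - 1) (by omega) (by omega) hx le_rfl)
  simp only at hc1 hc2
  fin_cases i
  · refine card_cells hρ (X0 := X0) (Y0 := Y0) fun v hv => ?_
    have := hH v hv
    push_cast
    rw [add_mul, mul_assoc]
    omega
  · refine card_cells hρ (X0 := X0) (Y0 := 2 * A.y0 - Y0 - κ * ρ) fun v hv => ?_
    have h1 := hH _ (A.mem_rf.1 hv)
    have e1 : (A.rf v).1 = v.1 := rfl
    have e2 : (A.rf v).2 = 2 * A.y0 - 1 - v.2 := rfl
    rw [e1, e2] at h1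
    push_cast
    rw [add_mul, mul_assoc]
    omega
  · refine card_cells hρ (X0 := A.xl - 8 * ρ) (Y0 := A.Y) fun v hv => ?_
    obtain ⟨x, y⟩ := v
    have h1 := A.mem_picM.1 ((Pic.mem_R _).1 hv)
    simp only
    push_cast
    rw [add_mul, mul_assoc]
    rcases lt_or_ge y A.y0 with h2 | h2
    · rw [ry_lt _ h2] at h1
      omega
    · rw [ry_ge _ h2] at h1
      omega
  · refine card_cells hρ (X0 := 0) (Y0 := A.Y) fun v hv => ?_
    obtain ⟨x, y⟩ := v
    have h1 := A.mem_picS.1 ((Pic.mem_R _).1 hv)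
    have h3 := hb.hR
    simp only
    push_cast
    rw [add_mul, mul_assoc]
    rcases lt_or_ge y A.y0 with h2 | h2
    · rw [ry_lt _ h2] at h1
      omega
    · rw [ry_ge _ h2] at h1
      omega


end Half

end Crest.Agent.R158.Ka470
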