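import Crest.Agent.R158.Lb3_841
import Crest.Agent.R158.Uc4_31

-- ▼ part R158/Lb4_841
section

/-!
# R158, leaf LB3 of doc 1912 (helper841), part 4: the expectation bound

* `momC`   : a local majorant of the errors with bounded exponential moments
* `bad_int` : `∫ 1_A |nab| ≤ exp (-Lin) C P(A)^(1-δ)`
* `main_int` : `∫ 1_MainE nab ≥ exp (-Lin) P(MainE)^(1+δ) / C`
* `LB3x`   : the lower bound
-/

set_option autoImplicit false

noncomputable section

namespace Crest.Agent.R158.Lb841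

open Crest.Agent.R161.Geo729 Crest.Agent.R161.Dual374
open Crest.Agent.R161.Tas682 (sd)
open Crest.Agent.R158.It200 Crest.Agent.R158.Wf850
open Crest.Agent.R158.Rs689 (DArm PArm nu hf Dep)
open Crest.Agent.R158.Vx107 (Fw Sw tot Ntr W Rest RP mass_add mass_single mass_sub mass_neg
  mass_smul AllFin nab op cl chv)
open Crest.Agent.R158.Cn109 (SS QQ lsW smalls mem_smalls VV DepF)
open Crest.Agent.R158.Hd109 (Dens Err)
open Crest.Agent.R158.Gx31
open Real Function MeasureTheory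

variable {m r R : ℕ}

theorem Par.dens (h : Par m r R) (i : Bool) : Dens (1 / 8) (kC r R i) (VC m r R i)
    (uf (VC m r R i)) := by
  cases i
  · refine dens_ud (h.ne false) ?_
    have h1 : 2 ^ kC r R false ≤ R := by
      have := pow_kC_false h
      have h2 : ((2 ^ kC r R false : ℕ) : ℤ) ≤ R := by
        push_cast; linarith [show (0 : ℤ) ≤ 2 ^ kC r R false by positivity]
      exact_mod_cast h2
    refine (rg_card (x := (0, 0)) h1).trans ?_
    have h2 : (0 : ℝ) ≤ (rg (0, 0) R).card := Nat.cast_nonneg _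
    rw [VC_false]
    linarith
  · refine dens_ud (h.ne true) ?_
    have h1 : 2 ^ kC r R true ≤ 4 * r := by
      have := pow_kC_true h
      have h2 : ((2 ^ kC r R true : ℕ) : ℤ) ≤ ((4 * r : ℕ) : ℤ) := by push_cast; linarith
      exact_mod_cast h2
    exact bq_card h1

/-- the error -/
def EE (c' : Bool → ℝ) (m r R : ℕ) (z : Cfz) : ℝ :=
  Err (fun i => √3 * aC i) c' (kC r R) (VC m r R) (fun i => uf (VC m r R i)) z

/-- the number of free loops -/
def NF (m r R : ℕ) (z : Cfz) : ℕ :=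
  (CR (Mc468.yy m) (4 * r) 2 z).ncard + (CR (0, 0) (2 * R) 8 z).ncard

/-- **a local majorant with bounded moments** -/
theorem momC {s ℓ : ℝ} (hs : 0 ≤ s) (hℓ : 0 ≤ ℓ) {c' : Bool → ℝ} (hc' : ∀ i, 0 ≤ c' i) :
    ∃ G : ℝ, 1 ≤ G ∧ ∀ m r R : ℕ, Par m r R → ∃ (L : Cfz → ℝ) (T : Finset Edge), DepF T L ∧
      (∀ z, EE c' m r R z + ℓ * (NF m r R z : ℝ) ≤ L z) ∧
      ∫ z, exp (s * L z) ∂(nu hf) ≤ G := by
  obtain ⟨G1, hG1, h1⟩ := Hd109.lin_moments (ι := Bool) (C := 1 / 8) (by norm_num)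
    (fun i => √3 * aC i) c' (4 * s) (by linarith) hc'
  have hb : 0 ≤ 4 * s * ℓ := by positivity
  obtain ⟨C1, hC1, hT1⟩ := T_mom (exp (4 * s * ℓ)) (one_le_exp hb) 2
  obtain ⟨C2, hC2, hT2⟩ := T_mom (exp (4 * s * ℓ)) (one_le_exp hb) 8
  refine ⟨G1 + C1 + C2 + 1, by linarith, fun m r R hp => ?_⟩
  have m1 := hp.m1
  have r3 := hp.r3
  have mR := hp.mR
  obtain ⟨T1, t1, t2, t3⟩ := hT1 (Mc468.yy m) (4 * r) (by omega)
  obtain ⟨T2, u1, u2, u3⟩ := hT2 (0, 0) (2 * R) (by omega)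
  obtain ⟨E, hE⟩ : ∃ E : Finset Edge, DepF E (EE c' m r R) := ⟨_, Hd109.Err_dep _ _ _ _ _⟩
  have d2 : DepF (Em522.starE (Mc468.yy m) (6 * (4 * r))) fun z => ℓ * (T1 z : ℝ) :=
    t1.comp fun k : ℕ => ℓ * (k : ℝ)
  have d3 : DepF (Em522.starE (0, 0) (6 * (2 * R))) fun z => ℓ * (T2 z : ℝ) :=
    u1.comp fun k : ℕ => ℓ * (k : ℝ)
  classical
  refine ⟨fun z => EE c' m r R z + ℓ * (T1 z : ℝ) + ℓ * (T2 z : ℝ) + 0,
    E ∪ Em522.starE (Mc468.yy m) (6 * (4 * r)) ∪ Em522.starE (0, 0) (6 * (2 * R)), ?_, ?_, ?_⟩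
  · have a1 := (hE.mono (Finset.subset_union_left.trans Finset.subset_union_left :
      E ⊆ E ∪ Em522.starE (Mc468.yy m) (6 * (4 * r)) ∪ Em522.starE (0, 0) (6 * (2 * R))))
    have a2 := (d2.mono (Finset.subset_union_right.trans Finset.subset_union_left :
      _ ⊆ E ∪ Em522.starE (Mc468.yy m) (6 * (4 * r)) ∪ Em522.starE (0, 0) (6 * (2 * R))))
    have a3 := (d3.mono (Finset.subset_union_right :
      _ ⊆ E ∪ Em522.starE (Mc468.yy m) (6 * (4 * r)) ∪ Em522.starE (0, 0) (6 * (2 * R))))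
    exact ((a1.add a2).add a3).comp fun x => x + 0
  · intro z
    have h3 : ((NF m r R z : ℕ) : ℝ) ≤ T1 z + T2 z := by
      unfold NF
      exact_mod_cast Nat.add_le_add (t3 z) (u3 z)
    have h4 := mul_le_mul_of_nonneg_left h3 hℓ
    linarith
  · have i1 := (hE.comp fun x => exp (4 * s * x)).integrable (fun _ => hf)
    have i2 := (d2.comp fun x => exp (4 * s * x)).integrable (fun _ => hf)
    have i3 := (d3.comp fun x => exp (4 * s * x)).integrable (fun _ => hf)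
    have i4 : Integrable (fun _ : Cfz => exp (4 * s * 0)) (nu hf) := integrable_const _
    refine (exp_four (L4 := fun _ => 0) i1 i2 i3 i4).trans ?_
    have e1 : ∫ z, exp (4 * s * EE c' m r R z) ∂(nu hf) ≤ G1 :=
      h1 (kC r R) (VC m r R) (fun i => uf (VC m r R i)) hp.dens
    have e2 : ∫ z, exp (4 * s * (ℓ * (T1 z : ℝ))) ∂(nu hf) ≤ C1 := by
      refine le_trans (le_of_eq ?_) t2
      refine integral_congr_ae (Filter.Eventually.of_forall fun z => ?_)
      show exp (4 * s * (ℓ * (T1 z : ℝ))) = exp (4 * s * ℓ) ^ T1 z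
      rw [← exp_nat_mul]; congr 1; ring
    have e3 : ∫ z, exp (4 * s * (ℓ * (T2 z : ℝ))) ∂(nu hf) ≤ C2 := by
      refine le_trans (le_of_eq ?_) u2
      refine integral_congr_ae (Filter.Eventually.of_forall fun z => ?_)
      show exp (4 * s * (ℓ * (T2 z : ℝ))) = exp (4 * s * ℓ) ^ T2 z
      rw [← exp_nat_mul]; congr 1; ring
    have e4 : ∫ _ : Cfz, exp (4 * s * 0) ∂(nu hf) = 1 := by simp
    rw [e4]
    linarith

/-- pointwise bound of the difference -/
theorem abs_nab_le {μ : Face →₀ ℝ} {e : Edge} {z : Cfz} :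
    |nab μ e z| ≤ |W μ z| + |W μ (It200.flip z e)| := by
  unfold Vx107.nab
  have h := Vx107.op_add_cl (fun z => |W μ z|) z e
  refine (abs_sub _ _).trans (le_of_eq ?_)
  exact h

/-- **the difference on an arbitrary event** -/
theorem bad_int {δ : ℝ} (h0 : 0 < δ) (h1 : δ < 1) : ∃ C : ℝ, 1 ≤ C ∧ ∀ m r R : ℕ, Par m r R →
    ∀ (v : P2), sd (0, 0) v ≤ 1 → ∀ (e : Edge) (A : Set Cfz), MeasurableSet A →
      ∫ z, A.indicator (fun z => |nab (-chv (cC m r R) v) e z|) z ∂(nu hf) ≤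
        exp (-Lin aC (kC r R)) * (C * (nu hf).real A ^ (1 - δ)) := by
  have hl2 : 0 ≤ Real.log 2 := (Real.log_pos (by norm_num)).le
  obtain ⟨G, hG, hmom⟩ := momC (s := 1 / δ) (ℓ := Real.log 2) (by positivity) hl2
    (c' := fun i => 12 * aC i ^ 2) (fun i => mul_nonneg (by norm_num) (sq_nonneg _))
  refine ⟨2 * G, by linarith, fun m r R hp v hv e A hA => ?_⟩
  obtain ⟨L, T, hd, hL, hint⟩ := hmom m r R hp
  have hW : ∀ z, |W (-chv (cC m r R) v) z| ≤ exp (-Lin aC (kC r R)) * exp (L z) := by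
    intro z
    refine (W_up hp hv z).trans ?_
    have h2 : (2 : ℝ) ^ ((CR (Mc468.yy m) (4 * r) 2 z).ncard + (CR (0, 0) (2 * R) 8 z).ncard) =
        exp (Real.log 2 * (NF m r R z : ℝ)) := by
      unfold NF
      rw [mul_comm (Real.log 2), exp_nat_mul, exp_log (by norm_num)]
    rw [h2, ← exp_add, ← exp_add]
    apply exp_le_exp.2
    have := hL z
    unfold EE at this
    linarith
  have hLm : Measurable L := hd.measurable
  have hLi : Integrable (fun z => exp (1 / δ * L z)) (nu hf) :=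
    (hd.comp fun x => exp (1 / δ * x)).integrable (fun _ => hf)
  have hLf : Measurable fun z => L (It200.flip z e) := hLm.comp (Vx107.meas_flip e)
  have hLfi : Integrable (fun z => exp (1 / δ * L (It200.flip z e))) (nu hf) :=
    Vx107.int_flip hLi e
  have hLe : Integrable (fun z => exp (L z)) (nu hf) :=
    (hd.comp fun x => exp x).integrable (fun _ => hf)
  have hLfe : Integrable (fun z => exp (L (It200.flip z e))) (nu hf) := Vx107.int_flip hLe e
  have k1 := ind_hoelder h0 h1 hA hLm hLi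
  have k2 := ind_hoelder h0 h1 hA hLf hLfi
  have e2 : ∫ z, exp (1 / δ * L (It200.flip z e)) ∂(nu hf) = ∫ z, exp (1 / δ * L z) ∂(nu hf) :=
    Vx107.integral_flip hLi e
  rw [e2] at k2
  have k3 : (∫ z, exp (1 / δ * L z) ∂(nu hf)) ^ δ ≤ G := by
    calc (∫ z, exp (1 / δ * L z) ∂(nu hf)) ^ δ ≤ G ^ δ :=
          rpow_le_rpow (integral_nonneg fun z => (exp_pos _).le) hint h0.le
      _ ≤ G ^ (1 : ℝ) := rpow_le_rpow_of_exponent_le hG h1.le
      _ = G := rpow_one _
  have p0 : 0 ≤ (nu hf).real A ^ (1 - δ) := rpow_nonneg measureReal_nonneg _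
  have k4 := mul_le_mul_of_nonneg_left k3 p0
  calc ∫ z, A.indicator (fun z => |nab (-chv (cC m r R) v) e z|) z ∂(nu hf)
      ≤ ∫ z, (exp (-Lin aC (kC r R)) * A.indicator (fun z => exp (L z)) z +
          exp (-Lin aC (kC r R)) * A.indicator (fun z => exp (L (It200.flip z e))) z) ∂(nu hf) := by
        refine integral_mono_of_nonneg (Filter.Eventually.of_forall fun z =>
          Set.indicator_nonneg (fun _ _ => abs_nonneg _) z)
          (((hLe.indicator hA).const_mul _).add ((hLfe.indicator hA).const_mul _))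
          (Filter.Eventually.of_forall fun z => ?_)
        by_cases hz : z ∈ A
        · simp only [Set.indicator_of_mem hz]
          exact abs_nab_le.trans (add_le_add (hW z) (hW _))
        · simp only [Set.indicator_of_notMem hz]
          simp
    _ = exp (-Lin aC (kC r R)) * ∫ z, A.indicator (fun z => exp (L z)) z ∂(nu hf) +
          exp (-Lin aC (kC r R)) * ∫ z, A.indicator (fun z => exp (L (It200.flip z e))) z ∂(nu hf) := by
        rw [integral_add ((hLe.indicator hA).const_mul _) ((hLfe.indicator hA).const_mul _),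
          integral_const_mul, integral_const_mul]
    _ ≤ exp (-Lin aC (kC r R)) * ((nu hf).real A ^ (1 - δ) * G) +
          exp (-Lin aC (kC r R)) * ((nu hf).real A ^ (1 - δ) * G) :=
        add_le_add (mul_le_mul_of_nonneg_left (k1.trans k4) (exp_pos _).le)
          (mul_le_mul_of_nonneg_left (k2.trans k4) (exp_pos _).le)
    _ = _ := by ring

theorem op_agree {z z' : Cfz} {e i : Edge} (h : z i = z' i) : op z e i = op z' e i := by
  unfold Vx107.op
  by_cases hi : i = e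
  · subst hi; rw [Function.update_self, Function.update_self]
  · rw [Function.update_of_ne hi, Function.update_of_ne hi, h]

theorem dep_op {β : Type*} {T : Finset Edge} {f : Cfz → β} (h : DepF T f) (e : Edge) :
    DepF T fun z => f (op z e) := fun _ _ hz => h _ _ fun i hi => op_agree (hz i hi)

theorem int_op_le {G : Cfz → ℝ} (hG : Integrable G (nu hf)) (h0 : ∀ z, 0 ≤ G z) (e : Edge) :
    ∫ z, G (op z e) ∂(nu hf) ≤ 2 * ∫ z, G z ∂(nu hf) := by
  have h1 : ∫ z, G (op z e) ∂(nu hf) ≤ ∫ z, (G z + G (It200.flip z e)) ∂(nu hf) :=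
    integral_mono (Vx107.int_op hG e) (hG.add (Vx107.int_flip hG e)) fun z => by
      have := Vx107.op_add_cl G z e
      have h2 := h0 (cl z e)
      show G (op z e) ≤ G z + G (It200.flip z e)
      linarith
  rw [integral_add hG (Vx107.int_flip hG e), Vx107.integral_flip hG] at h1
  linarith

theorem exp_log_pow {c : ℝ} (hc : 0 < c) (n : ℕ) : c ^ n = exp (-(-Real.log c * (n : ℝ))) := by
  rw [neg_mul, neg_neg, mul_comm, exp_nat_mul, exp_log hc]

/-- **the main event** -/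
theorem main_int {δ : ℝ} (h0 : 0 < δ) (h1 : δ < 1) : ∃ C : ℝ, 1 ≤ C ∧ ∀ m r R : ℕ, Par m r R →
    ∀ e : Edge, src e = (0, 0) → ∀ s t : Bool,
      (∀ᵐ z ∂(nu hf), z ∈ Mc468.MainE e m r R s t → 0 ≤ nab (-chv (cC m r R) (0, 0)) e z) ∧
      exp (-Lin aC (kC r R)) * ((nu hf).real (Mc468.MainE e m r R s t) ^ (1 + δ) / C) ≤
        ∫ z, (Mc468.MainE e m r R s t).indicator (nab (-chv (cC m r R) (0, 0)) e) z ∂(nu hf) := by
  obtain ⟨Cw, hCw, hlow⟩ := W_low
  have hℓ : 0 ≤ -Real.log c0C := by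
    have := Real.log_nonpos c0C_pos.le c0C_le_one
    linarith
  obtain ⟨G, hG, hmom⟩ := momC (s := 1 / δ) (ℓ := -Real.log c0C) (by positivity) hℓ
    (c' := fun i => Cw * aC i ^ 2) (fun i => mul_nonneg hCw (sq_nonneg _))
  refine ⟨2 * G, by linarith, fun m r R hp e he s t => ?_⟩
  obtain ⟨L, T, hd, hL, hint⟩ := hmom m r R hp
  set A := Mc468.MainE e m r R s t with hAdef
  have hAm : MeasurableSet A := by
    obtain ⟨S, hS⟩ := Mc468.mainE_dep e hp.m1 (by have := hp.r3; omega : 1 ≤ r) hp.rm hp.mR s t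
    exact hS.measurableSet
  -- pointwise
  have hpt : ∀ z : Cfz, AllFin z → z ∈ A →
      exp (-Lin aC (kC r R)) * exp (-L (op z e)) ≤ nab (-chv (cC m r R) (0, 0)) e z := by
    intro z hz hzA
    obtain ⟨u, u', hM⟩ := mainD_of hp he hz
      (Mc468.mainE_sub he hp.m1 (by have := hp.r3; omega) hp.rm hp.mR s t hzA)
    have hb : Prb (BF (Mc468.yy m) (4 * (r : ℤ))) (ud (VC m r R true)) := by
      rw [← VC_true' (R := R)]; exact hp.prb true
    have hw : Prb (BF (src e) (2 * (R : ℤ)) \ BF (src e) (R : ℤ)) (ud (VC m r R false)) := by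
      rw [he, ← VC_false' (m := m) (r := r)]; exact hp.prb false
    have e1 : nab (-chv (cC m r R) (0, 0)) e z = W (-chv (cC m r R) u) (op z e) := by
      rw [Vx107.nab_chv_neg hz hp.tot e (0, 0) u]
      exact hM.nab_eq hb hw
    rw [e1]
    refine le_trans ?_ (hlow hp he hM)
    rw [exp_log_pow c0C_pos, ← exp_add, ← exp_add]
    apply exp_le_exp.2
    have h2 := hL (op z e)
    unfold EE NF at h2
    linarith
  have hpos : ∀ᵐ z ∂(nu hf), z ∈ A → 0 ≤ nab (-chv (cC m r R) (0, 0)) e z := by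
    filter_upwards [Vx107.ae_fin] with z hz hzA
    exact (mul_nonneg (exp_pos _).le (exp_pos _).le).trans (hpt z hz hzA)
  refine ⟨hpos, ?_⟩
  -- reverse Hoelder
  have hp1 : 1 < 1 + δ := by linarith
  have hdo : DepF T fun z => L (op z e) := dep_op hd e
  have hind : ∀ z, A.indicator (fun _ => (1 : ℝ)) z ^ (1 / (1 + δ)) =
      A.indicator (fun _ => (1 : ℝ)) z := by
    intro z
    by_cases hz : z ∈ A
    · rw [Set.indicator_of_mem hz, one_rpow]
    · rw [Set.indicator_of_notMem hz, zero_rpow (by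
        have : 0 < 1 / (1 + δ) := by positivity
        exact this.ne')]
  have hint1 : Integrable (A.indicator fun _ => (1 : ℝ)) (nu hf) :=
    (integrable_const (1 : ℝ)).indicator hAm
  have hexp : Integrable (fun z => exp (-L (op z e))) (nu hf) :=
    (hdo.comp fun x => exp (-x)).integrable (fun _ => hf)
  have hYL : Integrable (fun z => A.indicator (fun _ => (1 : ℝ)) z * exp (-L (op z e))) (nu hf) := by
    refine (hexp.indicator hAm).congr (Filter.Eventually.of_forall fun z => ?_)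
    by_cases hz : z ∈ A
    · simp [hz]
    · simp [hz]
  have hLi : Integrable (fun z => exp (L (op z e) / (1 + δ - 1))) (nu hf) :=
    (hdo.comp fun x => exp (x / (1 + δ - 1))).integrable (fun _ => hf)
  have hrev := Hd109.rev_hoelder (μ := nu hf) hp1 (Y := A.indicator fun _ => (1 : ℝ))
    (L := fun z => L (op z e)) (fun z => Set.indicator_nonneg (fun _ _ => zero_le_one) z)
    hint1.aestronglyMeasurable hdo.measurable.aestronglyMeasurable hYL hLi
  simp only [hind] at hrev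
  have e4 : ∫ z, A.indicator (fun _ => (1 : ℝ)) z ∂(nu hf) = (nu hf).real A := by
    rw [integral_indicator_const _ hAm]; simp
  rw [e4] at hrev
  have e5 : (1 : ℝ) + δ - 1 = δ := by ring
  rw [e5] at hrev
  -- moment
  have hGi : Integrable (fun z => exp (L z / δ)) (nu hf) :=
    (hd.comp fun x => exp (x / δ)).integrable (fun _ => hf)
  have k1 : ∫ z, exp (L (op z e) / δ) ∂(nu hf) ≤ 2 * G := by
    refine (int_op_le hGi (fun z => (exp_pos _).le) e).trans ?_
    have e6 : ∫ z, exp (L z / δ) ∂(nu hf) = ∫ z, exp (1 / δ * L z) ∂(nu hf) :=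
      integral_congr_ae (Filter.Eventually.of_forall fun z => by
        show exp (L z / δ) = exp (1 / δ * L z)
        congr 1; ring)
    rw [e6]
    linarith
  have k2 : (∫ z, exp (L (op z e) / δ) ∂(nu hf)) ^ δ ≤ 2 * G := by
    calc (∫ z, exp (L (op z e) / δ) ∂(nu hf)) ^ δ ≤ (2 * G) ^ δ :=
          rpow_le_rpow (integral_nonneg fun z => (exp_pos _).le) k1 h0.le
      _ ≤ (2 * G) ^ (1 : ℝ) := rpow_le_rpow_of_exponent_le (by linarith) h1.le
      _ = 2 * G := rpow_one _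
  have hI0 : 0 ≤ ∫ z, A.indicator (fun _ => (1 : ℝ)) z * exp (-L (op z e)) ∂(nu hf) :=
    integral_nonneg fun z => mul_nonneg (Set.indicator_nonneg (fun _ _ => zero_le_one) z)
      (exp_pos _).le
  have k3 : (nu hf).real A ^ (1 + δ) / (2 * G) ≤
      ∫ z, A.indicator (fun _ => (1 : ℝ)) z * exp (-L (op z e)) ∂(nu hf) := by
    rw [div_le_iff₀ (by linarith)]
    exact hrev.trans (mul_le_mul_of_nonneg_left k2 hI0)
  refine (mul_le_mul_of_nonneg_left k3 (exp_pos _).le).trans ?_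
  rw [← integral_const_mul]
  have hN : Integrable (nab (-chv (cC m r R) (0, 0)) e) (nu hf) :=
    Vx107.integrable_nab (Vx107.ntr_chv hp.tot (0, 0)).neg e
  refine integral_mono_ae (hYL.const_mul _) (hN.indicator hAm) ?_
  filter_upwards [Vx107.ae_fin] with z hz
  by_cases hzA : z ∈ A
  · simp only [Set.indicator_of_mem hzA, one_mul]
    exact hpt z hz hzA
  · simp only [Set.indicator_of_notMem hzA]
    simp

/-- the bad configurations -/
def BAD (e : Edge) (m r R : ℕ) : Set Cfz :=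
  {z | ∃ z', (z' = z ∨ z' = It200.flip z e) ∧
    Bad z' e (Mc468.yy m) (256 * (m : ℤ)) r R (128 * (m : ℤ))}

theorem neg_bad (hp : Par m r R) {e : Edge} (he : src e = (0, 0)) {z : Cfz} (hz : AllFin z)
    (hneg : nab (-chv (cC m r R) (0, 0)) e z < 0) : z ∈ BAD e m r R := by
  have m1 := hp.m1
  have r3 := hp.r3
  have rm := hp.rm
  have mR := hp.mR
  have hb : Prb (BF (Mc468.yy m) (4 * (r : ℤ))) (ud (VC m r R true)) := by
    rw [← VC_true' (R := R)]; exact hp.prb true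
  have hw : Prb (BF (src e) (2 * (R : ℤ)) \ BF (src e) (R : ℤ)) (ud (VC m r R false)) := by
    rw [he, ← VC_false' (m := m) (r := r)]; exact hp.prb false
  have g : Geo e (Mc468.yy m) (256 * (m : ℤ)) r R (128 * (m : ℤ)) :=
    ⟨by rw [he, sd_yy], by omega, by omega, by omega, by omega, by omega⟩
  have h1 : nab (-chv (muC (ud (VC m r R true)) (ud (VC m r R false))) (src e)) e z < 0 := by
    rw [he]; exact hneg
  exact neg_struct g hb hw hz h1

/-- **LB3x** -/
theorem LB3x {δ : ℝ} (h0 : 0 < δ) (h1 : δ < 1) : ∃ C : ℝ, 1 ≤ C ∧ ∀ m r R : ℕ, Par m r R →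
    ∀ e : Edge, src e = (0, 0) → ∀ s t : Bool,
      exp (-Lin aC (kC r R)) * ((nu hf).real (Mc468.MainE e m r R s t) ^ (1 + δ) / C -
        C * (nu hf).real (BAD e m r R) ^ (1 - δ)) ≤
      ∫ z, nab (-chv (cC m r R) (0, 0)) e z ∂(nu hf) := by
  obtain ⟨C1, hC1, hmain⟩ := main_int h0 h1
  obtain ⟨C2, hC2, hbad⟩ := bad_int h0 h1
  refine ⟨max C1 C2, le_max_of_le_left hC1, fun m r R hp e he s t => ?_⟩
  obtain ⟨hpos, hm⟩ := hmain m r R hp e he s t
  set A := Mc468.MainE e m r R s t with hAdef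
  have hAm : MeasurableSet A := by
    obtain ⟨S, hS⟩ := Mc468.mainE_dep e hp.m1 (by have := hp.r3; omega : 1 ≤ r) hp.rm hp.mR s t
    exact hS.measurableSet
  have hntr : Ntr (-chv (cC m r R) (0, 0)) := (Vx107.ntr_chv hp.tot (0, 0)).neg
  have hN : Integrable (nab (-chv (cC m r R) (0, 0)) e) (nu hf) := Vx107.integrable_nab hntr e
  -- the negative set
  obtain ⟨g, hg, hge⟩ := hN.aestronglyMeasurable
  set B : Set Cfz := {z | g z < 0} with hB
  have hBm : MeasurableSet B := measurableSet_lt hg.measurable measurable_const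
  have hBB : (nu hf).real B ≤ (nu hf).real (BAD e m r R) := by
    refine ENNReal.toReal_mono (measure_ne_top _ _) (measure_mono_ae ?_)
    filter_upwards [hge, Vx107.ae_fin] with z hz hzf hzB
    have h2 : g z < 0 := hzB
    exact neg_bad hp he hzf (by rw [hz]; exact h2)
  have hv0 : sd (0, 0) ((0, 0) : P2) ≤ 1 := by rw [sd_self]; norm_num
  have hb := hbad m r R hp (0, 0) hv0 e B hBm
  have hpt : ∀ᵐ z ∂(nu hf), A.indicator (nab (-chv (cC m r R) (0, 0)) e) z -
      B.indicator (fun z => |nab (-chv (cC m r R) (0, 0)) e z|) z ≤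
        nab (-chv (cC m r R) (0, 0)) e z := by
    filter_upwards [hge, hpos] with z hz hzp
    by_cases hzA : z ∈ A
    · rw [Set.indicator_of_mem hzA]
      have := Set.indicator_nonneg (s := B)
        (f := fun z => |nab (-chv (cC m r R) (0, 0)) e z|) (fun _ _ => abs_nonneg _) z
      linarith
    · rw [Set.indicator_of_notMem hzA]
      by_cases hzB : z ∈ B
      · rw [Set.indicator_of_mem hzB]
        have := neg_abs_le (nab (-chv (cC m r R) (0, 0)) e z)
        linarith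
      · rw [Set.indicator_of_notMem hzB, hz]
        have h2 : ¬ g z < 0 := hzB
        linarith
  have hiB : Integrable (B.indicator fun z => |nab (-chv (cC m r R) (0, 0)) e z|) (nu hf) :=
    hN.abs.indicator hBm
  have h3 := integral_mono_ae ((hN.indicator hAm).sub hiB) hN hpt
  have h4 : ∫ z, (A.indicator (nab (-chv (cC m r R) (0, 0)) e) z -
      B.indicator (fun z => |nab (-chv (cC m r R) (0, 0)) e z|) z) ∂(nu hf) =
      ∫ z, A.indicator (nab (-chv (cC m r R) (0, 0)) e) z ∂(nu hf) -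
        ∫ z, B.indicator (fun z => |nab (-chv (cC m r R) (0, 0)) e z|) z ∂(nu hf) :=
    integral_sub (hN.indicator hAm) hiB
  have h5 : ∫ z, (A.indicator (nab (-chv (cC m r R) (0, 0)) e) z -
      B.indicator (fun z => |nab (-chv (cC m r R) (0, 0)) e z|) z) ∂(nu hf) ≤
      ∫ z, nab (-chv (cC m r R) (0, 0)) e z ∂(nu hf) := h3
  rw [h4] at h5
  refine le_trans ?_ h5
  rw [mul_sub]
  have pA : 0 ≤ (nu hf).real A ^ (1 + δ) := rpow_nonneg measureReal_nonneg _
  have pB : (nu hf).real B ^ (1 - δ) ≤ (nu hf).real (BAD e m r R) ^ (1 - δ) :=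
    rpow_le_rpow measureReal_nonneg hBB (by linarith)
  have pB0 : 0 ≤ (nu hf).real B ^ (1 - δ) := rpow_nonneg measureReal_nonneg _
  refine sub_le_sub (le_trans ?_ hm) (hb.trans ?_)
  · refine mul_le_mul_of_nonneg_left ?_ (exp_pos _).le
    exact div_le_div_of_nonneg_left pA (by linarith) (le_max_left _ _)
  · refine mul_le_mul_of_nonneg_left ?_ (exp_pos _).le
    exact mul_le_mul (le_max_right _ _) pB pB0 (by linarith [le_max_left C1 C2])

end Crest.Agent.R158.Lb841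
end
end

-- ▼ part R158/Lb5_841

/-!
# R158, leaf LB3 of doc 1912 (helper841), part 5: helper31's normal form

* `mC_eq`    : `-chv (cC m r R) (0,0) = mC (256 m) r R (-1) (0,0)`
* `lin_conv` : `exp (-Lin) ≥ WC (256 m) (-1) exp (-c) (R / r)^(-c)`
* `LB3n`     : `LB3x` in helper31's notation
-/

set_option autoImplicit false

noncomputable section

namespace Crest.Agent.R158.Lb841

open Crest.Agent.R161.Geo729 Crest.Agent.R161.Dual374
open Crest.Agent.R161.Tas682 (sd)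
open Crest.Agent.R158.It200 Crest.Agent.R158.Wf850
open Crest.Agent.R158.Rs689 (nu hf)
open Crest.Agent.R158.Vx107 (chv)
open Crest.Agent.R158.Cn109 (VV)
open Crest.Agent.R158.Gx31
open Real Function MeasureTheory

variable {m r R : ℕ}

theorem Par.geo (h : Par m r R) : Uc31.Geo (256 * m) r R :=
  ⟨h.r3, by have := h.rm; omega, by have := h.mR; omega⟩

theorem yy_eq (m : ℕ) : Mc468.yy m = Uc31.y0 (256 * m) := by
  unfold Mc468.yy Uc31.y0
  push_cast; rfl

theorem cC_eq (m r R : ℕ) : cC m r R = Uc31.mu (256 * m) r R := by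
  unfold cC muC Uc31.mu Uc31.Vb
  rw [VC_true, VC_false, yy_eq]

theorem mC_eq (m r R : ℕ) : Uc31.mC (256 * m) r R (-1) (0, 0) = -chv (cC m r R) (0, 0) := by
  rw [neg_chv, cC_eq]
  unfold Uc31.mC
  rw [neg_one_smul, neg_one_mul, neg_neg]

theorem lin_eq (r R : ℕ) : -Lin aC (kC r R) = Lin Uc31.aC (Uc31.kC r R) := by
  unfold Gx31.Lin
  rw [Fintype.sum_bool, Fintype.sum_bool]
  unfold aC Uc31.aC
  have e1 : kC r R = Uc31.kC r R := rfl
  rw [e1]
  simp only [if_true, Bool.false_eq_true, if_false]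
  ring

/-- **conversion of the local factor** -/
theorem lin_conv : ∃ c : ℝ, 0 ≤ c ∧ ∀ m r R : ℕ, Par m r R →
    Uc31.WC (256 * m) (-1) * (exp (-c) * ((R : ℝ) / r) ^ (-c)) ≤ exp (-Lin aC (kC r R)) := by
  obtain ⟨c, hc, h⟩ := Uc31.lin_C
  refine ⟨c, hc, fun m r R hp => ?_⟩
  have h1 := (abs_le.1 (h _ _ _ hp.geo)).1
  have hRr := hp.geo.ratio
  have hpos : (0 : ℝ) < (R : ℝ) / r := by linarith
  rw [lin_eq, rpow_def_of_pos hpos, ← exp_add]
  unfold Uc31.WC
  rw [← exp_add]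
  apply exp_le_exp.2
  linarith

/-- **LB3x in helper31's notation** -/
theorem LB3n {δ : ℝ} (h0 : 0 < δ) (h1 : δ < 1) : ∃ C : ℝ, 1 ≤ C ∧ ∀ m r R : ℕ, Par m r R →
    ∀ e : Edge, src e = (0, 0) → ∀ s t : Bool,
      exp (Lin Uc31.aC (Uc31.kC r R)) * ((nu hf).real (Mc468.MainE e m r R s t) ^ (1 + δ) / C -
        C * (nu hf).real (BAD e m r R) ^ (1 - δ)) ≤
      ∫ z, Vn841.nab (Uc31.mC (256 * m) r R (-1) (0, 0)) z e ∂(nu hf) := by
  obtain ⟨C, hC, h⟩ := LB3x h0 h1
  refine ⟨C, hC, fun m r R hp e he s t => ?_⟩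
  have h2 := h m r R hp e he s t
  rw [lin_eq] at h2
  rw [mC_eq]
  refine h2.trans (le_of_eq ?_)
  exact integral_congr_ae (Filter.Eventually.of_forall fun z => Vx107.nab_eq' _ z e)

/-! ### the scales -/

/-- the inner radius -/
def rr (τ : ℝ) (m : ℕ) : ℕ := ⌊((256 * m : ℕ) : ℝ) ^ (1 - τ)⌋₊

/-- the outer radius -/
def RR (τ : ℝ) (m : ℕ) : ℕ := ⌈((256 * m : ℕ) : ℝ) ^ (1 + τ)⌉₊

theorem rr_ge {τ : ℝ} {m : ℕ} (h : 2 ≤ ((256 * m : ℕ) : ℝ) ^ (1 - τ)) :
    ((256 * m : ℕ) : ℝ) ^ (1 - τ) / 2 ≤ rr τ m := by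
  have h1 := (Nat.lt_floor_add_one (((256 * m : ℕ) : ℝ) ^ (1 - τ))).le
  unfold rr
  linarith

theorem RR_le {τ : ℝ} {m : ℕ} (h : 1 ≤ ((256 * m : ℕ) : ℝ) ^ (1 + τ)) :
    (RR τ m : ℝ) ≤ 2 * ((256 * m : ℕ) : ℝ) ^ (1 + τ) := by
  have h1 := (Nat.ceil_lt_add_one (by linarith : 0 ≤ ((256 * m : ℕ) : ℝ) ^ (1 + τ))).le
  unfold RR
  linarith

theorem ratio_le {τ : ℝ} {m : ℕ} (hm : 1 ≤ m) (hτ : 0 ≤ τ) (h : 2 ≤ ((256 * m : ℕ) : ℝ) ^ (1 - τ)) :
    (RR τ m : ℝ) / rr τ m ≤ 4 * ((256 * m : ℕ) : ℝ) ^ (2 * τ) := by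
  have hn : (1 : ℝ) ≤ ((256 * m : ℕ) : ℝ) := by exact_mod_cast (by omega : 1 ≤ 256 * m)
  have h1 : 1 ≤ ((256 * m : ℕ) : ℝ) ^ (1 + τ) := one_le_rpow hn (by linarith)
  have h2 := rr_ge h
  have h3 := RR_le h1
  have h4 : (0 : ℝ) < rr τ m := by linarith
  rw [div_le_iff₀ h4]
  have h5 : ((256 * m : ℕ) : ℝ) ^ (1 + τ) =
      ((256 * m : ℕ) : ℝ) ^ (2 * τ) * ((256 * m : ℕ) : ℝ) ^ (1 - τ) := by
    rw [← rpow_add (by linarith)]; congr 1; ring
  have h6 : 0 ≤ ((256 * m : ℕ) : ℝ) ^ (2 * τ) := by positivity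
  calc (RR τ m : ℝ) ≤ 2 * ((256 * m : ℕ) : ℝ) ^ (1 + τ) := h3
    _ = 4 * ((256 * m : ℕ) : ℝ) ^ (2 * τ) * (((256 * m : ℕ) : ℝ) ^ (1 - τ) / 2) := by
        rw [h5]; ring
    _ ≤ _ := mul_le_mul_of_nonneg_left h2 (by positivity)

theorem tend_n : Filter.Tendsto (fun j : ℕ => ((256 * 2 ^ j : ℕ) : ℝ)) Filter.atTop Filter.atTop := by
  refine tendsto_natCast_atTop_atTop.comp ?_
  exact Filter.tendsto_atTop_mono (fun j => by
    have h1 := Nat.lt_two_pow_self (n := j)
    show j ≤ 256 * 2 ^ j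
    generalize 2 ^ j = a at h1 ⊢
    omega) Filter.tendsto_id

/-- the factor of the conversion is `≥ n ^ (-ε)` -/
theorem conv_small {c ε τ : ℝ} (hc : 0 ≤ c) (hε : 0 < ε) (hτ : 0 < τ) (hτ1 : τ < 1 / 2)
    (hτ2 : 2 * τ * c ≤ ε / 2) : ∀ᶠ j : ℕ in Filter.atTop,
    ((256 * 2 ^ j : ℕ) : ℝ) ^ (-ε) ≤
      exp (-c) * ((RR τ (2 ^ j) : ℝ) / rr τ (2 ^ j)) ^ (-c) := by
  have t1 : Filter.Tendsto (fun j : ℕ => ((256 * 2 ^ j : ℕ) : ℝ) ^ (1 - τ)) Filter.atTop
      Filter.atTop := (tendsto_rpow_atTop (by linarith)).comp tend_n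
  have t2 : Filter.Tendsto (fun j : ℕ => ((256 * 2 ^ j : ℕ) : ℝ) ^ (ε / 2)) Filter.atTop
      Filter.atTop := (tendsto_rpow_atTop (by linarith)).comp tend_n
  filter_upwards [t1.eventually_ge_atTop 2, t2.eventually_ge_atTop (exp c * 4 ^ c)] with j h1 h2
  set n : ℝ := ((256 * 2 ^ j : ℕ) : ℝ) with hn
  have hn1 : (1 : ℝ) ≤ n := by
    rw [hn]
    exact_mod_cast (by have := Nat.one_le_two_pow (n := j); omega : 1 ≤ 256 * 2 ^ j)
  have hn0 : 0 < n := by linarith
  have h3 := ratio_le (m := 2 ^ j) Nat.one_le_two_pow hτ.le h1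
  rw [← hn] at h3
  have hr0 : (0 : ℝ) < rr τ (2 ^ j) := by
    have := rr_ge (m := 2 ^ j) h1
    rw [← hn] at this
    linarith
  have hR0 : (0 : ℝ) < RR τ (2 ^ j) := by
    unfold RR
    exact_mod_cast Nat.ceil_pos.2 (by positivity)
  have hpos : 0 < (RR τ (2 ^ j) : ℝ) / rr τ (2 ^ j) := by positivity
  have h4 : (4 * n ^ (2 * τ)) ^ (-c) ≤ ((RR τ (2 ^ j) : ℝ) / rr τ (2 ^ j)) ^ (-c) :=
    rpow_le_rpow_of_nonpos hpos h3 (by linarith)
  refine le_trans ?_ (mul_le_mul_of_nonneg_left h4 (exp_pos _).le)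
  rw [mul_rpow (by norm_num) (by positivity), ← rpow_mul hn0.le]
  have h5 : n ^ (-(ε / 2)) ≤ n ^ (2 * τ * -c) :=
    rpow_le_rpow_of_exponent_le hn1 (by linarith)
  have h6 : n ^ (-(ε / 2)) * (exp c * 4 ^ c) ≤ 1 := by
    have h7 : n ^ (-(ε / 2)) * n ^ (ε / 2) = 1 := by
      rw [← rpow_add hn0]; simp
    calc n ^ (-(ε / 2)) * (exp c * 4 ^ c) ≤ n ^ (-(ε / 2)) * n ^ (ε / 2) :=
          mul_le_mul_of_nonneg_left h2 (by positivity)
      _ = 1 := h7
  have h8 : n ^ (-(ε / 2)) ≤ exp (-c) * 4 ^ (-c) := by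
    have h9 : exp (-c) * (4 : ℝ) ^ (-c) * (exp c * 4 ^ c) = 1 := by
      have e1 : exp (-c) * exp c = 1 := by rw [← exp_add]; simp
      have e2 : (4 : ℝ) ^ (-c) * 4 ^ c = 1 := by rw [← rpow_add (by norm_num)]; simp
      calc exp (-c) * (4 : ℝ) ^ (-c) * (exp c * 4 ^ c) =
          (exp (-c) * exp c) * ((4 : ℝ) ^ (-c) * 4 ^ c) := by ring
        _ = 1 := by rw [e1, e2, one_mul]
    have h10 : 0 < exp c * (4 : ℝ) ^ c := mul_pos (exp_pos _) (rpow_pos_of_pos (by norm_num) _)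
    exact le_of_mul_le_mul_right (by rw [h9]; exact h6) h10
  calc n ^ (-ε) = n ^ (-(ε / 2)) * n ^ (-(ε / 2)) := by rw [← rpow_add hn0]; congr 1; ring
    _ ≤ (exp (-c) * 4 ^ (-c)) * n ^ (2 * τ * -c) :=
        mul_le_mul h8 h5 (by positivity) (by positivity)
    _ = _ := by ring

end Crest.Agent.R158.Lb841
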