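import Crest.Agent.R158.FrDef_158

/-!
# Row 158, Block G (helper874): Russo's formula for finitely determined events

* `frc e b z`   : the configuration `z` with the coordinate `e` forced to `b`
* `sec e b A`   : the section `{z | frc e b z ∈ A}`
* `Piv e A`     : `e` is pivotal for `A`
* `mu q`        : product law with the constant real parameter `q` (clamped), `= Fr158.nu q` on `Edge`
* `real_split`  : conditioning on one coordinate
* `russo`       : derivative of `q ↦ mu q A` (no monotonicity needed)
* `lip_of_piv`, `gron_upper`, `gron_lower` : integrated forms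
-/

set_option autoImplicit false

noncomputable section

namespace Crest.Agent.R158.Ru874

open MeasureTheory ProbabilityTheory unitInterval Filter Topology
open Crest.Agent.R158.Rs689 Crest.ProbabilityR.Percolation

variable {ι : Type*}

open Classical in
/-- the coordinate `e` is forced to `b` -/
def frc (e : ι) (b : Bool) (z : ι → Bool) : ι → Bool := Function.update z e b

theorem frc_self (e : ι) (b : Bool) (z : ι → Bool) : frc e b z e = b := by
  classical
  simp [frc]

theorem frc_ne {e e' : ι} (h : e' ≠ e) (b : Bool) (z : ι → Bool) : frc e b z e' = z e' := by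
  classical
  simp [frc, h]

theorem frc_comm {e e' : ι} (h : e ≠ e') (b b' : Bool) (z : ι → Bool) :
    frc e b (frc e' b' z) = frc e' b' (frc e b z) := by
  funext i
  by_cases h1 : i = e
  · subst h1
    rw [frc_self, frc_ne h, frc_self]
  · rw [frc_ne h1]
    by_cases h2 : i = e'
    · subst h2
      rw [frc_self, frc_self]
    · rw [frc_ne h2, frc_ne h2, frc_ne h1]

theorem frc_of_eq {e : ι} {b : Bool} {z : ι → Bool} (h : z e = b) : frc e b z = z := by
  classical
  unfold frc
  rw [← h]
  exact Function.update_eq_self e z

/-- section of an event -/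
def sec (e : ι) (b : Bool) (A : Set (ι → Bool)) : Set (ι → Bool) := {z | frc e b z ∈ A}

/-- `e` is pivotal for `A` -/
def Piv (e : ι) (A : Set (ι → Bool)) : Set (ι → Bool) :=
  {z | ¬ (frc e true z ∈ A ↔ frc e false z ∈ A)}

theorem mem_sec {e : ι} {b : Bool} {A : Set (ι → Bool)} {z : ι → Bool} :
    z ∈ sec e b A ↔ frc e b z ∈ A := Iff.rfl

theorem mem_piv {e : ι} {A : Set (ι → Bool)} {z : ι → Bool} :
    z ∈ Piv e A ↔ ¬ (frc e true z ∈ A ↔ frc e false z ∈ A) := Iff.rfl

open Classical in
theorem dep_sec {S : Finset ι} {A : Set (ι → Bool)} (hA : Dep S A) (e : ι) (b : Bool) :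
    Dep (S.erase e) (sec e b A) := by
  intro z z' h
  refine hA _ _ fun i hi => ?_
  by_cases h1 : i = e
  · subst h1
    rw [frc_self, frc_self]
  · rw [frc_ne h1, frc_ne h1]
    exact h i (Finset.mem_erase.2 ⟨h1, hi⟩)

open Classical in
theorem dep_piv {S : Finset ι} {A : Set (ι → Bool)} (hA : Dep S A) (e : ι) :
    Dep (S.erase e) (Piv e A) := fun z z' h =>
  not_congr (iff_congr (dep_sec hA e true z z' h) (dep_sec hA e false z z' h))

theorem sec_eq_of_notMem {S : Finset ι} {A : Set (ι → Bool)} (hA : Dep S A) {e : ι}
    (he : e ∉ S) (b : Bool) : sec e b A = A := by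
  ext z
  refine hA _ _ fun i hi => ?_
  have h1 : i ≠ e := by
    rintro rfl
    exact he hi
  exact frc_ne h1 b z


theorem sec_comm {e e' : ι} (h : e ≠ e') (b b' : Bool) (A : Set (ι → Bool)) :
    sec e b (sec e' b' A) = sec e' b' (sec e b A) := by
  ext z
  rw [mem_sec, mem_sec, mem_sec, mem_sec, frc_comm h]




/-- for an increasing event, `e` is pivotal iff the event holds with `e` open and fails with `e`
closed -/
theorem piv_inc {A : Set (ι → Bool)} (iA : Inc A) {e : ι} {z : ι → Bool} :
    z ∈ Piv e A ↔ frc e true z ∈ A ∧ frc e false z ∉ A := by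
  have h : frc e false z ∈ A → frc e true z ∈ A := by
    refine iA _ _ fun i hi => ?_
    by_cases h1 : i = e
    · subst h1
      rw [frc_self]
    · rw [frc_ne h1] at hi ⊢
      exact hi
  rw [mem_piv]
  tauto

/-! ### conditioning on one coordinate -/

/-- the one-coordinate event -/
def one (e : ι) (b : Bool) : Set (ι → Bool) := {z | z e = b}

theorem dep_one (e : ι) (b : Bool) : Dep {e} (one e b) := fun z z' h => by
  show z e = b ↔ z' e = b
  rw [h e (Finset.mem_singleton_self e)]

theorem real_one (w : ι → I) (e : ι) (b : Bool) : (PB w).real (one e b) = (bern (w e)).real {b} := by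
  have h1 : (PB w).map (fun z => z e) = bern (w e) := by
    unfold PB
    exact Measure.infinitePi_map_eval (fun i => bern (w i)) e
  rw [← h1, measureReal_def, measureReal_def,
    Measure.map_apply (measurable_pi_apply e) (measurableSet_singleton b)]
  rfl

theorem inter_one (e : ι) (b : Bool) (A : Set (ι → Bool)) : A ∩ one e b = sec e b A ∩ one e b := by
  ext z
  constructor
  · rintro ⟨h1, h2⟩
    refine ⟨?_, h2⟩
    rw [mem_sec, frc_of_eq h2]
    exact h1
  · rintro ⟨h1, h2⟩
    refine ⟨?_, h2⟩
    rw [mem_sec, frc_of_eq h2] at h1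
    exact h1

theorem real_inter_one (w : ι → I) {S : Finset ι} {A : Set (ι → Bool)} (hA : Dep S A) (e : ι)
    (b : Bool) : (PB w).real (A ∩ one e b) = (bern (w e)).real {b} * (PB w).real (sec e b A) := by
  classical
  rw [inter_one, mul_comm, ← real_one w e b]
  refine PB_indep_real w (S := S.erase e) (T := {e}) ?_ (dep_sec hA e b) (dep_one e b)
  rw [Finset.disjoint_singleton_right]
  exact Finset.notMem_erase e S

/-- conditioning on one coordinate -/
theorem real_split (w : ι → I) {S : Finset ι} {A : Set (ι → Bool)} (hA : Dep S A) (e : ι) :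
    (PB w).real A = (w e : ℝ) * (PB w).real (sec e true A) +
      (1 - (w e : ℝ)) * (PB w).real (sec e false A) := by
  have h1 : one e false = (one (ι := ι) e true)ᶜ := by
    ext z
    simp [one]
  have h2 := measureReal_inter_add_sdiff (μ := PB w) (s := A) (dep_one e true).measurableSet
  rw [Set.sdiff_eq, ← h1, real_inter_one w hA, real_inter_one w hA, bern_real_true,
    bern_real_false] at h2
  exact h2.symm

/-! ### Russo's formula -/

/-- product law with constant real parameter -/
def mu (q : ℝ) : Measure (ι → Bool) := PB fun _ : ι => clampUnit q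

instance (q : ℝ) : IsProbabilityMeasure (mu (ι := ι) q) := by unfold mu; infer_instance


theorem coe_clamp {q : ℝ} (h0 : 0 ≤ q) (h1 : q ≤ 1) : ((clampUnit q : I) : ℝ) = q := by
  unfold clampUnit
  rw [Set.projIcc_of_mem zero_le_one ⟨h0, h1⟩]

theorem mu_split {q : ℝ} (h0 : 0 ≤ q) (h1 : q ≤ 1) {S : Finset ι} {A : Set (ι → Bool)}
    (hA : Dep S A) (e : ι) : (mu q).real A = q * (mu q).real (sec e true A) +
      (1 - q) * (mu q).real (sec e false A) := by
  have h := real_split (fun _ : ι => clampUnit q) hA e
  rw [coe_clamp h0 h1] at h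
  exact h

open Classical in
/-- **Russo's formula** -/
theorem russo {q : ℝ} (h0 : 0 < q) (h1 : q < 1) (S : Finset ι) : ∀ {A : Set (ι → Bool)}, Dep S A →
    HasDerivAt (fun t : ℝ => (mu t).real A)
      (∑ e ∈ S, ((mu q).real (sec e true A) - (mu q).real (sec e false A))) q := by
  induction S using Finset.induction_on with
  | empty =>
    intro A hA
    rw [Finset.sum_empty]
    have h2 : A = Set.univ ∨ A = ∅ := by
      by_cases h : A = ∅
      · exact Or.inr h
      · obtain ⟨z, hz⟩ := Set.nonempty_iff_ne_empty.2 h
        exact Or.inl (Set.eq_univ_of_forall fun z' => (hA z z' (by simp)).1 hz)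
    rcases h2 with rfl | rfl
    · simpa using hasDerivAt_const q (1 : ℝ)
    · simpa using hasDerivAt_const q (0 : ℝ)
  | insert e S he ih =>
    intro A hA
    have hT : Dep S (sec e true A) := by
      have := dep_sec hA e true
      rwa [Finset.erase_insert he] at this
    have hF : Dep S (sec e false A) := by
      have := dep_sec hA e false
      rwa [Finset.erase_insert he] at this
    have h2 : (fun t : ℝ => (mu t).real A) =ᶠ[𝓝 q] fun t =>
        t * (mu t).real (sec e true A) + (1 - t) * (mu t).real (sec e false A) := by
      filter_upwards [Ioo_mem_nhds h0 h1] with t ht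
      exact mu_split ht.1.le ht.2.le hA e
    refine HasDerivAt.congr_of_eventuallyEq ?_ h2
    have h3 := ((hasDerivAt_id q).mul (ih hT)).add
      (((hasDerivAt_const q (1 : ℝ)).sub (hasDerivAt_id q)).mul (ih hF))
    refine h3.congr_deriv ?_
    rw [Finset.sum_insert he]
    have h4 : ∀ i ∈ S, (mu q).real (sec i true A) - (mu q).real (sec i false A) =
        q * ((mu q).real (sec i true (sec e true A)) - (mu q).real (sec i false (sec e true A))) +
        (1 - q) * ((mu q).real (sec i true (sec e false A)) -
          (mu q).real (sec i false (sec e false A))) := by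
      intro i hi
      have hne : i ≠ e := fun h => he (h ▸ hi)
      have hm : ∀ b, Dep (insert e S) (sec i b A) := fun b =>
        (dep_sec hA i b).mono (Finset.erase_subset _ _)
      rw [mu_split h0.le h1.le (hm true) e, mu_split h0.le h1.le (hm false) e,
        sec_comm hne, sec_comm hne, sec_comm hne, sec_comm hne]
      ring
    rw [Finset.sum_congr rfl h4, Finset.sum_add_distrib, ← Finset.mul_sum, ← Finset.mul_sum]
    simp only [id_eq, one_mul, Pi.sub_apply]
    ring


/-- for increasing events the difference is the probability to be pivotal -/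
theorem sec_sub_eq (q : ℝ) {S : Finset ι} {A : Set (ι → Bool)} (hA : Dep S A) (iA : Inc A)
    (e : ι) : (mu q).real (sec e true A) - (mu q).real (sec e false A) = (mu q).real (Piv e A) := by
  classical
  have hF := (dep_sec hA e false).measurableSet
  have h1 : sec e false A ⊆ sec e true A := by
    intro z hz
    refine iA _ _ (fun i hi => ?_) hz
    by_cases h1 : i = e
    · subst h1
      rw [frc_self]
    · rw [frc_ne h1] at hi ⊢
      exact hi
  have h2 : Piv e A = sec e true A \ sec e false A := by
    ext z
    rw [piv_inc iA]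
    rfl
  rw [h2, measureReal_sdiff h1 hF]

/-! ### integrated forms -/








end Crest.Agent.R158.Ru874
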