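import Crest.Agent.R158.Os4_488
import Crest.Agent.R158.Ru_874
import Crest.Agent.R158.Os5_488

-- ▼ part R158/Ld1_570
section

/-!
# Row 158, Block G, Lemma D (helper570), part 1: from pivotal blocks to pivotal edges

* `inB x r e`   : both ends of `e` are at sup distance at most `r` from `x`
* `BPiv x r A`  : the block of edges in the ball `B(x,r)` is pivotal for `A`
* `piv_sub`     : a pivotal block of the grid of mesh `m` gives `BPiv (src e) m` for its edges
* `blocks_to_edges` : `m² Σ_{bulk blocks} P(block pivotal) ≤ Σ_{bulk edges} P(BPiv (src e) m)`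
* `scales`      : pigeonhole over independent annuli
-/

set_option autoImplicit false

noncomputable section

namespace Crest.Agent.R158.Ld570

open MeasureTheory unitInterval Crest.Agent.R158.Rs689 Crest.Agent.R158.Fr158
open Crest.ProbabilityR.Percolation (clampUnit)
open Crest.Agent.R158.Os488 Crest.Agent.R158.Ru874
open Crest.Agent.R161.Geo729 Crest.Agent.R161.Topo374 Crest.Agent.R161.Dual374
open Crest.Agent.R161.Tas682

/-- both ends of `e` are in the ball `B(x,r)` -/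
def inB (x : P2) (r : ℤ) (e : Edge) : Prop := sd x (src e) ≤ r ∧ sd x (tgt e) ≤ r

theorem inB_mono {x : P2} {r r' : ℤ} (h : r ≤ r') {e : Edge} (he : inB x r e) : inB x r' e :=
  ⟨he.1.trans h, he.2.trans h⟩

/-- the block of the edges in `B(x,r)` is pivotal for `A` -/
def BPiv (x : P2) (r : ℤ) (A : Set Cf) : Set Cf :=
  {z | ∃ z' : Cf, (∀ e : Edge, ¬ inB x r e → z' e = z e) ∧ ¬ (z' ∈ A ↔ z ∈ A)}

theorem bpiv_mono {x : P2} {r r' : ℤ} (h : r ≤ r') (A : Set Cf) : BPiv x r A ⊆ BPiv x r' A := by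
  rintro z ⟨z', hz, hn⟩
  exact ⟨z', fun e he => hz e fun h1 => he (inB_mono h h1), hn⟩

theorem dep_bpiv (x : P2) (r : ℤ) {S : Finset Edge} {A : Set Cf} (hA : Dep S A) :
    Dep S (BPiv x r A) := by
  classical
  have key : ∀ z z' : Cf, (∀ e ∈ S, z e = z' e) → z ∈ BPiv x r A → z' ∈ BPiv x r A := by
    rintro z z' h ⟨y, hy, hn⟩
    refine ⟨fun e => if e ∈ S then y e else z' e, fun i hi => ?_, ?_⟩
    · show (if i ∈ S then y i else z' i) = z' i
      split_ifs with h1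
      · rw [hy i hi, h i h1]
      · rfl
    · have h1 : (fun e => if e ∈ S then y e else z' e) ∈ A ↔ y ∈ A :=
        hA _ _ fun e he => if_pos he
      rw [h1, ← hA z z' h]
      exact hn
  exact fun z z' h => ⟨key z z' h, key z' z fun e he => (h e he).symm⟩

/-- edges of the same block of mesh `m` are close -/
theorem inB_of_blk {m : ℕ} (hm : 1 ≤ m) {e i : Edge} (h : blk m i = blk m e) :
    inB (src e) m i := by
  have hm0 : (0 : ℤ) < m := by exact_mod_cast hm
  have h1 : (src i).1 / (m : ℤ) = (src e).1 / (m : ℤ) := congrArg Prod.fst h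
  have h2 : (src i).2 / (m : ℤ) = (src e).2 / (m : ℤ) := congrArg Prod.snd h
  have a3 := Int.emod_nonneg (src e).1 hm0.ne'
  have a4 := Int.emod_lt_of_pos (src e).1 hm0
  have a5 := Int.emod_nonneg (src e).2 hm0.ne'
  have a6 := Int.emod_lt_of_pos (src e).2 hm0
  have a7 := Int.mul_ediv_add_emod (src e).1 m
  have a8 := Int.mul_ediv_add_emod (src e).2 m
  have b3 := Int.emod_nonneg (src i).1 hm0.ne'
  have b4 := Int.emod_lt_of_pos (src i).1 hm0
  have b5 := Int.emod_nonneg (src i).2 hm0.ne'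
  have b6 := Int.emod_lt_of_pos (src i).2 hm0
  have b7 := Int.mul_ediv_add_emod (src i).1 m
  have b8 := Int.mul_ediv_add_emod (src i).2 m
  rw [h1] at b7
  rw [h2] at b8
  have c1 : |(src i).1 - (src e).1| ≤ (m : ℤ) - 1 := by
    rw [abs_le]; constructor <;> linarith
  have c2 : |(src i).2 - (src e).2| ≤ (m : ℤ) - 1 := by
    rw [abs_le]; constructor <;> linarith
  have c3 : sd (src e) (src i) ≤ (m : ℤ) - 1 := max_le c1 c2
  refine ⟨by omega, ?_⟩
  have hn : Nbr (src i) (tgt i) := nbr_iff.2 ⟨i, Or.inl ⟨rfl, rfl⟩⟩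
  have := sd_nbr (src e) _ _ hn
  omega

theorem piv_sub {m : ℕ} (hm : 1 ≤ m) (e : Edge) (A : Set Cf) :
    PivS (blk m) (blk m e) A ⊆ BPiv (src e) m A := by
  rintro z ⟨z', hz, hn⟩
  exact ⟨z', fun i hi => hz i fun h1 => hi (inB_of_blk hm h1), hn⟩

/-! ### counting the edges of a block -/

/-- horizontal edges of the block `k` -/
def hE (m : ℕ) (k : P2) : Finset Edge :=
  (Finset.Ico ((m : ℤ) * k.1) ((m : ℤ) * k.1 + m) ×ˢ
    Finset.Ico ((m : ℤ) * k.2) ((m : ℤ) * k.2 + m)).map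
    ⟨fun v => (v, false), fun _ _ h => (Prod.mk.injEq _ _ _ _ ▸ h).1⟩

theorem hE_card (m : ℕ) (k : P2) : (hE m k).card = m ^ 2 := by
  unfold hE
  rw [Finset.card_map, Finset.card_product, Int.card_Ico, Int.card_Ico]
  have h1 : ((m : ℤ) * k.1 + m - (m : ℤ) * k.1).toNat = m := by omega
  have h2 : ((m : ℤ) * k.2 + m - (m : ℤ) * k.2).toNat = m := by omega
  rw [h1, h2, pow_two]

theorem hE_blk {m : ℕ} (hm : 1 ≤ m) {k : P2} {e : Edge} (he : e ∈ hE m k) : blk m e = k := by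
  have hm0 : (0 : ℤ) < m := by exact_mod_cast hm
  unfold hE at he
  rw [Finset.mem_map] at he
  obtain ⟨⟨x, y⟩, hv, rfl⟩ := he
  rw [Finset.mem_product, Finset.mem_Ico, Finset.mem_Ico] at hv
  simp only at hv
  obtain ⟨⟨h1, h2⟩, h3, h4⟩ := hv
  show (x / (m : ℤ), y / (m : ℤ)) = k
  have e1 : x / (m : ℤ) = k.1 := by
    apply le_antisymm
    · rw [← Int.lt_add_one_iff, Int.ediv_lt_iff_lt_mul hm0]
      linarith
    · rw [Int.le_ediv_iff_mul_le hm0]
      linarith
  have e2 : y / (m : ℤ) = k.2 := by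
    apply le_antisymm
    · rw [← Int.lt_add_one_iff, Int.ediv_lt_iff_lt_mul hm0]
      linarith
    · rw [Int.le_ediv_iff_mul_le hm0]
      linarith
  rw [e1, e2]

/-- bulk edges: the ball of radius `s` around the source is in the rectangle -/
def Blk (a b c d s : ℤ) (e : Edge) : Prop :=
  a + s ≤ (src e).1 ∧ (src e).1 ≤ b - s ∧ c + s ≤ (src e).2 ∧ (src e).2 ≤ d - s

theorem mem_rS_of_bulk {a b c d s : ℤ} (hs : 1 ≤ s) {e : Edge} (he : Blk a b c d s e) :
    e ∈ rS a b c d := by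
  unfold rS
  rw [mem_eIn, mem_rV, mem_rV, mem_rect, mem_rect]
  obtain ⟨⟨x, y⟩, k⟩ := e
  unfold Blk at he
  simp only [src] at he
  cases k <;> simp <;> omega

open Classical in
/-- bulk edges of the rectangle -/
def bulkE (a b c d s : ℤ) : Finset Edge := (rS a b c d).filter fun e => Blk a b c d s e

open Classical in
/-- bulk blocks: all edges of the block are bulk -/
def bulkK (m : ℕ) (a b c d s : ℤ) : Finset P2 :=
  ((rS a b c d).image (blk m)).filter fun k => ∀ e, blk m e = k → Blk a b c d s e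

open Classical in
/-- boundary blocks -/
def bdK (m : ℕ) (a b c d s : ℤ) : Finset P2 :=
  ((rS a b c d).image (blk m)).filter fun k => ¬ ∀ e, blk m e = k → Blk a b c d s e

theorem blocks_to_edges (q : ℝ) {m : ℕ} (hm : 1 ≤ m) {a b c d s : ℤ} (hs : 1 ≤ s)
    (A : Set Cf) :
    (m : ℝ) ^ 2 * ∑ k ∈ bulkK m a b c d s, Pr q (PivS (blk m) k A) ≤
      ∑ e ∈ bulkE a b c d s, Pr q (BPiv (src e) m A) := by
  classical
  calc (m : ℝ) ^ 2 * ∑ k ∈ bulkK m a b c d s, Pr q (PivS (blk m) k A)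
      = ∑ k ∈ bulkK m a b c d s, ∑ _e ∈ hE m k, Pr q (PivS (blk m) k A) := by
        rw [Finset.mul_sum]
        refine Finset.sum_congr rfl fun k _ => ?_
        rw [Finset.sum_const, hE_card, nsmul_eq_mul]
        push_cast
        rfl
    _ ≤ ∑ k ∈ bulkK m a b c d s, ∑ e ∈ (bulkE a b c d s).filter fun e => blk m e = k,
          Pr q (BPiv (src e) m A) := by
        refine Finset.sum_le_sum fun k hk => ?_
        refine (Finset.sum_le_sum (g := fun e => Pr q (BPiv (src e) m A)) fun e he => ?_).trans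
          (Finset.sum_le_sum_of_subset_of_nonneg (fun e he => ?_) fun _ _ _ => Pr_nonneg _ _)
        · refine Pr_mono ?_
          have h1 := piv_sub hm e A
          rwa [hE_blk hm he] at h1
        · have h1 := hE_blk hm he
          unfold bulkK at hk
          rw [Finset.mem_filter] at hk
          have h2 := hk.2 e h1
          rw [Finset.mem_filter, bulkE, Finset.mem_filter]
          exact ⟨⟨mem_rS_of_bulk hs h2, h2⟩, h1⟩
    _ ≤ ∑ e ∈ bulkE a b c d s, Pr q (BPiv (src e) m A) := by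
        rw [← Finset.sum_biUnion]
        · refine Finset.sum_le_sum_of_subset_of_nonneg (fun e he => ?_) fun _ _ _ => Pr_nonneg _ _
          rw [Finset.mem_biUnion] at he
          obtain ⟨k, _, he⟩ := he
          exact (Finset.mem_filter.1 he).1
        · intro k _ k' _ hkk
          rw [Function.onFun, Finset.disjoint_left]
          intro e he he'
          rw [Finset.mem_filter] at he he'
          exact hkk (he.2.symm.trans he'.2)

/-! ### pigeonhole over independent annuli -/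

theorem scales (q : ℝ) (x : P2) (A : Set Cf) (J : ℕ) (r : ℕ → ℤ)
    (hr : ∀ j < J, r 0 ≤ r j) (G : ℕ → Set Cf) (T : ℕ → Finset Edge)
    (hT : ∀ i < J, ∀ j < J, i ≠ j → Disjoint (T i) (T j)) (hG : ∀ j < J, Dep (T j) (G j))
    {η : ℝ} (hη : ∀ j < J, Pr q (G j)ᶜ ≤ η) :
    Pr q (BPiv x (r 0) A) ≤ (∑ j ∈ Finset.range J, Pr q (BPiv x (r j) A ∩ G j)) + η ^ J := by
  classical
  have h1 : BPiv x (r 0) A ⊆ (⋃ j ∈ Finset.range J, BPiv x (r j) A ∩ G j) ∪
      ⋂ j ∈ Finset.range J, (G j)ᶜ := by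
    intro z hz
    by_cases h : ∃ j < J, z ∈ G j
    · obtain ⟨j, hj, hzj⟩ := h
      left
      simp only [Set.mem_iUnion, Finset.mem_range]
      exact ⟨j, hj, bpiv_mono (hr j hj) A hz, hzj⟩
    · right
      push Not at h
      simp only [Set.mem_iInter, Finset.mem_range]
      exact fun j hj => h j hj
  have h2 : Pr q (⋂ j ∈ Finset.range J, (G j)ᶜ) ≤ η ^ J := by
    unfold Pr Fr158.nu
    rw [PB_indep_prod _ (Finset.range J) T]
    · calc ∏ j ∈ Finset.range J, (PB fun _ : Edge => clampUnit q).real (G j)ᶜ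
          ≤ ∏ _j ∈ Finset.range J, η := by
            refine Finset.prod_le_prod (fun _ _ => measureReal_nonneg) fun j hj => ?_
            exact hη j (Finset.mem_range.1 hj)
        _ = η ^ J := by rw [Finset.prod_const, Finset.card_range]
    · intro i hi j hj hij
      exact hT i (Finset.mem_range.1 hi) j (Finset.mem_range.1 hj) hij
    · intro j hj
      exact (hG j (Finset.mem_range.1 hj)).compl
  calc Pr q (BPiv x (r 0) A)
      ≤ Pr q ((⋃ j ∈ Finset.range J, BPiv x (r j) A ∩ G j) ∪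
          ⋂ j ∈ Finset.range J, (G j)ᶜ) := Pr_mono h1
    _ ≤ Pr q (⋃ j ∈ Finset.range J, BPiv x (r j) A ∩ G j) +
          Pr q (⋂ j ∈ Finset.range J, (G j)ᶜ) := measureReal_union_le _ _
    _ ≤ _ := add_le_add (measureReal_biUnion_finset_le _ _) h2

end Crest.Agent.R158.Ld570
end
end

-- ▼ part R158/Ld2_570

/-!
# Row 158, Block G, Lemma D (helper570), part 2: the lower bound for the number of pivotal edges

* `F n` : the easy-way crossing `{LRc z 0 n 0 (3n)}`
* `HypBD` : boundary blocks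
* `HypGl A4` : one-scale separation and gluing
* `HypA4 A4` : lower point bound in the deep critical window
* `piv_lower` : `w (m² X - |E| η^J) ≤ J K Σ_e P(e pivotal)`
-/

set_option autoImplicit false

noncomputable section

namespace Crest.Agent.R158.Ld570

open MeasureTheory unitInterval Filter Topology Crest.Agent.R158.Rs689 Crest.Agent.R158.Fr158
open Crest.Agent.R158.Os488 Crest.Agent.R158.Ru874
open Crest.Agent.R161.Geo729 Crest.Agent.R161.Topo374 Crest.Agent.R161.Dual374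
open Crest.Agent.R161.Tas682

/-- crossing of a rectangle -/
def XR (a b c d : ℤ) : Set Cf := {z | LRc z a b c d}

/-- **(BD)** boundary blocks -/
def HypBD : Prop :=
  ∀ c : ℝ, 0 < c → ∃ C : ℝ, 0 < C ∧ ∀ q : ℝ, 0 < q → q ≤ 1 / 2 → ∀ m s n : ℕ, 1 ≤ m → m ≤ s →
    s ≤ n → RScale c q (16 * s) →
      ∑ k ∈ bdK m 0 n 0 (3 * n) s, Pr q (PivS (blk m) k (XR 0 n 0 (3 * n))) ≤
        C * ((s : ℝ) / m) ^ 2 * (1 + Real.log ((n : ℝ) / m))

/-- **(Gl)** one-scale separation of the outer arms and gluing with the inner four arms -/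
def HypGl (A4 : Edge → ℕ → Set Cf) : Prop :=
  ∀ c : ℝ, 0 < c → ∃ Λ : ℕ, 1 ≤ Λ ∧ ∀ η : ℝ, 0 < η → ∃ K : ℝ, 0 < K ∧ ∃ C r0 : ℕ, 1 ≤ C ∧
    ∀ q : ℝ, 0 < q → q < 1 → ∀ r : ℕ, r0 ≤ r → RScale c q (C * r) →
      ∀ (a b c' d : ℤ) (e : Edge), Blk a b c' d (C * r) e →
        ∃ (G : Set Cf) (T : Finset Edge), Dep T G ∧
          (∀ i ∈ T, (r : ℤ) ≤ Λ * sd (src e) (src i) ∧ sd (src e) (src i) ≤ Λ * r) ∧
          Pr q Gᶜ ≤ η ∧
          Pr q (Ld570.BPiv (src e) r (XR a b c' d) ∩ G) * Pr q (A4 e r) ≤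
            K * Pr q (Piv e (XR a b c' d))

/-- **(A4)** lower point bound in the deep critical window -/
def HypA4 (A4 : Edge → ℕ → Set Cf) : Prop :=
  ∀ δ ε : ℝ, 0 < δ → 0 < ε → ∀ᶠ r : ℕ in atTop, ∀ q : ℝ, |q - 1 / 2| ≤ (r : ℝ) ^ (-(3 / 4 : ℝ) - δ) →
    ∀ e : Edge, (r : ℝ) ^ (-(5 / 4 : ℝ) - ε) ≤ Pr q (A4 e r)

theorem scale_disj {m B Λ : ℕ} (hm : 1 ≤ m) (hB : Λ ^ 2 + 1 ≤ B) {x : P2}
    {T : ℕ → Finset Edge} {J : ℕ}
    (hT : ∀ j < J, ∀ i ∈ T j, ((m * B ^ j : ℕ) : ℤ) ≤ Λ * sd x (src i) ∧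
      sd x (src i) ≤ Λ * (m * B ^ j : ℕ)) :
    ∀ i < J, ∀ j < J, i ≠ j → Disjoint (T i) (T j) := by
  have key : ∀ i < J, ∀ j < J, i < j → Disjoint (T i) (T j) := by
    intro i hi j hj hij
    rw [Finset.disjoint_left]
    intro e he he'
    have h1 := (hT i hi e he).2
    have h2 := (hT j hj e he').1
    have h3 : m * B ^ i * B ≤ m * B ^ j := by
      rw [mul_assoc, ← pow_succ]
      exact Nat.mul_le_mul_left _ (Nat.pow_le_pow_right (by omega) hij)
    have h4 : (m * B ^ i) * (Λ ^ 2 + 1) ≤ m * B ^ j := (Nat.mul_le_mul_left _ hB).trans h3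
    have h5 : 1 ≤ m * B ^ i := Nat.mul_pos hm (pow_pos (by omega) i)
    have h6 : ((m * B ^ i * (Λ ^ 2 + 1) : ℕ) : ℤ) ≤ (m * B ^ j : ℕ) := by exact_mod_cast h4
    have h7 : (Λ : ℤ) * sd x (src e) ≤ Λ * (Λ * (m * B ^ i : ℕ)) :=
      mul_le_mul_of_nonneg_left h1 (by positivity)
    have h8 : (1 : ℤ) ≤ (m * B ^ i : ℕ) := by exact_mod_cast h5
    push_cast at *
    nlinarith
  intro i hi j hj hij
  rcases lt_or_gt_of_ne hij with h | h
  · exact key i hi j hj h
  · exact (key j hj i hi h).symm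

/-- **lower bound for the number of pivotal edges** -/
theorem piv_lower {q : ℝ} {m n B Λ J : ℕ} {s : ℤ} {η K w X : ℝ} (hm : 1 ≤ m) (hs : 1 ≤ s)
    (hB : Λ ^ 2 + 1 ≤ B) (hw : 0 ≤ w)
    (hX : X ≤ ∑ k ∈ bulkK m 0 n 0 (3 * n) s, Pr q (PivS (blk m) k (XR 0 n 0 (3 * n))))
    (hG : ∀ e ∈ bulkE 0 n 0 (3 * n) s, ∀ j < J, ∃ (G : Set Cf) (T : Finset Edge), Dep T G ∧
      (∀ i ∈ T, ((m * B ^ j : ℕ) : ℤ) ≤ Λ * sd (src e) (src i) ∧
        sd (src e) (src i) ≤ Λ * (m * B ^ j : ℕ)) ∧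
      Pr q Gᶜ ≤ η ∧
      w * Pr q (Ld570.BPiv (src e) (m * B ^ j : ℕ) (XR 0 n 0 (3 * n)) ∩ G) ≤
        K * Pr q (Piv e (XR 0 n 0 (3 * n)))) :
    w * ((m : ℝ) ^ 2 * X - (bulkE 0 n 0 (3 * n) s).card * η ^ J) ≤
      J * K * ∑ e ∈ bulkE 0 n 0 (3 * n) s, Pr q (Piv e (XR 0 n 0 (3 * n))) := by
  set A : Set Cf := XR 0 n 0 (3 * n) with hA
  set E := bulkE 0 n 0 (3 * n) s with hE
  have h1 : ∀ e ∈ E, w * (Pr q (Ld570.BPiv (src e) m A) - η ^ J) ≤ J * (K * Pr q (Piv e A)) := by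
    intro e he
    choose! G T h2 h3 h4 h5 using hG e he
    have h6 := scales q (src e) A J (fun j => ((m * B ^ j : ℕ) : ℤ)) (fun j _ => by
      have : m * B ^ 0 ≤ m * B ^ j :=
        Nat.mul_le_mul_left _ (Nat.pow_le_pow_right (by omega) (Nat.zero_le _))
      exact_mod_cast this) G T (scale_disj hm hB h3) h2 h4
    have h7 : w * ∑ j ∈ Finset.range J, Pr q (Ld570.BPiv (src e) ((m * B ^ j : ℕ) : ℤ) A ∩ G j) ≤
        J * (K * Pr q (Piv e A)) := by
      rw [Finset.mul_sum]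
      calc _ ≤ ∑ _j ∈ Finset.range J, K * Pr q (Piv e A) :=
            Finset.sum_le_sum fun j hj => h5 j (Finset.mem_range.1 hj)
        _ = _ := by rw [Finset.sum_const, Finset.card_range, nsmul_eq_mul]
    refine le_trans ?_ h7
    refine mul_le_mul_of_nonneg_left ?_ hw
    simp only [pow_zero, mul_one] at h6
    linarith
  have h2 := Finset.sum_le_sum h1
  rw [← Finset.mul_sum, ← Finset.mul_sum, ← Finset.mul_sum, Finset.sum_sub_distrib,
    Finset.sum_const, nsmul_eq_mul] at h2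
  rw [mul_assoc]
  refine le_trans ?_ h2
  refine mul_le_mul_of_nonneg_left ?_ hw
  have h3 := blocks_to_edges q hm (a := 0) (b := n) (c := 0) (d := 3 * n) hs A
  have h4 : (m : ℝ) ^ 2 * X ≤ (m : ℝ) ^ 2 * ∑ k ∈ bulkK m 0 n 0 (3 * n) s,
      Pr q (PivS (blk m) k A) := mul_le_mul_of_nonneg_left hX (by positivity)
  linarith

/-- number of edges of the rectangle -/
theorem card_bulkE (n : ℕ) (hn : 1 ≤ n) (s : ℤ) :
    ((bulkE 0 n 0 (3 * n) s).card : ℝ) ≤ 16 * (n : ℝ) ^ 2 := by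
  classical
  have h1 : (bulkE 0 n 0 (3 * n) s).card ≤ (rS 0 n 0 (3 * n)).card := Finset.card_filter_le _ _
  have h2 : (rS 0 n 0 (3 * n)).card ≤ ((rV 0 n 0 (3 * n)) ×ˢ (Finset.univ : Finset Bool)).card := by
    unfold rS eIn
    exact Finset.card_filter_le _ _
  have h3 : ((rV 0 n 0 (3 * n)) ×ˢ (Finset.univ : Finset Bool)).card =
      (n + 1) * (3 * n + 1) * 2 := by
    rw [Finset.card_product, rV, Finset.card_product, Int.card_Icc, Int.card_Icc]
    simp only [Finset.card_univ, Fintype.card_bool]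
    have e1 : ((n : ℤ) + 1 - 0).toNat = n + 1 := by omega
    have e2 : (3 * (n : ℤ) + 1 - 0).toNat = 3 * n + 1 := by omega
    rw [e1, e2]
  have h4 : (bulkE 0 n 0 (3 * n) s).card ≤ 16 * n ^ 2 := by
    rw [h3] at h2
    have h5 : (n + 1) * (3 * n + 1) * 2 ≤ 16 * n ^ 2 := by nlinarith
    omega
  exact_mod_cast h4

end Crest.Agent.R158.Ld570
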