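import Crest.Agent.R158.Lr8_158
import Crest.Agent.R158.Ne5_808
import Crest.Agent.R158.Fm2_857
import Crest.Agent.R158.Ne7_808

-- ▼ part R158/Lr9_158
section

/-!
R158, block Q1d, leaf LR (helper158), part 9: **the step of the charges** in the four charts.

* `ChH A cc cl J` : `cc` changes by `J` between consecutive free ends of the half environment
* **`Cg_step`** : `Cg X' = Cg X + Jc X X'` along a clockwise step `X → X'` of a chart, `Jc` = `J` of
  the two ports behind (in the reversed order on the copy `true`)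
* **`chH_low`**, **`chH_up`** : the instances for helper857's family
-/

set_option autoImplicit false

namespace Crest.Agent.R158.Lr158

open Crest.Agent.R158.Sw300 (Port)
open Crest.Agent.R158.Env664 (TG Mac D mem_D Run CutAdj Adj4 lowT upT Band)
open Crest.Agent.R158.Pt266 (dir RFree FFree rfree_full NxT nx_flat nx_convex nx_reflex adj_dir)
open Crest.Agent.R158.Ka470
open Crest.Agent.R158.Ka470.Half
open Crest.Agent.R158.Xr249 (full mem_lowT low_step)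
open Crest.Agent.R158.Rf896 (rA rB rz rp rt mem_rA rz_rz)
open Crest.Agent.R158.Fm857 (psD rD isLow blkG innG pG isLS clow ctw phi cb cp ge1 gt1 low1 freeG
  freeD flr cil mem_flr mem_cil mouth)

/-- **charges of a half environment**: `cc` changes by `J` between consecutive free ends -/
structure ChH (A : Half) (cc : TG × ZMod 4 → ℤ) (cl : ℤ) (J : TG × ZMod 4 → TG × ZMod 4 → ℤ) :
    Prop where
  st : ∀ X X' k, Stp (A.H : Set (ℤ × ℤ)) (NM A) X X' k →
    cc (Sum.inl X'.1, X'.2) = cc (Sum.inl X.1, X.2) + J (Sum.inl X.1, X.2) (Sum.inl X'.1, X'.2)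
  fl : ∀ i, 0 < i → i < A.R → cc (Sum.inr (i - 1, A.y1), 3) =
    cc (Sum.inr (i, A.y1), 3) + J (Sum.inr (i, A.y1), 3) (Sum.inr (i - 1, A.y1), 3)
  ml : A.Y < A.y1 → cc (Sum.inr (A.R - 1, A.y1), 3) + cl = cc (Sum.inl (A.xl, A.y1 - 1), 0) +
    J (Sum.inl (A.xl, A.y1 - 1), 0) (Sum.inr (A.R - 1, A.y1), 3)
  mr : A.Y < A.y1 → cc (Sum.inl (A.xr, A.y1 - 1), 2) = cc (Sum.inr (0, A.y1), 3) +
    J (Sum.inr (0, A.y1), 3) (Sum.inl (A.xr, A.y1 - 1), 2)

section half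

variable {A : Half} {ρ : ℕ} {cc : TG × ZMod 4 → ℤ} {cl : ℤ} {J : TG × ZMod 4 → TG × ZMod 4 → ℤ}

theorem ChH.wl (H : ChH A cc cl J) {y : ℤ} (h1 : A.Y ≤ y) (h2 : y + 1 < A.y1) :
    cc (Sum.inl (A.xl, y + 1), 0) = cc (Sum.inl (A.xl, y), 0) +
      J (Sum.inl (A.xl, y), 0) (Sum.inl (A.xl, y + 1), 0) := by
  have h01 := A.h1
  have hx := A.hx
  have hW := A.hW
  have e1 : ((A.xl, y) : ℤ × ℤ) + dir ((0 : ZMod 4) + 1) = (A.xl, y + 1) := by
    rw [d4a.1, dir1]; simp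
  have e0 : ((A.xl, y) : ℤ × ℤ) + dir (0 : ZMod 4) = (A.xl - 1, y) := by
    rw [dir0]; simp [sub_eq_add_neg]
  have e2 : ((A.xl, y + 1) : ℤ × ℤ) + dir (0 : ZMod 4) = (A.xl - 1, y + 1) := by
    rw [dir0]; simp [sub_eq_add_neg]
  have hs : Stp (A.H : Set (ℤ × ℤ)) (NM A) ((A.xl, y), 0) ((A.xl, y) + dir ((0 : ZMod 4) + 1), 0) 0 := by
    refine .flat ?_ ?_ ?_ ?_ ?_ ?_ ?_ ?_
    · exact A.row _ _ h1 (by omega) le_rfl hx
    · rw [e1]; exact A.row _ _ (by omega) (by omega) le_rfl hx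
    · rw [e0]; exact A.left _ _ h1 (by omega) (by omega) (by omega)
    · rw [e1, e2]; exact A.left _ _ (by omega) (by omega) (by omega) (by omega)
    · rintro ⟨⟨-, h3, -⟩, -⟩; simp only at h3; omega
    · rw [e1]; rintro ⟨⟨-, h3, -⟩, -⟩; simp only at h3; omega
    · rw [e0]; rintro ⟨⟨-, h3, -⟩, -⟩; simp only at h3; omega
    · rw [e1, e2]; rintro ⟨⟨-, h3, -⟩, -⟩; simp only at h3; omega
  have := H.st _ _ _ hs
  rwa [e1] at this

theorem ChH.wr (H : ChH A cc cl J) {y : ℤ} (h1 : A.Y ≤ y) (h2 : y + 1 < A.y1) :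
    cc (Sum.inl (A.xr, y), 2) = cc (Sum.inl (A.xr, y + 1), 2) +
      J (Sum.inl (A.xr, y + 1), 2) (Sum.inl (A.xr, y), 2) := by
  have h01 := A.h1
  have hx := A.hx
  have hW := A.hW
  have e1 : ((A.xr, y + 1) : ℤ × ℤ) + dir ((2 : ZMod 4) + 1) = (A.xr, y) := by
    rw [d4a.2.2.1, dir3]; simp
  have e0 : ((A.xr, y + 1) : ℤ × ℤ) + dir (2 : ZMod 4) = (A.xr + 1, y + 1) := by
    rw [dir2]; simp
  have e2 : ((A.xr, y) : ℤ × ℤ) + dir (2 : ZMod 4) = (A.xr + 1, y) := by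
    rw [dir2]; simp
  have hs : Stp (A.H : Set (ℤ × ℤ)) (NM A) ((A.xr, y + 1), 2)
      ((A.xr, y + 1) + dir ((2 : ZMod 4) + 1), 2) 0 := by
    refine .flat ?_ ?_ ?_ ?_ ?_ ?_ ?_ ?_
    · exact A.row _ _ (by omega) (by omega) hx le_rfl
    · rw [e1]; exact A.row _ _ (by omega) (by omega) hx le_rfl
    · rw [e0]; exact A.right _ _ (by omega) (by omega) (by omega) (by omega)
    · rw [e1, e2]; exact A.right _ _ (by omega) (by omega) (by omega) (by omega)
    · rintro ⟨⟨-, h3, -⟩, -⟩; simp only at h3; omega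
    · rw [e1]; rintro ⟨⟨-, h3, -⟩, -⟩; simp only at h3; omega
    · rw [e0]; rintro ⟨⟨-, h3, -⟩, -⟩; simp only at h3; omega
    · rw [e1, e2]; rintro ⟨⟨-, h3, -⟩, -⟩; simp only at h3; omega
  have := H.st _ _ _ hs
  rwa [e1] at this

/-- jump of the charge of a chart along a step -/
noncomputable def Jc (J : TG × ZMod 4 → TG × ZMod 4 → ℤ) (h : A.Sz ρ) (i : Fin 4)
    (X X' : (ℤ × ℤ) × ZMod 4) : ℤ :=
  if ((chf h i).emb X.1).2 then J (upp h i X') (upp h i X) else J (upp h i X) (upp h i X')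

/-! ### positions of the ends of the charts 2 and 3 -/

/-- position of an end of the chart `2` -/
def PosM (A : Half) (ρ : ℕ) (X : (ℤ × ℤ) × ZMod 4) : Prop :=
  (X.2 = 0 ∧ X.1.1 = A.xl ∧ A.Y ≤ A.ry X.1.2 ∧ A.ry X.1.2 < A.y1) ∨
  (X.2 = 2 ∧ X.1.1 = A.xr ∧ A.Y ≤ A.ry X.1.2 ∧ A.ry X.1.2 < A.y1) ∨
  (X.2 = 3 ∧ X.1.2 = A.y1 ∧ (A.xl - 8 * (ρ : ℤ) ≤ X.1.1 ∧ X.1.1 ≤ A.xr + 8 * ρ) ∧
    (X.1.1 < A.xl ∨ A.xr < X.1.1)) ∨
  (X.2 = 1 ∧ X.1.2 = 2 * A.y0 - A.y1 - 1 ∧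
    (A.xl - 8 * (ρ : ℤ) ≤ X.1.1 ∧ X.1.1 ≤ A.xr + 8 * ρ) ∧ (X.1.1 < A.xl ∨ A.xr < X.1.1))

theorem posM {h : A.Sz ρ} {B : Set (ℤ × ℤ)} (hB : A.Good ρ 2 B) {X : (ℤ × ℤ) × ZMod 4}
    (hX : REnd h 2 B X) : PosM A ρ X := by
  obtain ⟨⟨x, y⟩, d⟩ := X
  have g1 := hB _ hX.b1
  have g2 := hB _ hX.b2
  have m1 := (memM h g1).1 hX.m
  have m2 : ¬ _ := fun hh => hX.n ((memM h g2).2 hh)
  have hx := A.hx
  have h01 := A.h1
  unfold PosM
  simp only at g1 g2 m1 m2 ⊢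
  rcases dir_cases d with ⟨rfl, hd⟩ | ⟨rfl, hd⟩ | ⟨rfl, hd⟩ | ⟨rfl, hd⟩
  · rw [hd] at g2 m2
    simp only [Prod.mk_add_mk, add_zero] at g2 m2
    push Not at m2
    refine Or.inl ⟨rfl, ?_, g1.2, m2.2⟩
    rcases m1 with m1 | m1
    · by_contra hne
      have := m2.1 (by omega)
      omega
    · omega
  · rw [hd] at g2 m2
    simp only [Prod.mk_add_mk, add_zero] at g2 m2
    push Not at m2
    have e2 : A.ry (y + 1) < A.y1 := m2.2
    have e1 : ¬ (A.xl ≤ x ∧ x ≤ A.xr) := fun hc => by have := m2.1 hc.1; omega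
    have e3 : A.y1 ≤ A.ry y := by
      rcases m1 with m1 | m1
      · exact absurd m1 e1
      · exact m1
    have e4 := side_lt e2
    have e5 := y1_ry.1 e3
    refine Or.inr (Or.inr (Or.inr ⟨rfl, by omega, g1.1, by omega⟩))
  · rw [hd] at g2 m2
    simp only [Prod.mk_add_mk, add_zero] at g2 m2
    push Not at m2
    refine Or.inr (Or.inl ⟨rfl, ?_, g1.2, m2.2⟩)
    rcases m1 with m1 | m1
    · by_contra hne
      have := m2.1 (by omega)
      omega
    · omega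
  · rw [hd] at g2 m2
    simp only [Prod.mk_add_mk, add_zero] at g2 m2
    push Not at m2
    have e2 : A.ry (y + -1) < A.y1 := m2.2
    have e1 : ¬ (A.xl ≤ x ∧ x ≤ A.xr) := fun hc => by have := m2.1 hc.1; omega
    have e3 : A.y1 ≤ A.ry y := by
      rcases m1 with m1 | m1
      · exact absurd m1 e1
      · exact m1
    have e4 := side_lt e2
    have e5 := y1_ry.1 e3
    exact Or.inr (Or.inr (Or.inl ⟨rfl, by omega, g1.1, by omega⟩))

/-- position of an end of the chart `3` -/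
theorem posS {h : A.Sz ρ} {B : Set (ℤ × ℤ)} (hB : A.Good ρ 3 B) {X : (ℤ × ℤ) × ZMod 4}
    (hX : REnd h 3 B X) : (0 ≤ X.1.1 ∧ X.1.1 < A.R) ∧
      ((X.2 = 3 ∧ X.1.2 = A.y1) ∨ (X.2 = 1 ∧ X.1.2 = 2 * A.y0 - A.y1 - 1)) := by
  obtain ⟨⟨x, y⟩, d⟩ := X
  have g1 := hB _ hX.b1
  have g2 := hB _ hX.b2
  have m1 := (memS h g1).1 hX.m
  have m2 : ¬ _ := fun hh => hX.n ((memS h g2).2 hh)
  have h01 := A.h1
  simp only at g1 g2 m1 m2 ⊢
  have e5 := y1_ry.1 m1
  refine ⟨g1, ?_⟩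
  rcases dir_cases d with ⟨rfl, hd⟩ | ⟨rfl, hd⟩ | ⟨rfl, hd⟩ | ⟨rfl, hd⟩
  · rw [hd] at m2
    simp only [Prod.mk_add_mk, add_zero] at m2
    exact absurd m1 m2
  · rw [hd] at m2
    simp only [Prod.mk_add_mk, add_zero] at m2
    have e4 := side_lt (A := A) (by omega : A.ry (y + 1) < A.y1)
    exact Or.inr ⟨rfl, by omega⟩
  · rw [hd] at m2
    simp only [Prod.mk_add_mk, add_zero] at m2
    exact absurd m1 m2
  · rw [hd] at m2
    simp only [Prod.mk_add_mk, add_zero] at m2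
    have e4 := side_lt (A := A) (by omega : A.ry (y + -1) < A.y1)
    exact Or.inl ⟨rfl, by omega⟩

/-! ### charges in coordinates -/

/-- tile of the chart `2` -/
def tM (A : Half) (x y : ℤ) : TG :=
  if x < A.xl then Sum.inr (A.R - (A.xl - x), y) else if x ≤ A.xr then
    Sum.inl (x, y) else Sum.inr (x - A.xr - 1, y)

theorem uppM_lo (h : A.Sz ρ) {x y : ℤ} {d : ZMod 4} (hy : y < A.y0) :
    upp h 2 ((x, y), d) = (tM A x y, d) ∧ ((chf h 2).emb (x, y)).2 = false := by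
  have e0 : upp h 2 ((x, y), d) = (tM A x (A.ry y), Ka470.sg (A.kk y) d) := rfl
  have e1 : ((chf h 2).emb (x, y)).2 = A.kk y := rfl
  rw [e0, e1, kk_lt _ hy, ry_lt _ hy]
  exact ⟨rfl, rfl⟩

theorem uppM_hi (h : A.Sz ρ) {x y : ℤ} {d : ZMod 4} (hy : A.y0 ≤ y) :
    upp h 2 ((x, y), d) = (tM A x (2 * A.y0 - 1 - y), -d) ∧
      ((chf h 2).emb (x, y)).2 = true := by
  have e0 : upp h 2 ((x, y), d) = (tM A x (A.ry y), Ka470.sg (A.kk y) d) := rfl
  have e1 : ((chf h 2).emb (x, y)).2 = A.kk y := rfl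
  rw [e0, e1, kk_ge _ hy, ry_ge _ hy]
  exact ⟨rfl, rfl⟩

theorem uppS_lo (h : A.Sz ρ) {x y : ℤ} {d : ZMod 4} (hy : y < A.y0) :
    upp h 3 ((x, y), d) = (Sum.inr (x, y), d) ∧ ((chf h 3).emb (x, y)).2 = false := by
  have e0 : upp h 3 ((x, y), d) = (Sum.inr (x, A.ry y), Ka470.sg (A.kk y) d) := rfl
  have e1 : ((chf h 3).emb (x, y)).2 = A.kk y := rfl
  rw [e0, e1, kk_lt _ hy, ry_lt _ hy]
  exact ⟨rfl, rfl⟩

theorem uppS_hi (h : A.Sz ρ) {x y : ℤ} {d : ZMod 4} (hy : A.y0 ≤ y) :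
    upp h 3 ((x, y), d) = (Sum.inr (x, 2 * A.y0 - 1 - y), -d) ∧
      ((chf h 3).emb (x, y)).2 = true := by
  have e0 : upp h 3 ((x, y), d) = (Sum.inr (x, A.ry y), Ka470.sg (A.kk y) d) := rfl
  have e1 : ((chf h 3).emb (x, y)).2 = A.kk y := rfl
  rw [e0, e1, kk_ge _ hy, ry_ge _ hy]
  exact ⟨rfl, rfl⟩

/-- charge on the copy `false` -/
theorem Cg_lo (h : A.Sz ρ) (i : Fin 4) {X : (ℤ × ℤ) × ZMod 4} (he : ((chf h i).emb X.1).2 = false) :
    Cg cc cl h i X = cc (upp h i X) + if i = 2 ∧ X.1.1 < A.xl then cl else 0 := by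
  unfold Cg eps
  rw [he]
  simp

/-- charge on the copy `true` -/
theorem Cg_hi (h : A.Sz ρ) (i : Fin 4) {X : (ℤ × ℤ) × ZMod 4} (he : ((chf h i).emb X.1).2 = true) :
    Cg cc cl h i X = -(cc (upp h i X) + if i = 2 ∧ X.1.1 < A.xl then cl else 0) := by
  unfold Cg eps
  rw [he]
  simp

/-- the generic step on the copy `false` -/
theorem step_lo {h : A.Sz ρ} {i : Fin 4} {X X' : (ℤ × ℤ) × ZMod 4}
    (e : ((chf h i).emb X.1).2 = false) (e' : ((chf h i).emb X'.1).2 = false)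
    (H : (cc (upp h i X') + if i = 2 ∧ X'.1.1 < A.xl then cl else 0) =
      (cc (upp h i X) + if i = 2 ∧ X.1.1 < A.xl then cl else 0) + J (upp h i X) (upp h i X')) :
    Cg cc cl h i X' = Cg cc cl h i X + Jc J h i X X' := by
  rw [Cg_lo h i e, Cg_lo h i e', H]
  unfold Jc
  rw [e]
  rfl

/-- the generic step on the copy `true` -/
theorem step_hi {h : A.Sz ρ} {i : Fin 4} {X X' : (ℤ × ℤ) × ZMod 4}
    (e : ((chf h i).emb X.1).2 = true) (e' : ((chf h i).emb X'.1).2 = true)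
    (H : (cc (upp h i X) + if i = 2 ∧ X.1.1 < A.xl then cl else 0) =
      (cc (upp h i X') + if i = 2 ∧ X'.1.1 < A.xl then cl else 0) + J (upp h i X') (upp h i X)) :
    Cg cc cl h i X' = Cg cc cl h i X + Jc J h i X X' := by
  rw [Cg_hi h i e, Cg_hi h i e', H]
  unfold Jc
  rw [e, if_pos rfl]
  ring

end half

end Crest.Agent.R158.Lr158
end

-- ▼ part R158/Lr10_158
section

/-!
R158, block Q1d, leaf LR (helper158), part 10: **`Cg_step`**.
-/

set_option autoImplicit false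

namespace Crest.Agent.R158.Lr158

open Crest.Agent.R158.Sw300 (Port)
open Crest.Agent.R158.Env664 (TG Mac D mem_D Run CutAdj Adj4 lowT upT Band)
open Crest.Agent.R158.Pt266 (dir)
open Crest.Agent.R158.Ka470
open Crest.Agent.R158.Ka470.Half

section half

variable {A : Half} {ρ : ℕ} {cc : TG × ZMod 4 → ℤ} {cl : ℤ} {J : TG × ZMod 4 → TG × ZMod 4 → ℤ}

theorem tM_l {x y : ℤ} (h : x < A.xl) : tM A x y = Sum.inr (A.R - (A.xl - x), y) := if_pos h

theorem tM_m {x y : ℤ} (h1 : A.xl ≤ x) (h2 : x ≤ A.xr) : tM A x y = Sum.inl (x, y) := by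
  unfold tM; rw [if_neg (by omega), if_pos h2]

theorem tM_r {x y : ℤ} (h1 : A.xr < x) : tM A x y = Sum.inr (x - A.xr - 1, y) := by
  have := A.hx
  unfold tM; rw [if_neg (by omega), if_neg (by omega)]

/-- step of the chart `2` -/
theorem Cg_stepM (H : ChH A cc cl J) {h : A.Sz ρ} {B : Set (ℤ × ℤ)} (hB : A.Good ρ 2 B)
    {X X' : (ℤ × ℤ) × ZMod 4} {k : ℤ} (hS : Stp ((chf h 2).R : Set (ℤ × ℤ)) B X X' k) :
    Cg cc cl h 2 X' = Cg cc cl h 2 X + Jc J h 2 X X' := by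
  obtain ⟨hX, hX'⟩ := hS.ends
  have p1 := posM hB hX
  have p2 := posM hB hX'
  clear hX hX'
  have h01 := A.h1
  have hx := A.hx
  have hr := h.r
  have hρ := h.pos
  have hy5 := h.y
  have n01 : (0 : ZMod 4) ≠ 1 := by decide
  have n02 : (0 : ZMod 4) ≠ 2 := by decide
  have n03 : (0 : ZMod 4) ≠ 3 := by decide
  have n12 : (1 : ZMod 4) ≠ 2 := by decide
  have n13 : (1 : ZMod 4) ≠ 3 := by decide
  have n23 : (2 : ZMod 4) ≠ 3 := by decide
  have ng1 : -(1 : ZMod 4) = 3 := by decide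
  have ng2 : -(2 : ZMod 4) = 2 := by decide
  cases hS with
  | @flat t d h1 h2 h3 h4 b1 b2 b3 b4 =>
    obtain ⟨x, y⟩ := t
    rcases z4 d with rfl | rfl | rfl | rfl
    · -- left wall
      have e1 : ((x, y) : ℤ × ℤ) + dir ((0 : ZMod 4) + 1) = (x, y + 1) := by
        rw [d4a.1, dir1]; simp
      rw [e1] at p2 ⊢
      unfold PosM at p1 p2
      simp only [n01, n02, n03, true_and, false_and, or_false] at p1 p2
      obtain ⟨rfl, p3, p4⟩ := p1
      obtain ⟨-, p5, p6⟩ := p2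
      have s1 := side_lt p4
      have s2 := side_lt p6
      rcases lt_or_ge y A.y0 with hy | hy
      · obtain ⟨u1, v1⟩ := uppM_lo h (x := A.xl) (d := 0) hy
        obtain ⟨u2, v2⟩ := uppM_lo h (x := A.xl) (y := y + 1) (d := 0) (by omega)
        refine step_lo v1 v2 ?_
        rw [u1, u2, tM_m le_rfl hx, tM_m le_rfl hx]
        simp only [lt_irrefl, and_false, if_false, add_zero]
        exact H.wl (by rw [ry_lt _ hy] at p3; exact p3) (by omega)
      · obtain ⟨u1, v1⟩ := uppM_hi h (x := A.xl) (d := 0) hy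
        obtain ⟨u2, v2⟩ := uppM_hi h (x := A.xl) (y := y + 1) (d := 0) (by omega)
        refine step_hi v1 v2 ?_
        rw [u1, u2, tM_m le_rfl hx, tM_m le_rfl hx]
        simp only [lt_irrefl, and_false, if_false, add_zero, neg_zero]
        have := H.wl (y := 2 * A.y0 - 1 - (y + 1)) (by
          rw [ry_ge _ (by omega)] at p5; exact p5) (by omega)
        rw [show 2 * A.y0 - 1 - (y + 1) + 1 = 2 * A.y0 - 1 - y by ring] at this
        exact this
    · -- ceiling of the copy `true`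
      have e1 : ((x, y) : ℤ × ℤ) + dir ((1 : ZMod 4) + 1) = (x + 1, y) := by
        rw [d4a.2.1, dir2]; simp
      rw [e1] at p2 ⊢
      unfold PosM at p1 p2
      simp only [n01.symm, n12, n13, true_and, false_and, or_false, false_or] at p1 p2
      obtain ⟨rfl, ⟨p3, p4⟩, p5⟩ := p1
      obtain ⟨-, ⟨p6, p7⟩, p8⟩ := p2
      have hy : A.y0 ≤ 2 * A.y0 - A.y1 - 1 := by omega
      obtain ⟨u1, v1⟩ := uppM_hi h (x := x) (d := 1) hy
      obtain ⟨u2, v2⟩ := uppM_hi h (x := x + 1) (d := 1) hy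
      refine step_hi v1 v2 ?_
      rw [u1, u2, ng1]
      have ey : 2 * A.y0 - 1 - (2 * A.y0 - A.y1 - 1) = A.y1 := by ring
      rw [ey]
      rcases p5 with p5 | p5
      · have p9 : x + 1 < A.xl := by omega
        rw [tM_l p5, tM_l p9]
        simp only [p5, p9, true_and, if_true]
        have := H.fl (A.R - (A.xl - (x + 1))) (by omega) (by omega)
        rw [show A.R - (A.xl - (x + 1)) - 1 = A.R - (A.xl - x) by ring] at this
        rw [this]
        ring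
      · have p9 : A.xr < x + 1 := by omega
        have p10 : ¬ x < A.xl := by omega
        have p11 : ¬ x + 1 < A.xl := by omega
        rw [tM_r p5, tM_r p9]
        simp only [p10, p11, and_false, if_false, add_zero]
        have := H.fl (x + 1 - A.xr - 1) (by omega) (by omega)
        rw [show x + 1 - A.xr - 1 - 1 = x - A.xr - 1 by ring] at this
        exact this
    · -- right wall
      have e1 : ((x, y) : ℤ × ℤ) + dir ((2 : ZMod 4) + 1) = (x, y - 1) := by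
        rw [d4a.2.2.1, dir3]; simp [sub_eq_add_neg]
      rw [e1] at p2 ⊢
      unfold PosM at p1 p2
      simp only [n02.symm, n12.symm, n23, true_and, false_and, or_false, false_or] at p1 p2
      obtain ⟨rfl, p3, p4⟩ := p1
      obtain ⟨-, p5, p6⟩ := p2
      have s1 := side_lt p4
      have s2 := side_lt p6
      have n10 : ¬ A.xr < A.xl := by omega
      rcases lt_or_ge y A.y0 with hy | hy
      · obtain ⟨u1, v1⟩ := uppM_lo h (x := A.xr) (d := 2) hy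
        obtain ⟨u2, v2⟩ := uppM_lo h (x := A.xr) (y := y - 1) (d := 2) (by omega)
        refine step_lo v1 v2 ?_
        rw [u1, u2, tM_m hx le_rfl, tM_m hx le_rfl]
        simp only [n10, and_false, if_false, add_zero]
        have := H.wr (y := y - 1) (by rw [ry_lt _ (by omega)] at p5; exact p5) (by omega)
        rw [sub_add_cancel] at this
        exact this
      · obtain ⟨u1, v1⟩ := uppM_hi h (x := A.xr) (d := 2) hy
        obtain ⟨u2, v2⟩ := uppM_hi h (x := A.xr) (y := y - 1) (d := 2) (by omega)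
        refine step_hi v1 v2 ?_
        rw [u1, u2, tM_m hx le_rfl, tM_m hx le_rfl, ng2]
        simp only [n10, and_false, if_false, add_zero]
        have := H.wr (y := 2 * A.y0 - 1 - y) (by
          rw [ry_ge _ hy] at p3; exact p3) (by omega)
        rw [show 2 * A.y0 - 1 - y + 1 = 2 * A.y0 - 1 - (y - 1) by ring] at this
        exact this
    · -- floor of the copy `false`
      have e1 : ((x, y) : ℤ × ℤ) + dir ((3 : ZMod 4) + 1) = (x - 1, y) := by
        rw [d4a.2.2.2, dir0]; simp [sub_eq_add_neg]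
      rw [e1] at p2 ⊢
      unfold PosM at p1 p2
      simp only [n03.symm, n13.symm, n23.symm, true_and, false_and, or_false, false_or] at p1 p2
      obtain ⟨rfl, ⟨p3, p4⟩, p5⟩ := p1
      obtain ⟨-, ⟨p6, p7⟩, p8⟩ := p2
      obtain ⟨u1, v1⟩ := uppM_lo h (x := x) (d := 3) h01
      obtain ⟨u2, v2⟩ := uppM_lo h (x := x - 1) (d := 3) h01
      refine step_lo v1 v2 ?_
      rw [u1, u2]
      rcases p5 with p5 | p5
      · have p9 : x - 1 < A.xl := by omega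
        rw [tM_l p5, tM_l p9]
        simp only [p5, p9, true_and, if_true]
        have := H.fl (A.R - (A.xl - x)) (by omega) (by omega)
        rw [show A.R - (A.xl - x) - 1 = A.R - (A.xl - (x - 1)) by ring] at this
        rw [this]
        ring
      · have p9 : A.xr < x - 1 := by omega
        have p10 : ¬ x < A.xl := by omega
        have p11 : ¬ x - 1 < A.xl := by omega
        rw [tM_r p5, tM_r p9]
        simp only [p10, p11, and_false, if_false, add_zero]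
        have := H.fl (x - A.xr - 1) (by omega) (by omega)
        rw [show x - A.xr - 1 - 1 = x - 1 - A.xr - 1 by ring] at this
        exact this
  | @convex t d h1 h2 h3 b1 b2 b3 =>
    exfalso
    obtain ⟨x, y⟩ := t
    unfold PosM at p1 p2
    simp only at p1 p2
    have q1 : A.y1 ≤ A.ry (2 * A.y0 - A.y1 - 1) := y1_ry.2 (by omega)
    have q2 : A.y1 ≤ A.ry A.y1 := y1_ry.2 (by omega)
    rcases z4 d with rfl | rfl | rfl | rfl
    · simp only [d4a.1, n01, n02, n03, n01.symm, n12, n13, true_and, false_and, or_false,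
        false_or] at p1 p2
      obtain ⟨e, -, -⟩ := p2
      rw [e] at p1
      omega
    · simp only [d4a.2.1, n02.symm, n12.symm, n23, n01.symm, n12, n13, true_and, false_and,
        or_false, false_or] at p1 p2
      obtain ⟨e, -, -⟩ := p1
      rw [e] at p2
      omega
    · simp only [d4a.2.2.1, n02.symm, n12.symm, n23, n03.symm, n13.symm, n23.symm, true_and,
        false_and, or_false, false_or] at p1 p2
      obtain ⟨e, -, -⟩ := p2
      rw [e] at p1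
      omega
    · simp only [d4a.2.2.2, n01, n02, n03, n03.symm, n13.symm, n23.symm, true_and, false_and,
        or_false, false_or] at p1 p2
      obtain ⟨e, -, -⟩ := p1
      rw [e] at p2
      omega
  | @reflex t d h1 h2 h3 h4 b1 b2 b3 b4 =>
    obtain ⟨x, y⟩ := t
    rcases z4 d with rfl | rfl | rfl | rfl
    · -- lower left mouth corner
      have e1 : ((x, y) : ℤ × ℤ) + dir ((0 : ZMod 4) + 1) + dir (0 : ZMod 4) = (x - 1, y + 1) := by
        rw [d4a.1, dir1, dir0]; simp [sub_eq_add_neg]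
      rw [e1, flip0.1] at p2 ⊢
      unfold PosM at p1 p2
      simp only [n01, n02, n03, n03.symm, n13.symm, n23.symm, true_and, false_and, or_false,
        false_or] at p1 p2
      obtain ⟨rfl, p3, p4⟩ := p1
      obtain ⟨p5, -, -⟩ := p2
      obtain rfl : y = A.y1 - 1 := by omega
      rw [sub_add_cancel]
      obtain ⟨u1, v1⟩ := uppM_lo h (x := A.xl) (y := A.y1 - 1) (d := 0) (by omega)
      obtain ⟨u2, v2⟩ := uppM_lo h (x := A.xl - 1) (y := A.y1) (d := 3) h01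
      refine step_lo v1 v2 ?_
      have s1 : A.xl - 1 < A.xl := by omega
      rw [u1, u2, tM_m le_rfl hx, tM_l s1]
      simp only [lt_irrefl, and_false, if_false, s1, and_true, if_true, add_zero]
      rw [show A.R - (A.xl - (A.xl - 1)) = A.R - 1 by ring]
      exact H.ml (by omega)
    · -- upper left mouth corner of the copy `true`
      have e1 : ((x, y) : ℤ × ℤ) + dir ((1 : ZMod 4) + 1) + dir (1 : ZMod 4) = (x + 1, y + 1) := by
        rw [d4a.2.1, dir2, dir1]; simp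
      rw [e1, flip0.2.1] at p2 ⊢
      unfold PosM at p1 p2
      simp only [n01, n02, n03, n01.symm, n12, n13, true_and, false_and, or_false,
        false_or] at p1 p2
      obtain ⟨rfl, ⟨p3, p4⟩, p5⟩ := p1
      obtain ⟨p6, -, -⟩ := p2
      obtain rfl : x = A.xl - 1 := by omega
      rw [sub_add_cancel]
      obtain ⟨u1, v1⟩ := uppM_hi h (x := A.xl - 1) (y := 2 * A.y0 - A.y1 - 1) (d := 1) (by omega)
      obtain ⟨u2, v2⟩ := uppM_hi h (x := A.xl) (y := 2 * A.y0 - A.y1 - 1 + 1) (d := 0) (by omega)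
      refine step_hi v1 v2 ?_
      have s1 : A.xl - 1 < A.xl := by omega
      rw [u1, u2, tM_m le_rfl hx, tM_l s1, ng1]
      simp only [lt_irrefl, and_false, if_false, s1, and_true, if_true, add_zero, neg_zero]
      rw [show A.R - (A.xl - (A.xl - 1)) = A.R - 1 by ring,
        show 2 * A.y0 - 1 - (2 * A.y0 - A.y1 - 1) = A.y1 by ring,
        show 2 * A.y0 - 1 - (2 * A.y0 - A.y1 - 1 + 1) = A.y1 - 1 by ring]
      exact H.ml (by omega)
    · -- upper right mouth corner of the copy `true`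
      have e1 : ((x, y) : ℤ × ℤ) + dir ((2 : ZMod 4) + 1) + dir (2 : ZMod 4) = (x + 1, y - 1) := by
        rw [d4a.2.2.1, dir3, dir2]; simp [sub_eq_add_neg]
      rw [e1, flip0.2.2.1] at p2 ⊢
      unfold PosM at p1 p2
      simp only [n02.symm, n12.symm, n23, n01.symm, n12, n13, true_and, false_and, or_false,
        false_or] at p1 p2
      obtain ⟨rfl, p3, p4⟩ := p1
      obtain ⟨p5, -, -⟩ := p2
      obtain rfl : y = 2 * A.y0 - A.y1 - 1 + 1 := by omega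
      rw [add_sub_cancel_right]
      obtain ⟨u1, v1⟩ := uppM_hi h (x := A.xr) (y := 2 * A.y0 - A.y1 - 1 + 1) (d := 2) (by omega)
      obtain ⟨u2, v2⟩ := uppM_hi h (x := A.xr + 1) (y := 2 * A.y0 - A.y1 - 1) (d := 1) (by omega)
      refine step_hi v1 v2 ?_
      have s1 : A.xr < A.xr + 1 := by omega
      have s2 : ¬ A.xr < A.xl := by omega
      have s3 : ¬ A.xr + 1 < A.xl := by omega
      rw [u1, u2, tM_m hx le_rfl, tM_r s1, ng1, ng2]
      simp only [s2, s3, and_false, if_false, add_zero]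
      rw [show A.xr + 1 - A.xr - 1 = 0 by ring,
        show 2 * A.y0 - 1 - (2 * A.y0 - A.y1 - 1) = A.y1 by ring,
        show 2 * A.y0 - 1 - (2 * A.y0 - A.y1 - 1 + 1) = A.y1 - 1 by ring]
      exact H.mr (by omega)
    · -- lower right mouth corner
      have e1 : ((x, y) : ℤ × ℤ) + dir ((3 : ZMod 4) + 1) + dir (3 : ZMod 4) = (x - 1, y - 1) := by
        rw [d4a.2.2.2, dir0, dir3]; simp [sub_eq_add_neg]
      rw [e1, flip0.2.2.2] at p2 ⊢
      unfold PosM at p1 p2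
      simp only [n02.symm, n12.symm, n23, n03.symm, n13.symm, n23.symm, true_and, false_and,
        or_false, false_or] at p1 p2
      obtain ⟨rfl, ⟨p3, p4⟩, p5⟩ := p1
      obtain ⟨p6, -, -⟩ := p2
      obtain rfl : x = A.xr + 1 := by omega
      rw [add_sub_cancel_right]
      obtain ⟨u1, v1⟩ := uppM_lo h (x := A.xr + 1) (y := A.y1) (d := 3) h01
      obtain ⟨u2, v2⟩ := uppM_lo h (x := A.xr) (y := A.y1 - 1) (d := 2) (by omega)
      refine step_lo v1 v2 ?_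
      have s1 : A.xr < A.xr + 1 := by omega
      have s2 : ¬ A.xr < A.xl := by omega
      have s3 : ¬ A.xr + 1 < A.xl := by omega
      rw [u1, u2, tM_m hx le_rfl, tM_r s1]
      simp only [s2, s3, and_false, if_false, add_zero]
      rw [show A.xr + 1 - A.xr - 1 = 0 by ring]
      exact H.mr (by omega)

/-- step of the chart `3` -/
theorem Cg_stepS (H : ChH A cc cl J) {h : A.Sz ρ} {B : Set (ℤ × ℤ)} (hB : A.Good ρ 3 B)
    {X X' : (ℤ × ℤ) × ZMod 4} {k : ℤ} (hS : Stp ((chf h 3).R : Set (ℤ × ℤ)) B X X' k) :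
    Cg cc cl h 3 X' = Cg cc cl h 3 X + Jc J h 3 X X' := by
  obtain ⟨hX, hX'⟩ := hS.ends
  have p1 := posS hB hX
  have p2 := posS hB hX'
  clear hX hX'
  have h01 := A.h1
  have n01 : (0 : ZMod 4) ≠ 1 := by decide
  have n03 : (0 : ZMod 4) ≠ 3 := by decide
  have n13 : (1 : ZMod 4) ≠ 3 := by decide
  have n21 : (2 : ZMod 4) ≠ 1 := by decide
  have n23 : (2 : ZMod 4) ≠ 3 := by decide
  have n32 : ¬ (3 : Fin 4) = 2 := by decide
  have ng1 : -(1 : ZMod 4) = 3 := by decide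
  cases hS with
  | @flat t d h1 h2 h3 h4 b1 b2 b3 b4 =>
    obtain ⟨x, y⟩ := t
    obtain ⟨⟨p3, p4⟩, p5⟩ := p1
    rcases p5 with ⟨rfl, p5⟩ | ⟨rfl, p5⟩
    · have e1 : ((x, y) : ℤ × ℤ) + dir ((3 : ZMod 4) + 1) = (x - 1, y) := by
        rw [d4a.2.2.2, dir0]; simp [sub_eq_add_neg]
      rw [e1] at p2 ⊢
      obtain ⟨⟨p6, p7⟩, -⟩ := p2
      simp only at p3 p4 p5 p6 p7
      subst p5
      obtain ⟨u1, v1⟩ := uppS_lo h (x := x) (d := 3) h01
      obtain ⟨u2, v2⟩ := uppS_lo h (x := x - 1) (d := 3) h01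
      refine step_lo v1 v2 ?_
      rw [u1, u2]
      simp only [n32, false_and, if_false, add_zero]
      exact H.fl x (by omega) p4
    · have e1 : ((x, y) : ℤ × ℤ) + dir ((1 : ZMod 4) + 1) = (x + 1, y) := by
        rw [d4a.2.1, dir2]; simp
      rw [e1] at p2 ⊢
      obtain ⟨⟨p6, p7⟩, -⟩ := p2
      simp only at p3 p4 p5 p6 p7
      subst p5
      obtain ⟨u1, v1⟩ := uppS_hi h (x := x) (y := 2 * A.y0 - A.y1 - 1) (d := 1) (by omega)
      obtain ⟨u2, v2⟩ := uppS_hi h (x := x + 1) (y := 2 * A.y0 - A.y1 - 1) (d := 1) (by omega)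
      refine step_hi v1 v2 ?_
      rw [u1, u2, ng1, show 2 * A.y0 - 1 - (2 * A.y0 - A.y1 - 1) = A.y1 by ring]
      simp only [n32, false_and, if_false, add_zero]
      have := H.fl (x + 1) (by omega) p7
      rw [add_sub_cancel_right] at this
      exact this
  | @convex t d h1 h2 h3 b1 b2 b3 =>
    exfalso
    obtain ⟨-, p5⟩ := p1
    obtain ⟨-, p6⟩ := p2
    simp only at p5 p6
    rcases p5 with ⟨rfl, -⟩ | ⟨rfl, -⟩
    · rw [d4a.2.2.2] at p6
      rcases p6 with ⟨p6, -⟩ | ⟨p6, -⟩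
      · exact n03 p6
      · exact n01 p6
    · rw [d4a.2.1] at p6
      rcases p6 with ⟨p6, -⟩ | ⟨p6, -⟩
      · exact n23 p6
      · exact n21 p6
  | @reflex t d h1 h2 h3 h4 b1 b2 b3 b4 =>
    exfalso
    obtain ⟨-, p5⟩ := p1
    obtain ⟨-, p6⟩ := p2
    simp only at p5 p6
    rcases p5 with ⟨rfl, -⟩ | ⟨rfl, -⟩
    · rw [flip0.2.2.2] at p6
      rcases p6 with ⟨p6, -⟩ | ⟨p6, -⟩
      · exact n23 p6
      · exact n21 p6
    · rw [flip0.2.1] at p6
      rcases p6 with ⟨p6, -⟩ | ⟨p6, -⟩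
      · exact n03 p6
      · exact n01 p6

/-- **the step of the charges of a chart** -/
theorem Cg_step (H : ChH A cc cl J) {h : A.Sz ρ} {i : Fin 4} {B : Set (ℤ × ℤ)}
    (hB : A.Good ρ i B) {X X' : (ℤ × ℤ) × ZMod 4} {k : ℤ}
    (hS : Stp ((chf h i).R : Set (ℤ × ℤ)) B X X' k) :
    Cg cc cl h i X' = Cg cc cl h i X + Jc J h i X X' := by
  fin_cases i
  · have h1 : Stp (A.H : Set (ℤ × ℤ)) (NM A) X X' k := hS.mono (fun v _ => Iff.rfl) hB
    have h2 := H.st _ _ _ h1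
    have g0 : ¬ ((0 : Fin 4) = 2) := by decide
    refine step_lo (i := 0) rfl rfl ?_
    simp only [g0, false_and, if_false, add_zero]
    exact h2
  · have h1 : Stp (A.H : Set (ℤ × ℤ)) (NM A) (rfx (2 * A.y0 - 1) X') (rfx (2 * A.y0 - 1) X) k := by
      refine Stp.mirror (fun v _ => ?_) (fun v hv => hB v hv) hS
      exact A.mem_rf
    have h2 := H.st _ _ _ h1
    have g0 : ¬ ((1 : Fin 4) = 2) := by decide
    refine step_hi (i := 1) rfl rfl ?_
    simp only [g0, false_and, if_false, add_zero]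
    exact h2
  · exact Cg_stepM H hB hS
  · exact Cg_stepS H hB hS

end half

end Crest.Agent.R158.Lr158
end

-- ▼ part R158/Lr11_158
section

/-!
R158, block Q1d, leaf LR (helper158), part 11: `ChH` for helper857's family.

* `JL m1 m2 e`, `JU b' m1 m2 e` : jumps of the lower and of the reflected upper half
* **`chH_low`**, **`chH_up`**
-/

set_option autoImplicit false

namespace Crest.Agent.R158.Lr158

open Crest.Agent.R158.Sw300 (Port)
open Crest.Agent.R158.Env664 (TG Mac D mem_D Run CutAdj Adj4 lowT upT Band)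
open Crest.Agent.R158.Pt266 (dir RFree FFree rfree_full NxT nx_flat nx_convex nx_reflex adj_dir)
open Crest.Agent.R158.Ka470
open Crest.Agent.R158.Ka470.Half
open Crest.Agent.R158.Xr249 (full mem_lowT low_step)
open Crest.Agent.R158.Rf896 (rA rB rz rp rt mem_rA rz_rz rp_some)
open Crest.Agent.R158.Fm857 (psD rD isLow blkG innG pG isLS clow ctw phi cb cp ge1 gt1 low1 freeG
  freeD flr cil mem_flr mem_cil mouth)

/-- steps of a part are steps of the boundary -/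
theorem stp_nx {A : Finset (ℤ × ℤ)} {R B : Set (ℤ × ℤ)} (hA : ∀ v ∈ R, v ∈ B → v ∈ A)
    (hN : ∀ v ∈ R, v ∈ B → ∀ e : ZMod 4, v + dir e ∈ B → v + dir e ∉ R → v + dir e ∉ A)
    {X X' : (ℤ × ℤ) × ZMod 4} {k : ℤ} (h : Stp R B X X' k) :
    FFree A X ∧ FFree A X' ∧ NxT (full A).gl (some X) (some X') k ∧ (X.1 ∈ R ∧ X.1 ∈ B) ∧
      X'.1 ∈ R ∧ X'.1 ∈ B := by
  cases h with
  | @flat t d h1 h2 h3 h4 b1 b2 b3 b4 =>
    exact ⟨⟨hA _ h1 b1, hN _ h1 b1 _ b3 h3⟩, ⟨hA _ h2 b2, hN _ h2 b2 _ b4 h4⟩,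
      nx_flat (hA _ h1 b1) (hA _ h2 b2) (hN _ h2 b2 _ b4 h4), ⟨h1, b1⟩, h2, b2⟩
  | @convex t d h1 h2 h3 b1 b2 b3 =>
    exact ⟨⟨hA _ h1 b1, hN _ h1 b1 _ b2 h2⟩, ⟨hA _ h1 b1, hN _ h1 b1 _ b3 h3⟩,
      nx_convex (hN _ h1 b1 _ b3 h3), ⟨h1, b1⟩, h1, b1⟩
  | @reflex t d h1 h2 h3 h4 b1 b2 b3 b4 =>
    have e1 : t + dir (d + 1) + dir d + dir (d + 3) = t + dir d := by
      have : ∀ d : ZMod 4, dir (d + 1) + dir d + dir (d + 3) = dir d := by decide
      rw [add_assoc, add_assoc, ← add_assoc (dir (d + 1)), this]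
    exact ⟨⟨hA _ h1 b1, hN _ h1 b1 _ b4 h4⟩,
      ⟨hA _ h3 b3, by show t + dir (d + 1) + dir d + dir (d + 3) ∉ A; rw [e1]; exact hN _ h1 b1 _ b4 h4⟩,
      nx_reflex (hA _ h1 b1) (hA _ h2 b2) (hA _ h3 b3) (hN _ h1 b1 _ b4 h4), ⟨h1, b1⟩, h3, b3⟩

theorem no_mouth {M : Mac} {L a b c y0 : ℤ} {A : Finset (ℤ × ℤ)} {B : Band A}
    {Al Au : Finset (ℤ × ℤ)} (h : LB M L a b c y0 B Al Au) (hy : B.y2 ≤ c * L + L) {v : ℤ × ℤ}
    (hH : v ∈ (lowHalf h.d).H) (hm : ¬ (lowHalf h.d).Mou v) :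
    ¬ (B.y1 ≤ v.2 ∧ v.2 < B.y2 ∧ (v.1 = B.xl ∨ v.1 = B.xr)) := by
  rintro ⟨h1, h2, h3⟩
  have exl : (lowHalf h.d).xl = B.xl := h.xl.symm
  have exr : (lowHalf h.d).xr = B.xr := h.xr.symm
  have hx := (lowHalf h.d).hx
  rw [exl, exr] at hx
  by_cases h4 : v.2 < y0
  · apply hm
    refine ⟨⟨⟨?_, ?_⟩, h1, h4⟩, ?_⟩
    · rw [exl]; omega
    · rw [exr]; omega
    · rw [exl, exr]; tauto
  · refine h.d.top (x := v.1) (y := v.2) (by omega) (by omega) ?_ ?_ hH
    · rw [← h.xl]; omega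
    · rw [← h.xr]; omega

variable {M : Mac} {L a b c : ℤ} {B : Band (D M.F L)}

/-- jumps of the lower half -/
def JL (m1 m2 : Port TG) (e : Option (Port TG)) (X X' : TG × ZMod 4) : ℤ :=
  Jn m1 m2 e (some X) (some X')

/-- the far gap -/
def jb (b' : ℤ) : TG × ZMod 4 → ℤ
  | (Sum.inl _, _) => 0
  | (Sum.inr v, _) => if v.1 = b' then 1 else 0

/-- jumps of the reflected upper half -/
def JU (b' : ℤ) (m1 m2 : Port TG) (e : Option (Port TG)) (X X' : TG × ZMod 4) : ℤ :=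
  Jn m1 m2 e (rp (some X')) (rp (some X)) - jb b' X

/-- membership of the ends of the lower half in `freeG` -/
theorem fG_low (m : MB M L a b c B) {t : ℤ × ℤ} {d : ZMod 4} (h1 : FFree (D M.F L) (t, d))
    (h2 : ¬ (B.y1 ≤ t.2 ∧ t.2 < B.y2 ∧ (t.1 = B.xl ∨ t.1 = B.xr))) :
    some (Sum.inl t, d) ∈ freeG B := by
  refine mem_freeG'.2 (Or.inl ⟨t, d, rfl, h1, ?_⟩)
  obtain ⟨x, y⟩ := t
  rintro ⟨⟨h3, h4⟩, ⟨-, h5⟩ | ⟨-, h5⟩⟩
  · exact h2 ⟨h3, h4, Or.inl h5⟩
  · exact h2 ⟨h3, h4, Or.inr h5⟩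

/-- step of `cb` along the ends of `D` -/
theorem cb_D (m : MB M L a b c B) (b' : ℤ) {m1 m2 : Port TG} {e : Option (Port TG)}
    (hm : Mks B m1 m2 e) {X X' : (ℤ × ℤ) × ZMod 4} {k : ℤ} (h1 : FFree (D M.F L) X)
    (h2 : FFree (D M.F L) X') (h3 : NxT (full (D M.F L)).gl (some X) (some X') k)
    (h4 : ¬ (B.y1 ≤ X.1.2 ∧ X.1.2 < B.y2 ∧ (X.1.1 = B.xl ∨ X.1.1 = B.xr)))
    (h5 : ¬ (B.y1 ≤ X'.1.2 ∧ X'.1.2 < B.y2 ∧ (X'.1.1 = B.xl ∨ X'.1.1 = B.xr))) :
    cp B b' m1 m2 e (some (Sum.inl X'.1, X'.2)) = cp B b' m1 m2 e (some (Sum.inl X.1, X.2)) +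
      Jn m1 m2 e (some (Sum.inl X.1, X.2)) (some (Sum.inl X'.1, X'.2)) := by
  obtain ⟨w, l, hw⟩ := mb_bw m
  have g1 := m.h1
  have g2 := m.h2
  have g3 := m.hy
  rw [cp_LS isLS_l, cp_LS isLS_l]
  refine cb_suc (suc_D hw (ff_r m (by omega) (by omega)) (fG_low m h1 h4) (fG_low m h2 h5) h3
    ?_ ?_) hm.h1 hm.h2 hm.he
  · rintro rfl
    exact h5 ⟨le_rfl, g3, Or.inl rfl⟩
  · rintro rfl
    exact h4 ⟨le_rfl, g3, Or.inr rfl⟩

/-- **charges of the lower half** -/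
theorem chH_low (m : MB M L a b c B) {y0 : ℤ} (h1 : B.y1 < y0) (h2 : y0 ≤ B.y2) {b' : ℤ}
    (hb1 : 0 < b') (hb2 : b' < B.R) {m1 m2 : Port TG} {e : Option (Port TG)}
    (hm : Mks B m1 m2 e) :
    ChH (lowHalf (lb_low m h1 h2).d) (fun q => cp B b' m1 m2 e (some q)) (clow B b' m1 m2 e)
      (JL m1 m2 e) where
  st X X' k h := by
    obtain ⟨k1, k2, k3, k4, k5⟩ := stp_nx (A := D M.F L) (fun v hv _ => (mem_lowT.1 hv).1)
      (fun v hv hn e _ he hD => he (H_adj (lb_low m h1 h2).d hv hn hD (adj_dir v e))) h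
    have g2 := m.h2
    exact cb_D m b' hm k1 k2 k3 (no_mouth (lb_low m h1 h2) g2.le k4.1 k4.2)
      (no_mouth (lb_low m h1 h2) g2.le k5.1 k5.2)
  fl i hi1 hi2 := by
    obtain ⟨w, l, hw⟩ := mb_bw m
    exact cp_fl hw hm hi1 hi2
  ml _ := by
    have exl : (lowHalf (lb_low m h1 h2).d).xl = B.xl := m.xl.symm
    rw [exl]
    exact cp_ml m hb2 hm
  mr _ := by
    have exr : (lowHalf (lb_low m h1 h2).d).xr = B.xr := m.xr.symm
    rw [exr]
    exact cp_mr m hb1 hm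

/-- **charges of the reflected upper half** -/
theorem chH_up (m : MB M L a b c B) {y0 : ℤ} (h1 : -B.y2 < y0) (h2 : y0 ≤ -B.y1) {b' : ℤ}
    (hb1 : 0 < b') (hb2 : b' < B.R) {m1 m2 : Port TG} {e : Option (Port TG)}
    (hm : Mks B m1 m2 e) :
    ChH (lowHalf (lb_up m h1 h2).d) (ccU B b' m1 m2 e) (-(clow B b' m1 m2 e + 1))
      (JU b' m1 m2 e) where
  st X X' k h := by
    set d := (lb_up m h1 h2).d with hd
    have hDr : D M.rf.F L = rA (D M.F L) := Rf896.D_rA m.hL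
    have hr : ∀ v : ℤ × ℤ, (v.1, -1 - v.2) = rz v := fun v => by
      unfold rz
      rw [show -1 - v.2 = -v.2 - 1 by ring]
    have hs : Stp {v | rz v ∈ (lowHalf d).H} {v | rz v ∈ NM (lowHalf d)} (rfx (-1) X')
        (rfx (-1) X) k := by
      refine Stp.mirror (c := -1) ?_ ?_ h
      · intro v _
        rw [hr, Set.mem_ofPred_eq, rz_rz]
        exact Finset.mem_coe
      · intro v hv
        rw [hr, Set.mem_ofPred_eq, rz_rz]
        exact hv
    rw [rfx_rz, rfx_rz] at hs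
    obtain ⟨k1, k2, k3, k4, k5⟩ := stp_nx (A := D M.F L) (fun v hv _ => by
        have h3 : rz v ∈ D M.rf.F L := (mem_lowT.1 hv).1
        rw [hDr, mem_rA, rz_rz] at h3
        exact h3) (fun v hv hn e _ he hD => by
        apply he
        have h3 : rz (v + dir e) ∈ D M.rf.F L := by rw [hDr, mem_rA, rz_rz]; exact hD
        refine H_adj d hv hn h3 ?_
        rw [dirZ]
        exact adj_dir _ _) hs
    have g1 := m.h1
    have g2 := m.h2
    have g3 := m.hy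
    have nm : ∀ v : ℤ × ℤ, rz v ∈ (lowHalf d).H → rz v ∈ NM (lowHalf d) →
        ¬ (B.y1 ≤ v.2 ∧ v.2 < B.y2 ∧ (v.1 = B.xl ∨ v.1 = B.xr)) := by
      rintro v h3 h4 ⟨h5, h6, h7⟩
      refine no_mouth (lb_up m h1 h2) ?_ h3 h4 ⟨?_, ?_, h7⟩
      · show -B.y1 ≤ (-c - 1) * L + L
        have : (-c - 1) * L + L = -(c * L) := by ring
        omega
      · show -B.y2 ≤ -v.2 - 1
        omega
      · show -v.2 - 1 < -B.y1
        omega
    have key := cb_D m b' hm k1 k2 k3 (nm _ k4.1 k4.2) (nm _ k5.1 k5.2)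
    show 1 - cp B b' m1 m2 e (rp (some (Sum.inl X'.1, X'.2))) =
      1 - cp B b' m1 m2 e (rp (some (Sum.inl X.1, X.2))) +
        (Jn m1 m2 e (rp (some (Sum.inl X'.1, X'.2))) (rp (some (Sum.inl X.1, X.2))) - 0)
    have e1 : rp (some (Sum.inl X'.1, X'.2)) = some (Sum.inl (rz X'.1), -X'.2) := rfl
    have e2 : rp (some (Sum.inl X.1, X.2)) = some (Sum.inl (rz X.1), -X.2) := rfl
    rw [e1, e2]
    simp only at key
    omega
  fl i hi1 hi2 := by
    obtain ⟨w, l, hw⟩ := mb_bw m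
    have hi3 : i < B.R + 1 := hi2
    have hi4 : i - 1 < B.R := by omega
    have key := cp_cl (b := b') hw hm (i := i - 1) (by omega) hi4
    rw [sub_add_cancel] at key
    have n31 : -(3 : ZMod 4) = 1 := by decide
    have e1 : rp (some (Sum.inr (i - 1, -B.y2), 3)) = some (Sum.inr (i - 1, B.y2 - 1), 1) := by
      rw [rp_some, n31]
      show some (Sum.inr (i - 1, - -B.y2 - 1), 1) = _
      rw [neg_neg]
    have e2 : rp (some (Sum.inr (i, -B.y2), 3)) = some (Sum.inr (i, B.y2 - 1), 1) := by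
      rw [rp_some, n31]
      show some (Sum.inr (i, - -B.y2 - 1), 1) = _
      rw [neg_neg]
    show (if i - 1 < b' then 1 else 2) - cp B b' m1 m2 e (rp (some (Sum.inr (i - 1, -B.y2), 3))) =
      (if i < b' then 1 else 2) - cp B b' m1 m2 e (rp (some (Sum.inr (i, -B.y2), 3))) +
        (Jn m1 m2 e (rp (some (Sum.inr (i - 1, -B.y2), 3))) (rp (some (Sum.inr (i, -B.y2), 3))) -
          if i = b' then 1 else 0)
    rw [e1, e2, key]
    split_ifs <;> omega
  ml _ := by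
    have key := cp_ul m hb2 hm
    have n31 : -(3 : ZMod 4) = 1 := by decide
    have e1 : rp (some (Sum.inr (B.R + 1 - 1, -B.y2), 3)) = some (Sum.inr (B.R, B.y2 - 1), 1) := by
      rw [rp_some, n31]
      show some (Sum.inr (B.R + 1 - 1, - -B.y2 - 1), 1) = _
      rw [neg_neg, add_sub_cancel_right]
    have e2 : rp (some (Sum.inl (B.xl, -B.y2 - 1), 0)) = some (Sum.inl (B.xl, B.y2), 0) := by
      rw [rp_some]
      show some (Sum.inl (B.xl, -(-B.y2 - 1) - 1), -0) = _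
      rw [neg_zero, show -(-B.y2 - 1) - 1 = B.y2 by ring]
    have exl : (lowHalf (lb_up m h1 h2).d).xl = B.xl := m.xl.symm
    rw [exl]
    show (if B.R + 1 - 1 < b' then 1 else 2) -
        cp B b' m1 m2 e (rp (some (Sum.inr (B.R + 1 - 1, -B.y2), 3))) +
          -(clow B b' m1 m2 e + 1) =
      1 - cp B b' m1 m2 e (rp (some (Sum.inl (B.xl, -B.y2 - 1), 0))) +
        (Jn m1 m2 e (rp (some (Sum.inr (B.R + 1 - 1, -B.y2), 3)))
          (rp (some (Sum.inl (B.xl, -B.y2 - 1), 0))) - 0)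
    rw [e1, e2, key, if_neg (by omega)]
    ring
  mr _ := by
    have key := cp_ur m hb1 hm
    have n31 : -(3 : ZMod 4) = 1 := by decide
    have n22 : -(2 : ZMod 4) = 2 := by decide
    have e1 : rp (some (Sum.inr (0, -B.y2), 3)) = some (Sum.inr (0, B.y2 - 1), 1) := by
      rw [rp_some, n31]
      show some (Sum.inr (0, - -B.y2 - 1), 1) = _
      rw [neg_neg]
    have e2 : rp (some (Sum.inl (B.xr, -B.y2 - 1), 2)) = some (Sum.inl (B.xr, B.y2), 2) := by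
      rw [rp_some, n22]
      show some (Sum.inl (B.xr, -(-B.y2 - 1) - 1), 2) = _
      rw [show -(-B.y2 - 1) - 1 = B.y2 by ring]
    have exr : (lowHalf (lb_up m h1 h2).d).xr = B.xr := m.xr.symm
    rw [exr]
    show 1 - cp B b' m1 m2 e (rp (some (Sum.inl (B.xr, -B.y2 - 1), 2))) =
      (if (0 : ℤ) < b' then 1 else 2) -
        cp B b' m1 m2 e (rp (some (Sum.inr (0, -B.y2), 3))) +
        (Jn m1 m2 e (rp (some (Sum.inl (B.xr, -B.y2 - 1), 2))) (rp (some (Sum.inr (0, -B.y2), 3))) -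
          if (0 : ℤ) = b' then 1 else 0)
    rw [e1, e2, key, if_pos hb1, if_neg (by omega)]
    ring

end Crest.Agent.R158.Lr158
end

-- ▼ part R158/Lr12_158
section

/-!
R158, block Q1d, leaf LR (helper158), part 12: charges across the standard patterns (Nz8's `Chg`).

* `stp_pl` : steps of the standard quadrant patterns, rotated and translated into a chart
* `step_fe`, `step_we`, `step_cv`, `step_rf`
* `NoJ J h i B` : no jump of the charge along the steps inside `B`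
* **`chg_cv`**, **`chg_rf`**, `fe_const`, **`fe_jump`**, `chg_mk`, `chg_e2`, `chg_e1`
* **`noJ_low`**, **`noJ_up`**
-/

set_option autoImplicit false

namespace Crest.Agent.R158.Lr158

open Crest.Agent.R158.Sw300 (Port)
open Crest.Agent.R158.Env664 (TG Mac D Band)
open Crest.Agent.R158.Pt266 (dir)
open Crest.Agent.R158.Ka470
open Crest.Agent.R158.Ka470.Half
open Crest.Agent.R158.Nz399 (Kind qd patK patK_pl pl pl_Bv fe we Chg)
open Crest.Agent.R158.Rf896 (rp)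

/-- standard box -/
def Q0 (N : ℕ) : Set (ℤ × ℤ) := {v | (-(N : ℤ) ≤ v.1 ∧ v.1 < N) ∧ -(N : ℤ) ≤ v.2 ∧ v.2 < N}

/-- **steps of the standard patterns** -/
theorem stp_pl {R : Finset (ℤ × ℤ)} {N : ℕ} {p : ℤ × ℤ} {k : Kind} {g : ℕ}
    (hP : Patt R (Bv N p) p (patK k g)) {X X' : (ℤ × ℤ) × ZMod 4} {n : ℤ}
    (h : Stp {v | qd k v} (Q0 N) X X' n) :
    Stp (R : Set (ℤ × ℤ)) (Bv N p) (pl g p X.1, X.2 - g) (pl g p X'.1, X'.2 - g) n := by
  have mem : ∀ v ∈ Q0 N, (pl g p v ∈ R ↔ qd k v) := fun v hv => by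
    rw [hP _ (pl_Bv g p hv), patK_pl]
  have bx : ∀ v ∈ Q0 N, pl g p v ∈ Bv N p := fun v hv => pl_Bv g p hv
  have a1 : ∀ v ∈ Q0 N, v ∈ {v | qd k v} → pl g p v ∈ (R : Set (ℤ × ℤ)) := fun v hv h' =>
    (mem v hv).2 h'
  have a2 : ∀ v ∈ Q0 N, v ∉ {v | qd k v} → pl g p v ∉ (R : Set (ℤ × ℤ)) := fun v hv h' h'' =>
    h' ((mem v hv).1 h'')
  cases h with
  | @flat t d h1 h2 h3 h4 b1 b2 b3 b4 =>
    have e1 : pl g p (t + dir (d + 1)) = pl g p t + dir (d - g + 1) := by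
      rw [Ne808.pl_dir]; congr 2; ring
    have e2 : pl g p (t + dir d) = pl g p t + dir (d - g) := Ne808.pl_dir _ _ _ _
    have e3 : pl g p (t + dir (d + 1) + dir d) = pl g p t + dir (d - g + 1) + dir (d - g) := by
      rw [Ne808.pl_dir, e1]
    show Stp (R : Set (ℤ × ℤ)) (Bv N p) (pl g p t, d - g) (pl g p (t + dir (d + 1)), d - g) 0
    have k2 := a1 _ b2 h2
    have k3 := a2 _ b3 h3
    have k4 := a2 _ b4 h4
    have c2 := bx _ b2
    have c3 := bx _ b3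
    have c4 := bx _ b4
    rw [e1] at k2 c2 ⊢
    rw [e2] at k3 c3
    rw [e3] at k4 c4
    exact .flat (a1 _ b1 h1) k2 k3 k4 (bx _ b1) c2 c3 c4
  | @convex t d h1 h2 h3 b1 b2 b3 =>
    have e1 : pl g p (t + dir (d + 1)) = pl g p t + dir (d - g + 1) := by
      rw [Ne808.pl_dir]; congr 2; ring
    have e2 : pl g p (t + dir d) = pl g p t + dir (d - g) := Ne808.pl_dir _ _ _ _
    have e4 : d + 1 - (g : ZMod 4) = d - g + 1 := by ring
    show Stp (R : Set (ℤ × ℤ)) (Bv N p) (pl g p t, d - g) (pl g p t, d + 1 - g) 1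
    rw [e4]
    have k2 := a2 _ b2 h2
    have k3 := a2 _ b3 h3
    have c2 := bx _ b2
    have c3 := bx _ b3
    rw [e2] at k2 c2
    rw [e1] at k3 c3
    exact .convex (a1 _ b1 h1) k2 k3 (bx _ b1) c2 c3
  | @reflex t d h1 h2 h3 h4 b1 b2 b3 b4 =>
    have e1 : pl g p (t + dir (d + 1)) = pl g p t + dir (d - g + 1) := by
      rw [Ne808.pl_dir]; congr 2; ring
    have e2 : pl g p (t + dir d) = pl g p t + dir (d - g) := Ne808.pl_dir _ _ _ _
    have e3 : pl g p (t + dir (d + 1) + dir d) = pl g p t + dir (d - g + 1) + dir (d - g) := by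
      rw [Ne808.pl_dir, e1]
    have e4 : d + 3 - (g : ZMod 4) = d - g + 3 := by ring
    show Stp (R : Set (ℤ × ℤ)) (Bv N p) (pl g p t, d - g)
      (pl g p (t + dir (d + 1) + dir d), d + 3 - g) (-1)
    rw [e4]
    have k2 := a1 _ b2 h2
    have k3 := a1 _ b3 h3
    have k4 := a2 _ b4 h4
    have c2 := bx _ b2
    have c3 := bx _ b3
    have c4 := bx _ b4
    rw [e1] at k2 c2
    rw [e3] at k3 c3 ⊢
    rw [e2] at k4 c4
    exact .reflex (a1 _ b1 h1) k2 k3 k4 (bx _ b1) c2 c3 c4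

section chart

variable {A : Half} {ρ : ℕ} {h : A.Sz ρ} {i : Fin 4} {g N : ℕ} {p : ℤ × ℤ}

/-- floor -/
theorem step_fe {k : Kind} (hP : Patt (chf h i).R (Bv N p) p (patK k g)) {x : ℤ} (hN : 1 ≤ N)
    (h1 : -(N : ℤ) ≤ x - 1) (h2 : x < N) (q1 : qd k (x, 0)) (q2 : qd k (x - 1, 0))
    (q3 : ¬ qd k (x, -1)) (q4 : ¬ qd k (x - 1, -1)) :
    Stp ((chf h i).R : Set (ℤ × ℤ)) (Bv N p) (fe g p x) (fe g p (x - 1)) 0 := by
  have hN' : (1 : ℤ) ≤ N := by exact_mod_cast hN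
  have e1 : ((x, 0) : ℤ × ℤ) + dir ((3 : ZMod 4) + 1) = (x - 1, 0) := by
    rw [d4a.2.2.2, dir0]; simp [sub_eq_add_neg]
  have e2 : ((x, 0) : ℤ × ℤ) + dir (3 : ZMod 4) = (x, -1) := by rw [dir3]; simp
  have e3 : ((x - 1, 0) : ℤ × ℤ) + dir (3 : ZMod 4) = (x - 1, -1) := by rw [dir3]; simp
  have hs : Stp {v | qd k v} (Q0 N) ((x, 0), 3) ((x, 0) + dir ((3 : ZMod 4) + 1), 3) 0 := by
    refine .flat q1 ?_ ?_ ?_ ?_ ?_ ?_ ?_
    · rw [e1]; exact q2
    · rw [e2]; exact q3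
    · rw [e1, e3]; exact q4
    · unfold Q0; simp only [Set.mem_ofPred_eq]; omega
    · rw [e1]; unfold Q0; simp only [Set.mem_ofPred_eq]; omega
    · rw [e2]; unfold Q0; simp only [Set.mem_ofPred_eq]; omega
    · rw [e1, e3]; unfold Q0; simp only [Set.mem_ofPred_eq]; omega
  have := stp_pl hP hs
  rw [e1] at this
  exact this

/-- wall -/
theorem step_we {k : Kind} (hP : Patt (chf h i).R (Bv N p) p (patK k g)) {y : ℤ} (hN : 1 ≤ N)
    (h1 : -(N : ℤ) ≤ y) (h2 : y + 1 < N) (q1 : qd k (0, y)) (q2 : qd k (0, y + 1))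
    (q3 : ¬ qd k (-1, y)) (q4 : ¬ qd k (-1, y + 1)) :
    Stp ((chf h i).R : Set (ℤ × ℤ)) (Bv N p) (we g p y) (we g p (y + 1)) 0 := by
  have hN' : (1 : ℤ) ≤ N := by exact_mod_cast hN
  have e1 : ((0, y) : ℤ × ℤ) + dir ((0 : ZMod 4) + 1) = (0, y + 1) := by
    rw [d4a.1, dir1]; simp
  have e2 : ((0, y) : ℤ × ℤ) + dir (0 : ZMod 4) = (-1, y) := by rw [dir0]; simp
  have e3 : ((0, y + 1) : ℤ × ℤ) + dir (0 : ZMod 4) = (-1, y + 1) := by rw [dir0]; simp
  have hs : Stp {v | qd k v} (Q0 N) ((0, y), 0) ((0, y) + dir ((0 : ZMod 4) + 1), 0) 0 := by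
    refine .flat q1 ?_ ?_ ?_ ?_ ?_ ?_ ?_
    · rw [e1]; exact q2
    · rw [e2]; exact q3
    · rw [e1, e3]; exact q4
    · unfold Q0; simp only [Set.mem_ofPred_eq]; omega
    · rw [e1]; unfold Q0; simp only [Set.mem_ofPred_eq]; omega
    · rw [e2]; unfold Q0; simp only [Set.mem_ofPred_eq]; omega
    · rw [e1, e3]; unfold Q0; simp only [Set.mem_ofPred_eq]; omega
  have := stp_pl hP hs
  rw [e1] at this
  have e4 : ∀ y, we g p y = (pl g p (0, y), 0 - (g : ZMod 4)) := fun y => by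
    unfold we; rw [zero_sub]
  rw [e4, e4]
  exact this

/-- convex corner -/
theorem step_cv (hP : Patt (chf h i).R (Bv N p) p (patK .cv g)) (hN : 1 ≤ N) :
    Stp ((chf h i).R : Set (ℤ × ℤ)) (Bv N p) (fe g p 0) (we g p 0) 1 := by
  have hN' : (1 : ℤ) ≤ N := by exact_mod_cast hN
  have e1 : ((0, 0) : ℤ × ℤ) + dir ((3 : ZMod 4) + 1) = (-1, 0) := by
    rw [d4a.2.2.2, dir0]; simp
  have e2 : ((0, 0) : ℤ × ℤ) + dir (3 : ZMod 4) = (0, -1) := by rw [dir3]; simp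
  have hs : Stp {v | qd .cv v} (Q0 N) ((0, 0), 3) ((0, 0), (3 : ZMod 4) + 1) 1 := by
    refine .convex ?_ ?_ ?_ ?_ ?_ ?_
    · simp [qd]
    · rw [e2]; simp [qd]
    · rw [e1]; simp [qd]
    · unfold Q0; simp only [Set.mem_ofPred_eq]; omega
    · rw [e2]; unfold Q0; simp only [Set.mem_ofPred_eq]; omega
    · rw [e1]; unfold Q0; simp only [Set.mem_ofPred_eq]; omega
  have := stp_pl hP hs
  have e4 : we g p 0 = (pl g p (0, 0), (3 : ZMod 4) + 1 - (g : ZMod 4)) := by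
    unfold we; rw [d4a.2.2.2, zero_sub]
  rw [e4]
  exact this

/-- reflex corner -/
theorem step_rf (hP : Patt (chf h i).R (Bv N p) p (patK .rf g)) (hN : 1 ≤ N) :
    Stp ((chf h i).R : Set (ℤ × ℤ)) (Bv N p) (we g p (-1)) (fe g p (-1)) (-1) := by
  have hN' : (1 : ℤ) ≤ N := by exact_mod_cast hN
  have e1 : ((0, -1) : ℤ × ℤ) + dir ((0 : ZMod 4) + 1) = (0, 0) := by
    rw [d4a.1, dir1]; simp
  have e2 : ((0, -1) : ℤ × ℤ) + dir (0 : ZMod 4) = (-1, -1) := by rw [dir0]; simp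
  have e3 : ((0, 0) : ℤ × ℤ) + dir (0 : ZMod 4) = (-1, 0) := by rw [dir0]; simp
  have hs : Stp {v | qd .rf v} (Q0 N) ((0, -1), 0)
      ((0, -1) + dir ((0 : ZMod 4) + 1) + dir (0 : ZMod 4), (0 : ZMod 4) + 3) (-1) := by
    refine .reflex ?_ ?_ ?_ ?_ ?_ ?_ ?_ ?_
    · simp [qd]
    · rw [e1]; simp [qd]
    · rw [e1, e3]; simp [qd]
    · rw [e2]; simp [qd]
    · unfold Q0; simp only [Set.mem_ofPred_eq]; omega
    · rw [e1]; unfold Q0; simp only [Set.mem_ofPred_eq]; omega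
    · rw [e1, e3]; unfold Q0; simp only [Set.mem_ofPred_eq]; omega
    · rw [e2]; unfold Q0; simp only [Set.mem_ofPred_eq]; omega
  have := stp_pl hP hs
  rw [e1, e3] at this
  have e4 : we g p (-1) = (pl g p (0, -1), 0 - (g : ZMod 4)) := by
    unfold we; rw [zero_sub]
  have e5 : fe g p (-1) = (pl g p (-1, 0), (0 : ZMod 4) + 3 - (g : ZMod 4)) := by
    unfold fe; rw [flip0.1]
  rw [e4, e5]
  exact this

variable {cc : TG × ZMod 4 → ℤ} {cl : ℤ} {J : TG × ZMod 4 → TG × ZMod 4 → ℤ}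

/-- no jump along the steps inside `B` -/
def NoJ (J : TG × ZMod 4 → TG × ZMod 4 → ℤ) (h : A.Sz ρ) (i : Fin 4) (B : Set (ℤ × ℤ)) : Prop :=
  ∀ X X' k, Stp ((chf h i).R : Set (ℤ × ℤ)) B X X' k → Jc J h i X X' = 0

/-- floor: the jumps add up -/
theorem fe_run {k : Kind} (H : ChH A cc cl J) (hB : A.Good ρ i (Bv N p))
    (hP : Patt (chf h i).R (Bv N p) p (patK k g)) (hN : 1 ≤ N) {a : ℤ} (ha : a < N) : ∀ n : ℕ,
    -(N : ℤ) ≤ a - n → (∀ x, a - n ≤ x → x ≤ a → qd k (x, 0) ∧ ¬ qd k (x, -1)) →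
    Cg cc cl h i (fe g p (a - n)) = Cg cc cl h i (fe g p a) +
      ∑ j ∈ Finset.range n, Jc J h i (fe g p (a - j)) (fe g p (a - j - 1)) := by
  intro n
  induction n with
  | zero => intro _ _; simp
  | succ n ih =>
    intro h1 hq
    push_cast at h1 hq ⊢
    have h2 := ih (by omega) fun x hx1 hx2 => hq x (by omega) hx2
    have q1 := hq (a - n) (by omega) (by omega)
    have q2 := hq (a - n - 1) (by omega) (by omega)
    have h3 := step_fe (h := h) (i := i) hP hN (x := a - n) (by omega) (by omega) q1.1 q2.1 q1.2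
      q2.2
    rw [Finset.sum_range_succ, ← add_assoc, ← h2, ← Cg_step H hB h3]
    congr 2
    ring

/-- floor: no jump -/
theorem fe_const {k : Kind} (H : ChH A cc cl J) (hB : A.Good ρ i (Bv N p))
    (hP : Patt (chf h i).R (Bv N p) p (patK k g)) (hN : 1 ≤ N) {a b : ℤ} (ha : a < N)
    (hb : -(N : ℤ) ≤ b) (hab : b ≤ a) (hq : ∀ x, b ≤ x → x ≤ a → qd k (x, 0) ∧ ¬ qd k (x, -1))
    (hJ : ∀ x, b < x → x ≤ a → Jc J h i (fe g p x) (fe g p (x - 1)) = 0) :
    Cg cc cl h i (fe g p b) = Cg cc cl h i (fe g p a) := by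
  obtain ⟨n, hn⟩ := Int.eq_ofNat_of_zero_le (a := a - b) (by omega)
  obtain rfl : b = a - n := by omega
  rw [fe_run H hB hP hN ha n hb hq]
  rw [Finset.sum_eq_zero, add_zero]
  intro j hj
  rw [Finset.mem_range] at hj
  exact hJ _ (by omega) (by omega)


/-- wall: the charge is constant -/
theorem we_const {k : Kind} (H : ChH A cc cl J) (hB : A.Good ρ i (Bv N p))
    (hP : Patt (chf h i).R (Bv N p) p (patK k g)) (hN : 1 ≤ N) {a b : ℤ} (ha : a < N)
    (hb : -(N : ℤ) ≤ b) (hab : b ≤ a) (hq : ∀ y, b ≤ y → y ≤ a → qd k (0, y) ∧ ¬ qd k (-1, y))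
    (hJ : ∀ y, b ≤ y → y < a → Jc J h i (we g p y) (we g p (y + 1)) = 0) :
    Cg cc cl h i (we g p a) = Cg cc cl h i (we g p b) := by
  have key : ∀ n : ℕ, b + n ≤ a → Cg cc cl h i (we g p (b + n)) = Cg cc cl h i (we g p b) := by
    intro n
    induction n with
    | zero => intro _; simp
    | succ n ih =>
      intro h1
      push_cast at h1 ⊢
      have q1 := hq (b + n) (by omega) (by omega)
      have q2 := hq (b + n + 1) (by omega) (by omega)
      have h3 := step_we (h := h) (i := i) hP hN (y := b + n) (by omega) (by omega) q1.1 q2.1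
        q1.2 q2.2
      rw [← add_assoc, Cg_step H hB h3, hJ _ (by omega) (by omega), add_zero, ih (by omega)]
  obtain ⟨n, hn⟩ := Int.eq_ofNat_of_zero_le (a := a - b) (by omega)
  obtain rfl : a = b + n := by omega
  exact key n le_rfl

/-- **convex corner** -/
theorem chg_cv (H : ChH A cc cl J) (hB : A.Good ρ i (Bv N p))
    (hP : Patt (chf h i).R (Bv N p) p (patK .cv g)) (hJ : NoJ J h i (Bv N p)) {a b : ℤ}
    (ha1 : 0 ≤ a) (ha2 : a < N) (hb1 : 0 ≤ b) (hb2 : b < N) :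
    Cg cc cl h i (fe g p a) = Cg cc cl h i (we g p b) := by
  have hN : 1 ≤ N := by omega
  have q1 : ∀ x : ℤ, 0 ≤ x → qd .cv (x, 0) ∧ ¬ qd .cv (x, -1) := fun x hx => by
    simp [qd, hx]
  have q2 : ∀ y : ℤ, 0 ≤ y → qd .cv (0, y) ∧ ¬ qd .cv (-1, y) := fun y hy => by
    simp [qd, hy]
  have e1 := fe_const H hB hP hN (a := a) (b := 0) ha2 (by omega) ha1 (fun x h1 _ => q1 x h1)
    (fun x h1 h2 => hJ _ _ _ (step_fe hP hN (by omega) (by omega) (q1 x (by omega)).1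
      (q1 (x - 1) (by omega)).1 (q1 x (by omega)).2 (q1 (x - 1) (by omega)).2))
  have e2 := we_const H hB hP hN (a := b) (b := 0) hb2 (by omega) hb1 (fun y h1 _ => q2 y h1)
    (fun y h1 h2 => hJ _ _ _ (step_we hP hN (by omega) (by omega) (q2 y (by omega)).1
      (q2 (y + 1) (by omega)).1 (q2 y (by omega)).2 (q2 (y + 1) (by omega)).2))
  have h3 := step_cv (h := h) (i := i) hP hN
  have e3 := Cg_step H hB h3
  rw [hJ _ _ _ h3, add_zero] at e3
  rw [e2, ← e1, e3]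

/-- **reflex corner** -/
theorem chg_rf (H : ChH A cc cl J) (hB : A.Good ρ i (Bv N p))
    (hP : Patt (chf h i).R (Bv N p) p (patK .rf g)) (hJ : NoJ J h i (Bv N p)) {a b : ℤ}
    (ha1 : -(N : ℤ) ≤ a) (ha2 : a < 0) (hb1 : -(N : ℤ) ≤ b) (hb2 : b < 0) :
    Cg cc cl h i (we g p a) = Cg cc cl h i (fe g p b) := by
  have hN : 1 ≤ N := by omega
  have q1 : ∀ x : ℤ, x < 0 → qd .rf (x, 0) ∧ ¬ qd .rf (x, -1) := fun x hx => by
    simp [qd, hx]
  have q2 : ∀ y : ℤ, y < 0 → qd .rf (0, y) ∧ ¬ qd .rf (-1, y) := fun y hy => by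
    simp [qd, hy]
  have e1 := fe_const H hB hP hN (a := -1) (b := b) (by omega) hb1 (by omega)
    (fun x _ h2 => q1 x (by omega))
    (fun x h1 h2 => hJ _ _ _ (step_fe hP hN (by omega) (by omega) (q1 x (by omega)).1
      (q1 (x - 1) (by omega)).1 (q1 x (by omega)).2 (q1 (x - 1) (by omega)).2))
  have e2 := we_const H hB hP hN (a := -1) (b := a) (by omega) ha1 (by omega)
    (fun y _ h2 => q2 y (by omega))
    (fun y h1 h2 => hJ _ _ _ (step_we hP hN (by omega) (by omega) (q2 y (by omega)).1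
      (q2 (y + 1) (by omega)).1 (q2 y (by omega)).2 (q2 (y + 1) (by omega)).2))
  have h3 := step_rf (h := h) (i := i) hP hN
  have e3 := Cg_step H hB h3
  rw [hJ _ _ _ h3, add_zero] at e3
  rw [e1, ← e2, e3]




end chart

/-! ### no jump -/

theorem ind_ne {m q : Port TG} (h : q ≠ m) : ind m q = 0 := if_neg (Ne.symm h)

theorem Jn_zero {m1 m2 : Port TG} {e : Option (Port TG)} {q q' : Port TG}
    (h1 : q' ≠ m1) (h2 : q' ≠ m2) (h3 : ∀ e' ∈ e, q ≠ e' ∧ q' ≠ e') : Jn m1 m2 e q q' = 0 := by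
  unfold Jn
  rw [ind_ne h1, ind_ne h2]
  cases e with
  | none => simp
  | some e =>
    obtain ⟨h4, h5⟩ := h3 e rfl
    simp only
    rw [ind_ne h4, ind_ne h5]
    simp

/-- **no jump in the lower half** -/
theorem noJ_low {A : Half} {ρ : ℕ} {h : A.Sz ρ} {i : Fin 4} {B : Set (ℤ × ℤ)} {m1 m2 : Port TG}
    {e : Option (Port TG)} (hx : ∀ X, REnd h i B X → some (upp h i X) ≠ m1 ∧
      some (upp h i X) ≠ m2 ∧ ∀ e' ∈ e, some (upp h i X) ≠ e') : NoJ (JL m1 m2 e) h i B := by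
  intro X X' k hS
  obtain ⟨r1, r2⟩ := hS.ends
  obtain ⟨a1, a2, a3⟩ := hx X r1
  obtain ⟨b1, b2, b3⟩ := hx X' r2
  unfold Jc JL
  split_ifs
  · exact Jn_zero a1 a2 fun e' he => ⟨b3 e' he, a3 e' he⟩
  · exact Jn_zero b1 b2 fun e' he => ⟨a3 e' he, b3 e' he⟩

/-- **no jump in the reflected upper half** -/
theorem noJ_up {A : Half} {ρ : ℕ} {h : A.Sz ρ} {i : Fin 4} {B : Set (ℤ × ℤ)} {b' : ℤ}
    {m1 m2 : Port TG} {e : Option (Port TG)}
    (hx : ∀ X, REnd h i B X → rp (some (upp h i X)) ≠ m1 ∧ rp (some (upp h i X)) ≠ m2 ∧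
      (∀ e' ∈ e, rp (some (upp h i X)) ≠ e') ∧ jb b' (upp h i X) = 0) :
    NoJ (JU b' m1 m2 e) h i B := by
  intro X X' k hS
  obtain ⟨r1, r2⟩ := hS.ends
  obtain ⟨a1, a2, a3, a4⟩ := hx X r1
  obtain ⟨b1, b2, b3, b4⟩ := hx X' r2
  unfold Jc JU
  split_ifs
  · rw [Jn_zero b1 b2 fun e' he => ⟨a3 e' he, b3 e' he⟩, b4, sub_zero]
  · rw [Jn_zero a1 a2 fun e' he => ⟨b3 e' he, a3 e' he⟩, a4, sub_zero]

end Crest.Agent.R158.Lr158
end

-- ▼ part R158/Lr13_874
section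

/-!
# R158, block Q1d, leaf LR (helper874), part 13: no jump of the charge near a vertex

* `NearV A L n X` : the port `X` of a half environment is within `n` of a macroscopic vertex or of a
  mouth corner
* **`near_end`** : the ends of the box of radius `N` around a vertex of a chart are `NearV`
* `NearG B L n q` : the same for the ports of `G^(z)`
* `not_near_far`, `not_near_mark` : the ends of the family and the marks are not near
* **`noJ_ver_low`**, **`noJ_ver_up`** : no jump of the charges of the family near the vertices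
* `notN_JP` : the hypothesis for the literal family
-/

set_option autoImplicit false

namespace Crest.Agent.R158.Lr874

open Crest.Agent.R158.Sw300 (Port)
open Crest.Agent.R158.Env664 (TG Mac D mem_D Run CutAdj Adj4 lowT upT Band mark)
open Crest.Agent.R158.Pt266 (dir)
open Crest.Agent.R158.Ka470
open Crest.Agent.R158.Ka470.Half
open Crest.Agent.R158.Lr158
open Crest.Agent.R158.Rf896 (rA rB rz rp rt mem_rA rz_rz rp_some rp_rp)
open Crest.Agent.R158.Ao857 (tpm inlE)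
open Crest.Agent.R158.Tj656 (P4)
open Crest.Agent.R158.Fm857 (freeG far Jd mem_Jd vertP mem_vertP mouthC mem_mouthC SpP mem_SpP DelP JP
  mkP mkG)

/-! ### near ports of a half environment -/

/-- within `n` of a macroscopic vertex or of a mouth corner -/
def NearV (A : Half) (L n : ℤ) : TG × ZMod 4 → Prop
  | (Sum.inl t, _) => (∃ p : ℤ × ℤ, (L ∣ p.1 ∧ L ∣ p.2) ∧ |t.1 - p.1| ≤ n ∧ |t.2 - p.2| ≤ n) ∨
      ((|t.1 - A.xl| ≤ n ∨ |t.1 - A.xr| ≤ n) ∧ |t.2 - A.y1| ≤ n)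
  | (Sum.inr v, _) => v.1 < n ∨ A.R - n ≤ v.1

theorem near_inl1 {A : Half} {L n : ℤ} {t p : ℤ × ℤ} {d : ZMod 4} (h1 : L ∣ p.1) (h2 : L ∣ p.2)
    (h3 : -n ≤ t.1 - p.1) (h4 : t.1 - p.1 ≤ n) (h5 : -n ≤ t.2 - p.2) (h6 : t.2 - p.2 ≤ n) :
    NearV A L n (Sum.inl t, d) :=
  Or.inl ⟨p, ⟨h1, h2⟩, abs_le.2 ⟨h3, h4⟩, abs_le.2 ⟨h5, h6⟩⟩

/-- **the ends near a vertex of a chart** -/
theorem near_end {A : Half} {ρ : ℕ} {h : A.Sz ρ} {L : ℤ} {i : Fin 4} {p : ℤ × ℤ} {N : ℕ}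
    (hp : p ∈ A.Ver L i) (hB : A.Good ρ i (Bv N p)) {X : (ℤ × ℤ) × ZMod 4}
    (hX : REnd h i (Bv N p) X) : NearV A L N (upp h i X) := by
  have hx := A.hx
  have h01 := A.h1
  obtain ⟨⟨x, y⟩, d⟩ := X
  obtain ⟨⟨b1, b2⟩, b3, b4⟩ := hX.b1
  simp only at b1 b2 b3 b4
  fin_cases i
  · obtain ⟨p1, p2⟩ := hp
    exact near_inl1 p1 p2 (by simp only; omega) (by simp only; omega) (by simp only; omega)
      (by simp only; omega)
  · obtain ⟨p1, p2⟩ := hp
    exact near_inl1 (p := (p.1, 2 * A.y0 - p.2)) p1 p2 (by simp only [Half.rf]; omega)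
      (by simp only [Half.rf]; omega) (by simp only [Half.rf]; omega)
      (by simp only [Half.rf]; omega)
  · obtain ⟨p1, p2⟩ := hp
    have key := posM (h := h) hB hX
    unfold PosM at key
    simp only at key
    rcases key with ⟨rfl, rfl, k1, k2⟩ | ⟨rfl, rfl, k1, k2⟩ | ⟨rfl, rfl, -, k1⟩ | ⟨rfl, k2, -, k1⟩
    · have e : (upp h 2 ((A.xl, y), 0)) = (tM A A.xl (A.ry y), Ka470.sg (A.kk y) 0) := rfl
      show NearV A L N (upp h 2 ((A.xl, y), 0))
      rw [e, tM_m le_rfl hx]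
      refine Or.inr ⟨Or.inl ?_, ?_⟩
      · simp
      · show |A.ry y - A.y1| ≤ N
        have key2 : -(N : ℤ) ≤ A.ry y - A.y1 ∧ A.ry y - A.y1 ≤ N := by
          rcases lt_or_ge y A.y0 with hy | hy
          · rw [ry_lt _ hy] at k2 ⊢; omega
          · rw [ry_ge _ hy] at k2 ⊢; omega
        exact abs_le.2 key2
    · have e : (upp h 2 ((A.xr, y), 2)) = (tM A A.xr (A.ry y), Ka470.sg (A.kk y) 2) := rfl
      show NearV A L N (upp h 2 ((A.xr, y), 2))
      rw [e, tM_m hx le_rfl]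
      refine Or.inr ⟨Or.inr ?_, ?_⟩
      · simp
      · show |A.ry y - A.y1| ≤ N
        have key2 : -(N : ℤ) ≤ A.ry y - A.y1 ∧ A.ry y - A.y1 ≤ N := by
          rcases lt_or_ge y A.y0 with hy | hy
          · rw [ry_lt _ hy] at k2 ⊢; omega
          · rw [ry_ge _ hy] at k2 ⊢; omega
        exact abs_le.2 key2
    · have e := (uppM_lo h (x := x) (y := A.y1) (d := 3) h01).1
      show NearV A L N (upp h 2 ((x, A.y1), 3))
      rw [e]
      by_cases c1 : x < A.xl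
      · rw [tM_l c1]
        show A.R - (A.xl - x) < N ∨ A.R - N ≤ A.R - (A.xl - x)
        omega
      · rw [tM_r (by omega)]
        show x - A.xr - 1 < N ∨ A.R - N ≤ x - A.xr - 1
        omega
    · have e := (uppM_hi h (x := x) (y := y) (d := 1) (by omega)).1
      show NearV A L N (upp h 2 ((x, y), 1))
      rw [e]
      by_cases c1 : x < A.xl
      · rw [tM_l c1]
        show A.R - (A.xl - x) < N ∨ A.R - N ≤ A.R - (A.xl - x)
        omega
      · rw [tM_r (by omega)]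
        show x - A.xr - 1 < N ∨ A.R - N ≤ x - A.xr - 1
        omega
  · exact absurd hp (Set.notMem_empty _)

/-! ### near ports of `G^(z)` -/

/-- within `n` of a macroscopic vertex or of a mouth corner -/
def NearG {A : Finset (ℤ × ℤ)} (B : Band A) (L n : ℤ) : Port TG → Prop
  | none => False
  | some (Sum.inl t, _) =>
      (∃ p : ℤ × ℤ, (L ∣ p.1 ∧ L ∣ p.2) ∧ |t.1 - p.1| ≤ n ∧ |t.2 - p.2| ≤ n) ∨
      ((|t.1 - B.xl| ≤ n ∨ |t.1 - B.xr| ≤ n) ∧ (|t.2 - B.y1| ≤ n ∨ |t.2 - (B.y2 - 1)| ≤ n))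
  | some (Sum.inr v, _) => v.1 < n ∨ B.R - n ≤ v.1

theorem two {L x q n : ℤ} (hL : 0 < L) (hq : L ∣ q) (h : |x - q| ≤ n) (hn : n < L) :
    q = x / L * L ∨ q = (x / L + 1) * L := by
  obtain ⟨k, rfl⟩ := hq
  have h1 := Int.mul_ediv_add_emod x L
  have h2 := Int.emod_nonneg x hL.ne'
  have h3 := Int.emod_lt_of_pos x hL
  rw [abs_le] at h
  have h4 : x / L - 1 < k := by
    by_contra hcon
    have : L * k ≤ L * (x / L - 1) := mul_le_mul_of_nonneg_left (not_lt.1 hcon) hL.le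
    have e : L * (x / L - 1) = L * (x / L) - L := by ring
    omega
  have h5 : k < x / L + 2 := by
    by_contra hcon
    have : L * (x / L + 2) ≤ L * k := mul_le_mul_of_nonneg_left (not_lt.1 hcon) hL.le
    have e : L * (x / L + 2) = L * (x / L) + 2 * L := by ring
    omega
  obtain rfl | rfl : k = x / L ∨ k = x / L + 1 := by omega
  · exact Or.inl (mul_comm _ _)
  · exact Or.inr (mul_comm _ _)

/-- **the ends of the family are not near** -/
theorem not_near_far {F : Finset (ℤ × ℤ)} {L n Δ a0 b0 : ℤ} {B : Band (D F L)}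
    {Sp : Finset (ℤ × ℤ)} {q : Port TG} (hL : 0 < L) (h1 : vertP F L ⊆ Sp) (h2 : mouthC B ⊆ Sp)
    (h3 : n + 2 ≤ Δ) (h4 : n < L) (h5 : a0 + 1 + n < B.R) (h6 : n ≤ b0) (hq : q ∈ freeG B)
    (hf : far B Sp Δ a0 b0 q) : ¬ NearG B L n q := by
  rcases mem_freeG'.1 hq with ⟨t, d, rfl, h7, -⟩ | ⟨i, -, -, rfl⟩ | ⟨i, -, -, rfl⟩
  · have hf' : ∀ v ∈ Sp, Δ ≤ |t.1 - v.1| ∨ Δ ≤ |t.2 - v.2| := hf
    rintro (⟨p, ⟨p1, p2⟩, p3, p4⟩ | ⟨g1, g2⟩)
    · have ht : (t.1 / L, t.2 / L) ∈ F := (mem_D hL _).1 h7.1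
      have hp : p ∈ vertP F L := by
        refine mem_vertP.2 ⟨_, ht, ?_⟩
        obtain ⟨px, py⟩ := p
        simp only [Prod.mk.injEq]
        have k1 := two hL p1 p3 h4
        have k2 := two hL p2 p4 h4
        simp only at k1 k2
        tauto
      have := hf' p (h1 hp)
      omega
    · have hm : ∀ v ∈ mouthC B, Δ ≤ |t.1 - v.1| ∨ Δ ≤ |t.2 - v.2| := fun v hv => hf' v (h2 hv)
      have m1 := hm (B.xl, B.y1) (mem_mouthC.2 (Or.inl rfl))
      have m2 := hm (B.xl, B.y2 - 1) (mem_mouthC.2 (Or.inr (Or.inl rfl)))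
      have m3 := hm (B.xr, B.y1) (mem_mouthC.2 (Or.inr (Or.inr (Or.inl rfl))))
      have m4 := hm (B.xr, B.y2 - 1) (mem_mouthC.2 (Or.inr (Or.inr (Or.inr rfl))))
      simp only at m1 m2 m3 m4
      omega
  · have hf' : (Δ ≤ (if (3 : ZMod 4) = 3 then i else i - 1) ∧
        (if (3 : ZMod 4) = 3 then i else i - 1) ≤ a0) ∨
      (b0 < (if (3 : ZMod 4) = 3 then i else i - 1) ∧
        (if (3 : ZMod 4) = 3 then i else i - 1) < B.R - Δ) := hf
    rw [if_pos rfl] at hf'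
    rintro (g | g) <;> simp only at g <;> omega
  · have hf' : (Δ ≤ (if (1 : ZMod 4) = 3 then i else i - 1) ∧
        (if (1 : ZMod 4) = 3 then i else i - 1) ≤ a0) ∨
      (b0 < (if (1 : ZMod 4) = 3 then i else i - 1) ∧
        (if (1 : ZMod 4) = 3 then i else i - 1) < B.R - Δ) := hf
    rw [if_neg (by decide : ¬ (1 : ZMod 4) = 3)] at hf'
    rintro (g | g) <;> simp only at g <;> omega

/-- numbers of a band: `n` is small -/
structure NumV {A : Finset (ℤ × ℤ)} (B : Band A) (L c n : ℤ) : Prop where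
  n0 : 0 ≤ n
  nL : 2 * n + 6 ≤ L
  y1 : c * L + n + 2 ≤ B.y1
  y2 : B.y2 + n + 2 ≤ c * L + L
  hm : B.y2 + n + 2 ≤ c * L + L / 2 ∨ c * L + L / 2 + n + 2 ≤ B.y1
  hy : B.y1 ≤ B.y2

theorem mark_pos (L : ℤ) (c : ℤ × ℤ) (d : ZMod 4) : ∃ t : ℤ × ℤ, (mark L c d).2 = some (t, d) ∧
    ((t.2 = c.2 * L + L / 2 ∨ t.2 = c.2 * L + L / 2 - 1) ∨
      ((t.1 = c.1 * L + L / 2 ∨ t.1 = c.1 * L + L / 2 - 1) ∧
        (t.2 = c.2 * L ∨ t.2 = c.2 * L + L - 1))) := by
  unfold mark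
  rcases Lr158.z4 d with rfl | rfl | rfl | rfl
  · exact ⟨(c.1 * L, c.2 * L + L / 2), rfl, Or.inl (Or.inl rfl)⟩
  · exact ⟨(c.1 * L + L / 2, c.2 * L + L - 1), rfl, Or.inr ⟨Or.inl rfl, Or.inr rfl⟩⟩
  · exact ⟨(c.1 * L + L - 1, c.2 * L + L / 2 - 1), rfl, Or.inl (Or.inr rfl)⟩
  · exact ⟨(c.1 * L + L / 2 - 1, c.2 * L), rfl, Or.inr ⟨Or.inr rfl, Or.inl rfl⟩⟩

theorem mid_far {L c k n x : ℤ} (hL : 2 * n + 6 ≤ L) (hn : 0 ≤ n)
    (hx : x = c * L + L / 2 ∨ x = c * L + L / 2 - 1) : ¬ |x - L * k| ≤ n := by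
  intro h
  rw [abs_le] at h
  rcases le_or_gt k c with h1 | h1
  · have : L * k ≤ L * c := mul_le_mul_of_nonneg_left h1 (by omega)
    have e : c * L = L * c := mul_comm _ _
    omega
  · have : L * (c + 1) ≤ L * k := mul_le_mul_of_nonneg_left h1 (by omega)
    have e : c * L = L * c := mul_comm _ _
    have e' : L * (c + 1) = L * c + L := by ring
    omega

/-- **the marks are not near** -/
theorem not_near_mark {A : Finset (ℤ × ℤ)} {B : Band A} {L c n : ℤ} (hN : NumV B L c n)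
    (q : ℤ × ℤ) (d : ZMod 4) : ¬ NearG B L n (tpm inlE (mark L q d).2) := by
  obtain ⟨t, ht, hpos⟩ := mark_pos L q d
  rw [ht]
  have n0 := hN.n0
  have nL := hN.nL
  have y1 := hN.y1
  have y2 := hN.y2
  have hm := hN.hm
  have hy := hN.hy
  have tri : (q.2 ≤ c - 1 ∧ q.2 * L + L ≤ c * L) ∨ (q.2 = c ∧ q.2 * L = c * L) ∨
      (c + 1 ≤ q.2 ∧ c * L + L ≤ q.2 * L) := by
    rcases lt_trichotomy q.2 c with h | h | h
    · left
      have : (q.2 + 1) * L ≤ c * L := mul_le_mul_of_nonneg_right h (by omega)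
      have e : (q.2 + 1) * L = q.2 * L + L := by ring
      omega
    · right; left; exact ⟨h, by rw [h]⟩
    · right; right
      have : (c + 1) * L ≤ q.2 * L := mul_le_mul_of_nonneg_right h (by omega)
      have e : (c + 1) * L = c * L + L := by ring
      omega
  rintro (⟨p, ⟨⟨k1, p1⟩, k2, p2⟩, p3, p4⟩ | ⟨-, g⟩)
  · change |t.1 - p.1| ≤ n at p3
    change |t.2 - p.2| ≤ n at p4
    rw [p1] at p3
    rw [p2] at p4
    rcases hpos with h | ⟨h, -⟩
    · exact mid_far nL n0 h p4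
    · exact mid_far nL n0 h p3
  · change |t.2 - B.y1| ≤ n ∨ |t.2 - (B.y2 - 1)| ≤ n at g
    simp only [abs_le] at g
    rcases hpos with h | ⟨-, h⟩
    · rcases tri with ⟨-, tri⟩ | ⟨-, tri⟩ | ⟨-, tri⟩ <;> rcases hm with hm | hm <;>
        rcases g with g | g <;> rcases h with h | h <;> omega
    · rcases tri with ⟨-, tri⟩ | ⟨-, tri⟩ | ⟨-, tri⟩ <;>
        rcases g with g | g <;> rcases h with h | h <;> omega

/-! ### the two halves -/

variable {M : Mac} {L a b c : ℤ} {B : Band (D M.F L)}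

theorem near_low (m : MB M L a b c B) {y0 : ℤ} (h1 : B.y1 < y0) (h2 : y0 ≤ B.y2) {n : ℤ}
    {X : TG × ZMod 4} (hX : NearV (lowHalf (lb_low m h1 h2).d) L n X) : NearG B L n (some X) := by
  have exl : (lowHalf (lb_low m h1 h2).d).xl = B.xl := m.xl.symm
  have exr : (lowHalf (lb_low m h1 h2).d).xr = B.xr := m.xr.symm
  obtain ⟨t | v, d⟩ := X
  · rcases hX with hX | ⟨hX, hX'⟩
    · exact Or.inl hX
    · rw [exl, exr] at hX
      exact Or.inr ⟨hX, Or.inl hX'⟩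
  · exact hX

theorem near_up (m : MB M L a b c B) {y0 : ℤ} (h1 : -B.y2 < y0) (h2 : y0 ≤ -B.y1) {n : ℤ}
    {X : TG × ZMod 4} (hX : NearV (lowHalf (lb_up m h1 h2).d) L n X) :
    NearG B L (n + 1) (rp (some X)) := by
  have exl : (lowHalf (lb_up m h1 h2).d).xl = B.xl := m.xl.symm
  have exr : (lowHalf (lb_up m h1 h2).d).xr = B.xr := m.xr.symm
  obtain ⟨t | v, d⟩ := X
  · rcases hX with ⟨p, ⟨p1, p2⟩, p3, p4⟩ | ⟨hX, hX'⟩
    · refine Or.inl ⟨(p.1, -p.2), ⟨p1, (dvd_neg).2 p2⟩, ?_, ?_⟩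
      · show |t.1 - p.1| ≤ n + 1
        exact p3.trans (by omega)
      · show |(-t.2 - 1) - -p.2| ≤ n + 1
        rw [abs_le] at p4 ⊢
        omega
    · rw [exl, exr] at hX
      refine Or.inr ⟨?_, Or.inr ?_⟩
      · show |t.1 - B.xl| ≤ n + 1 ∨ |t.1 - B.xr| ≤ n + 1
        omega
      · show |(-t.2 - 1) - (B.y2 - 1)| ≤ n + 1
        change |t.2 - -B.y2| ≤ n at hX'
        rw [abs_le] at hX' ⊢
        omega
  · change v.1 < n ∨ B.R + 1 - n ≤ v.1 at hX
    show v.1 < n + 1 ∨ B.R - (n + 1) ≤ v.1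
    omega

/-- the special ports are not near -/
structure NotN {A : Finset (ℤ × ℤ)} (B : Band A) (L n : ℤ) (m1 m2 : Port TG)
    (e : Option (Port TG)) : Prop where
  h1 : ¬ NearG B L n m1
  h2 : ¬ NearG B L n m2
  he : ∀ e' ∈ e, ¬ NearG B L n e'

/-- **no jump near a vertex, lower half** -/
theorem noJ_ver_low (m : MB M L a b c B) {y0 : ℤ} (h1 : B.y1 < y0) (h2 : y0 ≤ B.y2)
    {ρ : ℕ} {h : (lowHalf (lb_low m h1 h2).d).Sz ρ} {N : ℕ} {i : Fin 4} {p : ℤ × ℤ}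
    {m1 m2 : Port TG} {e : Option (Port TG)} (hN : NotN B L N m1 m2 e)
    (hp : p ∈ (lowHalf (lb_low m h1 h2).d).Ver L i)
    (hB : (lowHalf (lb_low m h1 h2).d).Good ρ i (Bv N p)) : NoJ (JL m1 m2 e) h i (Bv N p) := by
  refine noJ_low fun X hX => ?_
  have g := near_low m h1 h2 (near_end hp hB hX)
  exact ⟨fun hh => hN.h1 (hh ▸ g), fun hh => hN.h2 (hh ▸ g), fun e' he' hh => hN.he e' he' (hh ▸ g)⟩

/-- **no jump near a vertex, reflected upper half** -/
theorem noJ_ver_up (m : MB M L a b c B) {y0 : ℤ} (h1 : -B.y2 < y0) (h2 : y0 ≤ -B.y1)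
    {ρ : ℕ} {h : (lowHalf (lb_up m h1 h2).d).Sz ρ} {N : ℕ} {i : Fin 4} {p : ℤ × ℤ} {b' : ℤ}
    (hb1 : N ≤ b') (hb2 : b' < B.R + 1 - N)
    {m1 m2 : Port TG} {e : Option (Port TG)} (hN : NotN B L (N + 1) m1 m2 e)
    (hp : p ∈ (lowHalf (lb_up m h1 h2).d).Ver L i)
    (hB : (lowHalf (lb_up m h1 h2).d).Good ρ i (Bv N p)) : NoJ (JU b' m1 m2 e) h i (Bv N p) := by
  refine noJ_up fun X hX => ?_
  have hn := near_end hp hB hX
  have g := near_up m h1 h2 hn
  refine ⟨fun hh => hN.h1 (hh ▸ g), fun hh => hN.h2 (hh ▸ g),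
    fun e' he' hh => hN.he e' he' (hh ▸ g), ?_⟩
  generalize upp h i X = Y at hn
  obtain ⟨t | v, d⟩ := Y
  · rfl
  · change v.1 < (N : ℤ) ∨ B.R + 1 - N ≤ v.1 at hn
    exact if_neg (by omega)

/-! ### the literal family -/

/-- **the special ports of the family are not near the vertices** -/
theorem notN_JP {P : P4} {L c n : ℤ} {δ : ℝ} {B : Band (D P.F L)} (hN : NumV B L c n)
    (hR : B.R = L) (hΔ : n + 2 ≤ DelP L δ) {e : Option (Port TG)}
    (he : e ∈ Finset.insertNone (JP P L δ B)) :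
    NotN B L n (mkG P L 0) (mkG P L 1) e where
  h1 := not_near_mark hN _ _
  h2 := not_near_mark hN _ _
  he e' he' := by
    have h1 : e' ∈ JP P L δ B := Finset.mem_insertNone.1 he e' he'
    obtain ⟨h2, -, h3⟩ := (mem_Jd B).1 h1
    have n0 := hN.n0
    have nL := hN.nL
    refine not_near_far (by omega) (fun v hv => ?_) (fun v hv => ?_) hΔ (by omega) ?_ ?_ h2 h3
    · exact mem_SpP.2 (Or.inl hv)
    · exact mem_SpP.2 (Or.inr (Or.inr hv))
    · rw [hR]; omega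
    · omega

end Crest.Agent.R158.Lr874
end

-- ▼ part R158/Lr14_874

/-!
# R158, block Q1d, leaf LR (helper874), part 14: the charges are constant across the corners

* `VC h L C` : the charges `C` are constant across the convex and the reflex corners
* **`vc_low`**, **`vc_up`** : for the charges of the family
-/

set_option autoImplicit false

namespace Crest.Agent.R158.Lr874

open Crest.Agent.R158.Sw300 (Port)
open Crest.Agent.R158.Env664 (TG Mac D Band)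
open Crest.Agent.R158.Ka470
open Crest.Agent.R158.Ka470.Half
open Crest.Agent.R158.Lr158
open Crest.Agent.R158.Nz399 (Kind patK fe we)
open Crest.Agent.R158.Rf896 (rA rB rz rp rt)
open Crest.Agent.R158.Fm857 (cp clow)

/-- **the charges are constant across the corners** -/
structure VC {A : Half} {ρ : ℕ} (h : A.Sz ρ) (L : ℤ) (C : Fin 4 → (ℤ × ℤ) × ZMod 4 → ℤ) : Prop where
  cv : ∀ i : Fin 4, ∀ p ∈ A.Ver L i, ∀ g : ℕ,
    Patt (chf h i).R (Bv (5 * ρ) p) p (patK .cv g) → ∀ a b : ℤ, 0 ≤ a → a < ((5 * ρ : ℕ) : ℤ) →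
      0 ≤ b → b < ((5 * ρ : ℕ) : ℤ) → C i (fe g p a) = C i (we g p b)
  rf : ∀ i : Fin 4, ∀ p ∈ A.Ver L i, ∀ g : ℕ,
    Patt (chf h i).R (Bv (5 * ρ) p) p (patK .rf g) → ∀ a b : ℤ, -((5 * ρ : ℕ) : ℤ) ≤ a → a < 0 →
      -((5 * ρ : ℕ) : ℤ) ≤ b → b < 0 → C i (we g p a) = C i (fe g p b)

theorem VC.rfc {A : Half} {ρ : ℕ} {h : A.Sz ρ} {L : ℤ} {C : Fin 4 → (ℤ × ℤ) × ZMod 4 → ℤ}
    (H : VC h L C) : Ne808.RfC h L C :=
  fun i p hp _ g _ hP a b h1 h2 h3 h4 => H.rf i p hp g hP a b h1 h2 h3 h4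

theorem vc_of {A : Half} {ρ : ℕ} {h : A.Sz ρ} {L a b c : ℤ} (m : A.Mc L a b c) (h' : A.Sz' ρ L)
    {cc : TG × ZMod 4 → ℤ} {cl : ℤ} {J : TG × ZMod 4 → TG × ZMod 4 → ℤ} (H : ChH A cc cl J)
    (hJ : ∀ i : Fin 4, ∀ p ∈ A.Ver L i, A.Good ρ i (Bv (5 * ρ) p) → NoJ J h i (Bv (5 * ρ) p)) :
    VC h L (Cg cc cl h) where
  cv i p hp _ hP _ _ h1 h2 h3 h4 :=
    chg_cv H (vert m h h' hp).1 hP (hJ i p hp (vert m h h' hp).1) h1 h2 h3 h4
  rf i p hp _ hP _ _ h1 h2 h3 h4 :=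
    chg_rf H (vert m h h' hp).1 hP (hJ i p hp (vert m h h' hp).1) h1 h2 h3 h4

variable {M : Mac} {L a b c : ℤ} {B : Band (D M.F L)}

/-- **lower half** -/
theorem vc_low (m : MB M L a b c B) {y0 : ℤ} (h1 : B.y1 < y0) (h2 : y0 ≤ B.y2) {ρ : ℕ}
    (h : (lowHalf (lb_low m h1 h2).d).Sz ρ) (h' : (lowHalf (lb_low m h1 h2).d).Sz' ρ L) {b' : ℤ}
    (hb1 : 0 < b') (hb2 : b' < B.R) {m1 m2 : Port TG} {e : Option (Port TG)}
    (hm : Mks B m1 m2 e) (hN : NotN B L (5 * ρ : ℕ) m1 m2 e) :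
    VC h L (Cg (fun q => cp B b' m1 m2 e (some q)) (clow B b' m1 m2 e) h) :=
  vc_of (lowHalf_mc (lb_low m h1 h2).d) h' (chH_low m h1 h2 hb1 hb2 hm)
    fun _ _ hp hB => noJ_ver_low m h1 h2 hN hp hB

/-- **reflected upper half** -/
theorem vc_up (m : MB M L a b c B) {y0 : ℤ} (h1 : -B.y2 < y0) (h2 : y0 ≤ -B.y1) {ρ : ℕ}
    (h : (lowHalf (lb_up m h1 h2).d).Sz ρ) (h' : (lowHalf (lb_up m h1 h2).d).Sz' ρ L) {b' : ℤ}
    (hb1 : ((5 * ρ : ℕ) : ℤ) ≤ b') (hb2 : b' < B.R + 1 - (5 * ρ : ℕ)) {m1 m2 : Port TG}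
    {e : Option (Port TG)} (hm : Mks B m1 m2 e) (hN : NotN B L ((5 * ρ : ℕ) + 1) m1 m2 e) :
    VC h L (Cg (ccU B b' m1 m2 e) (-(clow B b' m1 m2 e + 1)) h) := by
  have hρ := h.pos
  push_cast at hb1 hb2
  exact vc_of (lowHalf_mc (lb_up m h1 h2).d) h'
    (chH_up m h1 h2 (by omega) (by omega) hm)
    fun _ _ hp hB => noJ_ver_up m h1 h2 (by push_cast; exact hb1) (by push_cast; exact hb2) hN hp hB

end Crest.Agent.R158.Lr874
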