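import Crest.Agent.R158.Lr2_158

-- ▼ part R158/Lr3_158
section

/-!
R158, block Q1d, leaf LR (helper158), part 3: the lifted direction along a step of each of the four
charts, and the **local rule**.
-/

set_option autoImplicit false

namespace Crest.Agent.R158.Lr158

open Crest.Agent.R158.Sw300 (Port)
open Crest.Agent.R158.Env664 (TG)
open Crest.Agent.R158.Nm211 (Dir mv dx dy)
open Crest.Agent.R158.Ka470
open Crest.Agent.R158.Ka470.Half
open Crest.Agent.R158.Nz399 (dch un jm)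
open Crest.Agent.R158.Pt266 (dir)

variable {A : Half} {ρ : ℕ}

theorem dir_cases (d : ZMod 4) : (d = 0 ∧ dir d = (-1, 0)) ∨ (d = 1 ∧ dir d = (0, 1)) ∨
    (d = 2 ∧ dir d = (1, 0)) ∨ (d = 3 ∧ dir d = (0, -1)) := by
  revert d; decide

theorem d4a : (0 : ZMod 4) + 1 = 1 ∧ (1 : ZMod 4) + 1 = 2 ∧ (2 : ZMod 4) + 1 = 3 ∧
    (3 : ZMod 4) + 1 = 0 := by decide

/-! ### the symmetric charts -/

/-- heights -/
theorem side_lt {y : ℤ} (h : A.ry y < A.y1) : y < A.y1 ∨ 2 * A.y0 - A.y1 ≤ y := by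
  by_contra hc
  push Not at hc
  exact absurd (y1_ry.2 ⟨hc.1, by omega⟩) (by omega)

/-- lifted direction of the real ends of the charts `M` and `S` -/
def psM (d : ZMod 4) : ℤ := if d = 0 then 4 else if d = 2 then 2 else 3

/-- **real ends of the chart `M`** -/
theorem endM {ch : Port TG → ℝ} {ps cc : TG × ZMod 4 → ℤ} {cl : ℤ} (H : PhH A ch ps cc cl)
    {h : A.Sz ρ} {B : Set (ℤ × ℤ)} (hB : A.Good ρ 2 B) {X : (ℤ × ℤ) × ZMod 4}
    (hX : REnd h 2 B X) : ps (upp h 2 X) = psM X.2 ∧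
      ((X.1.2 < A.y0 ∧ X.2 ≠ 1) ∨ (A.y0 ≤ X.1.2 ∧ X.2 ≠ 3)) ∧
      (((X.2 = 1 ∨ X.2 = 3) ∧ ¬ (A.xl ≤ X.1.1 ∧ X.1.1 ≤ A.xr)) ∨
        ((X.2 = 0 ∨ X.2 = 2) ∧ (A.xl ≤ X.1.1 ∧ X.1.1 ≤ A.xr) ∧ A.ry X.1.2 < A.y1)) := by
  obtain ⟨⟨x, y⟩, d⟩ := X
  have g1 := hB _ hX.b1
  have g2 := hB _ hX.b2
  have m1 := (memM h g1).1 hX.m
  have m2 : ¬ _ := fun hh => hX.n ((memM h g2).2 hh)
  have hx := A.hx
  have h01 := A.h1
  have hY := A.hY
  simp only at g1 g2 m1 m2 ⊢
  have hup : upp h 2 ((x, y), d) =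
      ((if x < A.xl then Sum.inr (A.R - (A.xl - x), A.ry y) else if x ≤ A.xr then
        Sum.inl (x, A.ry y) else Sum.inr (x - A.xr - 1, A.ry y)), Ka470.sg (A.kk y) d) := rfl
  have hr := h.r
  have hρ := h.pos
  rcases dir_cases d with ⟨rfl, hd⟩ | ⟨rfl, hd⟩ | ⟨rfl, hd⟩ | ⟨rfl, hd⟩
  · rw [hd] at g2 m2
    simp only [Prod.mk_add_mk, add_zero] at g2 m2
    push Not at m2
    have e1 : x = A.xl := by
      rcases m1 with m1 | m1
      · by_contra hne
        have := m2.1 (by omega)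
        omega
      · omega
    have e2 : A.ry y < A.y1 := m2.2
    refine ⟨?_, ?_, ?_⟩
    · rw [hup, e1, if_neg (lt_irrefl _), if_pos hx]
      have e3 : Ka470.sg (A.kk y) (0 : ZMod 4) = 0 := by
        cases A.kk y <;> decide
      rw [e3]
      exact H.wl _ g1.2 e2
    · rcases lt_or_ge y A.y0 with h3 | h3
      · exact Or.inl ⟨h3, by decide⟩
      · exact Or.inr ⟨h3, by decide⟩
    · exact Or.inr ⟨Or.inl rfl, ⟨by omega, by omega⟩, e2⟩
  · -- north
    rw [hd] at g2 m2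
    simp only [Prod.mk_add_mk, add_zero] at g2 m2
    push Not at m2
    have e2 : A.ry (y + 1) < A.y1 := m2.2
    have e1 : ¬ (A.xl ≤ x ∧ x ≤ A.xr) := fun hc => by have := m2.1 hc.1; omega
    have e3 : A.y1 ≤ A.ry y := by
      rcases m1 with m1 | m1
      · exact absurd m1 e1
      · exact m1
    have e4 := side_lt e2
    have e5 := y1_ry.1 e3
    have e6 : y = 2 * A.y0 - A.y1 - 1 := by omega
    have e7 : A.y0 ≤ y := by omega
    have e8 : A.ry y = A.y1 := by rw [ry_ge _ e7]; omega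
    refine ⟨?_, Or.inr ⟨e7, by decide⟩, Or.inl ⟨Or.inl rfl, e1⟩⟩
    rw [hup, kk_ge _ e7]
    have e9 : Ka470.sg true (1 : ZMod 4) = 3 := by decide
    rw [e9, e8]
    split_ifs with h1 h2
    · exact H.fl _ (by omega) (by omega)
    · exact absurd ⟨by omega, h2⟩ e1
    · exact H.fl _ (by omega) (by omega)
  · rw [hd] at g2 m2
    simp only [Prod.mk_add_mk, add_zero] at g2 m2
    push Not at m2
    have e1 : x = A.xr := by
      rcases m1 with m1 | m1
      · by_contra hne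
        have := m2.1 (by omega)
        omega
      · omega
    have e2 : A.ry y < A.y1 := m2.2
    refine ⟨?_, ?_, ?_⟩
    · rw [hup, e1, if_neg (by omega), if_pos le_rfl]
      have e3 : Ka470.sg (A.kk y) (2 : ZMod 4) = 2 := by
        cases A.kk y <;> decide
      rw [e3]
      exact H.wr _ g1.2 e2
    · rcases lt_or_ge y A.y0 with h3 | h3
      · exact Or.inl ⟨h3, by decide⟩
      · exact Or.inr ⟨h3, by decide⟩
    · exact Or.inr ⟨Or.inr rfl, ⟨by omega, by omega⟩, e2⟩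
  · -- south
    rw [hd] at g2 m2
    simp only [Prod.mk_add_mk, add_zero] at g2 m2
    push Not at m2
    have e2 : A.ry (y + -1) < A.y1 := m2.2
    have e1 : ¬ (A.xl ≤ x ∧ x ≤ A.xr) := fun hc => by have := m2.1 hc.1; omega
    have e3 : A.y1 ≤ A.ry y := by
      rcases m1 with m1 | m1
      · exact absurd m1 e1
      · exact m1
    have e4 := side_lt e2
    have e5 := y1_ry.1 e3
    have e6 : y = A.y1 := by omega
    have e7 : y < A.y0 := by omega
    have e8 : A.ry y = A.y1 := by rw [ry_lt _ e7, e6]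
    refine ⟨?_, Or.inl ⟨e7, by decide⟩, Or.inl ⟨Or.inr rfl, e1⟩⟩
    rw [hup, kk_lt _ e7]
    have e9 : Ka470.sg false (3 : ZMod 4) = 3 := by decide
    rw [e9, e8]
    split_ifs with h1 h2
    · exact H.fl _ (by omega) (by omega)
    · exact absurd ⟨by omega, h2⟩ e1
    · exact H.fl _ (by omega) (by omega)

/-- **real ends of the chart `S`** -/
theorem endS {ch : Port TG → ℝ} {ps cc : TG × ZMod 4 → ℤ} {cl : ℤ} (H : PhH A ch ps cc cl)
    {h : A.Sz ρ} {B : Set (ℤ × ℤ)} (hB : A.Good ρ 3 B) {X : (ℤ × ℤ) × ZMod 4}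
    (hX : REnd h 3 B X) : ps (upp h 3 X) = 3 ∧
      ((X.1.2 < A.y0 ∧ X.2 = 3) ∨ (A.y0 ≤ X.1.2 ∧ X.2 = 1)) := by
  obtain ⟨⟨x, y⟩, d⟩ := X
  have g1 := hB _ hX.b1
  have g2 := hB _ hX.b2
  have m1 := (memS h g1).1 hX.m
  have m2 : ¬ _ := fun hh => hX.n ((memS h g2).2 hh)
  have h01 := A.h1
  simp only at g1 g2 m1 m2 ⊢
  have hup : upp h 3 ((x, y), d) = (Sum.inr (x, A.ry y), Ka470.sg (A.kk y) d) := rfl
  rcases dir_cases d with ⟨rfl, hd⟩ | ⟨rfl, hd⟩ | ⟨rfl, hd⟩ | ⟨rfl, hd⟩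
  · rw [hd] at m2
    simp only [Prod.mk_add_mk, add_zero] at m2
    exact absurd m1 m2
  · rw [hd] at m2
    simp only [Prod.mk_add_mk, add_zero] at m2
    have e4 := side_lt (A := A) (by omega : A.ry (y + 1) < A.y1)
    have e5 := y1_ry.1 m1
    have e7 : A.y0 ≤ y := by omega
    have e8 : A.ry y = A.y1 := by rw [ry_ge _ e7]; omega
    refine ⟨?_, Or.inr ⟨e7, rfl⟩⟩
    have e9 : Ka470.sg true (1 : ZMod 4) = 3 := by decide
    rw [hup, kk_ge _ e7, e9, e8]
    exact H.fl _ g1.1 g1.2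
  · rw [hd] at m2
    simp only [Prod.mk_add_mk, add_zero] at m2
    exact absurd m1 m2
  · rw [hd] at m2
    simp only [Prod.mk_add_mk, add_zero] at m2
    have e4 := side_lt (A := A) (by omega : A.ry (y + -1) < A.y1)
    have e5 := y1_ry.1 m1
    have e7 : y < A.y0 := by omega
    have e8 : A.ry y = A.y1 := by rw [ry_lt _ e7]; omega
    refine ⟨?_, Or.inl ⟨e7, rfl⟩⟩
    have e9 : Ka470.sg false (3 : ZMod 4) = 3 := by decide
    rw [hup, kk_lt _ e7, e9, e8]
    exact H.fl _ g1.1 g1.2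

end Crest.Agent.R158.Lr158
end

-- ▼ part R158/Lr4_158

/-!
R158, block Q1d, leaf LR (helper158), part 4: **`local_rule`** and **`phi_glue`** in the four charts.
-/

set_option autoImplicit false

namespace Crest.Agent.R158.Lr158

open Crest.Agent.R158.Sw300 (Port)
open Crest.Agent.R158.Env664 (TG)
open Crest.Agent.R158.Nm211 (Dir mv dx dy)
open Crest.Agent.R158.Ka470
open Crest.Agent.R158.Ka470.Half
open Crest.Agent.R158.Nz399 (dch un jm)
open Crest.Agent.R158.Pt266 (dir)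

variable {A : Half} {ρ : ℕ}

theorem Stp.ends {h : A.Sz ρ} {i : Fin 4} {B : Set (ℤ × ℤ)} {X X' : (ℤ × ℤ) × ZMod 4} {k : ℤ}
    (hS : Stp ((chf h i).R : Set (ℤ × ℤ)) B X X' k) : REnd h i B X ∧ REnd h i B X' := by
  cases hS with
  | flat h1 h2 h3 h4 b1 b2 b3 b4 => exact ⟨⟨h1, h3, b1, b3⟩, ⟨h2, h4, b2, b4⟩⟩
  | convex h1 h2 h3 b1 b2 b3 => exact ⟨⟨h1, h2, b1, b2⟩, ⟨h1, h3, b1, b3⟩⟩
  | @reflex t d h1 h2 h3 h4 b1 b2 b3 b4 =>
    have e : t + dir (d + 1) + dir d + dir (d + 3) = t + dir d := by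
      rw [add_assoc (t + dir (d + 1)), add_assoc t, ← add_assoc (dir (d + 1)), Pt266.dir_three]
    exact ⟨⟨h1, h4, b1, b4⟩, ⟨h3, by show t + dir (d + 1) + dir d + dir (d + 3) ∉ _; rw [e]; exact h4,
      b3, by show t + dir (d + 1) + dir d + dir (d + 3) ∈ B; rw [e]; exact b4⟩⟩


theorem eps_M (h : A.Sz ρ) (X : (ℤ × ℤ) × ZMod 4) :
    eps h 2 X = if A.y0 ≤ X.1.2 then -1 else 1 := by
  have : ((chf h 2).emb X.1).2 = A.kk X.1.2 := rfl
  unfold eps
  rw [this]
  by_cases h1 : A.y0 ≤ X.1.2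
  · rw [kk_ge _ h1, if_pos h1]; rfl
  · rw [kk_lt _ (not_le.1 h1), if_neg h1]; rfl

theorem eps_S (h : A.Sz ρ) (X : (ℤ × ℤ) × ZMod 4) :
    eps h 3 X = if A.y0 ≤ X.1.2 then -1 else 1 := by
  have : ((chf h 3).emb X.1).2 = A.kk X.1.2 := rfl
  unfold eps
  rw [this]
  by_cases h1 : A.y0 ≤ X.1.2
  · rw [kk_ge _ h1, if_pos h1]; rfl
  · rw [kk_lt _ (not_le.1 h1), if_neg h1]; rfl

theorem flip0 : (0 : ZMod 4) + 3 = 3 ∧ (1 : ZMod 4) + 3 = 0 ∧ (2 : ZMod 4) + 3 = 1 ∧
    (3 : ZMod 4) + 3 = 2 := by decide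

/-- **lifted direction along a step of a chart** -/
theorem step_ps {ch : Port TG → ℝ} {ps cc : TG × ZMod 4 → ℤ} {cl : ℤ} (H : PhH A ch ps cc cl)
    {h : A.Sz ρ} {i : Fin 4} {B : Set (ℤ × ℤ)} (hB : A.Good ρ i B)
    {X X' : (ℤ × ℤ) × ZMod 4} {k : ℤ} (hS : Stp ((chf h i).R : Set (ℤ × ℤ)) B X X' k) :
    ps (upp h i X') - ps (upp h i X) = eps h i X * k ∧ eps h i X' = eps h i X := by
  fin_cases i
  · -- natural
    have h1 : Stp (A.H : Set (ℤ × ℤ)) (NM A) X X' k := hS.mono (fun v _ => Iff.rfl) hB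
    have h2 := H.st _ _ _ h1
    have e1 : eps h 0 X = 1 := rfl
    have e2 : eps h 0 X' = 1 := rfl
    have e3 : upp h 0 X = (Sum.inl X.1, X.2) := rfl
    have e4 : upp h 0 X' = (Sum.inl X'.1, X'.2) := rfl
    show ps (upp h 0 X') - ps (upp h 0 X) = eps h 0 X * k ∧ eps h 0 X' = eps h 0 X
    rw [e1, e2, e3, e4, h2]
    exact ⟨by ring, rfl⟩
  · -- mirrored
    have h1 : Stp (A.H : Set (ℤ × ℤ)) (NM A) (rfx (2 * A.y0 - 1) X') (rfx (2 * A.y0 - 1) X) k := by
      refine Stp.mirror (fun v _ => ?_) (fun v hv => hB v hv) hS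
      exact A.mem_rf
    have h2 := H.st _ _ _ h1
    have e1 : eps h 1 X = -1 := rfl
    have e2 : eps h 1 X' = -1 := rfl
    have e3 : upp h 1 X = (Sum.inl (rfx (2 * A.y0 - 1) X).1, (rfx (2 * A.y0 - 1) X).2) := rfl
    have e4 : upp h 1 X' = (Sum.inl (rfx (2 * A.y0 - 1) X').1, (rfx (2 * A.y0 - 1) X').2) := rfl
    show ps (upp h 1 X') - ps (upp h 1 X) = eps h 1 X * k ∧ eps h 1 X' = eps h 1 X
    rw [e1, e2, e3, e4, h2]
    exact ⟨by ring, rfl⟩
  · -- run
    obtain ⟨hX, hX'⟩ := hS.ends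
    obtain ⟨p1, q1, r1⟩ := endM H hB hX
    obtain ⟨p2, q2, r2⟩ := endM H hB hX'
    show ps (upp h 2 X') - ps (upp h 2 X) = eps h 2 X * k ∧ eps h 2 X' = eps h 2 X
    rw [eps_M, eps_M, p1, p2]
    have h01 := A.h1
    cases hS with
    | @flat t d h1 h2 h3 h4 b1 b2 b3 b4 =>
      have key : (A.y0 ≤ t.2 ↔ A.y0 ≤ (t + dir (d + 1)).2) := by
        simp only at q1 q2 r1 r2
        rcases dir_cases d with ⟨rfl, hd⟩ | ⟨rfl, hd⟩ | ⟨rfl, hd⟩ | ⟨rfl, hd⟩
        · have e : (t + dir ((0 : ZMod 4) + 1)).2 = t.2 + 1 := by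
            rw [d4a.1, dir1]; rfl
          rcases r1 with ⟨r1 | r1, -⟩ | ⟨-, -, r1⟩
          · exact absurd r1 (by decide)
          · exact absurd r1 (by decide)
          rcases r2 with ⟨r2 | r2, -⟩ | ⟨-, -, r2⟩
          · exact absurd r2 (by decide)
          · exact absurd r2 (by decide)
          have s1 := side_lt r1
          have s2 := side_lt r2
          omega
        · have e : (t + dir ((1 : ZMod 4) + 1)).2 = t.2 := by
            rw [d4a.2.1, dir2]; simp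
          rw [e]
        · have e : (t + dir ((2 : ZMod 4) + 1)).2 = t.2 - 1 := by
            rw [d4a.2.2.1, dir3]; rfl
          rcases r1 with ⟨r1 | r1, -⟩ | ⟨-, -, r1⟩
          · exact absurd r1 (by decide)
          · exact absurd r1 (by decide)
          rcases r2 with ⟨r2 | r2, -⟩ | ⟨-, -, r2⟩
          · exact absurd r2 (by decide)
          · exact absurd r2 (by decide)
          have s1 := side_lt r1
          have s2 := side_lt r2
          omega
        · have e : (t + dir ((3 : ZMod 4) + 1)).2 = t.2 := by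
            rw [d4a.2.2.2, dir0]; simp
          rw [e]
      simp only
      refine ⟨by ring, ?_⟩
      by_cases hc : A.y0 ≤ t.2
      · rw [if_pos hc, if_pos (key.1 hc)]
      · rw [if_neg hc, if_neg fun hh => hc (key.2 hh)]
    | @convex t d h1 h2 h3 b1 b2 b3 =>
      exfalso
      simp only at r1 r2
      rcases r1 with ⟨r1, r1'⟩ | ⟨r1, r1', -⟩ <;> rcases r2 with ⟨r2, r2'⟩ | ⟨r2, r2', -⟩
      · rcases z4 d with rfl | rfl | rfl | rfl <;> revert r1 r2 <;> decide
      · exact r1' r2'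
      · exact r2' r1'
      · rcases z4 d with rfl | rfl | rfl | rfl <;> revert r1 r2 <;> decide
    | @reflex t d h1 h2 h3 h4 b1 b2 b3 b4 =>
      -- the rows of the two tiles
      have hu : REnd h 2 B (t, d) := hX
      have g := hB _ b4
      have n4 : ¬ _ := fun hh => h4 ((memM h g).2 hh)
      have s := side_lt (A := A) (y := (t + dir d).2) (by
        by_contra hc
        exact n4 (Or.inr (by omega)))
      have b := dir_bd d
      have b' := dir_bd (d + 1)
      have hv := dir_hv d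
      have f1 : (t + dir d).2 = t.2 + (dir d).2 := rfl
      have f2 : (t + dir (d + 1) + dir d).2 = t.2 + (dir (d + 1)).2 + (dir d).2 := rfl
      have key : (A.y0 ≤ t.2 ↔ A.y0 ≤ (t + dir (d + 1) + dir d).2) := by
        rw [f2]
        rw [f1] at s
        omega
      have hkk : ((t + dir (d + 1) + dir d).2 < A.y0 ∧ t.2 < A.y0) ∨
          (A.y0 ≤ (t + dir (d + 1) + dir d).2 ∧ A.y0 ≤ t.2) := by omega
      simp only at q1 q2 ⊢
      rcases hkk with ⟨k1, k2⟩ | ⟨k1, k2⟩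
      · rw [if_neg (by omega), if_neg (by omega)]
        refine ⟨?_, rfl⟩
        have q1' : d ≠ 1 := by
          rcases q1 with q1 | q1
          · exact q1.2
          · omega
        have q2' : d + 3 ≠ 1 := by
          rcases q2 with q2 | q2
          · exact q2.2
          · omega
        rcases z4 d with rfl | rfl | rfl | rfl
        · decide
        · exact absurd rfl q1'
        · exact absurd (by decide) q2'
        · decide
      · rw [if_pos k1, if_pos k2]
        refine ⟨?_, rfl⟩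
        have q1' : d ≠ 3 := by
          rcases q1 with q1 | q1
          · omega
          · exact q1.2
        have q2' : d + 3 ≠ 3 := by
          rcases q2 with q2 | q2
          · omega
          · exact q2.2
        rcases z4 d with rfl | rfl | rfl | rfl
        · exact absurd (by decide) q2'
        · decide
        · decide
        · exact absurd rfl q1'
  · -- strip
    obtain ⟨hX, hX'⟩ := hS.ends
    obtain ⟨p1, q1⟩ := endS H hB hX
    obtain ⟨p2, q2⟩ := endS H hB hX'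
    show ps (upp h 3 X') - ps (upp h 3 X) = eps h 3 X * k ∧ eps h 3 X' = eps h 3 X
    rw [eps_S, eps_S, p1, p2]
    cases hS with
    | @flat t d h1 h2 h3 h4 b1 b2 b3 b4 =>
      simp only at q1 q2 ⊢
      refine ⟨by ring, ?_⟩
      rcases q1 with ⟨q1, rfl⟩ | ⟨q1, rfl⟩
      · rcases q2 with ⟨q2, -⟩ | ⟨q2, q2'⟩
        · rw [if_neg (by omega), if_neg (by omega)]
        · exact absurd q2' (by decide)
      · rcases q2 with ⟨q2, q2'⟩ | ⟨q2, -⟩
        · exact absurd q2' (by decide)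
        · rw [if_pos q1, if_pos q2]
    | @convex t d h1 h2 h3 b1 b2 b3 =>
      exfalso
      simp only at q1 q2
      rcases q1 with ⟨q1, rfl⟩ | ⟨q1, rfl⟩ <;> rcases q2 with ⟨q2, q2'⟩ | ⟨q2, q2'⟩ <;>
        revert q2' <;> decide
    | @reflex t d h1 h2 h3 h4 b1 b2 b3 b4 =>
      exfalso
      simp only at q1 q2
      rcases q1 with ⟨q1, rfl⟩ | ⟨q1, rfl⟩ <;> rcases q2 with ⟨q2, q2'⟩ | ⟨q2, q2'⟩ <;>
        revert q2' <;> decide

/-- **THE LOCAL RULE**: for a clockwise step `X → X'` of turning `k` in a good set of the chart `i`,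
`Phi X' - Phi X = eps (π/12 k + π/3 (Cg X - Cg X'))`. -/
theorem local_rule {ch : Port TG → ℝ} {ps cc : TG × ZMod 4 → ℤ} {cl : ℤ} (H : PhH A ch ps cc cl)
    {O : Finset (Port TG)} (hO : OpenH A O) {h : A.Sz ρ} {i : Fin 4} {B : Set (ℤ × ℤ)}
    (hB : A.Good ρ i B) {X X' : (ℤ × ℤ) × ZMod 4} {k : ℤ}
    (hS : Stp ((chf h i).R : Set (ℤ × ℤ)) B X X' k) :
    Phi ch O cl h i X' - Phi ch O cl h i X =
      eps h i X * (Real.pi / 12 * k + Real.pi / 3 * ((Cg cc cl h i X : ℝ) - Cg cc cl h i X')) := by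
  obtain ⟨hX, hX'⟩ := hS.ends
  obtain ⟨e1, e2⟩ := step_ps H hB hS
  rw [phi_end H hO hB hX, phi_end H hO hB hX', e2]
  have e3 : (ps (upp h i X') : ℝ) = ps (upp h i X) + eps h i X * k := by
    have : ps (upp h i X') = ps (upp h i X) + eps h i X * k := by linarith
    rw [this]; push_cast; ring
  rw [e3]
  push_cast
  ring

/-- the copy does not change along a step -/
theorem eps_step {ch : Port TG → ℝ} {ps cc : TG × ZMod 4 → ℤ} {cl : ℤ} (H : PhH A ch ps cc cl)
    {h : A.Sz ρ} {i : Fin 4} {B : Set (ℤ × ℤ)} (hB : A.Good ρ i B)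
    {X X' : (ℤ × ℤ) × ZMod 4} {k : ℤ} (hS : Stp ((chf h i).R : Set (ℤ × ℤ)) B X X' k) :
    eps h i X' = eps h i X := (step_ps H hB hS).2

/-! ### glue invariance -/

theorem sea_inl {v : ℤ × ℤ} {d : ZMod 4} : sea A (Sum.inl v, d) =
    if d = 0 ∧ v.1 = A.xl ∧ A.y1 ≤ v.2 ∧ v.2 < A.y0 then -1 else 0 := rfl

theorem sea_inr {v : ℤ × ℤ} {d : ZMod 4} : sea A (Sum.inr v, d) =
    if d = 2 ∧ v.1 = A.R - 1 then 1 else 0 := rfl

theorem sg_hor (k : Bool) : Ka470.sg k (0 : ZMod 4) = 0 ∧ Ka470.sg k (2 : ZMod 4) = 2 ∧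
    Ka470.sg k (1 : ZMod 4) ≠ 0 ∧ Ka470.sg k (1 : ZMod 4) ≠ 2 ∧
    Ka470.sg k (3 : ZMod 4) ≠ 0 ∧ Ka470.sg k (3 : ZMod 4) ≠ 2 := by
  cases k <;> decide

/-- the gauge is the primitive of the seam -/
theorem gauge {cl : ℤ} (h : A.Sz ρ) (i : Fin 4) {v : ℤ × ℤ} {a : ZMod 4}
    (hv : v ∈ (chf h i).R) (hv' : v + dir a ∈ (chf h i).R) :
    gg A cl i (v + dir a) - gg A cl i v = Real.pi / 3 * (cl * sea A (upp h i (v, a)) : ℤ) := by
  have hW := A.hW
  have hY := A.hY
  have hx := A.hx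
  have h01 := A.h1
  have hρ := h.pos
  have hr := h.r
  have two : ∀ (v : ℤ × ℤ) (j : Fin 4), j ≠ 2 → gg A cl j v = 0 := fun v j hj => by
    unfold gg; rw [if_neg fun hh => hj hh.1]
  fin_cases i
  · show gg A cl 0 (v + dir a) - gg A cl 0 v = _
    rw [two _ 0 (by decide), two _ 0 (by decide)]
    have e : sea A (upp h 0 (v, a)) = 0 := by
      show sea A (Sum.inl v, a) = 0
      rw [sea_inl, if_neg]
      rintro ⟨rfl, h1, h2, h3⟩
      obtain ⟨x, y⟩ := v
      rw [dir0] at hv'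
      exact A.left (x + -1) (y + 0) (by simp only at h2; omega) (by simp only at h3; omega)
        (by simp only at h1; omega) (by simp only at h1; omega) hv'
    show (0 : ℝ) - 0 = Real.pi / 3 * ((cl * sea A (upp h 0 (v, a)) : ℤ) : ℝ)
    rw [e]; simp
  · show gg A cl 1 (v + dir a) - gg A cl 1 v = _
    rw [two _ 1 (by decide), two _ 1 (by decide)]
    have e : sea A (upp h 1 (v, a)) = 0 := by
      show sea A (Sum.inl (A.rf v), -a) = 0
      rw [sea_inl, if_neg]
      rintro ⟨h0, h1, h2, h3⟩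
      have ha : a = 0 := by
        rcases z4 a with rfl | rfl | rfl | rfl
        · rfl
        · exact absurd h0 (by decide)
        · exact absurd h0 (by decide)
        · exact absurd h0 (by decide)
      subst ha
      obtain ⟨x, y⟩ := v
      rw [dir0] at hv'
      have h4 : A.rf ((x, y) + (-1, 0)) ∈ A.H := A.mem_rf.1 hv'
      have h5 : A.rf ((x, y) + (-1, 0)) = (x + -1, 2 * A.y0 - 1 - (y + 0)) := rfl
      rw [h5] at h4
      have h6 : (A.rf (x, y)).1 = x := rfl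
      have h7 : (A.rf (x, y)).2 = 2 * A.y0 - 1 - y := rfl
      rw [h6] at h1
      rw [h7] at h2 h3
      exact A.left _ _ (by omega) (by omega) (by omega) (by omega) h4
    show (0 : ℝ) - 0 = Real.pi / 3 * ((cl * sea A (upp h 1 (v, a)) : ℤ) : ℝ)
    rw [e]; simp
  · obtain ⟨x, y⟩ := v
    have m1 := A.mem_picM.1 ((Pic.mem_R _).1 hv)
    have hgg : ∀ u : ℤ × ℤ, gg A cl 2 u = if u.1 < A.xl then -(Real.pi / 3 * cl) else 0 := by
      intro u
      unfold gg
      by_cases hu : u.1 < A.xl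
      · rw [if_pos ⟨rfl, hu⟩, if_pos hu]
      · rw [if_neg fun hh => hu hh.2, if_neg hu]
    have hup : upp h 2 ((x, y), a) =
      ((if x < A.xl then Sum.inr (A.R - (A.xl - x), A.ry y) else if x ≤ A.xr then
        Sum.inl (x, A.ry y) else Sum.inr (x - A.xr - 1, A.ry y)), Ka470.sg (A.kk y) a) := rfl
    show gg A cl 2 ((x, y) + dir a) - gg A cl 2 (x, y) =
      Real.pi / 3 * ((cl * sea A (upp h 2 ((x, y), a)) : ℤ) : ℝ)
    obtain ⟨s0, s2, s1, s1', s3, s3'⟩ := sg_hor (A.kk y)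
    rw [hgg, hgg, hup]
    rcases dir_cases a with ⟨rfl, hd⟩ | ⟨rfl, hd⟩ | ⟨rfl, hd⟩ | ⟨rfl, hd⟩
    · rw [hd] at hv' ⊢
      have m2 := A.mem_picM.1 ((Pic.mem_R _).1 hv')
      simp only at m1 m2
      simp only [Prod.mk_add_mk, add_zero]
      rw [add_zero] at m2
      rw [s0]
      by_cases c1 : x < A.xl
      · rw [if_pos (by omega : x + -1 < A.xl), if_pos c1, if_pos c1, sea_inr, if_neg (by
          rintro ⟨h0, -⟩; exact absurd h0 (by decide))]
        simp
      · by_cases c2 : x ≤ A.xr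
        · by_cases c3 : x = A.xl
          · rw [if_pos (by omega : x + -1 < A.xl), if_neg c1, if_neg c1, if_pos c2, sea_inl,
              if_pos ⟨rfl, c3, by simp only; omega, by simp only; omega⟩]
            push_cast
            ring
          · rw [if_neg (by omega : ¬ x + -1 < A.xl), if_neg c1, if_neg c1, if_pos c2, sea_inl,
              if_neg fun hh => c3 hh.2.1]
            simp
        · rw [if_neg (by omega : ¬ x + -1 < A.xl), if_neg c1, if_neg c1, if_neg c2, sea_inr,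
            if_neg (by rintro ⟨h0, -⟩; exact absurd h0 (by decide))]
          simp
    · rw [hd]
      simp only [Prod.mk_add_mk, add_zero]
      have e : sea A ((if x < A.xl then Sum.inr (A.R - (A.xl - x), A.ry y) else if x ≤ A.xr then
        Sum.inl (x, A.ry y) else Sum.inr (x - A.xr - 1, A.ry y)), Ka470.sg (A.kk y) 1) = 0 := by
        split_ifs
        · rw [sea_inr, if_neg fun hh => s1' hh.1]
        · rw [sea_inl, if_neg fun hh => s1 hh.1]
        · rw [sea_inr, if_neg fun hh => s1' hh.1]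
      rw [e]
      simp
    · rw [hd] at hv' ⊢
      have m2 := A.mem_picM.1 ((Pic.mem_R _).1 hv')
      simp only at m1 m2
      simp only [Prod.mk_add_mk, add_zero]
      rw [add_zero] at m2
      rw [s2]
      by_cases c1 : x < A.xl
      · by_cases c3 : x + 1 < A.xl
        · rw [if_pos c3, if_pos c1, if_pos c1, sea_inr, if_neg (by
            rintro ⟨-, h0⟩; simp only at h0; omega)]
          simp
        · rw [if_neg c3, if_pos c1, if_pos c1, sea_inr, if_pos ⟨rfl, by simp only; omega⟩]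
          push_cast
          ring
      · rw [if_neg (by omega : ¬ x + 1 < A.xl), if_neg c1, if_neg c1]
        have e : sea A ((if x ≤ A.xr then Sum.inl (x, A.ry y) else
          Sum.inr (x - A.xr - 1, A.ry y)), 2) = 0 := by
          split_ifs
          · rw [sea_inl, if_neg fun hh => absurd hh.1 (by decide)]
          · rw [sea_inr, if_neg]
            rintro ⟨-, h0⟩
            simp only at h0
            omega
        rw [e]
        simp
    · rw [hd]
      simp only [Prod.mk_add_mk, add_zero]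
      have e : sea A ((if x < A.xl then Sum.inr (A.R - (A.xl - x), A.ry y) else if x ≤ A.xr then
        Sum.inl (x, A.ry y) else Sum.inr (x - A.xr - 1, A.ry y)), Ka470.sg (A.kk y) 3) = 0 := by
        split_ifs
        · rw [sea_inr, if_neg fun hh => s3' hh.1]
        · rw [sea_inl, if_neg fun hh => s3 hh.1]
        · rw [sea_inr, if_neg fun hh => s3' hh.1]
      rw [e]
      simp
  · show gg A cl 3 (v + dir a) - gg A cl 3 v = _
    rw [two _ 3 (by decide), two _ 3 (by decide)]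
    obtain ⟨x, y⟩ := v
    have m1 := A.mem_picS.1 ((Pic.mem_R _).1 hv)
    have e : sea A (upp h 3 ((x, y), a)) = 0 := by
      show sea A (Sum.inr (x, A.ry y), Ka470.sg (A.kk y) a) = 0
      rw [sea_inr, if_neg]
      rintro ⟨h0, h1⟩
      obtain ⟨s0, s2, s1, s1', s3, s3'⟩ := sg_hor (A.kk y)
      rcases dir_cases a with ⟨rfl, hd⟩ | ⟨rfl, hd⟩ | ⟨rfl, hd⟩ | ⟨rfl, hd⟩
      · rw [s0] at h0; exact absurd h0 (by decide)
      · exact s1' h0
      · rw [hd] at hv'
        have m2 := A.mem_picS.1 ((Pic.mem_R _).1 hv')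
        simp only at h1 m2
        omega
      · exact s3' h0
    show (0 : ℝ) - 0 = Real.pi / 3 * ((cl * sea A (upp h 3 ((x, y), a)) : ℤ) : ℝ)
    rw [e]; simp

/-- **glue invariance**: `Phi` has the same value on the two glued sides of neighbours of a chart -/
theorem phi_glue {ch : Port TG → ℝ} {ps cc : TG × ZMod 4 → ℤ} {cl : ℤ} (H : PhH A ch ps cc cl)
    {O : Finset (Port TG)} (hO : OpenH A O) {h : A.Sz ρ} {i : Fin 4} {v : ℤ × ℤ} {a : ZMod 4}
    (hv : v ∈ (chf h i).R) (hv' : v + dir a ∈ (chf h i).R) :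
    Phi ch O cl h i (v, a) = Phi ch O cl h i (v + dir a, a + 2) := by
  obtain ⟨d, h1, h2, h3⟩ := dir_mv a
  have hG := (chf h i).glue v hv d (by rw [h3]; exact hv')
  rw [chf_F, chf_F, h3, h1, h2] at hG
  have hga : gg A cl i (v + dir a) - gg A cl i v = Real.pi / 3 *
    ((cl * sea A (((chf h i).emb v).1, Ka470.sg ((chf h i).emb v).2 a) : ℤ) : ℝ) :=
    gauge (cl := cl) h i hv hv'
  have ht := tH_emb h i hv
  have ht' := tH_emb h i hv'
  unfold Phi
  simp only
  rw [dch_eq, dch_eq]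
  have u1 : upp h i (v, a) = (((chf h i).emb v).1, Ka470.sg ((chf h i).emb v).2 a) := rfl
  have u2 : upp h i (v + dir a, a + 2) = (((chf h i).emb (v + dir a)).1,
    Ka470.sg ((chf h i).emb (v + dir a)).2 (a + 2)) := rfl
  have e0 : (((chf h i).emb v, Ka470.sg false a) : (TG × Bool) × ZMod 4) =
    ((((chf h i).emb v).1, ((chf h i).emb v).2), a) := rfl
  have e0' : (((chf h i).emb (v + dir a), Ka470.sg false (a + 2)) : (TG × Bool) × ZMod 4) =
    ((((chf h i).emb (v + dir a)).1, ((chf h i).emb (v + dir a)).2), a + 2) := rfl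
  rw [e0, e0'] at hG
  rw [u1, u2]
  clear e0 e0' u1 u2
  generalize ((chf h i).emb v).1 = t at *
  generalize ((chf h i).emb v).2 = k at *
  generalize ((chf h i).emb (v + dir a)).1 = t' at *
  generalize ((chf h i).emb (v + dir a)).2 = k' at *
  -- the ports
  have key : ∀ p q : (TG × Bool) × ZMod 4, A.Gd p q → A.tH p.1.1 → A.tH q.1.1 →
      ((some (p.1.1, Ka470.sg p.1.2 p.2) : Port TG) ∉ O ∧
        (some (q.1.1, Ka470.sg q.1.2 q.2) : Port TG) ∉ O ∧
        ch (some (p.1.1, Ka470.sg p.1.2 p.2)) - ch (some (q.1.1, Ka470.sg q.1.2 q.2)) =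
          Real.pi / 3 * (cl * sea A (p.1.1, Ka470.sg p.1.2 p.2) : ℤ)) ∨
      ((some (p.1.1, Ka470.sg p.1.2 p.2) : Port TG) ∈ O ∧
        (some (q.1.1, Ka470.sg q.1.2 q.2) : Port TG) ∈ O ∧
        sea A (p.1.1, Ka470.sg p.1.2 p.2) = 0) := by
    intro p q hpq hp hq
    cases hpq with
    | @base k t t' d d' hb =>
      left
      simp only
      rw [sg_sg, sg_sg]
      refine ⟨fun hm => ?_, fun hm => ?_, H.glue _ _ hb⟩
      · obtain ⟨f1, f2⟩ := (hO _ _ hp).1 hm
        rw [f1] at hb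
        exact A.gh_top f2 _ hb
      · obtain ⟨f1, f2⟩ := (hO _ _ hq).1 hm
        rw [f1] at hb
        exact A.gh_top f2 _ (A.gh_symm _ _ hb)
    | @c1 t hc =>
      right
      have f1 : Ka470.sg false (1 : ZMod 4) = 1 := rfl
      have f2 : Ka470.sg true (3 : ZMod 4) = 1 := by decide
      simp only
      rw [f1, f2]
      refine ⟨(hO _ _ hp).2 ⟨rfl, hc⟩, (hO _ _ hq).2 ⟨rfl, hc⟩, ?_⟩
      rcases t with t | t
      · rw [sea_inl, if_neg fun hh => absurd hh.1 (by decide)]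
      · rw [sea_inr, if_neg fun hh => absurd hh.1 (by decide)]
    | @c2 t hc =>
      right
      have f1 : Ka470.sg false (1 : ZMod 4) = 1 := rfl
      have f2 : Ka470.sg true (3 : ZMod 4) = 1 := by decide
      simp only
      rw [f1, f2]
      refine ⟨(hO _ _ hp).2 ⟨rfl, hc⟩, (hO _ _ hq).2 ⟨rfl, hc⟩, ?_⟩
      rcases t with t | t
      · rw [sea_inl, if_neg fun hh => absurd hh.1 (by decide)]
      · rw [sea_inr, if_neg fun hh => absurd hh.1 (by decide)]
  rcases key _ _ hG ht ht' with ⟨k1, k2, k3⟩ | ⟨k1, k2, k3⟩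
  · simp only at k1 k2 k3
    rw [if_neg k1, if_neg k2]
    linarith
  · simp only at k1 k2 k3
    rw [if_pos k1, if_pos k2]
    rw [k3] at hga
    simp only [mul_zero, Int.cast_zero] at hga
    linarith

end Crest.Agent.R158.Lr158
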