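import Crest.Agent.R158.Mb3_331
import Crest.Agent.R158.Hb2_656

/-!
# R158, block BL (helper331): mark balls, ε-form for fixed macroscopic data

* `away` : the slit is at distance `≥ L / 2` from the hanging part
* `mb_eps` : the ε-form for `δ = -1, 0`
* **`mb_up`, `mb_dn`** : the leaves `MBup`, `MBdn` with the clockwise order (`MKm` on one side ⟹
  on both sides, and the bound)
-/

set_option autoImplicit false
set_option linter.unusedVariables false

noncomputable section

namespace Crest.Agent.R158.Mb331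

open Crest.Agent.R158.Sp896 (V)
open Crest.Agent.R158.Sw300 (Port Wd tls)
open Crest.Agent.R158.Env664
open Crest.Agent.R158.Ob664 (HG)
open Crest.Agent.R158.Hb656
open Crest.Agent.R158.Tj656 (P4)
open Crest.Agent.R158.Wd377 (MK)


/-- the slit is far from the hanging part -/
theorem away {F H : Finset V} {k i0 i1 : ℤ} {up : Bool} {a b j : ℤ}
    (cfg : Cfg F H k i0 i1 up a b j) {L x y : ℤ} (hL : 4 ≤ L) (hs : Sl L a b j x y) :
    ∀ x', x ≤ x' → x' ≤ b * L + L - 1 → ∀ t ∈ D H L, L ≤ 2 * |x' - t.1| ∨ L ≤ 2 * |y - t.2| := by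
  intro x' h1 h2 t ht
  rw [mem_D (by omega)] at ht
  have d1 := (div_iff (by omega : 0 < L) x' (x' / L)).1 rfl
  have d2 := (div_iff (by omega : 0 < L) t.1 (t.1 / L)).1 rfl
  have d3 := (div_iff (by omega : 0 < L) t.2 (t.2 / L)).1 rfl
  have k1 := hs.hx
  have k3 := hs.hy
  have k4 := hs.hy'
  have c1 : a ≤ x' / L := by
    rw [Int.le_ediv_iff_mul_le (by omega)]
    linarith
  have c2 : x' / L ≤ b := by
    have : x' / L < b + 1 := by
      rw [Int.ediv_lt_iff_lt_mul (by omega)]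
      have : (b + 1) * L = b * L + L := by ring
      omega
    omega
  rcases cfg.far _ c1 c2 _ ht with g | g
  · left
    simp only at g
    rw [le_abs] at g
    have : L ≤ |x' - t.1| := by
      rw [le_abs]
      rcases g with g | g
      · right
        have : (x' / L + 2) * L ≤ t.1 / L * L := mul_le_mul_of_nonneg_right (by omega) (by omega)
        have e : (x' / L + 2) * L = x' / L * L + 2 * L := by ring
        omega
      · left
        have : (t.1 / L + 2) * L ≤ x' / L * L := mul_le_mul_of_nonneg_right (by omega) (by omega)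
        have e : (t.1 / L + 2) * L = t.1 / L * L + 2 * L := by ring
        omega
    omega
  · right
    simp only at g
    rw [le_abs] at g
    have : L ≤ |y - t.2| := by
      rw [le_abs]
      rcases g with g | g
      · right
        have : (j + 2) * L ≤ t.2 / L * L := mul_le_mul_of_nonneg_right (by omega) (by omega)
        have e : (j + 2) * L = j * L + 2 * L := by ring
        omega
      · left
        have : (t.2 / L + 2) * L ≤ j * L := mul_le_mul_of_nonneg_right (by omega) (by omega)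
        have e : (t.2 / L + 2) * L = t.2 / L * L + 2 * L := by ring
        omega
    omega

/-- the ε-form -/
theorem mb_eps (P : P4) {H : Finset V} {k i0 i1 : ℤ} {up : Bool} {a b j : ℤ}
    (cfg : Cfg P.F H k i0 i1 up a b j) {δ : ℤ} (h1 : -1 ≤ δ) (h2 : δ ≤ 0) {ε : ℝ} (hε : 0 < ε) :
    ∃ L0 : ℤ, ∀ L : ℤ, L0 ≤ L → Even L → ∀ x y : ℤ, Sl L a b j x y → ∀ A : Finset V,
      A = shD P.F H L δ ∪ RL P.F H L δ →
      (MKm A (beD A x y (b * L + L - 1)) (fun i => mkS H L δ (RL P.F H L δ) (mt P L i)) ↔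
        MKm A (beD A x y (b * L + L - 1))
          (fun i => mkS H L (δ + 1) (LL P.F H L (δ + 1)) (mt P L i))) ∧
      (MKm A (beD A x y (b * L + L - 1)) (fun i => mkS H L δ (RL P.F H L δ) (mt P L i)) →
        ‖GH A x y (b * L + L - 1) (fun i => mkS H L δ (RL P.F H L δ) (mt P L i)) -
          GH A x y (b * L + L - 1)
            (fun i => mkS H L (δ + 1) (LL P.F H L (δ + 1)) (mt P L i))‖ ≤ ε) := by
  obtain ⟨C, q, hC, hq, h⟩ := mark_balls
  have ht : Filter.Tendsto (fun z : ℝ => C * (1 / z) ^ q) Filter.atTop (nhds 0) := by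
    have h3 : Filter.Tendsto (fun z : ℝ => C * z ^ (-q)) Filter.atTop (nhds (C * 0)) :=
      (tendsto_rpow_neg_atTop hq).const_mul C
    rw [mul_zero] at h3
    refine h3.congr' ?_
    filter_upwards [Filter.eventually_ge_atTop (0 : ℝ)] with z hz
    rw [Real.rpow_neg hz, one_div, Real.inv_rpow hz]
  obtain ⟨R, hR⟩ := Filter.eventually_atTop.1 (ht.eventually (gt_mem_nhds hε))
  refine ⟨max 64 (⌈R⌉ + 1), ?_⟩
  intro L hL hev x y hs A hA
  have hL1 : 64 ≤ L := le_trans (le_max_left _ _) hL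
  have hL2 : R ≤ (L : ℝ) := by
    have h4 : (⌈R⌉ + 1 : ℤ) ≤ L := le_trans (le_max_right _ _) hL
    have h5 : R ≤ (⌈R⌉ : ℝ) := Int.le_ceil R
    have h6 : ((⌈R⌉ : ℤ) : ℝ) ≤ L := by exact_mod_cast (by omega : ⌈R⌉ ≤ L)
    linarith
  have hb := (hR L hL2).le
  have hx := hs.hx'
  have key := h cfg.hang.sub hev hL1 h1 h2 (by omega : x ≤ b * L + L - 1)
    (away cfg (by omega) hs) (c := P.cc) (fun i i' e => by
      by_contra hne
      exact Hw949.ci_inj P hne e) (Hw949.ci_spec P)
  subst hA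
  exact ⟨key.1, fun g => (key.2 g).trans hb⟩

/-- **mark balls, UP** (the leaf `MBup` with the clockwise order) -/
theorem mb_up (P : P4) (H : Finset V) (k i0 i1 : ℤ) (a b j : ℤ)
    (cfg : Cfg P.F H k i0 i1 true a b j) (ε : ℝ) (hε : 0 < ε) :
    ∃ L0 : ℤ, ∀ L : ℤ, L0 ≤ L → Even L → ∀ x y : ℤ, Sl L a b j x y → ∀ A : Finset V,
      A = D P.F L ∪ LL P.F H L 0 →
      (MKm A (beD A x y (b * L + L - 1)) (fun i => mkS H L (-1) (RL P.F H L (-1)) (mt P L i)) ∨
        MKm A (beD A x y (b * L + L - 1)) (fun i => mkS H L 0 (LL P.F H L 0) (mt P L i))) →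
      MKm A (beD A x y (b * L + L - 1)) (fun i => mkS H L (-1) (RL P.F H L (-1)) (mt P L i)) ∧
        MKm A (beD A x y (b * L + L - 1)) (fun i => mkS H L 0 (LL P.F H L 0) (mt P L i)) ∧
      ‖GH A x y (b * L + L - 1) (fun i => mkS H L (-1) (RL P.F H L (-1)) (mt P L i)) -
        GH A x y (b * L + L - 1) (fun i => mkS H L 0 (LL P.F H L 0) (mt P L i))‖ ≤ ε := by
  obtain ⟨L0, h⟩ := mb_eps P cfg (δ := -1) (by omega) (by omega) hε
  refine ⟨max L0 1, ?_⟩
  intro L hL hev x y hs A hA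
  have hL1 : L0 ≤ L := le_trans (le_max_left _ _) hL
  have hL2 : 1 ≤ L := le_trans (le_max_right _ _) hL
  have key := h L hL1 hev x y hs A (by rw [hA, shD_m1 cfg.hang (by omega)])
  rw [show (-1 : ℤ) + 1 = 0 by ring] at key
  intro hM
  have h1 : MKm A (beD A x y (b * L + L - 1))
      (fun i => mkS H L (-1) (RL P.F H L (-1)) (mt P L i)) := hM.elim id key.1.2
  exact ⟨h1, key.1.1 h1, key.2 h1⟩

/-- **mark balls, DN** (the leaf `MBdn` with the clockwise order) -/
theorem mb_dn (P : P4) (H : Finset V) (k i0 i1 : ℤ) (a b j : ℤ)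
    (cfg : Cfg P.F H k i0 i1 false a b j) (ε : ℝ) (hε : 0 < ε) :
    ∃ L0 : ℤ, ∀ L : ℤ, L0 ≤ L → Even L → ∀ x y : ℤ, Sl L a b j x y → ∀ A : Finset V,
      A = D P.F L ∪ RL P.F H L 0 →
      (MKm A (beD A x y (b * L + L - 1)) (fun i => mkS H L 0 (RL P.F H L 0) (mt P L i)) ∨
        MKm A (beD A x y (b * L + L - 1)) (fun i => mkS H L 1 (LL P.F H L 1) (mt P L i))) →
      MKm A (beD A x y (b * L + L - 1)) (fun i => mkS H L 0 (RL P.F H L 0) (mt P L i)) ∧
        MKm A (beD A x y (b * L + L - 1)) (fun i => mkS H L 1 (LL P.F H L 1) (mt P L i)) ∧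
      ‖GH A x y (b * L + L - 1) (fun i => mkS H L 0 (RL P.F H L 0) (mt P L i)) -
        GH A x y (b * L + L - 1) (fun i => mkS H L 1 (LL P.F H L 1) (mt P L i))‖ ≤ ε := by
  obtain ⟨L0, h⟩ := mb_eps P cfg (δ := 0) (by omega) (by omega) hε
  refine ⟨max L0 1, ?_⟩
  intro L hL hev x y hs A hA
  have hL1 : L0 ≤ L := le_trans (le_max_left _ _) hL
  have hL2 : 1 ≤ L := le_trans (le_max_right _ _) hL
  have key := h L hL1 hev x y hs A (by rw [hA, shD_zero cfg.hang (by omega)])
  rw [show (0 : ℤ) + 1 = 1 by ring] at key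
  intro hM
  have h1 : MKm A (beD A x y (b * L + L - 1))
      (fun i => mkS H L 0 (RL P.F H L 0) (mt P L i)) := hM.elim id key.1.2
  exact ⟨h1, key.1.1 h1, key.2 h1⟩

end Crest.Agent.R158.Mb331
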