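import Crest.Agent.R158.Vn3_841
import Crest.Agent.R158.Vx5_107
import Crest.Agent.R158.Wf1_850
import Crest.Agent.R158.Rs10_689
import Crest.Agent.R158.Cpl6_963
import Crest.Agent.R158.Ac1_109
import Crest.Agent.R158.Cpl8_963

-- ▼ part R158/Lb1_841
section

/-!
# R158, leaf LB3 of doc 1912 (helper841), part 1: the main event of identity C, deterministic part

* `Prb V u` : `u : Face →₀ ℝ` is a probability on `V`
* `Cut z x s t` : no loop of `z` cuts `BF x s` and leaves `BF x t`; `cut_of_darm`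
* `MainD` : deterministic form of the main event (helper468's `MainC`)
* `main_mass` : on the main event, `e` open, every loop contains either the base point and both charges,
  or at most one of the charges, and at most the share `15/16` of the first one
* `main_closed` : on the main event, `e` closed, the weight vanishes
* `main_nab`, `main_weights`
-/

set_option autoImplicit false

noncomputable section

namespace Crest.Agent.R158.Lb841

open Crest.Agent.R161.Geo729 Crest.Agent.R161.Dual374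
open Crest.Agent.R161.Tas682 (sd)
open Crest.Agent.R158.It200 Crest.Agent.R158.Wf850
open Crest.Agent.R158.Rs689 (DArm PArm)
open Crest.Agent.R158.Vx107 (Fw Sw mass tot Ntr W Rest RP mass_add mass_single mass_sub mass_neg
  mass_smul AllFin nab op cl chv)
open Crest.Agent.R158.Vn841 (In In_spec mem_In In_mem sep_In eq_In Side Nest X1 X2 Y1 Y2 surg Rst
  rest_eq rst_flip rst_four)
open Real

/-! ### probability charges -/

/-- `u` is a probability on `V` -/
structure Prb (V : Finset Face) (u : Face →₀ ℝ) : Prop where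
  nn : ∀ f, 0 ≤ u f
  off : ∀ f, f ∉ V → u f = 0
  sum : ∑ f ∈ V, u f = 1

section

variable {V : Finset Face} {u : Face →₀ ℝ}

theorem Prb.mass_nonneg (h : Prb V u) (A : Finset Face) : 0 ≤ mass u A :=
  Finset.sum_nonneg fun f _ => h.nn f

theorem Prb.mass_mono (h : Prb V u) {A B : Finset Face} (hAB : A ⊆ B) : mass u A ≤ mass u B :=
  Finset.sum_le_sum_of_subset_of_nonneg hAB fun f _ _ => h.nn f

theorem Prb.mass_sub_one (h : Prb V u) {A : Finset Face} (hA : V ⊆ A) : mass u A = 1 := by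
  unfold mass
  rw [← h.sum]
  exact (Finset.sum_subset hA fun f _ hf => h.off f hf).symm

theorem Prb.mass_le_one (h : Prb V u) (A : Finset Face) : mass u A ≤ 1 := by
  classical
  rw [← h.mass_sub_one (Finset.subset_union_right (s₁ := A) (s₂ := V))]
  exact h.mass_mono Finset.subset_union_left

theorem Prb.mass_zero (h : Prb V u) {A : Finset Face} (hA : ∀ f ∈ V, f ∉ A) : mass u A = 0 :=
  Finset.sum_eq_zero fun f hf => h.off f fun h' => hA f h' hf

theorem Prb.exists_mem (h : Prb V u) {A : Finset Face} (hA : mass u A ≠ 0) : ∃ f ∈ V, f ∈ A := by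
  by_contra hcon
  push Not at hcon
  exact hA (h.mass_zero hcon)

theorem Prb.exists_not (h : Prb V u) {A : Finset Face} (hA : mass u A ≠ 1) : ∃ f ∈ V, f ∉ A := by
  by_contra hcon
  push Not at hcon
  exact hA (h.mass_sub_one hcon)

theorem Prb.mass_add_le (h : Prb V u) {A B : Finset Face} (hAB : Disjoint A B) :
    mass u A + mass u B ≤ 1 := by
  classical
  have h1 : mass u (A ∪ B) = mass u A + mass u B := by
    unfold mass; rw [Finset.sum_union hAB]
  rw [← h1]
  exact h.mass_le_one _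

theorem Prb.tot (h : Prb V u) : tot u = 1 := by
  rw [← h.sum]
  refine Finsupp.sum_of_support_subset u ?_ _ (fun _ _ => rfl)
  intro f hf
  by_contra hcon
  exact (Finsupp.mem_support_iff.1 hf) (h.off f hcon)

end





/-! ### non-crossing -/

/-- no loop cuts the small box and leaves the large one -/
def Cut (z : Cfz) (x : P2) (s t : ℤ) : Prop := ∀ A ∈ Lps z, Splits A (BF x s) → A ⊆ BF x t

theorem cut_of_darm {z : Cfz} {x : P2} {s t : ℤ} (h : z ∉ DArm x s t) : Cut z x s t := by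
  intro A hA hs
  by_contra hn
  obtain ⟨-, f, g, h1, h2, h3⟩ := cross2 hA hs hn
  exact h ⟨f, g, h1, h2, h3⟩

theorem sub_of_not_splits {A B : Finset Face} (h : ¬ Splits A B) {f : Face} (hf : f ∈ B)
    (hfA : f ∈ A) : B ⊆ A := by
  intro g hg
  by_contra hcon
  exact h ⟨⟨f, hf, hfA⟩, g, hg, hcon⟩

theorem disj_of_not_splits {A B : Finset Face} (h : ¬ Splits A B) {f : Face} (hf : f ∈ B)
    (hfA : f ∉ A) : ∀ g ∈ B, g ∉ A := by
  intro g hg hcon
  exact h ⟨⟨g, hg, hcon⟩, f, hf, hfA⟩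

/-! ### distances at the edge -/

theorem sd_tgt (e : Edge) : sd (src e) (tgt e) ≤ 1 := by
  obtain ⟨⟨a, b⟩, s⟩ := e
  cases s <;> simp [src, tgt, sd]

theorem sd_cf1 (e : Edge) : sd (src e) (fc (i1 e)) ≤ 1 := by
  have := (sd_corner (src e) (i1 e)).2
  rw [fst_i1, sd_self] at this
  linarith

theorem sd_cf2 (e : Edge) : sd (src e) (fc (i2 e)) ≤ 1 := by
  have := (sd_corner (src e) (o1 e)).2
  rw [fst_o1, sd_self] at this
  have h2 : fc (o1 e) = fc (i2 e) := by rw [← nxo_i2, fc_nxo]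
  rw [h2] at this
  linarith

/-! ### the main event -/

/-- deterministic form of the main event of identity C -/
structure MainD (z : Cfz) (e : Edge) (u u' y : P2) (n r R : ℤ) : Prop where
  fin : AllFin z
  ends : (u = src e ∧ u' = tgt e) ∨ (u = tgt e ∧ u' = src e)
  dist : sd (src e) y = n
  r1 : 1 ≤ r
  rn : 16 * r + 16 ≤ n
  nR : 6 * n ≤ R
  joint : fB e ∈ DCl (op z e) (fA e)
  v : ∃ v ∈ OCl (cl z e) u, sd y v ≤ r
  v' : ∃ v' ∈ OCl (cl z e) u', 5 * R ≤ sd (src e) v'
  c0 : Cut (cl z e) y r (2 * r + 3)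
  c1 : Cut (cl z e) y (4 * r) (8 * r + 3)
  c2 : Cut (cl z e) (src e) (2 * n - 1) (4 * n + 1)
  c3 : Cut (cl z e) (src e) (2 * R) (4 * R + 3)

section main

variable {z : Cfz} {e : Edge} {u u' y : P2} {n r R : ℤ}

theorem MainD.sdu (h : MainD z e u u' y n r R) : sd (src e) u ≤ 1 := by
  rcases h.ends with ⟨rfl, -⟩ | ⟨rfl, -⟩
  · rw [sd_self]; norm_num
  · exact sd_tgt e

theorem MainD.sdyu (h : MainD z e u u' y n r R) : n - 1 ≤ sd y u := by
  have h1 := h.sdu
  have h2 := sd_tri (src e) u y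
  rw [h.dist, sd_symm' u y] at h2
  linarith

/-- the state with `e` open has one strand at `e` -/
theorem one_of_joint (hz : AllFin z) (hj : fB e ∈ DCl (op z e) (fA e)) :
    i2 e ∈ Lp (op z e) (i1 e) := by
  by_contra hne
  have hzo := hz.op e
  have he : op z e e = true := Vx107.op_same z e
  have key : ∀ A ∈ Lps (op z e), (cf (i1 e) ∈ A ↔ cf (i2 e) ∈ A) := by
    intro A hA
    rcases Vn841.cf_cases e with ⟨a, b⟩ | ⟨a, b⟩
    · rw [a, b]; exact lps_closed hA hj
    · rw [a, b]; exact (lps_closed hA hj).symm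
  have hX1 : X1 (op z e) e = cf (i1 e) := by unfold X1; rw [he, if_pos rfl]
  have hX2 : X2 (op z e) e = cf (i2 e) := by unfold X2; rw [he, if_pos rfl]
  rcases surg (hzo (i1 e)) (hzo (i2 e)) hne with h | h | h
  · have x1 := h.x1
    rw [hX1] at x1
    have x2 := h.x2
    rw [hX2] at x2
    exact Finset.disjoint_left.1 h.dis ((key _ (In_mem (hzo (i1 e)))).1 x1) x2
  · have x1 := h.xo
    rw [hX1] at x1
    have x2 := h.sub h.xi
    rw [hX2] at x2
    exact x1 ((key _ (In_mem (hzo (i1 e)))).2 x2)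
  · have x1 := h.xo
    rw [hX2] at x1
    have x2 := h.sub h.xi
    rw [hX1] at x2
    exact x1 ((key _ (In_mem (hzo (i2 e)))).1 x2)

theorem flip_op (z : Cfz) (e : Edge) : It200.flip (op z e) e = cl z e := by
  unfold It200.flip Vx107.op Vx107.cl
  rw [Function.update_self, Function.update_idem]; rfl

/-- the corner at the vertex `u` -/
theorem MainD.two (h : MainD z e u u' y n r R) : i2 e ∉ Lp (cl z e) (i1 e) := by
  have h1 := one_of_joint h.fin h.joint
  have h2 := flip_split (h.fin.op e (i1 e)) h1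
  rwa [flip_op] at h2

theorem MainD.small (h : MainD z e u u' y n r R) {A : Finset Face} (hA : A ∈ Lps (cl z e))
    {c : Corner} (hc : c = i1 e ∨ c = i2 e) (hs : sepC A c) : A ⊆ BF (src e) (4 * n + 1) := by
  have hn : 1 ≤ 2 * n - 1 := by linarith [h.rn, h.r1]
  refine h.c2 A hA ?_
  have b1 : cv c ∈ BF (src e) (2 * n - 1) := by
    rw [mem_BF]
    rcases hc with rfl | rfl
    · show sd (src e) (i1 e).1 ≤ _
      rw [fst_i1, sd_self]; linarith
    · show sd (src e) (i2 e).1 ≤ _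
      rw [fst_i2]; linarith [sd_tgt e]
  have b2 : cf c ∈ BF (src e) (2 * n - 1) := by
    rw [mem_BF]
    rcases hc with rfl | rfl
    · show sd (src e) (fc (i1 e)) ≤ _
      linarith [sd_cf1 e]
    · show sd (src e) (fc (i2 e)) ≤ _
      linarith [sd_cf2 e]
  unfold sepC at hs
  by_cases hv : cv c ∈ A
  · exact ⟨⟨_, b1, hv⟩, _, b2, fun hf => hs ⟨fun _ => hf, fun _ => hv⟩⟩
  · have hf : cf c ∈ A := by
      by_contra hf
      exact hs ⟨fun h' => absurd h' hv, fun h' => absurd h' hf⟩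
    exact ⟨⟨_, b2, hf⟩, _, b1, hv⟩

/-- a loop inside `BF (src e) (4n+1)` does not contain `u'` -/
theorem MainD.not_u' (h : MainD z e u u' y n r R) {A : Finset Face} (hA : A ∈ Lps (cl z e))
    (hs : A ⊆ BF (src e) (4 * n + 1)) : (u', false) ∉ A := by
  intro hu
  obtain ⟨v', hv', hd⟩ := h.v'
  have h1 := hs ((lps_open hA hv').1 hu)
  rw [mem_BF] at h1
  have h2 : sd (src e) v' ≤ 4 * n + 1 := h1
  linarith [h.rn, h.r1, h.nR]

/-- **structure of the loops at `e`** -/
theorem MainD.struct (h : MainD z e u u' y n r R) : ∃ Ao Ai : Finset Face,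
    Ao ∈ Lps (cl z e) ∧ Ai ∈ Lps (cl z e) ∧
      Nest (u', false) (u, false) (cf (i1 e)) (cf (i2 e)) Ao Ai (In (op z e) (i1 e)) ∧
      Ao ⊆ BF (src e) (4 * n + 1) ∧
      ((Ao = In (cl z e) (i1 e) ∧ Ai = In (cl z e) (i2 e)) ∨
        (Ao = In (cl z e) (i2 e) ∧ Ai = In (cl z e) (i1 e))) := by
  have hne := h.two
  have hzc := h.fin.cl e
  have he : cl z e e = false := Vx107.cl_same z e
  have hX1 : X1 (cl z e) e = (src e, false) := by
    unfold X1; rw [he, if_neg (by simp), Vn841.cv_i1]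
  have hX2 : X2 (cl z e) e = (tgt e, false) := by
    unfold X2; rw [he, if_neg (by simp), Vn841.cv_i2]
  have hY1 : Y1 (cl z e) e = cf (i1 e) := by unfold Y1; rw [he, if_neg (by simp)]
  have hY2 : Y2 (cl z e) e = cf (i2 e) := by unfold Y2; rw [he, if_neg (by simp)]
  have hfl : It200.flip (cl z e) e = op z e := Vx107.flip_cl z e
  have m1 := In_mem (hzc (i1 e))
  have m2 := In_mem (hzc (i2 e))
  have s1 := h.small m1 (Or.inl rfl) ((sep_In (hzc (i1 e)) _).2 (mem_Lp_self _ _))
  have s2 := h.small m2 (Or.inr rfl) ((sep_In (hzc (i2 e)) _).2 (mem_Lp_self _ _))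
  have hs := surg (hzc (i1 e)) (hzc (i2 e)) hne
  rw [hX1, hX2, hY1, hY2, hfl] at hs
  rcases h.ends with ⟨rfl, rfl⟩ | ⟨rfl, rfl⟩
  · -- `u = src e`, `u' = tgt e`
    rcases hs with hs | hs | hs
    · exact absurd hs.x2 (h.not_u' m2 s2)
    · exact absurd hs.xi (h.not_u' m2 s2)
    · exact ⟨_, _, m2, m1, hs, s2, Or.inr ⟨rfl, rfl⟩⟩
  · rcases hs with hs | hs | hs
    · exact absurd hs.x1 (h.not_u' m1 s1)
    · exact ⟨_, _, m1, m2, hs, s1, Or.inl ⟨rfl, rfl⟩⟩
    · exact absurd hs.xi (h.not_u' m1 s1)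

/-- a loop around `u` contains the box `BF y (4r)` -/
theorem MainD.box (h : MainD z e u u' y n r R) {A : Finset Face} (hA : A ∈ Lps (cl z e))
    (hu : (u, false) ∈ A) : BF y (4 * r) ⊆ A := by
  obtain ⟨v, hv, hd⟩ := h.v
  have h1 : ¬ Splits A (BF y (4 * r)) := by
    intro hs
    have h2 := h.c1 A hA hs hu
    rw [mem_BF] at h2
    have h3 : sd y u ≤ 8 * r + 3 := h2
    linarith [h.sdyu, h.rn, h.r1]
  refine sub_of_not_splits h1 (f := (v, false)) ?_ ((lps_open hA hv).1 hu)
  rw [mem_BF]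
  show sd y v ≤ 4 * r
  linarith [h.r1]

/-- distance of the ring -/
theorem ring_far {o : P2} {R t : ℤ} (ht : t ≤ R) {A : Finset Face} (hA : A ⊆ BF o t) :
    ∀ f ∈ BF o (2 * R) \ BF o R, f ∉ A := by
  intro f hf hfA
  rw [Finset.mem_sdiff] at hf
  exact hf.2 (BF_mono ht (hA hfA))

variable {ub uw : Face →₀ ℝ}

/-- **masses on the main event**, `e` open -/
theorem MainD.masses (h : MainD z e u u' y n r R) (hb : Prb (BF y (4 * r)) ub)
    (hw : Prb (BF (src e) (2 * R) \ BF (src e) R) uw) (hb1 : 1 / 16 ≤ mass ub (BF y r))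
    (hb2 : mass ub (BF y (2 * r + 3)) ≤ 15 / 16) {A : Finset Face} (hA : A ∈ Lps (op z e)) :
    ((u, false) ∈ A ∧ mass ub A = 1 ∧ mass uw A = 1) ∨
    ((u, false) ∉ A ∧ (mass ub A = 0 ∨ mass uw A = 0) ∧ mass ub A ≤ 15 / 16) := by
  classical
  obtain ⟨Ao, Ai, mo, mi, hN, hsm, hcase⟩ := h.struct
  have hzo := h.fin.op e
  have hone := one_of_joint h.fin h.joint
  by_cases hAe : sepC A (i1 e) ∨ sepC A (i2 e)
  · -- the merged loop
    have hAeq : A = In (op z e) (i1 e) := by
      rcases hAe with hs | hs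
      · exact (eq_In hA hs).2
      · rw [(eq_In hA hs).2]
        exact Vn841.In_eq (hzo (i1 e)) hone
    right
    have hu1 : (u, false) ∈ Ai := hN.xi
    have hi : BF y (4 * r) ⊆ Ai := h.box mi hu1
    have hub : mass ub A = 0 := by
      refine hb.mass_zero fun f hf hfA => ?_
      rw [hAeq, hN.mem] at hfA
      exact hfA.2 (hi hf)
    have huw : mass uw A = 0 := by
      refine hw.mass_zero (ring_far (t := 4 * n + 1) (by linarith [h.nR, h.rn, h.r1]) ?_)
      intro f hf
      rw [hAeq, hN.mem] at hf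
      exact hsm hf.1
    refine ⟨?_, Or.inl hub, by rw [hub]; norm_num⟩
    intro hu
    rw [hAeq, hN.mem] at hu
    exact hu.2 hu1
  · -- a loop that does not visit `e`
    have hR : A ∈ Rst (op z e) e := ⟨hA, by rw [Vn841.mem_bdE']; exact hAe⟩
    have hR' : A ∈ Rst (cl z e) e := by
      rw [← flip_op, rst_flip]; exact hR
    have hAc : A ∈ Lps (cl z e) := hR'.1
    obtain ⟨f1, f2, f3⟩ := rst_four hR'
    rw [Vn841.cv_i1, Vn841.cv_i2] at f3
    have huu : (u, false) ∈ A ↔ (u', false) ∈ A := by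
      rcases h.ends with ⟨rfl, rfl⟩ | ⟨rfl, rfl⟩
      · exact f3.symm
      · exact f3
    by_cases hu : (u, false) ∈ A
    · left
      refine ⟨hu, hb.mass_sub_one (h.box hAc hu), hw.mass_sub_one ?_⟩
      obtain ⟨v', hv', hd⟩ := h.v'
      have h1 : ¬ Splits A (BF (src e) (2 * R)) := by
        intro hs
        have h2 := h.c3 A hAc hs ((lps_open hAc hv').1 (huu.1 hu))
        rw [mem_BF] at h2
        have h3 : sd (src e) v' ≤ 4 * R + 3 := h2
        linarith [h.nR, h.rn, h.r1]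
      have h2 : BF (src e) (2 * R) ⊆ A := by
        refine sub_of_not_splits h1 (f := (u, false)) ?_ hu
        rw [mem_BF]
        show sd (src e) u ≤ 2 * R
        linarith [h.sdu, h.nR, h.rn, h.r1]
      exact Finset.sdiff_subset.trans h2
    · right
      obtain ⟨v, hv, hd⟩ := h.v
      have hvA : (v, false) ∉ A := fun hvA => hu ((lps_open hAc hv).2 hvA)
      have hvb : (v, false) ∈ BF y r := by rw [mem_BF]; exact hd
      refine ⟨hu, ?_, ?_⟩
      · by_cases hub : mass ub A = 0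
        · exact Or.inl hub
        · right
          obtain ⟨f, hf, hfA⟩ := hb.exists_mem hub
          have h1 : A ⊆ BF y (8 * r + 3) :=
            h.c1 A hAc ⟨⟨f, hf, hfA⟩, _, BF_mono (by linarith [h.r1]) hvb, hvA⟩
          refine hw.mass_zero (ring_far (t := n + (8 * r + 3)) (by linarith [h.nR, h.rn, h.r1]) ?_)
          intro g hg
          have h2 := h1 hg
          rw [mem_BF] at h2 ⊢
          have h3 := sd_tri (src e) y g.1
          rw [h.dist] at h3
          linarith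
      · by_cases hs : Splits A (BF y r)
        · exact (hb.mass_mono (h.c0 A hAc hs)).trans hb2
        · have h1 := disj_of_not_splits hs hvb hvA
          have h2 : Disjoint A (BF y r) := by
            rw [Finset.disjoint_left]
            intro g hg hg'
            exact h1 g hg' hg
          have h3 := hb.mass_add_le h2
          linarith

/-- the charge of identity C (total `π`) -/
def muC (ub uw : Face →₀ ℝ) : Face →₀ ℝ := (5 * π / 6) • ub + (π / 6) • uw

theorem mass_muC (ub uw : Face →₀ ℝ) (A : Finset Face) :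
    Vx107.mass (muC ub uw) A = 5 * π / 6 * Vx107.mass ub A + π / 6 * Vx107.mass uw A := by
  unfold muC; rw [mass_add, mass_smul, mass_smul]

theorem tot_muC {V V' : Finset Face} (hb : Prb V ub) (hw : Prb V' uw) : tot (muC ub uw) = π := by
  unfold muC
  rw [Vx107.tot_add, Vx107.tot_smul, Vx107.tot_smul, hb.tot, hw.tot]; ring

theorem neg_chv (μ : Face →₀ ℝ) (v : P2) :
    -chv μ v = -μ + Finsupp.single (v, false) π := by
  unfold Vx107.chv; abel

theorem mass_neg_chv (μ : Face →₀ ℝ) (v : P2) (A : Finset Face) [Decidable ((v, false) ∈ A)] :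
    Vx107.mass (-chv μ v) A = if (v, false) ∈ A then π - Vx107.mass μ A else -Vx107.mass μ A := by
  rw [mass_neg, Vx107.mass_chv]
  split_ifs
  · ring
  · rfl

/-- **weights on the main event**, `e` open: all charges are in `[-(25π/32), 0]` -/
theorem MainD.range (h : MainD z e u u' y n r R) (hb : Prb (BF y (4 * r)) ub)
    (hw : Prb (BF (src e) (2 * R) \ BF (src e) R) uw) (hb1 : 1 / 16 ≤ Vx107.mass ub (BF y r))
    (hb2 : Vx107.mass ub (BF y (2 * r + 3)) ≤ 15 / 16) {A : Finset Face}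
    (hA : A ∈ Lps (op z e)) :
    -(25 * π / 32) ≤ Vx107.mass (-chv (muC ub uw) u) A ∧
      Vx107.mass (-chv (muC ub uw) u) A ≤ 0 := by
  classical
  have hpi := pi_pos
  have n1 := hb.mass_nonneg A
  have n2 := hw.mass_nonneg A
  have n3 := hw.mass_le_one A
  rw [mass_neg_chv, mass_muC]
  rcases h.masses hb hw hb1 hb2 hA with ⟨a, b, c⟩ | ⟨a, b, c⟩
  · rw [if_pos a, b, c]
    constructor <;> linarith
  · rw [if_neg a]
    rcases b with b | b
    · rw [b]
      constructor
      · nlinarith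
      · nlinarith
    · rw [b]
      constructor
      · nlinarith
      · nlinarith

/-- **the weight of the closed state vanishes on the main event** -/
theorem MainD.closed (h : MainD z e u u' y n r R) (hb : Prb (BF y (4 * r)) ub)
    (hw : Prb (BF (src e) (2 * R) \ BF (src e) R) uw) :
    W (-chv (muC ub uw) u) (cl z e) = 0 := by
  classical
  obtain ⟨Ao, Ai, mo, mi, hN, hsm, hcase⟩ := h.struct
  have hzc := h.fin.cl e
  have hm : Ntr (-chv (muC ub uw) u) := (Vx107.ntr_chv (tot_muC hb hw) u).neg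
  have hu : (u, false) ∈ Ao := hN.sub hN.xi
  have h0 : Fw (Vx107.mass (-chv (muC ub uw) u) Ao) = 0 := by
    rw [mass_neg_chv, if_pos hu, mass_muC, hb.mass_sub_one (h.box mo hu),
      hw.mass_zero (ring_far (t := 4 * n + 1) (by linarith [h.nR, h.rn, h.r1]) hsm)]
    unfold Fw
    rw [show π / 3 + (π - (5 * π / 6 * 1 + π / 6 * 0)) = π / 2 by ring, cos_pi_div_two, mul_zero]
  rw [Vn841.W_two' (hzc _) (hzc _) h.two hm]
  rcases hcase with ⟨a, -⟩ | ⟨a, -⟩
  · rw [← a, h0]; ring
  · rw [← a, h0]; ring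

/-- **the difference on the main event** -/
theorem MainD.nab_eq (h : MainD z e u u' y n r R) (hb : Prb (BF y (4 * r)) ub)
    (hw : Prb (BF (src e) (2 * R) \ BF (src e) R) uw) :
    nab (-chv (muC ub uw) u) e z = W (-chv (muC ub uw) u) (op z e) := by
  unfold Vx107.nab
  rw [h.closed hb hw, sub_zero]

end main

end Crest.Agent.R158.Lb841
end
end

-- ▼ part R158/Lb2_841
section

/-!
# R158, leaf LB3 of doc 1912 (helper841), part 2: sign of the difference, bad events (deterministic)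

* `fxC_in`, `fxC_out` : signs of the factors of the loops that do not visit `e`
* `neg_struct` : if `nab (-chv (muC ub uw) (src e)) e z < 0` then in the two-loop state both loops at `e`
  carry mass, no loop isolates the small charge or the two small scales, and some loop crosses one
  of the two annuli
-/

set_option autoImplicit false

noncomputable section

namespace Crest.Agent.R158.Lb841

open Crest.Agent.R161.Geo729 Crest.Agent.R161.Dual374
open Crest.Agent.R161.Tas682 (sd)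
open Crest.Agent.R158.It200 Crest.Agent.R158.Wf850
open Crest.Agent.R158.Rs689 (DArm PArm)
open Crest.Agent.R158.Vx107 (Fw Sw tot Ntr W Rest RP mass_add mass_single mass_sub mass_neg
  mass_smul AllFin nab op cl chv)
open Crest.Agent.R158.Vn841 (In In_spec mem_In In_mem sep_In eq_In Side Nest X1 X2 Y1 Y2 surg Rst
  rest_eq rst_flip rst_four fx fx_in fx_out RX Bs)
open Real Function

/-! ### trigonometry -/

theorem tr_in {t : ℝ} (h0 : 0 ≤ t) (h1 : t ≤ 1) : 0 ≤ -Fw (-(5 * π / 6 * 1 + π / 6 * t)) := by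
  have hpi := pi_pos
  have e : -Fw (-(5 * π / 6 * 1 + π / 6 * t)) = 2 * sin (π / 6 * t) := by
    unfold Fw
    rw [show π / 3 + -(5 * π / 6 * 1 + π / 6 * t) = -(π / 6 * t + π / 2) by ring, cos_neg,
      cos_add_pi_div_two]
    ring
  rw [e]
  have h2 : 0 ≤ sin (π / 6 * t) := sin_nonneg_of_nonneg_of_le_pi (by positivity) (by nlinarith)
  linarith

theorem tr_in_zero : -Fw (-(5 * π / 6 * 1 + π / 6 * 0)) = 0 := by
  unfold Fw
  rw [show π / 3 + -(5 * π / 6 * 1 + π / 6 * 0) = -(π / 2) by ring, cos_neg, cos_pi_div_two]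
  ring

theorem tr_out_s {s : ℝ} (h0 : 0 ≤ s) (h1 : s ≤ 1) : 0 ≤ Fw (-(5 * π / 6 * s + π / 6 * 0)) := by
  have hpi := pi_pos
  unfold Fw
  have h2 : 0 ≤ cos (π / 3 + -(5 * π / 6 * s + π / 6 * 0)) :=
    cos_nonneg_of_mem_Icc ⟨by nlinarith, by nlinarith⟩
  linarith

theorem tr_out_t {t : ℝ} (h0 : 0 ≤ t) (h1 : t ≤ 1) : 0 ≤ Fw (-(5 * π / 6 * 0 + π / 6 * t)) := by
  have hpi := pi_pos
  unfold Fw
  have h2 : 0 ≤ cos (π / 3 + -(5 * π / 6 * 0 + π / 6 * t)) :=
    cos_nonneg_of_mem_Icc ⟨by nlinarith, by nlinarith⟩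
  linarith

theorem sin_neg_mass {M : ℝ} (h0 : 0 ≤ M) (h1 : M ≤ π) : sin (-M) ≤ 0 := by
  rw [sin_neg]
  have := sin_nonneg_of_nonneg_of_le_pi h0 h1
  linarith

theorem sin_outer {M : ℝ} (h0 : 5 * π / 6 ≤ M) (h1 : M ≤ π) : 0 ≤ sin (-M - π / 3) := by
  have hpi := pi_pos
  have e : sin (-M - π / 3) = sin (M + π / 3 - π) := by
    rw [show -M - π / 3 = -(M + π / 3) by ring, sin_neg, sin_sub_pi]
  rw [e]
  exact sin_nonneg_of_nonneg_of_le_pi (by linarith) (by linarith)

/-- a vanishing factor -/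
theorem finprod_zero {α : Type*} {S : Set α} {f : α → ℝ} (hS : (S ∩ mulSupport f).Finite) {a : α}
    (ha : a ∈ S) (h0 : f a = 0) : ∏ᶠ i ∈ S, f i = 0 := by
  rw [finprod_mem_eq_prod _ hS]
  refine Finset.prod_eq_zero (i := a) ?_ h0
  rw [Set.Finite.mem_toFinset]
  refine ⟨ha, ?_⟩
  rw [mem_mulSupport, h0]
  norm_num

theorem rx_fin {μ : Face →₀ ℝ} (h : tot μ = -π) (u : Face) (z : Cfz) (e : Edge) :
    (Rest z e ∩ mulSupport fun A => fx μ u A).Finite := by
  have hm : Ntr (μ + Finsupp.single u π) := by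
    unfold Ntr
    rw [Vx107.tot_add, Vx107.tot_single, h]; ring
  have h1 := Vx107.fin_supp hm (z := z) (S := Rest z e) (fun A hA => hA.1)
  refine h1.subset fun A hA => ⟨hA.1, fun hcon => hA.2 ?_⟩
  dsimp only at hcon ⊢
  rw [← Vn841.Fw_base (Or.inl rfl)]
  exact hcon

section

variable {V V' : Finset Face} {ub uw : Face →₀ ℝ}

/-- mass of `muC` -/
theorem muC_range (hb : Prb V ub) (hw : Prb V' uw) (A : Finset Face) :
    0 ≤ Vx107.mass (muC ub uw) A ∧ Vx107.mass (muC ub uw) A ≤ π := by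
  have hpi := pi_pos
  have n1 := hb.mass_nonneg A
  have n2 := hw.mass_nonneg A
  have n3 := hw.mass_le_one A
  have n4 := hb.mass_le_one A
  rw [mass_muC]
  constructor
  · positivity
  · nlinarith

theorem muC_mono (hb : Prb V ub) (hw : Prb V' uw) {A B : Finset Face} (hAB : A ⊆ B) :
    Vx107.mass (muC ub uw) A ≤ Vx107.mass (muC ub uw) B := by
  have hpi := pi_pos
  have h1 := hb.mass_mono hAB
  have h2 := hw.mass_mono hAB
  rw [mass_muC, mass_muC]
  nlinarith

theorem muC_zero_iff {A : Finset Face}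
    (h : Vx107.mass (muC ub uw) A ≠ 0) : Vx107.mass ub A ≠ 0 ∨ Vx107.mass uw A ≠ 0 := by
  by_contra hcon
  push Not at hcon
  apply h
  rw [mass_muC, hcon.1, hcon.2]; ring

theorem fxC_in (hw : Prb V' uw) {u : Face} {A : Finset Face} (hu : u ∈ A)
    (hs : Vx107.mass ub A = 1) : 0 ≤ fx (-muC ub uw) u A := by
  rw [fx_in hu, mass_neg, mass_muC, hs]
  exact tr_in (hw.mass_nonneg A) (hw.mass_le_one A)

theorem fxC_in_zero {u : Face} {A : Finset Face} (hu : u ∈ A)
    (hs : Vx107.mass ub A = 1) (ht : Vx107.mass uw A = 0) : fx (-muC ub uw) u A = 0 := by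
  rw [fx_in hu, mass_neg, mass_muC, hs, ht]
  exact tr_in_zero

theorem fxC_out (hb : Prb V ub) (hw : Prb V' uw) {u : Face} {A : Finset Face} (hu : u ∉ A)
    (hs : Vx107.mass ub A = 0 ∨ Vx107.mass uw A = 0) : 0 ≤ fx (-muC ub uw) u A := by
  rw [fx_out hu, mass_neg, mass_muC]
  rcases hs with hs | hs
  · rw [hs]; exact tr_out_t (hw.mass_nonneg A) (hw.mass_le_one A)
  · rw [hs]; exact tr_out_s (hb.mass_nonneg A) (hb.mass_le_one A)

theorem fxC_out_zero {u : Face} {A : Finset Face} (hu : u ∉ A)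
    (hs : Vx107.mass ub A = 1) (ht : Vx107.mass uw A = 0) : fx (-muC ub uw) u A = 0 := by
  rw [fx_out hu, mass_neg, mass_muC, hs, ht]
  have := tr_in_zero
  linarith

end

/-- the geometry of identity C -/
structure Geo (e : Edge) (y : P2) (n r R ρ : ℤ) : Prop where
  dist : sd (src e) y = n
  r1 : 1 ≤ r
  rρ : 4 * r ≤ ρ
  ρ1 : 1 ≤ ρ
  ρn : ρ + 2 ≤ n
  nR : 2 * n ≤ R

/-- what happens in the two-loop state `z'` if the difference is negative -/
structure Bad (z' : Cfz) (e : Edge) (y : P2) (n r R ρ : ℤ) : Prop where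
  fin : AllFin z'
  two : i2 e ∉ Lp z' (i1 e)
  far1 : ¬ In z' (i1 e) ⊆ BF (src e) (n - 4 * r - 1)
  far2 : ¬ In z' (i2 e) ⊆ BF (src e) (n - 4 * r - 1)
  n1 : ∀ A ∈ Lps z', BF y (4 * r) ⊆ A → ¬ A ⊆ BF y ρ
  n2 : ∀ A ∈ Lps z', BF (src e) (2 * n - 1) ⊆ A → ¬ A ⊆ BF (src e) R
  bad : (∃ A ∈ Lps z', Splits A (BF (src e) (2 * n - 1)) ∧ ¬ A ⊆ BF (src e) R) ∨
    (∃ A ∈ Lps z', Splits A (BF y (4 * r)) ∧ ¬ A ⊆ BF y ρ)

section

variable {e : Edge} {y : P2} {n r R ρ : ℤ} {ub uw : Face →₀ ℝ}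

theorem Geo.far (g : Geo e y n r R ρ) {f : P2} (hf : sd (src e) f ≤ 1) : n - 1 ≤ sd y f := by
  have h2 := sd_tri (src e) f y
  rw [g.dist, sd_symm' f y] at h2
  linarith

/-- the four faces at `e` are near `src e` -/
theorem sd_four (e : Edge) : sd (src e) (cv (i1 e)).1 ≤ 1 ∧ sd (src e) (cf (i1 e)).1 ≤ 1 ∧
    sd (src e) (cv (i2 e)).1 ≤ 1 ∧ sd (src e) (cf (i2 e)).1 ≤ 1 := by
  refine ⟨?_, sd_cf1 e, ?_, sd_cf2 e⟩
  · show sd (src e) (i1 e).1 ≤ 1
    rw [fst_i1, sd_self]; norm_num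
  · show sd (src e) (i2 e).1 ≤ 1
    rw [fst_i2]; exact sd_tgt e

/-- faces of the small box are far from `e` -/
theorem Geo.boxfar (g : Geo e y n r R ρ) {f : Face} (hf : f ∈ BF y (4 * r)) :
    n - 4 * r ≤ sd (src e) f.1 ∧ sd (src e) f.1 ≤ 2 * n - 1 := by
  rw [mem_BF] at hf
  have h1 := sd_tri (src e) f.1 y
  rw [g.dist, sd_symm' f.1 y] at h1
  have h2 := sd_tri (src e) y f.1
  rw [g.dist] at h2
  have h3 := g.rρ
  have h4 := g.ρn
  constructor <;> linarith

/-- a loop with mass is not small -/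
theorem Geo.mass_far (g : Geo e y n r R ρ) (hb : Prb (BF y (4 * r)) ub)
    (hw : Prb (BF (src e) (2 * R) \ BF (src e) R) uw) {A : Finset Face}
    (h : Vx107.mass (muC ub uw) A ≠ 0) : ¬ A ⊆ BF (src e) (n - 4 * r - 1) := by
  intro hA
  rcases muC_zero_iff h with h | h
  · obtain ⟨f, hf, hfA⟩ := hb.exists_mem h
    have h1 := hA hfA
    rw [mem_BF] at h1
    linarith [(g.boxfar hf).1]
  · obtain ⟨f, hf, hfA⟩ := hw.exists_mem h
    exact ring_far (t := n - 4 * r - 1) (by linarith [g.nR, g.r1, g.rρ, g.ρn]) hA f hf hfA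

/-- a loop with ring mass leaves `BF (src e) R` -/
theorem ring_leaves (hw : Prb (BF (src e) (2 * R) \ BF (src e) R) uw) {A : Finset Face}
    (h : Vx107.mass uw A ≠ 0) : ¬ A ⊆ BF (src e) R := by
  intro hA
  obtain ⟨f, hf, hfA⟩ := hw.exists_mem h
  exact ring_far (t := R) le_rfl hA f hf hfA

/-- a loop with a proper share of the small charge splits the small box -/
theorem splits_small (hb : Prb (BF y (4 * r)) ub) {A : Finset Face}
    (h0 : Vx107.mass ub A ≠ 0) (h1 : Vx107.mass ub A ≠ 1) : Splits A (BF y (4 * r)) :=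
  ⟨hb.exists_mem h0, hb.exists_not h1⟩

/-- a loop that separates a corner at `e` splits the middle box -/
theorem Geo.splits_mid (g : Geo e y n r R ρ) {A : Finset Face} {f f' : Face}
    (hf : sd (src e) f.1 ≤ 1) (hf' : sd (src e) f'.1 ≤ 1) (h1 : f ∈ A) (h2 : f' ∉ A) :
    Splits A (BF (src e) (2 * n - 1)) := by
  have h3 : 1 ≤ 2 * n - 1 := by linarith [g.r1, g.rρ, g.ρn]
  exact ⟨⟨f, mem_BF.2 (hf.trans h3), h1⟩, f', mem_BF.2 (hf'.trans h3), h2⟩

/-- **structure of the configurations with a negative difference** -/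
theorem neg_struct (g : Geo e y n r R ρ) (hb : Prb (BF y (4 * r)) ub)
    (hw : Prb (BF (src e) (2 * R) \ BF (src e) R) uw) {z : Cfz} (hz : AllFin z)
    (hneg : nab (-chv (muC ub uw) (src e)) e z < 0) :
    ∃ z', (z' = z ∨ z' = It200.flip z e) ∧ Bad z' e y n r R ρ := by
  classical
  have hpi := pi_pos
  set μ := muC ub uw with hμ
  have htot : tot μ = π := tot_muC hb hw
  have htotn : tot (-μ) = -π := by rw [Vx107.tot_neg, htot]
  have hbase : -chv μ (src e) = -μ + Finsupp.single (src e, false) π := neg_chv μ _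
  have hntr : Ntr (-μ + Finsupp.single (src e, false) π) := by
    rw [← hbase]; exact (Vx107.ntr_chv htot _).neg
  have hneg' : Vn841.nab (-μ + Finsupp.single (src e, false) π) z e < 0 := by
    rw [← hbase]; exact hneg
  obtain ⟨z', hz', f1, f2, hne, hcase⟩ := Vn841.nab_cases (hz (i1 e)) (hz (i2 e))
    (Or.inl rfl : Bs π) hntr (Or.inl (Vn841.cv_i1 e).symm)
  have hzz : AllFin z' := by
    rcases hz' with rfl | rfl
    · exact hz
    · exact hz.flip e
  have hrest : Rest z e = Rest z' e := by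
    rcases hz' with rfl | rfl
    · rfl
    · rw [Vx107.rest_flip]
  have hRX : RX (-μ) (src e, false) z e = RX (-μ) (src e, false) z' e := by
    unfold Vn841.RX; rw [hrest]
  rw [hRX] at hcase
  set L1 := In z' (i1 e) with hL1
  set L2 := In z' (i2 e) with hL2
  have mL1 : L1 ∈ Lps z' := In_mem f1
  have mL2 : L2 ∈ Lps z' := In_mem f2
  have sp1 : sepC L1 (i1 e) := (sep_In f1 _).2 (mem_Lp_self _ _)
  have sp2 : sepC L2 (i2 e) := (sep_In f2 _).2 (mem_Lp_self _ _)
  obtain ⟨d1, d2, d3, d4⟩ := sd_four e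
  -- the value is not zero
  have hmne : Vx107.mass μ L1 ≠ 0 ∧ Vx107.mass μ L2 ≠ 0 ∧ RX (-μ) (src e, false) z' e ≠ 0 := by
    rcases hcase with ⟨-, h⟩ | ⟨hN, h⟩ | ⟨hN, h⟩ <;> rw [h] at hneg'
    · refine ⟨fun h0 => ?_, fun h0 => ?_, fun h0 => ?_⟩ <;> simp [mass_neg, h0] at hneg'
    · have h2 : Vx107.mass μ L2 ≠ 0 := fun h0 => by simp [mass_neg, h0] at hneg'
      refine ⟨fun h0 => ?_, h2, fun h0 => ?_⟩
      · have h3 := muC_mono hb hw hN.sub
        have h4 := (muC_range hb hw L2).1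
        exact h2 (le_antisymm (by rw [← hμ] at h3; linarith) h4)
      · simp [h0] at hneg'
    · have h2 : Vx107.mass μ L1 ≠ 0 := fun h0 => by simp [mass_neg, h0] at hneg'
      refine ⟨h2, fun h0 => ?_, fun h0 => ?_⟩
      · have h3 := muC_mono hb hw hN.sub
        have h4 := (muC_range hb hw L1).1
        exact h2 (le_antisymm (by rw [← hμ] at h3; linarith) h4)
      · simp [h0] at hneg'
  obtain ⟨hM1, hM2, hRX0⟩ := hmne
  -- no vanishing factor
  have hnz : ∀ A ∈ Rest z' e, ¬ (Vx107.mass ub A = 1 ∧ Vx107.mass uw A = 0) := by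
    rintro A hA ⟨hs, ht⟩
    apply hRX0
    unfold Vn841.RX
    refine finprod_zero (rx_fin htotn _ _ _) hA ?_
    by_cases hu : (src e, false) ∈ A
    · exact fxC_in_zero hu hs ht
    · exact fxC_out_zero hu hs ht
  -- loops which do not visit `e`
  have hoff : ∀ A ∈ Lps z', (∀ f : Face, sd (src e) f.1 ≤ 1 → f ∉ A) → A ∈ Rest z' e := by
    intro A hA h
    refine ⟨hA, ?_, ?_⟩
    · intro hs; exact hs ⟨fun h' => absurd h' (h _ d1), fun h' => absurd h' (h _ d2)⟩
    · intro hs; exact hs ⟨fun h' => absurd h' (h _ d3), fun h' => absurd h' (h _ d4)⟩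
  have hon : ∀ A ∈ Lps z', (∀ f : Face, sd (src e) f.1 ≤ 1 → f ∈ A) → A ∈ Rest z' e := by
    intro A hA h
    refine ⟨hA, ?_, ?_⟩
    · intro hs; exact hs ⟨fun _ => h _ d2, fun _ => h _ d1⟩
    · intro hs; exact hs ⟨fun _ => h _ d4, fun _ => h _ d3⟩
  have hn1 : ∀ A ∈ Lps z', BF y (4 * r) ⊆ A → ¬ A ⊆ BF y ρ := by
    intro A hA hin hout
    refine hnz A (hoff A hA fun f hf hfA => ?_) ⟨hb.mass_sub_one hin, hw.mass_zero ?_⟩
    · have h1 := hout hfA
      rw [mem_BF] at h1
      linarith [g.far hf, g.ρn]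
    · refine ring_far (t := n + ρ) (by linarith [g.ρn, g.nR]) ?_
      intro f hf
      have h1 := hout hf
      rw [mem_BF] at h1 ⊢
      have h3 := sd_tri (src e) y f.1
      rw [g.dist] at h3
      linarith
  have hn2 : ∀ A ∈ Lps z', BF (src e) (2 * n - 1) ⊆ A → ¬ A ⊆ BF (src e) R := by
    intro A hA hin hout
    refine hnz A (hon A hA fun f hf => hin ?_) ⟨hb.mass_sub_one ?_, hw.mass_zero ?_⟩
    · rw [mem_BF]; linarith [g.r1, g.rρ, g.ρn]
    · intro f hf
      apply hin
      rw [mem_BF]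
      exact (g.boxfar hf).2
    · exact ring_far (t := R) le_rfl hout
  refine ⟨z', hz', hzz, hne, g.mass_far hb hw hM1, g.mass_far hb hw hM2, hn1, hn2, ?_⟩
  -- bad loops
  by_contra hbad
  rw [not_or] at hbad
  obtain ⟨hb1, hb2⟩ := hbad
  push Not at hb1 hb2
  -- a loop with small mass, with a face near `e`, contains the whole small charge
  have hfull : ∀ A ∈ Lps z', ∀ f : Face, sd (src e) f.1 ≤ 1 → f ∈ A →
      Vx107.mass ub A = 0 ∨ Vx107.mass ub A = 1 := by
    intro A hA f hf hfA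
    by_contra hcon
    rw [not_or] at hcon
    have h1 := hb2 A hA (splits_small hb hcon.1 hcon.2) hfA
    rw [mem_BF] at h1
    linarith [g.far hf, g.ρn]
  -- a loop at `e` has no ring mass
  have hnoring : ∀ A ∈ Lps z', (∃ f f' : Face, sd (src e) f.1 ≤ 1 ∧ sd (src e) f'.1 ≤ 1 ∧ f ∈ A ∧
      f' ∉ A) → Vx107.mass uw A = 0 := by
    rintro A hA ⟨f, f', hf, hf', h1, h2⟩
    by_contra hcon
    exact ring_leaves hw hcon (hb1 A hA (g.splits_mid hf hf' h1 h2))
  have sepEx : ∀ {A : Finset Face} {c : Corner}, sepC A c → sd (src e) (cv c).1 ≤ 1 →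
      sd (src e) (cf c).1 ≤ 1 →
      ∃ f f' : Face, sd (src e) f.1 ≤ 1 ∧ sd (src e) f'.1 ≤ 1 ∧ f ∈ A ∧ f' ∉ A := by
    intro A c hs h1 h2
    unfold sepC at hs
    by_cases hv : cv c ∈ A
    · exact ⟨_, _, h1, h2, hv, fun hf => hs ⟨fun _ => hf, fun _ => hv⟩⟩
    · have hf : cf c ∈ A := by
        by_contra hf
        exact hs ⟨fun h' => absurd h' hv, fun h' => absurd h' hf⟩
      exact ⟨_, _, h2, h1, hf, hv⟩
  have ex1 := sepEx sp1 d1 d2
  have ex2 := sepEx sp2 d3 d4
  have r1 := hnoring L1 mL1 ex1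
  have r2 := hnoring L2 mL2 ex2
  -- both loops at `e` contain the whole small charge
  have s1 : Vx107.mass ub L1 = 1 := by
    obtain ⟨f, f', hf, hf', h1, h2⟩ := ex1
    rcases hfull L1 mL1 f hf h1 with h | h
    · exfalso; apply hM1; rw [hμ, mass_muC, h, r1]; ring
    · exact h
  have s2 : Vx107.mass ub L2 = 1 := by
    obtain ⟨f, f', hf, hf', h1, h2⟩ := ex2
    rcases hfull L2 mL2 f hf h1 with h | h
    · exfalso; apply hM2; rw [hμ, mass_muC, h, r2]; ring
    · exact h
  -- all the other factors are nonnegative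
  have hpos : 0 ≤ RX (-μ) (src e, false) z' e := by
    unfold Vn841.RX
    refine finprod_nonneg fun A => finprod_nonneg fun hA => ?_
    by_cases hu : (src e, false) ∈ A
    · refine fxC_in hw hu ?_
      have hu1 : sd (src e) ((src e, false) : Face).1 ≤ 1 := by rw [sd_self]; norm_num
      rcases hfull A hA.1 _ hu1 hu with h | h
      · -- then `L1 ⊆ A`
        exfalso
        have hA' : A ∈ Rst z' e := by rw [← rest_eq]; exact hA
        obtain ⟨q1, q2, q3⟩ := rst_four hA'
        rw [Vn841.cv_i1] at q1 q2 q3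
        have hsub : L1 ⊆ A := by
          rcases lam mL1 hA.1 with h' | h' | h'
          · exact h'
          · exfalso
            apply sp1
            refine ⟨fun _ => h' (q1.2 hu), fun _ => h' ?_⟩
            rw [Vn841.cv_i1]; exact hu
          · exfalso
            rw [Finset.disjoint_right] at h'
            apply sp1
            refine ⟨fun hv => absurd hv (h' ?_), fun hf => absurd hf (h' (q1.2 hu))⟩
            rw [Vn841.cv_i1]; exact hu
        have h3 := hb.mass_mono hsub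
        rw [s1, h] at h3
        linarith
      · exact h
    · refine fxC_out hb hw hu ?_
      by_contra hcon
      rw [not_or] at hcon
      refine ring_leaves hw hcon.2 (hb1 A hA.1 ?_)
      obtain ⟨f, hf, hfA⟩ := hb.exists_mem hcon.1
      refine ⟨⟨f, ?_, hfA⟩, _, ?_, hu⟩
      · rw [mem_BF]; exact (g.boxfar hf).2
      · rw [mem_BF]
        show sd (src e) (src e) ≤ 2 * n - 1
        rw [sd_self]; linarith [g.r1, g.rρ, g.ρn]
  have ms : ∀ {L : Finset Face}, Vx107.mass ub L = 1 → Vx107.mass uw L = 0 →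
      Vx107.mass μ L = 5 * π / 6 := by
    intro L h1 h2
    rw [hμ, mass_muC, h1, h2]; ring
  have v1 := ms s1 r1
  have v2 := ms s2 r2
  have t1 : sin (-(5 * π / 6)) ≤ 0 := sin_neg_mass (by positivity) (by linarith)
  have t2 : 0 ≤ sin (-(5 * π / 6) - π / 3) := sin_outer le_rfl (by linarith)
  rcases hcase with ⟨-, h⟩ | ⟨-, h⟩ | ⟨-, h⟩
  · rw [h, mass_neg, mass_neg, v1, v2] at hneg'
    have : 0 ≤ 4 * sin (-(5 * π / 6)) * sin (-(5 * π / 6)) := by nlinarith
    have := mul_nonneg this hpos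
    linarith
  · rw [h, mass_neg, mass_neg, v1, v2] at hneg'
    have : 0 ≤ -4 * sin (-(5 * π / 6) - π / 3) * sin (-(5 * π / 6)) := by nlinarith
    have := mul_nonneg this hpos
    linarith
  · rw [h, mass_neg, mass_neg, v1, v2] at hneg'
    have : 0 ≤ -4 * sin (-(5 * π / 6) - π / 3) * sin (-(5 * π / 6)) := by nlinarith
    have := mul_nonneg this hpos
    linarith

end

end Crest.Agent.R158.Lb841
end
end

-- ▼ part R158/Mc4_468

/-!
# Row 158, Block A4 / LB3 (helper468), part 4: probability of the bad events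

* `H1 x s R` : a crossing of some colour of the annulus, `H2 x s R` : crossings of both colours
* `H1_le : P(H1) ≤ 2 P1`, `H2_le : P(H2) ≤ P1 ^ 2`
* `three_indep` : `A4`, an event of the annulus around `y` and an event of the annulus around `0` are
  independent
* `bad_le` : `P(A4 ∩ ((H1 ∩ H2') ∪ (H2 ∩ H1'))) ≤ 2 P(A4) P1 P1' (P1 + P1')`
-/

set_option autoImplicit false

noncomputable section

namespace Crest.Agent.R158.Mc468

open MeasureTheory ProbabilityTheory unitInterval
open Crest.Agent.R161.Geo729 Crest.Agent.R161.Topo374 Crest.Agent.R161.Dual374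
open Crest.Agent.R161.Tas682 Crest.Agent.R161.Ring421 Crest.Agent.R161.Sym597
open Crest.Agent.R161.Ifc372 Crest.Agent.R161.Hull374 Crest.Agent.R161.Ann374
open Crest.Agent.R158.It200 (OCl DCl)
open Crest.Agent.R158.Qm522 Crest.Agent.R158.Rs689
open Crest.Agent.R158.Ru874 Crest.Agent.R158.Sp580 Crest.Agent.R158.Ac109

/-- some crossing of the annulus -/
def H1 (x : P2) (s R : ℤ) : Set Cfz := PArm x s R ∪ DArm x s R

/-- crossings of both colours -/
def H2 (x : P2) (s R : ℤ) : Set Cfz := PArm x s R ∩ DArm x s R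

theorem dep_H1 {x : P2} {s R : ℤ} (h : s ≤ R) : Dep (edF (An x (s - 1) (R + 1))) (H1 x s R) :=
  (dep_parm' h).union (dep_darm h)

theorem dep_H2 {x : P2} {s R : ℤ} (h : s ≤ R) : Dep (edF (An x (s - 1) (R + 1))) (H2 x s R) :=
  (dep_parm' h).inter (dep_darm h)

theorem H1_le (x : P2) {s R : ℤ} (h : s ≤ R) : (nu hf).real (H1 x s R) ≤ 2 * P1 s R :=
  any_le h

theorem H2_le (x : P2) {s R : ℤ} (h : s ≤ R) : (nu hf).real (H2 x s R) ≤ P1 s R * P1 s R :=
  opp_le h h

theorem dep_A4 (e : Edge) (R : ℤ) : Dep (edF {v | sd (src e) v ≤ R}) (A4 e R) := by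
  have hfin : {v : P2 | sd (src e) v ≤ R}.Finite := bl_finite _ _
  intro z z' h
  have h' := frc_congr (e := e) (b := false) h
  have key : ∀ u v : P2, OC (frc e false z) {v | sd (src e) v ≤ R} u v ↔
      OC (frc e false z') {v | sd (src e) v ≤ R} u v := fun u v =>
    oc_iff fun i h1 h2 => h' i ((mem_edF hfin).2 ⟨h1, h2⟩)
  show (_ ∧ _ ∧ _) ↔ (_ ∧ _ ∧ _)
  unfold Sp580.Arm
  simp only [key]

/-- independence of the three regions -/
theorem three_indep {e : Edge} (he : src e = (0, 0)) {y : P2} {a s R s' R' : ℤ} {A B : Set Cfz}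
    (hA : Dep (edF (An y (s - 1) (R + 1))) A) (hB : Dep (edF (An (0, 0) (s' - 1) (R' + 1))) B)
    (h1 : a + (R + 1) < sd (0, 0) y) (h2 : sd (0, 0) y + (R + 1) < s' - 1) (h3 : a < s' - 1) :
    (nu hf).real (A4 e a ∩ (A ∩ B)) =
      (nu hf).real (A4 e a) * ((nu hf).real A * (nu hf).real B) := by
  classical
  have d1 : Disjoint (edF (An y (s - 1) (R + 1))) (edF (An (0, 0) (s' - 1) (R' + 1))) := by
    refine (an_disj_in (x := (0, 0)) (y := y) ?_).symm
    exact h2
  have d2 : Disjoint (edF {v | sd (src e) v ≤ a})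
      (edF (An y (s - 1) (R + 1)) ∪ edF (An (0, 0) (s' - 1) (R' + 1))) := by
    rw [he, Finset.disjoint_left]
    intro i hi hi'
    have k1 := (of_mem_edF hi).1
    rw [Finset.mem_union] at hi'
    rcases hi' with hi' | hi'
    · have k2 := (of_mem_edF hi').1
      have k3 : sd (0, 0) (src i) ≤ a := k1
      have k4 : sd y (src i) ≤ R + 1 := k2.2
      have k5 := Ac109.sd_tri (0, 0) (src i) y
      rw [Ac109.sd_symm' (src i) y] at k5
      omega
    · have k2 := (of_mem_edF hi').1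
      have k3 : sd (0, 0) (src i) ≤ a := k1
      have k4 : s' - 1 ≤ sd (0, 0) (src i) := k2.1
      omega
  have e1 := PB_indep_real (fun _ : Edge => hf) d2 (dep_A4 e a)
    ((hA.mono Finset.subset_union_left).inter (hB.mono Finset.subset_union_right))
  have e2 := PB_indep_real (fun _ : Edge => hf) d1 hA hB
  unfold Rs689.nu
  rw [e1, e2]

/-- **probability of the bad events of LB3** -/
theorem bad_le {e : Edge} (he : src e = (0, 0)) {y : P2} {a s R s' R' : ℤ} (hs : s ≤ R)
    (hs' : s' ≤ R') (h1 : a + (R + 1) < sd (0, 0) y) (h2 : sd (0, 0) y + (R + 1) < s' - 1)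
    (h3 : a < s' - 1) :
    (nu hf).real (A4 e a ∩ ((H1 y s R ∩ H2 (0, 0) s' R') ∪ (H2 y s R ∩ H1 (0, 0) s' R'))) ≤
      2 * ((nu hf).real (A4 e a) * (P1 s R * P1 s' R' * (P1 s R + P1 s' R'))) := by
  rw [Set.inter_union_distrib_left]
  refine (measureReal_union_le _ _).trans ?_
  rw [three_indep he (dep_H1 hs) (dep_H2 hs') h1 h2 h3,
    three_indep he (dep_H2 hs) (dep_H1 hs') h1 h2 h3]
  have p0 := P1_nonneg s R
  have p0' := P1_nonneg s' R'
  have a1 : (nu hf).real (H1 y s R) * (nu hf).real (H2 (0, 0) s' R') ≤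
      (2 * P1 s R) * (P1 s' R' * P1 s' R') :=
    mul_le_mul (H1_le y hs) (H2_le _ hs') measureReal_nonneg (by positivity)
  have a2 : (nu hf).real (H2 y s R) * (nu hf).real (H1 (0, 0) s' R') ≤
      (P1 s R * P1 s R) * (2 * P1 s' R') :=
    mul_le_mul (H2_le y hs) (H1_le _ hs') measureReal_nonneg (by positivity)
  have b := @measureReal_nonneg _ _ (nu hf) (A4 e a)
  have b1 := mul_le_mul_of_nonneg_left a1 b
  have b2 := mul_le_mul_of_nonneg_left a2 b
  calc _ ≤ _ := add_le_add b1 b2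
    _ = _ := by ring

end Crest.Agent.R158.Mc468
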