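import Crest.Agent.R158.Mc4_468_Mg
import Crest.Agent.R158.Mc2_468
import Crest.Agent.R158.Vx7_107
import Crest.Agent.R158.Mc3_468
import Crest.Agent.R158.Sp5_580
import Crest.Agent.R158.Lb3_841

-- ▼ part R158/Mc5_468
section

/-!
# Row 158, Block A4 / LB3 (helper468), part 5: probability of 841's bad configurations

* `bad_H` : `Bad z'` implies crossings (`H1`/`H2`) of the two annuli, in both states at `e`
* `bad_four` : `Bad z'` implies four arms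
* `bad_prob` : the literal bound
-/

set_option autoImplicit false

noncomputable section

namespace Crest.Agent.R158.Mc468

open MeasureTheory ProbabilityTheory unitInterval
open Crest.Agent.R161.Geo729 Crest.Agent.R161.Topo374 Crest.Agent.R161.Dual374
open Crest.Agent.R161.Tas682
open Crest.Agent.R158.It200 (OCl DCl Lp fc Corner)
open Crest.Agent.R158.Qm522 Crest.Agent.R158.Rs689
open Crest.Agent.R158.Ru874 Crest.Agent.R158.Sp580 Crest.Agent.R158.Ac109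
open Crest.Agent.R158.Wf850 (Face BF mem_BF Lps Splits cross2 loop_between Cl)
open Crest.Agent.R158.Lb841 (Bad)

/-- no loop between two boxes: some crossing -/
theorem H1_of_noloop {z : Cfz} {x : P2} {s R : ℤ} (hs : 0 ≤ s)
    (h : ∀ A ∈ Lps z, BF x s ⊆ A → ¬ A ⊆ BF x R) : z ∈ H1 x s R := by
  by_contra hcon
  have h1 : ∀ f g : Face, f ∈ BF x s → Cl z f g → g ∈ BF x (R - 1) := by
    intro f g hf hfg
    by_contra hg
    rw [mem_BF] at hf hg
    apply hcon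
    rcases hfg with ⟨_, ⟨_, h3⟩ | ⟨_, h3⟩⟩
    · exact Or.inl ⟨f.1, g.1, hf, by omega, h3⟩
    · exact Or.inr ⟨f.1, g.1, hf, by omega, h3⟩
  obtain ⟨A, hA, h2, h3⟩ := loop_between hs h1
  rw [sub_add_cancel] at h3
  exact h A hA h2 h3

/-- a loop crossing the annulus: both colours cross -/
theorem H2_of_loop {z : Cfz} {x : P2} {s R : ℤ} {A : Finset Face} (hA : A ∈ Lps z)
    (h1 : Splits A (BF x s)) (h2 : ¬ A ⊆ BF x R) : z ∈ H2 x s R := by
  obtain ⟨⟨u, v, a1, a2, a3⟩, ⟨f, g, b1, b2, b3⟩⟩ := cross2 hA h1 h2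
  exact ⟨⟨u, v, a1, by omega, a3⟩, ⟨f, g, b1, b2, b3⟩⟩

/-- the crossings -/
theorem bad_H {z' : Cfz} {e : Edge} {y : P2} {n r R ρ : ℤ} (hr : 0 ≤ r) (hn : 1 ≤ n)
    (h : Bad z' e y n r R ρ) :
    z' ∈ (H1 y (4 * r) ρ ∩ H2 (src e) (2 * n - 1) R) ∪
      (H2 y (4 * r) ρ ∩ H1 (src e) (2 * n - 1) R) := by
  have a1 : z' ∈ H1 y (4 * r) ρ := H1_of_noloop (by omega) h.n1
  have a2 : z' ∈ H1 (src e) (2 * n - 1) R := H1_of_noloop (by omega) h.n2
  rcases h.bad with ⟨A, hA, h1, h2⟩ | ⟨A, hA, h1, h2⟩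
  · exact Or.inl ⟨a1, H2_of_loop hA h1 h2⟩
  · exact Or.inr ⟨H2_of_loop hA h1 h2, a2⟩

/-- four arms -/
theorem bad_four {z z' : Cfz} {e : Edge} {y : P2} {n r R ρ : ℤ} (hz : z' = z ∨ z' = It200.flip z e)
    (h : Bad z' e y n r R ρ) {N : ℕ} (hN : 1 ≤ N) (hNn : (N : ℤ) + 2 ≤ n - 4 * r) :
    z ∈ Sp580.A4 e N := by
  have hfin : Vx107.AllFin z := by
    rcases hz with rfl | rfl
    · exact h.fin
    · have := h.fin.flip e
      rwa [show It200.flip (It200.flip z e) e = z by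
        unfold It200.flip; simp] at this
  have key : ∀ L : Finset Face, ¬ L ⊆ BF (src e) (n - 4 * r - 1) →
      ∃ f ∈ L, (N : ℤ) + 2 ≤ sd (src e) f.1 := by
    intro L hL
    rw [Finset.not_subset] at hL
    obtain ⟨f, hf, hf'⟩ := hL
    refine ⟨f, hf, ?_⟩
    rw [mem_BF] at hf'
    omega
  exact Vx107.four_of_far hfin hz h.two hN (key _ h.far1) (key _ h.far2)

/-- flipping an edge outside the support -/
theorem mem_flip_of_dep {S : Finset Edge} {A : Set Cfz} (hA : Dep S A) {e : Edge} (he : e ∉ S)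
    {z : Cfz} : It200.flip z e ∈ A ↔ z ∈ A := by
  refine hA _ _ fun i hi => ?_
  have h1 : i ≠ e := by
    rintro rfl
    exact he hi
  unfold It200.flip
  rw [Function.update_of_ne h1]

theorem notMem_An {e : Edge} {x : P2} {s R : ℤ} (h : sd x (src e) < s ∨ R < sd x (src e)) :
    e ∉ edF (An x s R) := by
  intro he
  have h1 := (of_mem_edF he).1
  have h2 : s ≤ sd x (src e) ∧ sd x (src e) ≤ R := h1
  omega

/-- deterministic inclusion -/
theorem bad_sub {e : Edge} (he : src e = (0, 0)) {y : P2} {n r R ρ : ℤ} (hy : sd (0, 0) y = n)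
    (hr : 1 ≤ r) (hrρ : 4 * r ≤ ρ) (hρ : ρ + 4 ≤ n) (hR : 2 * n ≤ R) {N : ℕ} (hN : 1 ≤ N)
    (hNn : (N : ℤ) + 2 ≤ n - 4 * r) :
    {z | ∃ z', (z' = z ∨ z' = It200.flip z e) ∧ Bad z' e y n r R ρ} ⊆
      A4 e N ∩ ((H1 y (4 * r) ρ ∩ H2 (0, 0) (2 * n - 1) R) ∪
        (H2 y (4 * r) ρ ∩ H1 (0, 0) (2 * n - 1) R)) := by
  rintro z ⟨z', hz', hbad⟩
  refine ⟨bad_four hz' hbad hN hNn, ?_⟩
  have h1 := bad_H (by omega) (by omega) hbad
  rw [he] at h1
  have hye : sd y (src e) = n := by rw [he, Ac109.sd_symm', hy]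
  have n1 : e ∉ edF (An y (4 * r - 1) (ρ + 1)) := notMem_An (Or.inr (by omega))
  have n2 : e ∉ edF (An (0, 0) (2 * n - 1 - 1) (R + 1)) := by
    refine notMem_An (Or.inl ?_)
    rw [he]
    have : sd ((0, 0) : P2) (0, 0) = 0 := by simp [sd]
    rw [this]
    omega
  have d1 : ∀ z : Cfz, It200.flip z e ∈ H1 y (4 * r) ρ ↔ z ∈ H1 y (4 * r) ρ := fun _ =>
    mem_flip_of_dep (dep_H1 (by omega)) n1
  have d2 : ∀ z : Cfz, It200.flip z e ∈ H2 y (4 * r) ρ ↔ z ∈ H2 y (4 * r) ρ := fun _ =>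
    mem_flip_of_dep (dep_H2 (by omega)) n1
  have d3 : ∀ z : Cfz, It200.flip z e ∈ H1 (0, 0) (2 * n - 1) R ↔ z ∈ H1 (0, 0) (2 * n - 1) R :=
    fun _ => mem_flip_of_dep (dep_H1 (by omega)) n2
  have d4 : ∀ z : Cfz, It200.flip z e ∈ H2 (0, 0) (2 * n - 1) R ↔ z ∈ H2 (0, 0) (2 * n - 1) R :=
    fun _ => mem_flip_of_dep (dep_H2 (by omega)) n2
  rcases hz' with rfl | rfl
  · exact h1
  · rcases h1 with ⟨h1, h2⟩ | ⟨h1, h2⟩
    · exact Or.inl ⟨(d1 z).1 h1, (d4 z).1 h2⟩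
    · exact Or.inr ⟨(d2 z).1 h1, (d3 z).1 h2⟩

/-- **probability of the bad configurations of LB3** -/
theorem bad_prob : ∃ C : ℝ, 0 < C ∧ ∀ (e : Edge) (m r R : ℕ), src e = (0, 0) → 1 ≤ m → 1 ≤ r →
    r ≤ 2 * m → 4096 * m ≤ R →
    (nu hf).real {z | ∃ z', (z' = z ∨ z' = It200.flip z e) ∧
        Bad z' e (yy m) (256 * m) r R (128 * m)} ≤
      C * ((nu hf).real (A4 e (4 * m)) * (P1 (4 * r) (256 * m) * P1 (256 * m) R *
        (P1 (4 * r) (256 * m) + P1 (256 * m) R))) := by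
  obtain ⟨c, hc, hext⟩ := P1_ext 1
  refine ⟨2 * (c⁻¹ * c⁻¹ * c⁻¹), by positivity, fun e m r R he hm hr hrm hR => ?_⟩
  have hy : sd (0, 0) (yy m) = 256 * m := by
    unfold sd yy
    simp
  have h1 := bad_sub he hy (r := r) (R := R) (ρ := 128 * m) (by omega) (by omega) (by omega)
    (by omega) (N := 64 * m) (by omega) (by push_cast; omega)
  have h2 := bad_le he (y := yy m) (a := (64 * m : ℕ)) (s := 4 * r) (R := 128 * m)
    (s' := 2 * (256 * m) - 1) (R' := R) (by omega) (by omega) (by rw [hy]; push_cast; omega)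
    (by rw [hy]; omega) (by push_cast; omega)
  refine ((measureReal_mono h1).trans h2).trans ?_
  -- radii
  have k1 : P1 (4 * r) (128 * m) ≤ c⁻¹ * P1 (4 * r) (256 * m) := by
    have := hext (4 * r) (128 * m) (4 * r) (256 * m) (by omega) le_rfl (by omega) (by omega)
      (by omega) (by omega)
    rw [← div_eq_inv_mul, le_div_iff₀ hc, mul_comm]
    exact this
  have k2 : P1 (2 * (256 * m) - 1) R ≤ c⁻¹ * P1 (256 * m) R := by
    have := hext (2 * (256 * m) - 1) R (256 * m) R (by omega) (by omega) (by omega) (by omega)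
      le_rfl (by omega)
    rw [← div_eq_inv_mul, le_div_iff₀ hc, mul_comm]
    exact this
  have k3 : (nu hf).real (A4 e (64 * m : ℕ)) ≤ (nu hf).real (A4 e (4 * m)) := by
    refine measureReal_mono ?_
    rw [Cpl963.A4_eq, Cpl963.A4_eq]
    exact Cpl963.A4_shrink (by omega) (by push_cast; omega)
  have p0 := P1_nonneg (4 * r) (256 * m)
  have p1 := P1_nonneg (256 * m) R
  have p2 := P1_nonneg (4 * r) (128 * m)
  have p3 := P1_nonneg (2 * (256 * m) - 1) R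
  have k4 : P1 (4 * r) (128 * m) * P1 (2 * (256 * m) - 1) R ≤
      (c⁻¹ * P1 (4 * r) (256 * m)) * (c⁻¹ * P1 (256 * m) R) :=
    mul_le_mul k1 k2 p3 (by positivity)
  have k5 : P1 (4 * r) (128 * m) * P1 (2 * (256 * m) - 1) R *
      (P1 (4 * r) (128 * m) + P1 (2 * (256 * m) - 1) R) ≤
      ((c⁻¹ * P1 (4 * r) (256 * m)) * (c⁻¹ * P1 (256 * m) R)) *
        (c⁻¹ * P1 (4 * r) (256 * m) + c⁻¹ * P1 (256 * m) R) :=
    mul_le_mul k4 (add_le_add k1 k2) (add_nonneg p2 p3) (by positivity)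
  have k6 := mul_le_mul k3 k5 (by positivity) measureReal_nonneg
  have k7 := mul_le_mul_of_nonneg_left k6 (show (0 : ℝ) ≤ 2 by norm_num)
  refine k7.trans (le_of_eq ?_)
  ring

end Crest.Agent.R158.Mc468
end
end

-- ▼ part R158/Mc6_468
section

/-!
# Row 158, Block A4 / LB3 (helper468), part 6: the main event dominates the bad configurations

* `rsp` : `RSp c hf N` for every `N`
* `nice_poly` : `c m ^ (-K) ≤ P(NiceU e m)`, `m = 2 ^ j`
* `main_ge_four` : `c (r / R) P(A4 e (4 m)) ≤ P(MainE)` for some sides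
* `arith` : real analysis
* `dom` : `C P(Bad) ^ (1 - δ) ≤ P(MainE) ^ (1 + δ)` eventually
-/

set_option autoImplicit false

noncomputable section

namespace Crest.Agent.R158.Mc468

open MeasureTheory ProbabilityTheory unitInterval Filter Topology
open Crest.Agent.R161.Geo729 Crest.Agent.R161.Topo374 Crest.Agent.R161.Dual374
open Crest.Agent.R161.Tas682
open Crest.Agent.R158.Qm522 Crest.Agent.R158.Rs689
open Crest.Agent.R158.Ru874 Crest.Agent.R158.Sp580 Crest.Agent.R158.Ac109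
open Crest.Agent.R158.Lb841 (Bad)

theorem rsp : ∃ c : ℝ, 0 < c ∧ c ≤ 1 ∧ ∀ N : ℕ, RSp c hf N := by
  obtain ⟨c, hc, hc1, h⟩ := rsw_rect 3
  refine ⟨c, hc, hc1, fun N => ⟨hc, fun n hn _ => ?_⟩⟩
  have h1 := h (3 * n) n (by omega) (by omega) (by push_cast; omega)
  exact ⟨h1, by rw [sigma_hf]; exact h1⟩

/-- polynomial lower bound -/
theorem nice_poly : ∃ c K : ℝ, 0 < c ∧ 0 ≤ K ∧ ∀ (e : Edge) (j : ℕ), src e = (0, 0) →
    c * ((2 : ℝ) ^ j) ^ (-K) ≤ (nu hf).real (NiceU e (2 ^ j)) := by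
  obtain ⟨c0, hc0, hc1, hR⟩ := rsp
  -- K with `2 ^ (-K) ≤ c0 ^ 352 / 4`
  set q : ℝ := c0 ^ 352 / 4 with hq
  have hq0 : 0 < q := by positivity
  have hq1 : q ≤ 1 := by
    have : c0 ^ 352 ≤ 1 := pow_le_one₀ hc0.le hc1
    rw [hq]; linarith
  set K : ℝ := -Real.logb 2 q with hK
  have hK0 : 0 ≤ K := by
    have := Real.logb_nonpos (b := 2) (x := q) (by norm_num) hq0.le hq1
    rw [hK]; linarith
  have h2K : (2 : ℝ) ^ (-K) = q := by
    rw [hK, neg_neg]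
    exact Real.rpow_logb (by norm_num) (by norm_num) hq0
  refine ⟨(c0 / 2) ^ (SN 1).card, K, by positivity, hK0, fun e j he => ?_⟩
  have e1 : ∀ j : ℕ, ((2 : ℝ) ^ j) ^ (-K) = q ^ j := by
    intro j
    rw [← Real.rpow_natCast, ← Real.rpow_mul (by norm_num), mul_comm, Real.rpow_mul (by norm_num),
      h2K, Real.rpow_natCast]
  rw [e1]
  induction j with
  | zero =>
    have := nice_base (hR 1) le_rfl he
    simpa using this
  | succ j ih =>
    have h1 := niceU_ext (n := 2 ^ j) Nat.one_le_two_pow (hR _) he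
    have h2 : (nu hf).real (NiceU e (2 ^ j)) * q ≤ (nu hf).real (NiceU e (2 * 2 ^ j)) := by
      have h3 := mul_le_mul_of_nonneg_right h1 hq0.le
      refine h3.trans (le_of_eq ?_)
      rw [hq]
      field_simp
    rw [pow_succ (2 : ℕ) j, mul_comm (2 ^ j) 2]
    refine le_trans ?_ h2
    rw [pow_succ, ← mul_assoc]
    exact mul_le_mul_of_nonneg_right ih hq0.le

/-- lower bound of the main event by four arms -/
theorem main_ge : ∃ c : ℝ, 0 < c ∧ ∀ (e : Edge) (j r R : ℕ), src e = (0, 0) → 1 ≤ r →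
    r ≤ 2 * 2 ^ j → 4096 * 2 ^ j ≤ R → ∃ s t : Bool,
    c * ((nu hf).real (NiceU e (2 ^ j)) * (P1 (4 * r) (256 * (2 ^ j : ℕ)) *
      P1 (256 * (2 ^ j : ℕ)) R)) ≤ (nu hf).real (MainE e (2 ^ j) r R s t) := by
  obtain ⟨c, hc, h⟩ := mainE_prob
  refine ⟨c / 4, by positivity, fun e j r R he hr hrm hR => ?_⟩
  obtain ⟨s, t, hst⟩ := nice_choice hf e (2 ^ j)
  refine ⟨s, t, ?_⟩
  have h1 := h e (2 ^ j) r R s t Nat.one_le_two_pow hr hrm hR
  refine le_trans ?_ h1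
  have p0 : 0 ≤ P1 (4 * r) (256 * (2 ^ j : ℕ)) * P1 (256 * (2 ^ j : ℕ)) R :=
    mul_nonneg (P1_nonneg _ _) (P1_nonneg _ _)
  have k := mul_le_mul_of_nonneg_right hst p0
  have k' := mul_le_mul_of_nonneg_left k (show 0 ≤ c / 4 by positivity)
  refine k'.trans (le_of_eq ?_)
  unfold P1
  ring

/-- real analysis: the domination -/
theorem arith {a K0 : ℝ} (ha : 0 < a) (hK : 0 ≤ K0) : ∃ δ0 : ℝ, 0 < δ0 ∧ δ0 ≤ 1 / 2 ∧
    ∀ δ : ℝ, 0 < δ → δ ≤ δ0 → ∀ c C C2 : ℝ, 0 < c → 0 < C → 0 < C2 →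
    ∀ᶠ x : ℝ in atTop, ∀ M B : ℝ, 0 ≤ B → c * x ^ (-K0) ≤ M →
      B ≤ C2 * x ^ (-a) * M → C * B ^ (1 - δ) ≤ M ^ (1 + δ) := by
  refine ⟨min (1 / 2) (a / (8 * (K0 + 1))), lt_min (by norm_num) (by positivity), min_le_left _ _,
    fun δ hδ hδ0 c C C2 hc hC hC2 => ?_⟩
  have d1 : δ ≤ 1 / 2 := hδ0.trans (min_le_left _ _)
  have d2 : δ * (8 * (K0 + 1)) ≤ a := by
    have := hδ0.trans (min_le_right _ _)
    rwa [le_div_iff₀ (by positivity)] at this
  have d3 : 2 * δ * K0 ≤ a / 4 := by nlinarith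
  have hlim : Tendsto (fun x : ℝ => (C * C2 ^ (1 - δ) * c ^ (-(2 * δ))) * x ^ (-(a / 4))) atTop
      (𝓝 ((C * C2 ^ (1 - δ) * c ^ (-(2 * δ))) * 0)) :=
    (tendsto_rpow_neg_atTop (by positivity : 0 < a / 4)).const_mul _
  rw [mul_zero] at hlim
  filter_upwards [eventually_ge_atTop (1 : ℝ), hlim.eventually_lt_const one_pos] with x hx hx1
  intro M B hB hM hBM
  have x0 : 0 < x := by linarith
  have hM0 : 0 < M := lt_of_lt_of_le (by positivity) hM
  -- B ^ (1-δ)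
  have b1 : B ^ (1 - δ) ≤ C2 ^ (1 - δ) * x ^ (-a * (1 - δ)) * M ^ (1 - δ) := by
    calc B ^ (1 - δ) ≤ (C2 * x ^ (-a) * M) ^ (1 - δ) :=
          Real.rpow_le_rpow hB hBM (by linarith)
      _ = C2 ^ (1 - δ) * x ^ (-a * (1 - δ)) * M ^ (1 - δ) := by
          rw [Real.mul_rpow (by positivity) hM0.le, Real.mul_rpow hC2.le (by positivity),
            ← Real.rpow_mul x0.le]
  have b2 : M ^ (1 - δ) = M ^ (-(2 * δ)) * M ^ (1 + δ) := by
    rw [← Real.rpow_add hM0]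
    congr 1
    ring
  have b3 : M ^ (-(2 * δ)) ≤ c ^ (-(2 * δ)) * x ^ (2 * δ * K0) := by
    calc M ^ (-(2 * δ)) ≤ (c * x ^ (-K0)) ^ (-(2 * δ)) :=
          Real.rpow_le_rpow_of_nonpos (by positivity) hM (by linarith)
      _ = c ^ (-(2 * δ)) * x ^ (2 * δ * K0) := by
          rw [Real.mul_rpow hc.le (by positivity), ← Real.rpow_mul x0.le]
          congr 2
          ring
  have b4 : x ^ (-a * (1 - δ)) * x ^ (2 * δ * K0) ≤ x ^ (-(a / 4)) := by
    rw [← Real.rpow_add x0]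
    refine Real.rpow_le_rpow_of_exponent_le hx ?_
    nlinarith
  have m1 : 0 ≤ M ^ (1 + δ) := by positivity
  calc C * B ^ (1 - δ)
      ≤ C * (C2 ^ (1 - δ) * x ^ (-a * (1 - δ)) * M ^ (1 - δ)) :=
        mul_le_mul_of_nonneg_left b1 hC.le
    _ = (C * C2 ^ (1 - δ) * x ^ (-a * (1 - δ)) * M ^ (1 + δ)) * M ^ (-(2 * δ)) := by
        rw [b2]; ring
    _ ≤ (C * C2 ^ (1 - δ) * x ^ (-a * (1 - δ)) * M ^ (1 + δ)) *
          (c ^ (-(2 * δ)) * x ^ (2 * δ * K0)) :=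
        mul_le_mul_of_nonneg_left b3 (by positivity)
    _ = (C * C2 ^ (1 - δ) * c ^ (-(2 * δ))) * (x ^ (-a * (1 - δ)) * x ^ (2 * δ * K0)) *
          M ^ (1 + δ) := by ring
    _ ≤ (C * C2 ^ (1 - δ) * c ^ (-(2 * δ))) * x ^ (-(a / 4)) * M ^ (1 + δ) :=
        mul_le_mul_of_nonneg_right (mul_le_mul_of_nonneg_left b4 (by positivity)) m1
    _ ≤ 1 * M ^ (1 + δ) := mul_le_mul_of_nonneg_right hx1.le m1
    _ = M ^ (1 + δ) := one_mul _

/-- the bad configurations -/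
def BadS (e : Edge) (m r R : ℕ) : Set Cfz :=
  {z | ∃ z', (z' = z ∨ z' = It200.flip z e) ∧ Bad z' e (yy m) (256 * m) r R (128 * m)}

/-- **domination**: `m = 2 ^ j`, `r ≤ m ^ (1 - η)`, `m ^ (1 + η) ≤ R ≤ m ^ A` -/
theorem dom {η A : ℝ} (hη : 0 < η) (hA : 0 < A) : ∃ δ0 : ℝ, 0 < δ0 ∧ δ0 ≤ 1 / 2 ∧ ∃ c : ℝ, 0 < c ∧
    ∃ c2 K2 : ℝ, 0 < c2 ∧ 0 ≤ K2 ∧ ∀ δ : ℝ, 0 < δ → δ ≤ δ0 → ∀ C : ℝ, 0 < C → ∀ᶠ j : ℕ in atTop, ∀ r R : ℕ, 1 ≤ r →
      (r : ℝ) ≤ ((2 : ℝ) ^ j) ^ (1 - η) → ((2 : ℝ) ^ j) ^ (1 + η) ≤ R →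
      (R : ℝ) ≤ ((2 : ℝ) ^ j) ^ A → ∀ e : Edge, src e = (0, 0) → ∃ s t : Bool,
        C * (nu hf).real (BadS e (2 ^ j) r R) ^ (1 - δ) ≤
          (nu hf).real (MainE e (2 ^ j) r R s t) ^ (1 + δ) ∧
        c * ((r : ℝ) / R) * (nu hf).real (A4 e (4 * (2 ^ j : ℕ))) ≤
          (nu hf).real (MainE e (2 ^ j) r R s t) ∧
        c2 * ((2 : ℝ) ^ j) ^ (-K2) ≤ (nu hf).real (MainE e (2 ^ j) r R s t) := by
  obtain ⟨c0, hc0, hc01, hRS⟩ := rsp
  obtain ⟨K, hK, hsep⟩ := sep_in hc0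
  obtain ⟨cn, Kn, hcn, hKn, hpoly⟩ := nice_poly
  obtain ⟨cm, hcm, hmain⟩ := main_ge
  obtain ⟨Cb, hCb, hbad⟩ := bad_prob
  obtain ⟨C1, a, hC1, ha, hle⟩ := P1_le
  obtain ⟨c1, hc1, hge⟩ := P1_ge
  obtain ⟨δ0, hδ0, hδ01, har⟩ := arith (a := η * a) (K0 := Kn + A) (by positivity) (by positivity)
  refine ⟨δ0, hδ0, hδ01, cm * (K⁻¹ * (c1 * 4 * c1)), by positivity, cm * (cn * (c1 * 4 * c1)),
    Kn + A, by positivity, by positivity, fun δ hδ hδδ C hC => ?_⟩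
  have h1 := har δ hδ hδδ (cm * (cn * (c1 * 4 * c1))) C
    (Cb * K / cm * (C1 * 1 + C1 * (256 : ℝ) ^ a)) (by positivity) hC (by positivity)
  have htend : Tendsto (fun j : ℕ => (2 : ℝ) ^ j) atTop atTop :=
    tendsto_pow_atTop_atTop_of_one_lt (by norm_num)
  have hη' : Tendsto (fun j : ℕ => ((2 : ℝ) ^ j) ^ η) atTop atTop :=
    (tendsto_rpow_atTop hη).comp htend
  filter_upwards [htend.eventually h1, hη'.eventually_ge_atTop 4096] with j hj hj2
  intro r R hr hrj hRj hRA e he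
  set x : ℝ := (2 : ℝ) ^ j with hx
  have x1 : 1 ≤ x := one_le_pow₀ (by norm_num)
  have x0 : 0 < x := by linarith
  have hxm : ((2 ^ j : ℕ) : ℝ) = x := by push_cast; rfl
  have r0 : (1 : ℝ) ≤ r := by exact_mod_cast hr
  have hrx : (r : ℝ) ≤ x * x ^ (-η) := by
    have : x ^ (1 - η) = x * x ^ (-η) := by
      rw [sub_eq_add_neg, Real.rpow_add x0, Real.rpow_one]
    rw [← this]; exact hrj
  have hRx : x * x ^ η ≤ R := by
    have : x ^ (1 + η) = x * x ^ η := by rw [Real.rpow_add x0, Real.rpow_one]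
    rw [← this]; exact hRj
  have hxη : x ^ (-η) ≤ 1 := Real.rpow_le_one_of_one_le_of_nonpos x1 (by linarith)
  -- integer inequalities
  have hrm : r ≤ 2 * 2 ^ j := by
    have : (r : ℝ) ≤ ((2 * 2 ^ j : ℕ) : ℝ) := by
      push_cast
      rw [← hx]
      nlinarith
    exact_mod_cast this
  have hR : 4096 * 2 ^ j ≤ R := by
    have : ((4096 * 2 ^ j : ℕ) : ℝ) ≤ R := by
      push_cast
      rw [← hx]
      nlinarith
    exact_mod_cast this
  have R0 : (0 : ℝ) < R := by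
    have : 0 < R := lt_of_lt_of_le (by positivity) hR
    exact_mod_cast this
  obtain ⟨s, t, hM⟩ := hmain e j r R he hr hrm hR
  refine ⟨s, t, ?_⟩
  set M := (nu hf).real (MainE e (2 ^ j) r R s t) with hMdef
  set N := (nu hf).real (NiceU e (2 ^ j)) with hN
  set p := P1 (4 * r) (256 * (2 ^ j : ℕ)) with hp
  set p' := P1 (256 * (2 ^ j : ℕ)) R with hp'
  have hN0 : 0 ≤ N := measureReal_nonneg
  have hp0 : 0 ≤ p := P1_nonneg _ _
  have hp'0 : 0 ≤ p' := P1_nonneg _ _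
  -- lower bounds for the one-arm probabilities
  have q1 : c1 * (4 * r / (256 * x)) ≤ p := by
    have := hge (4 * r) (256 * (2 ^ j : ℕ)) (by omega) (by omega)
    push_cast at this
    rw [← hx] at this
    exact this
  have q2 : c1 * (256 * x / R) ≤ p' := by
    have := hge (256 * (2 ^ j : ℕ)) R (by
      have : 1 ≤ 2 ^ j := Nat.one_le_two_pow
      omega) (by omega)
    push_cast at this
    rw [← hx] at this
    exact this
  have q3 : c1 * 4 * c1 * ((r : ℝ) / R) ≤ p * p' := by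
    refine le_trans (le_of_eq ?_) (mul_le_mul q1 q2 (by positivity) hp0)
    field_simp
  -- upper bounds
  have u1 : p ≤ C1 * 1 * x ^ (-(η * a)) := by
    have := hle (4 * r) (256 * (2 ^ j : ℕ)) (by omega) (by omega)
    push_cast at this
    rw [← hx] at this
    refine this.trans ?_
    rw [mul_one]
    refine mul_le_mul_of_nonneg_left ?_ hC1.le
    rw [← neg_mul, Real.rpow_mul x0.le]
    refine Real.rpow_le_rpow (by positivity) ?_ ha.le
    rw [div_le_iff₀ (by positivity)]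
    nlinarith [Real.rpow_pos_of_pos x0 (-η)]
  have u2 : p' ≤ C1 * (256 : ℝ) ^ a * x ^ (-(η * a)) := by
    have := hle (256 * (2 ^ j : ℕ)) R (by
      have : 1 ≤ 2 ^ j := Nat.one_le_two_pow
      omega) (by omega)
    push_cast at this
    rw [← hx] at this
    refine this.trans ?_
    rw [mul_assoc]
    refine mul_le_mul_of_nonneg_left ?_ hC1.le
    rw [← neg_mul, Real.rpow_mul x0.le, ← Real.mul_rpow (by norm_num) (by positivity)]
    refine Real.rpow_le_rpow (by positivity) ?_ ha.le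
    rw [div_le_iff₀ R0]
    have h3 : x ^ (-η) * (x * x ^ η) = x := by
      rw [← mul_assoc, mul_comm (x ^ (-η)) x, mul_assoc, ← Real.rpow_add x0, neg_add_cancel,
        Real.rpow_zero, mul_one]
    have h4 := mul_le_mul_of_nonneg_left hRx (Real.rpow_pos_of_pos x0 (-η)).le
    rw [h3] at h4
    nlinarith
  -- four arms
  have f1 : (nu hf).real (A4 e (4 * (2 ^ j : ℕ))) ≤ K * N := by
    have := hsep hf j (hRS _) e he
    have e2 : ((2 : ℤ) ^ (j + 2)) = 4 * ((2 ^ j : ℕ) : ℤ) := by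
      push_cast; rw [pow_add]; ring
    rw [e2] at this
    exact this
  have f0 : 0 ≤ (nu hf).real (A4 e (4 * (2 ^ j : ℕ))) := measureReal_nonneg
  -- the bad set
  have g1 : (nu hf).real (BadS e (2 ^ j) r R) ≤
      (Cb * K / cm * (C1 * 1 + C1 * (256 : ℝ) ^ a)) * x ^ (-(η * a)) * M := by
    have h2 := hbad e (2 ^ j) r R he Nat.one_le_two_pow hr hrm hR
    have h3 : (nu hf).real (BadS e (2 ^ j) r R) ≤
        Cb * ((K * N) * (p * p' * (C1 * 1 * x ^ (-(η * a)) + C1 * (256 : ℝ) ^ a * x ^ (-(η * a))))) := by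
      refine h2.trans (mul_le_mul_of_nonneg_left ?_ hCb.le)
      refine mul_le_mul f1 ?_ (by positivity) (by positivity)
      exact mul_le_mul_of_nonneg_left (add_le_add u1 u2) (by positivity)
    refine h3.trans ?_
    have h4 : N * (p * p') ≤ M / cm := by
      rw [le_div_iff₀ hcm, mul_comm]
      exact hM
    have h5 : 0 ≤ Cb * K * (C1 * 1 * x ^ (-(η * a)) + C1 * (256 : ℝ) ^ a * x ^ (-(η * a))) := by
      positivity
    calc Cb * ((K * N) * (p * p' * (C1 * 1 * x ^ (-(η * a)) + C1 * (256 : ℝ) ^ a * x ^ (-(η * a)))))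
        = Cb * K * (C1 * 1 * x ^ (-(η * a)) + C1 * (256 : ℝ) ^ a * x ^ (-(η * a))) *
            (N * (p * p')) := by ring
      _ ≤ Cb * K * (C1 * 1 * x ^ (-(η * a)) + C1 * (256 : ℝ) ^ a * x ^ (-(η * a))) *
            (M / cm) := mul_le_mul_of_nonneg_left h4 h5
      _ = _ := by ring
  -- polynomial lower bound
  have g2 : cm * (cn * (c1 * 4 * c1)) * x ^ (-(Kn + A)) ≤ M := by
    refine le_trans ?_ hM
    have h2 : cn * x ^ (-Kn) ≤ N := hpoly e j he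
    have h3 : x ^ (-A) ≤ (r : ℝ) / R := by
      rw [Real.rpow_neg x0.le, le_div_iff₀ R0]
      have h5 : (x ^ A)⁻¹ * R ≤ 1 := by
        rw [inv_mul_le_iff₀ (by positivity), mul_one]
        exact hRA
      linarith
    have h4 : cn * x ^ (-Kn) * (c1 * 4 * c1 * x ^ (-A)) ≤ N * (p * p') :=
      mul_le_mul h2 ((mul_le_mul_of_nonneg_left h3 (by positivity)).trans q3) (by positivity) hN0
    refine le_trans (le_of_eq ?_) (mul_le_mul_of_nonneg_left h4 hcm.le)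
    rw [neg_add, Real.rpow_add x0]
    ring
  refine ⟨hj M _ measureReal_nonneg g2 g1, ?_, g2⟩
  · refine le_trans ?_ hM
    have h2 : K⁻¹ * (nu hf).real (A4 e (4 * (2 ^ j : ℕ))) ≤ N := by
      rw [inv_mul_le_iff₀ hK]
      exact f1
    have h4 : K⁻¹ * (nu hf).real (A4 e (4 * (2 ^ j : ℕ))) * (c1 * 4 * c1 * ((r : ℝ) / R)) ≤
        N * (p * p') := mul_le_mul h2 q3 (by positivity) hN0
    refine le_trans (le_of_eq ?_) (mul_le_mul_of_nonneg_left h4 hcm.le)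
    ring

end Crest.Agent.R158.Mc468
end
end

-- ▼ part R158/Mc7_468

/-!
# Row 158, Block A4 / LB3 (helper468), part 7: choice of the scales (dyadic `m = 2 ^ j`)

* `rr τ m = ⌊(256 m)^(1-τ)⌋₊`, `RR τ m = ⌈(256 m)^(1+τ)⌉₊`
* `arith841` : the arithmetic of LB3 in helper841's literal form
-/

set_option autoImplicit false

noncomputable section

namespace Crest.Agent.R158.Mc468

open MeasureTheory ProbabilityTheory unitInterval Filter Topology
open Crest.Agent.R161.Geo729 Crest.Agent.R161.Topo374 Crest.Agent.R161.Dual374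
open Crest.Agent.R161.Tas682
open Crest.Agent.R158.Qm522 Crest.Agent.R158.Rs689
open Crest.Agent.R158.Ru874 Crest.Agent.R158.Sp580 Crest.Agent.R158.Ac109
open Crest.Agent.R158.Lb841 (Bad Par)

/-- inner scale -/
def rr (τ : ℝ) (m : ℕ) : ℕ := ⌊((256 * m : ℕ) : ℝ) ^ (1 - τ)⌋₊

/-- outer scale -/
def RR (τ : ℝ) (m : ℕ) : ℕ := ⌈((256 * m : ℕ) : ℝ) ^ (1 + τ)⌉₊

/-- the scales, eventually in the real variable `x` (`m = x`) -/
theorem scales {τ : ℝ} (h0 : 0 < τ) (h1 : τ ≤ 1 / 4) : ∀ᶠ m : ℕ in atTop,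
    3 ≤ rr τ m ∧ (rr τ m : ℝ) ≤ (m : ℝ) ^ (1 - τ / 2) ∧ (m : ℝ) ^ (1 + τ / 2) ≤ RR τ m ∧
      (RR τ m : ℝ) ≤ (m : ℝ) ^ (3 : ℝ) ∧ rr τ m ≤ 2 * m ∧ 4096 * m ≤ RR τ m ∧
      ((256 * m : ℕ) : ℝ) ^ (-(2 * τ)) / 4 ≤ (rr τ m : ℝ) / RR τ m := by
  have htc : Tendsto (fun m : ℕ => (m : ℝ)) atTop atTop := tendsto_natCast_atTop_atTop
  have t1 : Tendsto (fun m : ℕ => (m : ℝ) ^ (τ / 2)) atTop atTop :=
    (tendsto_rpow_atTop (by positivity)).comp htc
  filter_upwards [t1.eventually_ge_atTop 4096, htc.eventually_ge_atTop 4096] with m h2 h3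
  have m0 : (0 : ℝ) < m := by linarith
  have m1 : (1 : ℝ) ≤ m := by linarith
  set N : ℝ := ((256 * m : ℕ) : ℝ) with hN
  have hNm : N = 256 * m := by rw [hN]; push_cast; ring
  have N0 : 0 < N := by rw [hNm]; positivity
  have N1 : 1 ≤ N := by rw [hNm]; linarith
  have hmN : (m : ℝ) ≤ N := by rw [hNm]; linarith
  -- N ^ (1 - τ)
  have a1 : N ^ (1 - τ) ≤ (m : ℝ) ^ (1 - τ / 2) := by
    rw [hNm, Real.mul_rpow (by norm_num) m0.le]
    have e1 : (m : ℝ) ^ (1 - τ / 2) = (m : ℝ) ^ (τ / 2) * (m : ℝ) ^ (1 - τ) := by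
      rw [← Real.rpow_add m0]; congr 1; ring
    rw [e1]
    refine mul_le_mul_of_nonneg_right ?_ (by positivity)
    calc (256 : ℝ) ^ (1 - τ) ≤ 256 ^ (1 : ℝ) :=
          Real.rpow_le_rpow_of_exponent_le (by norm_num) (by linarith)
      _ = 256 := Real.rpow_one _
      _ ≤ _ := by linarith
  have a2 : (16 : ℝ) ≤ N ^ (1 - τ) := by
    calc (16 : ℝ) ≤ (4096 : ℝ) ^ (1 / 2 : ℝ) := by
          rw [show (4096 : ℝ) = 64 ^ (2 : ℝ) by norm_num, ← Real.rpow_mul (by norm_num)]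
          norm_num
      _ ≤ N ^ (1 / 2 : ℝ) := Real.rpow_le_rpow (by norm_num) (h3.trans hmN) (by norm_num)
      _ ≤ N ^ (1 - τ) := Real.rpow_le_rpow_of_exponent_le N1 (by linarith)
  have b1 : (rr τ m : ℝ) ≤ N ^ (1 - τ) := Nat.floor_le (by positivity)
  have b2 : N ^ (1 - τ) < (rr τ m : ℝ) + 1 := Nat.lt_floor_add_one _
  have b3 : N ^ (1 + τ) ≤ (RR τ m : ℝ) := Nat.le_ceil _
  have b4 : (RR τ m : ℝ) < N ^ (1 + τ) + 1 := Nat.ceil_lt_add_one (by positivity)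
  have c1 : 1 ≤ N ^ (1 + τ) := Real.one_le_rpow N1 (by linarith)
  have c2 : (RR τ m : ℝ) ≤ 2 * N ^ (1 + τ) := by linarith
  have c3 : N ^ (1 - τ) / 2 ≤ (rr τ m : ℝ) := by linarith
  -- lower bound of RR
  have d1 : (m : ℝ) ^ (1 + τ / 2) ≤ N ^ (1 + τ) :=
    (Real.rpow_le_rpow m0.le hmN (by positivity)).trans
      (Real.rpow_le_rpow_of_exponent_le N1 (by linarith))
  have d2 : (m : ℝ) ^ (1 + τ / 2) = m * (m : ℝ) ^ (τ / 2) := by
    rw [Real.rpow_add m0, Real.rpow_one]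
  have mτ : (m : ℝ) ^ (-(τ / 2)) ≤ 1 := Real.rpow_le_one_of_one_le_of_nonpos m1 (by linarith)
  refine ⟨?_, b1.trans a1, d1.trans b3, ?_, ?_, ?_, ?_⟩
  · have : (3 : ℝ) ≤ rr τ m := by linarith
    exact_mod_cast this
  · -- RR ≤ m ^ 3
    have e1 : N ^ (1 + τ) ≤ N ^ (2 : ℝ) := Real.rpow_le_rpow_of_exponent_le N1 (by linarith)
    -- use N ^ (5/4) = 256 ^ (5/4) m ^ (5/4) ≤ 1024 m ^ (5/4)
    have e2 : N ^ (1 + τ) ≤ N ^ (5 / 4 : ℝ) := Real.rpow_le_rpow_of_exponent_le N1 (by linarith)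
    have e3 : N ^ (5 / 4 : ℝ) = 1024 * (m : ℝ) ^ (5 / 4 : ℝ) := by
      rw [hNm, Real.mul_rpow (by norm_num) m0.le]
      congr 1
      rw [show (256 : ℝ) = 4 ^ (4 : ℝ) by norm_num, ← Real.rpow_mul (by norm_num)]
      norm_num
    have e4 : (m : ℝ) ^ (5 / 4 : ℝ) ≤ (m : ℝ) ^ (2 : ℝ) :=
      Real.rpow_le_rpow_of_exponent_le m1 (by norm_num)
    have e5 : (m : ℝ) ^ (3 : ℝ) = m * (m : ℝ) ^ (2 : ℝ) := by
      rw [show (3 : ℝ) = 1 + 2 by norm_num, Real.rpow_add m0, Real.rpow_one]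
    have e6 : (0 : ℝ) < (m : ℝ) ^ (2 : ℝ) := by positivity
    have e7 := mul_le_mul_of_nonneg_right h3 e6.le
    rw [e5]
    rw [e3] at e2
    linarith
  · have h5 : (rr τ m : ℝ) ≤ m := by
      refine (b1.trans a1).trans ?_
      have : (m : ℝ) ^ (1 - τ / 2) = m * (m : ℝ) ^ (-(τ / 2)) := by
        rw [sub_eq_add_neg, Real.rpow_add m0, Real.rpow_one]
      rw [this]
      nlinarith
    have h6 : rr τ m ≤ m := by exact_mod_cast h5
    omega
  · have h5 : (4096 : ℝ) * m ≤ RR τ m := by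
      refine le_trans ?_ (d1.trans b3)
      rw [d2]
      nlinarith
    exact_mod_cast h5
  · have R0 : (0 : ℝ) < RR τ m := by linarith
    rw [le_div_iff₀ R0]
    have h5 : N ^ (-(2 * τ)) * N ^ (1 + τ) = N ^ (1 - τ) := by
      rw [← Real.rpow_add N0]; congr 1; ring
    have h6 : (0 : ℝ) < N ^ (-(2 * τ)) := by positivity
    calc N ^ (-(2 * τ)) / 4 * (RR τ m : ℝ) ≤ N ^ (-(2 * τ)) / 4 * (2 * N ^ (1 + τ)) :=
          mul_le_mul_of_nonneg_left c2 (by positivity)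
      _ = N ^ (1 - τ) / 2 := by rw [← h5]; ring
      _ ≤ _ := c3

/-- **arithmetic of LB3** (`m = 2 ^ j`) -/
theorem arith841 : ∀ ε : ℝ, 0 < ε → ∃ τ0 : ℝ, 0 < τ0 ∧ τ0 < 1 / 2 ∧ ∀ τ : ℝ, 0 < τ → τ ≤ τ0 →
    ∃ δ : ℝ, 0 < δ ∧ δ < 1 ∧ ∀ C : ℝ, 1 ≤ C → ∀ᶠ j : ℕ in atTop,
      Par (2 ^ j) (rr τ (2 ^ j)) (RR τ (2 ^ j)) ∧ ∀ e : Edge, src e = (0, 0) → ∃ s t : Bool,
        ((256 * 2 ^ j : ℕ) : ℝ) ^ (-ε) * (nu hf).real (A4 e (4 * (2 ^ j : ℕ))) ≤
          (nu hf).real (MainE e (2 ^ j) (rr τ (2 ^ j)) (RR τ (2 ^ j)) s t) ^ (1 + δ) / C -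
            C * (nu hf).real (BadS e (2 ^ j) (rr τ (2 ^ j)) (RR τ (2 ^ j))) ^ (1 - δ) := by
  intro ε hε
  refine ⟨min (1 / 4) (ε / 8), lt_min (by norm_num) (by positivity),
    lt_of_le_of_lt (min_le_left _ _) (by norm_num), fun τ hτ hττ => ?_⟩
  have τ1 : τ ≤ 1 / 4 := hττ.trans (min_le_left _ _)
  have τ2 : τ ≤ ε / 8 := hττ.trans (min_le_right _ _)
  obtain ⟨δ0, hδ0, hδ1, c, hc, c2, K2, hc2, hK2, hdom⟩ := dom (η := τ / 2) (A := 3)
    (by positivity) (by norm_num)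
  refine ⟨min δ0 (ε / (4 * (K2 + 1))), lt_min hδ0 (by positivity),
    lt_of_le_of_lt (min_le_left _ _) (by linarith), fun C hC => ?_⟩
  set δ := min δ0 (ε / (4 * (K2 + 1))) with hδ
  have δ0' : 0 < δ := lt_min hδ0 (by positivity)
  have δ1 : δ ≤ δ0 := min_le_left _ _
  have δ2 : δ * (4 * (K2 + 1)) ≤ ε := by
    have : δ ≤ ε / (4 * (K2 + 1)) := min_le_right _ _
    rwa [le_div_iff₀ (by positivity)] at this
  have δ3 : K2 * δ ≤ ε / 4 := by nlinarith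
  have C0 : 0 < C := by linarith
  have hj1 := hdom δ δ0' δ1 (2 * C ^ 2) (by positivity)
  have htend : Tendsto (fun j : ℕ => (2 ^ j : ℕ)) atTop atTop :=
    tendsto_pow_atTop_atTop_of_one_lt (by norm_num)
  have hj2 := htend.eventually (scales hτ τ1)
  have hlim : Tendsto (fun j : ℕ => ((256 * 2 ^ j : ℕ) : ℝ) ^ (-(ε / 2))) atTop (𝓝 0) := by
    refine (tendsto_rpow_neg_atTop (by positivity)).comp ?_
    refine tendsto_natCast_atTop_atTop.comp ?_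
    refine tendsto_atTop_mono (fun j => ?_) htend
    exact Nat.le_mul_of_pos_left _ (by norm_num)
  have hj3 := hlim.eventually_lt_const (show (0 : ℝ) < c * c2 ^ δ / (8 * C) by positivity)
  filter_upwards [hj1, hj2, hj3] with j h1 h2 h3
  obtain ⟨g1, g2, g3, g4, g5, g6, g7⟩ := h2
  refine ⟨⟨Nat.one_le_two_pow, g1, g5, g6⟩, fun e he => ?_⟩
  have hcast : ((2 ^ j : ℕ) : ℝ) = (2 : ℝ) ^ j := by push_cast; rfl
  rw [hcast] at g2 g3 g4
  obtain ⟨s, t, k1, k2, k3⟩ := h1 (rr τ (2 ^ j)) (RR τ (2 ^ j)) (by omega) g2 g3 g4 e he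
  refine ⟨s, t, ?_⟩
  set M := (nu hf).real (MainE e (2 ^ j) (rr τ (2 ^ j)) (RR τ (2 ^ j)) s t) with hM
  set B := (nu hf).real (BadS e (2 ^ j) (rr τ (2 ^ j)) (RR τ (2 ^ j))) with hB
  set p := (nu hf).real (A4 e (4 * (2 ^ j : ℕ))) with hp
  set x : ℝ := (2 : ℝ) ^ j with hx
  set N : ℝ := ((256 * 2 ^ j : ℕ) : ℝ) with hN
  have x1 : 1 ≤ x := one_le_pow₀ (by norm_num)
  have x0 : 0 < x := by linarith
  have hNx : N = 256 * x := by rw [hN]; push_cast; rfl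
  have N0 : 0 < N := by rw [hNx]; positivity
  have N1 : 1 ≤ N := by rw [hNx]; linarith
  have hxN : x ≤ N := by rw [hNx]; linarith
  have p0 : 0 ≤ p := measureReal_nonneg
  have M0 : 0 < M := lt_of_lt_of_le (by positivity) k3
  -- main side
  have m1 : M ^ (1 + δ) = M * M ^ δ := by rw [Real.rpow_add M0, Real.rpow_one]
  have m2 : c2 ^ δ * N ^ (-(ε / 4)) ≤ M ^ δ := by
    have q1 : (c2 * x ^ (-K2)) ^ δ ≤ M ^ δ := Real.rpow_le_rpow (by positivity) k3 δ0'.le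
    refine le_trans ?_ q1
    rw [Real.mul_rpow hc2.le (by positivity), ← Real.rpow_mul x0.le]
    refine mul_le_mul_of_nonneg_left ?_ (by positivity)
    calc N ^ (-(ε / 4)) ≤ N ^ (-K2 * δ) :=
          Real.rpow_le_rpow_of_exponent_le N1 (by linarith)
      _ ≤ x ^ (-K2 * δ) := Real.rpow_le_rpow_of_nonpos x0 hxN (by nlinarith)
  have m3 : c * (N ^ (-(ε / 4)) / 4) * p ≤ M := by
    refine le_trans ?_ k2
    refine mul_le_mul_of_nonneg_right (mul_le_mul_of_nonneg_left ?_ hc.le) p0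
    refine le_trans ?_ g7
    have : N ^ (-(ε / 4)) ≤ N ^ (-(2 * τ)) :=
      Real.rpow_le_rpow_of_exponent_le N1 (by linarith)
    linarith
  have m4 : c * (N ^ (-(ε / 4)) / 4) * p * (c2 ^ δ * N ^ (-(ε / 4))) ≤ M ^ (1 + δ) := by
    rw [m1]
    exact mul_le_mul m3 m2 (by positivity) M0.le
  have m5 : N ^ (-ε) = N ^ (-(ε / 4)) * N ^ (-(ε / 4)) * N ^ (-(ε / 2)) := by
    rw [← Real.rpow_add N0, ← Real.rpow_add N0]
    congr 1
    ring
  have m6 : N ^ (-ε) * p ≤ M ^ (1 + δ) / (2 * C) := by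
    rw [le_div_iff₀ (by positivity)]
    refine le_trans ?_ m4
    rw [m5]
    have h5 : N ^ (-(ε / 2)) * (8 * C) ≤ c * c2 ^ δ := by
      have := h3.le
      rwa [le_div_iff₀ (by positivity)] at this
    have h6 : 0 ≤ N ^ (-(ε / 4)) * N ^ (-(ε / 4)) * p / 4 := by positivity
    have h7 := mul_le_mul_of_nonneg_left h5 h6
    calc N ^ (-(ε / 4)) * N ^ (-(ε / 4)) * N ^ (-(ε / 2)) * p * (2 * C)
        = N ^ (-(ε / 4)) * N ^ (-(ε / 4)) * p / 4 * (N ^ (-(ε / 2)) * (8 * C)) := by ring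
      _ ≤ _ := h7
      _ = _ := by ring
  have m7 : C * B ^ (1 - δ) ≤ M ^ (1 + δ) / (2 * C) := by
    rw [le_div_iff₀ (by positivity)]
    refine le_trans (le_of_eq ?_) k1
    ring
  have m8 : M ^ (1 + δ) / C = M ^ (1 + δ) / (2 * C) + M ^ (1 + δ) / (2 * C) := by
    field_simp
    ring
  rw [m8]
  linarith

end Crest.Agent.R158.Mc468
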