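import Crest.Agent.R158.Hb0_656
import Crest.Agent.R158.Bh1_679

-- ▼ part R158/Vw1_802
section

/-!
# R158, block BL, leaf (B3) (helper802), file Vw1: windows of the layer of the right walls

* state of the chain by height = 679's `St (RL F H L δ) y y' X`, group `Gr (RL F H L δ) y y' X`
* `rl_col`, `row_sh`, `row_rl` : membership near a macroscopic vertical line
* `flatR` : window of a flat segment
* `Pat`, `vertR`, `midR` : patterns at a macroscopic vertex / in the middle of a wall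
-/

set_option autoImplicit false

namespace Crest.Agent.R158.Vw802

open Crest.Agent.R158.Sp896 (V)
open Crest.Agent.R158.Env664 (D mem_D div_iff)
open Crest.Agent.R158.Hb656
open Crest.Agent.R158.Bh679 (St Gr mem_St mem_Gr)

variable {F H : Finset V} {L δ : ℤ}

theorem mD {G : Finset V} (hL : 0 < L) {q r x y : ℤ} (h1 : q * L ≤ x) (h2 : x < q * L + L)
    (h3 : r * L ≤ y) (h4 : y < r * L + L) : (x, y) ∈ D G L ↔ (q, r) ∈ G := by
  rw [mem_D hL]
  simp only
  rw [(div_iff hL x q).2 ⟨h1, h2⟩, (div_iff hL y r).2 ⟨h3, h4⟩]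

/-- the macroscopic wall behind a tile of the layer -/
theorem rl_col (hL : 0 < L) (hs : H ⊆ F) {X y : ℤ} (h : (X, y) ∈ RL F H L δ) :
    ∃ c r : ℤ, X = c * L + L + δ ∧ r * L ≤ y ∧ y < r * L + L ∧ (c, r) ∈ H ∧ (c + 1, r) ∉ F := by
  rw [mem_RL] at h
  simp only at h
  obtain ⟨h1, h2⟩ := h
  obtain ⟨r, hr1, hr2⟩ : ∃ r : ℤ, r * L ≤ y ∧ y < r * L + L := ⟨y / L, (div_iff hL y _).1 rfl⟩
  obtain ⟨c, hc1, hc2⟩ : ∃ c : ℤ, c * L ≤ X - 1 - δ ∧ X - 1 - δ < c * L + L :=
    ⟨_, (div_iff hL (X - 1 - δ) _).1 rfl⟩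
  rw [mD hL hc1 hc2 hr1 hr2] at h1
  have h3 : ¬ (X - δ < c * L + L) := by
    intro h4
    rw [mD hL (by omega) h4 hr1 hr2] at h2
    exact h2 (hs h1)
  have e : (c + 1) * L = c * L + L := by ring
  refine ⟨c, r, by omega, hr1, hr2, h1, ?_⟩
  rwa [mD hL (q := c + 1) (by rw [e]; omega) (by rw [e]; omega) hr1 hr2] at h2

/-- the moved region near the macroscopic vertical line `x = (c + 1) L` -/
theorem row_sh (hL : 8 ≤ L) (hδ : -1 ≤ δ ∧ δ ≤ 1) {c r x y : ℤ} (hx1 : c * L + L + δ - L / 4 ≤ x)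
    (hx2 : x ≤ c * L + L + δ + L / 4) (h3 : r * L ≤ y) (h4 : y < r * L + L) :
    (x, y) ∈ shD F H L δ ↔ ((if x < c * L + L then (c, r) else (c + 1, r)) ∈ F ∧
      (if x < c * L + L then (c, r) else (c + 1, r)) ∉ H) ∨
      (if x < c * L + L + δ then (c, r) else (c + 1, r)) ∈ H := by
  have hL0 : 0 < L := by omega
  have e : (c + 1) * L = c * L + L := by ring
  rw [mem_shD]
  simp only
  refine or_congr ?_ ?_
  · split_ifs with h
    · rw [mD (G := F) hL0 (q := c) (by omega) h h3 h4, mD (G := H) hL0 (q := c) (by omega) h h3 h4]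
    · rw [mD (G := F) hL0 (q := c + 1) (by omega) (by omega) h3 h4,
        mD (G := H) hL0 (q := c + 1) (by omega) (by omega) h3 h4]
  · split_ifs with h
    · rw [mD (G := H) hL0 (q := c) (by omega) (by omega) h3 h4]
    · rw [mD (G := H) hL0 (q := c + 1) (by omega) (by omega) h3 h4]

/-- the layer near the macroscopic vertical line `x = (c + 1) L` -/
theorem row_rl (hL : 8 ≤ L) (hs : H ⊆ F) {c r x y : ℤ} (hx1 : c * L + L + δ - L / 4 ≤ x)
    (hx2 : x ≤ c * L + L + δ + L / 4) (h3 : r * L ≤ y) (h4 : y < r * L + L) :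
    (x, y) ∈ RL F H L δ ↔ x = c * L + L + δ ∧ (c, r) ∈ H ∧ (c + 1, r) ∉ F := by
  have hL0 : 0 < L := by omega
  have e : (c + 1) * L = c * L + L := by ring
  rw [mem_RL]
  simp only
  rcases lt_trichotomy x (c * L + L + δ) with h | h | h
  · rw [mD (G := H) hL0 (q := c) (by omega) (by omega) h3 h4,
      mD (G := F) hL0 (q := c) (by omega) (by omega) h3 h4]
    constructor
    · rintro ⟨h5, h6⟩; exact absurd (hs h5) h6
    · rintro ⟨h5, -⟩; omega
  · rw [mD (G := H) hL0 (q := c) (by omega) (by omega) h3 h4,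
      mD (G := F) hL0 (q := c + 1) (by omega) (by omega) h3 h4]
    simp only [h, true_and]
  · rw [mD (G := H) hL0 (q := c + 1) (by omega) (by omega) h3 h4,
      mD (G := F) hL0 (q := c + 1) (by omega) (by omega) h3 h4]
    constructor
    · rintro ⟨h5, h6⟩; exact absurd (hs h5) h6
    · rintro ⟨h5, -⟩; omega

/-- **window of a flat segment**: before and after the group of the column `X` -/
theorem flatR (hL : 8 ≤ L) (hδ : -1 ≤ δ ∧ δ ≤ 1) (hs : H ⊆ F) {c r y y' : ℤ} (h1 : (c, r) ∈ H)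
    (h2 : (c + 1, r) ∉ F) (hy : y ≤ y') {x1 y1 : ℤ}
    (hx1 : c * L + L + δ - L / 4 ≤ x1) (hx2 : x1 ≤ c * L + L + δ + L / 4) (h3 : r * L ≤ y1)
    (h4 : y1 < r * L + L) :
    ((x1, y1) ∈ shD F H L δ ∪ St (RL F H L δ) y y' (c * L + L + δ) ↔
      x1 < c * L + L + δ ∨ (x1 = c * L + L + δ ∧ y1 < y)) ∧
    ((x1, y1) ∈ shD F H L δ ∪ (St (RL F H L δ) y y' (c * L + L + δ) ∪ Gr (RL F H L δ) y y' (c * L + L + δ)) ↔
      x1 < c * L + L + δ ∨ (x1 = c * L + L + δ ∧ y1 < y')) := by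
  have hF : (c, r) ∈ F := hs h1
  have hH : (c + 1, r) ∉ H := fun h => h2 (hs h)
  simp only [Finset.mem_union, mem_St, mem_Gr, row_sh hL hδ hx1 hx2 h3 h4,
    row_rl (δ := δ) hL hs hx1 hx2 h3 h4]
  generalize c * L + L = X0 at *
  have q1 : ((if x1 < X0 then (c, r) else (c + 1, r)) ∈ F ∧
      (if x1 < X0 then (c, r) else (c + 1, r)) ∉ H) ↔ False := by
    split_ifs <;> simp [h1, h2, hF, hH]
  have q2 : (if x1 < X0 + δ then (c, r) else (c + 1, r)) ∈ H ↔ x1 < X0 + δ := by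
    split_ifs with h5 <;> simp [h1, hH, h5]
  simp only [q1, q2, h1, h2, false_or, not_false_eq_true, and_true]
  constructor <;> constructor <;> intro h5 <;> omega

/-- the six patterns at a right wall: `h1` stepped wall, `h0` flat wall, `qa`, `qb` the quadrant above /
below, `ta`, `tb` the complement of the quadrant to the right above / below -/
inductive Pat
  | h1 | h0 | qa | qb | ta | tb

/-- the pattern with wall column `a` at the height `Y` -/
def Pat.ok : Pat → ℤ → ℤ → ℤ → ℤ → Prop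
  | .h1, a, Y, x, y => (y < Y ∧ x ≤ a + 1) ∨ (Y ≤ y ∧ x ≤ a)
  | .h0, a, _, x, _ => x ≤ a
  | .qa, a, Y, x, y => Y ≤ y ∧ x ≤ a
  | .qb, a, Y, x, y => y < Y ∧ x ≤ a
  | .ta, a, Y, x, y => y < Y ∨ x ≤ a
  | .tb, a, Y, x, y => Y ≤ y ∨ x ≤ a

/-- no two cells of `F` touch only at a corner -/
structure NoPinch (F : Finset V) : Prop where
  ne : ∀ a b : ℤ, (a, b) ∈ F → (a + 1, b + 1) ∈ F → (a + 1, b) ∈ F ∨ (a, b + 1) ∈ F
  se : ∀ a b : ℤ, (a, b + 1) ∈ F → (a + 1, b) ∈ F → (a, b) ∈ F ∨ (a + 1, b + 1) ∈ F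

/-- membership in the moved region, one macroscopic row -/
def InSh (F H : Finset V) (c r X0 δ x : ℤ) : Prop :=
  ((if x < X0 then (c, r) else (c + 1, r)) ∈ F ∧ (if x < X0 then (c, r) else (c + 1, r)) ∉ H) ∨
    (if x < X0 + δ then (c, r) else (c + 1, r)) ∈ H

section types

variable {c r X0 x : ℤ}

theorem inSh_i (hs : H ⊆ F) (h1 : (c, r) ∈ H) (h2 : (c + 1, r) ∉ F) :
    InSh F H c r X0 δ x ↔ x < X0 + δ := by
  have h3 := hs h1
  have h4 : (c + 1, r) ∉ H := fun h => h2 (hs h)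
  unfold InSh
  split_ifs <;> simp [*]

theorem inSh_all (h1 : (c, r) ∈ F) (h2 : (c + 1, r) ∈ F)
    (h3 : ((c, r) ∈ H ∧ (c + 1, r) ∈ F) ∨ ((c, r) ∈ F ∧ (c + 1, r) ∈ H) →
      (c, r) ∈ H ∧ (c + 1, r) ∈ H) : InSh F H c r X0 δ x := by
  unfold InSh
  by_cases h4 : (c, r) ∈ H
  · have h5 := (h3 (Or.inl ⟨h4, h2⟩)).2
    right
    split_ifs <;> assumption
  · have h5 : (c + 1, r) ∉ H := fun h => h4 (h3 (Or.inr ⟨h1, h⟩)).1
    left
    split_ifs <;> exact ⟨by assumption, by assumption⟩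

theorem inSh_v (hs : H ⊆ F) (h1 : (c, r) ∈ F) (h1' : (c, r) ∉ H) (h2 : (c + 1, r) ∉ F) :
    InSh F H c r X0 δ x ↔ x < X0 := by
  have h4 : (c + 1, r) ∉ H := fun h => h2 (hs h)
  unfold InSh
  split_ifs <;> simp [*]

theorem inSh_none (hs : H ⊆ F) (h1 : (c, r) ∉ F) (h2 : (c + 1, r) ∉ F) :
    ¬ InSh F H c r X0 δ x := by
  have h3 : (c, r) ∉ H := fun h => h1 (hs h)
  have h4 : (c + 1, r) ∉ H := fun h => h2 (hs h)
  unfold InSh
  split_ifs <;> simp [*]

end types

/-- reduction of the vertex picture to its two rows -/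
theorem vert_red (hL : 8 ≤ L) (hδ : -1 ≤ δ ∧ δ ≤ 1) (hs : H ⊆ F) {c j g : ℤ} (hg : 0 ≤ g)
    {P : ℤ → ℤ → Prop}
    (hA : ∀ x1 y1 : ℤ, j * L ≤ y1 → (InSh F H c j (c * L + L) δ x1 ↔ P x1 y1))
    (hB : ∀ x1 y1 : ℤ, y1 < j * L → ((InSh F H c (j - 1) (c * L + L) δ x1 ∨
        (x1 = c * L + L + δ ∧ (c, j - 1) ∈ H ∧ (c + 1, j - 1) ∉ F)) ↔ P x1 y1)) (x1 y1 : ℤ)
    (hx1 : c * L + L + δ - L / 4 ≤ x1) (hx2 : x1 ≤ c * L + L + δ + L / 4)
    (hy1 : j * L - L / 4 ≤ y1) (hy2 : y1 ≤ j * L + L / 4)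
    (hout : y1 < j * L - g ∨ j * L + g ≤ y1 ∨ x1 ≠ c * L + L + δ) :
    ((x1, y1) ∈ shD F H L δ ∪ St (RL F H L δ) (j * L - g) (j * L + g) (c * L + L + δ) ↔ P x1 y1) ∧
      ((x1, y1) ∈ shD F H L δ ∪ (St (RL F H L δ) (j * L - g) (j * L + g) (c * L + L + δ) ∪
        Gr (RL F H L δ) (j * L - g) (j * L + g) (c * L + L + δ)) ↔ P x1 y1) := by
  have e1 : (j - 1) * L = j * L - L := by ring
  simp only [Finset.mem_union, mem_St, mem_Gr]
  rcases lt_or_ge y1 (j * L) with hy | hy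
  · have h3 : (j - 1) * L ≤ y1 := by rw [e1]; omega
    have h4 : y1 < (j - 1) * L + L := by rw [e1]; omega
    rw [← hB x1 y1 hy, row_sh hL hδ hx1 hx2 h3 h4, row_rl (δ := δ) hL hs hx1 hx2 h3 h4]
    constructor <;> refine or_congr_right ?_
    · constructor
      · rintro ⟨h5, -⟩; exact h5
      · intro h5
        refine ⟨h5, Or.inl ?_⟩
        have := h5.1
        omega
    · constructor
      · rintro (⟨h5, -⟩ | ⟨h5, -⟩) <;> exact h5
      · intro h5
        refine Or.inl ⟨h5, Or.inl ?_⟩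
        have := h5.1
        omega
  · have h3 : j * L ≤ y1 := hy
    have h4 : y1 < j * L + L := by omega
    rw [← hA x1 y1 hy, row_sh hL hδ hx1 hx2 h3 h4, row_rl (δ := δ) hL hs hx1 hx2 h3 h4]
    constructor
    · refine or_iff_left ?_
      rintro ⟨⟨h5, -⟩, h6⟩
      omega
    · refine or_iff_left ?_
      rintro (⟨⟨h5, -⟩, h6⟩ | ⟨⟨h5, -⟩, h6⟩)
      · omega
      · omega

/-- **pattern at a macroscopic vertex** of a right wall, before and after the thick group -/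
theorem vertR (hL : 8 ≤ L) (hδ : δ = -1 ∨ δ = 0) {k i0 i1 : ℤ} {up : Bool} (hH : Hang F H k i0 i1 up)
    (hp : NoPinch F) {c j g : ℤ} (hg : 0 ≤ g)
    (h : ((c, j) ∈ H ∧ (c + 1, j) ∉ F) ∨ ((c, j - 1) ∈ H ∧ (c + 1, j - 1) ∉ F)) :
    ∃ (q : Pat) (a : ℤ), (a = c * L + L + δ - 1 ∨ a = c * L + L + δ) ∧ ∀ x1 y1 : ℤ,
      c * L + L + δ - L / 4 ≤ x1 → x1 ≤ c * L + L + δ + L / 4 → j * L - L / 4 ≤ y1 →
      y1 ≤ j * L + L / 4 → (y1 < j * L - g ∨ j * L + g ≤ y1 ∨ x1 ≠ c * L + L + δ) →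
      ((x1, y1) ∈ shD F H L δ ∪ St (RL F H L δ) (j * L - g) (j * L + g) (c * L + L + δ) ↔
        q.ok a (j * L) x1 y1) ∧
      ((x1, y1) ∈ shD F H L δ ∪ (St (RL F H L δ) (j * L - g) (j * L + g) (c * L + L + δ) ∪
        Gr (RL F H L δ) (j * L - g) (j * L + g) (c * L + L + δ)) ↔ q.ok a (j * L) x1 y1) := by
  have hs := hH.sub
  have hδ' : -1 ≤ δ ∧ δ ≤ 1 := by omega
  have main : ∀ (q : Pat) (a : ℤ), (a = c * L + L + δ - 1 ∨ a = c * L + L + δ) →
      (∀ x1 y1 : ℤ, j * L ≤ y1 → (InSh F H c j (c * L + L) δ x1 ↔ q.ok a (j * L) x1 y1)) →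
      (∀ x1 y1 : ℤ, y1 < j * L → ((InSh F H c (j - 1) (c * L + L) δ x1 ∨
        (x1 = c * L + L + δ ∧ (c, j - 1) ∈ H ∧ (c + 1, j - 1) ∉ F)) ↔ q.ok a (j * L) x1 y1)) → _ :=
    fun q a ha hA hB => (⟨q, a, ha, fun x1 y1 => vert_red hL hδ' hs hg hA hB x1 y1⟩ :
      ∃ (q : Pat) (a : ℤ), (a = c * L + L + δ - 1 ∨ a = c * L + L + δ) ∧ ∀ x1 y1 : ℤ,
      c * L + L + δ - L / 4 ≤ x1 → x1 ≤ c * L + L + δ + L / 4 → j * L - L / 4 ≤ y1 →
      y1 ≤ j * L + L / 4 → (y1 < j * L - g ∨ j * L + g ≤ y1 ∨ x1 ≠ c * L + L + δ) →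
      ((x1, y1) ∈ shD F H L δ ∪ St (RL F H L δ) (j * L - g) (j * L + g) (c * L + L + δ) ↔
        q.ok a (j * L) x1 y1) ∧
      ((x1, y1) ∈ shD F H L δ ∪ (St (RL F H L δ) (j * L - g) (j * L + g) (c * L + L + δ) ∪
        Gr (RL F H L δ) (j * L - g) (j * L + g) (c * L + L + δ)) ↔ q.ok a (j * L) x1 y1))
  rcases h with ⟨h1, h2⟩ | ⟨h1, h2⟩
  · have hF := hs h1
    by_cases b1 : (c, j - 1) ∈ F <;> by_cases b2 : (c + 1, j - 1) ∈ F
    · refine main .ta (c * L + L + δ - 1) (Or.inl rfl) ?_ ?_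
      · intro x1 y1 hy
        rw [inSh_i hs h1 h2]
        simp only [Pat.ok]; omega
      · intro x1 y1 hy
        have := inSh_all (X0 := c * L + L) (δ := δ) (x := x1) b1 b2 (hH.hor c (j - 1))
        simp only [this, Pat.ok, hy, true_or]
    · by_cases b3 : (c, j - 1) ∈ H
      · refine main .h1 (c * L + L + δ - 1) (Or.inl rfl) ?_ ?_
        · intro x1 y1 hy
          rw [inSh_i hs h1 h2]
          simp only [Pat.ok]; omega
        · intro x1 y1 hy
          rw [inSh_i hs b3 b2]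
          simp only [Pat.ok, b3, b2, not_false_eq_true, and_true]; omega
      · rcases hδ with rfl | rfl
        · refine main .h1 (c * L + L + -1 - 1) (Or.inl rfl) ?_ ?_
          · intro x1 y1 hy
            rw [inSh_i hs h1 h2]
            simp only [Pat.ok]; omega
          · intro x1 y1 hy
            rw [inSh_v hs b1 b3 b2]
            simp only [Pat.ok, b3, false_and, and_false, or_false]; omega
        · refine main .h0 (c * L + L + 0 - 1) (Or.inl rfl) ?_ ?_
          · intro x1 y1 hy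
            rw [inSh_i hs h1 h2]
            simp only [Pat.ok]; omega
          · intro x1 y1 hy
            rw [inSh_v hs b1 b3 b2]
            simp only [Pat.ok, b3, false_and, and_false, or_false]; omega
    · exfalso
      have := hp.se c (j - 1)
      rw [sub_add_cancel] at this
      rcases this hF b2 with h3 | h3
      · exact b1 h3
      · exact h2 h3
    · refine main .qa (c * L + L + δ - 1) (Or.inl rfl) ?_ ?_
      · intro x1 y1 hy
        rw [inSh_i hs h1 h2]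
        simp only [Pat.ok]; omega
      · intro x1 y1 hy
        have h3 : (c, j - 1) ∉ H := fun h => b1 (hs h)
        simp only [inSh_none hs b1 b2, Pat.ok, h3, false_and, and_false, or_false, false_iff]; omega
  · have hF := hs h1
    by_cases b1 : (c, j) ∈ F <;> by_cases b2 : (c + 1, j) ∈ F
    · refine main .tb (c * L + L + δ) (Or.inr rfl) ?_ ?_
      · intro x1 y1 hy
        have := inSh_all (X0 := c * L + L) (δ := δ) (x := x1) b1 b2 (hH.hor c j)
        simp only [this, Pat.ok, hy, true_or]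
      · intro x1 y1 hy
        rw [inSh_i hs h1 h2]
        simp only [Pat.ok, h1, h2, not_false_eq_true, and_true]; omega
    · by_cases b3 : (c, j) ∈ H
      · refine main .h1 (c * L + L + δ - 1) (Or.inl rfl) ?_ ?_
        · intro x1 y1 hy
          rw [inSh_i hs b3 b2]
          simp only [Pat.ok]; omega
        · intro x1 y1 hy
          rw [inSh_i hs h1 h2]
          simp only [Pat.ok, h1, h2, not_false_eq_true, and_true]; omega
      · rcases hδ with rfl | rfl
        · refine main .h0 (c * L + L + -1) (Or.inr rfl) ?_ ?_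
          · intro x1 y1 hy
            rw [inSh_v hs b1 b3 b2]
            simp only [Pat.ok]; omega
          · intro x1 y1 hy
            rw [inSh_i hs h1 h2]
            simp only [Pat.ok, h1, h2, not_false_eq_true, and_true]; omega
        · refine main .h1 (c * L + L + 0 - 1) (Or.inl rfl) ?_ ?_
          · intro x1 y1 hy
            rw [inSh_v hs b1 b3 b2]
            simp only [Pat.ok]; omega
          · intro x1 y1 hy
            rw [inSh_i hs h1 h2]
            simp only [Pat.ok, h1, h2, not_false_eq_true, and_true]; omega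
    · exfalso
      have := hp.ne c (j - 1)
      rw [sub_add_cancel] at this
      rcases this hF b2 with h3 | h3
      · exact h2 h3
      · exact b1 h3
    · refine main .qb (c * L + L + δ) (Or.inr rfl) ?_ ?_
      · intro x1 y1 hy
        have h3 : (c, j) ∉ H := fun h => b1 (hs h)
        simp only [inSh_none hs b1 b2, Pat.ok, false_iff]; omega
      · intro x1 y1 hy
        rw [inSh_i hs h1 h2]
        simp only [Pat.ok, h1, h2, not_false_eq_true, and_true]; omega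

/-- **pattern in the middle of a right wall**, before and after the thick group (centre `Y`) -/
theorem midR (hL : 8 ≤ L) (hδ : -1 ≤ δ ∧ δ ≤ 1) (hs : H ⊆ F) {c r Y g : ℤ} (hg : 0 ≤ g)
    (h1 : (c, r) ∈ H) (h2 : (c + 1, r) ∉ F) (hY1 : r * L + L / 4 ≤ Y) (hY2 : Y + L / 4 < r * L + L)
    (x1 y1 : ℤ) (hx1 : c * L + L + δ - L / 4 ≤ x1) (hx2 : x1 ≤ c * L + L + δ + L / 4)
    (hy1 : Y - L / 4 ≤ y1) (hy2 : y1 ≤ Y + L / 4)
    (hout : y1 < Y - g ∨ Y + g ≤ y1 ∨ x1 ≠ c * L + L + δ) :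
    ((x1, y1) ∈ shD F H L δ ∪ St (RL F H L δ) (Y - g) (Y + g) (c * L + L + δ) ↔
      Pat.ok .h1 (c * L + L + δ - 1) Y x1 y1) ∧
    ((x1, y1) ∈ shD F H L δ ∪ (St (RL F H L δ) (Y - g) (Y + g) (c * L + L + δ) ∪
      Gr (RL F H L δ) (Y - g) (Y + g) (c * L + L + δ)) ↔
      Pat.ok .h1 (c * L + L + δ - 1) Y x1 y1) := by
  obtain ⟨h3, h4⟩ := flatR (δ := δ) (y := Y - g) (y' := Y + g) hL hδ hs h1 h2 (by omega) hx1 hx2
    (y1 := y1) (by omega) (by omega)
  rw [h3, h4]
  simp only [Pat.ok]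
  constructor <;> omega

end Crest.Agent.R158.Vw802
private theorem rz_bf3ad4d319 : type_of% @_root_.Crest.Agent.R158.Vw802.Pat.ok.eq_1 := @_root_.Crest.Agent.R158.Vw802.Pat.ok.eq_1 -- L118
end

-- ▼ part R158/Hc1_854
section

/-!
# R158, BL (helper854), file Hc1: the height-ordered chain with an invariant

* `chainI` : 679's `chain` when the step estimates need an invariant `P` of the state, which is
  carried along
* `rr` : rotation by 180 degrees of the tiles, `chainR` : the chain from the top to the bottom and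
  from the right to the left
-/

set_option autoImplicit false

namespace Crest.Agent.R158.Hc854

open Crest.Agent.R158.Bh679

variable {RL : Finset (ℤ × ℤ)} {y y' X : ℤ}

variable {E : Type*} [SeminormedAddCommGroup E]

/-- one row -/
theorem rowI (P : Finset (ℤ × ℤ) → Prop) (H : Finset (ℤ × ℤ) → E) (hy : y ≤ y') {c : ℝ}
    (h : ∀ X ∈ Co RL y y', P (St RL y y' X) → P (St RL y y' (X + 1)) ∧
      ‖H (St RL y y' (X + 1)) - H (St RL y y' X)‖ ≤ c) (hP : P (Be RL y)) :
    P (Be RL y') ∧ ‖H (Be RL y') - H (Be RL y)‖ ≤ (Co RL y y').card * c := by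
  obtain ⟨x0, hx0⟩ : ∃ x0 : ℤ, ∀ t ∈ RL, x0 ≤ t.1 := by
    obtain ⟨m, hm⟩ := (RL.image Prod.fst).bddBelow
    exact ⟨m, fun t ht => hm (by simpa using ⟨t.2, ht⟩)⟩
  obtain ⟨x1, hx1⟩ : ∃ x1 : ℤ, ∀ t ∈ RL, t.1 < x1 := by
    obtain ⟨m, hm⟩ := (RL.image Prod.fst).bddAbove
    exact ⟨m + 1, fun t ht => Int.lt_add_one_iff.2 (hm (by simpa using ⟨t.2, ht⟩))⟩
  have key : ∀ m : ℕ, P (St RL y y' (x0 + m)) ∧ ‖H (St RL y y' (x0 + m)) - H (St RL y y' x0)‖ ≤
      ((Co RL y y').filter fun X => X < x0 + m).card * c := by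
    intro m
    induction m with
    | zero =>
      have : (Co RL y y').filter (fun X => X < x0 + (0 : ℕ)) = ∅ := by
        rw [Finset.eq_empty_iff_forall_notMem]
        intro X hX
        rw [Finset.mem_filter] at hX
        obtain ⟨t, h1, h2, -⟩ := mem_Co.1 hX.1
        have := hx0 t h1
        have := hX.2
        push_cast at this
        omega
      rw [this]
      refine ⟨?_, by simp⟩
      simp only [Nat.cast_zero, add_zero]
      rw [St_low hx0]
      exact hP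
    | succ m ih =>
      obtain ⟨ihP, ih⟩ := ih
      have e : x0 + ((m + 1 : ℕ) : ℤ) = x0 + m + 1 := by push_cast; ring
      rw [e]
      by_cases hX : x0 + (m : ℤ) ∈ Co RL y y'
      · have h1 : (Co RL y y').filter (fun X => X < x0 + m + 1) =
            insert (x0 + (m : ℤ)) ((Co RL y y').filter fun X => X < x0 + m) := by
          ext X
          simp only [Finset.mem_filter, Finset.mem_insert]
          constructor
          · rintro ⟨h2, h3⟩
            by_cases h4 : X = x0 + m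
            · exact Or.inl h4
            · exact Or.inr ⟨h2, by omega⟩
          · rintro (rfl | ⟨h2, h3⟩)
            · exact ⟨hX, by omega⟩
            · exact ⟨h2, by omega⟩
        have h2 : x0 + (m : ℤ) ∉ (Co RL y y').filter fun X => X < x0 + m := by
          simp
        rw [h1, Finset.card_insert_of_notMem h2]
        obtain ⟨h3P, h3⟩ := h _ hX ihP
        refine ⟨h3P, ?_⟩
        have h4 : H (St RL y y' (x0 + m + 1)) - H (St RL y y' x0) =
            (H (St RL y y' (x0 + m + 1)) - H (St RL y y' (x0 + m))) +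
              (H (St RL y y' (x0 + m)) - H (St RL y y' x0)) := by abel
        rw [h4]
        refine (norm_add_le _ _).trans ?_
        push_cast
        linarith
      · have h1 : (Co RL y y').filter (fun X => X < x0 + m + 1) =
            (Co RL y y').filter fun X => X < x0 + m := by
          ext X
          simp only [Finset.mem_filter]
          constructor
          · rintro ⟨h2, h3⟩
            refine ⟨h2, ?_⟩
            have : X ≠ x0 + m := fun e => hX (e ▸ h2)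
            omega
          · rintro ⟨h2, h3⟩; exact ⟨h2, by omega⟩
        rw [h1, St_succ hy, Gr_empty hX, Finset.union_empty]
        exact ⟨ihP, ih⟩
  obtain ⟨hP1, h1⟩ := key (x1 - x0).toNat
  by_cases hne : RL = ∅
  · subst hne
    have e1 : Be (∅ : Finset (ℤ × ℤ)) y' = Be ∅ y := by simp [Be]
    rw [e1, sub_self, norm_zero]
    refine ⟨hP, ?_⟩
    simp [Co]
  · obtain ⟨t, ht⟩ := Finset.nonempty_iff_ne_empty.2 hne
    have h2 : x0 ≤ x1 := by have := hx0 t ht; have := hx1 t ht; omega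
    have e : x0 + ((x1 - x0).toNat : ℤ) = x1 := by omega
    rw [e, St_high hy hx1] at h1 hP1
    rw [St_low hx0] at h1
    have h3 : (Co RL y y').filter (fun X => X < x1) = Co RL y y' := by
      rw [Finset.filter_eq_self]
      intro X hX
      obtain ⟨t, h4, h5, -⟩ := mem_Co.1 hX
      have := hx1 t h4
      omega
    rw [h3] at h1
    exact ⟨hP1, h1⟩

/-- several thin rows -/
theorem thinsI (P : Finset (ℤ × ℤ) → Prop) (H : Finset (ℤ × ℤ) → E) {c : ℝ} (y : ℤ) (m : ℕ)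
    (h : ∀ z, y ≤ z → z < y + m → ∀ X ∈ Co RL z (z + 1), P (St RL z (z + 1) X) →
      P (St RL z (z + 1) (X + 1)) ∧ ‖H (St RL z (z + 1) (X + 1)) - H (St RL z (z + 1) X)‖ ≤ c)
    (hP : P (Be RL y)) :
    P (Be RL (y + m)) ∧ ‖H (Be RL (y + m)) - H (Be RL y)‖ ≤
      (RL.filter fun t => y ≤ t.2 ∧ t.2 < y + m).card * c := by
  induction m with
  | zero =>
    have : RL.filter (fun t => y ≤ t.2 ∧ t.2 < y + (0 : ℕ)) = ∅ := by
      rw [Finset.eq_empty_iff_forall_notMem]
      intro t ht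
      rw [Finset.mem_filter] at ht
      push_cast at ht
      omega
    rw [this]
    refine ⟨by simpa using hP, by simp⟩
  | succ m ih =>
    obtain ⟨ihP, ih'⟩ := ih fun z h1 h2 => h z h1 (by push_cast; omega)
    obtain ⟨hrP, hr⟩ := rowI (RL := RL) (y := y + m) (y' := y + m + 1) P H (by omega) (c := c)
      (h (y + m) (by omega) (by push_cast; omega)) ihP
    rw [Co_thin_card] at hr
    have e : y + ((m + 1 : ℕ) : ℤ) = y + m + 1 := by push_cast; ring
    rw [e]
    have h1 : RL.filter (fun t => y ≤ t.2 ∧ t.2 < y + m + 1) =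
        (RL.filter fun t => y ≤ t.2 ∧ t.2 < y + m) ∪ RL.filter fun t => t.2 = y + m := by
      ext t
      simp only [Finset.mem_filter, Finset.mem_union]
      constructor
      · rintro ⟨h1, h2⟩
        by_cases h3 : t.2 = y + m
        · exact Or.inr ⟨h1, h3⟩
        · exact Or.inl ⟨h1, by omega⟩
      · rintro (⟨h1, h2⟩ | ⟨h1, h2⟩)
        · exact ⟨h1, by omega⟩
        · exact ⟨h1, by omega⟩
    have h2 : Disjoint (RL.filter fun t => y ≤ t.2 ∧ t.2 < y + m)
        (RL.filter fun t => t.2 = y + m) := by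
      rw [Finset.disjoint_left]
      intro t ht ht'
      rw [Finset.mem_filter] at ht ht'
      omega
    rw [h1, Finset.card_union_of_disjoint h2]
    have h4 : H (Be RL (y + m + 1)) - H (Be RL y) =
        (H (Be RL (y + m + 1)) - H (Be RL (y + m))) + (H (Be RL (y + m)) - H (Be RL y)) := by abel
    rw [h4]
    refine ⟨hrP, (norm_add_le _ _).trans ?_⟩
    push_cast
    linarith

/-- **the height-ordered chain with an invariant** -/
theorem chainI (P : Finset (ℤ × ℤ) → Prop) (H : Finset (ℤ × ℤ) → E) {L2 δ k0 : ℤ} {K : ℕ}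
    (hδ : 0 ≤ δ) (hL : 2 * δ ≤ L2)
    (lo : ∀ t ∈ RL, k0 * L2 - δ ≤ t.2) (hi : ∀ t ∈ RL, t.2 < (k0 + K) * L2 - δ) {ε1 ε2 : ℝ}
    (hε1 : 0 ≤ ε1) (hε2 : 0 ≤ ε2)
    (thin : ∀ k y X : ℤ, k * L2 + δ ≤ y → y < (k + 1) * L2 - δ → (X, y) ∈ RL →
      P (St RL y (y + 1) X) → P (insert (X, y) (St RL y (y + 1) X)) ∧
      ‖H (insert (X, y) (St RL y (y + 1) X)) - H (St RL y (y + 1) X)‖ ≤ ε1)
    (thick : ∀ k X : ℤ, (∃ t ∈ RL, t.1 = X ∧ k * L2 - δ ≤ t.2 ∧ t.2 < k * L2 + δ) →
      P (St RL (k * L2 - δ) (k * L2 + δ) X) →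
      P (St RL (k * L2 - δ) (k * L2 + δ) X ∪ Gr RL (k * L2 - δ) (k * L2 + δ) X) ∧
      ‖H (St RL (k * L2 - δ) (k * L2 + δ) X ∪ Gr RL (k * L2 - δ) (k * L2 + δ) X) -
        H (St RL (k * L2 - δ) (k * L2 + δ) X)‖ ≤ ε2) (hP : P ∅) :
    P RL ∧ ‖H RL - H ∅‖ ≤ RL.card * ε1 + K * (RL.image Prod.fst).card * ε2 := by
  have e2 : Be RL (k0 * L2 - δ) = ∅ := by
    rw [Finset.eq_empty_iff_forall_notMem]
    intro t ht
    obtain ⟨h2, h3⟩ := mem_Be.1 ht
    have := lo t h2
    omega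
  -- blocks
  have key : ∀ m : ℕ, P (Be RL ((k0 + m) * L2 - δ)) ∧
      ‖H (Be RL ((k0 + m) * L2 - δ)) - H (Be RL (k0 * L2 - δ))‖ ≤
      (RL.filter fun t => t.2 < (k0 + m) * L2 - δ).card * ε1 +
        m * (RL.image Prod.fst).card * ε2 := by
    intro m
    induction m with
    | zero =>
      simp only [Nat.cast_zero, add_zero, sub_self, norm_zero, zero_mul]
      refine ⟨by rw [e2]; exact hP, by positivity⟩
    | succ m ih =>
      obtain ⟨ihP, ih⟩ := ih
      obtain ⟨h1P, h1⟩ := rowI (RL := RL) (y := (k0 + m) * L2 - δ) (y' := (k0 + m) * L2 + δ) P H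
        (by omega) (c := ε2) (fun X hX hS => by
          rw [St_succ (by omega)]
          exact thick (k0 + m) X (mem_Co.1 hX) hS) ihP
      obtain ⟨h2P, h2⟩ := thinsI (RL := RL) P H (c := ε1) ((k0 + m) * L2 + δ) (L2 - 2 * δ).toNat
        (fun z hz1 hz2 X hX hS => by
          have e : (((L2 - 2 * δ).toNat : ℕ) : ℤ) = L2 - 2 * δ := by omega
          rw [e] at hz2
          obtain ⟨t, ht, h3, h4, h5⟩ := mem_Co.1 hX
          have ht' : (X, z) ∈ RL := by
            have : t = (X, z) := Prod.ext h3 (by show t.2 = z; omega)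
            rwa [← this]
          have h6 := thin (k0 + m) z X hz1 (by
            have : (k0 + m + 1) * L2 = (k0 + m) * L2 + L2 := by ring
            rw [this]; omega) ht' hS
          have h7 : St RL z (z + 1) (X + 1) = insert (X, z) (St RL z (z + 1) X) := by
            rw [St_succ (by omega)]
            ext t
            simp only [Finset.mem_union, Finset.mem_insert, mem_Gr]
            constructor
            · rintro (h8 | ⟨h8, h9, h10, h11⟩)
              · exact Or.inr h8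
              · exact Or.inl (Prod.ext h9 (by show t.2 = z; omega))
            · rintro (rfl | h8)
              · exact Or.inr ⟨ht', rfl, le_refl _, by simp⟩
              · exact Or.inl h8
          rw [h7]; exact h6) h1P
      have e : (k0 + m) * L2 + δ + (((L2 - 2 * δ).toNat : ℕ) : ℤ) =
          (k0 + ((m + 1 : ℕ) : ℤ)) * L2 - δ := by
        have : (((L2 - 2 * δ).toNat : ℕ) : ℤ) = L2 - 2 * δ := by omega
        rw [this]; push_cast; ring
      rw [e] at h2 h2P
      have hcard : (RL.filter fun t => t.2 < (k0 + m) * L2 - δ).card +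
          (RL.filter fun t => (k0 + m) * L2 + δ ≤ t.2 ∧ t.2 < (k0 + ((m + 1 : ℕ) : ℤ)) * L2 - δ).card
          ≤ (RL.filter fun t => t.2 < (k0 + ((m + 1 : ℕ) : ℤ)) * L2 - δ).card := by
        rw [← Finset.card_union_of_disjoint]
        · refine Finset.card_le_card fun t ht => ?_
          rw [Finset.mem_union, Finset.mem_filter, Finset.mem_filter] at ht
          rw [Finset.mem_filter]
          rcases ht with ⟨h3, h4⟩ | ⟨h3, h4⟩
          · refine ⟨h3, ?_⟩
            have : (k0 + ((m + 1 : ℕ) : ℤ)) * L2 = (k0 + m) * L2 + L2 := by push_cast; ring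
            rw [this]; omega
          · exact ⟨h3, h4.2⟩
        · rw [Finset.disjoint_left]
          intro t ht ht'
          rw [Finset.mem_filter] at ht ht'
          omega
      have h4 : H (Be RL ((k0 + ((m + 1 : ℕ) : ℤ)) * L2 - δ)) - H (Be RL (k0 * L2 - δ)) =
          (H (Be RL ((k0 + ((m + 1 : ℕ) : ℤ)) * L2 - δ)) - H (Be RL ((k0 + m) * L2 + δ))) +
          ((H (Be RL ((k0 + m) * L2 + δ)) - H (Be RL ((k0 + m) * L2 - δ))) +
          (H (Be RL ((k0 + m) * L2 - δ)) - H (Be RL (k0 * L2 - δ)))) := by abel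
      rw [h4]
      refine ⟨h2P, (norm_add_le _ _).trans ((add_le_add_right (norm_add_le _ _) _).trans ?_)⟩
      have h5 : ((Co RL ((k0 + m) * L2 - δ) ((k0 + m) * L2 + δ)).card : ℝ) * ε2 ≤
          (RL.image Prod.fst).card * ε2 :=
        mul_le_mul_of_nonneg_right (by exact_mod_cast Co_card_le) hε2
      have h6 : ((RL.filter fun t => t.2 < (k0 + m) * L2 - δ).card : ℝ) * ε1 +
          ((RL.filter fun t => (k0 + m) * L2 + δ ≤ t.2 ∧
            t.2 < (k0 + ((m + 1 : ℕ) : ℤ)) * L2 - δ).card : ℝ) * ε1 ≤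
          ((RL.filter fun t => t.2 < (k0 + ((m + 1 : ℕ) : ℤ)) * L2 - δ).card : ℝ) * ε1 := by
        rw [← add_mul]
        exact mul_le_mul_of_nonneg_right (by exact_mod_cast hcard) hε1
      push_cast at h2 h5 h6 ⊢
      nlinarith
  obtain ⟨h1P, h1⟩ := key K
  have e1 : Be RL ((k0 + K) * L2 - δ) = RL := by
    rw [Be, Finset.filter_eq_self]
    exact hi
  have e3 : RL.filter (fun t => t.2 < (k0 + K) * L2 - δ) = RL := by
    rw [Finset.filter_eq_self]
    exact hi
  rw [e1, e2, e3] at h1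
  rw [e1] at h1P
  exact ⟨h1P, h1⟩

/-! ### from the top to the bottom, from the right to the left -/

/-- rotation by 180 degrees -/
def rr (t : ℤ × ℤ) : ℤ × ℤ := (-1 - t.1, -1 - t.2)

@[simp] theorem rr_rr (t : ℤ × ℤ) : rr (rr t) = t := by
  obtain ⟨a, b⟩ := t
  simp [rr]

theorem rr_inj : Function.Injective rr := fun a b h => by rw [← rr_rr a, h, rr_rr]

theorem mem_image_rr {S : Finset (ℤ × ℤ)} {t : ℤ × ℤ} : t ∈ S.image rr ↔ rr t ∈ S := by
  rw [Finset.mem_image]
  constructor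
  · rintro ⟨a, ha, rfl⟩; simpa using ha
  · intro h; exact ⟨rr t, h, rr_rr t⟩

theorem image_rr_rr (S : Finset (ℤ × ℤ)) : (S.image rr).image rr = S := by
  ext t; rw [mem_image_rr, mem_image_rr, rr_rr]

/-- state before the group (rows `[y, y')`, column `X`), the order being from the top -/
def Sd (LL : Finset (ℤ × ℤ)) (y y' X : ℤ) : Finset (ℤ × ℤ) :=
  LL.filter fun t => y' ≤ t.2 ∨ (y ≤ t.2 ∧ X < t.1)

theorem mem_Sd {LL : Finset (ℤ × ℤ)} {t : ℤ × ℤ} :
    t ∈ Sd LL y y' X ↔ t ∈ LL ∧ (y' ≤ t.2 ∨ (y ≤ t.2 ∧ X < t.1)) := by simp [Sd]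

/-- **the chain from the top to the bottom** -/
theorem chainD {LL : Finset (ℤ × ℤ)} (P : Finset (ℤ × ℤ) → Prop) (H : Finset (ℤ × ℤ) → E)
    {L2 δ k0 : ℤ} {K : ℕ} (hδ : 0 ≤ δ) (hL : 2 * δ ≤ L2)
    (lo : ∀ t ∈ LL, k0 * L2 - δ ≤ t.2) (hi : ∀ t ∈ LL, t.2 < (k0 + K) * L2 - δ) {ε1 ε2 : ℝ}
    (hε1 : 0 ≤ ε1) (hε2 : 0 ≤ ε2)
    (thin : ∀ k y X : ℤ, k * L2 + δ ≤ y → y < (k + 1) * L2 - δ → (X, y) ∈ LL →
      P (Sd LL y (y + 1) X) → P (insert (X, y) (Sd LL y (y + 1) X)) ∧
      ‖H (insert (X, y) (Sd LL y (y + 1) X)) - H (Sd LL y (y + 1) X)‖ ≤ ε1)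
    (thick : ∀ k X : ℤ, (∃ t ∈ LL, t.1 = X ∧ k * L2 - δ ≤ t.2 ∧ t.2 < k * L2 + δ) →
      P (Sd LL (k * L2 - δ) (k * L2 + δ) X) →
      P (Sd LL (k * L2 - δ) (k * L2 + δ) X ∪ Gr LL (k * L2 - δ) (k * L2 + δ) X) ∧
      ‖H (Sd LL (k * L2 - δ) (k * L2 + δ) X ∪ Gr LL (k * L2 - δ) (k * L2 + δ) X) -
        H (Sd LL (k * L2 - δ) (k * L2 + δ) X)‖ ≤ ε2) (hP : P ∅) :
    P LL ∧ ‖H LL - H ∅‖ ≤ LL.card * ε1 + (K + 1) * (LL.image Prod.fst).card * ε2 := by
  have hmul : ∀ k : ℤ, -k * L2 = -(k * L2) := fun k => by ring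
  have e1 : ∀ y y' X : ℤ, (St (LL.image rr) y y' X).image rr = Sd LL (-y') (-y) (-1 - X) := by
    intro y y' X
    ext t
    rw [mem_image_rr, mem_St, mem_image_rr, rr_rr, mem_Sd]
    unfold rr
    simp only
    constructor
    · rintro ⟨h1, h2⟩; exact ⟨h1, by omega⟩
    · rintro ⟨h1, h2⟩; exact ⟨h1, by omega⟩
  have e2 : ∀ y y' X : ℤ, (Gr (LL.image rr) y y' X).image rr = Gr LL (-y') (-y) (-1 - X) := by
    intro y y' X
    ext t
    rw [mem_image_rr, mem_Gr, mem_image_rr, rr_rr, mem_Gr]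
    unfold rr
    simp only
    constructor
    · rintro ⟨h1, h2, h3, h4⟩; exact ⟨h1, by omega, by omega, by omega⟩
    · rintro ⟨h1, h2, h3, h4⟩; exact ⟨h1, by omega, by omega, by omega⟩
  have key := chainI (RL := LL.image rr) (fun S => P (S.image rr)) (fun S => H (S.image rr))
    (L2 := L2) (δ := δ) (k0 := -(k0 + K)) (K := K + 1) hδ hL ?_ ?_ hε1 hε2 ?_ ?_ (by simpa using hP)
  · obtain ⟨k1, k2⟩ := key
    simp only [image_rr_rr, Finset.image_empty] at k1 k2
    refine ⟨k1, k2.trans (le_of_eq ?_)⟩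
    rw [Finset.card_image_of_injective _ rr_inj]
    have e3 : (Finset.image Prod.fst (Finset.image rr LL)).card = (LL.image Prod.fst).card := by
      have : Finset.image Prod.fst (Finset.image rr LL) =
          (LL.image Prod.fst).image fun x => -1 - x := by
        rw [Finset.image_image, Finset.image_image]
        rfl
      rw [this, Finset.card_image_of_injective]
      intro a b h
      simp only at h
      omega
    rw [e3]
    push_cast
    ring
  · intro t ht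
    have h1 := hi _ (mem_image_rr.1 ht)
    unfold rr at h1
    simp only at h1
    rw [hmul]
    omega
  · intro t ht
    have h1 := lo _ (mem_image_rr.1 ht)
    unfold rr at h1
    simp only at h1
    have h2 : (-(k0 + (K : ℤ)) + ((K + 1 : ℕ) : ℤ)) * L2 = -(k0 * L2) + L2 := by push_cast; ring
    rw [h2]
    omega
  · intro k y X h1 h2 h3 h4
    have e0 : -(y + 1) = -1 - y := by ring
    have e5 : -y = -1 - y + 1 := by ring
    have e3 : (St (LL.image rr) y (y + 1) X).image rr =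
        Sd LL (-1 - y) (-1 - y + 1) (-1 - X) := by rw [e1, e0, e5]
    have e4 : (insert (X, y) (St (LL.image rr) y (y + 1) X)).image rr =
        insert (-1 - X, -1 - y) (Sd LL (-1 - y) (-1 - y + 1) (-1 - X)) := by
      rw [Finset.image_insert, e3]; rfl
    rw [e3] at h4
    rw [e3, e4]
    refine thin (-(k + 1)) (-1 - y) (-1 - X) ?_ ?_ (mem_image_rr.1 h3) h4
    · rw [hmul]; omega
    · have : (-(k + 1) + 1) * L2 = -(k * L2) := by ring
      rw [this]; omega
  · rintro k X ⟨t, ht, h1, h2, h3⟩ h4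
    have e0 : -(k * L2 + δ) = -k * L2 - δ := by ring
    have e5 : -(k * L2 - δ) = -k * L2 + δ := by ring
    have e3 : (St (LL.image rr) (k * L2 - δ) (k * L2 + δ) X).image rr =
        Sd LL (-k * L2 - δ) (-k * L2 + δ) (-1 - X) := by rw [e1, e0, e5]
    have e4 : (St (LL.image rr) (k * L2 - δ) (k * L2 + δ) X ∪
        Gr (LL.image rr) (k * L2 - δ) (k * L2 + δ) X).image rr =
        Sd LL (-k * L2 - δ) (-k * L2 + δ) (-1 - X) ∪
        Gr LL (-k * L2 - δ) (-k * L2 + δ) (-1 - X) := by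
      rw [Finset.image_union, e3, e2, e0, e5]
    rw [e3] at h4
    rw [e3, e4]
    refine thick (-k) (-1 - X) ⟨rr t, mem_image_rr.1 ht, ?_, ?_, ?_⟩ h4
    · show -1 - t.1 = -1 - X
      rw [h1]
    · show -k * L2 - δ ≤ -1 - t.2
      rw [hmul]; omega
    · show -1 - t.2 < -k * L2 + δ
      rw [hmul]; omega

end Crest.Agent.R158.Hc854
end

-- ▼ part R158/Vw2_802

/-!
# R158, block BL, leaf (B3) (helper802), file Vw2: windows of the layer of the left walls

The same as `Vw1_802` for `LL F H L δ`, order from the top (`Sd` of `Hc1_854`).  In this file the left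
wall is between the cells `c` (outside) and `c + 1` (in `H`), the layer column is
`c * L + L + δ - 1`.
-/

set_option autoImplicit false

namespace Crest.Agent.R158.Vw802

open Crest.Agent.R158.Sp896 (V)
open Crest.Agent.R158.Env664 (D mem_D div_iff)
open Crest.Agent.R158.Hb656
open Crest.Agent.R158.Bh679 (Gr mem_Gr)
open Crest.Agent.R158.Hc854 (Sd mem_Sd)

variable {F H : Finset V} {L δ : ℤ}

/-- the macroscopic wall behind a tile of the left layer -/
theorem ll_col (hL : 0 < L) (hs : H ⊆ F) {X y : ℤ} (h : (X, y) ∈ LL F H L δ) :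
    ∃ c r : ℤ, X = c * L + L + δ - 1 ∧ r * L ≤ y ∧ y < r * L + L ∧ (c + 1, r) ∈ H ∧ (c, r) ∉ F := by
  rw [mem_LL] at h
  simp only at h
  obtain ⟨h1, h2⟩ := h
  obtain ⟨r, hr1, hr2⟩ : ∃ r : ℤ, r * L ≤ y ∧ y < r * L + L := ⟨y / L, (div_iff hL y _).1 rfl⟩
  obtain ⟨c, hc1, hc2⟩ : ∃ c : ℤ, c * L ≤ X - δ ∧ X - δ < c * L + L :=
    ⟨_, (div_iff hL (X - δ) _).1 rfl⟩
  rw [mD hL hc1 hc2 hr1 hr2] at h2
  have h3 : ¬ (X + 1 - δ < c * L + L) := by
    intro h4
    rw [mD hL (by omega) h4 hr1 hr2] at h1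
    exact h2 (hs h1)
  have e : (c + 1) * L = c * L + L := by ring
  refine ⟨c, r, by omega, hr1, hr2, ?_, h2⟩
  rwa [mD hL (q := c + 1) (by rw [e]; omega) (by rw [e]; omega) hr1 hr2] at h1

/-- the left layer near the macroscopic vertical line `x = (c + 1) L` -/
theorem row_ll (hL : 8 ≤ L) (hs : H ⊆ F) {c r x y : ℤ} (hx1 : c * L + L + δ - L / 4 - 1 ≤ x)
    (hx2 : x ≤ c * L + L + δ + L / 4) (h3 : r * L ≤ y) (h4 : y < r * L + L) :
    (x, y) ∈ LL F H L δ ↔ x = c * L + L + δ - 1 ∧ (c + 1, r) ∈ H ∧ (c, r) ∉ F := by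
  have hL0 : 0 < L := by omega
  have e : (c + 1) * L = c * L + L := by ring
  rw [mem_LL]
  simp only
  rcases lt_trichotomy x (c * L + L + δ - 1) with h | h | h
  · rw [mD (G := H) hL0 (q := c) (by omega) (by omega) h3 h4,
      mD (G := F) hL0 (q := c) (by omega) (by omega) h3 h4]
    constructor
    · rintro ⟨h5, h6⟩; exact absurd (hs h5) h6
    · rintro ⟨h5, -⟩; omega
  · rw [mD (G := H) hL0 (q := c + 1) (by omega) (by omega) h3 h4,
      mD (G := F) hL0 (q := c) (by omega) (by omega) h3 h4]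
    simp only [h, true_and]
  · rw [mD (G := H) hL0 (q := c + 1) (by omega) (by omega) h3 h4,
      mD (G := F) hL0 (q := c + 1) (by omega) (by omega) h3 h4]
    constructor
    · rintro ⟨h5, h6⟩; exact absurd (hs h5) h6
    · rintro ⟨h5, -⟩; omega

/-- the moved region near the macroscopic vertical line, one more column to the left -/
theorem row_sh' (hL : 8 ≤ L) (hδ : -1 ≤ δ ∧ δ ≤ 1) {c r x y : ℤ}
    (hx1 : c * L + L + δ - L / 4 - 1 ≤ x)
    (hx2 : x ≤ c * L + L + δ + L / 4) (h3 : r * L ≤ y) (h4 : y < r * L + L) :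
    (x, y) ∈ shD F H L δ ↔ InSh F H c r (c * L + L) δ x := by
  have hL0 : 0 < L := by omega
  have e : (c + 1) * L = c * L + L := by ring
  rw [mem_shD]
  simp only
  unfold InSh
  refine or_congr ?_ ?_
  · split_ifs with h
    · rw [mD (G := F) hL0 (q := c) (by omega) h h3 h4, mD (G := H) hL0 (q := c) (by omega) h h3 h4]
    · rw [mD (G := F) hL0 (q := c + 1) (by omega) (by omega) h3 h4,
        mD (G := H) hL0 (q := c + 1) (by omega) (by omega) h3 h4]
  · split_ifs with h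
    · rw [mD (G := H) hL0 (q := c) (by omega) (by omega) h3 h4]
    · rw [mD (G := H) hL0 (q := c + 1) (by omega) (by omega) h3 h4]

section types

variable {c r X0 x : ℤ}

theorem inSh_iii (hs : H ⊆ F) (h1 : (c + 1, r) ∈ H) (h2 : (c, r) ∉ F) :
    InSh F H c r X0 δ x ↔ X0 + δ ≤ x := by
  have h3 := hs h1
  have h4 : (c, r) ∉ H := fun h => h2 (hs h)
  unfold InSh
  split_ifs <;> simp [*]
  · omega
  · omega

theorem inSh_vi (hs : H ⊆ F) (h1 : (c + 1, r) ∈ F) (h1' : (c + 1, r) ∉ H) (h2 : (c, r) ∉ F) :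
    InSh F H c r X0 δ x ↔ X0 ≤ x := by
  have h4 : (c, r) ∉ H := fun h => h2 (hs h)
  unfold InSh
  split_ifs <;> simp [*] <;> omega

end types

/-- **window of a flat segment** of a left wall: before and after the group of the column `X` -/
theorem flatL (hL : 8 ≤ L) (hδ : -1 ≤ δ ∧ δ ≤ 1) (hs : H ⊆ F) {c r y y' : ℤ} (h1 : (c + 1, r) ∈ H)
    (h2 : (c, r) ∉ F) (hy : y ≤ y') {x1 y1 : ℤ}
    (hx1 : c * L + L + δ - 1 - L / 4 ≤ x1) (hx2 : x1 ≤ c * L + L + δ - 1 + L / 4) (h3 : r * L ≤ y1)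
    (h4 : y1 < r * L + L) :
    ((x1, y1) ∈ shD F H L δ ∪ Sd (LL F H L δ) y y' (c * L + L + δ - 1) ↔
      c * L + L + δ - 1 < x1 ∨ (x1 = c * L + L + δ - 1 ∧ y' ≤ y1)) ∧
    ((x1, y1) ∈ shD F H L δ ∪ (Sd (LL F H L δ) y y' (c * L + L + δ - 1) ∪
        Gr (LL F H L δ) y y' (c * L + L + δ - 1)) ↔
      c * L + L + δ - 1 < x1 ∨ (x1 = c * L + L + δ - 1 ∧ y ≤ y1)) := by
  simp only [Finset.mem_union, mem_Sd, mem_Gr,
    row_sh' hL hδ (by omega : c * L + L + δ - L / 4 - 1 ≤ x1)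
      (by omega : x1 ≤ c * L + L + δ + L / 4) h3 h4,
    row_ll (δ := δ) hL hs (by omega : c * L + L + δ - L / 4 - 1 ≤ x1)
      (by omega : x1 ≤ c * L + L + δ + L / 4) h3 h4, inSh_iii hs h1 h2, h1, h2,
    not_false_eq_true, and_true]
  constructor <;> constructor <;> intro h5 <;> omega

/-- the pattern of a left wall with first column `a` at the height `Y` -/
def Pat.okL : Pat → ℤ → ℤ → ℤ → ℤ → Prop
  | .h1, a, Y, x, y => (Y ≤ y ∧ a - 1 ≤ x) ∨ (y < Y ∧ a ≤ x)
  | .h0, a, _, x, _ => a ≤ x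
  | .qa, a, Y, x, y => Y ≤ y ∧ a ≤ x
  | .qb, a, Y, x, y => y < Y ∧ a ≤ x
  | .ta, a, Y, x, y => y < Y ∨ a ≤ x
  | .tb, a, Y, x, y => Y ≤ y ∨ a ≤ x

/-- reduction of the vertex picture to its two rows -/
theorem vert_redL (hL : 8 ≤ L) (hδ : -1 ≤ δ ∧ δ ≤ 1) (hs : H ⊆ F) {c j g : ℤ} (hg : 0 ≤ g)
    {P : ℤ → ℤ → Prop}
    (hA : ∀ x1 y1 : ℤ, j * L ≤ y1 → ((InSh F H c j (c * L + L) δ x1 ∨
        (x1 = c * L + L + δ - 1 ∧ (c + 1, j) ∈ H ∧ (c, j) ∉ F)) ↔ P x1 y1))
    (hB : ∀ x1 y1 : ℤ, y1 < j * L → (InSh F H c (j - 1) (c * L + L) δ x1 ↔ P x1 y1)) (x1 y1 : ℤ)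
    (hx1 : c * L + L + δ - 1 - L / 4 ≤ x1) (hx2 : x1 ≤ c * L + L + δ - 1 + L / 4)
    (hy1 : j * L - L / 4 ≤ y1) (hy2 : y1 ≤ j * L + L / 4)
    (hout : y1 < j * L - g ∨ j * L + g ≤ y1 ∨ x1 ≠ c * L + L + δ - 1) :
    ((x1, y1) ∈ shD F H L δ ∪ Sd (LL F H L δ) (j * L - g) (j * L + g) (c * L + L + δ - 1) ↔
        P x1 y1) ∧
      ((x1, y1) ∈ shD F H L δ ∪ (Sd (LL F H L δ) (j * L - g) (j * L + g) (c * L + L + δ - 1) ∪
        Gr (LL F H L δ) (j * L - g) (j * L + g) (c * L + L + δ - 1)) ↔ P x1 y1) := by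
  have e1 : (j - 1) * L = j * L - L := by ring
  have hx1' : c * L + L + δ - L / 4 - 1 ≤ x1 := by omega
  have hx2' : x1 ≤ c * L + L + δ + L / 4 := by omega
  simp only [Finset.mem_union, mem_Sd, mem_Gr]
  rcases lt_or_ge y1 (j * L) with hy | hy
  · have h3 : (j - 1) * L ≤ y1 := by rw [e1]; omega
    have h4 : y1 < (j - 1) * L + L := by rw [e1]; omega
    rw [← hB x1 y1 hy, row_sh' hL hδ hx1' hx2' h3 h4, row_ll (δ := δ) hL hs hx1' hx2' h3 h4]
    constructor
    · refine or_iff_left ?_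
      rintro ⟨⟨h5, -⟩, h6⟩
      omega
    · refine or_iff_left ?_
      rintro (⟨⟨h5, -⟩, h6⟩ | ⟨⟨h5, -⟩, h6⟩)
      · omega
      · omega
  · have h3 : j * L ≤ y1 := hy
    have h4 : y1 < j * L + L := by omega
    rw [← hA x1 y1 hy, row_sh' hL hδ hx1' hx2' h3 h4, row_ll (δ := δ) hL hs hx1' hx2' h3 h4]
    constructor <;> refine or_congr_right ?_
    · constructor
      · rintro ⟨h5, -⟩; exact h5
      · intro h5
        refine ⟨h5, Or.inl ?_⟩
        have := h5.1
        omega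
    · constructor
      · rintro (⟨h5, -⟩ | ⟨h5, -⟩) <;> exact h5
      · intro h5
        refine Or.inl ⟨h5, Or.inl ?_⟩
        have := h5.1
        omega

/-- **pattern at a macroscopic vertex** of a left wall, before and after the thick group -/
theorem vertL (hL : 8 ≤ L) (hδ : δ = 0 ∨ δ = 1) {k i0 i1 : ℤ} {up : Bool} (hH : Hang F H k i0 i1 up)
    (hp : NoPinch F) {c j g : ℤ} (hg : 0 ≤ g)
    (h : ((c + 1, j) ∈ H ∧ (c, j) ∉ F) ∨ ((c + 1, j - 1) ∈ H ∧ (c, j - 1) ∉ F)) :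
    ∃ (q : Pat) (a : ℤ), (a = c * L + L + δ - 1 ∨ a = c * L + L + δ) ∧ ∀ x1 y1 : ℤ,
      c * L + L + δ - 1 - L / 4 ≤ x1 → x1 ≤ c * L + L + δ - 1 + L / 4 → j * L - L / 4 ≤ y1 →
      y1 ≤ j * L + L / 4 → (y1 < j * L - g ∨ j * L + g ≤ y1 ∨ x1 ≠ c * L + L + δ - 1) →
      ((x1, y1) ∈ shD F H L δ ∪ Sd (LL F H L δ) (j * L - g) (j * L + g) (c * L + L + δ - 1) ↔
        q.okL a (j * L) x1 y1) ∧
      ((x1, y1) ∈ shD F H L δ ∪ (Sd (LL F H L δ) (j * L - g) (j * L + g) (c * L + L + δ - 1) ∪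
        Gr (LL F H L δ) (j * L - g) (j * L + g) (c * L + L + δ - 1)) ↔
          q.okL a (j * L) x1 y1) := by
  have hs := hH.sub
  have hδ' : -1 ≤ δ ∧ δ ≤ 1 := by omega
  have main : ∀ (q : Pat) (a : ℤ), (a = c * L + L + δ - 1 ∨ a = c * L + L + δ) →
      (∀ x1 y1 : ℤ, j * L ≤ y1 → ((InSh F H c j (c * L + L) δ x1 ∨
        (x1 = c * L + L + δ - 1 ∧ (c + 1, j) ∈ H ∧ (c, j) ∉ F)) ↔ q.okL a (j * L) x1 y1)) →
      (∀ x1 y1 : ℤ, y1 < j * L → (InSh F H c (j - 1) (c * L + L) δ x1 ↔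
        q.okL a (j * L) x1 y1)) → _ :=
    fun q a ha hA hB => (⟨q, a, ha, fun x1 y1 => vert_redL hL hδ' hs hg hA hB x1 y1⟩ :
      ∃ (q : Pat) (a : ℤ), (a = c * L + L + δ - 1 ∨ a = c * L + L + δ) ∧ ∀ x1 y1 : ℤ,
      c * L + L + δ - 1 - L / 4 ≤ x1 → x1 ≤ c * L + L + δ - 1 + L / 4 → j * L - L / 4 ≤ y1 →
      y1 ≤ j * L + L / 4 → (y1 < j * L - g ∨ j * L + g ≤ y1 ∨ x1 ≠ c * L + L + δ - 1) →
      ((x1, y1) ∈ shD F H L δ ∪ Sd (LL F H L δ) (j * L - g) (j * L + g) (c * L + L + δ - 1) ↔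
        q.okL a (j * L) x1 y1) ∧
      ((x1, y1) ∈ shD F H L δ ∪ (Sd (LL F H L δ) (j * L - g) (j * L + g) (c * L + L + δ - 1) ∪
        Gr (LL F H L δ) (j * L - g) (j * L + g) (c * L + L + δ - 1)) ↔
          q.okL a (j * L) x1 y1))
  rcases h with ⟨h1, h2⟩ | ⟨h1, h2⟩
  · have hF := hs h1
    by_cases b1 : (c, j - 1) ∈ F <;> by_cases b2 : (c + 1, j - 1) ∈ F
    · refine main .ta (c * L + L + δ - 1) (Or.inl rfl) ?_ ?_
      · intro x1 y1 hy
        rw [inSh_iii hs h1 h2]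
        simp only [Pat.okL, h1, h2, not_false_eq_true, and_true]; omega
      · intro x1 y1 hy
        have := inSh_all (X0 := c * L + L) (δ := δ) (x := x1) b1 b2 (hH.hor c (j - 1))
        simp only [this, Pat.okL, hy, true_or]
    · exfalso
      have := hp.ne c (j - 1)
      rw [sub_add_cancel] at this
      rcases this b1 hF with h3 | h3
      · exact b2 h3
      · exact h2 h3
    · by_cases b3 : (c + 1, j - 1) ∈ H
      · refine main .h1 (c * L + L + δ) (Or.inr rfl) ?_ ?_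
        · intro x1 y1 hy
          rw [inSh_iii hs h1 h2]
          simp only [Pat.okL, h1, h2, not_false_eq_true, and_true]; omega
        · intro x1 y1 hy
          rw [inSh_iii hs b3 b1]
          simp only [Pat.okL]; omega
      · rcases hδ with rfl | rfl
        · refine main .h1 (c * L + L + 0) (Or.inr rfl) ?_ ?_
          · intro x1 y1 hy
            rw [inSh_iii hs h1 h2]
            simp only [Pat.okL, h1, h2, not_false_eq_true, and_true]; omega
          · intro x1 y1 hy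
            rw [inSh_vi hs b2 b3 b1]
            simp only [Pat.okL]; omega
        · refine main .h0 (c * L + L + 1 - 1) (Or.inl rfl) ?_ ?_
          · intro x1 y1 hy
            rw [inSh_iii hs h1 h2]
            simp only [Pat.okL, h1, h2, not_false_eq_true, and_true]; omega
          · intro x1 y1 hy
            rw [inSh_vi hs b2 b3 b1]
            simp only [Pat.okL]; omega
    · refine main .qa (c * L + L + δ - 1) (Or.inl rfl) ?_ ?_
      · intro x1 y1 hy
        rw [inSh_iii hs h1 h2]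
        simp only [Pat.okL, h1, h2, not_false_eq_true, and_true]; omega
      · intro x1 y1 hy
        simp only [inSh_none hs b1 b2, Pat.okL, false_iff]; omega
  · have hF := hs h1
    by_cases b1 : (c, j) ∈ F <;> by_cases b2 : (c + 1, j) ∈ F
    · refine main .tb (c * L + L + δ) (Or.inr rfl) ?_ ?_
      · intro x1 y1 hy
        have := inSh_all (X0 := c * L + L) (δ := δ) (x := x1) b1 b2 (hH.hor c j)
        simp only [this, Pat.okL, hy, true_or]
      · intro x1 y1 hy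
        rw [inSh_iii hs h1 h2]
        simp only [Pat.okL]; omega
    · exfalso
      have := hp.se c (j - 1)
      rw [sub_add_cancel] at this
      rcases this b1 hF with h3 | h3
      · exact h2 h3
      · exact b2 h3
    · by_cases b3 : (c + 1, j) ∈ H
      · refine main .h1 (c * L + L + δ) (Or.inr rfl) ?_ ?_
        · intro x1 y1 hy
          rw [inSh_iii hs b3 b1]
          simp only [Pat.okL, b3, b1, not_false_eq_true, and_true]; omega
        · intro x1 y1 hy
          rw [inSh_iii hs h1 h2]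
          simp only [Pat.okL]; omega
      · rcases hδ with rfl | rfl
        · refine main .h0 (c * L + L + 0) (Or.inr rfl) ?_ ?_
          · intro x1 y1 hy
            rw [inSh_vi hs b2 b3 b1]
            simp only [Pat.okL, b3, false_and, and_false, or_false]; omega
          · intro x1 y1 hy
            rw [inSh_iii hs h1 h2]
            simp only [Pat.okL]
        · refine main .h1 (c * L + L + 1) (Or.inr rfl) ?_ ?_
          · intro x1 y1 hy
            rw [inSh_vi hs b2 b3 b1]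
            simp only [Pat.okL, b3, false_and, and_false, or_false]; omega
          · intro x1 y1 hy
            rw [inSh_iii hs h1 h2]
            simp only [Pat.okL]; omega
    · refine main .qb (c * L + L + δ) (Or.inr rfl) ?_ ?_
      · intro x1 y1 hy
        have h3 : (c + 1, j) ∉ H := fun h => b2 (hs h)
        simp only [inSh_none hs b1 b2, Pat.okL, h3, false_and, and_false, or_false, false_iff]; omega
      · intro x1 y1 hy
        rw [inSh_iii hs h1 h2]
        simp only [Pat.okL]; omega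

/-- **pattern in the middle of a left wall**, before and after the thick group (centre `Y`) -/
theorem midL (hL : 8 ≤ L) (hδ : -1 ≤ δ ∧ δ ≤ 1) (hs : H ⊆ F) {c r Y g : ℤ} (hg : 0 ≤ g)
    (h1 : (c + 1, r) ∈ H) (h2 : (c, r) ∉ F) (hY1 : r * L + L / 4 ≤ Y) (hY2 : Y + L / 4 < r * L + L)
    (x1 y1 : ℤ) (hx1 : c * L + L + δ - 1 - L / 4 ≤ x1) (hx2 : x1 ≤ c * L + L + δ - 1 + L / 4)
    (hy1 : Y - L / 4 ≤ y1) (hy2 : y1 ≤ Y + L / 4)
    (hout : y1 < Y - g ∨ Y + g ≤ y1 ∨ x1 ≠ c * L + L + δ - 1) :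
    ((x1, y1) ∈ shD F H L δ ∪ Sd (LL F H L δ) (Y - g) (Y + g) (c * L + L + δ - 1) ↔
      Pat.okL .h1 (c * L + L + δ) Y x1 y1) ∧
    ((x1, y1) ∈ shD F H L δ ∪ (Sd (LL F H L δ) (Y - g) (Y + g) (c * L + L + δ - 1) ∪
      Gr (LL F H L δ) (Y - g) (Y + g) (c * L + L + δ - 1)) ↔
      Pat.okL .h1 (c * L + L + δ) Y x1 y1) := by
  obtain ⟨h3, h4⟩ := flatL (δ := δ) (y := Y - g) (y' := Y + g) hL hδ hs h1 h2 (by omega) hx1 hx2
    (y1 := y1) (by omega) (by omega)
  rw [h3, h4]
  simp only [Pat.okL]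
  constructor <;> omega

end Crest.Agent.R158.Vw802
private theorem rz_ca2977548e : type_of% @_root_.Crest.Agent.R158.Vw802.Pat.okL.eq_1 := @_root_.Crest.Agent.R158.Vw802.Pat.okL.eq_1 -- L124
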