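import Crest.Agent.R158.Hg3_896
import Crest.Agent.R158.Hb2_656
import Crest.Agent.R158.Mg2_949
import Crest.Agent.R158.Bh3_679
import Crest.Agent.R158.Bh4_679
import Crest.Agent.R158.Hc2_854
import Crest.Agent.R158.Wd10_377
import Crest.Agent.R158.Vw2_802
import Crest.Agent.R158.Bh5_679
import Crest.Agent.R158.Mb3_331
import Crest.Agent.R158.Cw5_161
import Crest.Agent.R158.Hb0_656
import Crest.Agent.R158.Hw1_949
import Crest.Agent.R158.Xr10_249
import Crest.Agent.R158.Q3a_331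

-- ▼ part R158/Hg4_896
section

/-!
# Row 158, BL (helper896), file Hg4: the Prop `HangEx` of Hb2_656 and `NP P.F`
-/

set_option autoImplicit false

namespace Crest.Agent.R158.Hg896

open Crest.Agent.R158.Hb656
open Crest.Agent.R158.Tj656 (P4)


/-- **(B1)** -/
theorem hangEx : HangEx := by
  intro P k a b a' b' hl hu hc
  rw [max_le_iff, le_min_iff, le_min_iff] at hc
  obtain ⟨⟨c1, c2⟩, c3, c4⟩ := hc
  have h1 : a ≤ max a a' := le_max_left _ _
  have h2 : a' ≤ max a a' := le_max_right _ _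
  have h3 : max a a' ≤ b := max_le c1 c3
  have h4 : max a a' ≤ b' := max_le c2 c4
  refine ⟨fun hb => ?_, fun hb => ?_⟩
  · obtain ⟨H, g1, g2, g3⟩ := mac_hang_up (Mg949.mac P) hl hu h1 h3 h2 h4 hb
    exact ⟨H, g1, hl, hu, max_le (le_min c1 c2) (le_min c3 c4), g2, g3⟩
  · obtain ⟨H, g1, g2, g3⟩ := mac_hang_dn (Mg949.mac P) hl hu h1 h3 h2 h4 hb
    exact ⟨H, g1, hl, hu, max_le (le_min c1 c2) (le_min c3 c4), g2, g3⟩

end Crest.Agent.R158.Hg896
end

-- ▼ part R158/Bh6_679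
section

/-!
# R158, BL (B7) (helper679), file Bh6: assembly of a layer chain

* `thick_both` : the ball step in both directions
* `rl_card`, `rl_cols`, `rl_rows` : counts
* `ThinR`, `ThickR` : the geometric inputs (helper802)
* **`rl_chain : ThinR → ThickR → RLchain`**
-/

set_option autoImplicit false

noncomputable section

namespace Crest.Agent.R158.Bh679

open Crest.Agent.R158.Sp896 (V)
open Crest.Agent.R158.Sw300 (Port)
open Crest.Agent.R158.Env664 (D mark nbc beD mem_D div_iff)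
open Crest.Agent.R158.Ob664 (GW HG)
open Crest.Agent.R158.Hb656 (Hang shD RL LL mkS mem_RL)
open Crest.Agent.R158.Wd377 (MK BxR Off right_D)
open Crest.Agent.R158.Cw161 (Sh pat Bx FarM Win)
open Crest.Agent.R158.Hc854 (MkP ball_mk)

/-- a mark outside the window, or moved inside the inner box -/
def MkR (X Y : ℤ) (r n : ℕ) (A A' : Finset V) (b b' : Port V → Port V) (m y : Port V) : Prop :=
  MkP X Y r A' b' m y ∧ MkP X Y r A b y m

theorem mkP_far {X Y : ℤ} {r n : ℕ} (hn : r + 1 ≤ n) {A' : Finset V} {b' : Port V → Port V}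
    {m : Port V} (h : FarM X Y n m) : MkP X Y r A' b' m m :=
  Or.inl ⟨rfl, fun t d e hb => h t d e (by unfold Bx at *; omega)⟩

/-- **the ball step in both directions** -/
theorem thick_both : ∃ C a : ℝ, 0 < C ∧ 0 < a ∧ ∀ (sh : Sh) (k : ZMod 4) (X Y : ℤ) (r n : ℕ),
    1 ≤ r → r + 1 ≤ n → ∀ {A A' : Finset V} {b b' : Port V → Port V},
    Win sh k X Y r n A b → Win sh k X Y r n A' b' →
    (∀ t, Bx X Y n t → ¬ Bx X Y r t → t ∈ A → pat X Y sh k t) →
    (∀ t, Bx X Y n t → ¬ Bx X Y r t → t ∈ A' → pat X Y sh k t) →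
    (∀ x, FarM X Y n x → b' x = b x) → (∀ t, ¬ Bx X Y r t → (t ∈ A ↔ t ∈ A')) →
    (∃ w, GW A b w) → (∃ w', GW A' b' w') → ∀ {m y : Fin 3 → Port V} (j : Fin 3),
    (∀ i, i ≠ j → FarM X Y n (m i) ∧ y i = m i) →
    ((FarM X Y n (m j) ∧ y j = m j) ∨ MkR X Y r n A A' b b' (m j) (y j)) →
    (MK A b (m 0) (m 1) (m 2) ↔ MK A' b' (y 0) (y 1) (y 2)) ∧
    (MK A b (m 0) (m 1) (m 2) →
      ‖HG A b (m 0) (m 1) (m 2) - HG A' b' (y 0) (y 1) (y 2)‖ ≤ C * ((r : ℝ) / n) ^ a) := by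
  obtain ⟨C, a, hC, ha, h⟩ := ball_mk
  refine ⟨C, a, hC, ha, ?_⟩
  intro sh k X Y r n hr hn A A' b b' W W' hp hp' hb hA hw hw' m y j hfar hj
  have hb' : ∀ x, FarM X Y n x → b x = b' x := fun x hx => (hb x hx).symm
  have F1 : ∀ i, i ≠ j → FarM X Y n (m i) := fun i hi => (hfar i hi).1
  have F2 : ∀ i, i ≠ j → FarM X Y n (y i) := fun i hi => by
    rw [(hfar i hi).2]; exact (hfar i hi).1
  have P1 : ∀ i, MkP X Y r A' b' (m i) (y i) := by
    intro i
    by_cases hi : i = j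
    · subst hi
      rcases hj with ⟨h1, h2⟩ | h1
      · rw [h2]; exact mkP_far hn h1
      · exact h1.1
    · rw [(hfar i hi).2]; exact mkP_far hn (hfar i hi).1
  have P2 : ∀ i, MkP X Y r A b (y i) (m i) := by
    intro i
    by_cases hi : i = j
    · subst hi
      rcases hj with ⟨h1, h2⟩ | h1
      · rw [h2]; exact mkP_far hn h1
      · exact h1.2
    · rw [(hfar i hi).2]; exact mkP_far hn (hfar i hi).1
  have G1 : ∀ i i', i ≠ i' → FarM X Y n (m i) ∨ FarM X Y n (m i') := by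
    intro i i' hii
    by_cases hi : i = j
    · exact Or.inr (F1 i' fun e => hii (hi.trans e.symm))
    · exact Or.inl (F1 i hi)
  have G2 : ∀ i i', i ≠ i' → FarM X Y n (y i) ∨ FarM X Y n (y i') := by
    intro i i' hii
    by_cases hi : i = j
    · exact Or.inr (F2 i' fun e => hii (hi.trans e.symm))
    · exact Or.inl (F2 i hi)
  have K1 := fun hm : MK A b (m 0) (m 1) (m 2) =>
    h sh k X Y r n hr hn W W' hp hb (fun t ht hA1 => (hA t ht).1 hA1) hw' hm (P1 0) (P1 1) (P1 2)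
      (G1 0 1 (by decide)) (G1 1 2 (by decide)) (G1 2 0 (by decide))
  have K2 := fun hm : MK A' b' (y 0) (y 1) (y 2) =>
    h sh k X Y r n hr hn W' W hp' hb' (fun t ht hA1 => (hA t ht).2 hA1) hw hm (P2 0) (P2 1) (P2 2)
      (G2 0 1 (by decide)) (G2 1 2 (by decide)) (G2 2 0 (by decide))
  exact ⟨⟨fun hm => (K1 hm).1, fun hm => (K2 hm).1⟩, fun hm => (K1 hm).2⟩

/-! ### counts -/

variable {F H : Finset V} {k i0 i1 : ℤ} {up : Bool} {L δ : ℤ}

theorem rl_data (hL : 0 < L) (hs : H ⊆ F) {t : V} (h : t ∈ RL F H L δ) :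
    ∃ c ∈ F, t.1 = (c.1 + 1) * L + δ ∧ c.2 * L ≤ t.2 ∧ t.2 < c.2 * L + L := by
  rw [mem_RL] at h
  obtain ⟨h1, h2⟩ := h
  rw [mem_D hL] at h1 h2
  simp only at h1 h2
  obtain ⟨b1, b2⟩ := (div_iff hL (t.1 - 1 - δ) _).1 rfl
  obtain ⟨b3, b4⟩ := (div_iff hL t.2 _).1 rfl
  refine ⟨((t.1 - 1 - δ) / L, t.2 / L), hs h1, ?_, b3, b4⟩
  simp only
  by_contra hcon
  apply h2
  have e1 : ((t.1 - 1 - δ) / L + 1) * L = (t.1 - 1 - δ) / L * L + L := by ring
  have : (t.1 - δ) / L = (t.1 - 1 - δ) / L := (div_iff hL _ _).2 ⟨by omega, by omega⟩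
  rw [this]
  exact hs h1

theorem rl_cols (hL : 0 < L) (hs : H ⊆ F) : ((RL F H L δ).image Prod.fst).card ≤ F.card := by
  have : (RL F H L δ).image Prod.fst ⊆ F.image fun c => (c.1 + 1) * L + δ := by
    intro X hX
    obtain ⟨t, ht, rfl⟩ := Finset.mem_image.1 hX
    obtain ⟨c, hc, e, -⟩ := rl_data hL hs ht
    exact Finset.mem_image.2 ⟨c, hc, e.symm⟩
  exact (Finset.card_le_card this).trans Finset.card_image_le

theorem rl_card (hL : 0 < L) (hs : H ⊆ F) : ((RL F H L δ).card : ℝ) ≤ F.card * L := by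
  have : RL F H L δ ⊆ (F ×ˢ Finset.range L.toNat).image fun q =>
      ((q.1.1 + 1) * L + δ, q.1.2 * L + (q.2 : ℤ)) := by
    intro t ht
    obtain ⟨c, hc, e, h1, h2⟩ := rl_data hL hs ht
    refine Finset.mem_image.2 ⟨(c, (t.2 - c.2 * L).toNat), ?_, ?_⟩
    · rw [Finset.mem_product, Finset.mem_range]
      exact ⟨hc, by simp only; omega⟩
    · refine Prod.ext e.symm ?_
      simp only
      omega
  have h1 := (Finset.card_le_card this).trans Finset.card_image_le
  rw [Finset.card_product, Finset.card_range] at h1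
  have h2 : ((RL F H L δ).card : ℝ) ≤ ((F.card * L.toNat : ℕ) : ℝ) := by exact_mod_cast h1
  refine h2.trans_eq ?_
  push_cast
  congr 1
  have : ((L.toNat : ℤ) : ℝ) = L := by rw [Int.toNat_of_nonneg hL.le]
  exact_mod_cast this

/-- rows of a finite set -/
theorem exists_rows (F : Finset V) : ∃ (k0 : ℤ) (K : ℕ), ∀ c ∈ F, k0 ≤ c.2 ∧ c.2 < k0 + K := by
  obtain ⟨a, ha⟩ := (F.image Prod.snd).bddBelow
  obtain ⟨b, hb⟩ := (F.image Prod.snd).bddAbove
  refine ⟨a, (b + 1 - a).toNat, fun c hc => ?_⟩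
  have h1 := ha (show c.2 ∈ F.image Prod.snd from Finset.mem_image.2 ⟨c, hc, rfl⟩)
  have h2 := hb (show c.2 ∈ F.image Prod.snd from Finset.mem_image.2 ⟨c, hc, rfl⟩)
  exact ⟨h1, by omega⟩

/-! ### the inputs -/

/-- **thin groups** -/
def ThinR : Prop := ∀ {F H : Finset V} {k i0 i1 : ℤ} {up : Bool}, Hang F H k i0 i1 up → NP F →
  ∀ {L L2 δ p y0 xr : ℤ} {g n : ℕ}, L = 2 * L2 → (δ = -1 ∨ δ = 0) → 8 ≤ g → 64 * (g : ℤ) ≤ L →
  n + 2 ≤ g → p ≤ xr → Away H L p y0 xr →
  ∀ {m : Fin 3 → V × ZMod 4}, Function.Injective m →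
  (∀ i, (m i).1 ∈ F ∧ nbc (m i).1 (m i).2 ∉ F) →
  ∀ {κ X y : ℤ}, (X, y) ∈ RL F H L δ → κ * L2 + g ≤ y → y < (κ + 1) * L2 - g →
  (∀ x y', X - 1 - n ≤ x → x ≤ X - 1 + 2 → y - n - 1 ≤ y' → y' ≤ y + n →
    ((x, y') ∈ shD F H L δ ∪ St (RL F H L δ) y (y + 1) X ↔
      (y' < y → x ≤ X - 1 + 1) ∧ (y ≤ y' → x ≤ X - 1))) ∧
  (∀ t, BxR (X - 1) y n t → ¬ ((t.2 = y0 ∨ t.2 = y0 - 1) ∧ p ≤ t.1 ∧ t.1 ≤ xr + 1)) ∧
  (∀ i, Off (BxR (X - 1) y n) (mq H L δ (St (RL F H L δ) y (y + 1) X) (m i))) ∧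
  (∀ i, mq H L δ (insert (X, y) (St (RL F H L δ) y (y + 1) X)) (m i) =
    mq H L δ (St (RL F H L δ) y (y + 1) X) (m i))

/-- **thick groups** -/
def ThickR : Prop := ∀ {F H : Finset V} {k i0 i1 : ℤ} {up : Bool}, Hang F H k i0 i1 up → NP F →
  ∀ {L L2 δ p y0 xr : ℤ} {g r n : ℕ}, L = 2 * L2 → (δ = -1 ∨ δ = 0) → 8 ≤ g →
  64 * (g : ℤ) ≤ L → r = g + 3 → r + 1 ≤ n → (n : ℤ) + 8 ≤ L / 4 → p ≤ xr → Away H L p y0 xr →
  ∀ {m : Fin 3 → V × ZMod 4}, Function.Injective m →
  (∀ i, (m i).1 ∈ F ∧ nbc (m i).1 (m i).2 ∉ F) →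
  ∀ {κ X : ℤ}, (∃ t ∈ RL F H L δ, t.1 = X ∧ κ * L2 - g ≤ t.2 ∧ t.2 < κ * L2 + g) →
  ∀ {S S' A A' : Finset V} {b b' : Port V → Port V},
  S = St (RL F H L δ) (κ * L2 - g) (κ * L2 + g) X →
  S' = S ∪ Gr (RL F H L δ) (κ * L2 - g) (κ * L2 + g) X →
  A = shD F H L δ ∪ S → A' = shD F H L δ ∪ S' → b = beD A p y0 xr → b' = beD A' p y0 xr →
  ∃ (sh : Sh) (q : ZMod 4) (X0 Y0 : ℤ), Win sh q X0 Y0 r n A b ∧ Win sh q X0 Y0 r n A' b' ∧
    (∀ t, Bx X0 Y0 n t → ¬ Bx X0 Y0 r t → t ∈ A → pat X0 Y0 sh q t) ∧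
    (∀ t, Bx X0 Y0 n t → ¬ Bx X0 Y0 r t → t ∈ A' → pat X0 Y0 sh q t) ∧
    (∀ x, FarM X0 Y0 n x → b' x = b x) ∧ (∀ t, ¬ Bx X0 Y0 r t → (t ∈ A ↔ t ∈ A')) ∧
    ∃ e : V × ZMod 4, ∀ i, (FarM X0 Y0 n (mq H L δ S (m i)) ∧
      mq H L δ S' (m i) = mq H L δ S (m i)) ∨
      (m i = e ∧ MkR X0 Y0 r n A A' b b' (mq H L δ S (m i)) (mq H L δ S' (m i)))

/-- the constants of the chain -/
theorem const1 {C1 c : ℝ} (hC1 : 0 ≤ C1) (hc : 0 < c) {g : ℕ} (hg : 8 ≤ g) :
    C1 * (1 / ((g - 2 : ℕ) : ℝ)) ^ (1 + c) ≤ C1 * 4 ^ (1 + c) * (1 / (g : ℝ)) ^ (1 + c) := by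
  have hgR : (8 : ℝ) ≤ g := by exact_mod_cast hg
  have e1 : ((g - 2 : ℕ) : ℝ) = g - 2 := by
    rw [Nat.cast_sub (by omega)]; norm_num
  rw [mul_assoc]
  refine mul_le_mul_of_nonneg_left ?_ hC1
  rw [← Real.mul_rpow (by norm_num) (by positivity)]
  have : 0 ≤ 1 / ((g - 2 : ℕ) : ℝ) := by positivity
  refine Real.rpow_le_rpow this ?_ (by linarith)
  rw [e1, mul_one_div, div_le_div_iff₀ (by linarith) (by linarith)]
  linarith

theorem const2 {C2 a : ℝ} (hC2 : 0 ≤ C2) (ha : 0 < a) {g : ℕ} {L : ℤ} (hg : 8 ≤ g)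
    (hgL : 64 * (g : ℤ) ≤ L) :
    C2 * (((g + 3 : ℕ) : ℝ) / ((L / 4 - 8).toNat : ℝ)) ^ a ≤
      C2 * 64 ^ a * ((g : ℝ) / L) ^ a := by
  have hg0 : (8 : ℤ) ≤ g := by exact_mod_cast hg
  have hgR : (8 : ℝ) ≤ g := by exact_mod_cast hg
  have hL0 : 0 < L := by omega
  have hLR : (0 : ℝ) < L := by exact_mod_cast hL0
  have e2 : (L : ℝ) / 16 ≤ ((L / 4 - 8).toNat : ℝ) := by
    have h3 : ((L / 4 - 8).toNat : ℝ) = ((L / 4 - 8 : ℤ) : ℝ) := by
      have : (((L / 4 - 8).toNat : ℤ) : ℝ) = ((L / 4 - 8 : ℤ) : ℝ) := by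
        rw [Int.toNat_of_nonneg (by omega)]
      exact_mod_cast this
    rw [h3, div_le_iff₀ (by norm_num)]
    have : L ≤ (L / 4 - 8) * 16 := by omega
    exact_mod_cast this
  rw [mul_assoc]
  refine mul_le_mul_of_nonneg_left ?_ hC2
  rw [← Real.mul_rpow (by norm_num) (by positivity)]
  refine Real.rpow_le_rpow (by positivity) ?_ ha.le
  have h5 : (0 : ℝ) < ((L / 4 - 8).toNat : ℝ) := by
    have : 0 < (L : ℝ) / 16 := by positivity
    linarith
  rw [mul_div_assoc', div_le_div_iff₀ h5 hLR]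
  push_cast
  nlinarith [e2, hgR, hLR]

/-- the bound of the chain -/
theorem bound {n1 n2 : ℝ} {f K : ℕ} {L : ℤ} (hL : 0 < L) {e1 e2 d1 d2 M : ℝ} {s1 s2 : ℝ}
    (h1 : n1 ≤ f * L) (h2 : n2 ≤ f) (q1 : e1 ≤ d1 * s1) (q2 : e2 ≤ d2 * s2) (he1 : 0 ≤ e1)
    (he2 : 0 ≤ e2) (hn2 : 0 ≤ n2) (hd1 : d1 ≤ M) (hd2 : d2 ≤ M) (hM : 0 ≤ M)
    (hs1 : 0 ≤ s1) (hs2 : 0 ≤ s2) :
    n1 * e1 + ((2 * K + 1 : ℕ) : ℝ) * n2 * e2 ≤
      ((f * (2 * K + 2) : ℕ) : ℝ) * (L * (M * s1) + M * s2) := by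
  have hLR : (0 : ℝ) < L := by exact_mod_cast hL
  have hf : (0 : ℝ) ≤ f := by positivity
  have hK : (0 : ℝ) ≤ K := by positivity
  have t1 : e1 ≤ M * s1 := q1.trans (mul_le_mul_of_nonneg_right hd1 hs1)
  have t2 : e2 ≤ M * s2 := q2.trans (mul_le_mul_of_nonneg_right hd2 hs2)
  have r1 : n1 * e1 ≤ f * L * (M * s1) := by
    refine (mul_le_mul_of_nonneg_right h1 he1).trans ?_
    exact mul_le_mul_of_nonneg_left t1 (by positivity)
  have r2 : ((2 * K + 1 : ℕ) : ℝ) * n2 * e2 ≤ ((2 * K + 1 : ℕ) : ℝ) * f * (M * s2) := by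
    refine (mul_le_mul_of_nonneg_right (mul_le_mul_of_nonneg_left h2 (by positivity)) he2).trans ?_
    exact mul_le_mul_of_nonneg_left t2 (by positivity)
  refine (add_le_add r1 r2).trans ?_
  have u1 : 0 ≤ M * s1 := by positivity
  have u2 : 0 ≤ M * s2 := by positivity
  push_cast
  have v1 : (f : ℝ) * L * (M * s1) ≤ f * (2 * K + 2) * (L * (M * s1)) := by
    have : (f : ℝ) * L * (M * s1) = f * 1 * (L * (M * s1)) := by ring
    rw [this]
    refine mul_le_mul_of_nonneg_right (mul_le_mul_of_nonneg_left (by linarith) hf) (by positivity)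
  have v2 : (2 * (K : ℝ) + 1) * f * (M * s2) ≤ f * (2 * K + 2) * (M * s2) := by
    refine mul_le_mul_of_nonneg_right ?_ u2
    nlinarith
  linarith

/-- **(B7), right walls, from the geometric inputs** -/
theorem rl_chain (hthin : ThinR) (hthick : ThickR) : RLchain := by
  obtain ⟨C1, c, hC1, hc, hc1, h1⟩ := right_D
  obtain ⟨C2, a, hC2, ha, h2⟩ := thick_both
  refine ⟨max (C1 * 4 ^ (1 + c)) (C2 * 64 ^ a), a, c,
    le_max_of_le_right (by positivity), ha, hc, ?_⟩
  intro F hF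
  obtain ⟨k0, K, hK⟩ := exists_rows F
  refine ⟨F.card * (2 * K + 2), ?_⟩
  intro H k i0 i1 up hH L δ p y0 xr g hev hδ hg hgL hp haw hW m hinj hm
  obtain ⟨L2, hL2⟩ := hev
  have hL2' : L = 2 * L2 := by omega
  have hg0 : (8 : ℤ) ≤ g := by exact_mod_cast hg
  have hL0 : 0 < L := by omega
  have hs := hH.sub
  have hrow : ∀ t ∈ RL F H L δ, k0 * L ≤ t.2 ∧ t.2 < (k0 + K) * L := by
    intro t ht
    obtain ⟨cc, hcc, -, b1, b2⟩ := rl_data hL0 hs ht
    obtain ⟨d1, d2⟩ := hK cc hcc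
    constructor
    · nlinarith
    · nlinarith
  -- thin groups
  have thin : ∀ κ y X : ℤ, κ * L2 + g ≤ y → y < (κ + 1) * L2 - g → (X, y) ∈ RL F H L δ →
      (MKs F H L δ p y0 xr m (St (RL F H L δ) y (y + 1) X) ↔
        MKs F H L δ p y0 xr m (insert (X, y) (St (RL F H L δ) y (y + 1) X))) ∧
      (MKs F H L δ p y0 xr m (St (RL F H L δ) y (y + 1) X) →
        ‖HGs F H L δ p y0 xr m (insert (X, y) (St (RL F H L δ) y (y + 1) X)) -
          HGs F H L δ p y0 xr m (St (RL F H L δ) y (y + 1) X)‖ ≤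
          C1 * (1 / ((g - 2 : ℕ) : ℝ)) ^ (1 + c)) := by
    intro κ y X k1 k2 k3
    obtain ⟨t1, t2, t3, t4⟩ := hthin hH hF (n := g - 2) hL2' hδ hg hgL (by omega) hp haw hinj hm
      k3 k1 k2
    have hw := hW (St (RL F H L δ) y (y + 1) X) (Finset.filter_subset _ _)
    have := h1 (X - 1) y (g - 2) _ p y0 xr _ _ _ (by omega) (by omega) t1 t2 (t3 0) (t3 1) (t3 2) hw
    have e1 : X - 1 + 1 = X := by ring
    rw [e1] at this
    have e2 : insert (X, y) (shD F H L δ ∪ St (RL F H L δ) y (y + 1) X) =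
        shD F H L δ ∪ insert (X, y) (St (RL F H L δ) y (y + 1) X) :=
      (Finset.union_insert _ _ _).symm
    rw [e2] at this
    unfold MKs HGs
    rw [t4, t4, t4]
    refine ⟨this.1, fun h0 => ?_⟩
    rw [norm_sub_rev]
    exact this.2 h0
  -- thick groups
  have thick : ∀ κ X : ℤ, (∃ t ∈ RL F H L δ, t.1 = X ∧ κ * L2 - g ≤ t.2 ∧ t.2 < κ * L2 + g) →
      (MKs F H L δ p y0 xr m (St (RL F H L δ) (κ * L2 - g) (κ * L2 + g) X) ↔
        MKs F H L δ p y0 xr m (St (RL F H L δ) (κ * L2 - g) (κ * L2 + g) X ∪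
          Gr (RL F H L δ) (κ * L2 - g) (κ * L2 + g) X)) ∧
      (MKs F H L δ p y0 xr m (St (RL F H L δ) (κ * L2 - g) (κ * L2 + g) X) →
        ‖HGs F H L δ p y0 xr m (St (RL F H L δ) (κ * L2 - g) (κ * L2 + g) X ∪
          Gr (RL F H L δ) (κ * L2 - g) (κ * L2 + g) X) -
          HGs F H L δ p y0 xr m (St (RL F H L δ) (κ * L2 - g) (κ * L2 + g) X)‖ ≤
          C2 * (((g + 3 : ℕ) : ℝ) / ((L / 4 - 8).toNat : ℝ)) ^ a) := by
    intro κ X hX
    have hn : (((L / 4 - 8).toNat : ℕ) : ℤ) = L / 4 - 8 := Int.toNat_of_nonneg (by omega)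
    obtain ⟨sh, q, X0, Y0, w1, w2, n1, n2, f1, f2, e, f3⟩ := hthick hH hF (r := g + 3)
      (n := (L / 4 - 8).toNat) hL2' hδ hg hgL rfl (by omega) (by omega) hp haw hinj hm hX rfl rfl
      rfl rfl rfl rfl
    have s1 : St (RL F H L δ) (κ * L2 - g) (κ * L2 + g) X ⊆ RL F H L δ := Finset.filter_subset _ _
    have s2 : St (RL F H L δ) (κ * L2 - g) (κ * L2 + g) X ∪
        Gr (RL F H L δ) (κ * L2 - g) (κ * L2 + g) X ⊆ RL F H L δ :=
      Finset.union_subset s1 (Finset.filter_subset _ _)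
    -- the exceptional index
    obtain ⟨j, hj⟩ : ∃ j : Fin 3, ∀ i, i ≠ j → m i ≠ e := by
      by_cases h : ∃ j, m j = e
      · obtain ⟨j, hj⟩ := h
        exact ⟨j, fun i hi h3 => hi (hinj (h3.trans hj.symm))⟩
      · exact ⟨0, fun i _ h3 => h ⟨i, h3⟩⟩
    have := h2 sh q X0 Y0 (g + 3) (L / 4 - 8).toNat (by omega) (by omega) w1 w2 n1 n2 f1 f2
      (hW _ s1) (hW _ s2) (m := fun i => mq H L δ (St (RL F H L δ) (κ * L2 - g) (κ * L2 + g) X) (m i))
      (y := fun i => mq H L δ (St (RL F H L δ) (κ * L2 - g) (κ * L2 + g) X ∪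
        Gr (RL F H L δ) (κ * L2 - g) (κ * L2 + g) X) (m i)) j
      (fun i hi => by
        rcases f3 i with h | h
        · exact h
        · exact absurd h.1 (hj i hi))
      (by
        rcases f3 j with h | h
        · exact Or.inl h
        · exact Or.inr h.2)
    refine ⟨this.1, fun h0 => ?_⟩
    rw [norm_sub_rev]
    exact this.2 h0
  have e1 : 0 ≤ C1 * (1 / ((g - 2 : ℕ) : ℝ)) ^ (1 + c) := by positivity
  have e2 : 0 ≤ C2 * (((g + 3 : ℕ) : ℝ) / ((L / 4 - 8).toNat : ℝ)) ^ a := by positivity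
  have key := chainP (RL := RL F H L δ) (MKs F H L δ p y0 xr m) (HGs F H L δ p y0 xr m)
    (L2 := L2) (δ := g) (k0 := 2 * k0) (K := 2 * K + 1) (by positivity) (by omega)
    (fun t ht => by
      have := (hrow t ht).1
      have e : 2 * k0 * L2 = k0 * L := by rw [hL2']; ring
      rw [e]; omega)
    (fun t ht => by
      have := (hrow t ht).2
      have e : (2 * k0 + ((2 * K + 1 : ℕ) : ℤ)) * L2 = (k0 + K) * L + L2 := by
        rw [hL2']; push_cast; ring
      rw [e]; omega) e1 e2 thin thick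
  refine ⟨key.1, fun h0 => (key.2 h0).trans ?_⟩
  exact bound hL0 (rl_card hL0 hs) (by exact_mod_cast rl_cols (δ := δ) hL0 hs)
    (const1 (by linarith) hc hg) (const2 hC2.le ha hg hgL) e1 e2 (by positivity)
    (le_max_left _ _) (le_max_right _ _) (le_max_of_le_right (by positivity)) (by positivity)
    (by positivity)

end Crest.Agent.R158.Bh679
end
end

-- ▼ part R158/Vw3_802
section

/-!
# R158, block BL, leaf (B3) (helper802), file Vw3: from the windows to the ball theorem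

* `ok_iff`, `okL_iff` : patterns = 161's `pat`
* `win_of`, `winL_of` : windows in the sense of `Cw4_161`
* `beD_plain`, `beD_congr`, `nbD_near`
* `mk_cases`, `mkS_near`, `mkS_congr` : marks
* `catR`, `catL` : pattern of a thick group
-/

set_option autoImplicit false

namespace Crest.Agent.R158.Vw802

open Crest.Agent.R158.Sp896 (V)
open Crest.Agent.R158.Sw300 (Port)
open Crest.Agent.R158.Env664
open Crest.Agent.R158.Hb656
open Crest.Agent.R158.Bh679 (St Gr mem_St mem_Gr mq Away)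
open Crest.Agent.R158.Hc854 (Sd mem_Sd MkP)
open Crest.Agent.R158.Cw161 hiding portOf_some

variable {F H : Finset V} {L δ : ℤ}

/-! ### patterns -/

/-- shape -/
def Pat.sh : Pat → Sh
  | .h1 => .h1 | .h0 => .h0 | .qa => .q | .qb => .q | .ta => .t | .tb => .t

/-- turn, right wall -/
def Pat.kR : Pat → ZMod 4
  | .h1 => 0 | .h0 => 0 | .qa => 1 | .qb => 2 | .ta => 0 | .tb => 3


theorem ok_iff (q : Pat) (a Y x y : ℤ) : q.ok a Y x y ↔ pat a (Y - 1) q.sh q.kR (x, y) := by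
  cases q <;> simp only [Pat.ok, Pat.sh, Pat.kR, pat_s0, pat_h0, pat_q1, pat_q2, pat_t0, pat_t3] <;>
    omega


/-- windows, right walls -/
theorem win_of {A : Finset V} {b : Port V → Port V} {q : Pat} {a X Y M : ℤ} {g r n : ℕ}
    (ha : a = X - 1 ∨ a = X) (hr : g + 2 ≤ r) (hrn : r + 1 ≤ n) (hn : (n : ℤ) + 2 ≤ M)
    (hA : ∀ x1 y1 : ℤ, X - M ≤ x1 → x1 ≤ X + M → Y - M ≤ y1 → y1 ≤ Y + M →
      (y1 < Y - g ∨ Y + g ≤ y1 ∨ x1 ≠ X) → ((x1, y1) ∈ A ↔ q.ok a Y x1 y1))
    (hb : ∀ t d, Bx a (Y - 1) n t → b (some (t, d)) = beP A (some (t, d))) :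
    Win q.sh q.kR a (Y - 1) r n A b ∧ ∀ t, Bx a (Y - 1) n t → ¬ Bx a (Y - 1) r t → t ∈ A →
      pat a (Y - 1) q.sh q.kR t := by
  have hA' : ∀ t, Bx a (Y - 1) (n + 1) t → ¬ Bx a (Y - 1) (r - 1) t →
      (t ∈ A ↔ pat a (Y - 1) q.sh q.kR t) := by
    rintro ⟨x, y⟩ h1 h2
    rw [← ok_iff]
    unfold Bx at h1 h2
    simp only at h1 h2
    push_cast [Nat.cast_sub (by omega : 1 ≤ r)] at h1 h2
    exact hA x y (by omega) (by omega) (by omega) (by omega) (by omega)
  exact ⟨win_plain (by omega) hrn hA' hb, np_plain hA'⟩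


/-! ### the glueing -/

section beD

variable {A A2 : Finset V} {p y0 xr : ℤ}

theorem beD_plain {t : V} (h : ¬ ((t.2 = y0 - 1 ∨ t.2 = y0) ∧ p ≤ t.1 ∧ t.1 ≤ xr)) (hp : p ≤ xr)
    (d : ZMod 4) : beD A p y0 xr (some (t, d)) = beP A (some (t, d)) := by
  obtain ⟨x, y⟩ := t
  simp only at h
  have e : nbD p y0 xr (some ((x, y), d)) = nbP (some ((x, y), d)) := by
    rcases z4 d with rfl | rfl | rfl | rfl
    · rw [nbD_W, nbP_W]
    · rw [nbD_N (by omega), nbP_N]
    · rw [nbD_E, nbP_E]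
    · rw [nbD_S ⟨by omega, by omega⟩, nbP_S]
  unfold beD beP res
  rw [e]

theorem beD_congr {x : Port V} (h1 : PortOf A x ↔ PortOf A2 x)
    (h2 : PortOf A (nbD p y0 xr x) ↔ PortOf A2 (nbD p y0 xr x)) :
    beD A2 p y0 xr x = beD A p y0 xr x := by
  unfold beD res
  simp only [h1, h2]

theorem nbD_near (t : V) (d : ZMod 4) : nbD p y0 xr (some (t, d)) = none ∨
    ∃ t' d', nbD p y0 xr (some (t, d)) = some (t', d') ∧ t.1 - 1 ≤ t'.1 ∧ t'.1 ≤ t.1 + 1 ∧
      t.2 - 1 ≤ t'.2 ∧ t'.2 ≤ t.2 + 1 := by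
  obtain ⟨x, y⟩ := t
  rcases z4 d with rfl | rfl | rfl | rfl
  · rw [nbD_W]; right; exact ⟨_, _, rfl, by simp only; omega⟩
  · right
    by_cases h : y = y0 - 1 ∧ p ≤ x ∧ x ≤ xr
    · rw [nbD_N1 h]; exact ⟨_, _, rfl, by simp only; omega⟩
    · rw [nbD_N h]; exact ⟨_, _, rfl, by simp only; omega⟩
  · rw [nbD_E]; right; exact ⟨_, _, rfl, by simp only; omega⟩
  · by_cases h : y = y0 ∧ x = p
    · left; exact nbD_Sleg h
    · right
      by_cases h' : y = y0 ∧ p < x ∧ x ≤ xr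
      · rw [nbD_S1 h']; exact ⟨_, _, rfl, by simp only; omega⟩
      · rw [nbD_S ⟨by omega, h⟩]; exact ⟨_, _, rfl, by simp only; omega⟩

/-- changing tiles inside a small box does not change the glueing of the far ports -/
theorem beD_far {X Y : ℤ} {r n : ℕ} (hrn : r + 1 ≤ n) (h : ∀ t, ¬ Bx X Y r t → (t ∈ A ↔ t ∈ A2))
    (hleg : ¬ Bx X Y r (p, y0)) {x : Port V} (hx : FarM X Y n x) :
    beD A2 p y0 xr x = beD A p y0 xr x := by
  rcases x with _ | ⟨t, d⟩
  · refine beD_congr (by simp only [portOf_none]) ?_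
    rw [nbD_leg, portOf_some, portOf_some]
    exact h _ hleg
  · have h1 : ¬ Bx X Y n t := hx t d rfl
    have h2 : ¬ Bx X Y r t := fun h2 => h1 (by unfold Bx at *; omega)
    refine beD_congr (by rw [portOf_some, portOf_some]; exact h _ h2) ?_
    rcases nbD_near (p := p) (y0 := y0) (xr := xr) t d with e | ⟨t', d', e, e1, e2, e3, e4⟩
    · rw [e]; simp only [portOf_none]
    · rw [e, portOf_some, portOf_some]
      exact h _ fun h3 => h1 (by unfold Bx at *; omega)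

end beD

/-! ### marks -/

/-- position of a mark -/
theorem mk_cases (L : ℤ) (c : V) (d : ZMod 4) : ∃ t : V, (mark L c d).2 = some (t, d) ∧
    ((d = 0 ∧ t = (c.1 * L, c.2 * L + L / 2)) ∨ (d = 1 ∧ t = (c.1 * L + L / 2, c.2 * L + L - 1)) ∨
    (d = 2 ∧ t = (c.1 * L + L - 1, c.2 * L + L / 2 - 1)) ∨
    (d = 3 ∧ t = (c.1 * L + L / 2 - 1, c.2 * L))) := by
  rcases z4 d with rfl | rfl | rfl | rfl
  · exact ⟨_, by unfold mark; rw [if_pos rfl], Or.inl ⟨rfl, rfl⟩⟩
  · exact ⟨_, by unfold mark; rw [if_neg n10, if_pos rfl], Or.inr (Or.inl ⟨rfl, rfl⟩)⟩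
  · exact ⟨_, by unfold mark; rw [if_neg n20, if_neg n21, if_pos rfl],
      Or.inr (Or.inr (Or.inl ⟨rfl, rfl⟩))⟩
  · exact ⟨_, by unfold mark; rw [if_neg n30, if_neg n31, if_neg n32],
      Or.inr (Or.inr (Or.inr ⟨rfl, rfl⟩))⟩

theorem mkS_near (hδ : -1 ≤ δ ∧ δ ≤ 1) (S : Finset V) (m : V × ZMod 4) :
    (mkS H L δ S m).2 = m.2 ∧ (mkS H L δ S m).1.2 = m.1.2 ∧ m.1.1 - 2 ≤ (mkS H L δ S m).1.1 ∧
      (mkS H L δ S m).1.1 ≤ m.1.1 + 2 := by
  unfold mkS
  split_ifs <;> simp only <;> refine ⟨trivial, trivial, ?_, ?_⟩ <;> omega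

theorem mkS_congr {S S' : Finset V} {m : V × ZMod 4}
    (h1 : (m.1.1 + δ + 1, m.1.2) ∈ S ↔ (m.1.1 + δ + 1, m.1.2) ∈ S')
    (h2 : (m.1.1 + δ - 1, m.1.2) ∈ S ↔ (m.1.1 + δ - 1, m.1.2) ∈ S') :
    mkS H L δ S m = mkS H L δ S' m := by
  unfold mkS
  simp only [h1, h2]

/-- multiples of `L` -/
theorem tri (hL : 0 < L) (a b : ℤ) : a * L + L ≤ b * L ∨ a = b ∨ b * L + L ≤ a * L := by
  rcases lt_trichotomy a b with h | h | h
  · left
    have : (a + 1) * L ≤ b * L := mul_le_mul_of_nonneg_right (by omega) hL.le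
    have e : (a + 1) * L = a * L + L := by ring
    omega
  · right; left; exact h
  · right; right
    have : (b + 1) * L ≤ a * L := mul_le_mul_of_nonneg_right (by omega) hL.le
    have e : (b + 1) * L = b * L + L := by ring
    omega

/-! ### category of a thick group -/

/-- **right walls** : pattern of a thick group -/
theorem catR {L2 : ℤ} (hL2 : L = 2 * L2) (hL : 8 ≤ L) (hδ : δ = -1 ∨ δ = 0) {k i0 i1 : ℤ} {up : Bool}
    (hH : Hang F H k i0 i1 up) (hp : NoPinch F) {g : ℤ} (hg : 0 ≤ g) (hg' : 4 * g ≤ L2) {κ X : ℤ}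
    (ht : ∃ t ∈ RL F H L δ, t.1 = X ∧ κ * L2 - g ≤ t.2 ∧ t.2 < κ * L2 + g) :
    ∃ c r : ℤ, X = c * L + L + δ ∧ (c, r) ∈ H ∧ (c + 1, r) ∉ F ∧
      ((∃ j, κ * L2 = j * L) ∨ κ * L2 = r * L + L2) ∧
      ∃ (q : Pat) (a : ℤ), (a = X - 1 ∨ a = X) ∧ ∀ x1 y1 : ℤ,
      X - L / 4 ≤ x1 → x1 ≤ X + L / 4 → κ * L2 - L / 4 ≤ y1 →
      y1 ≤ κ * L2 + L / 4 → (y1 < κ * L2 - g ∨ κ * L2 + g ≤ y1 ∨ x1 ≠ X) →
      ((x1, y1) ∈ shD F H L δ ∪ St (RL F H L δ) (κ * L2 - g) (κ * L2 + g) X ↔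
        q.ok a (κ * L2) x1 y1) ∧
      ((x1, y1) ∈ shD F H L δ ∪ (St (RL F H L δ) (κ * L2 - g) (κ * L2 + g) X ∪
        Gr (RL F H L δ) (κ * L2 - g) (κ * L2 + g) X) ↔ q.ok a (κ * L2) x1 y1) := by
  obtain ⟨⟨x, y⟩, h1, h2, h3, h4⟩ := ht
  simp only at h2 h3 h4
  subst h2
  have hL0 : 0 < L := by omega
  have hs := hH.sub
  obtain ⟨c, r, e1, e2, e3, e4, e5⟩ := rl_col hL0 hs h1
  refine ⟨c, r, e1, e4, e5, ?_⟩
  rcases Int.even_or_odd' κ with ⟨j, rfl | rfl⟩
  · -- a macroscopic vertex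
    have e6 : 2 * j * L2 = j * L := by rw [hL2]; ring
    rw [e6] at h3 h4 ⊢
    refine ⟨Or.inl ⟨j, rfl⟩, ?_⟩
    have e7 : r = j ∨ r = j - 1 := by
      rcases tri hL0 r j with h | h | h
      · right
        rcases tri hL0 r (j - 1) with h' | h' | h'
        · have e : (j - 1) * L = j * L - L := by ring
          rw [e] at h'; omega
        · exact h'
        · have e : (j - 1) * L = j * L - L := by ring
          rw [e] at h'; omega
      · left; exact h
      · omega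
    have := vertR hL hδ hH hp hg (c := c) (j := j) (by
      rcases e7 with rfl | rfl
      · exact Or.inl ⟨e4, e5⟩
      · exact Or.inr ⟨e4, e5⟩)
    rw [← e1] at this
    exact this
  · -- the middle of a wall
    have e6 : (2 * j + 1) * L2 = j * L + L2 := by rw [hL2]; ring
    rw [e6] at h3 h4 ⊢
    have e7 : r = j := by
      rcases tri hL0 r j with h | h | h
      · omega
      · exact h
      · omega
    subst e7
    refine ⟨Or.inr rfl, .h1, x - 1, Or.inl rfl, ?_⟩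
    intro x1 y1 hx1 hx2 hy1 hy2 hout
    have := midR hL (by omega : -1 ≤ δ ∧ δ ≤ 1) hs hg (r := r) (c := c) (Y := r * L + L2) e4 e5
      (by omega) (by omega) x1 y1 (by omega) (by omega) hy1 hy2 (by omega)
    rw [← e1] at this
    exact this


end Crest.Agent.R158.Vw802
end

-- ▼ part R158/Bh7_679
section

/-!
# R158, BL (B7) (helper679), file Bh7: thin groups

* **`thinR : ThinR`**
-/

set_option autoImplicit false

noncomputable section

namespace Crest.Agent.R158.Bh679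

open Crest.Agent.R158.Sp896 (V)
open Crest.Agent.R158.Sw300 (Port)
open Crest.Agent.R158.Env664 (D mark nbc beD mem_D div_iff)
open Crest.Agent.R158.Hb656 (Hang shD RL LL mkS mem_RL)
open Crest.Agent.R158.Wd377 (BxR Off)
open Crest.Agent.R158.Vw802 (mk_cases mkS_near mkS_congr tri)

/-- the tiles of the marks are far from the thin groups -/
theorem mark_away {L L2 : ℤ} (hL2 : L = 2 * L2) (hL : 8 ≤ L) {δ : ℤ} (hδ : -1 ≤ δ) (hδ' : δ ≤ 1)
    {g κ y c' X : ℤ} (h1 : κ * L2 + g ≤ y) (h2 : y < (κ + 1) * L2 - g)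
    (hX : X = (c' + 1) * L + δ) (hg : 0 ≤ g) {c t : V} {d : ZMod 4}
    (ht : (d = 0 ∧ t = (c.1 * L, c.2 * L + L / 2)) ∨
      (d = 1 ∧ t = (c.1 * L + L / 2, c.2 * L + L - 1)) ∨
      (d = 2 ∧ t = (c.1 * L + L - 1, c.2 * L + L / 2 - 1)) ∨
      (d = 3 ∧ t = (c.1 * L + L / 2 - 1, c.2 * L))) :
    t.2 + g ≤ y ∨ y + g ≤ t.2 ∨ t.1 + L2 - 2 ≤ X ∨ X + L2 - 2 ≤ t.1 := by
  have e0 : (κ + 1) * L2 = κ * L2 + L2 := by ring
  have e1 : (2 * c.2 + 1) * L2 = c.2 * L + L2 := by rw [hL2]; ring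
  have e2 := tri (L := L2) (by omega) (2 * c.2 + 1) κ
  have e3 := tri (L := L) (by omega) c.1 (c' + 1)
  have e4 : 2 * c.2 + 1 = κ → (2 * c.2 + 1) * L2 = κ * L2 := fun e => by rw [e]
  have e5 : c.1 = c' + 1 → c.1 * L = (c' + 1) * L := fun e => by rw [e]
  rcases ht with ⟨-, rfl⟩ | ⟨-, rfl⟩ | ⟨-, rfl⟩ | ⟨-, rfl⟩ <;> simp only
  · rcases e2 with h | h | h
    · omega
    · have := e4 h; omega
    · omega
  · rcases e3 with h | h | h
    · omega
    · have := e5 h; omega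
    · omega
  · rcases e2 with h | h | h
    · omega
    · have := e4 h; omega
    · omega
  · rcases e3 with h | h | h
    · omega
    · have := e5 h; omega
    · omega

/-- **thin groups** -/
theorem thinR : ThinR := by
  intro F H k i0 i1 up hH hF L L2 δ p y0 xr g n hL2 hδ hg hgL hn hp haw m hinj hm κ X y hX h1 h2
  have hg0 : (8 : ℤ) ≤ g := by exact_mod_cast hg
  have hL : 8 ≤ L := by omega
  have hL0 : 0 < L := by omega
  have hL20 : 0 < L2 := by omega
  obtain ⟨c', hc, hc1, hc2⟩ := rl_col hL hH hX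
  obtain ⟨r, hr⟩ : ∃ r, r = y / L := ⟨_, rfl⟩
  rw [← hr] at hc1 hc2
  obtain ⟨b1, b2⟩ := (div_iff hL0 y r).1 hr.symm
  -- the half row
  have e0 : (κ + 1) * L2 = κ * L2 + L2 := by ring
  have e1 : 2 * r * L2 = r * L := by rw [hL2]; ring
  have e2 : (2 * r + 1) * L2 = r * L + L2 := by rw [hL2]; ring
  have b3 : r * L + g ≤ y ∧ y < r * L + L - g := by
    have f1 := tri hL20 κ (2 * r)
    have f2 := tri hL20 κ (2 * r + 1)
    have f3 : κ = 2 * r → κ * L2 = r * L := fun e => by rw [e, e1]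
    have f4 : κ = 2 * r + 1 → κ * L2 = r * L + L2 := fun e => by rw [e, e2]
    rcases f1 with f | f | f
    · omega
    · have := f3 f; omega
    · rcases f2 with f' | f' | f'
      · omega
      · have := f4 f'; omega
      · omega
  have hn0 : (n : ℤ) + 2 ≤ g := by exact_mod_cast hn
  -- marks
  have key : ∀ i, ∃ t : V, (mark L (m i).1 (m i).2).2 = some (t, (m i).2) ∧
      (t.2 + g ≤ y ∨ y + g ≤ t.2 ∨ t.1 + L2 - 2 ≤ X ∨ X + L2 - 2 ≤ t.1) := by
    intro i
    obtain ⟨t, e, ht⟩ := mk_cases L (m i).1 (m i).2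
    exact ⟨t, e, mark_away hL2 hL (by omega) (by omega) h1 h2 hc (by omega) ht⟩
  refine ⟨?_, ?_, ?_, ?_⟩
  · intro x y' q1 q2 q3 q4
    rw [(flat_geo hL hH (by omega) (by omega) hX b1 b2 (x1 := x) (y1 := y') (by omega) (by omega)
      (by omega) (by omega)).1]
    omega
  · rintro ⟨x, y'⟩ ht ⟨q1, q2, q3⟩
    unfold BxR at ht
    simp only at ht q1 q2 q3
    rw [mem_RL] at hX
    rcases haw x q2 q3 _ hX.1 with h | h
    · simp only at h
      rcases abs_cases (x - (X - 1 - δ)) with ⟨h3, h4⟩ | ⟨h3, h4⟩ <;> rw [h3] at h <;> omega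
    · simp only at h
      rcases abs_cases (y0 - y) with ⟨h3, h4⟩ | ⟨h3, h4⟩ <;> rw [h3] at h <;> omega
  · intro i t d e hb
    obtain ⟨t0, e', hpos⟩ := key i
    unfold mq at e
    rw [e', Option.map_some, Option.some.injEq] at e
    have hnear := mkS_near (H := H) (L := L) (δ := δ) (by omega) (St (RL F H L δ) y (y + 1) X)
      (t0, (m i).2)
    rw [e] at hnear
    simp only at hnear
    unfold BxR at hb
    omega
  · intro i
    obtain ⟨t0, e', hpos⟩ := key i
    unfold mq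
    rw [e', Option.map_some, Option.map_some]
    congr 1
    refine mkS_congr ?_ ?_
    · rw [Finset.mem_insert]
      refine or_iff_right fun e => ?_
      simp only [Prod.mk.injEq] at e
      omega
    · rw [Finset.mem_insert]
      refine or_iff_right fun e => ?_
      simp only [Prod.mk.injEq] at e
      omega

end Crest.Agent.R158.Bh679
end
end

-- ▼ part R158/Bh8_679
section

/-!
# R158, BL (B7) (helper679), file Bh8: thick groups, and the chain

* **`thickR : ThickR`**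
* **`rlchain : RLchain`**
-/

set_option autoImplicit false

noncomputable section

namespace Crest.Agent.R158.Bh679

open Crest.Agent.R158.Sp896 (V)
open Crest.Agent.R158.Sw300 (Port)
open Crest.Agent.R158.Env664 (D mark nbc beD beP mem_D div_iff)
open Crest.Agent.R158.Hb656 (Hang shD RL LL mkS mem_RL)
open Crest.Agent.R158.Cw161 (Sh pat Bx FarM Win beP_free dir2)
open Crest.Agent.R158.Cb771 (dir)
open Crest.Agent.R158.Hc854 (MkP)
open Crest.Agent.R158.Vw802 (mk_cases mkS_near mkS_congr tri NoPinch catR win_of beD_plain beD_far)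

theorem np_of {F : Finset V} (h : NP F) : NoPinch F := by
  constructor
  · intro a b h1 h2
    by_contra hcon
    push Not at hcon
    exact (h a b).1 ⟨h1, h2, hcon.1, hcon.2⟩
  · intro a b h1 h2
    by_contra hcon
    push Not at hcon
    exact (h a b).2 ⟨h2, h1, hcon.1, hcon.2⟩

/-- the tiles of the marks are far from a thick group, except one -/
theorem mark_thick {F : Finset V} {L L2 : ℤ} (hL2 : L = 2 * L2) (hL : 64 ≤ L) {δ : ℤ}
    (hδ : -1 ≤ δ) (hδ' : δ ≤ 1) {κ c0 rr X : ℤ} (hX : X = c0 * L + L + δ)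
    (hκ : (∃ j, κ * L2 = j * L) ∨ κ * L2 = rr * L + L2) (hc0 : (c0 + 1, rr) ∉ F)
    {c t : V} {d : ZMod 4} (hc : c ∈ F)
    (ht : (d = 0 ∧ t = (c.1 * L, c.2 * L + L / 2)) ∨
      (d = 1 ∧ t = (c.1 * L + L / 2, c.2 * L + L - 1)) ∨
      (d = 2 ∧ t = (c.1 * L + L - 1, c.2 * L + L / 2 - 1)) ∨
      (d = 3 ∧ t = (c.1 * L + L / 2 - 1, c.2 * L))) :
    (t.2 + L2 - 2 ≤ κ * L2 ∨ κ * L2 + L2 - 2 ≤ t.2 ∨ t.1 + L2 - 4 ≤ X ∨ X + L2 - 4 ≤ t.1) ∨
      (c = (c0, rr) ∧ d = 2 ∧ κ * L2 = rr * L + L2 ∧ t = (X - 1 - δ, κ * L2 - 1)) := by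
  have e3 := tri (L := L) (by omega) c.1 (c0 + 1)
  have e4 := tri (L := L) (by omega) c.1 c0
  have e5 : (c0 + 1) * L = c0 * L + L := by ring
  have e6 : c.1 = c0 + 1 → c.1 * L = c0 * L + L := fun e => by rw [e, e5]
  have e7 : c.1 = c0 → c.1 * L = c0 * L := fun e => by rw [e]
  rcases hκ with ⟨j, hj⟩ | hκ
  · left
    rw [hj]
    have e8 := tri (L := L) (by omega) c.2 j
    have e9 : c.2 = j → c.2 * L = j * L := fun e => by rw [e]
    rcases ht with ⟨-, rfl⟩ | ⟨-, rfl⟩ | ⟨-, rfl⟩ | ⟨-, rfl⟩ <;> simp only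
    · rcases e8 with h | h | h
      · omega
      · have := e9 h; omega
      · omega
    · rcases e3 with h | h | h
      · omega
      · have := e6 h; omega
      · omega
    · rcases e8 with h | h | h
      · omega
      · have := e9 h; omega
      · omega
    · rcases e3 with h | h | h
      · omega
      · have := e6 h; omega
      · omega
  · rw [hκ]
    have e8 := tri (L := L) (by omega) c.2 rr
    have e9 : c.2 = rr → c.2 * L = rr * L := fun e => by rw [e]
    rcases ht with ⟨-, rfl⟩ | ⟨-, rfl⟩ | ⟨rfl, rfl⟩ | ⟨-, rfl⟩ <;> simp only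
    · left
      rcases e8 with h | h | h
      · omega
      · rcases e3 with h' | h' | h'
        · omega
        · exfalso
          apply hc0
          rw [← h, ← h']; exact hc
        · omega
      · omega
    · left
      rcases e3 with h | h | h
      · omega
      · have := e6 h; omega
      · omega
    · rcases e8 with h | h | h
      · left; omega
      · rcases e4 with h' | h' | h'
        · left; omega
        · right
          have := e9 h
          have := e7 h'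
          refine ⟨Prod.ext h' h, trivial, trivial, Prod.ext ?_ ?_⟩ <;> simp only <;> omega
        · left; omega
      · left; omega
    · left
      rcases e3 with h | h | h
      · omega
      · have := e6 h; omega
      · omega

/-- **thick groups** -/
theorem thickR : ThickR := by
  intro F H k i0 i1 up hH hF L L2 δ p y0 xr g r n hL2 hδ hg hgL hr hrn hn hp haw m hinj hm κ X
    hX S S' A A' b b' hS hS' hA hA' hb hb'
  have hg0 : (8 : ℤ) ≤ g := by exact_mod_cast hg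
  have hr0 : (r : ℤ) = g + 3 := by exact_mod_cast hr
  have hrn0 : (r : ℤ) + 1 ≤ n := by exact_mod_cast hrn
  have hL : 64 ≤ L := by omega
  have hL0 : 0 < L := by omega
  obtain ⟨c0, rr, e1, e2, e3, hκ, q, a, ha, hpat⟩ := catR hL2 (by omega) hδ hH (np_of hF)
    (g := g) (by omega) (by omega) hX
  have hδ1 : -1 ≤ δ := by rcases hδ with h | h <;> rw [h] <;> norm_num
  have hδ2 : δ ≤ 1 := by rcases hδ with h | h <;> rw [h] <;> norm_num
  obtain ⟨t0, ht0, ht1, ht2, ht3⟩ := hX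
  have ht0' := (mem_RL.1 ht0).1
  have hmt := fun (c t : V) (d : ZMod 4) (hc : c ∈ F) ht =>
    mark_thick hL2 hL (δ := δ) hδ1 hδ2 e1 hκ e3 (c := c) (t := t) (d := d) hc ht
  clear hκ
  set Y := κ * L2 with hY
  -- the slit is outside the window
  have hslit : ∀ t : V, Bx a (Y - 1) n t → ¬ ((t.2 = y0 - 1 ∨ t.2 = y0) ∧ p ≤ t.1 ∧ t.1 ≤ xr) := by
    rintro ⟨x, y⟩ ht ⟨q1, q2, q3⟩
    unfold Bx at ht
    simp only at ht q1 q2 q3
    rcases haw x q2 (by omega) _ ht0' with h | h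
    · simp only at h
      rcases abs_cases (x - (t0.1 - 1 - δ)) with ⟨h3, h4⟩ | ⟨h3, h4⟩ <;> rw [h3] at h <;> omega
    · simp only at h
      rcases abs_cases (y0 - t0.2) with ⟨h3, h4⟩ | ⟨h3, h4⟩ <;> rw [h3] at h <;> omega
  have hleg : ¬ Bx a (Y - 1) r (p, y0) := fun h =>
    hslit (p, y0) (by unfold Bx at *; simp only at *; omega) ⟨Or.inr rfl, le_refl _, hp⟩
  have hpl : ∀ t d, Bx a (Y - 1) n t → b (some (t, d)) = beP A (some (t, d)) := fun t d ht => by
    rw [hb]; exact beD_plain (hslit t ht) hp d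
  have hpl' : ∀ t d, Bx a (Y - 1) n t → b' (some (t, d)) = beP A' (some (t, d)) := fun t d ht => by
    rw [hb']; exact beD_plain (hslit t ht) hp d
  have W := win_of (A := A) (b := b) (q := q) (M := L / 4) (X := X) (Y := Y) (g := g) (r := r)
    (n := n) ha (by omega) hrn (by omega)
    (fun x1 y1 b1 b2 b3 b4 b5 => by rw [hA, hS]; exact (hpat x1 y1 b1 b2 b3 b4 b5).1) hpl
  have W' := win_of (A := A') (b := b') (q := q) (M := L / 4) (X := X) (Y := Y) (g := g) (r := r)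
    (n := n) ha (by omega) hrn (by omega)
    (fun x1 y1 b1 b2 b3 b4 b5 => by rw [hA', hS', hS]; exact (hpat x1 y1 b1 b2 b3 b4 b5).2) hpl'
  have hGr : ∀ t, t ∈ Gr (RL F H L δ) (Y - g) (Y + g) X → t.1 = X ∧ Y - g ≤ t.2 ∧ t.2 < Y + g :=
    fun t ht => (mem_Gr.1 ht).2
  have hAA : ∀ t, ¬ Bx a (Y - 1) r t → (t ∈ A ↔ t ∈ A') := by
    intro t ht
    rw [hA, hA', hS', Finset.mem_union, Finset.mem_union, Finset.mem_union]
    have : t ∉ Gr (RL F H L δ) (Y - g) (Y + g) X := fun h => by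
      have := hGr t h
      exact ht (by unfold Bx; omega)
    tauto
  refine ⟨q.sh, q.kR, a, Y - 1, W.1, W'.1, W.2, W'.2, ?_, hAA, ((c0, rr), 2), ?_⟩
  · intro x hx
    rw [hb, hb']
    exact beD_far hrn hAA hleg hx
  · intro i
    obtain ⟨t, et, hpos⟩ := mk_cases L (m i).1 (m i).2
    have hmq : ∀ T, mq H L δ T (m i) = some (mkS H L δ T (t, (m i).2)) := fun T => by
      unfold mq; rw [et]; rfl
    rcases hmt _ t _ (hm i).1 hpos with hfar | ⟨f1, f2, f3, f4⟩
    · left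
      constructor
      · intro t' d' e'
        rw [hmq, Option.some.injEq] at e'
        have hnear := mkS_near (H := H) (L := L) (δ := δ) (by omega) S (t, (m i).2)
        rw [e'] at hnear
        simp only at hnear
        unfold Bx
        omega
      · rw [hmq, hmq]
        congr 1
        refine (mkS_congr ?_ ?_).symm
        · rw [hS', Finset.mem_union]
          refine (or_iff_left fun h => ?_).symm
          have := hGr _ h
          simp only at this
          omega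
        · rw [hS', Finset.mem_union]
          refine (or_iff_left fun h => ?_).symm
          have := hGr _ h
          simp only at this
          omega
    · right
      refine ⟨Prod.ext f1 f2, ?_⟩
      have b1 : rr * L ≤ Y - 1 := by omega
      have b2 : Y - 1 < rr * L + L := by omega
      have e5 : (c0 + 1) * L = c0 * L + L := by ring
      have hcF := hH.sub e2
      -- the two tiles
      have hsub : S ⊆ RL F H L δ := by rw [hS]; exact Finset.filter_subset _ _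
      have hsub' : S' ⊆ RL F H L δ := by
        rw [hS', hS]
        exact Finset.union_subset (Finset.filter_subset _ _) (Finset.filter_subset _ _)
      have hXR : (X, Y - 1) ∈ RL F H L δ :=
        (rl_mem (by omega) hH (c := c0) (r := rr) b1 b2 (by omega) (by omega)).2
          ⟨by omega, e2, e3⟩
      have hXS : (X, Y - 1) ∉ S := by
        rw [hS, mem_St]
        rintro ⟨-, h⟩
        simp only at h
        omega
      have hXS' : (X, Y - 1) ∈ S' := by
        rw [hS', Finset.mem_union, mem_Gr]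
        right
        exact ⟨hXR, rfl, by simp only; omega, by simp only; omega⟩
      have m1 : ∀ {T : Finset V} (x1 : ℤ), T ⊆ RL F H L δ → X - 1 ≤ x1 → x1 ≤ X + 1 →
          ((x1, Y - 1) ∈ shD F H L δ ∪ T ↔ x1 < X ∨ (x1 = X ∧ (x1, Y - 1) ∈ T)) := by
        intro T x1 hT g1 g2
        rw [state_mem (by omega) hH (by omega) (by omega) hT (c := c0) (r := rr) b1 b2 (by omega)
          (by omega)]
        simp only [hcF, e2, e3, not_false_eq_true, not_true_eq_false, and_true, true_and,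
          false_and, and_false, or_false, false_or]
        rw [show (c0 + 1) * L + δ = X by omega]
      have htH : t ∈ D H L := by
        rw [mem_D hL0, f4]
        simp only
        rw [(div_iff hL0 (X - 1 - δ) c0).2 ⟨by omega, by omega⟩,
          (div_iff hL0 (Y - 1) rr).2 ⟨b1, b2⟩]
        exact e2
      have n02 : ¬ ((2 : ZMod 4) = 0) := by decide
      have q1 : mq H L δ S (m i) = some ((X - 1, Y - 1), 2) := by
        rw [hmq]
        unfold mkS
        simp only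
        rw [if_pos htH, f2, if_neg, if_neg]
        · rw [f4]; simp only; congr 3; ring
        · exact fun h => n02 h.1
        · rintro ⟨-, h⟩
          rw [f4] at h
          simp only at h
          rw [show X - 1 - δ + δ + 1 = X by ring] at h
          exact hXS h
      have q2 : mq H L δ S' (m i) = some ((X, Y - 1), 2) := by
        rw [hmq]
        unfold mkS
        simp only
        have e7 : (t.1 + δ + 1, t.2) = ((X, Y - 1) : V) := by
          rw [f4]; simp only; congr 1; ring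
        rw [if_pos htH, f2, if_pos ⟨rfl, by rw [e7]; exact hXS'⟩, e7]
      have B1 : Bx a (Y - 1) r (X - 1, Y - 1) := by unfold Bx; simp only; omega
      have B2 : Bx a (Y - 1) r (X, Y - 1) := by unfold Bx; simp only; omega
      have B1' : Bx a (Y - 1) n (X - 1, Y - 1) := by unfold Bx; simp only; omega
      have B2' : Bx a (Y - 1) n (X, Y - 1) := by unfold Bx; simp only; omega
      have d1 : ((X - 1, Y - 1) : V) + dir 2 = (X, Y - 1) := by
        rw [dir2]; refine Prod.ext ?_ ?_ <;> simp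
      have d2 : ((X, Y - 1) : V) + dir 2 = (X + 1, Y - 1) := by
        rw [dir2]; refine Prod.ext ?_ ?_ <;> simp
      rw [q1, q2]
      refine ⟨Or.inr ⟨_, _, _, _, rfl, B1, rfl, B2, ?_, ?_⟩, Or.inr ⟨_, _, _, _, rfl, B2, rfl, B1,
        ?_, ?_⟩⟩
      · rw [hA']
        exact (m1 X hsub' (by omega) (by omega)).2 (Or.inr ⟨rfl, hXS'⟩)
      · rw [hpl' _ _ B2']
        refine beP_free (Or.inr ?_)
        rw [d2, hA', m1 (X + 1) hsub' (by omega) (by omega)]
        omega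
      · rw [hA]
        exact (m1 (X - 1) hsub (by omega) (by omega)).2 (Or.inl (by omega))
      · rw [hpl _ _ B1']
        refine beP_free (Or.inr ?_)
        rw [d1, hA, m1 X hsub (by omega) (by omega)]
        rintro (h | ⟨-, h⟩)
        · omega
        · exact hXS h

/-- **(B7), right walls** -/
theorem rlchain : RLchain := rl_chain thinR thickR

end Crest.Agent.R158.Bh679
end
end

-- ▼ part R158/Mp1_896
section

/-!
# R158, block BL (helper896): mark balls outside the hanging part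

* `no_1`, `no_3`, `flat_out` : the region `shD F H L δ` near a mark of a cell outside `H`
* `out_balls` : marks on flat horizontal walls outside the hanging part move by one column
* **`mbup' : MBup'`**, **`mbdn' : MBdn'`** : the leaves of `Hb2_656`
-/

set_option autoImplicit false
set_option linter.unusedVariables false

noncomputable section

namespace Crest.Agent.R158.Mp896

open Filter Topology
open Crest.Agent.R158.Sp896 (V)
open Crest.Agent.R158.Sw300 (Port Wd tls)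
open Crest.Agent.R158.Env664
open Crest.Agent.R158.Tj656 (P4)
open Crest.Agent.R158.Hb656 (Hang shD RL LL mkS mk2 mt mem_shD mem_RL mem_LL Two Cfg Sl Rg Lk1 MBup'
  MBdn' mU mD GH)
open Crest.Agent.R158.Mb331

/-- no tiles near the mark on a ceiling -/
theorem no_1 {F : Finset V} {L : ℤ} (hL : 4 ≤ L) {c : V} (hc : c ∉ F)
    (hn : nbc c 1 ∉ F) {x y : ℤ} (h1 : |x - (mk2 L c 1).1.1| ≤ L / 2 - 1)
    (h2 : |y - (mk2 L c 1).1.2| ≤ L / 2 - 1) : (x, y) ∉ D F L := by
  rw [mk2_1] at h1 h2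
  rw [nbc1] at hn
  simp only at h1 h2
  rw [abs_le] at h1 h2
  rw [mem_D (by omega)]
  have e1 : x / L = c.1 := dv (by omega) (by omega) (by omega)
  simp only [e1]
  by_cases h : y ≤ c.2 * L + L - 1
  · have e2 : y / L = c.2 := dv (by omega) (by omega) (by omega)
    rw [e2]
    exact hc
  · have e3 : (c.2 + 1) * L = c.2 * L + L := by ring
    have e2 : y / L = c.2 + 1 := dv (by omega) (by omega) (by omega)
    rw [e2]
    exact hn

/-- no tiles near the mark on a floor -/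
theorem no_3 {F : Finset V} {L : ℤ} (hL : 4 ≤ L) {c : V} (hc : c ∉ F)
    (hn : nbc c 3 ∉ F) {x y : ℤ} (h1 : |x - (mk2 L c 3).1.1| ≤ L / 2 - 1)
    (h2 : |y - (mk2 L c 3).1.2| ≤ L / 2 - 1) : (x, y) ∉ D F L := by
  rw [mk2_3] at h1 h2
  rw [nbc3] at hn
  simp only at h1 h2
  rw [abs_le] at h1 h2
  rw [mem_D (by omega)]
  have e1 : x / L = c.1 := dv (by omega) (by omega) (by omega)
  simp only [e1]
  by_cases h : c.2 * L ≤ y
  · have e2 : y / L = c.2 := dv (by omega) (by omega) (by omega)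
    rw [e2]
    exact hc
  · have e3 : (c.2 - 1) * L = c.2 * L - L := by ring
    have e2 : y / L = c.2 - 1 := dv (by omega) (by omega) (by omega)
    rw [e2]
    exact hn

/-- the region is flat near a mark of a cell outside the hanging part -/
theorem flat_out {F H : Finset V} (hs : H ⊆ F) {L δ : ℤ} (hL : 16 ≤ L) (h1 : -1 ≤ δ) (h2 : δ ≤ 1)
    {c : V} {d : ZMod 4} (hc : c ∈ F) (hH : c ∉ H) (hn : nbc c d ∉ F) (hd : d = 1 ∨ d = 3) {n : ℕ}
    (hnL : (n : ℤ) + 3 ≤ L / 2) : Flat (shD F H L δ) (mk2 L c d).1 d n := by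
  have hnH : nbc c d ∉ H := fun g => hn (hs g)
  rcases hd with rfl | rfl
  · refine Or.inl ⟨rfl, ?_⟩
    rintro ⟨x, y⟩ k1 k2
    simp only at k1 k2
    rw [mem_shD]
    have a0 := near_1 (by omega : 4 ≤ L) hc hn (x := x) (y := y) (by omega) (by omega)
    have b0 := no_1 (by omega : 4 ≤ L) hH hnH (x := x) (y := y) (by omega) (by omega)
    have b1 := no_1 (by omega : 4 ≤ L) hH hnH (x := x - δ) (y := y) (by rw [abs_le] at k1 ⊢; omega)
      (by omega)
    simp only
    tauto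
  · refine Or.inr ⟨rfl, ?_⟩
    rintro ⟨x, y⟩ k1 k2
    simp only at k1 k2
    rw [mem_shD]
    have a0 := near_3 (by omega : 4 ≤ L) hc hn (x := x) (y := y) (by omega) (by omega)
    have b0 := no_3 (by omega : 4 ≤ L) hH hnH (x := x) (y := y) (by omega) (by omega)
    have b1 := no_3 (by omega : 4 ≤ L) hH hnH (x := x - δ) (y := y) (by rw [abs_le] at k1 ⊢; omega)
      (by omega)
    simp only
    tauto

/-- **marks outside the hanging part, far from the slit, move by one column** -/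
theorem out_balls : ∃ C a : ℝ, 0 < C ∧ 0 < a ∧ ∀ (P : P4) {H : Finset V}, H ⊆ P.F →
    ∀ {L δ x y xr : ℤ}, Even L → 64 ≤ L → -1 ≤ δ → δ ≤ 1 → x ≤ xr →
    ∀ {q : Fin 3 → V × ZMod 4}, (∀ i, q i = mkS H L δ ∅ (mt P L i) ∨
      ((P.cc i).1 ∉ H ∧ ((P.cc i).2 = 1 ∨ (P.cc i).2 = 3) ∧ xr + L / 4 < (mt P L i).1.1 ∧
        ∃ e : ℤ, |e| ≤ 1 ∧ q i = (((mt P L i).1.1 + e, (mt P L i).1.2), (mt P L i).2))) →
    (MKm (shD P.F H L δ) (beD (shD P.F H L δ) x y xr) (fun i => mkS H L δ ∅ (mt P L i)) ↔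
      MKm (shD P.F H L δ) (beD (shD P.F H L δ) x y xr) q) ∧
    (MKm (shD P.F H L δ) (beD (shD P.F H L δ) x y xr) (fun i => mkS H L δ ∅ (mt P L i)) →
      ‖HGm (shD P.F H L δ) (beD (shD P.F H L δ) x y xr) (fun i => mkS H L δ ∅ (mt P L i)) -
        HGm (shD P.F H L δ) (beD (shD P.F H L δ) x y xr) q‖ ≤ C * (1 / (L : ℝ)) ^ a) := by
  obtain ⟨C, a, hC, ha, h⟩ := mk_three
  refine ⟨C * (32 : ℝ) ^ a, a, by positivity, ha, ?_⟩
  intro P H hs L δ x y xr hev hL h1 h2 hp q hq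
  obtain ⟨n, hn⟩ : ∃ n : ℕ, (n : ℤ) = L / 8 := ⟨(L / 8).toNat, by omega⟩
  have hmv : ∀ i, Mv (shD P.F H L δ) (beD (shD P.F H L δ) x y xr) n
      (mkS H L δ ∅ (mt P L i)) (q i) := by
    intro i
    rcases hq i with e | ⟨k1, k2, k3, e, k4, k5⟩
    · exact Or.inl e
    · obtain ⟨c1, c2⟩ := Hw949.ci_spec P i
      have hm : mkS H L δ ∅ (mt P L i) = mt P L i := by
        unfold mkS
        rw [if_neg]
        unfold Hb656.mt
        rw [mk2_mem (by omega)]
        exact k1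
      right
      rw [hm]
      have hd : (mt P L i).2 = (P.cc i).2 := by
        unfold Hb656.mt
        rcases k2 with g | g <;> rw [g]
        · rw [mk2_1]
        · rw [mk2_3]
      refine ⟨e, k4, k5, ?_, ?_⟩
      · rw [hd]
        exact flat_out hs (by omega) h1 h2 c1 k1 c2 k2 (by push_cast; omega)
      · intro s d' g1 g2
        refine beD_plain hp ?_ d'
        rintro ⟨g3, g4, g5⟩
        rw [abs_le] at g1
        omega
  have hdist : ∀ i j, i ≠ j → (n : ℤ) + 3 ≤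
      |(mkS H L δ ∅ (mt P L j)).1.1 - (mkS H L δ ∅ (mt P L i)).1.1| ∨ (n : ℤ) + 3 ≤
      |(mkS H L δ ∅ (mt P L j)).1.2 - (mkS H L δ ∅ (mt P L i)).1.2| := by
    intro i j hij
    rcases Hw949.mkS_dist (P := P) (H := H) (S := ∅) (by omega : 8 ≤ L) hev h1 h2 hij.symm
      with g | g
    · left
      refine le_trans ?_ g
      omega
    · right
      refine le_trans ?_ g
      omega
  have key := h n (by omega) hmv hdist
  refine ⟨key.1, fun g => (key.2 g).trans ?_⟩
  have hL0 : (0 : ℝ) < L := by exact_mod_cast (by omega : (0 : ℤ) < L)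
  have hn0 : (0 : ℝ) < n := by exact_mod_cast (by omega : (0 : ℤ) < n)
  have hnL : (L : ℝ) ≤ 16 * n := by
    have : L ≤ 16 * (n : ℤ) := by omega
    exact_mod_cast this
  rw [mul_assoc, ← Real.mul_rpow (by norm_num) (by positivity)]
  refine mul_le_mul_of_nonneg_left (Real.rpow_le_rpow (by positivity) ?_ ha.le) hC.le
  rw [mul_one_div, div_le_div_iff₀ hn0 hL0]
  linarith

/-- small for large `L` -/
theorem small_L {C a : ℝ} (hC : 0 < C) (ha : 0 < a) {ε : ℝ} (hε : 0 < ε) :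
    ∃ L0 : ℤ, ∀ L : ℤ, L0 ≤ L → C * (1 / (L : ℝ)) ^ a ≤ ε := by
  have ht : Tendsto (fun x : ℝ => C * x ^ (-a)) atTop (𝓝 0) := by
    have := (tendsto_rpow_neg_atTop ha).const_mul C
    rwa [mul_zero] at this
  obtain ⟨X, hX⟩ := eventually_atTop.1 (ht.eventually (gt_mem_nhds hε))
  refine ⟨max 1 ⌈X⌉, fun L hL => ?_⟩
  have h1 : (1 : ℤ) ≤ L := (le_max_left _ _).trans hL
  have h2 : X ≤ (L : ℝ) := (Int.le_ceil X).trans (by exact_mod_cast (le_max_right _ _).trans hL)
  have h3 := hX L h2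
  have hL0 : (0 : ℝ) ≤ L := by exact_mod_cast (by omega : (0 : ℤ) ≤ L)
  rw [one_div, Real.inv_rpow hL0, ← Real.rpow_neg hL0]
  exact h3.le

theorem mul_lt_iff {L p q : ℤ} (hL : 0 < L) : p * L < q * L ↔ p < q := by
  constructor
  · intro h; exact lt_of_mul_lt_mul_right h hL.le
  · intro h; exact mul_lt_mul_of_pos_right h hL

/-- **mark ball, UP, after DR** (leaf `MBup'` of `Hb2_656`) -/
theorem mbup' : MBup' := by
  obtain ⟨C, a, hC, ha, h⟩ := out_balls
  intro P H k a1 b1 a' b' hb ht hcfg ε hε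
  obtain ⟨L0, hL0⟩ := small_L hC ha hε
  refine ⟨max 64 L0, fun L hL hev x y hsl => ?_⟩
  have hL1 : 64 ≤ L := (le_max_left _ _).trans hL
  have hL2 : L0 ≤ L := (le_max_right _ _).trans hL
  have hx : x ≤ b' * L + L - 1 := by have := hsl.hx'; omega
  have hcom := ht.com
  rw [max_le_iff, le_min_iff, le_min_iff] at hcom
  have key := h P hcfg.hang.sub hev hL1 (by norm_num : (-1 : ℤ) ≤ -1) (by norm_num) hx
    (y := y) (q := fun i => mU H L k b1 b' (mt P L i)) (fun i => by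
      show mU H L k b1 b' (mt P L i) = _ ∨ _
      unfold mU
      split_ifs with hc
      · right
        obtain ⟨g1, g2, g3, g4⟩ := hc
        have hd : (P.cc i).2 = 1 := by
          have : (mt P L i).2 = (P.cc i).2 := Hw949.mtl_snd _ _ _
          rw [← this]; exact g1
        have hm : mt P L i = (((P.cc i).1.1 * L + L / 2, (P.cc i).1.2 * L + L - 1), 1) := by
          unfold Hb656.mt
          rw [hd, mk2_1]
        rw [hm] at g2 g3 g4 ⊢
        simp only at g2 g3 g4 ⊢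
        have e1 : (P.cc i).1.2 = k - 1 := by
          have e2 : ((P.cc i).1.2 + 1) * L = k * L := by linarith
          have := mul_right_cancel₀ (by omega : (L : ℤ) ≠ 0) e2
          omega
        have e2 : b' < (P.cc i).1.1 := by
          have : (b' + 1) * L < ((P.cc i).1.1 + 1) * L := by
            have r1 : (b' + 1) * L = b' * L + L := by ring
            have r2 : ((P.cc i).1.1 + 1) * L = (P.cc i).1.1 * L + L := by ring
            omega
          have := (mul_lt_iff (by omega)).1 this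
          omega
        have e3 : (P.cc i).1.1 ≤ b1 := by
          have : (P.cc i).1.1 * L < (b1 + 1) * L := by
            have r1 : (b1 + 1) * L = b1 * L + L := by ring
            omega
          have := (mul_lt_iff (by omega)).1 this
          omega
        have e4 : (b' + 1) * L ≤ (P.cc i).1.1 * L :=
          mul_le_mul_of_nonneg_right (by omega) (by omega)
        have e5 : (b' + 1) * L = b' * L + L := by ring
        refine ⟨?_, Or.inl hd, by omega, -1, by norm_num, rfl⟩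
        have := ht.nlo (P.cc i).1.1 (by omega) e3
        rwa [← e1] at this
      · exact Or.inl rfl)
  intro hok
  refine ⟨key.1.1 hok, (key.2 hok).trans (hL0 L hL2)⟩

/-- **mark ball, DN, before DR** (leaf `MBdn'` of `Hb2_656`) -/
theorem mbdn' : MBdn' := by
  obtain ⟨C, a, hC, ha, h⟩ := out_balls
  intro P H k a1 b1 a' b' hb ht hcfg ε hε
  obtain ⟨L0, hL0⟩ := small_L hC ha hε
  refine ⟨max 64 L0, fun L hL hev x y hsl => ?_⟩
  have hL1 : 64 ≤ L := (le_max_left _ _).trans hL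
  have hL2 : L0 ≤ L := (le_max_right _ _).trans hL
  have hx : x ≤ b1 * L + L - 1 := by have := hsl.hx'; omega
  have hcom := ht.com
  rw [max_le_iff, le_min_iff, le_min_iff] at hcom
  have key := h P hcfg.hang.sub hev hL1 (by norm_num : (-1 : ℤ) ≤ 1) (by norm_num) hx
    (y := y) (q := fun i => mD H L k b1 b' (mt P L i)) (fun i => by
      show mD H L k b1 b' (mt P L i) = _ ∨ _
      unfold mD
      split_ifs with hc
      · right
        obtain ⟨g1, g2, g3, g4⟩ := hc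
        have hd : (P.cc i).2 = 3 := by
          have : (mt P L i).2 = (P.cc i).2 := Hw949.mtl_snd _ _ _
          rw [← this]; exact g1
        have hm : mt P L i = (((P.cc i).1.1 * L + L / 2 - 1, (P.cc i).1.2 * L), 3) := by
          unfold Hb656.mt
          rw [hd, mk2_3]
        rw [hm] at g2 g3 g4 ⊢
        simp only at g2 g3 g4 ⊢
        have e1 : (P.cc i).1.2 = k := mul_right_cancel₀ (by omega : (L : ℤ) ≠ 0) g2
        have e2 : b1 < (P.cc i).1.1 := by
          have : (b1 + 1) * L < ((P.cc i).1.1 + 1) * L := by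
            have r1 : (b1 + 1) * L = b1 * L + L := by ring
            have r2 : ((P.cc i).1.1 + 1) * L = (P.cc i).1.1 * L + L := by ring
            omega
          have := (mul_lt_iff (by omega)).1 this
          omega
        have e3 : (P.cc i).1.1 ≤ b' := by
          have : (P.cc i).1.1 * L < (b' + 1) * L := by
            have r1 : (b' + 1) * L = b' * L + L := by ring
            omega
          have := (mul_lt_iff (by omega)).1 this
          omega
        have e4 : (b1 + 1) * L ≤ (P.cc i).1.1 * L :=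
          mul_le_mul_of_nonneg_right (by omega) (by omega)
        have e5 : (b1 + 1) * L = b1 * L + L := by ring
        refine ⟨?_, Or.inr hd, by omega, 1, by norm_num, rfl⟩
        have := ht.nup (P.cc i).1.1 (by omega) e3
        rwa [← e1] at this
      · exact Or.inl rfl)
  intro hok
  refine ⟨key.1.1 hok, (key.2 hok).trans (hL0 L hL2)⟩

end Crest.Agent.R158.Mp896
end
end

-- ▼ part R158/Nb1_771
section

/-!
# Row 158, BLOCK BL (helper771), notch balls for one-run pairs, 1: the slit in the shear chart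

* `shr y1 (-1)` : the chart, rows `≥ y1` moved one column to the left
* **`beD_chart`** : to the right of `p` the glueing of `D^(z)`, `z = (p, y1)`, is plain in the chart
* `ntc` : the notch
-/

set_option autoImplicit false
set_option linter.unusedVariables false

noncomputable section

namespace Crest.Agent.R158.Nb771

open Crest.Agent.R158.Sw300 (Port Wd)
open Crest.Agent.R158.Cb771 (dir)
open Crest.Agent.R158.Cw161 (d4 dir0 dir1 dir2 dir3 shr TCh)
open Crest.Agent.R158.Env664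

theorem shr_lt {y1 e : ℤ} {t : ℤ × ℤ} (h : t.2 < y1) : shr y1 e t = t := if_pos h

theorem shr_ge {y1 e : ℤ} {t : ℤ × ℤ} (h : y1 ≤ t.2) : shr y1 e t = (t.1 + e, t.2) :=
  if_neg (not_lt.2 h)

theorem shr_snd {y1 e : ℤ} {t : ℤ × ℤ} : (shr y1 e t).2 = t.2 := by
  unfold shr
  split_ifs <;> rfl

theorem tch (y1 : ℤ) : TCh (shr y1 (-1)) (shr y1 1) := TCh.shr y1 (-1)

/-- neighbour in the chart -/
def nbS (y1 : ℤ) (t : ℤ × ℤ) (d : ZMod 4) : ℤ × ℤ := shr y1 1 (shr y1 (-1) t + dir d)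

theorem nbS_W (y1 x y : ℤ) : nbS y1 (x, y) 0 = (x - 1, y) := by
  unfold nbS
  rw [dir0]
  by_cases h : y < y1
  · rw [shr_lt (t := (x, y)) h, shr_lt (by simpa using h)]
    ext <;> simp [sub_eq_add_neg]
  · rw [shr_ge (t := (x, y)) (not_lt.1 h), shr_ge (by simpa using h)]
    ext <;> simp [sub_eq_add_neg]

theorem nbS_E (y1 x y : ℤ) : nbS y1 (x, y) 2 = (x + 1, y) := by
  unfold nbS
  rw [dir2]
  by_cases h : y < y1
  · rw [shr_lt (t := (x, y)) h, shr_lt (by simpa using h)]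
    ext <;> simp
  · rw [shr_ge (t := (x, y)) (not_lt.1 h), shr_ge (by simpa using h)]
    ext <;> simp

theorem nbS_N1 (y1 x : ℤ) : nbS y1 (x, y1 - 1) 1 = (x + 1, y1) := by
  unfold nbS
  rw [dir1, shr_lt (t := (x, y1 - 1)) (by simp), shr_ge (by simp)]
  ext <;> simp

theorem nbS_N {y1 x y : ℤ} (h : y ≠ y1 - 1) : nbS y1 (x, y) 1 = (x, y + 1) := by
  unfold nbS
  rw [dir1]
  by_cases h' : y < y1
  · rw [shr_lt (t := (x, y)) h', shr_lt (by simp; omega)]
    ext <;> simp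
  · rw [shr_ge (t := (x, y)) (not_lt.1 h'), shr_ge (by simp; omega)]
    ext <;> simp

theorem nbS_S1 (y1 x : ℤ) : nbS y1 (x, y1) 3 = (x - 1, y1 - 1) := by
  unfold nbS
  rw [dir3, shr_ge (t := (x, y1)) (by simp), shr_lt (by simp)]
  ext <;> simp [sub_eq_add_neg]

theorem nbS_S {y1 x y : ℤ} (h : y ≠ y1) : nbS y1 (x, y) 3 = (x, y - 1) := by
  unfold nbS
  rw [dir3]
  by_cases h' : y < y1
  · rw [shr_lt (t := (x, y)) h', shr_lt (by simp; omega)]
    ext <;> simp [sub_eq_add_neg]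
  · rw [shr_ge (t := (x, y)) (not_lt.1 h'), shr_ge (by simp; omega)]
    ext <;> simp [sub_eq_add_neg]

/-- the glueing of `D^(z)` is plain in the chart -/
theorem beD_chart {A : Finset (ℤ × ℤ)} {p y1 xr : ℤ} {t : ℤ × ℤ} (hp : p < t.1)
    (hw : xr < t.1 → (t.2 = y1 - 1 ∨ t.2 = y1) → t ∉ A) (d : ZMod 4) :
    beD A p y1 xr (some (t, d)) =
      if t ∈ A ∧ nbS y1 t d ∈ A then some (nbS y1 t d, d + 2) else some (t, d) := by
  have key : t ∈ A → nbD p y1 xr (some (t, d)) = some (nbS y1 t d, d + 2) := by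
    intro ht
    obtain ⟨x, y⟩ := t
    simp only at hp hw
    have a0 : (0 : ZMod 4) + 2 = 2 := by decide
    have a1 : (1 : ZMod 4) + 2 = 3 := by decide
    have a2 : (2 : ZMod 4) + 2 = 0 := by decide
    have a3 : (3 : ZMod 4) + 2 = 1 := by decide
    rcases d4 d with rfl | rfl | rfl | rfl
    · rw [nbD_W, nbS_W, a0]
    · by_cases h : y = y1 - 1
      · subst h
        have hx : x ≤ xr := by
          by_contra hc
          exact hw (by omega) (Or.inl rfl) ht
        rw [nbD_N1 ⟨rfl, by omega, hx⟩, nbS_N1, a1]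
      · rw [nbD_N (by omega), nbS_N h, a1]
    · rw [nbD_E, nbS_E, a2]
    · by_cases h : y = y1
      · subst h
        have hx : x ≤ xr := by
          by_contra hc
          exact hw (by omega) (Or.inr rfl) ht
        rw [nbD_S1 ⟨rfl, hp, hx⟩, nbS_S1, a3]
      · rw [nbD_S ⟨by omega, by omega⟩, nbS_S h, a3]
  unfold beD
  by_cases ht : t ∈ A
  · have h1 := key ht
    by_cases hn : nbS y1 t d ∈ A
    · rw [if_pos ⟨ht, hn⟩, res_of (portOf_some.2 ht) (by rw [h1]; exact portOf_some.2 hn), h1]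
    · rw [if_neg (fun h => hn h.2)]
      unfold res
      rw [if_neg]
      rintro ⟨-, h2⟩
      rw [h1] at h2
      exact hn (portOf_some.1 h2)
  · rw [if_neg (fun h => ht h.1)]
    unfold res
    rw [if_neg]
    rintro ⟨h2, -⟩
    exact ht (portOf_some.1 h2)

end Crest.Agent.R158.Nb771
end
end

-- ▼ part R158/Nb2_771
section

/-!
# Row 158, BLOCK BL (helper771), notch balls, 2: balls in a chart, with marks

* **`winC_of`** : a window from the pattern and the plain glueing in the chart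
* **`ball_mkC`** : helper161's `ball_chart` for regions with marks (`MK` in, `MK` out)
-/

set_option autoImplicit false
set_option linter.unusedVariables false

noncomputable section

namespace Crest.Agent.R158.Nb771

open Crest.Agent.R158.Sw300 (Port Wd)
open Crest.Agent.R158.Cb771 (dir)
open Crest.Agent.R158.Xr249 (Nx Reg)
open Crest.Agent.R158.Ob664 (GW HW HG Gl)
open Crest.Agent.R158.Sl434
open Crest.Agent.R158.Cw161 (Bx Sh base pat rk rk_neg rk_neg' rk_dir bx_rk hth_k annD_exists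
  WinC TCh ptc MkC FarC farC_iff pair_of_winC mm_of_mkC ball_chart FrC AnC bx_dir dir_back)
open Crest.Agent.R158.Wd377 (MK HG_eq mem_L)
open Crest.Agent.R158.Hc854 (cyc_pair)

/-- **a window from the pattern and the plain glueing in the chart** -/
theorem winC_of {sh : Sh} {k : ZMod 4} {X Y : ℤ} {r n : ℕ} (hr : 1 ≤ r) (hn : r + 1 ≤ n)
    {φ : ℤ × ℤ → ℤ × ℤ} {A : Finset (ℤ × ℤ)} {b : Port (ℤ × ℤ) → Port (ℤ × ℤ)}
    (hA : ∀ c, Bx X Y (n + 1) c → ¬ Bx X Y (r - 1) c → (φ c ∈ A ↔ pat X Y sh k c))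
    (hb : ∀ c d, Bx X Y n c → b (some (φ c, d)) =
      if φ c ∈ A ∧ φ (c + dir d) ∈ A then some (φ (c + dir d), d + 2) else some (φ c, d))
    {ψ : ℤ × ℤ → ℤ × ℤ} :
    WinC sh X Y r n (fun t => rk X Y k (ψ t)) (fun c => φ (rk X Y (-k) c)) k A b := by
  have up : ∀ {t : ℤ × ℤ}, Bx X Y n t → Bx X Y (n + 1) t := by
    intro t ht; unfold Bx at *; push_cast; omega
  have dn : ∀ {t : ℤ × ℤ}, ¬ Bx X Y r t → ¬ Bx X Y (r - 1) t := by
    intro t ht h; apply ht; unfold Bx at *; omega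
  have dd : ∀ {t : ℤ × ℤ} (d : ZMod 4), ¬ Bx X Y r t → ¬ Bx X Y (r - 1) (t + dir d) := by
    intro t d ht h
    apply ht
    have := bx_dir (d + 2) h
    rw [dir_back] at this
    have e : r - 1 + 1 = r := by omega
    rwa [e] at this
  have hp : ∀ {c : ℤ × ℤ}, pat X Y sh k (rk X Y (-k) c) ↔ base X Y sh c := by
    intro c; unfold pat; rw [rk_neg']
  have step : ∀ (c : ℤ × ℤ) (d : ZMod 4), rk X Y (-k) c + dir (d - k) = rk X Y (-k) (c + dir d) := by
    intro c d
    rw [rk_dir, ← sub_eq_add_neg]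
  have e2 : ∀ d : ZMod 4, d - k + 2 = d + 2 - k := by intro d; ring
  refine ⟨?_, ?_, ?_, ?_, ?_⟩
  · intro c h1 h2 h3
    exact (hA _ (bx_rk.2 (up h1)) (fun h => dn h2 (bx_rk.1 h))).2 (hp.2 h3)
  · intro c d h1 h2 h3 h4
    have k1 := (hA (rk X Y (-k) c) (bx_rk.2 (up h1)) (fun h => dn h2 (bx_rk.1 h))).2 (hp.2 h3)
    have k2 := (hA (rk X Y (-k) (c + dir d)) (bx_rk.2 (bx_dir d h1))
      (fun h => dd d h2 (bx_rk.1 h))).2 (hp.2 h4)
    unfold ptc
    rw [hb _ _ (bx_rk.2 h1), step, if_pos ⟨k1, k2⟩, e2]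
  · intro c d h1 h2 h3 h4
    have k2 := (hA (rk X Y (-k) (c + dir d)) (bx_rk.2 (bx_dir d h1))
      (fun h => dd d h2 (bx_rk.1 h)))
    unfold ptc
    rw [hb _ _ (bx_rk.2 h1), step, if_neg]
    rintro ⟨-, h5⟩
    exact h4 (hp.1 (k2.1 h5))
  · intro c d h1 h2 h3
    have k1 := (hA (rk X Y (-k) c) (bx_rk.2 (up h1)) (fun h => dn h2 (bx_rk.1 h)))
    unfold ptc
    rw [hb _ _ (bx_rk.2 h1), if_neg]
    rintro ⟨h5, -⟩
    exact h3 (hp.1 (k1.1 h5))
  · intro c d h1
    have hn' : Bx X Y n c := by unfold Bx at *; omega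
    have hn2 : Bx X Y n (c + dir d) := by
      have := bx_dir d h1
      unfold Bx at *; push_cast at this; omega
    unfold ptc
    rw [hb _ _ (bx_rk.2 hn'), step]
    split_ifs with h
    · exact ⟨c + dir d, d + 2, hn2, by rw [e2]⟩
    · exact ⟨c, d, hn', rfl⟩

/-- the tile condition of the ball theorem -/
theorem npC {sh : Sh} {k : ZMod 4} {X Y : ℤ} {r n : ℕ} {ψ φ : ℤ × ℤ → ℤ × ℤ} (hc : TCh ψ φ)
    {A : Finset (ℤ × ℤ)}
    (hA : ∀ c, Bx X Y (n + 1) c → ¬ Bx X Y (r - 1) c → (φ c ∈ A ↔ pat X Y sh k c)) :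
    ∀ t ∈ A, Bx X Y n (rk X Y k (ψ t)) → ¬ Bx X Y r (rk X Y k (ψ t)) →
      base X Y sh (rk X Y k (ψ t)) := by
  intro t ht h1 h2
  have h3 := hA (ψ t) (by have := bx_rk.1 h1; unfold Bx at *; push_cast; omega)
    (fun h => h2 (bx_rk.2 (by unfold Bx at *; omega)))
  rw [hc.l] at h3
  exact h3.1 ht

/-- a mark `m` of the first region and its image `y` in the second region, in a chart -/
def MkPC (X Y : ℤ) (r : ℕ) (ψ : ℤ × ℤ → ℤ × ℤ) (A' : Finset (ℤ × ℤ))
    (b' : Port (ℤ × ℤ) → Port (ℤ × ℤ)) (m y : Port (ℤ × ℤ)) : Prop :=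
  (y = m ∧ ∀ t d, m = some (t, d) → ¬ Bx X Y r (ψ t)) ∨
    ∃ t d t' d', m = some (t, d) ∧ Bx X Y r (ψ t) ∧ y = some (t', d') ∧ Bx X Y r (ψ t') ∧
      t' ∈ A' ∧ b' y = y

/-- **the ball theorem in a chart, for regions with marks** -/
theorem ball_mkC : ∃ C a : ℝ, 0 < C ∧ 0 < a ∧ ∀ (sh : Sh) (X Y : ℤ) (r n : ℕ)
    (ψ φ : ℤ × ℤ → ℤ × ℤ) (δ : ZMod 4), TCh ψ φ → 1 ≤ r → r + 1 ≤ n →
    ∀ {A A' : Finset (ℤ × ℤ)} {b b' : Port (ℤ × ℤ) → Port (ℤ × ℤ)},
    WinC sh X Y r n ψ φ δ A b → WinC sh X Y r n ψ φ δ A' b' →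
    (∀ t ∈ A, Bx X Y n (ψ t) → ¬ Bx X Y r (ψ t) → base X Y sh (ψ t)) →
    (∀ x, FarC X Y n ψ x → b' x = b x) → (∀ t ∈ A, ¬ Bx X Y r (ψ t) → t ∈ A') →
    (∃ w', GW A' b' w') → ∀ {m1 m2 m3 y1 y2 y3 : Port (ℤ × ℤ)}, MK A b m1 m2 m3 →
    MkPC X Y r ψ A' b' m1 y1 → MkPC X Y r ψ A' b' m2 y2 → MkPC X Y r ψ A' b' m3 y3 →
    (FarC X Y n ψ m1 ∨ FarC X Y n ψ m2) → (FarC X Y n ψ m2 ∨ FarC X Y n ψ m3) →
    (FarC X Y n ψ m3 ∨ FarC X Y n ψ m1) →
    MK A' b' y1 y2 y3 ∧ ‖HG A b m1 m2 m3 - HG A' b' y1 y2 y3‖ ≤ C * ((r : ℝ) / n) ^ a := by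
  obtain ⟨C, a, hC, ha, hX⟩ := ball_chart
  refine ⟨C, a, hC, ha, ?_⟩
  intro sh X Y r n ψ φ δ hch hr hn A A' b b' h h' hnp hF hAA hw0 m1 m2 m3 y1 y2 y3 hm p1 p2 p3
    f12 f23 f31
  obtain ⟨w', hw'⟩ := hw0
  obtain ⟨w, hw, k1, k2, k3, kc, ke⟩ := hm.spec
  obtain ⟨n12, n23, n31⟩ := Wd377.cyc_ne kc
  have hMk : ∀ {m y mo : Port (ℤ × ℤ)}, m ∈ Sw300.L w → mo ∈ Sw300.L w → m ≠ mo →
      MkPC X Y r ψ A' b' m y → MkC X Y r ψ w w' m y := by
    intro m y mo hm hmo hne hp
    rcases hp with ⟨rfl, h1⟩ | ⟨t, d, t', d', rfl, h1, rfl, h2, h3, h4⟩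
    · refine ⟨hm, ?_, Or.inl ⟨rfl, h1⟩⟩
      have h2 := Wd377.mark_some hw.word.1 hw.leg hm hmo hne
      rcases y with - | ⟨t, d⟩
      · exact absurd rfl h2
      · obtain ⟨h3, h4⟩ := (mem_L hw).1 hm
        refine (mem_L hw').2 ⟨hAA t h3 (h1 t d rfl), ?_⟩
        have et : (some (t, d) : Port (ℤ × ℤ)) = ptc φ δ (ψ t) (d + δ) := by
          unfold ptc; rw [hch.l, add_sub_cancel_right]
        by_cases hn' : Bx X Y n (ψ t)
        · have h5 := hnp t h3 hn' (h1 t d rfl)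
          by_cases h6 : base X Y sh (ψ t + dir (d + δ))
          · have h7 := h.glue (ψ t) (d + δ) hn' (h1 t d rfl) h5 h6
            rw [← et, h4, et] at h7
            have h8 : φ (ψ t) = φ (ψ t + dir (d + δ)) := by
              unfold ptc at h7
              simp only [Option.some.injEq, Prod.mk.injEq] at h7
              exact h7.1
            have h9 := congrArg ψ h8
            rw [hch.r, hch.r] at h9
            exfalso
            have : ∀ d : ZMod 4, dir d ≠ 0 := by decide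
            exact this (d + δ) (by simpa using h9.symm)
          · rw [et]
            exact h'.free (ψ t) (d + δ) hn' (h1 t d rfl) h5 h6
        · rw [hF _ (fun t' d' e => by
            simp only [Option.some.injEq, Prod.mk.injEq] at e
            rw [← e.1]; exact hn'), h4]
    · exact ⟨hm, (mem_L hw').2 ⟨h3, h4⟩, Or.inr ⟨t, d, t', d', rfl, h1, rfl, h2⟩⟩
  have q1 := hMk k1 k2 n12 p1
  have q2 := hMk k2 k3 n23 p2
  have q3 := hMk k3 k1 n31 p3
  have key := hX sh X Y r n ψ φ δ hch hr hn hw hw' h h' hnp hF q1 q2 q3 f12 f23 f31 kc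
  obtain ⟨K, w0, N1, Jl, N2, Jo, Ob, a0, b0, hD⟩ := annD_exists sh X Y hr hn
  have hP := pair_of_winC hD (by omega) hch hw hw' h h' hF
  obtain ⟨l1, l2, l3, lc⟩ := cyc_pair hP (hth_k δ) (mm_of_mkC hw (by omega) hnp q1)
    (mm_of_mkC hw (by omega) hnp q2) (mm_of_mkC hw (by omega) hnp q3) (f12.imp farC_iff.1 farC_iff.1)
    (f23.imp farC_iff.1 farC_iff.1) (f31.imp farC_iff.1 farC_iff.1) kc
  refine ⟨⟨w', hw', l1, l2, l3, lc⟩, ?_⟩
  rw [ke, HG_eq hw' l1 l2 l3 lc]
  exact key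

end Crest.Agent.R158.Nb771
end
end

-- ▼ part R158/Nb3_771
section

/-!
# Row 158, BLOCK BL (helper771), notch balls, 3: a ball at the right end of the slit

* **`ball_slit`** : removing the tiles `N` inside the ball costs `C (s / n)^a`
-/

set_option autoImplicit false
set_option linter.unusedVariables false

noncomputable section

namespace Crest.Agent.R158.Nb771

open Crest.Agent.R158.Sw300 (Port Wd)
open Crest.Agent.R158.Cb771 (dir)
open Crest.Agent.R158.Ob664 (GW HW HG Gl)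
open Crest.Agent.R158.Cw161 (Bx Sh base pat rk rk_neg rk_neg' rk_dir bx_rk WinC TCh FarC shr d4)
open Crest.Agent.R158.Wd377 (MK HG_eq mem_L)
open Crest.Agent.R158.Env664

/-- free ends stay free -/
theorem free_mono {A N : Finset (ℤ × ℤ)} {nb : Port (ℤ × ℤ) → Port (ℤ × ℤ)} {x : Port (ℤ × ℤ)}
    (h : res A nb x = x) : res (A \ N) nb x = x := by
  unfold res at h ⊢
  by_cases h1 : PortOf (A \ N) x ∧ PortOf (A \ N) (nb x)
  · rw [if_pos h1]
    have h2 : PortOf A x ∧ PortOf A (nb x) :=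
      ⟨fun y hy => (Finset.mem_sdiff.1 (h1.1 y hy)).1, fun y hy => (Finset.mem_sdiff.1 (h1.2 y hy)).1⟩
    rwa [if_pos h2] at h
  · rw [if_neg h1]

/-- tiles adjacent to `N` are near -/
theorem near_nb {X Y p y1 xr : ℤ} {s : ℕ} {t t2 : ℤ × ℤ} {d d2 : ZMod 4}
    (h1 : Bx X Y s (shr y1 (-1) t2)) (h2 : p < t2.1) (h3 : t2.1 ≤ xr)
    (h : nbD p y1 xr (some (t, d)) = some (t2, d2)) : Bx X Y (s + 1) (shr y1 (-1) t) := by
  obtain ⟨x, y⟩ := t
  obtain ⟨x2, y2⟩ := t2
  simp only at h2 h3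
  have inj : ∀ {a b : ℤ} {e : ZMod 4}, (some ((a, b), e) : Port (ℤ × ℤ)) = some ((x2, y2), d2) →
      a = x2 ∧ b = y2 := by
    intro a b e h
    simp only [Option.some.injEq, Prod.mk.injEq] at h
    exact h.1
  rcases d4 d with rfl | rfl | rfl | rfl
  · rw [nbD_W] at h
    obtain ⟨rfl, rfl⟩ := inj h
    unfold shr Bx at *
    simp only at *
    push_cast
    split_ifs at h1 ⊢ <;> simp only at h1 ⊢ <;> omega
  · by_cases hc : y = y1 - 1 ∧ p ≤ x ∧ x ≤ xr
    · rw [nbD_N1 hc] at h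
      obtain ⟨rfl, rfl⟩ := inj h
      unfold shr Bx at *
      simp only at *
      push_cast
      split_ifs at h1 ⊢ <;> simp only at h1 ⊢ <;> omega
    · rw [nbD_N hc] at h
      obtain ⟨rfl, rfl⟩ := inj h
      unfold shr Bx at *
      simp only at *
      push_cast
      split_ifs at h1 ⊢ <;> simp only at h1 ⊢ <;> omega
  · rw [nbD_E] at h
    obtain ⟨rfl, rfl⟩ := inj h
    unfold shr Bx at *
    simp only at *
    push_cast
    split_ifs at h1 ⊢ <;> simp only at h1 ⊢ <;> omega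
  · by_cases hc : y = y1 ∧ x = p
    · rw [nbD_Sleg hc] at h
      exact absurd h (by simp)
    by_cases hc2 : y = y1 ∧ p < x ∧ x ≤ xr
    · rw [nbD_S1 hc2] at h
      obtain ⟨rfl, rfl⟩ := inj h
      unfold shr Bx at *
      simp only at *
      push_cast
      split_ifs at h1 ⊢ <;> simp only at h1 ⊢ <;> omega
    · rw [nbD_S ⟨by omega, hc⟩] at h
      obtain ⟨rfl, rfl⟩ := inj h
      unfold shr Bx at *
      simp only at *
      push_cast
      split_ifs at h1 ⊢ <;> simp only at h1 ⊢ <;> omega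

/-- **removing tiles at the right end of the slit** -/
theorem ball_slit : ∃ C a : ℝ, 0 < C ∧ 0 < a ∧ ∀ (A N : Finset (ℤ × ℤ)) (p y1 xr X Y : ℤ)
    (s n : ℕ) (sh : Sh) (k : ZMod 4), s + 2 ≤ n →
    (∀ c, Bx X Y (n + 1) c → ¬ Bx X Y s c → (shr y1 1 c ∈ A ↔ pat X Y sh k c)) →
    (∀ c, Bx X Y n c → p < (shr y1 1 c).1) →
    (∀ t ∈ A, Bx X Y n (shr y1 (-1) t) → xr < t.1 → t.2 ≠ y1 - 1 ∧ t.2 ≠ y1) →
    (∀ t ∈ N, Bx X Y s (shr y1 (-1) t) ∧ p < t.1 ∧ t.1 ≤ xr) →
    (∃ w, GW (A \ N) (beD (A \ N) p y1 xr) w) → ∀ m y : Fin 3 → (ℤ × ℤ) × ZMod 4,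
    MK A (beD A p y1 xr) (some (m 0)) (some (m 1)) (some (m 2)) →
    (∀ i, ((m i).1 ∉ N ∧ y i = m i) ∨ ((m i).1 ∈ N ∧ Bx X Y s (shr y1 (-1) (y i).1) ∧
      (y i).1 ∈ A \ N ∧ beD (A \ N) p y1 xr (some (y i)) = some (y i))) →
    (∀ i j, i ≠ j → ¬ Bx X Y n (shr y1 (-1) (m i).1) ∨ ¬ Bx X Y n (shr y1 (-1) (m j).1)) →
    MK (A \ N) (beD (A \ N) p y1 xr) (some (y 0)) (some (y 1)) (some (y 2)) ∧
      ‖HG A (beD A p y1 xr) (some (m 0)) (some (m 1)) (some (m 2)) -
        HG (A \ N) (beD (A \ N) p y1 xr) (some (y 0)) (some (y 1)) (some (y 2))‖ ≤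
      C * (((s + 1 : ℕ) : ℝ) / n) ^ a := by
  obtain ⟨C, a, hC, ha, H⟩ := ball_mkC
  refine ⟨C, a, hC, ha, ?_⟩
  intro A N p y1 xr X Y s n sh k hsn hwin hright hout hN hw m y hm hy hfar
  have hch := tch y1
  have hup : ∀ {c : ℤ × ℤ}, Bx X Y s c → Bx X Y n c := by
    intro c hc; unfold Bx at *; omega
  -- membership in the smaller region
  have hAN : ∀ t, ¬ Bx X Y s (shr y1 (-1) t) → (t ∈ A \ N ↔ t ∈ A) := by
    intro t ht
    rw [Finset.mem_sdiff]
    exact ⟨fun h => h.1, fun h => ⟨h, fun h' => ht (hN t h').1⟩⟩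
  have hwin' : ∀ c, Bx X Y (n + 1) c → ¬ Bx X Y s c → (shr y1 1 c ∈ A \ N ↔ pat X Y sh k c) := by
    intro c h1 h2
    rw [hAN _ (by rw [hch.r]; exact h2)]
    exact hwin c h1 h2
  -- the glueing in the chart
  have hb : ∀ (B : Finset (ℤ × ℤ)), B ⊆ A → ∀ c d, Bx X Y n c →
      beD B p y1 xr (some (shr y1 1 c, d)) =
        if shr y1 1 c ∈ B ∧ shr y1 1 (c + dir d) ∈ B then some (shr y1 1 (c + dir d), d + 2)
        else some (shr y1 1 c, d) := by
    intro B hB c d hc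
    have h1 := beD_chart (A := B) (p := p) (y1 := y1) (xr := xr) (t := shr y1 1 c) (hright c hc)
      (fun h2 h3 h4 => by
        have := hout _ (hB h4) (by rw [hch.r]; exact hc) h2
        tauto) d
    rw [h1]
    unfold nbS
    rw [hch.r]
  -- windows
  have e1 : s + 1 - 1 = s := by omega
  have W1 : WinC sh X Y (s + 1) n (fun t => rk X Y k (shr y1 (-1) t))
      (fun c => shr y1 1 (rk X Y (-k) c)) k A (beD A p y1 xr) :=
    winC_of (by omega) (by omega) (by rw [e1]; exact hwin) (hb A (Finset.Subset.refl _))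
  have W2 : WinC sh X Y (s + 1) n (fun t => rk X Y k (shr y1 (-1) t))
      (fun c => shr y1 1 (rk X Y (-k) c)) k (A \ N) (beD (A \ N) p y1 xr) :=
    winC_of (by omega) (by omega) (by rw [e1]; exact hwin') (hb _ Finset.sdiff_subset)
  have hT : TCh (fun t => rk X Y k (shr y1 (-1) t)) (fun c => shr y1 1 (rk X Y (-k) c)) :=
    hch.comp (TCh.rk X Y k)
  have hnp := npC (sh := sh) (k := k) (X := X) (Y := Y) (r := s + 1) (n := n) hch (A := A)
    (by rw [e1]; exact hwin)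
  -- far ports
  have hF : ∀ x, FarC X Y n (fun t => rk X Y k (shr y1 (-1) t)) x →
      beD (A \ N) p y1 xr x = beD A p y1 xr x := by
    intro x hx
    have hxN : PortOf (A \ N) x ↔ PortOf A x := by
      rcases x with - | ⟨t, d⟩
      · exact ⟨fun _ y hy => absurd hy (by simp), fun _ y hy => absurd hy (by simp)⟩
      · rw [portOf_some, portOf_some]
        have h1 : ¬ Bx X Y n (shr y1 (-1) t) := fun h => hx t d rfl (bx_rk.2 h)
        exact hAN t fun h => h1 (hup h)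
    have hnN : PortOf (A \ N) (nbD p y1 xr x) ↔ PortOf A (nbD p y1 xr x) := by
      rcases hz : nbD p y1 xr x with - | ⟨t2, d2⟩
      · exact ⟨fun _ y hy => absurd hy (by simp), fun _ y hy => absurd hy (by simp)⟩
      · rw [portOf_some, portOf_some]
        by_cases h2 : t2 ∈ N
        · exfalso
          obtain ⟨g1, g2, g3⟩ := hN t2 h2
          rcases x with - | ⟨t, d⟩
          · rw [nbD_leg] at hz
            simp only [Option.some.injEq, Prod.mk.injEq] at hz
            have : p = t2.1 := by rw [← hz.1]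
            omega
          · have h3 := near_nb g1 g2 g3 hz
            refine hx t d rfl (bx_rk.2 ?_)
            unfold Bx at *; push_cast at h3; omega
        · rw [Finset.mem_sdiff]
          exact ⟨fun h => h.1, fun h => ⟨h, h2⟩⟩
    unfold beD res
    by_cases h : PortOf A x ∧ PortOf A (nbD p y1 xr x)
    · rw [if_pos h, if_pos ⟨hxN.2 h.1, hnN.2 h.2⟩]
    · rw [if_neg h, if_neg (fun h' => h ⟨hxN.1 h'.1, hnN.1 h'.2⟩)]
  obtain ⟨w, hw1, k1, k2, k3, -, -⟩ := hm.spec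
  have hmf : ∀ i, (m i).1 ∈ A ∧ beD A p y1 xr (some (m i)) = some (m i) := by
    intro i
    have hl : some (m i) ∈ Sw300.L w := by
      fin_cases i
      · exact k1
      · exact k2
      · exact k3
    exact (mem_L hw1).1 hl
  have hMk : ∀ i, MkPC X Y (s + 1) (fun t => rk X Y k (shr y1 (-1) t)) (A \ N)
      (beD (A \ N) p y1 xr) (some (m i)) (some (y i)) := by
    intro i
    rcases hy i with ⟨h1, h2⟩ | ⟨h1, h2, h3, h4⟩
    · rw [h2]
      by_cases h5 : Bx X Y (s + 1) (shr y1 (-1) (m i).1)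
      · right
        exact ⟨(m i).1, (m i).2, (m i).1, (m i).2, rfl, bx_rk.2 h5, rfl, bx_rk.2 h5,
          Finset.mem_sdiff.2 ⟨(hmf i).1, h1⟩, free_mono (hmf i).2⟩
      · left
        refine ⟨rfl, fun t d e h6 => h5 ?_⟩
        simp only [Option.some.injEq] at e
        rw [e]
        exact bx_rk.1 h6
    · right
      have up1 : ∀ {c : ℤ × ℤ}, Bx X Y s c → Bx X Y (s + 1) c := by
        intro c hc; unfold Bx at *; push_cast; omega
      exact ⟨(m i).1, (m i).2, (y i).1, (y i).2, rfl, bx_rk.2 (up1 (hN _ h1).1), rfl,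
        bx_rk.2 (up1 h2), h3, h4⟩
  have hFar : ∀ i j, i ≠ j → FarC X Y n (fun t => rk X Y k (shr y1 (-1) t)) (some (m i)) ∨
      FarC X Y n (fun t => rk X Y k (shr y1 (-1) t)) (some (m j)) := by
    have key : ∀ i, ¬ Bx X Y n (shr y1 (-1) (m i).1) →
        FarC X Y n (fun t => rk X Y k (shr y1 (-1) t)) (some (m i)) := by
      intro i h t d e h6
      simp only [Option.some.injEq] at e
      rw [e] at h
      exact h (bx_rk.1 h6)
    intro i j hij
    exact (hfar i j hij).imp (key i) (key j)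
  exact H sh X Y (s + 1) n _ _ k hT (by omega) (by omega) W1 W2 hnp hF
    (fun t ht h => (hAN t (fun h' => h (bx_rk.2 (by unfold Bx at *; push_cast; omega)))).2 ht)
    hw hm (hMk 0) (hMk 1) (hMk 2) (hFar 0 1 (by decide)) (hFar 1 2 (by decide))
    (hFar 2 0 (by decide))

end Crest.Agent.R158.Nb771
end
end

-- ▼ part R158/Nb4_771
section

/-!
# Row 158, BLOCK BL (helper771), notch balls, 4: windows at a right end

* `Prof` : rows near the height `Yc`
* `mem_prof` : tiles of `D F L` near `((b + 1) L, Yc)`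
* **`pats`** : the pattern in the shear chart
-/

set_option autoImplicit false
set_option linter.unusedVariables false
set_option linter.unusedSimpArgs false

noncomputable section

namespace Crest.Agent.R158.Nb771

open Crest.Agent.R158.Sp896 (V)
open Crest.Agent.R158.Cw161 (Bx Sh pat shr pat_q1 pat_q2 pat_t0 pat_t3 pat_s0)
open Crest.Agent.R158.Env664 (D mem_D div_iff)
open Crest.Agent.R158.Bh679 (NP)

/-- the macro rows above and below the height `Yc` -/
structure Prof (L Yc jL jU : ℤ) : Prop where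
  adj : jL = jU ∨ jL + 1 = jU
  up : ∀ y, Yc ≤ y → 2 * y < 2 * Yc + L → y / L = jU
  lo : ∀ y, 2 * Yc ≤ 2 * y + L → y < Yc → y / L = jL

theorem prof_exists {L q : ℤ} (hL : 0 < L) (hev : Even L) :
    ∃ Yc jL jU, 2 * Yc = q * L ∧ Prof L Yc jL jU := by
  obtain ⟨M, hM⟩ := hev
  rcases Int.even_or_odd q with ⟨k, hk⟩ | ⟨k, hk⟩
  · refine ⟨k * L, k - 1, k, by rw [hk]; ring, Or.inr (by ring), ?_, ?_⟩
    · intro y h1 h2
      exact (div_iff hL _ _).2 ⟨h1, by linarith⟩
    · intro y h1 h2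
      refine (div_iff hL _ _).2 ⟨?_, ?_⟩ <;> rw [sub_mul, one_mul] <;> linarith
  · refine ⟨k * L + M, k, k, by rw [hk, hM]; ring, Or.inl rfl, ?_, ?_⟩
    · intro y h1 h2
      refine (div_iff hL _ _).2 ⟨by linarith, by linarith⟩
    · intro y h1 h2
      refine (div_iff hL _ _).2 ⟨by linarith, by linarith⟩

variable {F : Finset V} {L b Yc jL jU : ℤ}

/-- tiles near `((b + 1) L, Yc)` -/
theorem mem_prof (hL : 0 < L) (hp : Prof L Yc jL jU) {t : V} (h1 : b * L ≤ t.1)
    (h2 : t.1 < b * L + L + L) (h3 : 2 * Yc ≤ 2 * t.2 + L) (h4 : 2 * t.2 < 2 * Yc + L) :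
    t ∈ D F L ↔ (t.1 < b * L + L ∧ t.2 < Yc ∧ (b, jL) ∈ F) ∨
      (t.1 < b * L + L ∧ Yc ≤ t.2 ∧ (b, jU) ∈ F) ∨
      (b * L + L ≤ t.1 ∧ t.2 < Yc ∧ (b + 1, jL) ∈ F) ∨
      (b * L + L ≤ t.1 ∧ Yc ≤ t.2 ∧ (b + 1, jU) ∈ F) := by
  rw [mem_D hL]
  by_cases c1 : t.1 < b * L + L
  · rw [(div_iff hL t.1 b).2 ⟨h1, c1⟩]
    by_cases c2 : t.2 < Yc
    · rw [hp.lo _ h3 c2]
      constructor
      · intro h; exact Or.inl ⟨c1, c2, h⟩
      · rintro (⟨-, -, h⟩ | ⟨-, h, -⟩ | ⟨h, -, -⟩ | ⟨h, -, -⟩)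
        · exact h
        all_goals omega
    · rw [hp.up _ (not_lt.1 c2) h4]
      constructor
      · intro h; exact Or.inr (Or.inl ⟨c1, not_lt.1 c2, h⟩)
      · rintro (⟨-, h, -⟩ | ⟨-, -, h⟩ | ⟨h, -, -⟩ | ⟨h, -, -⟩)
        · omega
        · exact h
        all_goals omega
  · have e : b * L + L = (b + 1) * L := by ring
    rw [(div_iff hL t.1 (b + 1)).2 ⟨by linarith, by linarith⟩]
    by_cases c2 : t.2 < Yc
    · rw [hp.lo _ h3 c2]
      constructor
      · intro h; exact Or.inr (Or.inr (Or.inl ⟨not_lt.1 c1, c2, h⟩))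
      · rintro (⟨h, -, -⟩ | ⟨h, -, -⟩ | ⟨-, -, h⟩ | ⟨-, h, -⟩)
        · omega
        · omega
        · exact h
        · omega
    · rw [hp.up _ (not_lt.1 c2) h4]
      constructor
      · intro h; exact Or.inr (Or.inr (Or.inr ⟨not_lt.1 c1, not_lt.1 c2, h⟩))
      · rintro (⟨h, -, -⟩ | ⟨h, -, -⟩ | ⟨-, h, -⟩ | ⟨-, -, h⟩)
        · omega
        · omega
        · omega
        · exact h

/-- **the pattern at the right end of the slit, in the shear chart** -/
theorem pats (np : NP F) (hL : 0 < L) (hp : Prof L Yc jL jU) {y0 y1 : ℤ} {s n : ℕ}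
    (hlt : y0 < y1) (hs0 : Yc ≤ y0 + s - 2) (hs1 : y1 ≤ Yc + s - 2) (hsn : s + 2 ≤ n)
    (hn : 2 * (n : ℤ) + 8 ≤ L)
    (hrow : ∀ y, y0 - 1 ≤ y → y ≤ y1 → (b * L + L - 1, y) ∈ D F L)
    (hout : ∀ y, y0 - 1 ≤ y → y ≤ y1 → (b * L + L, y) ∉ D F L) :
    ∃ (sh : Sh) (k : ZMod 4) (X : ℤ), (X = b * L + L - 2 ∨ X = b * L + L - 1) ∧
      ∀ c, Bx X (Yc - 1) (n + 1) c → ¬ Bx X (Yc - 1) s c →
        (shr y1 1 c ∈ D F L ↔ pat X (Yc - 1) sh k c) := by
  -- cells from the rows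
  have cell : ∀ y, y0 - 1 ≤ y → y ≤ y1 →
      (y < Yc → (b, jL) ∈ F ∧ (b + 1, jL) ∉ F) ∧ (Yc ≤ y → (b, jU) ∈ F ∧ (b + 1, jU) ∉ F) := by
    intro y h1 h2
    have g1 := (mem_prof (F := F) (b := b) hL hp (t := (b * L + L - 1, y)) (by simp only; omega)
      (by simp only; omega) (by simp only; omega) (by simp only; omega)).1 (hrow y h1 h2)
    have g2 := fun h => hout y h1 h2 ((mem_prof (F := F) (b := b) hL hp (t := (b * L + L, y))
      (by simp only; omega) (by simp only; omega) (by simp only; omega) (by simp only; omega)).2 h)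
    simp only at g1 g2
    constructor
    · intro h
      constructor
      · rcases g1 with ⟨-, -, g⟩ | ⟨-, g, -⟩ | ⟨g, -, -⟩ | ⟨g, -, -⟩
        · exact g
        all_goals omega
      · intro g; exact g2 (Or.inr (Or.inr (Or.inl ⟨le_rfl, h, g⟩)))
    · intro h
      constructor
      · rcases g1 with ⟨-, g, -⟩ | ⟨-, -, g⟩ | ⟨g, -, -⟩ | ⟨g, -, -⟩
        · omega
        · exact g
        all_goals omega
      · intro g; exact g2 (Or.inr (Or.inr (Or.inr ⟨le_rfl, h, g⟩)))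
  -- membership in the chart
  have mem : ∀ {X : ℤ}, (X = b * L + L - 2 ∨ X = b * L + L - 1) → ∀ c, Bx X (Yc - 1) (n + 1) c →
      (shr y1 1 c ∈ D F L ↔ ((shr y1 1 c).1 < b * L + L ∧ c.2 < Yc ∧ (b, jL) ∈ F) ∨
      ((shr y1 1 c).1 < b * L + L ∧ Yc ≤ c.2 ∧ (b, jU) ∈ F) ∨
      (b * L + L ≤ (shr y1 1 c).1 ∧ c.2 < Yc ∧ (b + 1, jL) ∈ F) ∨
      (b * L + L ≤ (shr y1 1 c).1 ∧ Yc ≤ c.2 ∧ (b + 1, jU) ∈ F)) := by
    intro X hX c hc
    have e2 : (shr y1 1 c).2 = c.2 := shr_snd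
    have e1 : (shr y1 1 c).1 = c.1 ∨ (shr y1 1 c).1 = c.1 + 1 := by
      unfold shr; split_ifs <;> simp
    unfold Bx at hc
    push_cast at hc
    rw [mem_prof (b := b) hL hp (by omega) (by omega) (by omega) (by omega), e2]
  have shc : ∀ c : V, (c.2 < y1 ∧ (shr y1 1 c).1 = c.1) ∨ (y1 ≤ c.2 ∧ (shr y1 1 c).1 = c.1 + 1) := by
    intro c
    unfold shr
    split_ifs with h
    · exact Or.inl ⟨h, rfl⟩
    · exact Or.inr ⟨not_lt.1 h, rfl⟩
  have hy1 := cell y1 (by omega) le_rfl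
  have hy0 := cell (y0 - 1) le_rfl (by omega)
  by_cases flat : ((b, jL) ∈ F ∧ (b + 1, jL) ∉ F) ∧ ((b, jU) ∈ F ∧ (b + 1, jU) ∉ F)
  · obtain ⟨⟨f1, f2⟩, f3, f4⟩ := flat
    refine ⟨.h1, 0, b * L + L - 2, Or.inl rfl, fun c h1 h2 => ?_⟩
    rw [mem (Or.inl rfl) c h1, pat_s0]
    have := shc c
    unfold Bx at h1 h2
    push_cast at h1 h2
    simp only [f1, f2, f3, f4, and_true, and_false, or_false]
    omega
  by_cases hpos : Yc ≤ y1
  · obtain ⟨f3, f4⟩ := hy1.2 hpos
    have hg : Yc ≤ y0 - 1 := by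
      by_contra hc
      exact flat ⟨hy0.1 (by omega), f3, f4⟩
    by_cases f1 : (b, jL) ∈ F <;> by_cases f2 : (b + 1, jL) ∈ F
    · refine ⟨.t, 0, b * L + L - 2, Or.inl rfl, fun c h1 h2 => ?_⟩
      rw [mem (Or.inl rfl) c h1, pat_t0]
      have := shc c
      unfold Bx at h1 h2
      push_cast at h1 h2
      simp only [f1, f2, f3, f4, and_true, and_false, or_false]
      omega
    · exact absurd ⟨⟨f1, f2⟩, f3, f4⟩ flat
    · exfalso
      rcases hp.adj with h | h
      · rw [h] at f1; exact f1 f3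
      · have := (np b jL).2
        rw [h] at this
        exact this ⟨f2, f3, f1, f4⟩
    · refine ⟨.q, 1, b * L + L - 2, Or.inl rfl, fun c h1 h2 => ?_⟩
      rw [mem (Or.inl rfl) c h1, pat_q1]
      have := shc c
      unfold Bx at h1 h2
      push_cast at h1 h2
      simp only [f1, f2, f3, f4, and_true, and_false, or_false, false_or]
      omega
  · obtain ⟨f1, f2⟩ := hy1.1 (by omega)
    by_cases f3 : (b, jU) ∈ F <;> by_cases f4 : (b + 1, jU) ∈ F
    · refine ⟨.t, 3, b * L + L - 1, Or.inr rfl, fun c h1 h2 => ?_⟩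
      rw [mem (Or.inr rfl) c h1, pat_t3]
      have := shc c
      unfold Bx at h1 h2
      push_cast at h1 h2
      simp only [f1, f2, f3, f4, and_true, and_false, or_false, false_or]
      omega
    · exact absurd ⟨⟨f1, f2⟩, f3, f4⟩ flat
    · exfalso
      rcases hp.adj with h | h
      · rw [← h] at f3; exact f3 f1
      · have := (np b jL).1
        rw [h] at this
        exact this ⟨f1, f4, f2, f3⟩
    · refine ⟨.q, 2, b * L + L - 1, Or.inr rfl, fun c h1 h2 => ?_⟩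
      rw [mem (Or.inr rfl) c h1, pat_q2]
      have := shc c
      unfold Bx at h1 h2
      push_cast at h1 h2
      simp only [f1, f2, f3, f4, and_true, and_false, or_false, false_or]
      omega

end Crest.Agent.R158.Nb771
end
end

-- ▼ part R158/Xr15_249
section

/-!
# R158, block XR (helper249), file Xr15: the region with a leg, lower row shorter by one

Option W with the row `y0 - 1` ending at `xr - 1` and the row `y0` ending at `xr`: `(x, y0-1).N` is
glued to `(x+1, y0).S` for `p ≤ x < xr`, and there is no tile `(xr, y0-1)`.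

* `Reg.Slit'`, **`Reg.stz'`**
* **`exists_GW'`** : existence of the good word
-/

set_option autoImplicit false
set_option linter.unusedVariables false

noncomputable section

namespace Crest.Agent.R158.Xr249

open Env664 (Adj4 Mac D mem_D div_iff PortOf portOf_some portOf_none res nbP beP nbD beD IsWord Run
  CutAdj lowT upT)
open Ob664 (GW rgt)

namespace Reg

variable {R : Reg}

/-- the hypotheses on the line: `p..xr` in the upper row, `p..xr-1` in the lower row -/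
structure Slit' (R : Reg) (p y0 xr : ℤ) : Prop where
  pr : p < xr
  ver : ∀ x, p ≤ x → x < xr → R.v (x, y0 - 1)
  lo : ∀ x, p ≤ x → x < xr - 1 → R.h (x, y0 - 1)
  up : ∀ x, p ≤ x → x < xr → R.h (x, y0)
  out : (xr, y0 - 1) ∉ R.P

variable {p y0 xr : ℤ}

theorem glz_glue' (hs : p ≤ xr) : Glue (R.glz p y0 xr) := by
  refine ⟨?_, ?_, ?_⟩
  · rintro (- | ⟨⟨x, y⟩, d⟩) q h
    · rw [glz_none.1 h]
      exact glz_3.2 (Or.inl ⟨rfl, rfl, rfl⟩)
    · rcases d4 d with rfl | rfl | rfl | rfl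
      · obtain ⟨h1, rfl⟩ := glz_0.1 h
        exact glz_2.2 ⟨h1, by rw [sub_add_cancel]⟩
      · rcases glz_1.1 h with ⟨rfl, h1, h2, rfl⟩ | ⟨h1, h2, rfl⟩
        · exact glz_3.2 (Or.inr (Or.inl ⟨rfl, by omega, by omega, by rw [add_sub_cancel_right]⟩))
        · refine glz_3.2 (Or.inr (Or.inr ⟨?_, ?_, ?_⟩))
          · rintro ⟨h3, h4, h5⟩
            exact h1 ⟨by omega, h4, h5⟩
          · rwa [add_sub_cancel_right]
          · rw [add_sub_cancel_right]
      · obtain ⟨h1, rfl⟩ := glz_2.1 h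
        exact glz_0.2 ⟨by rwa [add_sub_cancel_right], by rw [add_sub_cancel_right]⟩
      · rcases glz_3.1 h with ⟨rfl, rfl, rfl⟩ | ⟨rfl, h1, h2, rfl⟩ | ⟨h1, h2, rfl⟩
        · exact glz_none.2 rfl
        · refine glz_1.2 (Or.inl ⟨rfl, by omega, by omega, by rw [sub_add_cancel]⟩)
        · refine glz_1.2 (Or.inr ⟨?_, h2, by rw [sub_add_cancel]⟩)
          rintro ⟨h3, h4, h5⟩
          exact h1 ⟨by omega, h4, h5⟩
  · rintro (- | ⟨⟨x, y⟩, d⟩) q q' h h'
    · rw [glz_none.1 h, glz_none.1 h']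
    · rcases d4 d with rfl | rfl | rfl | rfl
      · rw [(glz_0.1 h).2, (glz_0.1 h').2]
      · rcases glz_1.1 h with ⟨rfl, h1, h2, rfl⟩ | ⟨h1, h2, rfl⟩
        · rcases glz_1.1 h' with ⟨-, -, -, rfl⟩ | ⟨h4, -, -⟩
          · rfl
          · exact absurd ⟨rfl, h1, h2.le⟩ h4
        · rcases glz_1.1 h' with ⟨h3, h4, h5, -⟩ | ⟨h4, -, rfl⟩
          · exact absurd ⟨h3, h4, h5.le⟩ h1
          · rfl
      · rw [(glz_2.1 h).2, (glz_2.1 h').2]
      · rcases glz_3.1 h with ⟨rfl, rfl, rfl⟩ | ⟨rfl, h1, h2, rfl⟩ | ⟨h1, h2, rfl⟩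
        · rcases glz_3.1 h' with ⟨-, -, rfl⟩ | ⟨-, h3, -, -⟩ | ⟨h3, -, -⟩
          · rfl
          · omega
          · exact absurd ⟨rfl, le_refl _, hs⟩ h3
        · rcases glz_3.1 h' with ⟨-, h3, rfl⟩ | ⟨-, h3, -, rfl⟩ | ⟨h3, -, -⟩
          · omega
          · rfl
          · exact absurd ⟨rfl, h1.le, h2⟩ h3
        · rcases glz_3.1 h' with ⟨h3, h4, -⟩ | ⟨h3, h4, h5, -⟩ | ⟨h3, -, rfl⟩
          · have := hs
            exact absurd ⟨h3, by omega, by omega⟩ h1
          · exact absurd ⟨h3, by omega, by omega⟩ h1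
          · rfl
  · rintro (- | ⟨⟨x, y⟩, d⟩) q h
    · rw [glz_none.1 h]; simp
    · rcases d4 d with rfl | rfl | rfl | rfl
      · rw [(glz_0.1 h).2]; simp; omega
      · rcases glz_1.1 h with ⟨rfl, h1, h2, rfl⟩ | ⟨h1, h2, rfl⟩
        · simp
        · simp
      · rw [(glz_2.1 h).2]; simp
      · rcases glz_3.1 h with ⟨rfl, rfl, rfl⟩ | ⟨rfl, h1, h2, rfl⟩ | ⟨h1, h2, rfl⟩
        · simp
        · simp; omega
        · simp; omega

/-- the root row: the whole run of `(p, y0)`, glued to the leg -/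
lemma rowRoot' {a b : ℤ} (hr : R.IsRun a b y0) (h1 : a ≤ p) (h2 : p ≤ b) :
    RowData (R.glz p y0 xr) {none} (rw_ y0) a b p p 3 (fun _ => none) := by
  refine ⟨Or.inr rfl, h1, le_refl _, h2, ?_, ?_, ?_, ?_, ?_, ?_, ?_, ?_, ?_, ?_⟩
  · intro x y _ _ _ _ h
    exact (Prod.mk.injEq _ _ _ _ ▸ h : x = y ∧ y0 = y0).1
  · intro x _ _ h
    simp at h
  · intro x h1 h2
    exact glz_2.2 ⟨hr.gl x h1 h2, rfl⟩
  · intro q hq
    exact absurd (glz_0.1 hq).1 hr.la
  · intro q hq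
    exact absurd (glz_2.1 hq).1 hr.lb
  · intro x h1 h2 q hq hm
    rcases glz_1.1 (show R.glz p y0 xr (some ((x, y0), 1)) q from hq) with ⟨h3, -⟩ | ⟨-, -, rfl⟩
    · omega
    · rcases hm with hm | ⟨z, _, _, hm⟩
      · simp at hm
      · simp [rw_] at hm
  · intro x h3 h4
    have : x = p := le_antisymm h4 h3
    subst this
    exact ⟨glz_3.2 (Or.inl ⟨rfl, rfl, rfl⟩), rfl⟩
  · intro x h3 h4 h5 q hq hm
    rcases glz_3.1 (show R.glz p y0 xr (some ((x, y0), 3)) q from hq) with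
      ⟨-, h6, -⟩ | ⟨-, h6, h7, rfl⟩ | ⟨-, -, rfl⟩
    · omega
    · rcases hm with hm | ⟨z, _, _, hm⟩
      · simp at hm
      · simp only [tl_some, rw_, Option.some.injEq, Prod.mk.injEq] at hm
        omega
    · rcases hm with hm | ⟨z, _, _, hm⟩
      · simp at hm
      · simp only [tl_some, rw_, Option.some.injEq, Prod.mk.injEq] at hm
        omega
  · intro _ x h3 h4; omega
  · intro _ x h3 h4; omega

/-- attaching a run that touches `Q` below -/
lemma rowBelowz' (hs : R.Slit' p y0 xr) {Q : Set (ℤ × ℤ)} {a b t u v : ℤ} (hr : R.IsRun a b t)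
    (hd : ∀ x, a ≤ x → x ≤ b → (x, t) ∉ Q) (hb : R.Below Q a b t u v)
    (hQp : ∀ x, p ≤ x → x ≤ xr → (x, y0) ∈ Q) :
    RowData (R.glz p y0 xr) (A0 Q) (rw_ t) a b u v 3 (fun x => some ((x, t - 1), 1)) := by
  have e1 : ∀ x, a ≤ x → x ≤ b → t = y0 → ¬ (p ≤ x ∧ x ≤ xr) := by
    rintro x h1 h2 rfl ⟨h3, h4⟩
    exact hd x h1 h2 (hQp x h3 h4)
  have e2 : ∀ x, a ≤ x → x ≤ b → t = y0 - 1 → ¬ (p ≤ x ∧ x ≤ xr) := by
    rintro x h1 h2 rfl ⟨h3, h4⟩
    have h5 : x < xr := by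
      by_contra h6
      have h7 : x = xr := by omega
      exact hs.out (h7 ▸ hr.mem h1 h2)
    refine hb.free x h1 h2 ⟨hs.ver x h3 h5, ?_⟩
    rw [sub_add_cancel]
    exact hQp x h3 h4
  have k1 := hb.au
  have k2 := hb.vb
  refine ⟨Or.inr rfl, hb.au, hb.uv, hb.vb, ?_, ?_, ?_, ?_, ?_, ?_, ?_, ?_, ?_, ?_⟩
  · intro x y _ _ _ _ h
    exact (Prod.mk.injEq _ _ _ _ ▸ h : x = y ∧ t = t).1
  · intro x h1 h2 h3
    exact hd x h1 h2 (mem_A0.1 h3)
  · intro x h1 h2
    exact glz_2.2 ⟨hr.gl x h1 h2, rfl⟩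
  · intro q hq
    exact absurd (glz_0.1 hq).1 hr.la
  · intro q hq
    exact absurd (glz_2.1 hq).1 hr.lb
  · intro x h1 h2 q hq hm
    rcases glz_1.1 (show R.glz p y0 xr (some ((x, t), 1)) q from hq) with
      ⟨h3, h4, h5, -⟩ | ⟨-, h3, rfl⟩
    · exact e2 x h1 h2 h3 ⟨h4, h5.le⟩
    · rcases mem_A0r.1 hm with h4 | h4
      · exact hb.free x h1 h2 ⟨h3, h4⟩
      · have := h4.2.2; simp only at this; omega
  · intro x h1 h2
    refine ⟨glz_3.2 (Or.inr (Or.inr ⟨?_, (hb.con x h1 h2).1, rfl⟩)), mem_A0.2 (hb.con x h1 h2).2⟩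
    rintro ⟨h3, h4⟩
    exact e1 x (by omega) (by omega) h3 h4
  · intro x h1 h2 h3 q hq hm
    rcases glz_3.1 (show R.glz p y0 xr (some ((x, t), 3)) q from hq) with
      ⟨h6, h7, -⟩ | ⟨h5, h6, h7, -⟩ | ⟨-, h4, rfl⟩
    · exact e1 x h1 h2 h6 ⟨by omega, by have := hs.pr; omega⟩
    · exact e1 x h1 h2 h5 ⟨by omega, by omega⟩
    · rcases mem_A0r.1 hm with h5 | h5
      · exact hb.out x h1 h2 h3 ⟨h4, h5⟩
      · have := h5.2.2; simp only at this; omega
  · intro _ x h1 h2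
    have c1 := hb.con x h1 (by omega)
    have c2 := hb.con (x + 1) (by omega) (by omega)
    refine .go (q := some ((x + 1, t - 1), 0)) ⟨?_, mem_A0.2 c1.2, mem_A0.2 c2.2⟩ ?_
    · rw [rot_some]
      exact glz_2.2 ⟨hb.hor x h1 h2, rfl⟩
    · refine .stop (p := some ((x + 1, t - 1), 0)) fun q hq => ?_
      rw [rot_some] at hq
      rcases glz_1.1 (show R.glz p y0 xr (some ((x + 1, t - 1), 1)) q from hq.1) with
        ⟨h3, h4, h5, -⟩ | ⟨-, -, h5⟩
      · exact e1 (x + 1) (by omega) (by omega) (by omega) ⟨h4, h5.le⟩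
      · rw [sub_add_cancel] at h5
        rw [h5] at hq
        exact hd (x + 1) (by omega) (by omega) (mem_A0.1 hq.2.2)
  · intro h; exact absurd h (by decide)

/-- attaching a run that touches `Q` above, not at the shifted line -/
lemma rowAbovez' (hs : R.Slit' p y0 xr) {Q : Set (ℤ × ℤ)} {a b t u v : ℤ} (hr : R.IsRun a b t)
    (hd : ∀ x, a ≤ x → x ≤ b → (x, t) ∉ Q) (hb : R.Above Q a b t u v)
    (hQp : ∀ x, p ≤ x → x ≤ xr → (x, y0) ∈ Q)
    (e2 : ∀ x, a ≤ x → x ≤ b → t = y0 - 1 → ¬ (p ≤ x ∧ x ≤ xr)) :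
    RowData (R.glz p y0 xr) (A0 Q) (rw_ t) a b u v 1 (fun x => some ((x, t + 1), 3)) := by
  have e1 : ∀ x, a ≤ x → x ≤ b → t = y0 → ¬ (p ≤ x ∧ x ≤ xr) := by
    rintro x h1 h2 rfl ⟨h3, h4⟩
    exact hd x h1 h2 (hQp x h3 h4)
  have k1 := hb.au
  have k2 := hb.vb
  refine ⟨Or.inl rfl, hb.au, hb.uv, hb.vb, ?_, ?_, ?_, ?_, ?_, ?_, ?_, ?_, ?_, ?_⟩
  · intro x y _ _ _ _ h
    exact (Prod.mk.injEq _ _ _ _ ▸ h : x = y ∧ t = t).1
  · intro x h1 h2 h3
    exact hd x h1 h2 (mem_A0.1 h3)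
  · intro x h1 h2
    exact glz_2.2 ⟨hr.gl x h1 h2, rfl⟩
  · intro q hq
    exact absurd (glz_0.1 hq).1 hr.la
  · intro q hq
    exact absurd (glz_2.1 hq).1 hr.lb
  · intro x h1 h2 q hq hm
    rcases glz_3.1 (show R.glz p y0 xr (some ((x, t), 3)) q from hq) with
      ⟨h6, h7, -⟩ | ⟨h5, h6, h7, -⟩ | ⟨-, h3, rfl⟩
    · exact e1 x h1 h2 h6 ⟨by omega, by have := hs.pr; omega⟩
    · exact e1 x h1 h2 h5 ⟨by omega, by omega⟩
    · rcases mem_A0r.1 hm with h4 | h4
      · exact hb.free x h1 h2 ⟨h3, h4⟩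
      · have := h4.2.2; simp only at this; omega
  · intro x h1 h2
    refine ⟨glz_1.2 (Or.inr ⟨?_, (hb.con x h1 h2).1, rfl⟩), mem_A0.2 (hb.con x h1 h2).2⟩
    rintro ⟨h3, h4⟩
    exact e2 x (by omega) (by omega) h3 h4
  · intro x h1 h2 h3 q hq hm
    rcases glz_1.1 (show R.glz p y0 xr (some ((x, t), 1)) q from hq) with
      ⟨h4, h5, h6, -⟩ | ⟨-, h4, rfl⟩
    · exact e2 x h1 h2 h4 ⟨h5, h6.le⟩
    · rcases mem_A0r.1 hm with h5 | h5
      · exact hb.out x h1 h2 h3 ⟨h4, h5⟩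
      · have := h5.2.2; simp only at this; omega
  · intro h; exact absurd h (by decide)
  · intro _ x h1 h2
    have c1 := hb.con x h1 (by omega)
    have c2 := hb.con (x + 1) (by omega) (by omega)
    refine .go (q := some ((x, t + 1), 2)) ⟨?_, mem_A0.2 c2.2, mem_A0.2 c1.2⟩ ?_
    · rw [rot_some, show (3 : ZMod 4) + 1 = 0 by decide]
      refine glz_0.2 ⟨?_, ?_⟩
      · rw [add_sub_cancel_right]; exact hb.hor x h1 h2
      · rw [add_sub_cancel_right]
    · refine .stop (p := some ((x, t + 1), 2)) fun q hq => ?_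
      rw [rot_some] at hq
      rcases glz_3.1 (show R.glz p y0 xr (some ((x, t + 1), 3)) q from hq.1) with
        ⟨h6, h7, -⟩ | ⟨h5, h6, h7, -⟩ | ⟨-, h4, h5⟩
      · exact e2 x (by omega) (by omega) (by omega) ⟨by omega, by have := hs.pr; omega⟩
      · exact e2 x (by omega) (by omega) (by omega) ⟨by omega, by omega⟩
      · rw [add_sub_cancel_right] at h5
        rw [h5] at hq
        exact hd x (by omega) (by omega) (mem_A0.1 hq.2.2)

/-- attaching the run under the shifted line -/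
lemma rowLine' (hs : R.Slit' p y0 xr) {Q : Set (ℤ × ℤ)} (hQ : R.Good Q) {a b u v : ℤ}
    (hr : R.IsRun a b (y0 - 1))
    (hd : ∀ x, a ≤ x → x ≤ b → (x, y0 - 1) ∉ Q) (hb : R.Above Q a b (y0 - 1) u v)
    (hQp : ∀ x, p ≤ x → x ≤ xr → (x, y0) ∈ Q) (hap : a ≤ p) (hxb : b = xr - 1) :
    RowData (R.glz p y0 xr) (A0 Q) (rw_ (y0 - 1)) a b u (xr - 1) 1
      (fun x => if x < p then some ((x, y0), 3) else some ((x + 1, y0), 3)) := by
  have hpr := hs.pr
  have k1 := hb.au
  have k2 := hb.vb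
  have hcon : ∀ x, u ≤ x → x ≤ v → R.v (x, y0 - 1) ∧ (x, y0) ∈ Q := by
    intro x h1 h2
    have := hb.con x h1 h2
    rwa [sub_add_cancel] at this
  have hout : ∀ x, a ≤ x → x ≤ b → R.v (x, y0 - 1) → (x, y0) ∈ Q → u ≤ x ∧ x ≤ v := by
    intro x h1 h2 h3 h4
    by_contra h5
    refine hb.out x h1 h2 h5 ⟨h3, ?_⟩
    rwa [sub_add_cancel]
  have hup : u ≤ p ∧ p ≤ v :=
    hout p hap (by omega) (hs.ver p (le_refl _) hpr) (hQp p (le_refl _) hpr.le)
  have hxr : u ≤ xr - 1 ∧ xr - 1 ≤ v :=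
    hout (xr - 1) (by omega) (by omega) (hs.ver (xr - 1) (by omega) (by omega))
      (hQp (xr - 1) (by omega) (by omega))
  have hv : v = xr - 1 := by omega
  have hu : u ≤ xr - 1 := by omega
  have hhor : ∀ x, u ≤ x → x < xr → R.h (x, y0) := by
    intro x h1 h2
    by_cases h3 : x < v
    · have := hb.hor x h1 h3
      rwa [sub_add_cancel] at this
    · exact hs.up x (by omega) h2
  have hmem : ∀ x, u ≤ x → x ≤ xr → (x, y0) ∈ Q := by
    intro x h1 h2
    by_cases h3 : x ≤ v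
    · exact (hcon x h1 h3).2
    · exact hQp x (by omega) h2
  have hne : ∀ x : ℤ, (some ((x, y0), (3 : ZMod 4)) : Port (ℤ × ℤ)) = rot (some ((x, y0), 2)) := by
    intro x; rw [rot_some]; rfl
  -- a port `(x, y0).S` of the upper row is not glued to the built part
  have hfree : ∀ x, u ≤ x → x ≤ xr → x ≠ p → ∀ q, ¬ GA (R.glz p y0 xr) (A0 Q) (some ((x, y0), 3)) q := by
    rintro x h1 h2 h3 q ⟨h4, -, h5⟩
    rcases glz_3.1 h4 with ⟨-, h6, -⟩ | ⟨-, h6, h7, rfl⟩ | ⟨h8, h6, rfl⟩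
    · exact h3 h6
    · exact hd (x - 1) (by omega) (by omega) (mem_A0.1 h5)
    · have h9 : x < p := by
        by_contra h9
        exact h8 ⟨rfl, by omega, h2⟩
      exact hd x (by omega) (by omega) (mem_A0.1 h5)
  refine ⟨Or.inl rfl, hb.au, hu, by omega, ?_, ?_, ?_, ?_, ?_, ?_, ?_, ?_, ?_, ?_⟩
  · intro x y _ _ _ _ h
    exact (Prod.mk.injEq _ _ _ _ ▸ h : x = y ∧ y0 - 1 = y0 - 1).1
  · intro x h1 h2 h3
    exact hd x h1 h2 (mem_A0.1 h3)
  · intro x h1 h2
    exact glz_2.2 ⟨hr.gl x h1 h2, rfl⟩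
  · intro q hq
    exact absurd (glz_0.1 hq).1 hr.la
  · intro q hq
    exact absurd (glz_2.1 hq).1 hr.lb
  · intro x h1 h2 q hq hm
    rcases glz_3.1 (show R.glz p y0 xr (some ((x, y0 - 1), 3)) q from hq) with
      ⟨h6, -⟩ | ⟨h6, -⟩ | ⟨-, h3, rfl⟩
    · omega
    · omega
    · rcases mem_A0r.1 hm with h4 | h4
      · exact hb.free x h1 h2 ⟨h3, h4⟩
      · have := h4.2.2; simp only at this; omega
  · intro x h1 h2
    by_cases hx : x < p
    · rw [if_pos hx]
      refine ⟨glz_1.2 (Or.inr ⟨?_, (hcon x h1 (by omega)).1, by rw [sub_add_cancel]⟩),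
        mem_A0.2 (hmem x h1 (by omega))⟩
      rintro ⟨-, h3, -⟩
      omega
    · rw [if_neg hx]
      exact ⟨glz_1.2 (Or.inl ⟨rfl, by omega, by omega, rfl⟩), mem_A0.2 (hmem (x + 1) (by omega) (by omega))⟩
  · intro x h1 h2 h3 q hq hm
    rcases glz_1.1 (show R.glz p y0 xr (some ((x, y0 - 1), 1)) q from hq) with
      ⟨h4, h5, h6, -⟩ | ⟨h4, h5, rfl⟩
    · omega
    · rw [sub_add_cancel] at hm
      rcases mem_A0r.1 hm with h6 | h6
      · have := hout x h1 h2 h5 h6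
        exact h4 ⟨rfl, by omega, by omega⟩
      · have := h6.2.2; simp only at this; omega
  · intro h; exact absurd h (by decide)
  · intro _ x h1 h2
    by_cases hx : x + 1 < p
    · rw [if_pos hx, if_pos (by omega)]
      refine .go (q := some ((x, y0), 2)) ⟨?_, mem_A0.2 (hmem _ (by omega) (by omega)),
        mem_A0.2 (hmem _ (by omega) (by omega))⟩ ?_
      · rw [rot_some, show (3 : ZMod 4) + 1 = 0 by decide]
        refine glz_0.2 ⟨?_, ?_⟩
        · rw [add_sub_cancel_right]; exact hhor x h1 (by omega)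
        · rw [add_sub_cancel_right]
      · rw [hne]
        refine .stop fun q hq => ?_
        rw [← hne] at hq
        exact hfree x (by omega) (by omega) (by omega) q hq
    · by_cases hx2 : x + 1 = p
      · -- the leg is passed
        subst hx2
        rw [if_neg (by omega), if_pos (by omega)]
        refine .go (q := some ((x + 1, y0), 2)) ⟨?_, mem_A0.2 (hmem _ (by omega) (by omega)),
          mem_A0.2 (hmem _ (by omega) (by omega))⟩ ?_
        · rw [rot_some, show (3 : ZMod 4) + 1 = 0 by decide]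
          refine glz_0.2 ⟨?_, ?_⟩
          · rw [add_sub_cancel_right]; exact hhor (x + 1) (by omega) (by omega)
          · rw [add_sub_cancel_right]
        refine .go (q := none) ⟨?_, mem_A0.2 (hmem _ (by omega) (by omega)), none_A0⟩ ?_
        · rw [← hne]
          exact glz_3.2 (Or.inl ⟨rfl, rfl, rfl⟩)
        refine .go (q := some ((x + 1, y0), 3)) ⟨?_, none_A0,
          mem_A0.2 (hmem _ (by omega) (by omega))⟩ ?_
        · rw [rot_none]
          exact glz_none.2 rfl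
        refine .go (q := some ((x, y0), 2)) ⟨?_, mem_A0.2 (hmem _ (by omega) (by omega)),
          mem_A0.2 (hmem _ (by omega) (by omega))⟩ ?_
        · rw [rot_some, show (3 : ZMod 4) + 1 = 0 by decide]
          refine glz_0.2 ⟨?_, ?_⟩
          · rw [add_sub_cancel_right]; exact hhor x (by omega) (by omega)
          · rw [add_sub_cancel_right]
        rw [hne]
        refine .stop fun q hq => ?_
        rw [← hne] at hq
        exact hfree x (by omega) (by omega) (by omega) q hq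
      · rw [if_neg (by omega), if_neg (by omega)]
        refine .go (q := some ((x + 1, y0), 2)) ⟨?_, mem_A0.2 (hmem _ (by omega) (by omega)),
          mem_A0.2 (hmem _ (by omega) (by omega))⟩ ?_
        · rw [rot_some, show (3 : ZMod 4) + 1 = 0 by decide]
          refine glz_0.2 ⟨?_, ?_⟩
          · rw [add_sub_cancel_right]; exact hhor (x + 1) (by omega) (by omega)
          · rw [add_sub_cancel_right]
        rw [hne]
        refine .stop fun q hq => ?_
        rw [← hne] at hq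
        exact hfree (x + 1) (by omega) (by omega) (by omega) q hq

/-- **the region with a leg is a word** -/
theorem stz' (hs : R.Slit' p y0 xr) (hsc : R.SC) (hc : R.Conn) :
    St none (R.glz p y0 xr) (A0 (R.P : Set (ℤ × ℤ))) := by
  have hpr := hs.pr
  have hG := glz_glue' (R := R) (y0 := y0) hpr.le
  have hpP : (p, y0) ∈ R.P := by
    have := (R.vP _ _ (hs.ver p (le_refl _) hs.pr)).2
    rwa [sub_add_cancel] at this
  obtain ⟨a0, b0, h1, h2, hr0⟩ := exists_run hpP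
  have hcov := hr0.cover hs.up (le_refl p) hs.pr.le h1 h2
  refine grow hsc hc hr0 (fun Q => St none (R.glz p y0 xr) (A0 Q)) ?_ ?_
  · have := (St.base (b := none) hG).attach_row hG (rowRoot' hr0 h1 h2)
    have e : ({none} : Set (Option (ℤ × ℤ))) ∪ Row (rw_ y0) a0 b0 = A0 (cells a0 b0 y0) := by
      rw [Row_eq, A0]; rfl
    rwa [e] at this
  · intro Q a b t hF hQ hsub hr hd hcon
    have hQp : ∀ x, p ≤ x → x ≤ xr → (x, y0) ∈ Q := fun x h3 h4 =>
      hsub ⟨by simp only; omega, by simp only; omega, rfl⟩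
    rw [← A0_union]
    rcases hcon with ⟨u, v, hb⟩ | ⟨u, v, hb⟩
    · exact hF.attach_row hG (rowBelowz' hs hr hd hb hQp)
    · by_cases hp : t = y0 - 1 ∧ ∃ x, a ≤ x ∧ x ≤ b ∧ p ≤ x ∧ x ≤ xr
      · obtain ⟨rfl, x, g1, g2, g3, g4⟩ := hp
        have h5 : x ≤ xr - 1 := by
          by_contra h6
          have h7 : x = xr := by omega
          exact hs.out (h7 ▸ hr.mem g1 g2)
        have h8 := hr.cover hs.lo g3 h5 g1 g2
        have h9 : b = xr - 1 := by
          by_contra h6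
          exact hs.out (hr.mem (x := xr) (by omega) (by omega))
        have := hF.attach_row hG (rowLine' hs hQ hr hd hb hQp h8.1 h9)
        exact this
      · refine hF.attach_row hG (rowAbovez' hs hr hd hb hQp ?_)
        rintro x g1 g2 g3 ⟨g4, g5⟩
        exact hp ⟨g3, x, g1, g2, g4, g5⟩

lemma glz_mem' (hs : R.Slit' p y0 xr) {a b : Port (ℤ × ℤ)} (h : R.glz p y0 xr a b) :
    tl a ∈ A0 (R.P : Set (ℤ × ℤ)) := by
  rcases a with - | ⟨⟨x, y⟩, d⟩
  · exact none_A0
  · refine mem_A0.2 (show (x, y) ∈ R.P from ?_)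
    rcases d4 d with rfl | rfl | rfl | rfl
    · have := (R.hP _ _ (glz_0.1 h).1).2
      rwa [sub_add_cancel] at this
    · rcases glz_1.1 h with ⟨rfl, h1, h2, rfl⟩ | ⟨-, h1, rfl⟩
      · exact (R.vP _ _ (hs.ver x h1 h2)).1
      · exact (R.vP _ _ h1).1
    · exact (R.hP _ _ (glz_2.1 h).1).1
    · rcases glz_3.1 h with ⟨rfl, rfl, rfl⟩ | ⟨rfl, h1, h2, rfl⟩ | ⟨-, h1, rfl⟩
      · have := (R.vP _ _ (hs.ver x (le_refl _) hs.pr)).2
        rwa [sub_add_cancel] at this
      · have := (R.hP _ _ (hs.up (x - 1) (by omega) (by omega))).2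
        rwa [sub_add_cancel] at this
      · have := (R.vP _ _ h1).2
        rwa [sub_add_cancel] at this

lemma glz_GA' (hs : R.Slit' p y0 xr) : GA (R.glz p y0 xr) (A0 (R.P : Set (ℤ × ℤ))) = R.glz p y0 xr := by
  funext a b
  refine propext ⟨fun h => h.1, fun h => ⟨h, glz_mem' hs h, glz_mem' hs ((glz_glue' hs.pr.le).sym _ _ h)⟩⟩

end Reg

section

variable {A : Finset (ℤ × ℤ)} {p y0 xr : ℤ}

/-- glueing with leg = `glz` of `full A`, lower row shorter by one -/
lemma gb_beD' (hpr : p < xr) (hup : ∀ x, p ≤ x → x ≤ xr → (x, y0) ∈ A)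
    (hlo : ∀ x, p ≤ x → x < xr → (x, y0 - 1) ∈ A) (hx : (xr, y0 - 1) ∉ A)
    (hw : (xr + 1, y0) ∉ A) : gb (beD A p y0 xr) = (full A).glz p y0 xr := by
  have hp0 := hup p (le_refl _) hpr.le
  funext a q
  refine propext ?_
  rcases a with - | ⟨⟨x, y⟩, d⟩
  · rw [Reg.glz_none, gb, beD, res, Env664.nbD_leg, if_pos ⟨portOf_none A, portOf_some.2 hp0⟩]
    constructor
    · rintro ⟨h1, -⟩; exact h1.symm
    · rintro rfl; exact ⟨rfl, by simp⟩
  · have key : ∀ r : Port (ℤ × ℤ), nbD p y0 xr (some ((x, y), d)) = r → some ((x, y), d) ≠ r →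
        (gb (beD A p y0 xr) (some ((x, y), d)) q ↔ ((x, y) ∈ A ∧ PortOf A r) ∧ q = r) := by
      rintro r h1 h2
      rw [beD, gb_res h1 h2, portOf_some]
    rcases Reg.d4 d with rfl | rfl | rfl | rfl
    · rw [Reg.glz_0, key _ Env664.nbD_W (by simp; omega), portOf_some]
      refine and_congr ?_ Iff.rfl
      rw [full_h, sub_add_cancel, and_comm]
    · by_cases hc : y = y0 - 1 ∧ p ≤ x ∧ x ≤ xr
      · rw [Reg.glz_1, key _ (Env664.nbD_N1 hc) (by simp), portOf_some]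
        obtain ⟨rfl, hc1, hc2⟩ := hc
        constructor
        · rintro ⟨⟨h1, h2⟩, h3⟩
          have h4 : x ≠ xr := by rintro rfl; exact hx h1
          exact Or.inl ⟨rfl, hc1, by omega, h3⟩
        · rintro (⟨-, -, h1, h2⟩ | ⟨h1, -⟩)
          · exact ⟨⟨hlo x hc1 h1, hup (x + 1) (by omega) (by omega)⟩, h2⟩
          · exact absurd ⟨rfl, hc1, hc2⟩ h1
      · rw [Reg.glz_1, key _ (Env664.nbD_N hc) (by simp), portOf_some]
        constructor
        · rintro ⟨h1, h2⟩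
          exact Or.inr ⟨hc, h1, h2⟩
        · rintro (⟨h1, h2, h3, -⟩ | ⟨-, h1, h2⟩)
          · exact absurd ⟨h1, h2, h3.le⟩ hc
          · exact ⟨h1, h2⟩
    · rw [Reg.glz_2, key _ Env664.nbD_E (by simp), portOf_some]
      exact Iff.rfl
    · rw [Reg.glz_3]
      by_cases hc : y = y0 ∧ x = p
      · rw [key _ (Env664.nbD_Sleg hc) (by simp)]
        obtain ⟨rfl, rfl⟩ := hc
        constructor
        · rintro ⟨-, h1⟩
          exact Or.inl ⟨rfl, rfl, h1⟩
        · rintro (⟨-, -, h1⟩ | ⟨-, h1, -⟩ | ⟨h1, -⟩)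
          · exact ⟨⟨hp0, portOf_none A⟩, h1⟩
          · omega
          · exact absurd ⟨rfl, le_refl _, hpr.le⟩ h1
      · by_cases hc2 : y = y0 ∧ p < x ∧ x ≤ xr
        · rw [key _ (Env664.nbD_S1 hc2) (by simp; omega), portOf_some]
          obtain ⟨rfl, h1, h2⟩ := hc2
          constructor
          · rintro ⟨-, h3⟩
            exact Or.inr (Or.inl ⟨rfl, h1, h2, h3⟩)
          · rintro (⟨-, h3, -⟩ | ⟨-, -, -, h3⟩ | ⟨h3, -⟩)
            · omega
            · exact ⟨⟨hup x h1.le h2, hlo (x - 1) (by omega) (by omega)⟩, h3⟩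
            · exact absurd ⟨rfl, h1.le, h2⟩ h3
        · rw [key _ (Env664.nbD_S ⟨by omega, hc⟩) (by simp; omega), portOf_some]
          constructor
          · rintro ⟨h1, h2⟩
            refine Or.inr (Or.inr ⟨by omega, ?_, h2⟩)
            rw [full_v, sub_add_cancel]
            exact h1.symm
          · rintro (⟨h1, h2, -⟩ | ⟨h1, h2, h3, -⟩ | ⟨-, h1, h2⟩)
            · exact absurd ⟨h1, h2⟩ hc
            · exact absurd ⟨h1, h2, h3⟩ hc2
            · rw [full_v, sub_add_cancel] at h1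
              exact ⟨h1.symm, h2⟩

/-- **region with leg (option W), lower row shorter by one, as a word** -/
theorem wordD' (hsc : (full A).SC) (hc : (full A).Conn) (hpr : p < xr)
    (hup : ∀ x, p ≤ x → x ≤ xr → (x, y0) ∈ A) (hlo : ∀ x, p ≤ x → x < xr → (x, y0 - 1) ∈ A)
    (hx : (xr, y0 - 1) ∉ A) (hw : (xr + 1, y0) ∉ A) :
    ∃ w l, Wrd w l A (beD A p y0 xr) ∧ bas w = none ∧ Sw300.L w = l ∧
      some ((xr, y0), 2) ∈ l := by
  have hs : (full A).Slit' p y0 xr := by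
    refine ⟨hpr, ?_, ?_, ?_, hx⟩
    · intro x h1 h2
      rw [full_v, sub_add_cancel]
      exact ⟨hlo x h1 h2, hup x h1 h2.le⟩
    · intro x h1 h2
      exact ⟨hlo x h1 (by omega), hlo (x + 1) (by omega) (by omega)⟩
    · intro x h1 h2
      exact ⟨hup x h1 h2.le, hup (x + 1) (by omega) (by omega)⟩
  have e := gb_beD' hpr hup hlo hx hw
  obtain ⟨c, hw'⟩ := Reg.stz' hs hsc hc
  rw [Reg.glz_GA' hs, ← e] at hw'
  obtain ⟨w, hw2⟩ := hw'.adapt (by intro t ht; cases ht)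
  have hnone : none ∉ c := by
    intro h
    refine ((hw'.inv.mem none).1 h).2 (some ((p, y0), 3)) ?_
    rw [e]
    exact Reg.glz_none.2 rfl
  obtain ⟨l, h5, -, -⟩ := hw2.wrd hw'.inv (A := A)
    (fun t => by rw [Reg.mem_A0]; exact_mod_cast Iff.rfl) (fun x hx => res_not hx)
    (fun x hx => by
      have h7 : gb (beD A p y0 xr) x (beD A p y0 xr x) := ⟨rfl, fun h => hx h.symm⟩
      rw [e] at h7
      exact Reg.glz_face h7) hnone
  refine ⟨w, l, h5, hw2.bas, ?_, ?_⟩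
  · have := h5.L
    rw [hw2.bas] at this
    simpa [mk] using this
  · rw [h5.mem]
    refine ⟨⟨by simp, portOf_some.2 (hup xr hpr.le (le_refl _))⟩, ?_⟩
    by_contra h
    have h7 : gb (beD A p y0 xr) (some ((xr, y0), 2)) (beD A p y0 xr (some ((xr, y0), 2))) :=
      ⟨rfl, fun h' => h h'.symm⟩
    rw [e] at h7
    exact hw (Reg.glz_2.1 h7).1.2

/-- **existence of a good word, lower row shorter by one** (no condition at `p`) -/
theorem exists_GW'' (hsc : (full A).SC) (hc : (full A).Conn) (hpr : p < xr)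
    (hup : ∀ x, p ≤ x → x ≤ xr → (x, y0) ∈ A) (hlo : ∀ x, p ≤ x → x < xr → (x, y0 - 1) ∈ A)
    (hx : (xr, y0 - 1) ∉ A) (hw : (xr + 1, y0) ∉ A) : ∃ w, GW A (beD A p y0 xr) w := by
  obtain ⟨w, l, h1, h2, -, h3⟩ := wordD' hsc hc hpr hup hlo hx hw
  exact ⟨w, h1.gw h2 (List.ne_nil_of_mem h3)⟩


end

end Crest.Agent.R158.Xr249
end
end

-- ▼ part R158/Nb5_771

/-!
# Row 158, BLOCK BL (helper771), notch balls, 5: **`nbOne : NBone`**
-/

set_option autoImplicit false
set_option linter.unusedVariables false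

noncomputable section

namespace Crest.Agent.R158.Nb771

open Crest.Agent.R158.Sp896 (V)
open Crest.Agent.R158.Sw300 (Port)
open Crest.Agent.R158.Tj656 (P4)
open Crest.Agent.R158.Cw161 (Bx Sh pat shr)
open Crest.Agent.R158.Xr249 (CPath full exists_GW'')
open Crest.Agent.R158.Ob664 (GW HG)
open Crest.Agent.R158.Env664
open Crest.Agent.R158.Hb656
open Crest.Agent.R158.Hg896 (CA CC)

/-! ### connectedness without the notch -/

theorem notch_CC {A N : Finset V} {xr : ℤ} (hA : CC A) (hN : ∀ t ∈ N, t.1 = xr)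
    (hout : ∀ t ∈ N, (xr + 1, t.2) ∉ A) : CC (A \ N) := by
  have sub : {t | t ∉ A} ⊆ {t | t ∉ A \ N} := fun t ht h => ht (Finset.mem_sdiff.1 h).1
  have key : ∀ a ∉ A \ N, ∃ a' ∉ A, CPath {t | t ∉ A \ N} a a' := by
    intro a ha
    by_cases h : a ∈ A
    · have hN' : a ∈ N := by
        by_contra hc
        exact ha (Finset.mem_sdiff.2 ⟨h, hc⟩)
      exact ⟨(xr + 1, a.2), hout a hN', CPath.step
        (Or.inr ⟨rfl, Or.inl (by rw [hN a hN'])⟩) ha (sub (hout a hN'))⟩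
    · exact ⟨a, h, Relation.ReflTransGen.refl⟩
  intro a ha b hb
  obtain ⟨a', ha', h1⟩ := key a ha
  obtain ⟨b', hb', h2⟩ := key b hb
  exact h1.trans (((hA a' ha' b' hb').mono sub).trans h2.symm)

theorem notch_CA {A N : Finset V} {xr y0 y1 : ℤ} (hA : CA A)
    (hN : ∀ t, t ∈ N ↔ t.1 = xr ∧ y0 ≤ t.2 ∧ t.2 < y1)
    (h1 : ∀ y, y0 - 1 ≤ y → y ≤ y1 → (xr - 1, y) ∈ A)
    (hout : ∀ y, y0 ≤ y → y < y1 → (xr + 1, y) ∉ A) : CA (A \ N) := by
  classical
  set ρ : V → V := fun c => if c ∈ N then (c.1 - 1, c.2) else c with hρ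
  have in1 : ∀ y, y0 - 1 ≤ y → y ≤ y1 → (xr - 1, y) ∈ A \ N := by
    intro y g1 g2
    refine Finset.mem_sdiff.2 ⟨h1 y g1 g2, fun h => ?_⟩
    have := ((hN _).1 h).1
    simp only at this
    omega
  -- one step
  have one : ∀ c c' : V, Adj4 c c' → c ∈ A → c' ∈ A → c ∈ N → c' ∉ N →
      CPath {t | t ∈ A \ N} (ρ c) c' := by
    rintro ⟨x, y⟩ ⟨x', y'⟩ hadj hc hc' hn hn'
    obtain ⟨g1, g2, g3⟩ := (hN _).1 hn
    simp only at g1 g2 g3
    subst g1
    have e : ρ (x, y) = (x - 1, y) := by rw [hρ]; simp only; rw [if_pos hn]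
    rw [e]
    have hin' : (x', y') ∈ A \ N := Finset.mem_sdiff.2 ⟨hc', hn'⟩
    unfold Adj4 at hadj
    simp only at hadj
    rcases hadj with ⟨rfl, h | h⟩ | ⟨rfl, h | h⟩
    · subst h
      have hy : y + 1 = y1 := by
        by_contra hne
        exact hn' ((hN _).2 ⟨rfl, by simp only; omega, by simp only; omega⟩)
      exact (CPath.step (a := (x - 1, y)) (b := (x - 1, y + 1)) (Or.inl ⟨rfl, Or.inl rfl⟩)
        (in1 y (by omega) (by omega)) (in1 (y + 1) (by omega) (by omega))).trans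
        (CPath.step (a := (x - 1, y + 1)) (b := (x, y + 1)) (Or.inr ⟨rfl, Or.inl (by simp)⟩) (in1 (y + 1) (by omega) (by omega)) hin')
    · have hy : y = y0 := by
        by_contra hne
        exact hn' ((hN _).2 ⟨rfl, by simp only; omega, by simp only; omega⟩)
      exact (CPath.step (a := (x - 1, y)) (b := (x - 1, y')) (Or.inl ⟨rfl, Or.inr h⟩)
        (in1 y (by omega) (by omega)) (in1 y' (by omega) (by omega))).trans
        (CPath.step (a := (x - 1, y')) (b := (x, y')) (Or.inr ⟨rfl, Or.inl (by simp)⟩) (in1 y' (by omega) (by omega)) hin')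
    · subst h
      exact absurd hc' (hout _ g2 g3)
    · have : x' = x - 1 := by omega
      subst this
      exact Relation.ReflTransGen.refl
  intro a ha b hb
  obtain ⟨ha1, ha2⟩ := Finset.mem_sdiff.1 ha
  obtain ⟨hb1, hb2⟩ := Finset.mem_sdiff.1 hb
  have key : ∀ c, CPath {t | t ∈ A} a c → CPath {t | t ∈ A \ N} a (ρ c) := by
    intro c hc
    induction hc with
    | refl =>
      have : ρ a = a := if_neg ha2
      rw [this]
      exact Relation.ReflTransGen.refl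
    | @tail c d h2 h3 ih =>
      obtain ⟨hadj, hcA, hdA⟩ := h3
      refine ih.trans ?_
      by_cases hc : c ∈ N
      · by_cases hd : d ∈ N
        · have e1 : ρ c = (c.1 - 1, c.2) := if_pos hc
          have e2 : ρ d = (d.1 - 1, d.2) := if_pos hd
          obtain ⟨c1, c2, c3⟩ := (hN _).1 hc
          obtain ⟨d1, d2, d3⟩ := (hN _).1 hd
          rw [e1, e2, c1, d1]
          refine CPath.step (a := (xr - 1, c.2)) (b := (xr - 1, d.2)) (Or.inl ⟨rfl, ?_⟩)
            (in1 _ (by omega) (by omega)) (in1 _ (by omega) (by omega))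
          unfold Adj4 at hadj
          show d.2 = c.2 + 1 ∨ c.2 = d.2 + 1
          omega
        · have e2 : ρ d = d := if_neg hd
          rw [e2]
          exact one c d hadj hcA hdA hc hd
      · have e1 : ρ c = c := if_neg hc
        by_cases hd : d ∈ N
        · rw [e1]
          exact (one d c hadj.symm hdA hcA hd hc).symm
        · have e2 : ρ d = d := if_neg hd
          rw [e1, e2]
          exact CPath.step hadj (Finset.mem_sdiff.2 ⟨hcA, hc⟩) (Finset.mem_sdiff.2 ⟨hdA, hd⟩)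
  have := key b (hA a ha1 b hb1)
  have e : ρ b = b := if_neg hb2
  rwa [e] at this

/-! ### the leaf -/

theorem cell_out {F : Finset V} {L b : ℤ} (hL : 0 < L) {c y : ℤ} (h1 : b * L + L ≤ c)
    (h2 : c < b * L + L + L) (h : (b * L + L, y) ∉ D F L) : (c, y) ∉ D F L := by
  rw [mem_D hL] at h ⊢
  have e : b * L + L = (b + 1) * L := by ring
  have e1 : (b * L + L) / L = b + 1 := (div_iff hL _ _).2 ⟨by linarith, by linarith⟩
  have e2 : c / L = b + 1 := (div_iff hL _ _).2 ⟨by linarith, by linarith⟩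
  simp only at h ⊢
  rw [e1] at h
  rw [e2]
  exact h

/-- **(B9, SR)** -/
theorem nbOne : NBone := by
  intro P q b r hr hr2 ε hε
  obtain ⟨C, a, hC, ha, hball⟩ := ball_slit
  obtain ⟨h, hh, hhρ, L1, hsc⟩ := Q331.eps_scale1 (ρ := r / 16) hC ha (by positivity) hε
  refine ⟨h, hh, max L1 (⌈64 / r⌉ + 64), fun L hL hev x y0 y1 hc => ?_⟩
  obtain ⟨s, n, hs, hnρ, hsn, hCn⟩ := hsc L (by omega)
  have hL64 : 64 ≤ L := by
    have : (0 : ℤ) ≤ ⌈64 / r⌉ := Int.ceil_nonneg (by positivity)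
    omega
  have hL0 : 0 < L := by omega
  have hLr : (0 : ℝ) < L := by exact_mod_cast hL0
  have hrL : 64 ≤ r * L := by
    have h1 : (64 / r : ℝ) ≤ L := by
      refine (Int.le_ceil _).trans ?_
      have : ⌈64 / r⌉ ≤ L := by omega
      exact_mod_cast this
    rw [div_le_iff₀ hr] at h1
    linarith
  have hn4 : 4 * (n : ℤ) + 8 ≤ L := by
    have h1 : (4 : ℝ) * n + 8 ≤ L := by nlinarith
    exact_mod_cast h1
  have hnr : (n : ℝ) + 3 ≤ r * L := by linarith
  -- geometry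
  obtain ⟨Yc, jL, jU, hYc, hp⟩ := prof_exists (q := q) hL0 hev
  have hYr : (Yc : ℝ) = q * L / 2 := by
    have : (2 * Yc : ℝ) = q * L := by exact_mod_cast hYc
    linarith
  have hs0 : Yc ≤ y0 + s - 2 := by
    have h1 := (abs_le.1 hc.c0).1
    rw [← hYr] at h1
    have h2 : (Yc : ℝ) ≤ y0 + s - 2 := by linarith
    exact_mod_cast h2
  have hs1 : y1 ≤ Yc + s - 2 := by
    have h1 := (abs_le.1 hc.c1).2
    rw [← hYr] at h1
    have h2 : (y1 : ℝ) ≤ Yc + s - 2 := by linarith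
    exact_mod_cast h2
  have hlt := hc.lt
  have hxr : x + n + 3 ≤ b * L + L := by
    have h1 := hc.xr
    have h2 : (x : ℝ) + n + 3 ≤ b * L + L := by linarith
    exact_mod_cast h2
  have hrow : ∀ x1 y : ℤ, b * L + L - 3 ≤ x1 ∨ x ≤ x1 → x1 ≤ b * L + L - 1 → y0 - 1 ≤ y → y ≤ y1 →
      (x1, y) ∈ D P.F L := by
    intro x1 y h1 h2 h3 h4
    refine hc.row x1 y ?_ h2 h3 h4
    have h5 : x ≤ x1 := by omega
    have h6 : (x : ℝ) ≤ x1 := by exact_mod_cast h5
    linarith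
  have hout := hc.out
  obtain ⟨sh, k, X, hX, hwin⟩ := pats (b := b) (np_P4 P) hL0 hp hlt hs0 hs1 hsn (by omega)
    (fun y h1 h2 => hrow _ y (by omega) le_rfl h1 h2) hout
  have hid : ∀ t : V, t.2 < y1 → shr y1 (-1) t = t := by
    intro t ht
    unfold shr
    rw [if_pos ht]
  have hs2 : 2 ≤ s := by
    have h1 : (2 : ℝ) ≤ s := by nlinarith
    exact_mod_cast h1
  -- the good word
  have hA : CA (D P.F L) := Hg896.D_CA (Mg949.mac P).CA hL0
  have hCc : CC (D P.F L) := Hg896.D_CC (Mg949.mac P).CC hL0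
  have hword : ∃ w, GW (D P.F L \ N1 L b y0 y1)
      (beD (D P.F L \ N1 L b y0 y1) x y1 (b * L + L - 1)) w := by
    have c1 : CC (D P.F L \ N1 L b y0 y1) := by
      refine notch_CC (xr := b * L + L - 1) hCc (fun t ht => (mem_N1.1 ht).1) fun t ht => ?_
      obtain ⟨-, g1, g2⟩ := mem_N1.1 ht
      rw [sub_add_cancel]
      exact hout _ (by omega) (by omega)
    have c2 : CA (D P.F L \ N1 L b y0 y1) := by
      refine notch_CA (xr := b * L + L - 1) (y0 := y0) (y1 := y1) hA (fun t => mem_N1)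
        (fun y g1 g2 => hrow _ _ (by omega) (by omega) g1 g2) fun y g1 g2 => ?_
      rw [sub_add_cancel]
      exact hout _ (by omega) (by omega)
    refine exists_GW'' c1.sc c2.conn (by omega) (fun x1 g1 g2 => ?_) (fun x1 g1 g2 => ?_)
      (fun g => ?_) (fun g => ?_)
    · refine Finset.mem_sdiff.2 ⟨hrow _ _ (Or.inr g1) g2 (by omega) le_rfl, fun g => ?_⟩
      have := (mem_N1.1 g).2.2
      simp only at this
      omega
    · refine Finset.mem_sdiff.2 ⟨hrow _ _ (Or.inr g1) (by omega) (by omega) (by omega), fun g => ?_⟩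
      have := (mem_N1.1 g).1
      simp only at this
      omega
    · exact (Finset.mem_sdiff.1 g).2 (mem_N1.2 ⟨rfl, by simp only; omega, by simp only; omega⟩)
    · have := (Finset.mem_sdiff.1 g).1
      rw [sub_add_cancel] at this
      exact hout _ (by omega) le_rfl this
  intro hok
  have hmain := hball (D P.F L) (N1 L b y0 y1) x y1 (b * L + L - 1) X (Yc - 1) s n sh k hsn hwin
    ?_ ?_ ?_ hword (mt P L) (fun i => nmk L b y0 y1 (mt P L i)) hok ?_ ?_
  · refine ⟨hmain.1, hmain.2.trans (le_trans ?_ hCn)⟩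
    have hn0 : (0 : ℝ) < n := by
      have : 0 < n := by omega
      exact_mod_cast this
    gcongr
    omega
  · -- the chart is to the right of `z`
    intro c hcb
    have e1 : (shr y1 1 c).1 = c.1 ∨ (shr y1 1 c).1 = c.1 + 1 := by
      unfold shr; split_ifs <;> simp
    unfold Bx at hcb
    omega
  · -- rows of the slit to the right of its end
    rintro ⟨t1, t2⟩ ht hb ht1
    simp only at ht1
    have e1 : (shr y1 (-1) (t1, t2)).1 = t1 ∨ (shr y1 (-1) (t1, t2)).1 = t1 + -1 := by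
      unfold shr; split_ifs <;> simp
    have key : y0 - 1 ≤ t2 → t2 ≤ y1 → False := by
      intro g1 g2
      refine cell_out hL0 ?_ ?_ (hout t2 g1 g2) ht
      · omega
      · unfold Bx at hb
        omega
    constructor
    · intro e
      simp only at e
      exact key (by omega) (by omega)
    · intro e
      simp only at e
      exact key (by omega) (by omega)
  · -- the notch
    intro t ht
    obtain ⟨g1, g2, g3⟩ := mem_N1.1 ht
    rw [hid t g3]
    unfold Bx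
    omega
  · -- marks
    intro i
    obtain ⟨m1, m2⟩ := Hw949.mt_out (P := P) (by omega : 2 ≤ L) hev i
    rw [← mt_eq] at m1 m2
    generalize mt P L i = m at m1 m2 ⊢
    obtain ⟨⟨t1, t2⟩, d⟩ := m
    by_cases hi : ((t1, t2) : V) ∈ N1 L b y0 y1
    · right
      obtain ⟨g1, g2, g3⟩ := mem_N1.1 hi
      simp only at g1 g2 g3 m1
      have hd : d = 2 := by
        rcases Cw161.d4 d with rfl | rfl | rfl | rfl
        · rw [Hw949.nt_0] at m2
          exact absurd (hrow (t1 - 1) t2 (by omega) (by omega) (by omega) (by omega)) m2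
        · rw [Hw949.nt_1] at m2
          exact absurd (hrow t1 (t2 + 1) (by omega) (by omega) (by omega) (by omega)) m2
        · rfl
        · rw [Hw949.nt_3] at m2
          exact absurd (hrow t1 (t2 - 1) (by omega) (by omega) (by omega) (by omega)) m2
      subst hd
      have e : nmk L b y0 y1 ((t1, t2), 2) = ((t1 - 1, t2), 2) := by
        unfold nmk
        rw [if_pos hi]
      have hin : ((t1 - 1, t2) : V) ∈ D P.F L \ N1 L b y0 y1 := by
        refine Finset.mem_sdiff.2 ⟨hrow _ _ (by omega) (by omega) (by omega) (by omega), fun g => ?_⟩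
        have := (mem_N1.1 g).1
        simp only at this
        omega
      show _ ∧ Bx _ _ _ (shr y1 (-1) (nmk L b y0 y1 ((t1, t2), 2)).1) ∧ _ ∧ _
      rw [e]
      refine ⟨hi, ?_, hin, ?_⟩
      · rw [hid _ g3]
        unfold Bx
        simp only
        omega
      · unfold beD res
        rw [if_neg]
        rintro ⟨-, g⟩
        rw [nbD_E, portOf_some] at g
        simp only [sub_add_cancel] at g
        exact (Finset.mem_sdiff.1 g).2 hi
    · left
      refine ⟨hi, ?_⟩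
      show nmk L b y0 y1 ((t1, t2), d) = ((t1, t2), d)
      unfold nmk
      rw [if_neg hi]
  · -- distance of the marks
    intro i j hij
    by_contra hcon
    push Not at hcon
    obtain ⟨g1, g2⟩ := hcon
    have hd := Hw949.mt_dist P (by omega : 2 ≤ L) hev hij
    rw [← mt_eq] at hd
    generalize (mt P L i).1 = u at *
    generalize (mt P L j).1 = v at *
    have e1 : (shr y1 (-1) u).1 = u.1 ∨ (shr y1 (-1) u).1 = u.1 + -1 := by
      unfold shr; split_ifs <;> simp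
    have e2 : (shr y1 (-1) v).1 = v.1 ∨ (shr y1 (-1) v).1 = v.1 + -1 := by
      unfold shr; split_ifs <;> simp
    have e3 : (shr y1 (-1) u).2 = u.2 := by
      unfold shr; split_ifs <;> simp
    have e4 : (shr y1 (-1) v).2 = v.2 := by
      unfold shr; split_ifs <;> simp
    unfold Bx at g1 g2
    rw [le_abs, le_abs] at hd
    obtain ⟨M, hM⟩ := hev
    omega

end Crest.Agent.R158.Nb771
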