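import Crest.Agent.R158.Pt6_266
import Crest.Agent.R158.Ka7_470
import Crest.Agent.R158.Ad5_350

-- ▼ part R158/Pt7_266
section

/-!
# R158, patches (helper266), file Pt7: quadrant patterns in a box

* `Quad` : box `[a,b) × [c,e)`, lines `x = p`, `y = q`, pattern `P : Bool → Bool → Bool`
  (`P i j` = the quadrant `i = (p ≤ x)`, `j = (q ≤ y)` belongs to the region); `Q.A` the tiles
* `Quad.Real Q x` : `x` is a side of a tile of the region facing a position of the box outside the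
  region
* `Quad.Ch Q x y` : clockwise chain `x → y` of real ends with turning `D`: `D = 0` (same side),
  `D = 1` (convex corner, side `d → d+1`) or `D = -1` (reflex corner, side `d → d+3`)
* **`Quad.pair`** : two different real ends in the same component: `Ch x y` or `Ch y x`
* **`Quad.arc`** : the same for the two ends of a strand of the region, with the turning and
  the non-crossing property
-/

set_option autoImplicit false
set_option linter.unusedVariables false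
set_option linter.unusedSectionVars false
set_option linter.unusedSimpArgs false

noncomputable section

namespace Crest.Agent.R158.Pt266

open Crest.Agent.R158.Sw300
open Crest.Agent.R158.Xr249 (rot rot_some rot_none Nx Reg full CPath full_SC full_Conn rct mem_rct)
open Crest.Agent.R158.Env664 (Adj4)

/-- transport of the boundary step along a symmetry of the lattice -/
lemma nxT_symm {A A' : Finset (ℤ × ℤ)} {f : ℤ × ℤ → ℤ × ℤ} {δ : ZMod 4}
    (hf : ∀ t d, f (t + dir d) = f t + dir (d + δ)) (hA : ∀ t, f t ∈ A' ↔ t ∈ A)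
    {p q : Port (ℤ × ℤ)} {k : ℤ} (h : NxT (full A).gl p q k) :
    ∀ {x : (ℤ × ℤ) × ZMod 4}, p = some x → ∃ y, q = some y ∧
      NxT (full A').gl (some (f x.1, x.2 + δ)) (some (f y.1, y.2 + δ)) k := by
  induction h with
  | @stop p h =>
    rintro ⟨t, d⟩ rfl
    refine ⟨(t, d + 1), rot_some _ _, ?_⟩
    have e : d + 1 + δ = d + δ + 1 := by ring
    have := NxT.stop (G := (full A').gl) (p := some (f t, d + δ)) (by
      rw [rot_some]
      intro q hq
      rw [gl_full, ← e, ← hf, hA, hA] at hq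
      exact h (some (t + dir (d + 1), d + 1 + 2)) (by
        rw [rot_some, gl_full]
        exact ⟨hq.1, hq.2.1, rfl⟩))
    rw [rot_some] at this
    simp only
    rw [e]
    exact this
  | @go p q r k h1 h2 ih =>
    rintro ⟨t, d⟩ rfl
    rw [rot_some, gl_full] at h1
    obtain ⟨h3, h4, rfl⟩ := h1
    obtain ⟨y, hy, h5⟩ := ih rfl
    refine ⟨y, hy, .go (q := some (f (t + dir (d + 1)), d + 1 + 2 + δ)) ?_ h5⟩
    have e : d + 1 + δ = d + δ + 1 := by ring
    rw [rot_some, gl_full, ← e, ← hf, hA, hA]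
    refine ⟨h3, h4, ?_⟩
    rw [show d + 1 + 2 + δ = d + 1 + δ + 2 by ring]

lemma cwR_symm {A A' : Finset (ℤ × ℤ)} {f : ℤ × ℤ → ℤ × ℤ} {δ : ZMod 4}
    (hf : ∀ t d, f (t + dir d) = f t + dir (d + δ)) (hA : ∀ t, f t ∈ A' ↔ t ∈ A)
    {x y : (ℤ × ℤ) × ZMod 4} {D : ℤ} {l : List ((ℤ × ℤ) × ZMod 4)}
    (h : CwR (full A).gl x y D l) : CwR (full A').gl (f x.1, x.2 + δ) (f y.1, y.2 + δ) D
      (l.map fun z => (f z.1, z.2 + δ)) := by
  induction h with
  | nil => exact .nil _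
  | @cons x z y k D l h1 _ ih =>
    obtain ⟨y', hy', h2⟩ := nxT_symm hf hA h1 rfl
    obtain rfl := Option.some.inj hy'
    exact .cons h2 ih

/-- quadrant pattern in a box -/
structure Quad where
  a : ℤ
  b : ℤ
  c : ℤ
  e : ℤ
  p : ℤ
  q : ℤ
  P : Bool → Bool → Bool

namespace Quad

variable (Q : Quad)

/-- quadrant of a position -/
def cl (v : ℤ × ℤ) : Bool := Q.P (decide (Q.p ≤ v.1)) (decide (Q.q ≤ v.2))

/-- quadrant of a position: right of the vertical line, above the horizontal line -/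
def qd (v : ℤ × ℤ) : Bool × Bool := (decide (Q.p ≤ v.1), decide (Q.q ≤ v.2))

lemma cl_qd (v : ℤ × ℤ) : Q.cl v = Q.P (Q.qd v).1 (Q.qd v).2 := rfl

/-- position in the box -/
def Bx (v : ℤ × ℤ) : Prop := (Q.a ≤ v.1 ∧ v.1 < Q.b) ∧ Q.c ≤ v.2 ∧ v.2 < Q.e

/-- tiles of the region -/
def A : Finset (ℤ × ℤ) := (rct Q.a Q.b Q.c Q.e).filter fun v => Q.cl v = true

lemma mem_A {v : ℤ × ℤ} : v ∈ Q.A ↔ Q.Bx v ∧ Q.cl v = true := by
  rcases v with ⟨x, y⟩
  simp only [A, Finset.mem_filter, mem_rct, Bx]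

/-- real free end -/
def Real (x : (ℤ × ℤ) × ZMod 4) : Prop :=
  x.1 ∈ Q.A ∧ Q.Bx (x.1 + dir x.2) ∧ x.1 + dir x.2 ∉ Q.A

lemma Real.ffree {x : (ℤ × ℤ) × ZMod 4} (h : Q.Real x) : FFree Q.A x := ⟨h.1, h.2.2⟩

lemma real_iff {x : (ℤ × ℤ) × ZMod 4} : Q.Real x ↔ Q.Bx x.1 ∧ Q.cl x.1 = true ∧
    Q.Bx (x.1 + dir x.2) ∧ Q.cl (x.1 + dir x.2) = false := by
  unfold Real
  rw [mem_A, mem_A]
  constructor
  · rintro ⟨⟨h1, h2⟩, h3, h4⟩
    refine ⟨h1, h2, h3, ?_⟩
    by_contra h5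
    exact h4 ⟨h3, by simpa using h5⟩
  · rintro ⟨h1, h2, h3, h4⟩
    refine ⟨⟨h1, h2⟩, h3, fun h5 => ?_⟩
    rw [h4] at h5
    exact absurd h5.2 (by simp)

/-- the complement is connected to infinity -/
theorem hole : Hole Q.A := by
  intro v hv
  rcases v with ⟨x, y⟩
  -- a column outside the box goes up
  have up : ∀ x y : ℤ, (x < Q.a ∨ Q.b ≤ x ∨ Q.e ≤ y) → ∃ d, CPath {t | t ∉ Q.A} (x, y) d ∧
      ∀ t ∈ Q.A, t.2 ≤ d.2 := by
    intro x y h
    refine ⟨(x, max y Q.e), CPath.ver (le_max_left _ _) fun y' h1 h2 => ?_, fun t ht => ?_⟩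
    · intro h3
      obtain ⟨⟨⟨h4, h5⟩, h6, h7⟩, -⟩ := (Q.mem_A).1 h3
      simp only at h4 h5 h6 h7
      rcases h with h | h | h <;> omega
    · obtain ⟨⟨-, h6, h7⟩, -⟩ := (Q.mem_A).1 ht
      simp only
      have := le_max_right y Q.e
      omega
  by_cases h1 : x < Q.a ∨ Q.b ≤ x ∨ Q.e ≤ y
  · exact up x y h1
  push Not at h1
  obtain ⟨h1, h2, h3⟩ := h1
  by_cases h4 : y < Q.c
  · -- below the box: go left
    obtain ⟨d, h5, h6⟩ := up (Q.a - 1) y (Or.inl (by omega))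
    have hp : CPath {t | t ∉ Q.A} (Q.a - 1, y) (x, y) := by
      refine CPath.hor (by omega) ?_
      intro x' _ _ h7
      obtain ⟨⟨-, h8, -⟩, -⟩ := (Q.mem_A).1 h7
      simp only at h8
      omega
    exact ⟨d, hp.symm.trans h5, h6⟩
  push Not at h4
  -- in a missing quadrant
  have hcl : Q.cl (x, y) = false := by
    by_contra h5
    exact hv ((Q.mem_A).2 ⟨⟨⟨h1, h2⟩, h4, h3⟩, by simpa using h5⟩)
  by_cases hx : Q.p ≤ x
  · obtain ⟨d, h5, h6⟩ := up Q.b y (Or.inr (Or.inl le_rfl))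
    have hp : CPath {t | t ∉ Q.A} (x, y) (Q.b, y) := by
      refine CPath.hor (by omega) ?_
      intro x' h8 _ h7
      have h9 := ((Q.mem_A).1 h7).2
      simp only [cl, hx, decide_true] at hcl
      simp only [cl, (by omega : Q.p ≤ x'), decide_true] at h9
      rw [hcl] at h9
      exact absurd h9 (by simp)
    exact ⟨d, hp.trans h5, h6⟩
  · obtain ⟨d, h5, h6⟩ := up (Q.a - 1) y (Or.inl (by omega))
    have hp : CPath {t | t ∉ Q.A} (Q.a - 1, y) (x, y) := by
      refine CPath.hor (by omega) ?_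
      intro x' _ h8 h7
      have h9 := ((Q.mem_A).1 h7).2
      have e1 : decide (Q.p ≤ x) = false := by simp only [decide_eq_false_iff_not]; exact hx
      have e2 : decide (Q.p ≤ x') = false := by simp only [decide_eq_false_iff_not]; omega
      simp only [cl, e1] at hcl
      simp only [cl, e2] at h9
      rw [hcl] at h9
      exact absurd h9 (by simp)
    exact ⟨d, hp.symm.trans h5, h6⟩

/-- type of a chain: flat, around a convex corner (both tiles in the same quadrant), around a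
reflex corner (both sides facing the same missing quadrant, the opposite quadrant is present) -/
def Typ (x y : (ℤ × ℤ) × ZMod 4) (D : ℤ) : Prop :=
  (D = 0 ∧ y.2 = x.2 ∧ ∃ n : ℕ, y.1 = x.1 + n • dir (x.2 + 1)) ∨
  (D = 1 ∧ y.2 = x.2 + 1 ∧ Q.qd x.1 = Q.qd y.1) ∨
  (D = -1 ∧ y.2 = x.2 + 3 ∧ Q.qd (x.1 + dir x.2) = Q.qd (y.1 + dir y.2) ∧
    Q.P (!(Q.qd (x.1 + dir x.2)).1) (!(Q.qd (x.1 + dir x.2)).2) = true)

/-- clockwise chain of real ends -/
def Ch (x y : (ℤ × ℤ) × ZMod 4) : Prop := ∃ (D : ℤ) (l : List ((ℤ × ℤ) × ZMod 4)),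
  CwR (full Q.A).gl x y D l ∧ l ≠ [] ∧ x ∉ l ∧ (∀ z ∈ l, Q.Real z) ∧ Q.Typ x y D

variable {Q}

lemma run_ne {t : ℤ × ℤ} {d : ZMod 4} {i : ℕ} (hi : 0 < i) : run t d i ≠ run t d 0 := by
  intro h
  have h1 := congrArg Prod.fst h
  simp only [run, zero_nsmul, add_zero, add_eq_left] at h1
  have h2 : dir (d + 1) = 0 := by
    rcases h3 : dir (d + 1) with ⟨u, v⟩
    rw [h3, Prod.smul_mk, Prod.mk_eq_zero] at h1
    simp only [smul_eq_mul, nsmul_eq_mul, mul_eq_zero, Nat.cast_eq_zero] at h1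
    rw [Prod.mk_eq_zero]
    constructor
    · exact h1.1.resolve_left (by omega)
    · exact h1.2.resolve_left (by omega)
  exact dir_ne _ h2

lemma ch_flat {t : ℤ × ℤ} {d : ZMod 4} {n : ℕ} (hn : 0 < n)
    (hr : ∀ i ≤ n, Q.Real (run t d i)) : Q.Ch (run t d 0) (run t d n) := by
  have hF : FRun Q.A t d n := fun i hi => ⟨(hr i hi).1, (hr i hi).2.2⟩
  refine ⟨0, _, chain_flat hF, ?_, ?_, ?_, Or.inl ⟨rfl, rfl, n, by simp [run]⟩⟩
  · intro h
    have : run t d n ∈ runL t d n := mem_runL.2 ⟨n, hn, le_rfl, rfl⟩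
    rw [h] at this
    simp at this
  · intro h
    obtain ⟨i, h1, h2, h3⟩ := mem_runL.1 h
    exact run_ne h1 h3.symm
  · intro z hz
    obtain ⟨i, h1, h2, rfl⟩ := mem_runL.1 hz
    exact hr i h2

lemma ch_convex {t : ℤ × ℤ} {d : ZMod 4} {n j : ℕ}
    (hr : ∀ i ≤ n, Q.Real (run t d i))
    (hr' : ∀ i ≤ j, Q.Real (run (t + n • dir (d + 1)) (d + 1) i))
    (hq : Q.qd (run t d 0).1 = Q.qd (run (t + n • dir (d + 1)) (d + 1) j).1) :
    Q.Ch (run t d 0) (run (t + n • dir (d + 1)) (d + 1) j) := by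
  have hF : FRun Q.A t d n := fun i hi => ⟨(hr i hi).1, (hr i hi).2.2⟩
  have hF' : FRun Q.A (t + n • dir (d + 1)) (d + 1) j :=
    fun i hi => ⟨(hr' i hi).1, (hr' i hi).2.2⟩
  have hc : t + n • dir (d + 1) + dir (d + 1) ∉ Q.A := by
    have := (hF' 0 (Nat.zero_le _)).2
    rwa [zero_nsmul, add_zero] at this
  have hd : d + 1 ≠ d := (z4_ne d).1
  refine ⟨1, _, chain_convex hF hc hF', by simp, ?_, ?_, Or.inr (Or.inl ⟨rfl, rfl, hq⟩)⟩
  · intro h
    rw [List.mem_append, List.mem_cons] at h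
    rcases h with h | h | h
    · obtain ⟨i, h1, h2, h3⟩ := mem_runL.1 h
      exact run_ne h1 h3.symm
    · exact hd (congrArg Prod.snd h).symm
    · obtain ⟨i, h1, h2, h3⟩ := mem_runL.1 h
      exact hd (congrArg Prod.snd h3).symm
  · intro z hz
    rw [List.mem_append, List.mem_cons] at hz
    rcases hz with h | rfl | h
    · obtain ⟨i, h1, h2, rfl⟩ := mem_runL.1 h
      exact hr i h2
    · have := hr' 0 (Nat.zero_le _)
      rwa [run_zero] at this
    · obtain ⟨i, h1, h2, rfl⟩ := mem_runL.1 h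
      exact hr' i h2

lemma ch_reflex {t : ℤ × ℤ} {d : ZMod 4} {n j : ℕ}
    (hr : ∀ i ≤ n, Q.Real (run t d i)) (hc : t + n • dir (d + 1) + dir (d + 1) ∈ Q.A)
    (hr' : ∀ i ≤ j, Q.Real (run (t + n • dir (d + 1) + dir (d + 1) + dir d) (d + 3) i))
    (hq : Q.qd ((run t d 0).1 + dir d) =
      Q.qd ((run (t + n • dir (d + 1) + dir (d + 1) + dir d) (d + 3) j).1 + dir (d + 3)))
    (hP : Q.P (!(Q.qd ((run t d 0).1 + dir d)).1) (!(Q.qd ((run t d 0).1 + dir d)).2) = true) :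
    Q.Ch (run t d 0) (run (t + n • dir (d + 1) + dir (d + 1) + dir d) (d + 3) j) := by
  have hF : FRun Q.A t d n := fun i hi => ⟨(hr i hi).1, (hr i hi).2.2⟩
  have hF' : FRun Q.A (t + n • dir (d + 1) + dir (d + 1) + dir d) (d + 3) j :=
    fun i hi => ⟨(hr' i hi).1, (hr' i hi).2.2⟩
  have hd : d + 3 ≠ d := (z4_ne d).2.2
  refine ⟨-1, _, chain_reflex hF hc hF', by simp, ?_, ?_, Or.inr (Or.inr ⟨rfl, rfl, hq, hP⟩)⟩
  · intro h
    rw [List.mem_append, List.mem_cons] at h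
    rcases h with h | h | h
    · obtain ⟨i, h1, h2, h3⟩ := mem_runL.1 h
      exact run_ne h1 h3.symm
    · exact hd (congrArg Prod.snd h).symm
    · obtain ⟨i, h1, h2, h3⟩ := mem_runL.1 h
      exact hd (congrArg Prod.snd h3).symm
  · intro z hz
    rw [List.mem_append, List.mem_cons] at hz
    rcases hz with h | rfl | h
    · obtain ⟨i, h1, h2, rfl⟩ := mem_runL.1 h
      exact hr i h2
    · have := hr' 0 (Nat.zero_le _)
      rwa [run_zero] at this
    · obtain ⟨i, h1, h2, rfl⟩ := mem_runL.1 h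
      exact hr' i h2

/-! ### rotation -/

/-- rotation of the plane by a quarter turn, clockwise -/
def rho (v : ℤ × ℤ) : ℤ × ℤ := (v.2, -v.1)

/-- inverse rotation -/
def rhoi (v : ℤ × ℤ) : ℤ × ℤ := (-v.2, v.1)

@[simp] lemma rho_rhoi (v : ℤ × ℤ) : rho (rhoi v) = v := by simp [rho, rhoi]
@[simp] lemma rhoi_rho (v : ℤ × ℤ) : rhoi (rho v) = v := by simp [rho, rhoi]

lemma rho_dir (t : ℤ × ℤ) (d : ZMod 4) : rho (t + dir d) = rho t + dir (d + 1) := by
  have h1 : rho (dir d) = dir (d + 1) := by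
    rcases Xr249.Reg.d4 d with rfl | rfl | rfl | rfl <;> decide
  rw [← h1]
  rcases t with ⟨x, y⟩
  rcases dir d with ⟨u, v⟩
  simp [rho]
  ring

lemma rhoi_dir (t : ℤ × ℤ) (d : ZMod 4) : rhoi (t + dir d) = rhoi t + dir (d + 3) := by
  have h1 : rhoi (dir d) = dir (d + 3) := by
    rcases Xr249.Reg.d4 d with rfl | rfl | rfl | rfl <;> decide
  rw [← h1]
  rcases t with ⟨x, y⟩
  rcases dir d with ⟨u, v⟩
  simp [rhoi]
  ring

lemma rho_run (t : ℤ × ℤ) (d : ZMod 4) (n : ℕ) :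
    rho (t + n • dir d) = rho t + n • dir (d + 1) := by
  induction n with
  | zero => simp
  | succ n ih =>
    rw [succ_nsmul, ← add_assoc, rho_dir, ih, succ_nsmul, add_assoc]

lemma rho_inj {u v : ℤ × ℤ} (h : rho u = rho v) : u = v := by
  rw [← rhoi_rho u, h, rhoi_rho]

/-- the rotated pattern -/
def rt (Q : Quad) : Quad := ⟨Q.c, Q.e, 1 - Q.b, 1 - Q.a, Q.q, 1 - Q.p, fun i j => Q.P (!j) i⟩

lemma rt_bx {v : ℤ × ℤ} : Q.rt.Bx (rho v) ↔ Q.Bx v := by
  simp only [Bx, rt, rho]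
  omega

lemma rt_qd {v : ℤ × ℤ} : Q.rt.qd (rho v) = ((Q.qd v).2, !(Q.qd v).1) := by
  simp only [qd, rt, rho]
  refine Prod.ext rfl ?_
  simp only
  by_cases h : Q.p ≤ v.1
  · have : ¬ (1 - Q.p ≤ -v.1) := by omega
    simp [h, this]
  · have : (1 - Q.p ≤ -v.1) := by omega
    simp [h, this]

lemma rt_qd_inj {u v : ℤ × ℤ} (h : Q.rt.qd (rho u) = Q.rt.qd (rho v)) : Q.qd u = Q.qd v := by
  rw [rt_qd, rt_qd, Prod.mk.injEq] at h
  refine Prod.ext ?_ h.1
  have := h.2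
  revert this
  cases (Q.qd u).1 <;> cases (Q.qd v).1 <;> simp

lemma rt_cl {v : ℤ × ℤ} : Q.rt.cl (rho v) = Q.cl v := by
  simp only [cl, rt, rho]
  congr 1
  by_cases h : Q.p ≤ v.1
  · have : ¬ (1 - Q.p ≤ -v.1) := by omega
    simp [h, this]
  · have : (1 - Q.p ≤ -v.1) := by omega
    simp [h, this]

lemma rt_A {v : ℤ × ℤ} : rho v ∈ Q.rt.A ↔ v ∈ Q.A := by
  rw [mem_A, mem_A, rt_bx, rt_cl]

lemma rt_A' {v : ℤ × ℤ} : rhoi v ∈ Q.A ↔ v ∈ Q.rt.A := by
  rw [← rt_A, rho_rhoi]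

/-- rotated port -/
def rp (x : (ℤ × ℤ) × ZMod 4) : (ℤ × ℤ) × ZMod 4 := (rho x.1, x.2 + 1)

/-- inverse -/
def rpi (x : (ℤ × ℤ) × ZMod 4) : (ℤ × ℤ) × ZMod 4 := (rhoi x.1, x.2 + 3)

lemma rpi_rp (x : (ℤ × ℤ) × ZMod 4) : rpi (rp x) = x := by
  rcases x with ⟨t, d⟩
  simp only [rpi, rp, rhoi_rho]
  congr 1
  revert d; decide

lemma rp_rpi (x : (ℤ × ℤ) × ZMod 4) : rp (rpi x) = x := by
  rcases x with ⟨t, d⟩
  simp only [rpi, rp, rho_rhoi]
  congr 1
  revert d; decide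

lemma rt_real {x : (ℤ × ℤ) × ZMod 4} : Q.rt.Real (rp x) ↔ Q.Real x := by
  unfold Real
  simp only [rp]
  rw [← rho_dir, rt_A, rt_bx, rt_A]

lemma rt_real' {x : (ℤ × ℤ) × ZMod 4} : Q.Real (rpi x) ↔ Q.rt.Real x := by
  rw [← rt_real, rp_rpi]

lemma rt_path {u v : ℤ × ℤ} (h : CPath {t | t ∈ Q.A} u v) :
    CPath {t | t ∈ Q.rt.A} (rho u) (rho v) := by
  induction h with
  | refl => exact .refl
  | @tail b c _ h2 ih =>
    refine .tail ih ⟨?_, rt_A.2 h2.2.1, rt_A.2 h2.2.2⟩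
    have := h2.1
    rcases b with ⟨b1, b2⟩
    rcases c with ⟨c1, c2⟩
    simp only [Adj4, rho] at this ⊢
    omega

lemma rt_ch {x y : (ℤ × ℤ) × ZMod 4} (h : Q.rt.Ch (rp x) (rp y)) : Q.Ch x y := by
  obtain ⟨D, l, h1, h2, h3, h4, h5⟩ := h
  have h6 := cwR_symm (A := Q.rt.A) (A' := Q.A) (f := rhoi) (δ := 3) rhoi_dir
    (fun t => rt_A') h1
  refine ⟨D, l.map rpi, ?_, by simpa using h2, ?_, ?_, ?_⟩
  · have e1 : ((rhoi (rp x).1, (rp x).2 + 3) : (ℤ × ℤ) × ZMod 4) = x := rpi_rp x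
    have e2 : ((rhoi (rp y).1, (rp y).2 + 3) : (ℤ × ℤ) × ZMod 4) = y := rpi_rp y
    rw [e1, e2] at h6
    exact h6
  · intro h
    obtain ⟨z, hz, hz'⟩ := List.mem_map.1 h
    apply h3
    rw [← hz', rp_rpi]
    exact hz
  · intro z hz
    obtain ⟨z', hz', rfl⟩ := List.mem_map.1 hz
    exact rt_real'.2 (h4 z' hz')
  · rcases h5 with ⟨h5, h7, n, h8⟩ | ⟨h5, h7, h8⟩ | ⟨h5, h7, h8, h9⟩
    · have h9 : rho y.1 = rho x.1 + n • dir (x.2 + 1 + 1) := h8
      rw [← rho_run] at h9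
      exact Or.inl ⟨h5, add_right_cancel h7, n, rho_inj h9⟩
    · exact Or.inr (Or.inl ⟨h5, by
        have : y.2 + 1 = x.2 + 1 + 1 := h7
        exact add_right_cancel this, rt_qd_inj h8⟩)
    · have e1 : (rp x).1 + dir (rp x).2 = rho (x.1 + dir x.2) := (rho_dir _ _).symm
      have e2 : (rp y).1 + dir (rp y).2 = rho (y.1 + dir y.2) := (rho_dir _ _).symm
      rw [e1, e2] at h8
      rw [e1, rt_qd] at h9
      have h7' : y.2 + 1 = x.2 + 1 + 3 := h7
      refine Or.inr (Or.inr ⟨h5, by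
        have h8 : y.2 + 1 = (x.2 + 3) + 1 := by rw [h7']; ring
        exact add_right_cancel h8, rt_qd_inj h8, ?_⟩)
      have h10 : Q.P (!!!(Q.qd (x.1 + dir x.2)).1) (!(Q.qd (x.1 + dir x.2)).2) = true := h9
      rwa [Bool.not_not] at h10

/-! ### pairs of real ends -/

/-- if `P` contains only two opposite quadrants, paths stay in one quadrant -/
lemma path_const {j0 : Bool} (hopp : Q.P true j0 = false) (hopp' : Q.P false (!j0) = false)
    {u v : ℤ × ℤ} (h : CPath {t | t ∈ Q.A} u v) :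
    (Q.p ≤ u.1 ↔ Q.p ≤ v.1) := by
  induction h with
  | refl => rfl
  | @tail b c _ h2 ih =>
    rw [ih]
    obtain ⟨h3, h4, h5⟩ := h2
    have h6 := ((Q.mem_A).1 h4).2
    have h7 := ((Q.mem_A).1 h5).2
    rcases b with ⟨b1, b2⟩
    rcases c with ⟨c1, c2⟩
    simp only [cl] at h6 h7
    simp only [Adj4] at h3
    by_contra hcon
    -- exactly one of them is on the right
    have h8 : b2 = c2 := by
      by_contra h9
      apply hcon
      omega
    subst h8
    rcases Bool.eq_false_or_eq_true (decide (Q.q ≤ b2)) with h9 | h9 <;> rw [h9] at h6 h7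
    · by_cases ha : Q.p ≤ b1
      · have hb : ¬ Q.p ≤ c1 := fun hb => hcon ⟨fun _ => hb, fun _ => ha⟩
        simp only [ha, hb, decide_true, decide_false] at h6 h7
        cases j0 <;> simp_all
      · have hb : Q.p ≤ c1 := by
          by_contra hb; exact hcon ⟨fun h => absurd h ha, fun h => absurd h hb⟩
        simp only [ha, hb, decide_true, decide_false] at h6 h7
        cases j0 <;> simp_all
    · by_cases ha : Q.p ≤ b1
      · have hb : ¬ Q.p ≤ c1 := fun hb => hcon ⟨fun _ => hb, fun _ => ha⟩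
        simp only [ha, hb, decide_true, decide_false] at h6 h7
        cases j0 <;> simp_all
      · have hb : Q.p ≤ c1 := by
          by_contra hb; exact hcon ⟨fun h => absurd h ha, fun h => absurd h hb⟩
        simp only [ha, hb, decide_true, decide_false] at h6 h7
        cases j0 <;> simp_all

/-- real end on a west side -/
lemma real0 {x1 x2 : ℤ} (h : Q.Real ((x1, x2), 0)) : x1 = Q.p ∧
    Q.P true (decide (Q.q ≤ x2)) = true ∧ Q.P false (decide (Q.q ≤ x2)) = false ∧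
    (Q.a < Q.p ∧ Q.p < Q.b) ∧ Q.c ≤ x2 ∧ x2 < Q.e := by
  rw [real_iff] at h
  obtain ⟨h1, h2, h3, h4⟩ := h
  have hd : dir 0 = (-1, 0) := rfl
  simp only [hd, Prod.mk_add_mk, add_zero, Bx, cl] at h1 h2 h3 h4
  have hx : x1 = Q.p := by
    by_contra hne
    have : (Q.p ≤ x1 ↔ Q.p ≤ x1 + -1) := by omega
    rw [decide_eq_decide.2 this, h4] at h2
    cases h2
  subst hx
  have e1 : decide (Q.p ≤ Q.p) = true := by simp
  have e2 : decide (Q.p ≤ Q.p + -1) = false := by simp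
  rw [e1] at h2
  rw [e2] at h4
  exact ⟨rfl, h2, h4, ⟨by omega, by omega⟩, by omega, by omega⟩

lemma real0' {x2 : ℤ} (h1 : Q.P true (decide (Q.q ≤ x2)) = true)
    (h2 : Q.P false (decide (Q.q ≤ x2)) = false) (h3 : Q.a < Q.p ∧ Q.p < Q.b)
    (h4 : Q.c ≤ x2 ∧ x2 < Q.e) : Q.Real ((Q.p, x2), 0) := by
  rw [real_iff]
  have hd : dir 0 = (-1, 0) := rfl
  simp only [hd, Prod.mk_add_mk, add_zero, Bx, cl]
  have e1 : decide (Q.p ≤ Q.p) = true := by simp
  have e2 : decide (Q.p ≤ Q.p + -1) = false := by simp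
  rw [e1, e2]
  exact ⟨by omega, h1, by omega, h2⟩

/-- real end on a north side -/
lemma real1 {x1 x2 : ℤ} (h : Q.Real ((x1, x2), 1)) : x2 = Q.q - 1 ∧
    Q.P (decide (Q.p ≤ x1)) false = true ∧ Q.P (decide (Q.p ≤ x1)) true = false ∧
    (Q.c < Q.q ∧ Q.q < Q.e) ∧ Q.a ≤ x1 ∧ x1 < Q.b := by
  rw [real_iff] at h
  obtain ⟨h1, h2, h3, h4⟩ := h
  have hd : dir 1 = (0, 1) := rfl
  simp only [hd, Prod.mk_add_mk, add_zero, Bx, cl] at h1 h2 h3 h4
  have hx : x2 = Q.q - 1 := by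
    by_contra hne
    have : (Q.q ≤ x2 ↔ Q.q ≤ x2 + 1) := by omega
    rw [decide_eq_decide.2 this, h4] at h2
    cases h2
  subst hx
  have e1 : decide (Q.q ≤ Q.q - 1) = false := by simp
  have e2 : decide (Q.q ≤ Q.q - 1 + 1) = true := by simp
  rw [e1] at h2
  rw [e2] at h4
  exact ⟨rfl, h2, h4, ⟨by omega, by omega⟩, by omega, by omega⟩

lemma real1' {x1 : ℤ} (h1 : Q.P (decide (Q.p ≤ x1)) false = true)
    (h2 : Q.P (decide (Q.p ≤ x1)) true = false) (h3 : Q.c < Q.q ∧ Q.q < Q.e)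
    (h4 : Q.a ≤ x1 ∧ x1 < Q.b) : Q.Real ((x1, Q.q - 1), 1) := by
  rw [real_iff]
  have hd : dir 1 = (0, 1) := rfl
  simp only [hd, Prod.mk_add_mk, add_zero, Bx, cl]
  have e1 : decide (Q.q ≤ Q.q - 1) = false := by simp
  have e2 : decide (Q.q ≤ Q.q - 1 + 1) = true := by simp
  rw [e1, e2]
  exact ⟨by omega, h1, by omega, h2⟩

/-- real end on an east side -/
lemma real2 {x1 x2 : ℤ} (h : Q.Real ((x1, x2), 2)) : x1 = Q.p - 1 ∧
    Q.P false (decide (Q.q ≤ x2)) = true ∧ Q.P true (decide (Q.q ≤ x2)) = false := by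
  rw [real_iff] at h
  obtain ⟨h1, h2, h3, h4⟩ := h
  have hd : dir 2 = (1, 0) := rfl
  simp only [hd, Prod.mk_add_mk, add_zero, Bx, cl] at h1 h2 h3 h4
  have hx : x1 = Q.p - 1 := by
    by_contra hne
    have : (Q.p ≤ x1 ↔ Q.p ≤ x1 + 1) := by omega
    rw [decide_eq_decide.2 this, h4] at h2
    cases h2
  subst hx
  have e1 : decide (Q.p ≤ Q.p - 1) = false := by simp
  have e2 : decide (Q.p ≤ Q.p - 1 + 1) = true := by simp
  rw [e1] at h2
  rw [e2] at h4
  exact ⟨rfl, h2, h4⟩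

/-- real end on a south side -/
lemma real3 {x1 x2 : ℤ} (h : Q.Real ((x1, x2), 3)) : x2 = Q.q ∧
    Q.P (decide (Q.p ≤ x1)) true = true ∧ Q.P (decide (Q.p ≤ x1)) false = false ∧
    (Q.c < Q.q ∧ Q.q < Q.e) ∧ Q.a ≤ x1 ∧ x1 < Q.b := by
  rw [real_iff] at h
  obtain ⟨h1, h2, h3, h4⟩ := h
  have hd : dir 3 = (0, -1) := rfl
  simp only [hd, Prod.mk_add_mk, add_zero, Bx, cl] at h1 h2 h3 h4
  have hx : x2 = Q.q := by
    by_contra hne
    have : (Q.q ≤ x2 ↔ Q.q ≤ x2 + -1) := by omega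
    rw [decide_eq_decide.2 this, h4] at h2
    cases h2
  subst hx
  have e1 : decide (Q.q ≤ Q.q) = true := by simp
  have e2 : decide (Q.q ≤ Q.q + -1) = false := by simp
  rw [e1] at h2
  rw [e2] at h4
  exact ⟨rfl, h2, h4, ⟨by omega, by omega⟩, by omega, by omega⟩

lemma real3' {x1 : ℤ} (h1 : Q.P (decide (Q.p ≤ x1)) true = true)
    (h2 : Q.P (decide (Q.p ≤ x1)) false = false) (h3 : Q.c < Q.q ∧ Q.q < Q.e)
    (h4 : Q.a ≤ x1 ∧ x1 < Q.b) : Q.Real ((x1, Q.q), 3) := by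
  rw [real_iff]
  have hd : dir 3 = (0, -1) := rfl
  simp only [hd, Prod.mk_add_mk, add_zero, Bx, cl]
  have e1 : decide (Q.q ≤ Q.q) = true := by simp
  have e2 : decide (Q.q ≤ Q.q + -1) = false := by simp
  rw [e1, e2]
  exact ⟨by omega, h1, by omega, h2⟩

lemma run0 (x1 x2 : ℤ) (i : ℕ) : run (x1, x2) 0 i = ((x1, x2 + i), 0) := by
  have hd : dir (0 + 1) = (0, 1) := rfl
  simp only [run, hd, Prod.smul_mk, Prod.mk_add_mk, nsmul_eq_mul, mul_one, mul_zero, add_zero]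

lemma run1 (x1 x2 : ℤ) (i : ℕ) : run (x1, x2) 1 i = ((x1 + i, x2), 1) := by
  have hd : dir (1 + 1) = (1, 0) := rfl
  simp [run, hd]

lemma run3 (x1 x2 : ℤ) (i : ℕ) : run (x1, x2) 3 i = ((x1 - i, x2), 3) := by
  have hd : dir (3 + 1) = (-1, 0) := rfl
  simp [run, hd, sub_eq_add_neg]

/-- west side, west side -/
lemma pair00 {x2 y2 : ℤ} (hx : Q.Real ((Q.p, x2), 0)) (hy : Q.Real ((Q.p, y2), 0)) (h : x2 < y2) :
    Q.Ch ((Q.p, x2), 0) ((Q.p, y2), 0) := by
  obtain ⟨-, a1, a2, a3, a4, a5⟩ := real0 hx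
  obtain ⟨-, b1, b2, b3, b4, b5⟩ := real0 hy
  obtain ⟨n, rfl⟩ := Int.le.dest h.le
  have hr : ∀ i ≤ n, Q.Real (run (Q.p, x2) 0 i) := by
    intro i hi
    rw [run0]
    by_cases hc : Q.q ≤ x2 + i
    · have e1 : decide (Q.q ≤ x2 + (i : ℤ)) = true := by simpa using hc
      have e2 : decide (Q.q ≤ x2 + (n : ℤ)) = true := by
        simp only [decide_eq_true_eq]; omega
      rw [e2] at b1 b2
      exact real0' (by rw [e1]; exact b1) (by rw [e1]; exact b2) a3 (by omega)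
    · have e1 : decide (Q.q ≤ x2 + (i : ℤ)) = false := by simpa using hc
      have e2 : decide (Q.q ≤ x2) = false := by
        simp only [decide_eq_false_iff_not]; omega
      rw [e2] at a1 a2
      exact real0' (by rw [e1]; exact a1) (by rw [e1]; exact a2) a3 (by omega)
  have := ch_flat (Q := Q) (t := (Q.p, x2)) (d := 0) (n := n) (by omega) hr
  rw [run0, run0] at this
  simpa using this

/-- west side below the corner, north side: convex corner -/
lemma pair01 {x2 y1 : ℤ} (hx : Q.Real ((Q.p, x2), 0)) (hy : Q.Real ((y1, Q.q - 1), 1))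
    (h : ¬ Q.q ≤ x2) : Q.Ch ((Q.p, x2), 0) ((y1, Q.q - 1), 1) := by
  obtain ⟨-, a1, a2, a3, a4, a5⟩ := real0 hx
  obtain ⟨-, b1, b2, b3, b4, b5⟩ := real1 hy
  have e1 : decide (Q.q ≤ x2) = false := by simpa using h
  rw [e1] at a1 a2
  have hyp : Q.p ≤ y1 := by
    by_contra hcon
    have e2 : decide (Q.p ≤ y1) = false := by simpa using hcon
    rw [e2, a2] at b1
    cases b1
  have e2 : decide (Q.p ≤ y1) = true := by simpa using hyp
  rw [e2] at b1 b2
  obtain ⟨n, hn⟩ := Int.le.dest (show x2 ≤ Q.q - 1 by omega)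
  obtain ⟨j, rfl⟩ := Int.le.dest hyp
  have hr : ∀ i ≤ n, Q.Real (run (Q.p, x2) 0 i) := by
    intro i hi
    rw [run0]
    have e3 : decide (Q.q ≤ x2 + (i : ℤ)) = false := by
      simp only [decide_eq_false_iff_not]; omega
    exact real0' (by rw [e3]; exact a1) (by rw [e3]; exact a2) a3 (by omega)
  have hc : ((Q.p, x2) : ℤ × ℤ) + n • dir (0 + 1) = (Q.p, Q.q - 1) := by
    have hd : dir (0 + 1) = (0, 1) := rfl
    simp only [hd, Prod.smul_mk, Prod.mk_add_mk, nsmul_eq_mul, mul_zero, add_zero, mul_one]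
    rw [hn]
  have hr' : ∀ i ≤ j, Q.Real (run ((Q.p, x2) + n • dir (0 + 1)) (0 + 1) i) := by
    intro i hi
    rw [hc]
    show Q.Real (run (Q.p, Q.q - 1) 1 i)
    rw [run1]
    have e3 : decide (Q.p ≤ Q.p + (i : ℤ)) = true := by simp
    exact real1' (by rw [e3]; exact b1) (by rw [e3]; exact b2) b3 (by omega)
  have hq : Q.qd (run (Q.p, x2) 0 0).1 =
      Q.qd (run ((Q.p, x2) + n • dir (0 + 1)) (0 + 1) j).1 := by
    have e4 : run ((Q.p, Q.q - 1) : ℤ × ℤ) (0 + 1) j = ((Q.p + j, Q.q - 1), 1) := run1 _ _ _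
    rw [hc, run0, e4]
    simp only [qd, Prod.mk.injEq, decide_eq_decide]
    omega
  have := ch_convex hr hr' hq
  rw [hc, run0] at this
  have e4 : run ((Q.p, Q.q - 1) : ℤ × ℤ) (0 + 1) j = ((Q.p + j, Q.q - 1), 1) := run1 _ _ _
  rw [e4] at this
  simpa using this

/-- north side left of the corner, west side above: reflex corner -/
lemma pair10 {x2 y1 : ℤ} (hx : Q.Real ((Q.p, x2), 0)) (hy : Q.Real ((y1, Q.q - 1), 1))
    (h : Q.q ≤ x2) (hP : Q.P true false = true) : Q.Ch ((y1, Q.q - 1), 1) ((Q.p, x2), 0) := by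
  obtain ⟨-, a1, a2, a3, a4, a5⟩ := real0 hx
  obtain ⟨-, b1, b2, b3, b4, b5⟩ := real1 hy
  have e1 : decide (Q.q ≤ x2) = true := by simpa using h
  rw [e1] at a1 a2
  have hyp : ¬ Q.p ≤ y1 := by
    intro hcon
    have e2 : decide (Q.p ≤ y1) = true := by simpa using hcon
    rw [e2, a1] at b2
    cases b2
  have e2 : decide (Q.p ≤ y1) = false := by simpa using hyp
  rw [e2] at b1 b2
  obtain ⟨n, hn⟩ := Int.le.dest (show y1 ≤ Q.p - 1 by omega)
  obtain ⟨j, rfl⟩ := Int.le.dest h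
  have hr : ∀ i ≤ n, Q.Real (run (y1, Q.q - 1) 1 i) := by
    intro i hi
    rw [run1]
    have e3 : decide (Q.p ≤ y1 + (i : ℤ)) = false := by
      simp only [decide_eq_false_iff_not]; omega
    exact real1' (by rw [e3]; exact b1) (by rw [e3]; exact b2) b3 (by omega)
  have hd : dir (1 + 1) = (1, 0) := rfl
  have hd1 : dir 1 = (0, 1) := rfl
  have hc : ((y1, Q.q - 1) : ℤ × ℤ) + n • dir (1 + 1) + dir (1 + 1) = (Q.p, Q.q - 1) := by
    simp only [hd, Prod.smul_mk, Prod.mk_add_mk, nsmul_eq_mul, mul_one, mul_zero, add_zero]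
    rw [hn]
    simp
  have hc' : ((y1, Q.q - 1) : ℤ × ℤ) + n • dir (1 + 1) + dir (1 + 1) + dir 1 = (Q.p, Q.q) := by
    rw [hc, hd1]
    simp
  have hcA : ((y1, Q.q - 1) : ℤ × ℤ) + n • dir (1 + 1) + dir (1 + 1) ∈ Q.A := by
    rw [hc, mem_A]
    refine ⟨⟨by simp only; omega, by simp only; omega⟩, ?_⟩
    simp only [cl]
    have e3 : decide (Q.p ≤ Q.p) = true := by simp
    have e4 : decide (Q.q ≤ Q.q - 1) = false := by simp
    rw [e3, e4]
    exact hP
  have hr' : ∀ i ≤ j, Q.Real (run ((y1, Q.q - 1) + n • dir (1 + 1) + dir (1 + 1) + dir 1)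
      (1 + 3) i) := by
    intro i hi
    rw [hc']
    show Q.Real (run (Q.p, Q.q) 0 i)
    rw [run0]
    have e3 : decide (Q.q ≤ Q.q + (i : ℤ)) = true := by simp
    exact real0' (by rw [e3]; exact a1) (by rw [e3]; exact a2) a3 (by omega)
  have hq0 : Q.qd ((run (y1, Q.q - 1) 1 0).1 + dir 1) = (false, true) := by
    rw [run1, hd1]
    simp only [qd, Prod.mk_add_mk, Prod.mk.injEq, decide_eq_true_eq, decide_eq_false_iff_not]
    omega
  have hq : Q.qd ((run (y1, Q.q - 1) 1 0).1 + dir 1) =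
      Q.qd ((run ((y1, Q.q - 1) + n • dir (1 + 1) + dir (1 + 1) + dir 1) (1 + 3) j).1 +
        dir (1 + 3)) := by
    have e4 : run ((Q.p, Q.q) : ℤ × ℤ) (1 + 3) j = ((Q.p, Q.q + j), 0) := run0 _ _ _
    have e5 : dir (1 + 3) = (-1, 0) := rfl
    rw [hq0, hc', e4, e5]
    simp only [qd, Prod.mk_add_mk]
    symm
    rw [Prod.mk.injEq, decide_eq_true_eq, decide_eq_false_iff_not]
    omega
  have := ch_reflex hr hcA hr' hq (by rw [hq0]; exact hP)
  rw [hc', run1] at this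
  have e4 : run ((Q.p, Q.q) : ℤ × ℤ) (1 + 3) j = ((Q.p, Q.q + j), 0) := run0 _ _ _
  rw [e4] at this
  simpa using this

/-- south side, west side above: convex corner -/
lemma pair30 {x2 y1 : ℤ} (hx : Q.Real ((Q.p, x2), 0)) (hy : Q.Real ((y1, Q.q), 3))
    (h : Q.q ≤ x2) : Q.Ch ((y1, Q.q), 3) ((Q.p, x2), 0) := by
  obtain ⟨-, a1, a2, a3, a4, a5⟩ := real0 hx
  obtain ⟨-, b1, b2, b3, b4, b5⟩ := real3 hy
  have e1 : decide (Q.q ≤ x2) = true := by simpa using h
  rw [e1] at a1 a2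
  have hyp : Q.p ≤ y1 := by
    by_contra hcon
    have e2 : decide (Q.p ≤ y1) = false := by simpa using hcon
    rw [e2, a2] at b1
    cases b1
  have e2 : decide (Q.p ≤ y1) = true := by simpa using hyp
  rw [e2] at b1 b2
  obtain ⟨n, hn⟩ := Int.le.dest hyp
  obtain ⟨j, rfl⟩ := Int.le.dest h
  have hr : ∀ i ≤ n, Q.Real (run (y1, Q.q) 3 i) := by
    intro i hi
    rw [run3]
    have e3 : decide (Q.p ≤ y1 - (i : ℤ)) = true := by
      simp only [decide_eq_true_eq]; omega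
    exact real3' (by rw [e3]; exact b1) (by rw [e3]; exact b2) b3 (by omega)
  have hd : dir (3 + 1) = (-1, 0) := rfl
  have hc : ((y1, Q.q) : ℤ × ℤ) + n • dir (3 + 1) = (Q.p, Q.q) := by
    simp only [hd, Prod.smul_mk, Prod.mk_add_mk, nsmul_eq_mul, mul_neg, mul_one, mul_zero, add_zero]
    congr 1
    omega
  have hr' : ∀ i ≤ j, Q.Real (run ((y1, Q.q) + n • dir (3 + 1)) (3 + 1) i) := by
    intro i hi
    rw [hc]
    show Q.Real (run (Q.p, Q.q) 0 i)
    rw [run0]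
    have e3 : decide (Q.q ≤ Q.q + (i : ℤ)) = true := by simp
    exact real0' (by rw [e3]; exact a1) (by rw [e3]; exact a2) a3 (by omega)
  have hq : Q.qd (run (y1, Q.q) 3 0).1 =
      Q.qd (run ((y1, Q.q) + n • dir (3 + 1)) (3 + 1) j).1 := by
    have e4 : run ((Q.p, Q.q) : ℤ × ℤ) (3 + 1) j = ((Q.p, Q.q + j), 0) := run0 _ _ _
    rw [hc, run3, e4]
    simp only [qd, Prod.mk.injEq, decide_eq_decide]
    omega
  have := ch_convex hr hr' hq
  rw [hc, run3] at this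
  have e4 : run ((Q.p, Q.q) : ℤ × ℤ) (3 + 1) j = ((Q.p, Q.q + j), 0) := run0 _ _ _
  rw [e4] at this
  simpa using this

/-- west side below the corner, south side left: reflex corner -/
lemma pair03 {x2 y1 : ℤ} (hx : Q.Real ((Q.p, x2), 0)) (hy : Q.Real ((y1, Q.q), 3))
    (h : ¬ Q.q ≤ x2) (hP : Q.P true true = true) : Q.Ch ((Q.p, x2), 0) ((y1, Q.q), 3) := by
  obtain ⟨-, a1, a2, a3, a4, a5⟩ := real0 hx
  obtain ⟨-, b1, b2, b3, b4, b5⟩ := real3 hy
  have e1 : decide (Q.q ≤ x2) = false := by simpa using h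
  rw [e1] at a1 a2
  have hyp : ¬ Q.p ≤ y1 := by
    intro hcon
    have e2 : decide (Q.p ≤ y1) = true := by simpa using hcon
    rw [e2, a1] at b2
    cases b2
  have e2 : decide (Q.p ≤ y1) = false := by simpa using hyp
  rw [e2] at b1 b2
  obtain ⟨n, hn⟩ := Int.le.dest (show x2 ≤ Q.q - 1 by omega)
  obtain ⟨j, hj⟩ := Int.le.dest (show y1 ≤ Q.p - 1 by omega)
  have hr : ∀ i ≤ n, Q.Real (run (Q.p, x2) 0 i) := by
    intro i hi
    rw [run0]
    have e3 : decide (Q.q ≤ x2 + (i : ℤ)) = false := by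
      simp only [decide_eq_false_iff_not]; omega
    exact real0' (by rw [e3]; exact a1) (by rw [e3]; exact a2) a3 (by omega)
  have hd : dir (0 + 1) = (0, 1) := rfl
  have hd0 : dir 0 = (-1, 0) := rfl
  have hc : ((Q.p, x2) : ℤ × ℤ) + n • dir (0 + 1) + dir (0 + 1) = (Q.p, Q.q) := by
    simp only [hd, Prod.smul_mk, Prod.mk_add_mk, nsmul_eq_mul, mul_one, mul_zero, add_zero]
    rw [hn]
    simp
  have hc' : ((Q.p, x2) : ℤ × ℤ) + n • dir (0 + 1) + dir (0 + 1) + dir 0 = (Q.p - 1, Q.q) := by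
    rw [hc, hd0]
    simp [sub_eq_add_neg]
  have hcA : ((Q.p, x2) : ℤ × ℤ) + n • dir (0 + 1) + dir (0 + 1) ∈ Q.A := by
    rw [hc, mem_A]
    refine ⟨⟨by simp only; omega, by simp only; omega⟩, ?_⟩
    simp only [cl]
    have e3 : decide (Q.p ≤ Q.p) = true := by simp
    have e4 : decide (Q.q ≤ Q.q) = true := by simp
    rw [e3, e4]
    exact hP
  have hr' : ∀ i ≤ j, Q.Real (run ((Q.p, x2) + n • dir (0 + 1) + dir (0 + 1) + dir 0)
      (0 + 3) i) := by
    intro i hi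
    rw [hc']
    show Q.Real (run (Q.p - 1, Q.q) 3 i)
    rw [run3]
    have e3 : decide (Q.p ≤ Q.p - 1 - (i : ℤ)) = false := by
      simp only [decide_eq_false_iff_not]; omega
    exact real3' (by rw [e3]; exact b1) (by rw [e3]; exact b2) b3 (by omega)
  have hq0 : Q.qd ((run (Q.p, x2) 0 0).1 + dir 0) = (false, false) := by
    rw [run0, hd0]
    simp only [qd, Prod.mk_add_mk, Prod.mk.injEq, decide_eq_true_eq, decide_eq_false_iff_not]
    omega
  have hq : Q.qd ((run (Q.p, x2) 0 0).1 + dir 0) =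
      Q.qd ((run ((Q.p, x2) + n • dir (0 + 1) + dir (0 + 1) + dir 0) (0 + 3) j).1 +
        dir (0 + 3)) := by
    have e4 : run ((Q.p - 1, Q.q) : ℤ × ℤ) (0 + 3) j = ((Q.p - 1 - j, Q.q), 3) := run3 _ _ _
    have e5 : dir (0 + 3) = (0, -1) := rfl
    rw [hq0, hc', e4, e5]
    simp only [qd, Prod.mk_add_mk]
    symm
    rw [Prod.mk.injEq, decide_eq_false_iff_not, decide_eq_false_iff_not]
    omega
  have := ch_reflex hr hcA hr' hq (by rw [hq0]; exact hP)
  rw [hc', run0] at this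
  have e4 : run ((Q.p - 1, Q.q) : ℤ × ℤ) (0 + 3) j = ((Q.p - 1 - j, Q.q), 3) := run3 _ _ _
  rw [e4] at this
  have e5 : Q.p - 1 - (j : ℤ) = y1 := by omega
  rw [e5] at this
  simpa using this

/-- two real ends, the first one on a west side -/
lemma pair_zero {x y : (ℤ × ℤ) × ZMod 4} (hx : Q.Real x) (hy : Q.Real y) (hxy : x ≠ y)
    (hp : CPath {t | t ∈ Q.A} x.1 y.1) (h0 : x.2 = 0) : Q.Ch x y ∨ Q.Ch y x := by
  obtain ⟨⟨x1, x2⟩, d⟩ := x
  obtain ⟨⟨y1, y2⟩, d'⟩ := y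
  simp only at h0
  subst h0
  obtain ⟨rfl, a1, a2, a3, a4, a5⟩ := real0 hx
  rcases Xr249.Reg.d4 d' with rfl | rfl | rfl | rfl
  · -- west
    obtain ⟨rfl, -, -, -, -, -⟩ := real0 hy
    rcases lt_trichotomy x2 y2 with h | h | h
    · exact Or.inl (pair00 hx hy h)
    · exact absurd (by rw [h]) hxy
    · exact Or.inr (pair00 hy hx h)
  · -- north
    obtain ⟨rfl, b1, b2, -, -, -⟩ := real1 hy
    by_cases h : Q.q ≤ x2
    · by_cases hP : Q.P true false = true
      · exact Or.inr (pair10 hx hy h hP)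
      · exfalso
        rw [Bool.not_eq_true] at hP
        have e1 : decide (Q.q ≤ x2) = true := by simpa using h
        rw [e1] at a1 a2
        have hpy : ¬ Q.p ≤ y1 := by
          intro hcon
          have e2 : decide (Q.p ≤ y1) = true := by simpa using hcon
          rw [e2, hP] at b1
          cases b1
        exact hpy ((path_const (j0 := false) hP a2 hp).1 le_rfl)
    · exact Or.inl (pair01 hx hy h)
  · -- east
    exfalso
    obtain ⟨rfl, b1, b2⟩ := real2 hy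
    by_cases h : Q.q ≤ x2
    · have e1 : decide (Q.q ≤ x2) = true := by simpa using h
      rw [e1] at a1 a2
      by_cases h' : Q.q ≤ y2
      · have e2 : decide (Q.q ≤ y2) = true := by simpa using h'
        rw [e2, a1] at b2
        cases b2
      · have e2 : decide (Q.q ≤ y2) = false := by simpa using h'
        rw [e2] at b1 b2
        have := (path_const (j0 := false) b2 a2 hp).1 le_rfl
        simp only at this
        omega
    · have e1 : decide (Q.q ≤ x2) = false := by simpa using h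
      rw [e1] at a1 a2
      by_cases h' : Q.q ≤ y2
      · have e2 : decide (Q.q ≤ y2) = true := by simpa using h'
        rw [e2] at b1 b2
        have := (path_const (j0 := true) b2 a2 hp).1 le_rfl
        simp only at this
        omega
      · have e2 : decide (Q.q ≤ y2) = false := by simpa using h'
        rw [e2, a1] at b2
        cases b2
  · -- south
    obtain ⟨rfl, b1, b2, -, -, -⟩ := real3 hy
    by_cases h : Q.q ≤ x2
    · exact Or.inr (pair30 hx hy h)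
    · by_cases hP : Q.P true true = true
      · exact Or.inl (pair03 hx hy h hP)
      · exfalso
        rw [Bool.not_eq_true] at hP
        have e1 : decide (Q.q ≤ x2) = false := by simpa using h
        rw [e1] at a1 a2
        have hpy : ¬ Q.p ≤ y1 := by
          intro hcon
          have e2 : decide (Q.p ≤ y1) = true := by simpa using hcon
          rw [e2, hP] at b1
          cases b1
        exact hpy ((path_const (j0 := true) hP a2 hp).1 le_rfl)

/-- **two different real ends of the same component** -/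
theorem pair {x y : (ℤ × ℤ) × ZMod 4} (hx : Q.Real x) (hy : Q.Real y) (hxy : x ≠ y)
    (hp : CPath {t | t ∈ Q.A} x.1 y.1) : Q.Ch x y ∨ Q.Ch y x := by
  have step : ∀ {Q : Quad} {x y : (ℤ × ℤ) × ZMod 4} (d : ZMod 4),
      (∀ {Q : Quad} {x y : (ℤ × ℤ) × ZMod 4}, Q.Real x → Q.Real y → x ≠ y →
        CPath {t | t ∈ Q.A} x.1 y.1 → x.2 = d + 1 → Q.Ch x y ∨ Q.Ch y x) →
      Q.Real x → Q.Real y → x ≠ y → CPath {t | t ∈ Q.A} x.1 y.1 → x.2 = d →
      Q.Ch x y ∨ Q.Ch y x := by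
    intro Q x y d ih hx hy hxy hp hd
    have h1 := ih (Q := Q.rt) (x := rp x) (y := rp y) (rt_real.2 hx) (rt_real.2 hy)
      (fun h => hxy (by rw [← rpi_rp x, h, rpi_rp])) (rt_path hp) (by simp only [rp, hd])
    exact h1.imp rt_ch rt_ch
  have e0 : (3 : ZMod 4) + 1 = 0 := by decide
  have e3 : (2 : ZMod 4) + 1 = 3 := by decide
  have e2 : (1 : ZMod 4) + 1 = 2 := by decide
  have s3 : ∀ {Q : Quad} {x y : (ℤ × ℤ) × ZMod 4}, Q.Real x → Q.Real y → x ≠ y →
        CPath {t | t ∈ Q.A} x.1 y.1 → x.2 = 3 → Q.Ch x y ∨ Q.Ch y x := fun hx hy hxy hp hd =>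
    step 3 (fun hx hy hxy hp h => pair_zero hx hy hxy hp (h.trans e0)) hx hy hxy hp hd
  have s2 : ∀ {Q : Quad} {x y : (ℤ × ℤ) × ZMod 4}, Q.Real x → Q.Real y → x ≠ y →
        CPath {t | t ∈ Q.A} x.1 y.1 → x.2 = 2 → Q.Ch x y ∨ Q.Ch y x := fun hx hy hxy hp hd =>
    step 2 (fun hx hy hxy hp h => s3 hx hy hxy hp (h.trans e3)) hx hy hxy hp hd
  have s1 : ∀ {Q : Quad} {x y : (ℤ × ℤ) × ZMod 4}, Q.Real x → Q.Real y → x ≠ y →
        CPath {t | t ∈ Q.A} x.1 y.1 → x.2 = 1 → Q.Ch x y ∨ Q.Ch y x := fun hx hy hxy hp hd =>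
    step 1 (fun hx hy hxy hp h => s2 hx hy hxy hp (h.trans e2)) hx hy hxy hp hd
  rcases Xr249.Reg.d4 x.2 with h | h | h | h
  · exact pair_zero hx hy hxy hp h
  · exact s1 hx hy hxy hp h
  · exact s2 hx hy hxy hp h
  · exact s3 hx hy hxy hp h

/-- a strand stays in its component -/
lemma wk_path {A : Finset (ℤ × ℤ)} {s : ℤ × ℤ → Bool} {x y : (ℤ × ℤ) × ZMod 4}
    {k : List ((ℤ × ℤ) × ZMod 4)} (hx : x.1 ∈ A) (h : Wk s (RG (full A)) x y k) :
    CPath {t | t ∈ A} x.1 y.1 := by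
  have := (wk_comp h (v := x.1) (mem_comp.2 ⟨hx, .refl⟩)).2
  exact (mem_comp.1 this).2

/-- **a strand of the region joining two real ends**: up to exchanging the ends, there is a
clockwise chain `x → y` of real ends of turning `D`; the turning of the strand is `D - 2` and the
ends under it are joined among themselves -/
theorem arc {s : ℤ × ℤ → Bool} {x y : (ℤ × ℤ) × ZMod 4} {k : List ((ℤ × ℤ) × ZMod 4)}
    (hx : Q.Real x) (hy : Q.Real y) (hw : Wk s (RG (full Q.A)) x y k) (hxy : x ≠ y) :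
    (∃ D l, CwR (full Q.A).gl x y D l ∧ (∀ z ∈ l, Q.Real z) ∧ x ∉ l ∧ Q.Typ x y D ∧
      tt s k = D - 2 ∧ ∀ z ∈ l.dropLast, ∃ z' ∈ l.dropLast, ∃ k',
        Wk s (RG (full Q.A)) z z' k') ∨
    (∃ D l, CwR (full Q.A).gl y x D l ∧ (∀ z ∈ l, Q.Real z) ∧ y ∉ l ∧ Q.Typ y x D ∧
      tt s k = - (D - 2) ∧ ∀ z ∈ l.dropLast, ∃ z' ∈ l.dropLast, ∃ k',
        Wk s (RG (full Q.A)) z z' k') := by
  have key : ∀ {x y : (ℤ × ℤ) × ZMod 4} {k : List ((ℤ × ℤ) × ZMod 4)}, Q.Real x → Q.Real y →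
      Wk s (RG (full Q.A)) x y k → x ≠ y → Q.Ch x y →
      ∃ D l, CwR (full Q.A).gl x y D l ∧ (∀ z ∈ l, Q.Real z) ∧ x ∉ l ∧ Q.Typ x y D ∧
      tt s k = D - 2 ∧ ∀ z ∈ l.dropLast, ∃ z' ∈ l.dropLast, ∃ k',
        Wk s (RG (full Q.A)) z z' k' := by
    rintro x y k hx hy hw hxy ⟨D, l, h1, h2, h3, h4, h5⟩
    obtain ⟨h6, h7⟩ := h1.toC h2
    obtain ⟨h8, h9⟩ := full_both Q.hole (Real.ffree Q hx) (Real.ffree Q hy) hw h6 hxy.symm
      (fun h => h3 (List.mem_of_mem_dropLast h))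
    exact ⟨D, l, h1, h4, h3, h5, h8, h9⟩
  rcases pair hx hy hxy (wk_path hx.1 hw) with h | h
  · exact Or.inl (key hx hy hw hxy h)
  · right
    obtain ⟨D, l, h1, h2, h3, h4, h5, h6⟩ := key hy hx
      (hw.reverse (rg_glu (full Q.A)).sym) hxy.symm h
    rw [tt_rv] at h5
    exact ⟨D, l, h1, h2, h3, h4, by linarith, h6⟩

/-- **closed strands of the region** -/
theorem loop {s : ℤ × ℤ → Bool} {k : List ((ℤ × ℤ) × ZMod 4)} (h : Cl s (RG (full Q.A)) k)
    (hP : ∀ p ∈ k, p.1 ∈ Q.A) : tt s k = 4 ∨ tt s k = -4 := full_loop Q.hole h hP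

end Quad

end Crest.Agent.R158.Pt266
end
end

-- ▼ part R158/Pt8_266

/-!
# R158, patches (helper266), file Pt8: strands in the charts of helper470

* `ip c` : port through which the state `c` enters its tile; `dir`, `pass` in terms of `mv`, `trn`
* `quadB`, `mem_quadB` : the quadrant pattern of a chart in a box
* `iter_wk` : iterates of the chart walk = strand of the region
* `real_in`, `real_out`, `free_real` : free ends of the complex = real ends of the pattern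
* `small` : a strand of the complex between free ends that stays in a box is a strand of the
  pattern between real ends, or it crosses a window
* `Rule` : local rule of the phases, gauge on the box
* **`phase`** : phase of a strand between real ends; `phase_loop`
* `val` : values of the strands
-/

set_option autoImplicit false
set_option linter.unusedVariables false
set_option linter.unusedSectionVars false
set_option linter.unusedSimpArgs false

noncomputable section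

namespace Crest.Agent.R158.Pt266

open Crest.Agent.R158.Sw300 (Port thru tn)
open Crest.Agent.R158.Xr249 (full CPath)
open Crest.Agent.R158.Nm211 (St Dir mv dx dy trn nx6 rd opp Hit KK)
open Crest.Agent.R158.Ka470 (Patt View Free en ex sg B1 B3 Cross)
open Crest.Agent.R158.Ad350 (tnet tql seam)

/-! ### dictionary -/

lemma dxy_dir : ∀ d : Dir, dir (ex d) = (dx d, dy d) := by decide

lemma mv_dir (v : ℤ × ℤ) (d : Dir) : mv v d = v + dir (ex d) := by
  rw [dxy_dir]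
  simp only [mv, Int.cast_id]
  rfl

lemma ex_surj : ∀ a : ZMod 4, ∃ d : Dir, ex d = a := by decide

lemma en_ex (d : Dir) : en d = ex d + 2 := by revert d; decide


/-- port through which the state enters its tile -/
def ip (c : St ℤ) : (ℤ × ℤ) × ZMod 4 := (c.1, en c.2)

lemma ip_inj {c c' : St ℤ} (h : ip c = ip c') : c = c' := by
  have h1 := congrArg Prod.fst h
  have h2 := congrArg Prod.snd h
  exact Prod.ext h1 (Ka470.en_inj h2)


variable {T : Type*} {G : T × ZMod 4 → T × ZMod 4 → Prop} {C : Ka470.Ch T G}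

/-- port out of a tile of the chart -/
def op (C : Ka470.Ch T G) (s : T → Bool) (c : St ℤ) : (ℤ × ℤ) × ZMod 4 := (c.1, ex (C.f s c).2)

lemma pass_ip (hF : ∀ v, C.F v = false) (s : T → Bool) (c : St ℤ) :
    pass (s ∘ C.emb) (ip c) = op C s c := by
  have h := Ka470.thru_sg (C.F c.1) (s (C.emb c.1)) c.2
  rw [hF] at h
  simp only [Ka470.sg, Bool.false_eq_true, if_false] at h
  simp only [pass, ip, op, Function.comp]
  rw [h, C.f_eq]
  simp only [Ka470.Ch.Fn, hF]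

lemma ip_next (s : T → Bool) (c : St ℤ) :
    ip (C.f s c) = ((op C s c).1 + dir (op C s c).2, (op C s c).2 + 2) := by
  have h : (C.f s c).1 = mv c.1 (C.f s c).2 := rfl
  simp only [ip, op]
  rw [h, mv_dir, en_ex]

lemma pe_ip (hF : ∀ v, C.F v = false) (c : St ℤ) : C.pe c = mp C.emb (ip c) := by
  simp only [Ka470.Ch.pe, mp, ip, hF, Ka470.sg, Bool.false_eq_true, if_false]

lemma pt_mp (hF : ∀ v, C.F v = false) (v : ℤ × ℤ) (a : ZMod 4) :
    C.pt v a = mp C.emb (v, a) := by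
  simp only [Ka470.Ch.pt, mp, hF, Ka470.sg, Bool.false_eq_true, if_false]

/-- glueing inside the chart -/
lemma chart_glue (hF : ∀ v, C.F v = false) {v : ℤ × ℤ} {a : ZMod 4} (hv : v ∈ C.R)
    (hv' : v + dir a ∈ C.R) : G (mp C.emb (v, a)) (mp C.emb (v + dir a, a + 2)) := by
  obtain ⟨d, rfl⟩ := ex_surj a
  have h := C.glue v hv d (by rw [mv_dir]; exact hv')
  rw [mv_dir, hF, hF, en_ex] at h
  exact h

/-! ### patterns of charts -/

/-- quadrant pattern in the box `[x1, x2) × [z1, z2)` -/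
def quadB (x1 x2 z1 z2 : ℤ) (p : ℤ × ℤ) (pat : Bool → Bool → Bool) : Quad :=
  ⟨x1, x2, z1, z2, p.1, p.2, pat⟩

variable {x1 x2 z1 z2 : ℤ} {p : ℤ × ℤ} {pat : Bool → Bool → Bool} {s : T → Bool}

lemma bx_quadB {v : ℤ × ℤ} : (quadB x1 x2 z1 z2 p pat).Bx v ↔ v ∈ Ka470.Bx x1 x2 z1 z2 := Iff.rfl

lemma mem_quadB (hP : Patt C.R (Ka470.Bx x1 x2 z1 z2) p pat) {v : ℤ × ℤ} :
    v ∈ (quadB x1 x2 z1 z2 p pat).A ↔ v ∈ C.R ∧ v ∈ Ka470.Bx x1 x2 z1 z2 := by
  rw [Quad.mem_A, bx_quadB]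
  constructor
  · rintro ⟨h1, h2⟩
    exact ⟨(hP v h1).2 h2, h1⟩
  · rintro ⟨h1, h2⟩
    exact ⟨h2, (hP v h2).1 h1⟩

/-- **iterates of the chart walk are strands of the region** -/
lemma iter_wk (hF : ∀ v, C.F v = false) {A : Finset (ℤ × ℤ)} (s : T → Bool) (c : St ℤ) :
    ∀ m, (∀ j ≤ m, ((C.f s)^[j] c).1 ∈ A) →
      Wk (s ∘ C.emb) (RG (full A)) (ip c) (op C s ((C.f s)^[m] c))
        ((List.range (m + 1)).map fun j => ip ((C.f s)^[j] c))
  | 0, h => by
    have := Wk.one (s := s ∘ C.emb) (G := RG (full A)) (x := ip c)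
    rw [pass_ip hF] at this
    simpa using this
  | m + 1, h => by
    have ih := iter_wk hF (A := A) s c m fun j hj => h j (by omega)
    have h1 : ip ((C.f s)^[m + 1] c) = ((op C s ((C.f s)^[m] c)).1 +
        dir (op C s ((C.f s)^[m] c)).2, (op C s ((C.f s)^[m] c)).2 + 2) := by
      rw [Function.iterate_succ_apply', ip_next]
    have h2 : ((C.f s)^[m + 1] c).1 = (op C s ((C.f s)^[m] c)).1 +
        dir (op C s ((C.f s)^[m] c)).2 := congrArg Prod.fst h1
    have h3 : RG (full A) (op C s ((C.f s)^[m] c)) (ip ((C.f s)^[m + 1] c)) := by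
      rw [rg_full]
      refine ⟨h m (by omega), ?_, h1⟩
      rw [← h2]
      exact h (m + 1) le_rfl
    have h4 := Wk.snoc ih h3
    rw [pass_ip hF] at h4
    rw [List.range_succ (n := m + 1), List.map_append]
    exact h4

lemma real_in (hF : ∀ v, C.F v = false) (hP : Patt C.R (Ka470.Bx x1 x2 z1 z2) p pat)
    {X : (ℤ × ℤ) × ZMod 4} (h1 : X.1 ∈ C.R) (h2 : X.1 ∈ Ka470.Bx x1 x2 z1 z2)
    (h3 : X.1 + dir X.2 ∈ Ka470.Bx x1 x2 z1 z2) (hfr : Free G (mp C.emb X)) :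
    (quadB x1 x2 z1 z2 p pat).Real X := by
  refine ⟨(mem_quadB hP).2 ⟨h1, h2⟩, bx_quadB.2 h3, fun h4 => ?_⟩
  exact hfr _ (chart_glue hF h1 ((mem_quadB hP).1 h4).1)

/-- free ends seen by the chart -/
lemma free_of_real (hF : ∀ v, C.F v = false) (hP : Patt C.R (Ka470.Bx x1 x2 z1 z2) p pat)
    (hV : View C (Ka470.Bx x1 x2 z1 z2)) {X : (ℤ × ℤ) × ZMod 4}
    (h : (quadB x1 x2 z1 z2 p pat).Real X) : Free G (mp C.emb X) := by
  obtain ⟨h1, h2, h3⟩ := h
  obtain ⟨h4, h5⟩ := (mem_quadB hP).1 h1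
  obtain ⟨X1, a⟩ := X
  obtain ⟨d, rfl⟩ := ex_surj a
  have h6 := hV X1 h4 h5 d (by rw [mv_dir]; exact h2) (by
    rw [mv_dir]
    exact fun h => h3 ((mem_quadB hP).2 ⟨h, h2⟩))
  rwa [pt_mp hF] at h6

/-- a strand between free ends of a region with connected complement has different ends -/
lemma wk_ne {A : Finset (ℤ × ℤ)} (hA : Hole A) {s : ℤ × ℤ → Bool} {x y : (ℤ × ℤ) × ZMod 4}
    {k : List ((ℤ × ℤ) × ZMod 4)} (hx : FFree A x) (hy : FFree A y)
    (hw : Wk s (RG (full A)) x y k) : x ≠ y := by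
  obtain ⟨y', l', h1, h2, h3⟩ := full_end hA s hx
  have h4 : ∀ {y : (ℤ × ℤ) × ZMod 4}, FFree A y → Fr (RG (full A)) y := by
    rintro y ⟨h5, h6⟩ b hb
    rw [rg_full] at hb
    exact h6 hb.2.1
  have h5 := Wk.det (rg_glu (full A)).fn h1 (h4 h2) hw (h4 hy)
  rw [← h5.1]
  exact h3.symm

/-- **small strands**: a strand of the complex between free ends that stays in the box `B3` of a
chart is a strand of the quadrant pattern between real ends, or it crosses a window -/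
theorem small (hF : ∀ v, C.F v = false) {ρ : ℕ} (hρ : 1 ≤ ρ) {o : ℤ × ℤ}
    (hP : Patt C.R (B3 ρ o) p pat) {c : St ℤ} (hc1 : c.1 ∈ B1 ρ o) {m : ℕ}
    (hin : ∀ j ≤ m, ((C.f s)^[j] c).1 ∈ C.R ∧ ((C.f s)^[j] c).1 ∈ B3 ρ o)
    (hx : Free G (C.pe c)) (hy : Free G (C.pt ((C.f s)^[m] c).1 (ex ((C.f s)^[m + 1] c).2))) :
    (∃ d : Dir, ∃ j < m + 1, Cross C s ρ o d ((C.f s)^[j] c)) ∨
    ((quadB (o.1 - ρ) (o.1 + 2 * ρ) (o.2 - ρ) (o.2 + 2 * ρ) p pat).Real (ip c) ∧
      (quadB (o.1 - ρ) (o.1 + 2 * ρ) (o.2 - ρ) (o.2 + 2 * ρ) p pat).Real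
        (op C s ((C.f s)^[m] c)) ∧
      Wk (s ∘ C.emb) (RG (full (quadB (o.1 - ρ) (o.1 + 2 * ρ) (o.2 - ρ) (o.2 + 2 * ρ) p pat).A))
        (ip c) (op C s ((C.f s)^[m] c))
        ((List.range (m + 1)).map fun j => ip ((C.f s)^[j] c))) := by
  by_cases hB : ((C.f s)^[m + 1] c).1 ∈ B3 ρ o
  swap
  · left
    exact Ka470.exists_cross C s hc1 (m := m + 1) (fun j hj => (hin j (by omega)).1)
      (fun j hj => (hin j (by omega)).2) hB
  right
  have h4 : ((C.f s)^[m + 1] c).1 = (op C s ((C.f s)^[m] c)).1 +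
      dir (op C s ((C.f s)^[m] c)).2 := by
    have := congrArg Prod.fst (ip_next (C := C) s ((C.f s)^[m] c))
    rw [Function.iterate_succ_apply']
    exact this
  refine ⟨?_, ?_, ?_⟩
  · refine real_in hF hP (hin 0 (Nat.zero_le _)).1 (hin 0 (Nat.zero_le _)).2 ?_ ?_
    · -- the neighbour of the first tile
      show c.1 + dir (en c.2) ∈ B3 ρ o
      obtain ⟨⟨b1, b2⟩, b3, b4⟩ := hc1
      have hd : ∀ d : ZMod 4, ((-1 ≤ (dir d).1 ∧ (dir d).1 ≤ 1) ∧ -1 ≤ (dir d).2 ∧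
          (dir d).2 ≤ 1) := by
        intro d
        rcases Xr249.Reg.d4 d with rfl | rfl | rfl | rfl <;> decide
      obtain ⟨⟨d1, d2⟩, d3, d4⟩ := hd (en c.2)
      refine ⟨⟨?_, ?_⟩, ?_, ?_⟩ <;> simp only [Prod.fst_add, Prod.snd_add] <;> omega
    · rwa [pe_ip hF] at hx
  · refine real_in hF hP (hin m le_rfl).1 (hin m le_rfl).2 ?_ ?_
    · rw [← h4]; exact hB
    · rw [pt_mp hF, Function.iterate_succ_apply'] at hy
      exact hy
  · refine iter_wk hF s c m fun j hj => ?_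
    exact (mem_quadB hP).2 (hin j hj)

/-! ### phases -/

/-- charge of the gaps of a chain that starts at `x` -/
def cg (q : (ℤ × ℤ) × ZMod 4 → ℤ) (x : (ℤ × ℤ) × ZMod 4) (l : List ((ℤ × ℤ) × ZMod 4)) : ℤ :=
  ((x :: l).dropLast.map q).sum

/-- sign of the copy -/
def sgn (b : Bool) : ℝ := if b then 1 else -1

/-- **local rule of the phases** `Φ` (gauge included) on a pattern; `b = true` : sign `+` -/
def Rule (Q : Quad) (Φ : (ℤ × ℤ) × ZMod 4 → ℝ) (b : Bool) (q : (ℤ × ℤ) × ZMod 4 → ℤ) : Prop :=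
  ∀ x z k, Q.Real x → Q.Real z → NxT (full Q.A).gl (some x) (some z) k →
    Φ z - Φ x = sgn b * (Real.pi / 12 * k + Real.pi / 3 * q x)

lemma rule_chain {Q : Quad} {Φ : (ℤ × ℤ) × ZMod 4 → ℝ} {b : Bool} {q : (ℤ × ℤ) × ZMod 4 → ℤ}
    (hR : Rule Q Φ b q) {x y : (ℤ × ℤ) × ZMod 4} {D : ℤ} {l : List ((ℤ × ℤ) × ZMod 4)}
    (h : CwR (full Q.A).gl x y D l) (hx : Q.Real x) (hl : ∀ z ∈ l, Q.Real z) :
    Φ y - Φ x = sgn b * (Real.pi / 12 * D + Real.pi / 3 * cg q x l) := by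
  induction h with
  | nil x => simp [cg]
  | @cons x z y k D l h1 _ ih =>
    have hz := hl z (List.mem_cons_self ..)
    have h2 := ih hz fun w hw => hl w (List.mem_cons_of_mem _ hw)
    have h3 := hR x z k hx hz h1
    have h4 : cg q x (z :: l) = q x + cg q z l := by
      simp only [cg]
      rw [List.dropLast_cons_of_ne_nil (List.cons_ne_nil _ _), List.map_cons, List.sum_cons]
    rw [h4]
    push_cast
    linear_combination h2 + h3

/-- the three elementary steps -/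
lemma nxT_cases {A : Finset (ℤ × ℤ)} {x z : (ℤ × ℤ) × ZMod 4} {k : ℤ} (hx : FFree A x)
    (h : NxT (full A).gl (some x) (some z) k) :
    (k = 1 ∧ z = (x.1, x.2 + 1) ∧ x.1 + dir (x.2 + 1) ∉ A) ∨
    (k = 0 ∧ z = (x.1 + dir (x.2 + 1), x.2) ∧ x.1 + dir (x.2 + 1) ∈ A ∧
      x.1 + dir (x.2 + 1) + dir x.2 ∉ A) ∨
    (k = -1 ∧ z = (x.1 + dir (x.2 + 1) + dir x.2, x.2 + 3) ∧ x.1 + dir (x.2 + 1) ∈ A ∧
      x.1 + dir (x.2 + 1) + dir x.2 ∈ A) := by
  obtain ⟨t, d⟩ := x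
  obtain ⟨h0, h0'⟩ := hx
  simp only at h0 h0' ⊢
  have hdet : ∀ a b c, (full A).gl a b → (full A).gl a c → b = c := (full A).gl_glue.fn
  by_cases h1 : t + dir (d + 1) ∈ A
  · by_cases h2 : t + dir (d + 1) + dir d ∈ A
    · obtain ⟨e1, e2⟩ := NxT.det hdet h (nx_reflex h0 h1 h2 h0')
      exact Or.inr (Or.inr ⟨e2, Option.some.inj e1, h1, h2⟩)
    · obtain ⟨e1, e2⟩ := NxT.det hdet h (nx_flat h0 h1 h2)
      exact Or.inr (Or.inl ⟨e2, Option.some.inj e1, h1, h2⟩)
  · obtain ⟨e1, e2⟩ := NxT.det hdet h (nx_convex h1)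
    exact Or.inl ⟨e2, Option.some.inj e1, h1⟩

/-- the seams inside a box come from the gauge `g` -/
def Gauge (C : Ka470.Ch T G) (be : Port T → Port T) (ch : Port T → ℝ) (g : ℤ × ℤ → ℝ)
    (A : Finset (ℤ × ℤ)) : Prop :=
  ∀ v ∈ A, ∀ a, v + dir a ∈ A → ch (some (mp C.emb (v, a))) -
    ch (be (some (mp C.emb (v, a)))) = g (v + dir a) - g v

lemma seam_tele {be : Port T → Port T} {ch : Port T → ℝ} {g : ℤ × ℤ → ℝ}
    {A : Finset (ℤ × ℤ)} (hg : Gauge C be ch g A) {s' : ℤ × ℤ → Bool}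
    {x y : (ℤ × ℤ) × ZMod 4} {l : List ((ℤ × ℤ) × ZMod 4)} (hw : Wk s' (RG (full A)) x y l) :
    seam be ch ((l.map (mp C.emb)).map some).tail = g y.1 - g x.1 := by
  induction hw with
  | one => simp [seam, pass]
  | @snoc q r l hw hr ih =>
    rw [rg_full] at hr
    obtain ⟨h1, h2, rfl⟩ := hr
    have hl := hw.ne_nil
    have e1 : (((l ++ [(q.1 + dir q.2, q.2 + 2)]).map (mp C.emb)).map some).tail =
        ((l.map (mp C.emb)).map some).tail ++ [some (mp C.emb (q.1 + dir q.2, q.2 + 2))] := by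
      rw [List.map_append, List.map_append, List.tail_append_of_ne_nil (by simpa using hl)]
      rfl
    have e2 : q.1 + dir q.2 + dir (q.2 + 2) = q.1 := by
      have : dir (q.2 + 2) = - dir q.2 := by
        rcases Xr249.Reg.d4 q.2 with h | h | h | h <;> rw [h] <;> decide
      rw [this]; abel
    have h3 := hg (q.1 + dir q.2) h2 (q.2 + 2) (by rw [e2]; exact h1)
    rw [e2] at h3
    have e3 : ∀ (a b : List (Port T)), seam be ch (a ++ b) = seam be ch a + seam be ch b := by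
      intro a b
      simp [seam]
    rw [e1, e3, ih]
    simp only [seam, List.map_cons, List.map_nil, List.sum_cons, List.sum_nil, pass]
    linarith

/-- phase of a strand of the complex (`Wa_wl` of helper350) -/
def wph (be : Port T → Port T) (ch : Port T → ℝ) (s : T → Bool) (x y : T × ZMod 4)
    (l : List (T × ZMod 4)) : ℝ :=
  -(Real.pi / 12 * (tt s l : ℝ)) + (ch (some y) - ch (some x)) + seam be ch (l.map some).tail

/-- values of the strands -/
def val (b : Bool) (D Q : ℤ) : ℝ :=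
  2 * Real.cos (if b then Real.pi / 6 + Real.pi / 3 * Q
    else Real.pi / 6 - Real.pi / 6 * D - Real.pi / 3 * Q)

lemma cos_val {b : Bool} {D Q : ℤ} {w : ℝ}
    (h : w = -(Real.pi / 12 * ((D : ℝ) - 2)) + sgn b * (Real.pi / 12 * D + Real.pi / 3 * Q)) :
    2 * Real.cos w = val b D Q := by
  rw [h, val]
  congr 2
  cases b
  · simp only [sgn, Bool.false_eq_true, if_false]; ring
  · simp only [sgn, if_true]; ring



end Crest.Agent.R158.Pt266
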