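import Crest.Agent.R158.Ad3_350
import Crest.Agent.R158.Nz5_399
import Crest.Agent.R158.Nz4_399
import Crest.Agent.R158.Pt8_266
import Crest.Agent.R158.Lr4_158
import Crest.Agent.R158.Nz8_399

-- ▼ part R158/Ne1_808
section

/-!
# R158, block Q1d, leaf (E) (helper808), part 1: pointwise bound for a closed network

* `Net.eds C` : cut ends of `C`; `cls_eds` : a strand has two cut ends (arc) or none (loop)
* `Net.cw c` : weight of a strand (`‖z‖ / √3` for arcs, `‖z‖` for loops), `cw_le : cw ≤ 2`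
* `norm_z_eq : ‖z C‖ = √3 ^ (#ends / 2) * ∏ cw`
* `norm_z_bound` : exact counted families (weight at most `a i`), bad strands (weight at most `2`)
-/

set_option autoImplicit false
set_option linter.unusedSectionVars false

noncomputable section

open Finset

namespace Crest.Agent.R158.Ad350.Net

variable {P : Type*} [DecidableEq P] {N : Net P}

/-- cut ends -/
def eds (N : Net P) (C : Finset P) : Finset P := C.filter fun p => N.be p = p

lemma mem_eds {C : Finset P} {p : P} : p ∈ N.eds C ↔ p ∈ C ∧ N.be p = p := by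
  unfold eds; rw [Finset.mem_filter]

/-- the two ends of an arc -/
lemma Strand.eds_arc (h : N.Ok) {x : P} (hx : x ∈ N.V) {n : ℕ} (hs : N.Strand x n)
    (h1 : N.be x = x) (h2 : N.be (N.al (N.g^[n] x)) = N.al (N.g^[n] x)) :
    N.eds (N.cls x) = {x, N.al (N.g^[n] x)} ∧ x ≠ N.al (N.g^[n] x) := by
  have hne : x ≠ N.al (N.g^[n] x) := fun e => it_ne h hx hs.1 n 0 le_rfl (by omega) e.symm
  refine ⟨?_, hne⟩
  ext q
  rw [mem_eds, hs.cls h hx, Finset.mem_union, Finset.mem_insert, Finset.mem_singleton]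
  constructor
  · rintro ⟨hq | hq, hb⟩
    · obtain ⟨i, hi, rfl⟩ := mem_Iw.1 hq
      left
      cases i with
      | zero => rfl
      | succ i =>
        exfalso
        rw [Function.iterate_succ_apply'] at hb
        have e1 : N.be (N.g (N.g^[i] x)) = N.al (N.g^[i] x) :=
          h.be2 _ (h.alV _ (it_mem h hx i))
        rw [e1] at hb
        exact hs.1 i (by omega) hb.symm
    · obtain ⟨i, hi, rfl⟩ := mem_Ow.1 hq
      rcases Nat.lt_or_ge i n with hin | hin
      · exact absurd hb (hs.1 i hin)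
      · obtain rfl : i = n := by omega
        exact Or.inr rfl
  · rintro (rfl | rfl)
    · exact ⟨Or.inl (mem_Iw.2 ⟨0, by omega, rfl⟩), h1⟩
    · exact ⟨Or.inr (mem_Ow.2 ⟨n, le_rfl, rfl⟩), h2⟩

lemma Strand.eds_loop (h : N.Ok) {x : P} (hx : x ∈ N.V) {n : ℕ} (hs : N.Strand x n)
    (h1 : N.be (N.al (N.g^[n] x)) = x) : N.eds (N.cls x) = ∅ := by
  have hyV : N.al (N.g^[n] x) ∈ N.V := h.alV _ (it_mem h hx n)
  have hne : N.al (N.g^[n] x) ≠ x := it_ne h hx hs.1 n 0 le_rfl (by omega)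
  rw [Finset.eq_empty_iff_forall_notMem]
  intro q hq
  rw [mem_eds, hs.cls h hx, Finset.mem_union] at hq
  obtain ⟨hq | hq, hb⟩ := hq
  · obtain ⟨i, hi, rfl⟩ := mem_Iw.1 hq
    cases i with
    | zero =>
      rw [Function.iterate_zero, id] at hb
      apply hne
      calc N.al (N.g^[n] x) = N.be (N.be (N.al (N.g^[n] x))) := (h.be2 _ hyV).symm
        _ = N.be x := by rw [h1]
        _ = x := hb
    | succ i =>
      rw [Function.iterate_succ_apply'] at hb
      have e1 : N.be (N.g (N.g^[i] x)) = N.al (N.g^[i] x) :=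
        h.be2 _ (h.alV _ (it_mem h hx i))
      rw [e1] at hb
      exact hs.1 i (by omega) hb.symm
  · obtain ⟨i, hi, rfl⟩ := mem_Ow.1 hq
    rcases Nat.lt_or_ge i n with hin | hin
    · exact hs.1 i hin hb
    · obtain rfl : i = n := by omega
      exact hne (hb.symm.trans h1)

/-- **a strand is an arc with exactly two cut ends, or a loop without cut ends** -/
theorem cls_eds (h : N.Ok) {p : P} (hp : p ∈ N.V) :
    (N.eds (N.cls p)).card = 2 ∨ N.eds (N.cls p) = ∅ := by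
  obtain ⟨x, hx, n, hs, e⟩ := exists_strand h hp
  rw [e]
  rcases hs.2 with ⟨h1, h2⟩ | ⟨h1, -⟩
  · left
    obtain ⟨e1, e2⟩ := hs.eds_arc h hx h1 h2
    rw [e1, Finset.card_pair e2]
  · exact Or.inr (hs.eds_loop h hx h1)

/-- arcs -/
def ars (N : Net P) (C : Finset P) : Finset (Finset P) :=
  (N.classes C).filter fun c => (N.eds c).Nonempty

/-- weight of a strand -/
def cw (N : Net P) (c : Finset P) : ℝ :=
  if (N.eds c).Nonempty then ‖N.z c‖ / √3 else ‖N.z c‖

lemma cw_nonneg (c : Finset P) : 0 ≤ N.cw c := by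
  unfold cw; split_ifs <;> positivity

lemma cw_arc {c : Finset P} (hc : (N.eds c).Nonempty) : ‖N.z c‖ = √3 * N.cw c := by
  unfold cw
  rw [if_pos hc]
  field_simp

lemma cw_loop {c : Finset P} (hc : ¬ (N.eds c).Nonempty) : ‖N.z c‖ = N.cw c := by
  unfold cw
  rw [if_neg hc]

lemma one_le_s3 : (1 : ℝ) ≤ √3 := by
  rw [Real.one_le_sqrt]; norm_num

lemma cw_le_norm (c : Finset P) : N.cw c ≤ ‖N.z c‖ := by
  unfold cw
  split_ifs
  · exact div_le_self (norm_nonneg _) one_le_s3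
  · exact le_rfl

lemma cw_le (h : N.Ok) {C : Finset P} (hC : N.Cl C) {c : Finset P} (hc : c ∈ N.classes C) :
    N.cw c ≤ 2 := by
  obtain ⟨p, hp, rfl⟩ := Finset.mem_image.1 hc
  exact (cw_le_norm _).trans (norm_cls_le h (hC.sub hp))

/-- number of ends -/
theorem card_eds (h : N.Ok) {C : Finset P} (hC : N.Cl C) :
    (N.eds C).card = 2 * (N.ars C).card := by
  have e1 : N.eds C = (N.classes C).biUnion fun c => N.eds c := by
    ext q
    rw [mem_eds, Finset.mem_biUnion]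
    constructor
    · rintro ⟨hq, hb⟩
      exact ⟨N.cls q, Finset.mem_image_of_mem _ hq, mem_eds.2 ⟨self_mem_cls (hC.sub hq), hb⟩⟩
    · rintro ⟨c, hc, hq⟩
      rw [mem_eds] at hq
      exact ⟨(classes_sub h hC hc).1 hq.1, hq.2⟩
  rw [e1, Finset.card_biUnion, ← Finset.sum_filter_add_sum_filter_not (N.classes C)
    (fun c => (N.eds c).Nonempty)]
  · have s1 : ∑ c ∈ (N.classes C).filter (fun c => (N.eds c).Nonempty), (N.eds c).card =
        ∑ _c ∈ (N.classes C).filter (fun c => (N.eds c).Nonempty), 2 := by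
      refine Finset.sum_congr rfl fun c hc => ?_
      rw [Finset.mem_filter] at hc
      obtain ⟨p, hp, rfl⟩ := Finset.mem_image.1 hc.1
      rcases cls_eds h (hC.sub hp) with k | k
      · exact k
      · rw [k] at hc; exact absurd hc.2 Finset.not_nonempty_empty
    have s2 : ∑ c ∈ (N.classes C).filter (fun c => ¬ (N.eds c).Nonempty), (N.eds c).card = 0 := by
      refine Finset.sum_eq_zero fun c hc => ?_
      rw [Finset.mem_filter, Finset.not_nonempty_iff_eq_empty] at hc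
      rw [hc.2, Finset.card_empty]
    rw [s1, s2, Finset.sum_const, smul_eq_mul, add_zero, mul_comm]
    rfl
  · intro c hc d hd hne
    rw [Function.onFun, Finset.disjoint_left]
    intro q hq hq'
    rw [mem_eds] at hq hq'
    obtain ⟨p, hp, rfl⟩ := Finset.mem_image.1 hc
    obtain ⟨p', hp', rfl⟩ := Finset.mem_image.1 hd
    exact Finset.disjoint_left.1 (cls_disj h (hC.sub hp) (hC.sub hp') hne) hq.1 hq'.1

/-- **normal form of the value** -/
theorem norm_z_eq (h : N.Ok) {C : Finset P} (hC : N.Cl C) :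
    ‖N.z C‖ = √3 ^ ((N.eds C).card / 2) * ∏ c ∈ N.classes C, N.cw c := by
  have hcard : (N.eds C).card / 2 = (N.ars C).card := by
    rw [card_eds h hC]; omega
  rw [hcard, z_classes h hC, norm_prod,
    ← Finset.prod_filter_mul_prod_filter_not (N.classes C) (fun c => (N.eds c).Nonempty)
      (fun c => ‖N.z c‖),
    ← Finset.prod_filter_mul_prod_filter_not (N.classes C) (fun c => (N.eds c).Nonempty)
      (fun c => N.cw c)]
  have s1 : ∏ c ∈ (N.classes C).filter (fun c => (N.eds c).Nonempty), ‖N.z c‖ =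
      √3 ^ (N.ars C).card *
        ∏ c ∈ (N.classes C).filter (fun c => (N.eds c).Nonempty), N.cw c := by
    unfold ars
    rw [← Finset.prod_const, ← Finset.prod_mul_distrib]
    refine Finset.prod_congr rfl fun c hc => ?_
    rw [Finset.mem_filter] at hc
    exact cw_arc hc.2
  have s2 : ∏ c ∈ (N.classes C).filter (fun c => ¬ (N.eds c).Nonempty), ‖N.z c‖ =
      ∏ c ∈ (N.classes C).filter (fun c => ¬ (N.eds c).Nonempty), N.cw c := by
    refine Finset.prod_congr rfl fun c hc => ?_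
    rw [Finset.mem_filter] at hc
    exact cw_loop hc.2
  rw [s1, s2]
  ring

/-- **pointwise bound** : `S i` = starting ends of the strands counted at the special point `i`,
`B` = bad strands -/
theorem norm_z_bound (h : N.Ok) {C : Finset P} (hC : N.Cl C) {ι : Type*} (I : Finset ι)
    (S : ι → Finset P) (a : ι → ℝ) (ha : ∀ i ∈ I, 0 ≤ a i)
    (hS : ∀ i ∈ I, ∀ x ∈ S i, x ∈ C ∧ N.cw (N.cls x) ≤ a i)
    (hinj : ∀ i ∈ I, ∀ j ∈ I, ∀ x ∈ S i, ∀ y ∈ S j, N.cls x = N.cls y → i = j ∧ x = y)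
    (B : Finset (Finset P))
    (hB : ∀ c ∈ N.classes C, (∀ i ∈ I, ∀ x ∈ S i, N.cls x ≠ c) → c ∉ B → N.cw c ≤ 1) :
    ‖N.z C‖ ≤ √3 ^ ((N.eds C).card / 2) * (∏ i ∈ I, a i ^ (S i).card) * 2 ^ B.card := by
  classical
  rw [norm_z_eq h hC, mul_assoc]
  refine mul_le_mul_of_nonneg_left ?_ (by positivity)
  set Q : Finset (Finset P) := (N.classes C).filter fun c => ∃ i ∈ I, ∃ x ∈ S i, N.cls x = c
    with hQ
  rw [← Finset.prod_filter_mul_prod_filter_not (N.classes C)
    (fun c => ∃ i ∈ I, ∃ x ∈ S i, N.cls x = c)]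
  refine mul_le_mul ?_ ?_ (Finset.prod_nonneg fun _ _ => cw_nonneg _)
    (Finset.prod_nonneg fun i hi => pow_nonneg (ha i hi) _)
  · -- the counted strands
    have e1 : (N.classes C).filter (fun c => ∃ i ∈ I, ∃ x ∈ S i, N.cls x = c) =
        (I.sigma S).image fun y => N.cls y.2 := by
      ext c
      rw [Finset.mem_filter, Finset.mem_image]
      constructor
      · rintro ⟨-, i, hi, x, hx, rfl⟩
        exact ⟨⟨i, x⟩, Finset.mem_sigma.2 ⟨hi, hx⟩, rfl⟩
      · rintro ⟨⟨i, x⟩, hy, rfl⟩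
        obtain ⟨hi, hx⟩ := Finset.mem_sigma.1 hy
        exact ⟨Finset.mem_image_of_mem _ (hS i hi x hx).1, i, hi, x, hx, rfl⟩
    rw [e1, Finset.prod_image]
    · rw [Finset.prod_sigma]
      refine Finset.prod_le_prod (fun i _ => Finset.prod_nonneg fun _ _ => cw_nonneg _)
        fun i hi => ?_
      rw [← Finset.prod_const]
      exact Finset.prod_le_prod (fun _ _ => cw_nonneg _) fun x hx => (hS i hi x hx).2
    · rintro ⟨i, x⟩ hy ⟨j, y⟩ hy' e
      obtain ⟨hi, hx⟩ := Finset.mem_sigma.1 (Finset.mem_coe.1 hy)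
      obtain ⟨hj, hy2⟩ := Finset.mem_sigma.1 (Finset.mem_coe.1 hy')
      obtain ⟨rfl, rfl⟩ := hinj i hi j hj x hx y hy2 e
      rfl
  · -- the other strands
    calc ∏ c ∈ (N.classes C).filter (fun c => ¬ ∃ i ∈ I, ∃ x ∈ S i, N.cls x = c), N.cw c
        ≤ ∏ c ∈ (N.classes C).filter (fun c => ¬ ∃ i ∈ I, ∃ x ∈ S i, N.cls x = c),
            (if c ∈ B then (2 : ℝ) else 1) := by
          refine Finset.prod_le_prod (fun _ _ => cw_nonneg _) fun c hc => ?_
          rw [Finset.mem_filter] at hc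
          split_ifs with hcB
          · exact cw_le h hC hc.1
          · exact hB c hc.1 (fun i hi x hx e => hc.2 ⟨i, hi, x, hx, e⟩) hcB
      _ = 2 ^ (((N.classes C).filter
            (fun c => ¬ ∃ i ∈ I, ∃ x ∈ S i, N.cls x = c)).filter (fun c => c ∈ B)).card := by
          rw [Finset.prod_ite, Finset.prod_const, Finset.prod_const_one, mul_one]
      _ ≤ 2 ^ B.card := by
          refine pow_le_pow_right₀ (by norm_num) (Finset.card_le_card fun c hc => ?_)
          exact (Finset.mem_filter.1 hc).2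

end Crest.Agent.R158.Ad350.Net
end
end

-- ▼ part R158/Ne2_808
section

/-!
# R158, block Q1d, leaf (E) (helper808), part 2: strands counted at a special point

* `Spot` : chart, kind, rotation, position; `Spot.cs` : the states counted by `Kp`
* `kwk_wa`, `wa_wk` : walks of helper470 and walks of the network
* `Spot.cs_eds` : the class of a counted state has two cut ends: the entering port and a port on the
  second side
* `spot_inj` : different counted states of disjoint spots have different classes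
-/

set_option autoImplicit false
set_option linter.unusedSectionVars false

noncomputable section

namespace Crest.Agent.R158.Ne808

open Crest.Agent.R158.Nm211
open Crest.Agent.R158.Nz399
open Crest.Agent.R158.Ka470
open Crest.Agent.R158.Ad350 (Net tnet ports mem_ports mem_ports' tnet_ok)
open Crest.Agent.R158.Sw300 (Port thru)

/-! ### sides of the standard pictures -/

theorem Xk_Dk {k : Kind} {n : ℕ} {c : St ℤ} (h : c ∈ Xk k n) : c ∈ Dk k n := by
  cases k
  · obtain ⟨x, hx, rfl⟩ := Finset.mem_image.1 h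
    rw [Finset.mem_Ico] at hx
    refine mem_Tk.2 ⟨⟨⟨?_, ?_⟩, ?_, ?_⟩, ?_, ?_⟩ <;> simp only <;> omega
  · obtain ⟨x, hx, rfl⟩ := Finset.mem_image.1 h
    rw [Finset.mem_Ico] at hx
    refine mem_Tk.2 ⟨⟨⟨?_, ?_⟩, ?_, ?_⟩, Or.inl ?_⟩ <;> simp only <;> omega
  · obtain ⟨x, hx, rfl⟩ := Finset.mem_image.1 h
    rw [Finset.mem_Ico] at hx
    refine mem_Tk.2 ⟨⟨⟨?_, ?_⟩, ?_, ?_⟩, ?_⟩ <;> simp only [qd] <;> omega

theorem Xk_Yk {k : Kind} {n : ℕ} {c : St ℤ} (h : c ∈ Xk k n) : c ∉ Yk k := by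
  intro hy
  cases k
  · obtain ⟨x, hx, rfl⟩ := Finset.mem_image.1 h
    rw [Finset.mem_Ico] at hx
    have hy' : x < 0 := hy
    omega
  · obtain ⟨x, hx, rfl⟩ := Finset.mem_image.1 h
    have hy' : (0 : ℤ) < 0 := hy.1
    omega
  · obtain ⟨x, hx, rfl⟩ := Finset.mem_image.1 h
    rw [Finset.mem_Ico] at hx
    have hy' : x < 0 := hy.1
    omega

/-- the exit side of a counted strand is not an entering side -/
theorem side_std {k : Kind} {n : ℕ} {c c' c'' : St ℤ} (hc : c ∈ Dk k n)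
    (hs : c'.1 = mv c.1 c'.2) (hy : c' ∈ Yk k) (hx : c'' ∈ Xk k n) :
    ¬ (c''.1 = c.1 ∧ c''.2 = opp c'.2) := by
  rintro ⟨h1, h2⟩
  have hs1 : c'.1.1 = c.1.1 + dx c'.2 := by rw [hs]; simp [mv]
  have hs2 : c'.1.2 = c.1.2 + dy c'.2 := by rw [hs]; simp [mv]
  obtain ⟨-, hq⟩ := mem_Tk.1 hc
  cases k
  · obtain ⟨x, hx2, rfl⟩ := Finset.mem_image.1 hx
    have hy' : c'.1.1 < 0 := hy
    have hq' : 0 ≤ c.1.1 ∧ 0 ≤ c.1.2 := hq
    rcases dxy c'.2 with ⟨hd, h3, h4⟩ | ⟨hd, h3, h4⟩ | ⟨hd, h3, h4⟩ | ⟨hd, h3, h4⟩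
    · omega
    · omega
    · omega
    · rw [hd] at h2
      have h5 : (0 : Dir) = opp 3 := h2
      exact absurd h5 (by decide)
  · obtain ⟨x, hx2, rfl⟩ := Finset.mem_image.1 hx
    have hy' : c'.2 = 2 := hy.2.2
    rw [hy'] at h2
    have h5 : (1 : Dir) = opp 2 := h2
    exact absurd h5 (by decide)
  · obtain ⟨x, hx2, rfl⟩ := Finset.mem_image.1 hx
    rw [Finset.mem_Ico] at hx2
    have hy1 : c'.1.1 < 0 := hy.1
    have hy2 : c'.1.2 < 0 := hy.2
    have hq' : 0 ≤ c.1.2 := hq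
    have h5 : x = c.1.1 := congrArg Prod.fst h1
    rcases dxy c'.2 with ⟨hd, h3, h4⟩ | ⟨hd, h3, h4⟩ | ⟨hd, h3, h4⟩ | ⟨hd, h3, h4⟩ <;> omega

/-! ### rotations -/

theorem opp_add (d : Dir) : opp (d + 3) = opp d + 3 := by fin_cases d <;> rfl

theorem rs_step {c c' : St ℤ} : (rs c').1 = mv (rs c).1 (rs c').2 ↔ c'.1 = mv c.1 c'.2 := by
  show rt c'.1 = mv (rt c.1) (c'.2 + 3) ↔ _
  rw [mv_rot]
  exact rt_inj.eq_iff

theorem ps_step {g : ℕ} {p : ℤ × ℤ} {c c' : St ℤ} :
    (ps g p c').1 = mv (ps g p c).1 (ps g p c').2 ↔ c'.1 = mv c.1 c'.2 := by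
  have h1 : ∀ (g : ℕ) (c c' : St ℤ),
      (rs^[g] c').1 = mv (rs^[g] c).1 (rs^[g] c').2 ↔ c'.1 = mv c.1 c'.2 := by
    intro g
    induction g with
    | zero => intro c c'; rfl
    | succ g ih =>
      intro c c'
      rw [Function.iterate_succ_apply, Function.iterate_succ_apply, ih, rs_step]
  rw [← h1 g c c']
  show (rs^[g] c').1 + p = mv ((rs^[g] c).1 + p) (rs^[g] c').2 ↔ _
  rw [mv_add]
  exact add_left_inj p

theorem ps_opp {g : ℕ} {p : ℤ × ℤ} {c c' : St ℤ} :
    (ps g p c).2 = opp (ps g p c').2 ↔ c.2 = opp c'.2 := by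
  show (rs^[g] c).2 = opp (rs^[g] c').2 ↔ _
  induction g generalizing c c' with
  | zero => rfl
  | succ g ih =>
    rw [Function.iterate_succ_apply, Function.iterate_succ_apply, ih]
    show c.2 + 3 = opp (c'.2 + 3) ↔ _
    rw [opp_add, add_left_inj]

theorem ps_pos {g : ℕ} {p : ℤ × ℤ} {c c' : St ℤ} : (ps g p c).1 = (ps g p c').1 ↔ c.1 = c'.1 := by
  show (rs^[g] c).1 + p = (rs^[g] c').1 + p ↔ _
  rw [add_left_inj, rs_iter_fst, rs_iter_fst]
  exact (rt_inj.iterate g).eq_iff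

theorem ps_pl (g : ℕ) (p : ℤ × ℤ) (c : St ℤ) : (ps g p c).1 = pl g p c.1 := by
  show (rs^[g] c).1 + p = _
  rw [rs_iter_fst]
  rfl

theorem side_ps {k : Kind} {n g : ℕ} {p : ℤ × ℤ} {c c' c'' : St ℤ} (hc : c ∈ ps g p '' Dk k n)
    (hs : c'.1 = mv c.1 c'.2) (hy : c' ∈ ps g p '' Yk k) (hx : c'' ∈ (Xk k n).image (ps g p)) :
    ¬ (c''.1 = c.1 ∧ c''.2 = opp c'.2) := by
  obtain ⟨c, hc, rfl⟩ := hc
  obtain ⟨c', hy, rfl⟩ := hy
  obtain ⟨c'', hx2, rfl⟩ := Finset.mem_image.1 hx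
  rw [ps_opp, ps_pos]
  exact side_std hc (ps_step.1 hs) hy hx2

/-! ### walks -/

section walks

variable {T : Type*} {G : T × ZMod 4 → T × ZMod 4 → Prop}

/-- iterates inside the region are a walk -/
theorem iter_wk (C : Ch T G) (s : T → Bool) (c : St ℤ) (m : ℕ)
    (hin : ∀ j ≤ m, ((C.f s)^[j] c).1 ∈ C.R) :
    Wk s G (C.pe c) (C.pt ((C.f s)^[m] c).1 (ex ((C.f s)^[m + 1] c).2))
        ((List.range (m + 1)).map (fun j => C.pe ((C.f s)^[j] c))) := by
  induction m with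
  | zero =>
    have := Wk.one (s := s) (G := G) (x := C.pe c)
    rw [C.exit_eq] at this
    simpa using this
  | succ k ih =>
    have h1 := ih fun j hj => hin j (by omega)
    have h2 := C.glue_next s (c := (C.f s)^[k] c) (hin k (by omega)) (by
      rw [← Function.iterate_succ_apply' (C.f s)]; exact hin (k + 1) le_rfl)
    rw [← Function.iterate_succ_apply' (C.f s)] at h2
    have h3 := Wk.snoc h1 h2
    rw [C.exit_eq, ← Function.iterate_succ_apply' (C.f s)] at h3
    rw [List.range_succ (n := k + 1), List.map_append]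
    exact h3

variable [DecidableEq T]

/-- walks of helper470 are walks of the network -/
theorem kwk_wa {A : Finset T} {s : T → Bool} {be : Port T → Port T} {ch : Port T → ℝ}
    (hG : ∀ a b, G a b → be (some a) = some b ∧ a ≠ b)
    {x y : T × ZMod 4} {l : List (T × ZMod 4)} (w : Wk s G x y l) :
    (tnet A s be ch).Wa (some x) (some y) (l.map some) := by
  induction w with
  | one => exact Net.Wa.one _
  | @snoc q r l w hg ih =>
    obtain ⟨h1, h2⟩ := hG q r hg
    rw [List.map_append, List.map_singleton]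
    have := Net.Wa.snoc ih (by
      show be (some q) ≠ some q
      rw [h1]
      exact fun e => h2 (Option.some.inj e).symm)
    have e : (tnet A s be ch).be (some q) = some r := h1
    rw [e] at this
    exact this

/-- walks of the network are walks of helper470 -/
theorem wa_wk {A : Finset T} {s : T → Bool} {be : Port T → Port T} {ch : Port T → ℝ}
    (hb : ∀ p ∈ ports A, be p ∈ ports A)
    (hG : ∀ a b : T × ZMod 4, a.1 ∈ A → be (some a) = some b → a ≠ b → G a b)
    {x y : Port T} {l : List (Port T)} (w : (tnet A s be ch).Wa x y l) (hx : x ∈ ports A) :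
    ∃ x' y' l', x = some x' ∧ y = some y' ∧ l = l'.map some ∧ x'.1 ∈ A ∧ y'.1 ∈ A ∧
      Wk s G x' y' l' := by
  induction w with
  | one =>
    obtain ⟨t, d, rfl, ht⟩ := mem_ports' hx
    exact ⟨(t, d), _, [(t, d)], rfl, rfl, rfl, ht, ht, Wk.one⟩
  | @snoc q l w hne ih =>
    obtain ⟨x', q', l', rfl, rfl, rfl, hx', hq', w'⟩ := ih
    have hm : be (some q') ∈ ports A := hb _ (mem_ports.2 hq')
    obtain ⟨t, d, hr, ht⟩ := mem_ports' hm
    have hr' : (tnet A s be ch).be (some q') = some (t, d) := hr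
    have hg : G q' (t, d) := hG q' (t, d) hq' hr fun e => hne (by rw [hr', e])
    refine ⟨x', (t, thru (s t) d), l' ++ [(t, d)], rfl, ?_, ?_, hx', ht, Wk.snoc w' hg⟩
    · rw [hr']; rfl
    · rw [List.map_append, hr']; rfl

end walks

/-! ### ends of the class of a walk -/

theorem wa_eds {P : Type*} [DecidableEq P] {N : Net P} (h : N.Ok) {x y : P} (hx : x ∈ N.V)
    {l : List P} (w : N.Wa x y l) (h1 : N.be x = x) (h2 : N.be y = y) :
    N.eds (N.cls x) = {x, y} := by
  obtain ⟨n, -, rfl, h3⟩ := w.data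
  exact (Net.Strand.eds_arc h hx (n := n) ⟨h3, Or.inl ⟨h1, h2⟩⟩ h1 h2).1

/-! ### special points -/

/-- special point: chart, kind, number of quarter turns, position -/
structure Spot (ι : Type*) where
  i : ι
  k : Kind
  g : ℕ
  p : ℤ × ℤ

namespace Spot

variable {ι T : Type*} {G : T × ZMod 4 → T × ZMod 4 → Prop}

instance : DecidableEq (Spot ι) := Classical.decEq _

/-- entering states -/
def X (v : Spot ι) (n : ℕ) : Finset (St ℤ) := (Xk v.k n).image (ps v.g v.p)

/-- states of the box -/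
def D (v : Spot ι) (n : ℕ) : Set (St ℤ) := ps v.g v.p '' Dk v.k n

/-- states behind the second side -/
def Y (v : Spot ι) : Set (St ℤ) := ps v.g v.p '' Yk v.k

/-- counted states -/
def cs (C : ι → Ch T G) (v : Spot ι) (n : ℕ) (s : T → Bool) : Finset (St ℤ) := by
  classical exact (v.X n).filter fun c => Hit ((C v.i).f s) (v.D n) v.Y c

/-- the count -/
def K (C : ι → Ch T G) (v : Spot ι) (n : ℕ) (s : T → Bool) : ℕ :=
  Kp v.k v.g v.p n (rd (C v.i).emb (C v.i).Fn s)

theorem card_cs (C : ι → Ch T G) (v : Spot ι) (n : ℕ) (s : T → Bool) :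
    (v.cs C n s).card = v.K C n s := by
  classical
  unfold cs K Kp KK
  congr

theorem mem_cs {C : ι → Ch T G} {v : Spot ι} {n : ℕ} {s : T → Bool} {c : St ℤ} :
    c ∈ v.cs C n s ↔ c ∈ v.X n ∧ Hit ((C v.i).f s) (v.D n) v.Y c := by
  classical
  unfold cs
  rw [Finset.mem_filter]

/-- tiles of the box -/
def sup [DecidableEq T] (C : ι → Ch T G) (v : Spot ι) (n : ℕ) : Finset T :=
  (Tk v.k n).image fun u => (C v.i).emb (pl v.g v.p u)

theorem X_D {v : Spot ι} {n : ℕ} {c : St ℤ} (h : c ∈ v.X n) : c ∈ v.D n := by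
  obtain ⟨c, hc, rfl⟩ := Finset.mem_image.1 h
  exact ⟨c, Xk_Dk hc, rfl⟩

theorem D_sup [DecidableEq T] {C : ι → Ch T G} {v : Spot ι} {n : ℕ} {c : St ℤ} (h : c ∈ v.D n) :
    (C v.i).emb c.1 ∈ v.sup C n := by
  obtain ⟨c, hc, rfl⟩ := h
  rw [ps_pl]
  exact Finset.mem_image_of_mem _ hc

/-- a counted strand leaves the box through the second side -/
theorem cs_exit {C : ι → Ch T G} {v : Spot ι} {n : ℕ} {s : T → Bool} {c : St ℤ}
    (h : c ∈ v.cs C n s) : ∃ m, (∀ j ≤ m, ((C v.i).f s)^[j] c ∈ v.D n) ∧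
      ((C v.i).f s)^[m + 1] c ∈ v.Y := by
  obtain ⟨hx, n', h1, h2⟩ := mem_cs.1 h
  have hn : n' ≠ 0 := by
    rintro rfl
    obtain ⟨c0, hc0, rfl⟩ := Finset.mem_image.1 hx
    obtain ⟨c1, hc1, e⟩ := h2
    have := ps_inj _ _ e
    subst this
    exact Xk_Yk hc0 hc1
  obtain ⟨m, rfl⟩ := Nat.exists_eq_succ_of_ne_zero hn
  exact ⟨m, fun j hj => h1 j (by omega), h2⟩

/-- the spot is completely seen: its tiles belong to the chart, the ports of both sides are free -/
structure Seen (C : ι → Ch T G) (be : Port T → Port T) (v : Spot ι) (n : ℕ) : Prop where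
  mem : ∀ c ∈ v.D n, c.1 ∈ (C v.i).R
  first : ∀ c ∈ v.X n, be (some ((C v.i).pe c)) = some ((C v.i).pe c)
  second : ∀ c ∈ v.D n, ∀ c' ∈ v.Y, c'.1 = mv c.1 c'.2 →
    be (some ((C v.i).pt c.1 (ex c'.2))) = some ((C v.i).pt c.1 (ex c'.2))

variable [DecidableEq T] {C : ι → Ch T G} {A : Finset T} {be : Port T → Port T}
  {ch : Port T → ℝ} {s : T → Bool} {n : ℕ}

theorem pe_inj {v : Spot ι} (hv : v.Seen C be n) {c c' : St ℤ} (hc : c ∈ v.X n)
    (hc' : c' ∈ v.X n) (e : (C v.i).pe c = (C v.i).pe c') : c = c' :=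
  (C v.i).pe_inj (hv.mem c (X_D hc)) (hv.mem c' (X_D hc')) e

/-- **the class of a counted state** -/
theorem cs_eds (hN : (tnet A s be ch).Ok) (hG : ∀ a b, G a b → be (some a) = some b ∧ a ≠ b)
    (hA : ∀ i, ∀ u ∈ (C i).R, (C i).emb u ∈ A) {v : Spot ι} (hv : v.Seen C be n) {c : St ℤ}
    (hc : c ∈ v.cs C n s) : ∃ y : T × ZMod 4, y.1 ∈ v.sup C n ∧
      (∀ c' ∈ v.X n, (C v.i).pe c' ≠ y) ∧ some ((C v.i).pe c) ∈ ports A ∧
      (tnet A s be ch).eds ((tnet A s be ch).cls (some ((C v.i).pe c))) =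
        {some ((C v.i).pe c), some y} ∧
      ∃ l, Wk s G ((C v.i).pe c) y l ∧ ∃ m, l = (List.range (m + 1)).map
        (fun j => (C v.i).pe (((C v.i).f s)^[j] c)) ∧
        ∀ j ≤ m, ((C v.i).f s)^[j] c ∈ v.D n := by
  obtain ⟨m, h1, h2⟩ := cs_exit hc
  have hX := (mem_cs.1 hc).1
  have hR : ∀ j ≤ m, (((C v.i).f s)^[j] c).1 ∈ (C v.i).R := fun j hj => hv.mem _ (h1 j hj)
  have hstep : (((C v.i).f s)^[m + 1] c).1 =
      mv (((C v.i).f s)^[m] c).1 (((C v.i).f s)^[m + 1] c).2 := by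
    rw [Function.iterate_succ_apply']
    rfl
  have hw := iter_wk (C v.i) s c m hR
  have hb2 := hv.second _ (h1 m le_rfl) _ h2 hstep
  have hport : some ((C v.i).pe c) ∈ ports A := by
    show some ((C v.i).emb c.1, _) ∈ ports A
    exact mem_ports.2 (hA _ _ (hv.mem _ (X_D hX)))
  refine ⟨_, D_sup (h1 m le_rfl), fun c' hc' e => ?_, hport, ?_, _, hw, m, rfl, h1⟩
  · have e' : (C v.i).pt c'.1 (en c'.2) =
      (C v.i).pt (((C v.i).f s)^[m] c).1 (ex (((C v.i).f s)^[m + 1] c).2) := e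
    simp only [Ch.pt, Prod.mk.injEq] at e'
    have e1 := (C v.i).inj (hv.mem _ (X_D hc')) (hv.mem _ (h1 m le_rfl)) e'.1
    have e2 := e'.2
    rw [e1] at e2
    have e3 := sg_inj _ e2
    refine side_ps (h1 m le_rfl) hstep h2 hc' ⟨e1, ?_⟩
    rw [← ex_en] at e3
    have e4 := ex_inj e3
    rw [← e4]
    generalize c'.2 = d
    fin_cases d <;> rfl
  · exact wa_eds hN hport (kwk_wa hG hw) (hv.first c hX) hb2

/-- **different counted states of disjoint spots have different classes** -/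
theorem spot_inj (hN : (tnet A s be ch).Ok) (hG : ∀ a b, G a b → be (some a) = some b ∧ a ≠ b)
    (hA : ∀ i, ∀ u ∈ (C i).R, (C i).emb u ∈ A) {v v' : Spot ι} (hv : v.Seen C be n)
    (hv' : v'.Seen C be n) (hd : v ≠ v' → Disjoint (v.sup C n) (v'.sup C n)) {c c' : St ℤ}
    (hc : c ∈ v.cs C n s) (hc' : c' ∈ v'.cs C n s)
    (e : (tnet A s be ch).cls (some ((C v.i).pe c)) =
      (tnet A s be ch).cls (some ((C v'.i).pe c'))) :
    v = v' ∧ some ((C v.i).pe c) = some ((C v'.i).pe c') := by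
  obtain ⟨y, hy1, hy2, hy3, hy4, -⟩ := cs_eds (ch := ch) hN hG hA hv hc
  obtain ⟨y', hy1', hy2', hy3', hy4', -⟩ := cs_eds (ch := ch) hN hG hA hv' hc'
  have h1 : some ((C v'.i).pe c') ∈ ({some ((C v.i).pe c), some y} : Finset (Port T)) := by
    rw [← hy4, e, hy4']
    exact Finset.mem_insert_self _ _
  have hc1 := (mem_cs.1 hc).1
  have hc1' := (mem_cs.1 hc').1
  rw [Finset.mem_insert, Finset.mem_singleton] at h1
  have hs1 : ((C v.i).pe c).1 ∈ v.sup C n := D_sup (X_D hc1)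
  have hs2 : ((C v'.i).pe c').1 ∈ v'.sup C n := D_sup (X_D hc1')
  rcases h1 with h1 | h1
  · refine ⟨?_, h1.symm⟩
    by_contra hne
    have h2 := Option.some.inj h1
    rw [h2] at hs2
    exact Finset.disjoint_left.1 (hd hne) hs1 hs2
  · exfalso
    have h2 := Option.some.inj h1
    by_cases hne : v = v'
    · subst hne
      exact hy2 c' hc1' h2
    · rw [h2] at hs2
      exact Finset.disjoint_left.1 (hd hne) hy1 hs2

/-! ### product over the spots -/

/-- **product bound**: corners counted by `Kp`, bad classes -/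
theorem prod_bound (hN : (tnet A s be ch).Ok)
    (hG : ∀ a b, G a b → be (some a) = some b ∧ a ≠ b)
    (hA : ∀ i, ∀ u ∈ (C i).R, (C i).emb u ∈ A) (I : Finset (Spot ι))
    (hI : ∀ v ∈ I, v.Seen C be n)
    (hd : ∀ v ∈ I, ∀ v' ∈ I, v ≠ v' → Disjoint (v.sup C n) (v'.sup C n))
    (a : Spot ι → ℝ) (ha : ∀ v ∈ I, 0 ≤ a v)
    (h1 : ∀ v ∈ I, ∀ c ∈ v.cs C n s,
      (tnet A s be ch).cw ((tnet A s be ch).cls (some ((C v.i).pe c))) ≤ a v)
    (B : Finset (Finset (Port T)))
    (hB : ∀ c ∈ (tnet A s be ch).classes (ports A),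
      (∀ v ∈ I, ∀ c' ∈ v.cs C n s, (tnet A s be ch).cls (some ((C v.i).pe c')) ≠ c) →
      c ∉ B → (tnet A s be ch).cw c ≤ 1) :
    ‖(tnet A s be ch).z (ports A)‖ ≤
      √3 ^ (((tnet A s be ch).eds (ports A)).card / 2) * (∏ v ∈ I, a v ^ v.K C n s) *
        2 ^ B.card := by
  have key := Net.norm_z_bound hN hN.clV I
    (fun v => (v.cs C n s).image fun c => some ((C v.i).pe c)) a ha
    (fun v hv x hx => by
      obtain ⟨c, hc, rfl⟩ := Finset.mem_image.1 hx
      obtain ⟨y, -, -, hy, -⟩ := cs_eds (ch := ch) hN hG hA (hI v hv) hc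
      exact ⟨hy, h1 v hv c hc⟩)
    (fun v hv v' hv' x hx y hy e => by
      obtain ⟨c, hc, rfl⟩ := Finset.mem_image.1 hx
      obtain ⟨c', hc', rfl⟩ := Finset.mem_image.1 hy
      exact spot_inj (ch := ch) hN hG hA (hI v hv) (hI v' hv') (hd v hv v' hv') hc hc' e)
    B (fun c hc hc' hcB => hB c hc (fun v hv c' hc'' => hc' v hv _
      (Finset.mem_image_of_mem _ hc'')) hcB)
  have hcard : ∀ v ∈ I, ((v.cs C n s).image fun c => some ((C v.i).pe c)).card = v.K C n s := by
    intro v hv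
    rw [Finset.card_image_of_injOn, card_cs]
    intro c hc c' hc' e
    exact pe_inj (hI v hv) (mem_cs.1 (Finset.mem_coe.1 hc)).1 (mem_cs.1 (Finset.mem_coe.1 hc')).1
      (Option.some.inj e)
  rw [Finset.prod_congr rfl fun v hv => by rw [hcard v hv]] at key
  exact key

end Spot

end Crest.Agent.R158.Ne808
end
end

-- ▼ part R158/Ne3_808

/-!
# R158, block Q1d, leaf (E) (helper808), part 3: the strands of the double of a half environment

* `DN` : the network of the double (`dbe`, `dch` of helper399 over `Half.Gd` of helper470)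
* `class_walk` : every class is the set of ports of a walk
* `rule_of`, `gauge_of` : local rule and gauge of helper158 in the form of helper266
* `val` : values
-/

set_option autoImplicit false
set_option linter.unusedSectionVars false
set_option synthInstance.maxSize 1000

noncomputable section

namespace Crest.Agent.R158.Ne808

open Crest.Agent.R158.Nm211
open Crest.Agent.R158.Nz399
open Crest.Agent.R158.Ka470
open Crest.Agent.R158.Ad350 (Net tnet ports mem_ports mem_ports' tnet_ok)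
open Crest.Agent.R158.Sw300 (Port thru)
open Crest.Agent.R158.Env664 (TG)
open Crest.Agent.R158.Lr158 (PhH OpenH Phi gg Cg Stp nxe REnd)
open Crest.Agent.R158.Pt266 (quadB mp dir Rule Gauge CwR NxT val cg sgn wph)
open Crest.Agent.R158.Xr249 (full)

/-! ### values -/

theorem cos_add_pi_mul (x : ℝ) (k : ℤ) : |Real.cos (x + Real.pi * k)| = |Real.cos x| := by
  have h : x + Real.pi * k = x + k * Real.pi := by ring
  rw [h, Real.cos_add_int_mul_pi, abs_mul]
  have : |((-1 : ℝ)) ^ k| = 1 := by rw [abs_zpow]; simp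
  rw [this, one_mul]

theorem val_mod (b : Bool) (D Q : ℤ) : |val b D Q| = |val b D (Q % 3)| := by
  have hQ : (Q : ℝ) = 3 * ((Q / 3 : ℤ) : ℝ) + ((Q % 3 : ℤ) : ℝ) := by
    have h1 := Int.mul_ediv_add_emod Q 3
    have h2 : ((3 * (Q / 3) + Q % 3 : ℤ) : ℝ) = (Q : ℝ) := by rw [h1]
    push_cast at h2 ⊢
    linarith
  unfold val
  rw [abs_mul, abs_mul]
  congr 1
  cases b
  · simp only [Bool.false_eq_true, if_false]
    have e : Real.pi / 6 - Real.pi / 6 * D - Real.pi / 3 * Q =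
        Real.pi / 6 - Real.pi / 6 * D - Real.pi / 3 * ((Q % 3 : ℤ) : ℝ) +
          Real.pi * ((-(Q / 3) : ℤ) : ℝ) := by
      rw [hQ]; push_cast; ring
    rw [e, cos_add_pi_mul]
  · simp only [if_true]
    have e : Real.pi / 6 + Real.pi / 3 * Q =
        Real.pi / 6 + Real.pi / 3 * ((Q % 3 : ℤ) : ℝ) + Real.pi * ((Q / 3 : ℤ) : ℝ) := by
      rw [hQ]; push_cast; ring
    rw [e, cos_add_pi_mul]


theorem emod3 (Q : ℤ) : Q % 3 = 0 ∨ Q % 3 = 1 ∨ Q % 3 = 2 := by omega

theorem val_true {D Q : ℤ} : |val true D Q| ≤ √3 := by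
  rw [val_mod]
  unfold val
  simp only [if_true]
  rcases emod3 Q with h | h | h
  · rw [h]
    have e : Real.pi / 6 + Real.pi / 3 * ((0 : ℤ) : ℝ) = Real.pi / 6 := by push_cast; ring
    rw [e, Real.cos_pi_div_six, abs_of_nonneg (by positivity)]
    linarith
  · rw [h]
    have e : Real.pi / 6 + Real.pi / 3 * ((1 : ℤ) : ℝ) = Real.pi / 2 := by push_cast; ring
    rw [e, Real.cos_pi_div_two]
    simp
  · rw [h]
    have e : Real.pi / 6 + Real.pi / 3 * ((2 : ℤ) : ℝ) = Real.pi - Real.pi / 6 := by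
      push_cast; ring
    rw [e, Real.cos_pi_sub, Real.cos_pi_div_six, abs_mul, abs_neg,
      abs_of_nonneg (a := √3 / 2) (by positivity)]
    norm_num
    linarith

theorem val_true_zero {D Q : ℤ} (h : (Q - 1) % 3 = 0) : val true D Q = 0 := by
  have h' : Q % 3 = 1 := by omega
  rw [← abs_eq_zero, val_mod, h']
  unfold val
  simp only [if_true]
  have e : Real.pi / 6 + Real.pi / 3 * ((1 : ℤ) : ℝ) = Real.pi / 2 := by push_cast; ring
  rw [e, Real.cos_pi_div_two]
  simp

theorem val_false0 {Q : ℤ} : |val false 0 Q| ≤ √3 := by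
  rw [val_mod]
  unfold val
  simp only [Bool.false_eq_true, if_false]
  rcases emod3 Q with h | h | h
  · rw [h]
    have e : Real.pi / 6 - Real.pi / 6 * ((0 : ℤ) : ℝ) - Real.pi / 3 * ((0 : ℤ) : ℝ) =
        Real.pi / 6 := by push_cast; ring
    rw [e, Real.cos_pi_div_six, abs_of_nonneg (by positivity)]
    linarith
  · rw [h]
    have e : Real.pi / 6 - Real.pi / 6 * ((0 : ℤ) : ℝ) - Real.pi / 3 * ((1 : ℤ) : ℝ) =
        -(Real.pi / 6) := by push_cast; ring
    rw [e, Real.cos_neg, Real.cos_pi_div_six, abs_of_nonneg (by positivity)]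
    linarith
  · rw [h]
    have e : Real.pi / 6 - Real.pi / 6 * ((0 : ℤ) : ℝ) - Real.pi / 3 * ((2 : ℤ) : ℝ) =
        -(Real.pi / 2) := by push_cast; ring
    rw [e, Real.cos_neg, Real.cos_pi_div_two]
    simp

theorem val_false0_zero {Q : ℤ} (h : (Q - 2) % 3 = 0) : val false 0 Q = 0 := by
  have h' : Q % 3 = 2 := by omega
  rw [← abs_eq_zero, val_mod, h']
  unfold val
  simp only [Bool.false_eq_true, if_false]
  have e : Real.pi / 6 - Real.pi / 6 * ((0 : ℤ) : ℝ) - Real.pi / 3 * ((2 : ℤ) : ℝ) =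
      -(Real.pi / 2) := by push_cast; ring
  rw [e, Real.cos_neg, Real.cos_pi_div_two]
  simp

theorem val_false_rf : |val false (-1) 0| = 1 := by
  unfold val
  simp only [Bool.false_eq_true, if_false]
  have e : Real.pi / 6 - Real.pi / 6 * ((-1 : ℤ) : ℝ) - Real.pi / 3 * ((0 : ℤ) : ℝ) =
      Real.pi / 3 := by push_cast; ring
  rw [e, Real.cos_pi_div_three]
  norm_num

/-! ### the network of the double -/

/-- the network of the double of a half environment -/
structure DN (A : Half) (T : Finset TG) (be : Port TG → Port TG) (O : Finset (Port TG)) :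
    Prop where
  hT : ∀ t, t ∈ T ↔ A.tH t
  hO : OpenH A O
  hb : ∀ p ∈ ports T \ O, be p ∈ ports T \ O
  hb2 : ∀ p ∈ ports T \ O, be (be p) = p
  gd : ∀ q r : (TG × Bool) × ZMod 4, A.tH q.1.1 →
    (A.Gd q r ↔ dbe be O (some q) = some r ∧ q ≠ r)

/-- the network -/
def nt (T : Finset TG) (be : Port TG → Port TG) (O : Finset (Port TG)) (ch : Port TG → ℝ)
    (s : TG × Bool → Bool) : Net (Port (TG × Bool)) :=
  tnet (T ×ˢ Finset.univ) s (dbe be O) (dch ch O)

section

variable {A : Half} {T : Finset TG} {be : Port TG → Port TG} {O : Finset (Port TG)}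
  {ch : Port TG → ℝ} {s : TG × Bool → Bool}

theorem gd_tH {q r : (TG × Bool) × ZMod 4} (h : A.Gd q r) : A.tH q.1.1 ∧ A.tH r.1.1 := by
  have hc : ∀ t, A.cutT t → A.tH t := by
    intro t ht
    have h1 := A.h1
    rcases t with ⟨x, y⟩ | ⟨x, y⟩
    · have ht' : (A.xl ≤ x ∧ x ≤ A.xr) ∧ y = A.y0 - 1 := ht
      obtain ⟨⟨h1, h2⟩, rfl⟩ := ht'
      have hY := A.hY
      exact A.row x (A.y0 - 1) (by omega) (by omega) h1 h2
    · have ht' : (0 ≤ x ∧ x < A.R) ∧ y = A.y0 - 1 := ht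
      obtain ⟨h2, rfl⟩ := ht'
      exact ⟨h2, by omega, by omega⟩
  cases h with
  | base k h => exact ⟨h.1, h.2.1⟩
  | c1 h => exact ⟨hc _ h, hc _ h⟩
  | c2 h => exact ⟨hc _ h, hc _ h⟩

theorem DN.ok (E : DN A T be O) (ch : Port TG → ℝ) (s : TG × Bool → Bool) :
    (nt T be O ch s).Ok :=
  tnet_ok (dbe_mem E.hb) (dbe_inv E.hb E.hb2)

theorem DN.mem (E : DN A T be O) {t : TG × Bool} :
    t ∈ T ×ˢ (Finset.univ : Finset Bool) ↔ A.tH t.1 := by
  rw [Finset.mem_product, E.hT]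
  simp

theorem DN.g1 (E : DN A T be O) (a b : (TG × Bool) × ZMod 4) (h : A.Gd a b) :
    dbe be O (some a) = some b ∧ a ≠ b := (E.gd a b (gd_tH h).1).1 h

theorem DN.g2 (E : DN A T be O) (a b : (TG × Bool) × ZMod 4)
    (ha : a.1 ∈ T ×ˢ (Finset.univ : Finset Bool)) (h1 : dbe be O (some a) = some b)
    (h2 : a ≠ b) : A.Gd a b := (E.gd a b (E.mem.1 ha)).2 ⟨h1, h2⟩

theorem DN.free (E : DN A T be O) {q : (TG × Bool) × ZMod 4} (hq : A.tH q.1.1) :
    Free A.Gd q ↔ dbe be O (some q) = some q := by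
  constructor
  · intro hf
    have h1 : dbe be O (some q) ∈ ports (T ×ˢ (Finset.univ : Finset Bool)) :=
      dbe_mem E.hb _ (mem_ports.2 (E.mem.2 hq))
    obtain ⟨t, d, h2, ht⟩ := mem_ports' h1
    by_cases h3 : q = (t, d)
    · rw [h2, h3]
    · exact absurd (E.g2 q (t, d) (E.mem.2 hq) h2 h3) (hf _)
  · intro h1 r hr
    obtain ⟨h2, h3⟩ := E.g1 q r hr
    rw [h1] at h2
    exact h3 (Option.some.inj h2)

theorem DN.emb (E : DN A T be O) {ρ : ℕ} (h : A.Sz ρ) (i : Fin 4) :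
    ∀ u ∈ (Half.chf h i).R, (Half.chf h i).emb u ∈ T ×ˢ (Finset.univ : Finset Bool) :=
  fun _ hu => E.mem.2 (Lr158.tH_emb h i hu)

/-! ### classes and walks -/

theorem wa_cn {P : Type*} [DecidableEq P] {N : Net P} {x y : P} {l : List P}
    (w : N.Wa x y l) : N.Cn x y ∧ ∀ p ∈ l, N.Cn x p := by
  induction w with
  | one =>
    refine ⟨Net.Cn.al x, fun p hp => ?_⟩
    rw [List.mem_singleton] at hp
    rw [hp]
    exact Net.Cn.refl x
  | @snoc q l w hne ih =>
    obtain ⟨h1, h2⟩ := ih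
    have h3 : N.Cn x (N.be q) := h1.trans (Net.Cn.be q)
    refine ⟨h3.trans (Net.Cn.al _), fun p hp => ?_⟩
    rw [List.mem_append, List.mem_singleton] at hp
    rcases hp with hp | rfl
    · exact h2 p hp
    · exact h3

/-- **every class is a strand** -/
theorem DN.class_walk (E : DN A T be O) {c : Finset (Port (TG × Bool))}
    (hc : c ∈ (nt T be O ch s).classes (ports (T ×ˢ (Finset.univ : Finset Bool)))) :
    ∃ x y l, A.tH x.1.1 ∧ A.tH y.1.1 ∧ Wk s A.Gd x y l ∧ l.Nodup ∧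
      c = (nt T be O ch s).cls (some x) ∧ (∀ p ∈ l, some p ∈ c) ∧
      ((Free A.Gd x ∧ Free A.Gd y) ∨ A.Gd y x) := by
  have hN := E.ok ch s
  obtain ⟨p, hp, rfl⟩ := Finset.mem_image.1 hc
  obtain ⟨x, hx, y, l, hw, hn, e, hxy⟩ := Net.exists_walk hN (p := p) hp
  obtain ⟨x', y', l', rfl, rfl, rfl, hx', hy', hw'⟩ :=
    wa_wk (dbe_mem E.hb) E.g2 hw hx
  refine ⟨x', y', l', E.mem.1 hx', E.mem.1 hy', hw', ?_, e, ?_, ?_⟩
  · exact (List.nodup_map_iff (Option.some_injective _)).1 hn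
  · intro p hp
    rw [e]
    have h1 := (wa_cn hw).2 (some p) (List.mem_map_of_mem hp)
    exact Net.mem_cls.2 ⟨Net.Cn.mem hN.clV hx h1, h1⟩
  · rcases hxy with ⟨h1, h2⟩ | h1
    · exact Or.inl ⟨(E.free (E.mem.1 hx')).2 h1, (E.free (E.mem.1 hy')).2 h2⟩
    · by_cases h2 : y' = x'
      · subst h2
        exact Or.inl ⟨(E.free (E.mem.1 hx')).2 h1, (E.free (E.mem.1 hx')).2 h1⟩
      · exact Or.inr (E.g2 y' x' hy' h1 h2)

theorem norm_two_cos (x : ℝ) : ‖(2 * (Real.cos x : ℂ) : ℂ)‖ = |2 * Real.cos x| := by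
  rw [norm_mul, Complex.norm_real, abs_mul]
  simp

/-- value of an arc -/
theorem DN.z_arc (E : DN A T be O) {x y : (TG × Bool) × ZMod 4} {l : List ((TG × Bool) × ZMod 4)}
    (hx : A.tH x.1.1) (hy : A.tH y.1.1) (hw : Wk s A.Gd x y l) (fx : Free A.Gd x)
    (fy : Free A.Gd y) : ‖(nt T be O ch s).z ((nt T be O ch s).cls (some x))‖ =
      |2 * Real.cos (wph (dbe be O) (dch ch O) s x y l)| := by
  have hN := E.ok ch s
  have hxp : some x ∈ ports (T ×ˢ (Finset.univ : Finset Bool)) := mem_ports.2 (E.mem.2 hx)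
  have w := kwk_wa (A := T ×ˢ (Finset.univ : Finset Bool)) (ch := dch ch O) E.g1 hw
  have h1 := (E.free hx).1 fx
  have h2 := (E.free hy).1 fy
  have h3 := (Net.z_arc hN (x := some x) hxp w h1 h2).2.2
  have h4 := (Ad350.Wa_wl (dbe_inv E.hb E.hb2) (dbe_mem E.hb) hxp w).2
  rw [h3, norm_two_cos]
  congr 3
  refine h4.trans ?_
  rw [Ad350.tql_tt]
  unfold wph
  ring

/-- value of a loop -/
theorem DN.z_loop (E : DN A T be O) {x y : (TG × Bool) × ZMod 4} {l : List ((TG × Bool) × ZMod 4)}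
    (hx : A.tH x.1.1) (hw : Wk s A.Gd x y l) (hl : l.Nodup) (hg : A.Gd y x) :
    ‖(nt T be O ch s).z ((nt T be O ch s).cls (some x))‖ =
      |2 * Real.cos (wph (dbe be O) (dch ch O) s x y l)| := by
  have hN := E.ok ch s
  have hxp : some x ∈ ports (T ×ˢ (Finset.univ : Finset Bool)) := mem_ports.2 (E.mem.2 hx)
  have w := kwk_wa (A := T ×ˢ (Finset.univ : Finset Bool)) (ch := dch ch O) E.g1 hw
  have h1 := (E.g1 y x hg).1
  have h3 := (Net.z_loop hN (x := some x) hxp w h1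
    ((List.nodup_map_iff (Option.some_injective _)).2 hl)).2
  have h4 := (Ad350.Wa_wl (dbe_inv E.hb E.hb2) (dbe_mem E.hb) hxp w).2
  rw [h3, norm_two_cos]
  congr 3
  refine h4.trans ?_
  rw [Ad350.tql_tt]
  unfold wph
  ring

end

end Crest.Agent.R158.Ne808
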