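import Mathlib
import Crest.Agent.R158.Fl5_440
import Crest.Agent.R158.Mr4_679
import Crest.Agent.R158.Hp11_854
import Crest.Agent.R158.Nm7_211
import Crest.Agent.R158.Hr1_405
import Crest.Agent.R158.Cn1_109
import Crest.Agent.R158.Hr2_440
import Crest.Agent.R158.Zm2_180
import Crest.Agent.R158.Nz8_399
import Crest.Agent.R158.Da1_570
import Crest.Agent.R158.Csh_410
import Crest.Agent.R158.Ne3_808
import Crest.Agent.R158.Zl1_814
import Crest.Agent.R158.Ka10_470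
import Crest.Agent.R158.Lr6_158

-- ▼ part R158/Hp12_854
section

/-!
# R158, block HP1 (helper854), part 12: interface with the analytic part

`HP1in` : the inequality that the arrow reversal identity gives, for the events of 440 / 679.
`HP1out` : the boundary one-arm bound.
-/

set_option autoImplicit false

noncomputable section

namespace Crest.Agent.R158.Hp854

open MeasureTheory unitInterval
open Crest.Agent.R158.Rs689 Crest.Agent.R158.Mr679 Crest.Agent.R158.Fl440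
open Crest.Agent.R161.Geo729

/-- three gaps at distance `2 n` joined in the box of radius `20 n` -/
def J3 (n : ℕ) : Set TF :=
  {X | TP (OT X (-1) (20 * n)) (-1 - 2 * n, 0) (-1, 0) ∧
    TP (OT X (-1) (20 * n)) (-1, 0) (-1 + 2 * n, 0)}

/-- two adjacent gaps with arms -/
def E1 (n : ℕ) : Set TF := AT (-1) n ∩ AT 0 n

/-- radius of the three arms -/
def rr (n : ℕ) : ℕ := (n + 1) / 2

/-- three separated arms -/
def E2 (n : ℕ) : Set TF :=
  AT (-1 - 2 * n) (rr n) ∩ (AT (-1) (rr n) ∪ AT 0 (rr n)) ∩ AT (-1 + 2 * n) (rr n)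

/-- long crossing of a strip by either colour -/
def Cr (x0 x1 y : ℤ) : Set TF := LX 0 x0 x1 0 y ∪ {X | (fun t => !X t) ∈ LX 1 x0 x1 0 y}

/-- the input: arrow reversal on the cylinder -/
def HP1in : Prop := ∃ CL : ℝ, 1 ≤ CL ∧ ∀ R n : ℕ, 1 ≤ R → 2 ≤ n →
  ∃ (N : TF → ℕ) (x0 x1 a b : ℤ), 20 * (n : ℤ) ≤ x0 ∧ x0 + R * (20 * n) ≤ x1 ∧ x1 ≤ a ∧
    (∀ X X' : TF, (∀ t ∈ bxF a b 0 (20 * n), X t = X' t) → N X = N X') ∧
    ∫ X, (2 : ℝ) ^ N X ∂(tau hf) ≤ CL ∧
    (tau hf).real (J3 n) ≤ ∫ X in E1 n, (2 : ℝ) ^ N X ∂(tau hf) +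
      ∫ X in E2 n ∩ Cr x0 x1 (20 * n), (2 : ℝ) ^ N X ∂(tau hf)

/-- the output: boundary one-arm bound with exponent `1/3` -/
def HP1out : Prop := ∃ C : ℝ, 0 < C ∧ ∀ n : ℕ, 1 ≤ n → aw n ≤ C * (n : ℝ) ^ (-(1 / 3 : ℝ))

end Crest.Agent.R158.Hp854
end
end

-- ▼ part R158/Hp13_854
section

/-!
# R158, block HP1 (helper854), part 13: the cylinder read in a tile field; inclusions of events
-/

set_option autoImplicit false
set_option linter.unusedSectionVars false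
set_option linter.unusedSimpArgs false
set_option linter.unusedVariables false

noncomputable section

namespace Crest.Agent.R158.Hp854

open MeasureTheory unitInterval Finset
open Crest.Agent.R158.Bk430 (ME HasPar par vp)
open Crest.Agent.R158.Rs689 Crest.Agent.R158.Mr679 Crest.Agent.R158.Fl440
open Crest.Agent.R161.Geo729

section Win

variable {M L H : ℕ} [NeZero M] [NeZero L] [Fact (Even M)] [Fact (Even L)]

/-- lift of a tile of the cylinder to the window `[-K, 3K) × [1, H]` -/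
def wn (K : ℕ) (v : ZMod M × ZMod L) : ℤ × ℤ :=
  (if v.1.val < 3 * K then (v.1.val : ℤ) else (v.1.val : ℤ) - M, (v.2.val : ℤ))

/-- the cylinder field of a tile field -/
def xw (K : ℕ) (ω : TF) : Ct M L H → Bool := fun v => ω (wn K v.1)

theorem wn_inj (K : ℕ) (hK : M = 4 * K) : Function.Injective (wn K : ZMod M × ZMod L → ℤ × ℤ) := by
  rintro ⟨a, b⟩ ⟨a', b'⟩ h
  unfold wn at h
  simp only [Prod.mk.injEq] at h
  obtain ⟨h1, h2⟩ := h
  have ha := a.val_lt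
  have ha' := a'.val_lt
  have e1 : a.val = a'.val := by
    split_ifs at h1 <;> omega
  have e2 : b.val = b'.val := by exact_mod_cast h2
  rw [ZMod.val_injective _ e1, ZMod.val_injective _ e2]

theorem XP_win (hL : L = 2 * H) (K : ℕ) (hK : M = 4 * K) (ω : TF) {t : ℤ × ℤ}
    (h1 : -(K : ℤ) ≤ t.1) (h2 : t.1 < 3 * K) (h3 : 1 ≤ t.2) (h4 : t.2 ≤ H) :
    XP (M := M) hL (xw K ω) t = ω t := by
  obtain ⟨a, b⟩ := t
  simp only at h1 h2 h3 h4
  have hb : (((b : ZMod L)).val : ℤ) = b := by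
    rw [ZMod.val_intCast, Int.emod_eq_of_lt (by omega) (by rw [hL]; push_cast; omega)]
  have hin : InC M L H ((a : ZMod M), (b : ZMod L)) := by
    unfold InC
    simp only
    omega
  unfold XP Xt
  rw [dif_pos hin]
  unfold xw
  congr 1
  unfold wn
  simp only [Prod.mk.injEq]
  refine ⟨?_, hb⟩
  have hM : (M : ℤ) = 4 * K := by rw [hK]; push_cast; ring
  rcases lt_or_ge a 0 with h5 | h5
  · have e1 : (((a : ZMod M)).val : ℤ) = a + M := by
      rw [ZMod.val_intCast]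
      rw [show a = (a + M) - M by ring, Int.sub_emod_right, Int.emod_eq_of_lt (by omega) (by omega)]
      ring
    have e2 : ¬ ((a : ZMod M)).val < 3 * K := by
      intro h6
      have : (((a : ZMod M)).val : ℤ) < 3 * K := by exact_mod_cast h6
      omega
    rw [if_neg e2, e1]; ring
  · have e1 : (((a : ZMod M)).val : ℤ) = a := by
      rw [ZMod.val_intCast, Int.emod_eq_of_lt h5 (by omega)]
    have e2 : ((a : ZMod M)).val < 3 * K := by
      have : (((a : ZMod M)).val : ℤ) < 3 * K := by omega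
      exact_mod_cast this
    rw [if_pos e2, e1]

open Classical in
/-- expectation of functions of the cylinder field -/
theorem int_cyl (K : ℕ) (hK : M = 4 * K) (f : (Ct M L H → Bool) → ℝ) :
    ∫ ω, f (xw K ω) ∂(tau hf) = (1 / 2) ^ Fintype.card (Ct M L H) * ∑ x, f x := by
  have h1 := Nm211.integral_transport (ι := P2) (κ := Ct M L H) (T := Finset.univ)
    (g := fun v => wn K v.1) (fun a _ b _ h => Subtype.ext (wn_inj K hK h)) (fun _ => false)
    (f := f) (fun z z' hz => by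
      have : z = z' := funext fun e => hz e (Finset.mem_univ e)
      rw [this])
  simp only [Bool.false_xor] at h1
  refine Eq.trans h1 ?_
  convert PB_half_integral f

/-! ### inclusions -/

variable {n R : ℕ}

theorem oc_m1 : oc (-1) = false := by simp [oc]
theorem oc_0 : oc 0 = true := by simp [oc]

theorem j3_good (hL : L = 2 * H) (K : ℕ) (hK : M = 4 * K) (hH : H = 20 * n) (hKn : 20 * n + 1 ≤ K)
    (hn : 1 ≤ n) {ω : TF} (h : ω ∈ J3 n) : GoodLoc n (sgm (M := M) hL (xw K ω)) := by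
  obtain ⟨h1, h2⟩ := h
  have mono : ∀ F G : P2, TP (OT ω (-1) (20 * n)) F G →
      TP (fun t => XP (M := M) hL (xw K ω) t = false ∧ (1 ≤ t.2 ∧ t.2 ≤ H)) F G := by
    intro F G h
    refine h.mono fun t ht => ?_
    obtain ⟨g1, g2⟩ := ht
    unfold InB at g2
    rw [oc_m1] at g1
    have g3 : (1 : ℤ) ≤ t.2 ∧ t.2 ≤ H := by
      rw [hH]; push_cast; omega
    refine ⟨?_, g3⟩
    rw [XP_win hL K hK ω (by omega) (by omega) g3.1 g3.2, g1]
  have p1 := mono _ _ h1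
  have p2 := mono _ _ h2
  constructor
  · intro i hi1 hi2
    obtain ⟨j, hj, hj1, hj2⟩ := joined hL (xw K ω) (c := false) (x1 := -1 - 2 * n) (x2 := -1)
      (by simp) (by simp) p1 (b := i) (by omega) (by omega)
    exact ⟨j, hj, by omega, by omega⟩
  · intro i hi1 hi2
    obtain ⟨j, hj, hj1, hj2⟩ := joined hL (xw K ω) (c := false) (x1 := -1) (x2 := -1 + 2 * n)
      (by simp) (by simp) p2 (b := i) (by omega) (by omega)
    exact ⟨j, hj, by omega, by omega⟩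

/-- arms of the cylinder in the window are arms of the tile field -/
theorem arm_win (hL : L = 2 * H) (K : ℕ) (hK : M = 4 * K) {ω : TF} {c : Bool} {g : ℤ} {r : ℕ}
    (hc : oc g = c) (hr : r ≤ H) (h1 : -(K : ℤ) ≤ g - r) (h2 : g + r < 3 * K)
    (h : ∃ G, TP (fun t => XP (M := M) hL (xw K ω) t = c ∧ InB (g - r) (g + r) 0 r t) (g, 0) G ∧
      Farb (g - r) (g + r) r G) : ω ∈ AT g r := by
  obtain ⟨G, h3, h4⟩ := h
  refine ⟨G, h4, h3.mono fun t ht => ?_⟩
  obtain ⟨g1, g2⟩ := ht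
  refine ⟨?_, g2⟩
  unfold InB at g2
  rw [XP_win hL K hK ω (by omega) (by omega) (by omega) (by omega)] at g1
  rw [g1, hc]

theorem leave_E1 (hL : L = 2 * H) (K : ℕ) (hK : M = 4 * K) (hH : H = 20 * n) (hKn : 20 * n + 1 ≤ K)
    (hn : 1 ≤ n) {ω : TF} (h : Leave n (sgm (M := M) hL (xw K ω))) : ω ∈ E1 n := by
  constructor
  · have h1 := (two_arms hL (xw (M := M) (L := L) (H := H) K ω) (i := 0) (x0 := -1 - n)
      (x1 := -1 + n) (r := n) (by norm_num) (by exact_mod_cast hn) (by rw [hH]; push_cast; omega)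
      (by omega) (by omega) (fun j hj h5 h6 => h j hj (by omega) (by omega))).1
    exact arm_win hL K hK oc_m1 (by omega) (by omega) (by omega) h1
  · have h1 := (two_arms hL (xw (M := M) (L := L) (H := H) K ω) (i := 0) (x0 := 0 - n)
      (x1 := 0 + n) (r := n) (by norm_num) (by exact_mod_cast hn) (by rw [hH]; push_cast; omega)
      (by omega) (by omega) (fun j hj h5 h6 => h j hj (by omega) (by omega))).2
    exact arm_win hL K hK oc_0 (by omega) (by omega) (by omega) h1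

theorem noloc_E2 (hL : L = 2 * H) (K : ℕ) (hK : M = 4 * K) (hH : H = 20 * n)
    (hKn : 20 * n + 1 ≤ K) (hn : 2 ≤ n) {ω : TF} (h : NoLoc n (sgm (M := M) hL (xw K ω))) :
    ω ∈ E2 n := by
  obtain ⟨n1, n2, n3⟩ := h
  have hr1 : 1 ≤ rr n := by unfold rr; omega
  have hrn : rr n ≤ n := by unfold rr; omega
  have hrH : ((rr n : ℕ) : ℤ) ≤ H := by rw [hH]; push_cast; omega
  have hr1' : (1 : ℤ) ≤ (rr n : ℕ) := by exact_mod_cast hr1
  have hrn' : ((rr n : ℕ) : ℤ) ≤ n := by exact_mod_cast hrn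
  refine ⟨⟨?_, ?_⟩, ?_⟩
  · refine arm_win hL K hK (by simp [oc]) (by omega) (by omega) (by omega)
      (arm_odd hL (xw (M := M) (L := L) (H := H) K ω) (g := -1 - 2 * n) (r := (rr n : ℕ))
      (by omega) hr1' hrH ?_)
    intro i j hij g1 g2 g3 g4
    exact n1 i j hij (by omega) (by omega) (by omega) (by omega)
  · by_cases hs : ∃ j, sgm (M := M) hL (xw K ω) 0 = some j ∧ j < 0
    · right
      obtain ⟨j0, hj0, hj0'⟩ := hs
      refine arm_win hL K hK oc_0 (by omega) (by omega) (by omega)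
        (arm_even hL (xw (M := M) (L := L) (H := H) K ω) (g := 0) (r := (rr n : ℕ))
        (by omega) hr1' hrH ?_)
      intro i j hij g1 g2 g3 g4
      rcases eq_or_lt_of_le g2 with h0 | h0
      · rw [h0, hj0] at hij
        have := Option.some.inj hij
        omega
      · exact n3 i j hij (by omega) (by omega) (by omega) (by omega)
    · left
      refine arm_win hL K hK oc_m1 (by omega) (by omega) (by omega)
        (arm_odd hL (xw (M := M) (L := L) (H := H) K ω) (g := -1) (r := (rr n : ℕ))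
        (by omega) hr1' hrH ?_)
      intro i j hij g1 g2 g3 g4
      rcases lt_or_ge 0 j with h0 | h0
      · exact n3 i j hij (by omega) (by omega) (by omega) (by omega)
      · have h5 : j = 0 := by omega
        rw [h5] at hij
        exact hs ⟨i, sgm_inv hL _ _ _ hij, by omega⟩
  · refine arm_win hL K hK (by simp [oc]) (by omega) (by omega) (by omega)
      (arm_odd hL (xw (M := M) (L := L) (H := H) K ω) (g := -1 + 2 * n) (r := (rr n : ℕ))
      (by omega) hr1' hrH ?_)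
    intro i j hij g1 g2 g3 g4
    exact n2 i j hij (by omega) (by omega) (by omega) (by omega)

theorem world_Cr (hL : L = 2 * H) (K : ℕ) (hK : M = 4 * K) (hH : H = 20 * n)
    (hKn : 20 * n + 1 ≤ K) (hn : 1 ≤ n) {x1 : ℤ} (hx : 20 * (n : ℤ) < x1) (hx1 : x1 < K) {ω : TF}
    (h : World M n (sgm (M := M) hL (xw K ω))) : ω ∈ Cr (20 * n) x1 H := by
  obtain ⟨i, j, hij, g1, g2, g3, g4⟩ := h
  have hM : (M : ℤ) = 4 * K := by rw [hK]; push_cast; ring
  obtain ⟨-, h1, -⟩ := arc_faces hL _ hij (by omega)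
  rcases Int.emod_two_eq_zero_or_one i with hi | hi
  · left
    refine lx_of_path h1 hx (by simp only; omega) (by simp only; omega) (by simp only; omega) ?_
    intro t ht g5 g6
    obtain ⟨q1, q2, q3⟩ := ht
    refine ⟨by omega, q3, ?_⟩
    rw [XP_win hL K hK ω (by omega) (by omega) q2 q3] at q1
    rw [q1]; simp [hi]
  · right
    refine lx_of_path h1 hx (by simp only; omega) (by simp only; omega) (by simp only; omega) ?_
    intro t ht g5 g6
    obtain ⟨q1, q2, q3⟩ := ht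
    refine ⟨by omega, q3, ?_⟩
    rw [XP_win hL K hK ω (by omega) (by omega) q2 q3] at q1
    show (!ω t) = true
    rw [q1]; simp [hi]

end Win

end Crest.Agent.R158.Hp854
end
end

-- ▼ part R158/Hp14_854
section

/-!
# R158, block HP1 (helper854), part 14: `HP1in` from the arrow reversal identity and the bound
`nring ≤ LR` (helper405)
-/

set_option autoImplicit false
set_option linter.unusedSectionVars false
set_option linter.unusedSimpArgs false
set_option linter.unusedVariables false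

noncomputable section

namespace Crest.Agent.R158.Hp854

open MeasureTheory unitInterval Finset
open Crest.Agent.R158.Bk430 (ME HasPar par vp)
open Crest.Agent.R158.Rs689 Crest.Agent.R158.Mr679 Crest.Agent.R158.Fl440
open Crest.Agent.R161.Geo729
open Crest.Agent.R158.Nm211 (LR KK Dl Yl Xl DepF)

theorem arcTurn : ArcTurn := fun s i j n hn hi h hup =>
  (Crest.Agent.R158.Hr405.arc_turn s i j n hn hi h hup).2

/-- the number of ring loops is at most the number of strands through half of the ring (helper405) -/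
def NringLR : Prop := ∀ (M L H : ℕ) [NeZero M] [NeZero L] [Fact (Even M)] [Fact (Even L)]
  (hL : L = 2 * H), 3 ≤ M → ∀ (x : Ct M L H → Bool) (τ : ZMod M),
  nring hL x ≤ LR M 1 H (fun v : ZMod M × ℤ => sx hL x (v.1 + τ, (v.2 : ZMod L)))

section Shift

variable {M L H : ℕ} [NeZero M] [NeZero L] [Fact (Even M)] [Fact (Even L)]

/-- the shifted splitting of a tile field -/
def st (hL : L = 2 * H) (K : ℕ) (ω : TF) (v : ZMod M × ℤ) : Bool :=
  sx (M := M) hL (xw K ω) (v.1 + ((K - 1 : ℕ) : ZMod M), (v.2 : ZMod L))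

/-- position in the window -/
def gt (K : ℕ) (v : ZMod M × ℤ) : ℤ × ℤ := ((v.1.val : ℤ) + K - 1, v.2)

/-- parity twist -/
def ft (L K : ℕ) [NeZero L] [Fact (Even L)] (v : ZMod M × ℤ) : Bool :=
  !(vp (v.1 + ((K - 1 : ℕ) : ZMod M), (v.2 : ZMod L)))

theorem st_eq (hL : L = 2 * H) (K : ℕ) (hK : M = 4 * K) (hK1 : 1 ≤ K) (ω : TF) {v : ZMod M × ℤ}
    (h1 : 1 ≤ v.1.val) (h2 : v.1.val ≤ M / 2) (h3 : 1 ≤ v.2) (h4 : v.2 < 1 + H) :
    st hL K ω v = xor (ft L K v) (ω (gt K v)) := by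
  obtain ⟨a, y⟩ := v
  simp only at h1 h2 h3 h4
  have hM2 : M / 2 = 2 * K := by omega
  have hy : (((y : ZMod L)).val : ℤ) = y := by
    rw [ZMod.val_intCast, Int.emod_eq_of_lt (by omega) (by rw [hL]; push_cast; omega)]
  have hτ : (((K - 1 : ℕ) : ZMod M)).val = K - 1 := ZMod.val_cast_of_lt (by omega)
  have hcol : (a + ((K - 1 : ℕ) : ZMod M)).val = a.val + (K - 1) := by
    rw [ZMod.val_add_of_lt, hτ]
    rw [hτ]; omega
  have hin : InC M L H (a + ((K - 1 : ℕ) : ZMod M), (y : ZMod L)) := by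
    unfold InC
    simp only
    omega
  unfold st sx spx Xt
  rw [dif_pos hin]
  unfold xw ft gt wn
  simp only [hcol, hy]
  rw [if_pos (by omega)]
  have e1 : ((a.val + (K - 1) : ℕ) : ℤ) = (a.val : ℤ) + K - 1 := by omega
  rw [e1]
  cases vp (a + ((K - 1 : ℕ) : ZMod M), (y : ZMod L)) <;> cases ω ((a.val : ℤ) + K - 1, y) <;> rfl

theorem lr_eq (hL : L = 2 * H) (K : ℕ) (hK : M = 4 * K) (hK1 : 1 ≤ K) (ω : TF) :
    LR M 1 H (st hL K ω) = LR M 1 H (fun v => xor (ft L K v) (ω (gt K v))) := by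
  unfold LR
  exact Nm211.gen_dep fun c hc => st_eq hL K hK hK1 ω hc.1.1 hc.1.2 hc.2.1 hc.2.2

/-- the states of the half ring -/
def Th (M H : ℕ) [NeZero M] : Finset (ZMod M × ℤ) :=
  (Finset.univ.filter fun a : ZMod M => 1 ≤ a.val ∧ a.val ≤ M / 2) ×ˢ Finset.Ico 1 (1 + (H : ℤ))

theorem lr_dep {s s' : ZMod M × ℤ → Bool} (h : ∀ v ∈ Th M H, s v = s' v) :
    LR M 1 H s = LR M 1 H s' := by
  unfold LR
  refine Nm211.gen_dep fun c hc => h _ ?_
  unfold Th
  rw [Finset.mem_product, Finset.mem_filter, Finset.mem_Ico]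
  exact ⟨⟨Finset.mem_univ _, hc.1⟩, hc.2⟩

theorem lr_int (hL : L = 2 * H) (K : ℕ) (hK : M = 4 * K) (hK1 : 1 ≤ K) :
    ∫ ω, (2 : ℝ) ^ LR M 1 H (st hL K ω) ∂(tau hf) =
      ∫ s, (2 : ℝ) ^ LR M 1 H s ∂(PB fun _ : ZMod M × ℤ => hf) := by
  have h1 := Nm211.integral_transport (ι := P2) (κ := ZMod M × ℤ) (T := Th M H) (g := gt K)
    (by
      intro v _ v' _ h
      obtain ⟨a, y⟩ := v
      obtain ⟨a', y'⟩ := v'
      unfold gt at h
      simp only [Prod.mk.injEq] at h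
      have e1 : a.val = a'.val := by omega
      rw [ZMod.val_injective _ e1, h.2]) (ft L K) (f := fun s => (2 : ℝ) ^ LR M 1 H s)
    (fun s s' hs => by
      show (2 : ℝ) ^ LR M 1 H s = (2 : ℝ) ^ LR M 1 H s'
      rw [lr_dep hs])
  rw [← h1]
  refine integral_congr_ae (ae_of_all _ fun ω => ?_)
  simp only
  rw [lr_eq hL K hK hK1]

theorem lr_loc (hL : L = 2 * H) (K : ℕ) (hK : M = 4 * K) (hK1 : 1 ≤ K) {ω ω' : TF}
    (h : ∀ t ∈ bxF ((K : ℤ) - 1) (3 * K - 1) 0 H, ω t = ω' t) :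
    LR M 1 H (st hL K ω) = LR M 1 H (st hL K ω') := by
  rw [lr_eq hL K hK hK1, lr_eq hL K hK hK1]
  refine lr_dep fun v hv => ?_
  unfold Th at hv
  rw [Finset.mem_product, Finset.mem_filter, Finset.mem_Ico] at hv
  obtain ⟨⟨-, g1, g2⟩, g3, g4⟩ := hv
  have hM2 : M / 2 = 2 * K := by omega
  rw [h]
  rw [mem_bxF]
  unfold gt InB
  simp only
  omega

/-- functions of the cylinder field depend on finitely many tiles -/
theorem cyl_dep (K : ℕ) (f : (Ct M L H → Bool) → ℝ) :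
    DepF (Finset.univ.image fun v : Ct M L H => wn K v.1) (fun ω : TF => f (xw K ω)) := by
  intro z z' hz
  show f (xw K z) = f (xw K z')
  congr 1
  funext v
  exact hz _ (Finset.mem_image_of_mem _ (Finset.mem_univ v))

open Classical in
/-- comparison of one term of the inequality -/
theorem term_le (hL : L = 2 * H) (K : ℕ) (hK : M = 4 * K) (hK1 : 1 ≤ K) (hJ : NringLR) (hM : 3 ≤ M)
    (p : (Ct M L H → Bool) → Prop) {E : Set TF} {S : Finset P2} (hE : Dep S E)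
    (hp : ∀ ω, p (xw K ω) → ω ∈ E) :
    (1 / 2) ^ Fintype.card (Ct M L H) * ∑ x with p x, (2 : ℝ) ^ nring hL x ≤
      ∫ ω in E, (2 : ℝ) ^ LR M 1 H (st hL K ω) ∂(tau hf) := by
  rw [Finset.sum_filter]
  have h1 := int_cyl (M := M) (L := L) (H := H) K hK (fun x => if p x then (2 : ℝ) ^ nring hL x else 0)
  have h1' : (1 / 2) ^ Fintype.card (Ct M L H) * ∑ x : Ct M L H → Bool,
      (if p x then (2 : ℝ) ^ nring hL x else 0) =
      ∫ ω, (if p (xw K ω) then (2 : ℝ) ^ nring hL (xw (M := M) (L := L) (H := H) K ω) else 0)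
        ∂(tau hf) := by
    rw [h1]
  rw [h1', ← integral_indicator hE.measurableSet]
  refine integral_mono ?_ ?_ ?_
  · exact (cyl_dep K (fun x => if p x then (2 : ℝ) ^ nring hL x else 0)).integrable (fun _ : P2 => hf)
  · refine Nm211.DepF.integrable (S := S ∪ bxF ((K : ℤ) - 1) (3 * K - 1) 0 H) ?_ (fun _ : P2 => hf)
    intro z z' hz
    have e1 : z ∈ E ↔ z' ∈ E := hE z z' fun e he => hz e (Finset.mem_union_left _ he)
    have e2 := lr_loc (M := M) hL K hK hK1 (ω := z) (ω' := z')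
      fun t ht => hz t (Finset.mem_union_right _ ht)
    show E.indicator _ z = E.indicator _ z'
    by_cases hz1 : z ∈ E
    · rw [Set.indicator_of_mem hz1, Set.indicator_of_mem (e1.1 hz1), e2]
    · rw [Set.indicator_of_notMem hz1, Set.indicator_of_notMem (fun h => hz1 (e1.2 h))]
  · intro ω
    simp only
    split_ifs with hpω
    · rw [Set.indicator_of_mem (hp ω hpω)]
      refine pow_le_pow_right₀ (by norm_num) ?_
      exact hJ M L H hL hM (xw K ω) _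
    · exact Set.indicator_nonneg (fun _ _ => by positivity) _

theorem J3_dep (n : ℕ) : Dep (bxF (-1 - (20 * n : ℤ)) (-1 + (20 * n : ℤ)) 0 (20 * n)) (J3 n) := by
  intro X X' h
  have h' : ∀ t ∈ bxF (-1 - (20 * n : ℤ)) (-1 + (20 * n : ℤ)) 0 (20 * n), X' t = X t :=
    fun t ht => (h t ht).symm
  constructor
  · rintro ⟨h1, h2⟩
    exact ⟨h1.mono (OT_congr h), h2.mono (OT_congr h)⟩
  · rintro ⟨h1, h2⟩
    exact ⟨h1.mono (OT_congr h'), h2.mono (OT_congr h')⟩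

theorem E1_ex (n : ℕ) : ∃ S, Dep S (E1 n) :=
  ⟨_, ((AT_dep (-1) n).mono (Finset.subset_union_left)).inter
    ((AT_dep 0 n).mono (Finset.subset_union_right))⟩

theorem Dep.ex_inter {S T : Finset P2} {A B : Set TF} (hA : Dep S A) (hB : Dep T B) :
    ∃ U, Dep U (A ∩ B) :=
  ⟨S ∪ T, (hA.mono Finset.subset_union_left).inter (hB.mono Finset.subset_union_right)⟩

theorem Dep.ex_union {S T : Finset P2} {A B : Set TF} (hA : Dep S A) (hB : Dep T B) :
    ∃ U, Dep U (A ∪ B) :=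
  ⟨S ∪ T, (hA.mono Finset.subset_union_left).union (hB.mono Finset.subset_union_right)⟩

theorem Cr_ex (x0 x1 y : ℤ) : ∃ U, Dep U (Cr x0 x1 y) := by
  have h2 : Dep (bxF x0 x1 0 y) {X : TF | (fun t => !X t) ∈ LX 1 x0 x1 0 y} := by
    intro X X' h
    exact lx_dep 1 x0 x1 0 y (fun t => !X t) (fun t => !X' t) fun t ht => by
      show (!X t) = !X' t
      rw [h t ht]
  exact Dep.ex_union (lx_dep 0 x0 x1 0 y) h2

theorem E2_ex (n : ℕ) : ∃ S, Dep S (E2 n) := by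
  obtain ⟨U1, h1⟩ := Dep.ex_union (AT_dep (-1) (rr n)) (AT_dep 0 (rr n))
  obtain ⟨U2, h2⟩ := Dep.ex_inter (AT_dep (-1 - 2 * n) (rr n)) h1
  exact Dep.ex_inter h2 (AT_dep (-1 + 2 * n) (rr n))

/-- the inequality on one cylinder -/
theorem main_ineq (hJ : NringLR) (hL : L = 2 * H) (K : ℕ) (hK : M = 4 * K) {n : ℕ} (hH : H = 20 * n)
    (hKn : 40 * n ≤ K) (hn : 2 ≤ n) {x1 : ℤ} (hx : 20 * (n : ℤ) < x1) (hx1 : x1 < K) :
    (tau hf).real (J3 n) ≤ ∫ X in E1 n, (2 : ℝ) ^ LR M 1 H (st hL K X) ∂(tau hf) +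
      ∫ X in E2 n ∩ Cr (20 * n) x1 (20 * n), (2 : ℝ) ^ LR M 1 H (st hL K X) ∂(tau hf) := by
  classical
  have hM3 : 3 ≤ M := by omega
  have hK1 : 1 ≤ K := by omega
  have hMn : 8 * n ≤ M := by omega
  set P : ℝ := (1 / 2) ^ Fintype.card (Ct M L H) with hP
  have hP0 : 0 ≤ P := by positivity
  have hARI := ari (M := M) (L := L) (H := H) arcTurn hL n
  have key := ari_ineq (M := M) (k := n) (by omega) hMn (Finset.univ : Finset (Ct M L H → Bool))
    (fun _ => P) (fun _ _ => hP0) (fun x => sgm hL x) (fun x _ => pat hL x) (fun x => nring hL x)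
    (by rw [← Finset.mul_sum, ← Finset.mul_sum, hARI])
  simp only [← Finset.mul_sum] at key
  -- left side
  have hleft : (tau hf).real (J3 n) ≤
      P * ∑ x : Ct M L H → Bool with GoodLoc n (sgm hL x), (2 : ℝ) ^ nring hL x := by
    rw [Finset.sum_filter]
    have h1 := int_cyl (M := M) (L := L) (H := H) K hK
      (fun x => if GoodLoc n (sgm hL x) then (2 : ℝ) ^ nring hL x else 0)
    have h1' : P * ∑ x : Ct M L H → Bool,
        (if GoodLoc n (sgm hL x) then (2 : ℝ) ^ nring hL x else 0) =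
        ∫ ω, (if GoodLoc n (sgm (M := M) hL (xw K ω)) then
          (2 : ℝ) ^ nring hL (xw (M := M) (L := L) (H := H) K ω) else 0) ∂(tau hf) := by
      rw [h1]
    rw [h1']
    have h2 : (tau hf).real (J3 n) = ∫ ω, (J3 n).indicator (fun _ => (1 : ℝ)) ω ∂(tau hf) := by
      rw [integral_indicator_const _ (J3_dep n).measurableSet]
      simp
    rw [h2]
    refine integral_mono ?_ ?_ ?_
    · refine Nm211.DepF.integrable (S := bxF (-1 - (20 * n : ℤ)) (-1 + (20 * n : ℤ)) 0 (20 * n)) ?_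
        (fun _ : P2 => hf)
      intro z z' hz
      have e1 : z ∈ J3 n ↔ z' ∈ J3 n := J3_dep n z z' hz
      show (J3 n).indicator _ z = (J3 n).indicator _ z'
      by_cases hz1 : z ∈ J3 n
      · rw [Set.indicator_of_mem hz1, Set.indicator_of_mem (e1.1 hz1)]
      · rw [Set.indicator_of_notMem hz1, Set.indicator_of_notMem (fun h => hz1 (e1.2 h))]
    · exact (cyl_dep K (fun x => if GoodLoc n (sgm hL x) then (2 : ℝ) ^ nring hL x else 0)).integrable
        (fun _ : P2 => hf)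
    · intro ω
      by_cases hω : ω ∈ J3 n
      · rw [Set.indicator_of_mem hω]
        simp only
        rw [if_pos (j3_good hL K hK hH (by omega) (by omega) hω)]
        exact one_le_pow₀ (by norm_num)
      · rw [Set.indicator_of_notMem hω]
        simp only
        split_ifs
        · positivity
        · exact le_rfl
  obtain ⟨S1, hS1⟩ := E1_ex n
  obtain ⟨S2, hS2⟩ := E2_ex n
  obtain ⟨S3, hS3⟩ := Cr_ex (20 * n) x1 (20 * n)
  obtain ⟨S4, hS4⟩ := Dep.ex_inter hS2 hS3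
  have t1 := term_le (M := M) hL K hK hK1 hJ hM3 (fun x => Leave n (sgm hL x)) hS1
    (fun ω hω => leave_E1 hL K hK hH (by omega) (by omega) hω)
  have t2 := term_le (M := M) hL K hK hK1 hJ hM3
    (fun x => NoLoc n (sgm hL x) ∧ World M n (sgm hL x)) hS4
    (fun ω hω => ⟨noloc_E2 hL K hK hH (by omega) hn hω.1, by
      have := world_Cr hL K hK hH (by omega) (by omega) hx hx1 hω.2
      rw [hH] at this
      push_cast at this
      exact this⟩)
  refine hleft.trans (key.trans (add_le_add ?_ ?_))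
  · refine le_trans (le_of_eq ?_) t1
    congr 1
  · refine le_trans (le_of_eq ?_) t2
    congr 1
    refine Finset.sum_congr ?_ fun _ _ => rfl
    ext x
    simp only [Finset.mem_filter]

end Shift

/-- **HP1in** -/
theorem hp1in (hJ : NringLR) : HP1in := by
  obtain ⟨CL, hCL, hC⟩ := Nm211.loop_moment 2 (by norm_num) 1
  refine ⟨CL, hCL, fun R n hR hn => ?_⟩
  set K : ℕ := 20 * n * (R + 2) with hK
  have hKn : 40 * n ≤ K := by rw [hK]; nlinarith
  have hKR : 20 * n + R * (20 * n) + 1 ≤ K := by rw [hK]; nlinarith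
  have : NeZero (4 * K) := ⟨by omega⟩
  have : NeZero (2 * (20 * n)) := ⟨by omega⟩
  have : Fact (Even (4 * K)) := ⟨⟨2 * K, by ring⟩⟩
  have : Fact (Even (2 * (20 * n))) := ⟨⟨20 * n, by ring⟩⟩
  have hL : 2 * (20 * n) = 2 * (20 * n) := rfl
  refine ⟨fun X => LR (4 * K) 1 (20 * n) (st hL K X), 20 * n, K - 1, K - 1, 3 * K - 1, le_rfl, ?_,
    le_rfl, ?_, ?_, ?_⟩
  · have : ((20 * n + R * (20 * n) + 1 : ℕ) : ℤ) ≤ K := by exact_mod_cast hKR
    push_cast at this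
    omega
  · intro X X' h
    refine lr_loc hL K rfl (by omega) fun t ht => h t ?_
    push_cast at ht
    exact ht
  · rw [lr_int hL K rfl (by omega)]
    exact hC (4 * K) (by omega) 1 (20 * n) (by omega)
  · refine main_ineq hJ hL K rfl rfl hKn hn ?_ (by omega)
    have : ((20 * n + R * (20 * n) + 1 : ℕ) : ℤ) ≤ K := by exact_mod_cast hKR
    push_cast at this
    have h2 : (0 : ℤ) < R * (20 * n) := by positivity
    omega

end Crest.Agent.R158.Hp854
end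
end

-- ▼ part R158/Hp13_440
section

/-!
# R158, block HP1 (helper440): the analytic half

`hp1_of : HP1in → HP1out` : from the arrow reversal inequality on the cylinder to the boundary one-arm
bound `aw n ≤ C n^(-1/3)` (independence, two arms, joining, channels).
-/

set_option autoImplicit false

noncomputable section

namespace Crest.Agent.R158.Hp854

open MeasureTheory ProbabilityTheory unitInterval
open Crest.Agent.R158.Rs689 Crest.Agent.R158.Mr679 Crest.Agent.R158.Fl440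
open Crest.Agent.R161.Geo729

variable {ι : Type*}

/-- independence of an event and a function -/
theorem setInt_indep (w : ι → I) {S T : Finset ι} (hST : Disjoint S T) {A : Set (ι → Bool)}
    (hA : Dep S A) {f : (ι → Bool) → ℝ} (hf : Cn109.DepF T f) :
    ∫ z in A, f z ∂(PB w) = (PB w).real A * ∫ z, f z ∂(PB w) := by
  have hd : Cn109.DepF S (A.indicator fun _ => (1 : ℝ)) := by
    intro z z' h
    by_cases hz : z ∈ A
    · rw [Set.indicator_of_mem hz, Set.indicator_of_mem ((hA z z' h).1 hz)]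
    · rw [Set.indicator_of_notMem hz, Set.indicator_of_notMem fun h' => hz ((hA z z' h).2 h')]
  rw [← integral_indicator hA.measurableSet]
  have e1 : ∀ z, A.indicator f z = (A.indicator fun _ => (1 : ℝ)) z * f z := by
    intro z
    by_cases hz : z ∈ A
    · rw [Set.indicator_of_mem hz, Set.indicator_of_mem hz, one_mul]
    · rw [Set.indicator_of_notMem hz, Set.indicator_of_notMem hz, zero_mul]
  simp_rw [e1]
  rw [Cn109.integral_mul_indep w hST hd hf, integral_indicator_const _ hA.measurableSet]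
  simp

theorem bxF_sub {x0 x1 y0 y1 x0' x1' y0' y1' : ℤ} (h1 : x0' ≤ x0) (h2 : x1 ≤ x1') (h3 : y0' ≤ y0)
    (h4 : y1 ≤ y1') : bxF x0 x1 y0 y1 ⊆ bxF x0' x1' y0' y1' := by
  intro t ht
  rw [mem_bxF] at ht ⊢
  unfold InB at ht ⊢
  omega

theorem bxF_disj {x0 x1 y0 y1 x0' x1' y0' y1' : ℤ} (h : x1 ≤ x0') :
    Disjoint (bxF x0 x1 y0 y1) (bxF x0' x1' y0' y1') := by
  rw [Finset.disjoint_left]
  intro t ht ht'
  rw [mem_bxF] at ht ht'
  unfold InB at ht ht'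
  omega

theorem rr_le {n : ℕ} (hn : 1 ≤ n) : rr n ≤ n := by unfold rr; omega
theorem two_rr {n : ℕ} (hn : 2 ≤ n) : 2 * rr n + 2 ≤ 2 * n := by unfold rr; omega
theorem rr_pos {n : ℕ} (hn : 1 ≤ n) : 1 ≤ rr n := by unfold rr; omega
theorem le_two_rr (n : ℕ) : n ≤ 2 * rr n := by unfold rr; omega

theorem E1_dep (n : ℕ) : Dep (bxF (-1 - n) n 0 n) (E1 n) :=
  ((AT_dep (-1) n).mono (bxF_sub (by omega) (by omega) le_rfl le_rfl)).inter
    ((AT_dep 0 n).mono (bxF_sub (by omega) (by omega) le_rfl le_rfl))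

theorem mid_dep (n : ℕ) :
    Dep (bxF (-1 - rr n) (rr n) 0 (rr n)) (AT (-1) (rr n) ∪ AT 0 (rr n)) :=
  ((AT_dep (-1) (rr n)).mono (bxF_sub (by omega) (by omega) le_rfl le_rfl)).union
    ((AT_dep 0 (rr n)).mono (bxF_sub (by omega) (by omega) le_rfl le_rfl))

theorem E2_dep {n : ℕ} (hn : 1 ≤ n) : Dep (bxF (-1 - 3 * n) (4 * n) 0 n) (E2 n) := by
  have h := rr_le hn
  refine (Dep.inter (Dep.inter ((AT_dep (-1 - 2 * n) (rr n)).mono ?_) ((mid_dep n).mono ?_))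
    ((AT_dep (-1 + 2 * n) (rr n)).mono ?_)) <;>
  exact bxF_sub (by omega) (by omega) le_rfl (by omega)


/-- three arms in disjoint boxes -/
theorem E2_le {n : ℕ} (hn : 2 ≤ n) : (tau hf).real (E2 n) ≤ 2 * aw (rr n) ^ 3 := by
  have h := two_rr hn
  have hr := aw_nonneg (rr n)
  have d1 : Disjoint (bxF (-1 - 2 * n - rr n) (-1 - 2 * n + rr n) 0 (rr n))
      (bxF (-1 - rr n) (rr n) 0 (rr n)) := bxF_disj (by omega)
  have d2 : Disjoint (bxF (-1 - 2 * n - rr n) (rr n) 0 (rr n))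
      (bxF (-1 + 2 * n - rr n) (-1 + 2 * n + rr n) 0 (rr n)) := bxF_disj (by omega)
  have e1 := PB_indep_real (fun _ : P2 => hf) d1 (AT_dep (-1 - 2 * n) (rr n)) (mid_dep n)
  have e2 := PB_indep_real (fun _ : P2 => hf) d2
    (((AT_dep (-1 - 2 * n) (rr n)).mono (bxF_sub (by omega) (by omega) le_rfl le_rfl)).inter
      ((mid_dep n).mono (bxF_sub (by omega) (by omega) le_rfl le_rfl)))
    (AT_dep (-1 + 2 * n) (rr n))
  change (tau hf).real _ = (tau hf).real _ * (tau hf).real _ at e1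
  change (tau hf).real _ = (tau hf).real _ * (tau hf).real _ at e2
  have e3 : (tau hf).real (AT (-1) (rr n) ∪ AT 0 (rr n)) ≤ 2 * aw (rr n) := by
    refine (measureReal_union_le _ _).trans ?_
    rw [tau_AT, tau_AT]
    linarith
  unfold E2
  rw [e2, e1, tau_AT, tau_AT]
  calc aw (rr n) * (tau hf).real (AT (-1) (rr n) ∪ AT 0 (rr n)) * aw (rr n)
      ≤ aw (rr n) * (2 * aw (rr n)) * aw (rr n) := by gcongr
    _ = 2 * aw (rr n) ^ 3 := by ring

theorem not_dep {S : Finset P2} {A : Set TF} (hA : Dep S A) :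
    Dep S {X : TF | (fun t => !X t) ∈ A} := by
  intro X X' h
  exact hA _ _ fun t ht => by rw [h t ht]

theorem Cr_dep (x0 x1 y : ℤ) : Dep (bxF x0 x1 0 y) (Cr x0 x1 y) :=
  (lx_dep 0 x0 x1 0 y).union (not_dep (lx_dep 1 x0 x1 0 y))

theorem lx_sub {X : TF} {b x0 x1 y0 y1 x0' x1' : ℤ} (h : X ∈ LX b x0 x1 y0 y1) (h1 : x0 ≤ x0')
    (h2 : x0' < x1') (h3 : x1' ≤ x1) : X ∈ LX b x0' x1' y0 y1 := by
  obtain ⟨F, G, e1, e2, e3, e4, e5, e6⟩ := h
  refine lx_of_path e6 h2 (by omega) (by omega) e3 ?_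
  rintro t ⟨ht, ht'⟩ _ _
  exact ⟨ht.2.2.1, ht.2.2.2, ht'⟩

/-- **long crossings are rare** -/
theorem Cr_le : ∃ q : ℝ, 0 < q ∧ q < 1 ∧ ∀ (n R : ℕ), 1 ≤ n → ∀ x0 x1 : ℤ,
    x0 + R * (20 * n) ≤ x1 → (tau hf).real (Cr x0 x1 (20 * n)) ≤ 2 * q ^ R := by
  obtain ⟨q, h0, h1, h2⟩ := chan_le
  refine ⟨q, h0, h1, fun n R hn x0 x1 hx => ?_⟩
  have hh : 1 ≤ 20 * n := by omega
  have k0 := h2 (20 * n) R hh 0 x0 0
  have k1 := h2 (20 * n) R hh 1 x0 0
  have hsub : ∀ (b b' : ℤ), (b + b') % 2 = 1 → ∀ X : TF, X ∈ LX b x0 x1 0 (20 * n) → ∀ i < R,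
      (fun t => !X t) ∉ BX b' (x0 + i * (20 * n : ℕ)) (x0 + (i + 1) * (20 * n : ℕ)) 0
        (0 + (20 * n : ℕ)) := by
    intro b b' hb X hX i hi hB
    have hn0 : (1 : ℤ) ≤ n := by exact_mod_cast hn
    have hi' : (i : ℤ) + 1 ≤ R := by exact_mod_cast hi
    have e1 : ((i : ℤ) + 1) * (20 * n) ≤ R * (20 * n) := by
      exact mul_le_mul_of_nonneg_right hi' (by omega)
    have e2 : (0 : ℤ) ≤ i * (20 * n) := by positivity
    have e3 : ((i : ℤ) + 1) * (20 * n) = i * (20 * n) + 20 * n := by ring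
    push_cast at hB
    rw [zero_add] at hB
    exact never_both hb (lx_sub hX (by omega) (by omega) (by omega)) hB
  have m1 : MeasurableSet {X : TF | ∀ i < R, X ∉ BX 1 (x0 + i * (20 * n : ℕ))
      (x0 + (i + 1) * (20 * n : ℕ)) 0 (0 + (20 * n : ℕ))} := by
    have : {X : TF | ∀ i < R, X ∉ BX 1 (x0 + i * (20 * n : ℕ))
        (x0 + (i + 1) * (20 * n : ℕ)) 0 (0 + (20 * n : ℕ))} =
        ⋂ i ∈ Finset.range R, (BX 1 (x0 + i * (20 * n : ℕ))
        (x0 + (i + 1) * (20 * n : ℕ)) 0 (0 + (20 * n : ℕ)))ᶜ := by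
      ext X
      simp only [Set.mem_ofPred_eq, Set.mem_iInter, Finset.mem_range, Set.mem_compl_iff]
    rw [this]
    exact Finset.measurableSet_biInter _ fun i _ => (bx_meas _ _ _ _ _).compl
  have a1 : (tau hf).real (LX 0 x0 x1 0 (20 * n)) ≤ q ^ R := by
    have e1 := tau_real_not hf m1
    rw [sigma_hf] at e1
    refine le_trans (measureReal_mono ?_ (measure_ne_top _ _)) (e1.le.trans k1)
    intro X hX i hi
    exact hsub 0 1 (by norm_num) X hX i hi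
  have a2 : (tau hf).real {X : TF | (fun t => !X t) ∈ LX 1 x0 x1 0 (20 * n)} ≤ q ^ R := by
    refine le_trans (measureReal_mono ?_ (measure_ne_top _ _)) k0
    intro X hX i hi hB
    refine hsub 1 0 (by norm_num) _ hX i hi ?_
    simpa using hB
  unfold Cr
  refine (measureReal_union_le _ _).trans ?_
  linarith

/-- **The analytic half of HP1** -/
theorem hp1_of (h : HP1in) : HP1out := by
  obtain ⟨CL, hCL, hin⟩ := h
  obtain ⟨C, hC, htwo⟩ := two_tile
  obtain ⟨c3, hc3, hj3⟩ := join3_tile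
  obtain ⟨c2, hc2, hext⟩ := aw_ext 2 (by norm_num)
  obtain ⟨q, hq0, hq1, hCr⟩ := Cr_le
  have hCL0 : 0 < CL := by linarith
  obtain ⟨R0, hR0⟩ := exists_pow_lt_of_lt_one
    (show (0 : ℝ) < c3 / 2 / (4 * CL / c2 ^ 3) by positivity) hq1
  set R := R0 + 1 with hR
  have hqR : 4 * CL / c2 ^ 3 * q ^ R ≤ c3 / 2 := by
    have e1 : q ^ R ≤ q ^ R0 := pow_le_pow_of_le_one hq0.le hq1.le (by omega)
    have e2 : 4 * CL / c2 ^ 3 * q ^ R0 ≤ c3 / 2 := by
      have := (lt_div_iff₀ (show (0 : ℝ) < 4 * CL / c2 ^ 3 by positivity)).1 hR0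
      linarith
    exact (mul_le_mul_of_nonneg_left e1 (by positivity)).trans e2
  set D : ℝ := 2 * CL * C / c3 with hD
  have hD0 : 0 < D := by positivity
  refine ⟨max 1 (D ^ (1 / 3 : ℝ)), by positivity, fun n hn => ?_⟩
  have hn0 : (0 : ℝ) < n := by exact_mod_cast hn
  by_cases hn2 : n < 2
  · have : n = 1 := by omega
    subst this
    simpa using (aw_le_one 1).trans (le_max_left 1 (D ^ (1 / 3 : ℝ)))
  rw [not_lt] at hn2
  obtain ⟨N, x0, x1, a, b, hx0, hx1, ha, hN, hint, hineq⟩ := hin R n (by omega) hn2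
  have hNd : Cn109.DepF (bxF a b 0 (20 * n)) fun X : TF => (2 : ℝ) ^ N X := by
    intro X X' hX
    show (2 : ℝ) ^ N X = (2 : ℝ) ^ N X'
    rw [hN X X' hX]
  have hRn : (0 : ℤ) ≤ R * (20 * n) := by positivity
  have e1 : ∫ X in E1 n, (2 : ℝ) ^ N X ∂(tau hf) ≤ C / n * CL := by
    have d : Disjoint (bxF (-1 - n) n 0 n) (bxF a b 0 (20 * n)) := bxF_disj (by omega)
    have e := setInt_indep (fun _ : P2 => hf) d (E1_dep n) hNd
    change ∫ X in E1 n, (2 : ℝ) ^ N X ∂(tau hf) = (tau hf).real (E1 n) * ∫ X, (2 : ℝ) ^ N X ∂(tau hf) at e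
    rw [e]
    refine mul_le_mul ?_ hint (integral_nonneg fun X => by positivity) (by positivity)
    have := htwo (-1) n hn
    rw [show (-1 : ℤ) + 1 = 0 by norm_num] at this
    exact this
  have hawr : aw (rr n) ≤ aw n / c2 := by
    rw [le_div_iff₀ hc2, mul_comm]
    exact (hext (rr n) (rr_pos hn)).trans (aw_anti (le_two_rr n))
  have e2 : ∫ X in E2 n ∩ Cr x0 x1 (20 * n), (2 : ℝ) ^ N X ∂(tau hf) ≤
      4 * CL / c2 ^ 3 * q ^ R * aw n ^ 3 := by
    have d1 : Disjoint (bxF (-1 - 3 * n) (4 * n) 0 n) (bxF x0 x1 0 (20 * n)) := bxF_disj (by omega)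
    have i1 := PB_indep_real (fun _ : P2 => hf) d1 (E2_dep hn) (Cr_dep x0 x1 (20 * n))
    change (tau hf).real _ = (tau hf).real _ * (tau hf).real _ at i1
    have d2 : Disjoint (bxF (-1 - 3 * n) x1 0 (20 * n)) (bxF a b 0 (20 * n)) := bxF_disj ha
    have hdep : Dep (bxF (-1 - 3 * n) x1 0 (20 * n)) (E2 n ∩ Cr x0 x1 (20 * n)) :=
      ((E2_dep hn).mono (bxF_sub le_rfl (by omega) le_rfl (by omega))).inter
        ((Cr_dep x0 x1 (20 * n)).mono (bxF_sub (by omega) le_rfl le_rfl le_rfl))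
    have e := setInt_indep (fun _ : P2 => hf) d2 hdep hNd
    change ∫ X in _, (2 : ℝ) ^ N X ∂(tau hf) = (tau hf).real _ * ∫ X, (2 : ℝ) ^ N X ∂(tau hf) at e
    rw [e, i1]
    have hE2 := E2_le hn2
    have hE2' : (tau hf).real (E2 n) ≤ 2 * (aw n / c2) ^ 3 := by
      refine hE2.trans ?_
      have := aw_nonneg (rr n)
      gcongr
    have hCr' := hCr n R hn x0 x1 hx1
    have hawn := aw_nonneg n
    calc (tau hf).real (E2 n) * (tau hf).real (Cr x0 x1 (20 * n)) * ∫ X, (2 : ℝ) ^ N X ∂(tau hf)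
        ≤ (2 * (aw n / c2) ^ 3) * (2 * q ^ R) * CL := by
          refine mul_le_mul (mul_le_mul hE2' hCr' measureReal_nonneg (by positivity)) hint
            (integral_nonneg fun X => by positivity) (by positivity)
      _ = 4 * CL / c2 ^ 3 * q ^ R * aw n ^ 3 := by
          field_simp
          ring
  have hj : c3 * aw n ^ 3 ≤ (tau hf).real (J3 n) := hj3 (-1) n hn
  have hawn := aw_nonneg n
  have hmain : c3 * aw n ^ 3 ≤ C / n * CL + c3 / 2 * aw n ^ 3 := by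
    refine (hj.trans hineq).trans (add_le_add e1 (e2.trans ?_))
    exact mul_le_mul_of_nonneg_right hqR (by positivity)
  have hcube : aw n ^ 3 ≤ D / n := by
    have h5 : c3 / 2 * aw n ^ 3 ≤ C / n * CL := by linarith
    have h6 : D / n = (C / n * CL) / (c3 / 2) := by
      rw [hD]; field_simp
    rw [h6, le_div_iff₀ (by positivity)]
    linarith
  have hroot : aw n ≤ (D / n) ^ (1 / 3 : ℝ) := by
    have h7 : aw n = (aw n ^ 3) ^ (1 / 3 : ℝ) := by
      rw [← Real.rpow_natCast, ← Real.rpow_mul hawn]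
      norm_num
    rw [h7]
    exact Real.rpow_le_rpow (by positivity) hcube (by norm_num)
  refine hroot.trans ?_
  rw [Real.div_rpow hD0.le hn0.le, Real.rpow_neg hn0.le, div_eq_mul_inv]
  exact mul_le_mul_of_nonneg_right (le_max_right _ _) (by positivity)

end Crest.Agent.R158.Hp854
end
end

-- ▼ part R158/Hr3_440
section

/-!
# R158, block HP1 (helper440): HP1 closed
-/

set_option autoImplicit false

namespace Crest.Agent.R158.Hp854

theorem nringLR : NringLR := by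
  intro M L H _ _ _ _ hL hM x τ
  exact nring_le_LR hL hM x τ

theorem hp1_in : HP1in := hp1in nringLR

/-- **HP1** -/
theorem hp1_out : HP1out := hp1_of hp1_in

end Crest.Agent.R158.Hp854
end

-- ▼ part R158/Bu1_612
section

/-!
# Row 158 (helper612): the budget (H)

* `pm_up` : `Pm n ≤ C n^(-1/3)`
* `budget`, `budget_x2`
-/

set_option autoImplicit false

noncomputable section

namespace Crest.Agent.R158.Bu612

open Real Filter
open Crest.Agent.R158.Nz399 (Pm)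
open Crest.Agent.R158.Zm180 (pm_aw pm_ext pm_lower pm_anti)

theorem pm_up : ∃ C : ℝ, 0 < C ∧ ∀ n : ℕ, 1 ≤ n → Pm n ≤ C * (n : ℝ) ^ (-(1 / 3 : ℝ)) := by
  obtain ⟨C, hC, h⟩ := Hp854.hp1_out
  exact ⟨C, hC, fun n hn => by rw [pm_aw hn]; exact h n hn⟩

theorem pm_nonneg (n : ℕ) : 0 ≤ Pm n := MeasureTheory.measureReal_nonneg

/-- square roots of products -/
theorem prod_le_of_sq {x y s t : ℝ} (hs : 0 ≤ s) (ht : 0 ≤ t)
    (h : x ^ 2 * y ^ 2 ≤ s ^ 2 * t) : x * y ≤ s * √t := by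
  have h1 : (x * y) ^ 2 ≤ (s * √t) ^ 2 := by
    rw [mul_pow, mul_pow, sq_sqrt ht]
    exact h
  exact le_of_sq_le_sq h1 (by positivity)

/-- **the budget of the family** -/
theorem budget {ε : ℝ} (hε : 0 < ε) {κ : ℕ} (hκ : 1 ≤ κ) {C0 c0 : ℝ} (hC0 : 0 < C0)
    (hc0 : 0 < c0) : ∃ C : ℝ, 0 < C ∧ ∀ n : ℕ, 1 ≤ n → ∀ {ι : Type*} (J : Finset ι) (I O : ι → ℝ)
      (S Z : ℝ), 0 < S → (J.card : ℝ) ≤ C0 * n →
      (∀ μ ∈ J, I μ ^ 2 * O μ ^ 2 ≤ S ^ 2 * (C0 * (n : ℝ) ^ ε * Pm n ^ 4 * (n : ℝ)⁻¹)) →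
      c0 * S * Pm (κ * n) ≤ Z →
      ∑ μ ∈ J, I μ * O μ ≤ C * (n : ℝ) ^ (1 / 6 + ε) * Z := by
  obtain ⟨C1, hC1, hup⟩ := pm_up
  obtain ⟨c1, hc1, hext⟩ := pm_ext κ hκ
  refine ⟨C0 * √C0 * C1 / (c0 * c1), by positivity, ?_⟩
  intro n hn ι J I O S Z hS hJ hb hZ
  have hn1 : (1 : ℝ) ≤ n := by exact_mod_cast hn
  have hn0 : (0 : ℝ) < n := by linarith
  have hP := pm_nonneg n
  have hu := hup n hn
  have he := hext n hn
  -- one member
  have h1 : ∀ μ ∈ J, I μ * O μ ≤ S * (√C0 * (n : ℝ) ^ (ε / 2) * Pm n ^ 2 * (n : ℝ) ^ (-(1 / 2 : ℝ))) := by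
    intro μ hμ
    have h2 := prod_le_of_sq hS.le (by positivity) (hb μ hμ)
    have h3 : √(C0 * (n : ℝ) ^ ε * Pm n ^ 4 * (n : ℝ)⁻¹) =
        √C0 * (n : ℝ) ^ (ε / 2) * Pm n ^ 2 * (n : ℝ) ^ (-(1 / 2 : ℝ)) := by
      rw [sqrt_eq_iff_mul_self_eq (by positivity) (by positivity)]
      have e1 : √C0 * √C0 = C0 := mul_self_sqrt hC0.le
      have e2 : (n : ℝ) ^ (ε / 2) * (n : ℝ) ^ (ε / 2) = (n : ℝ) ^ ε := by
        rw [← rpow_add hn0]; congr 1; ring
      have e3 : (n : ℝ) ^ (-(1 / 2 : ℝ)) * (n : ℝ) ^ (-(1 / 2 : ℝ)) = (n : ℝ)⁻¹ := by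
        rw [← rpow_add hn0, ← rpow_neg_one]; congr 1; ring
      symm
      calc √C0 * (n : ℝ) ^ (ε / 2) * Pm n ^ 2 * (n : ℝ) ^ (-(1 / 2 : ℝ)) *
            (√C0 * (n : ℝ) ^ (ε / 2) * Pm n ^ 2 * (n : ℝ) ^ (-(1 / 2 : ℝ)))
          = (√C0 * √C0) * ((n : ℝ) ^ (ε / 2) * (n : ℝ) ^ (ε / 2)) * Pm n ^ 4 *
            ((n : ℝ) ^ (-(1 / 2 : ℝ)) * (n : ℝ) ^ (-(1 / 2 : ℝ))) := by ring
        _ = _ := by rw [e1, e2, e3]
    rw [h3] at h2
    exact h2
  have hX0 : 0 ≤ S * (√C0 * (n : ℝ) ^ (ε / 2) * Pm n ^ 2 * (n : ℝ) ^ (-(1 / 2 : ℝ))) := by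
    positivity
  have hPm : Pm n ^ 2 ≤ C1 * (n : ℝ) ^ (-(1 / 3 : ℝ)) * (Pm (κ * n) / c1) := by
    have h4 : Pm n ≤ Pm (κ * n) / c1 := by rw [le_div_iff₀ hc1]; linarith
    rw [sq]
    exact mul_le_mul hu h4 hP (by positivity)
  have hPZ : Pm (κ * n) ≤ Z / (c0 * S) := by
    rw [le_div_iff₀ (by positivity)]
    linarith
  have hZ0 : 0 ≤ Z := le_trans (mul_nonneg (by positivity) (pm_nonneg _)) hZ
  calc ∑ μ ∈ J, I μ * O μ
      ≤ ∑ _μ ∈ J, S * (√C0 * (n : ℝ) ^ (ε / 2) * Pm n ^ 2 * (n : ℝ) ^ (-(1 / 2 : ℝ))) :=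
        Finset.sum_le_sum h1
    _ = (J.card : ℝ) * (S * (√C0 * (n : ℝ) ^ (ε / 2) * Pm n ^ 2 * (n : ℝ) ^ (-(1 / 2 : ℝ)))) := by
        rw [Finset.sum_const, nsmul_eq_mul]
    _ ≤ (C0 * n) * (S * (√C0 * (n : ℝ) ^ (ε / 2) * Pm n ^ 2 * (n : ℝ) ^ (-(1 / 2 : ℝ)))) :=
        mul_le_mul_of_nonneg_right hJ hX0
    _ = C0 * √C0 * S * ((n : ℝ) * (n : ℝ) ^ (ε / 2) * (n : ℝ) ^ (-(1 / 2 : ℝ))) * Pm n ^ 2 := by
        ring
    _ ≤ C0 * √C0 * S * ((n : ℝ) * (n : ℝ) ^ (ε / 2) * (n : ℝ) ^ (-(1 / 2 : ℝ))) *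
          (C1 * (n : ℝ) ^ (-(1 / 3 : ℝ)) * ((Z / (c0 * S)) / c1)) := by
        refine mul_le_mul_of_nonneg_left (hPm.trans ?_) (by positivity)
        exact mul_le_mul_of_nonneg_left (div_le_div_of_nonneg_right hPZ hc1.le) (by positivity)
    _ = C0 * √C0 * C1 / (c0 * c1) * ((n : ℝ) * (n : ℝ) ^ (ε / 2) * (n : ℝ) ^ (-(1 / 2 : ℝ)) *
          (n : ℝ) ^ (-(1 / 3 : ℝ))) * Z := by
        field_simp
    _ ≤ C0 * √C0 * C1 / (c0 * c1) * (n : ℝ) ^ (1 / 6 + ε) * Z := by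
        refine mul_le_mul_of_nonneg_right (mul_le_mul_of_nonneg_left ?_ (by positivity)) hZ0
        have e4 : (n : ℝ) * (n : ℝ) ^ (ε / 2) * (n : ℝ) ^ (-(1 / 2 : ℝ)) *
            (n : ℝ) ^ (-(1 / 3 : ℝ)) = (n : ℝ) ^ (1 / 6 + ε / 2) := by
          nth_rewrite 1 [← rpow_one (n : ℝ)]
          rw [← rpow_add hn0, ← rpow_add hn0, ← rpow_add hn0]
          congr 1; ring
        rw [e4]
        exact rpow_le_rpow_of_exponent_le hn1 (by linarith)

/-- **the budget of the extra member** -/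
theorem budget_x2 {ε : ℝ} (hε : 0 < ε) {κ : ℕ} (hκ : 1 ≤ κ) {C0 c0 : ℝ} (hC0 : 0 < C0)
    (hc0 : 0 < c0) : ∃ C : ℝ, 0 < C ∧ ∀ n : ℕ, 1 ≤ n → ∀ (I O S Z : ℝ), 0 < S →
      I ^ 2 * O ^ 2 ≤ S ^ 2 * (C0 * (n : ℝ) ^ ε * Pm n ^ 3) → c0 * S * Pm (κ * n) ≤ Z →
      I * O ≤ C * (n : ℝ) ^ ε * Z := by
  obtain ⟨c1, hc1, hext⟩ := pm_ext κ hκ
  refine ⟨√C0 / (c0 * c1), by positivity, ?_⟩
  intro n hn I O S Z hS hb hZ
  have hn1 : (1 : ℝ) ≤ n := by exact_mod_cast hn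
  have hn0 : (0 : ℝ) < n := by linarith
  have hP := pm_nonneg n
  have hP1 : Pm n ≤ 1 := MeasureTheory.measureReal_le_one
  have he := hext n hn
  have hZ0 : 0 ≤ Z := le_trans (mul_nonneg (by positivity) (pm_nonneg _)) hZ
  have hb' : I ^ 2 * O ^ 2 ≤ S ^ 2 * (C0 * ((n : ℝ) ^ ε * Pm n) ^ 2) := by
    refine hb.trans (mul_le_mul_of_nonneg_left ?_ (by positivity))
    have e1 : (1 : ℝ) ≤ (n : ℝ) ^ ε := one_le_rpow hn1 hε.le
    have e2 : Pm n ^ 3 ≤ Pm n ^ 2 := pow_le_pow_of_le_one hP hP1 (by norm_num)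
    calc C0 * (n : ℝ) ^ ε * Pm n ^ 3 ≤ C0 * (n : ℝ) ^ ε * Pm n ^ 2 :=
          mul_le_mul_of_nonneg_left e2 (by positivity)
      _ ≤ C0 * ((n : ℝ) ^ ε) ^ 2 * Pm n ^ 2 := by
          refine mul_le_mul_of_nonneg_right (mul_le_mul_of_nonneg_left ?_ hC0.le) (sq_nonneg _)
          nlinarith
      _ = C0 * ((n : ℝ) ^ ε * Pm n) ^ 2 := by ring
  have h2 := prod_le_of_sq hS.le (by positivity) hb'
  rw [sqrt_mul hC0.le, sqrt_sq (by positivity)] at h2
  have hPZ : Pm n ≤ (Z / (c0 * S)) / c1 := by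
    rw [le_div_iff₀ hc1, le_div_iff₀ (by positivity)]
    calc Pm n * c1 * (c0 * S) = c0 * S * (c1 * Pm n) := by ring
      _ ≤ c0 * S * Pm (κ * n) := mul_le_mul_of_nonneg_left he (by positivity)
      _ ≤ Z := hZ
  calc I * O ≤ S * (√C0 * ((n : ℝ) ^ ε * Pm n)) := h2
    _ ≤ S * (√C0 * ((n : ℝ) ^ ε * ((Z / (c0 * S)) / c1))) := by
        refine mul_le_mul_of_nonneg_left (mul_le_mul_of_nonneg_left
          (mul_le_mul_of_nonneg_left hPZ (by positivity)) (by positivity)) hS.le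
    _ = √C0 / (c0 * c1) * (n : ℝ) ^ ε * Z := by
        field_simp

end Crest.Agent.R158.Bu612
end
end

-- ▼ part R158/Nz9_399
section

/-!
# R158, block Q1d (helper399), part 9: `NormP` from the norms of the two halves

* `int_zr_neg` : the expectation of a network does not change under `ch -> -ch`
* `HB κ M ρ m a b c V` : `V` is the integral of a function with the pointwise bound of a half
  environment with `a` marks, `b`, `c` factors `e2`, `e1`
* `hb_le` : the resulting bound of `V`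
* `NormIn`, `normP_of` : `CP → NormIn fz P → NormP fz P`
-/

set_option autoImplicit false

noncomputable section

namespace Crest.Agent.R158.Nz399

open MeasureTheory ProbabilityTheory unitInterval
open Crest.Agent.R158.Rs689
open Crest.Agent.R158.Nm211
open Crest.Agent.R158.Ka470
open Crest.Agent.R158.Env664 (TG D Run Band)
open Crest.Agent.R158.Sw300 (Port)
open Crest.Agent.R158.Ad350 (ports tnet)
open Crest.Agent.R158.Cs410 (nrm nrm_nonneg FZ NormP OnB InHalf InA OutA)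
open Crest.Agent.R158.Bd932 (That e3)
open Crest.Agent.R158.Ao857 (nn)
open Crest.Agent.R158.Tj656 (P4)
open Matrix

/-- arrow reversal -/
theorem int_zr_neg {T : Type*} [DecidableEq T] {A : Finset T} {be : Port T → Port T}
    (hbe : ∀ p ∈ ports A, be p ∈ ports A) (hb2 : ∀ p ∈ ports A, be (be p) = p)
    (ch : Port T → ℝ) :
    ∫ s, zr A be (fun p => -ch p) s ∂(PB fun _ : T => hf) =
      ∫ s, zr A be ch s ∂(PB fun _ : T => hf) := by
  have key : ∀ ch : Port T → ℝ, Da570.Zc A be ch =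
      ((∫ s, zr A be ch s ∂(PB fun _ : T => hf) : ℝ) : ℂ) := by
    intro ch
    rw [Da570.Zc_eq hbe, avg A (zr_dep A be ch)]
    push_cast
    congr 1
    exact Finset.sum_congr rfl fun S _ => zr_eq ch _ hbe hb2
  have h := Da570.Zc_neg hbe ch
  rw [key, key] at h
  exact_mod_cast h

/-- data for the norm of a half -/
def HB (κ M ρ m a b c : ℕ) (V : ℝ) : Prop :=
  ∃ (A : Half) (h : A.Sz ρ), A.Bd ρ κ ∧ ∃ X : Finset Sp, X.card ≤ M ∧
    (∀ x ∈ X, ∀ y ∈ X, x ≠ y → Disjoint (x.sup h (3 * ρ)) (y.sup h (3 * ρ))) ∧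
    (∀ x ∈ X, x.In h (3 * ρ)) ∧ cnt X .cv ≤ cnt X .rf ∧
    cnt X .mk = a ∧ cnt X .e2 = b ∧ cnt X .e1 = c ∧
    ∃ (T : Finset (TG × Bool)) (Z : (TG × Bool → Bool) → ℝ), DepF T Z ∧
      V ≤ ∫ s, Z s ∂(PB fun _ : TG × Bool => hf) ∧
      ∀ s, Z s ≤ √3 ^ m * ((∏ x ∈ X, x.val h (3 * ρ) s) * 2 ^ BN h s)

theorem hb_le (hcp : CP) (κ M : ℕ) {ε : ℝ} (hε : 0 < ε) : ∃ C : ℝ, 1 ≤ C ∧
    ∀ (ρ m a b c : ℕ) (V : ℝ), HB κ M ρ m a b c V →
      V ≤ √3 ^ m * (C * ((3 * ρ : ℕ) : ℝ) ^ ε *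
        (Pm (3 * ρ) ^ a * mean .e2 (3 * ρ) ^ b * mean .e1 (3 * ρ) ^ c)) := by
  obtain ⟨C, hC, h⟩ := asm3 hcp κ M (b := 2) (by norm_num) hε
  refine ⟨C, hC, ?_⟩
  rintro ρ m a b c V ⟨A, hs, hbd, X, h1, h2, h3, h4, rfl, rfl, rfl, T, Z, h5, h6, h7⟩
  have hρ := hs.pos
  exact h6.trans (h A ρ hs hbd (3 * ρ) (by omega) X h1 h2 h3 h4 _ (by positivity) T Z h5 h7)

/-- norm below -/
def nI {F : Finset (ℤ × ℤ)} {L : ℤ} {B : Band (D F L)} (Fm : Cs410.FamZ B) (a1 : ℕ) (μ : Fm.J) :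
    ℝ :=
  nrm (That (nn B + 1) (Fm.c μ) (1 / 2) ^ a1 *ᵥ InA B (Fm.φ μ))

/-- norm above -/
def nO {F : Finset (ℤ × ℤ)} {L : ℤ} {B : Band (D F L)} (Fm : Cs410.FamZ B) (b1 : ℕ) (μ : Fm.J) :
    ℝ :=
  nrm (OutA B (Fm.φ μ) ᵥ* That (nn B + 2) (Fm.c μ + e3) (1 / 2) ^ b1)

/-- norms of a member with `k` ends with two charged gaps -/
def Mem {F : Finset (ℤ × ℤ)} {L : ℤ} {B : Band (D F L)} (Fm : Cs410.FamZ B) (κ M ρ ml mu a1 b1 : ℕ)
    (k : ℕ) (μ : Fm.J) : Prop :=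
  ∃ a a' b b' c c' : ℕ, a + a' = 3 ∧ b + b' = k ∧ c + c' = k ∧
    HB κ M ρ ml a b c (nI Fm a1 μ ^ 2) ∧ HB κ M ρ mu a' b' c' (nO Fm b1 μ ^ 2)

/-- **geometric input of the norm estimate** -/
def NormIn (fz : FZ) (P : P4) : Prop :=
  ∃ h0 : ℝ, 0 < h0 ∧ ∀ A B' r : ℤ, Run P.F A B' r → ∀ h y δ : ℝ, 0 < h → h < h0 →
    0 < δ → δ ≤ h / 100 → InHalf r (y - 4 * h) (y + 4 * h) →
    ∃ (κ M : ℕ) (c0 : ℝ) (L0 : ℤ), 1 ≤ κ ∧ 0 < c0 ∧ 1 ≤ L0 ∧ ∀ L : ℤ, L0 ≤ L →
      Even L → ∀ B : Band (D P.F L), OnB A B' L h y B →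
      ∃ ρ ml mu : ℕ, 1 ≤ ρ ∧ L ≤ κ * (3 * ρ) ∧ 3 * (ρ : ℤ) ≤ L ∧
        c0 * √3 ^ (((ml : ℝ) + mu) / 2) * Pm L.toNat ≤ ‖(fz P L δ B).Z‖ ∧
        (∀ μ, ‖(fz P L δ B).co μ‖ ≤ 1) ∧
        ∃ J0 : Finset (fz P L δ B).J, J0.card ≤ κ ∧
          (Fintype.card (fz P L δ B).J : ℝ) ≤ κ * (L : ℝ) ∧
          (∀ μ ∈ J0, Mem (fz P L δ B) κ M ρ ml mu (⌊(y - 2 * h) * L⌋ - B.y1).toNat
            (B.y2 - ⌊(y + 2 * h) * L⌋).toNat 0 μ) ∧
          ∀ μ ∉ J0, Mem (fz P L δ B) κ M ρ ml mu (⌊(y - 2 * h) * L⌋ - B.y1).toNat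
            (B.y2 - ⌊(y + 2 * h) * L⌋).toNat 1 μ

theorem pm_pos {n : ℕ} (hn : 1 ≤ n) : 0 < Pm n := by
  obtain ⟨c, hc, h⟩ := Zm180.pm_lower
  have hn0 : (0 : ℝ) < n := by exact_mod_cast hn
  exact lt_of_lt_of_le (by positivity) (h n hn)

theorem normP_of (hcp : CP) {fz : FZ} {P : P4} (hin : NormIn fz P) : NormP fz P := by
  classical
  obtain ⟨h0, hh0, hin⟩ := hin
  refine ⟨1 / 4, h0, by norm_num, hh0, fun A B' r hrun h y δ hh hlt hδ hδh hhalf => ?_⟩
  obtain ⟨κ, M, c0, L0, hκ, hc0, hL1, hin⟩ := hin A B' r hrun h y δ hh hlt hδ hδh hhalf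
  obtain ⟨C1, hC1, hb1⟩ := hb_le hcp κ M (ε := 1 / 24) (by norm_num)
  obtain ⟨C2, hC2, hE2⟩ := Tw440.E2_le
  -- constants of the budget
  set K0 : ℝ := C1 * C1 * (2 * C2 + 1) + 3 * κ * κ with hK0
  have hκr : (1 : ℝ) ≤ κ := by exact_mod_cast hκ
  have hK0pos : 0 < K0 := by positivity
  obtain ⟨D1, hD1, bud1⟩ := Bu612.budget.{0} (ε := 1 / 12) (by norm_num) hκ hK0pos hc0
  obtain ⟨D2, hD2, bud2⟩ := Bu612.budget_x2 (ε := 1 / 12) (by norm_num) hκ hK0pos hc0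
  refine ⟨D1 + κ * D2, L0, fun L hL hev B hB => ?_⟩
  have hin' := hin L hL hev B hB
  generalize fz P L δ B = Fm at hin' ⊢
  obtain ⟨ρ, ml, mu, hρ, hLκ, hρL, hZ, hco, J0, hJ0, hcard, hm0, hm1⟩ := hin'
  set a1 := (⌊(y - 2 * h) * L⌋ - B.y1).toNat
  set b1 := (B.y2 - ⌊(y + 2 * h) * L⌋).toNat
  set n : ℕ := 3 * ρ with hn
  have hn1 : 1 ≤ n := by omega
  have hnr : (1 : ℝ) ≤ n := by exact_mod_cast hn1
  have hn0 : (0 : ℝ) < n := by linarith
  have hLpos : (0 : ℤ) < L := by omega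
  have hLr : (1 : ℝ) ≤ L := by exact_mod_cast (by omega : (1 : ℤ) ≤ L)
  set S : ℝ := √3 ^ (((ml : ℝ) + mu) / 2) with hS
  have hSpos : 0 < S := by positivity
  have hS2 : S ^ 2 = √3 ^ ml * √3 ^ mu := by
    rw [hS, ← Real.rpow_natCast (√3 ^ (((ml : ℝ) + mu) / 2)) 2, ← Real.rpow_mul (by positivity),
      ← pow_add, ← Real.rpow_natCast √3 (ml + mu)]
    congr 1
    push_cast
    ring
  have hLn : L.toNat ≤ κ * n := by
    have : (L.toNat : ℤ) ≤ ((κ * n : ℕ) : ℤ) := by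
      rw [Int.toNat_of_nonneg hLpos.le]
      rw [hn]
      push_cast
      exact hLκ
    exact_mod_cast this
  have hL1' : 1 ≤ L.toNat := by omega
  have hZ' : c0 * S * Pm (κ * n) ≤ ‖Fm.Z‖ := by
    refine le_trans ?_ hZ
    exact mul_le_mul_of_nonneg_left (Zm180.pm_anti hL1' hLn) (by positivity)
  have hZpos : 0 < ‖Fm.Z‖ := lt_of_lt_of_le (mul_pos (mul_pos hc0 hSpos)
    (pm_pos (by nlinarith))) hZ'
  have hP0 := Bu612.pm_nonneg n
  -- bound of the product of the squares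
  have key : ∀ (k : ℕ) (μ : Fm.J), Mem Fm κ M ρ ml mu a1 b1 k μ →
      nI Fm a1 μ ^ 2 * nO Fm b1 μ ^ 2 ≤ S ^ 2 * (C1 * C1 * (n : ℝ) ^ (1 / 12 : ℝ) *
        (Pm n ^ 3 * mean .e2 n ^ k * mean .e1 n ^ k)) := by
    rintro k μ ⟨a, a', b, b', c, c', e1, e2, e3', h1, h2⟩
    have g1 := hb1 ρ ml a b c _ h1
    have g2 := hb1 ρ mu a' b' c' _ h2
    rw [← hn] at g1 g2
    have m2 := mean_nonneg .e2 n
    have m1 := mean_nonneg .e1 n
    have g3 := mul_le_mul g1 g2 (sq_nonneg _) (by positivity)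
    refine g3.trans (le_of_eq ?_)
    have e4 : (n : ℝ) ^ (1 / 12 : ℝ) = (n : ℝ) ^ (1 / 24 : ℝ) * (n : ℝ) ^ (1 / 24 : ℝ) := by
      rw [← Real.rpow_add hn0]; norm_num
    have e5 : Pm n ^ 3 = Pm n ^ a * Pm n ^ a' := by rw [← pow_add, e1]
    have e6 : mean .e2 n ^ k = mean .e2 n ^ b * mean .e2 n ^ b' := by rw [← pow_add, e2]
    have e7 : mean .e1 n ^ k = mean .e1 n ^ c * mean .e1 n ^ c' := by rw [← pow_add, e3']
    rw [e4, e5, e6, e7, hS2]
    ring
  have hme2 : mean .e2 n ≤ C2 / n := by rw [mean_e2 hn1]; exact hE2 n hn1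
  have hme1 := mean_e1 n
  have hone : ∀ μ ∈ (Finset.univ \ J0 : Finset Fm.J), nI Fm a1 μ ^ 2 * nO Fm b1 μ ^ 2 ≤
      S ^ 2 * (K0 * (n : ℝ) ^ (1 / 12 : ℝ) * Pm n ^ 4 * (n : ℝ)⁻¹) := by
    intro μ hμ
    have hμ' : μ ∉ J0 := (Finset.mem_sdiff.1 hμ).2
    refine (key 1 μ (hm1 μ hμ')).trans (mul_le_mul_of_nonneg_left ?_ (sq_nonneg S))
    rw [pow_one, pow_one]
    have m2 := mean_nonneg .e2 n
    have m1 := mean_nonneg .e1 n
    have h3 : mean .e2 n * mean .e1 n ≤ (C2 / n) * (2 * Pm n) :=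
      mul_le_mul hme2 hme1 m1 (by positivity)
    calc C1 * C1 * (n : ℝ) ^ (1 / 12 : ℝ) * (Pm n ^ 3 * mean .e2 n * mean .e1 n)
        = C1 * C1 * (n : ℝ) ^ (1 / 12 : ℝ) * Pm n ^ 3 * (mean .e2 n * mean .e1 n) := by ring
      _ ≤ C1 * C1 * (n : ℝ) ^ (1 / 12 : ℝ) * Pm n ^ 3 * ((C2 / n) * (2 * Pm n)) :=
          mul_le_mul_of_nonneg_left h3 (by positivity)
      _ = (C1 * C1 * (2 * C2)) * ((n : ℝ) ^ (1 / 12 : ℝ) * Pm n ^ 4 * (n : ℝ)⁻¹) := by
          field_simp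
      _ ≤ K0 * ((n : ℝ) ^ (1 / 12 : ℝ) * Pm n ^ 4 * (n : ℝ)⁻¹) := by
          refine mul_le_mul_of_nonneg_right ?_ (by positivity)
          rw [hK0]
          have : 0 ≤ C1 * C1 := by positivity
          nlinarith
      _ = _ := by ring
  have hzero : ∀ μ ∈ J0, nI Fm a1 μ ^ 2 * nO Fm b1 μ ^ 2 ≤
      S ^ 2 * (K0 * (n : ℝ) ^ (1 / 12 : ℝ) * Pm n ^ 3) := by
    intro μ hμ
    refine (key 0 μ (hm0 μ hμ)).trans (mul_le_mul_of_nonneg_left ?_ (sq_nonneg S))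
    rw [pow_zero, pow_zero, mul_one, mul_one]
    calc C1 * C1 * (n : ℝ) ^ (1 / 12 : ℝ) * Pm n ^ 3
        = (C1 * C1) * ((n : ℝ) ^ (1 / 12 : ℝ) * Pm n ^ 3) := by ring
      _ ≤ K0 * ((n : ℝ) ^ (1 / 12 : ℝ) * Pm n ^ 3) := by
          refine mul_le_mul_of_nonneg_right ?_ (by positivity)
          rw [hK0]
          have h4 : 0 ≤ C1 * C1 := by positivity
          have h5 : 0 ≤ C1 * C1 * (2 * C2) := by positivity
          nlinarith
      _ = _ := by ring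
  -- the sums
  have hJc : ((Finset.univ \ J0 : Finset Fm.J).card : ℝ) ≤ K0 * n := by
    have h1 : ((Finset.univ \ J0 : Finset Fm.J).card : ℝ) ≤ Fintype.card Fm.J := by
      have := Finset.card_le_univ (Finset.univ \ J0 : Finset Fm.J)
      exact_mod_cast this
    refine h1.trans (hcard.trans ?_)
    have h2 : (L : ℝ) ≤ κ * n := by
      rw [hn]
      push_cast
      exact_mod_cast hLκ
    calc (κ : ℝ) * L ≤ κ * (κ * n) := mul_le_mul_of_nonneg_left h2 (by positivity)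
      _ = (κ * κ) * n := by ring
      _ ≤ K0 * n := by
          refine mul_le_mul_of_nonneg_right ?_ hn0.le
          rw [hK0]
          have : 0 ≤ C1 * C1 * (2 * C2 + 1) := by positivity
          nlinarith
  have hs1 := bud1 n hn1 (Finset.univ \ J0 : Finset Fm.J) (nI Fm a1) (nO Fm b1) S ‖Fm.Z‖ hSpos
    hJc hone hZ'
  have hs0 : ∀ μ ∈ J0, nI Fm a1 μ * nO Fm b1 μ ≤ D2 * (n : ℝ) ^ (1 / 12 : ℝ) * ‖Fm.Z‖ :=
    fun μ hμ => bud2 n hn1 _ _ S _ hSpos (hzero μ hμ) hZ'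
  refine ⟨norm_pos_iff.1 hZpos, ?_⟩
  have hnL : (n : ℝ) ≤ L := by
    rw [hn]
    push_cast
    exact_mod_cast hρL
  have hI0 : ∀ μ, 0 ≤ nI Fm a1 μ := fun μ => nrm_nonneg _
  have hO0 : ∀ μ, 0 ≤ nO Fm b1 μ := fun μ => nrm_nonneg _
  have hnm : Fm.nm a1 b1 ≤ ∑ μ, nI Fm a1 μ * nO Fm b1 μ := by
    unfold Cs410.FamZ.nm
    refine Finset.sum_le_sum fun μ _ => ?_
    have h1 : (0 : ℝ) ≤ nI Fm a1 μ * nO Fm b1 μ := mul_nonneg (hI0 μ) (hO0 μ)
    have h2 := mul_le_mul_of_nonneg_right (hco μ) h1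
    rw [one_mul] at h2
    exact h2
  refine hnm.trans ?_
  rw [← Finset.sum_sdiff (Finset.subset_univ J0)]
  have hp1 : (n : ℝ) ^ (1 / 6 + 1 / 12 : ℝ) ≤ (L : ℝ) ^ (1 / 4 : ℝ) := by
    have e : (1 / 6 + 1 / 12 : ℝ) = 1 / 4 := by norm_num
    rw [e]
    exact Real.rpow_le_rpow hn0.le hnL (by norm_num)
  have hp2 : (n : ℝ) ^ (1 / 12 : ℝ) ≤ (L : ℝ) ^ (1 / 4 : ℝ) :=
    (Real.rpow_le_rpow hn0.le hnL (by norm_num)).trans
      (Real.rpow_le_rpow_of_exponent_le hLr (by norm_num))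
  have t1 : ∑ μ ∈ (Finset.univ \ J0 : Finset Fm.J), nI Fm a1 μ * nO Fm b1 μ ≤
      D1 * (L : ℝ) ^ (1 / 4 : ℝ) * ‖Fm.Z‖ := by
    refine hs1.trans ?_
    gcongr
  have t0 : ∑ μ ∈ J0, nI Fm a1 μ * nO Fm b1 μ ≤ κ * D2 * (L : ℝ) ^ (1 / 4 : ℝ) * ‖Fm.Z‖ := by
    refine (Finset.sum_le_card_nsmul _ _ _ hs0).trans ?_
    rw [nsmul_eq_mul]
    have h1 : (J0.card : ℝ) ≤ κ := by exact_mod_cast hJ0
    calc (J0.card : ℝ) * (D2 * (n : ℝ) ^ (1 / 12 : ℝ) * ‖Fm.Z‖)
        ≤ κ * (D2 * (L : ℝ) ^ (1 / 4 : ℝ) * ‖Fm.Z‖) := by gcongr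
      _ = _ := by ring
  calc _ ≤ D1 * (L : ℝ) ^ (1 / 4 : ℝ) * ‖Fm.Z‖ + κ * D2 * (L : ℝ) ^ (1 / 4 : ℝ) * ‖Fm.Z‖ :=
        add_le_add t1 t0
    _ = _ := by ring

end Crest.Agent.R158.Nz399
end
end

-- ▼ part R158/Nz10_399

/-!
# R158, block Q1d (helper399), part 10: `HB` for the two halves of a band

* `eds_double` : the double has `2 m` free ends
* `dn_low` : the network of the double of the lower half of a band
* `PW` : pointwise bound (808), `hb_half`, `hb_low`, `hb_up`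
-/

set_option autoImplicit false

noncomputable section

namespace Crest.Agent.R158.Nz399

open MeasureTheory ProbabilityTheory unitInterval Matrix
open Crest.Agent.R158.Rs689
open Crest.Agent.R158.Nm211
open Crest.Agent.R158.Ka470
open Crest.Agent.R158.Env664 (TG D Run Band Mac lowT upT Adj4)
open Crest.Agent.R158.Sw300 (Port)
open Crest.Agent.R158.Ad350 (ports tnet mem_ports mem_ports')
open Crest.Agent.R158.Cs410 (nrm nrm_nonneg)
open Crest.Agent.R158.Bd932 (That e3)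
open Crest.Agent.R158.Ao857 (nn beL chL topO botO lowM upM InZ OutZ plainL Split mem_topO)
open Crest.Agent.R158.Ne808 (DN nt)
open Crest.Agent.R158.Zl814 (mem_fe)
open Crest.Agent.R158.Rf896 (rA rB rp)

section double

variable {T : Type*} [DecidableEq T]

theorem jm_fix {be : Port T → Port T} {O : Finset (Port T)} {k : Bool} {p : Port T} (hp : p ≠ none) :
    dbe be O (jm k p) = jm k p ↔ p ∉ O ∧ be p = p := by
  rw [dbe_jm be O k hp]
  by_cases h : p ∈ O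
  · rw [if_pos h]
    refine ⟨fun h1 => ?_, fun h1 => absurd h h1.1⟩
    have h2 := congrArg cp h1
    rw [cp_jm _ hp, cp_jm _ hp] at h2
    cases k <;> simp at h2
  · rw [if_neg h]
    refine ⟨fun h1 => ⟨h, jm_inj k h1⟩, fun h1 => by rw [h1.2]⟩

/-- **free ends of the double** -/
theorem eds_double (A : Finset T) (be : Port T → Port T) (ch : Port T → ℝ) (O : Finset (Port T))
    (s : T × Bool → Bool) :
    ((tnet (A ×ˢ (Finset.univ : Finset Bool)) s (dbe be O) (dch ch O)).eds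
      (ports (A ×ˢ (Finset.univ : Finset Bool)))).card = 2 * (Zl814.fe A be O).card := by
  classical
  have hne : ∀ p ∈ ports A, p ≠ none := fun p hp h => by
    rw [h] at hp; exact Crest.Agent.R158.Ad350.none_ports hp
  have e1 : (tnet (A ×ˢ (Finset.univ : Finset Bool)) s (dbe be O) (dch ch O)).eds
      (ports (A ×ˢ (Finset.univ : Finset Bool))) =
      (Zl814.fe A be O).image (jm false) ∪ (Zl814.fe A be O).image (jm true) := by
    ext q
    rw [Ad350.Net.mem_eds, Finset.mem_union, Finset.mem_image, Finset.mem_image]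
    constructor
    · rintro ⟨h1, h2⟩
      have h2' : dbe be O q = q := h2
      have h3 : un q ∈ ports A := mem_ports_double.1 h1
      have h4 := hne _ h3
      have h5 : dbe be O (jm (cp q) (un q)) = jm (cp q) (un q) := by rw [jm_un]; exact h2'
      have h6 := (jm_fix h4).1 h5
      have h7 : un q ∈ Zl814.fe A be O := mem_fe.2 ⟨⟨h3, h6.1⟩, h6.2⟩
      cases hc : cp q
      · left; exact ⟨un q, h7, by rw [← hc, jm_un]⟩
      · right; exact ⟨un q, h7, by rw [← hc, jm_un]⟩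
    · rintro (⟨p, hp, rfl⟩ | ⟨p, hp, rfl⟩) <;>
      · obtain ⟨⟨h1, h2⟩, h3⟩ := mem_fe.1 hp
        refine ⟨?_, (jm_fix (hne p h1)).2 ⟨h2, h3⟩⟩
        rw [mem_ports_double, un_jm]
        exact h1
  rw [e1, Finset.card_union_of_disjoint, Finset.card_image_of_injective _ (jm_inj false),
    Finset.card_image_of_injective _ (jm_inj true)]
  · ring
  · rw [Finset.disjoint_left]
    intro q h1 h2
    obtain ⟨p, hp, rfl⟩ := Finset.mem_image.1 h1
    obtain ⟨p', hp', h3⟩ := Finset.mem_image.1 h2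
    have h4 := congrArg cp h3
    rw [cp_jm _ (hne p (mem_fe.1 hp).1.1), cp_jm _ (hne p' (mem_fe.1 hp').1.1)] at h4
    simp at h4

end double

/-- pointwise bound of the double of a half -/
def PW {A : Half} {ρ : ℕ} (h : A.Sz ρ) (T : Finset TG) (be : Port TG → Port TG)
    (O : Finset (Port TG)) (ch : Port TG → ℝ) (X : Finset Sp) : Prop :=
  ∀ s, ‖(nt T be O ch s).z (ports (T ×ˢ (Finset.univ : Finset Bool)))‖ ≤
    √3 ^ (((nt T be O ch s).eds (ports (T ×ˢ (Finset.univ : Finset Bool)))).card / 2) *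
      ((∏ x ∈ X, x.val h (3 * ρ) s) * 2 ^ BN h s)

theorem hb_half {A : Half} {ρ κ M : ℕ} (h : A.Sz ρ) (hbd : A.Bd ρ κ) {T : Finset TG}
    {be : Port TG → Port TG} {O : Finset (Port TG)} {ch : Port TG → ℝ} {X : Finset Sp}
    (h1 : X.card ≤ M)
    (h2 : ∀ x ∈ X, ∀ y ∈ X, x ≠ y → Disjoint (x.sup h (3 * ρ)) (y.sup h (3 * ρ)))
    (h3 : ∀ x ∈ X, x.In h (3 * ρ)) (h4 : cnt X .cv ≤ cnt X .rf)
    (pw : PW h T be O ch X) :
    HB κ M ρ (Zl814.fe T be O).card (cnt X .mk) (cnt X .e2) (cnt X .e1)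
      (∫ s, zr (T ×ˢ Finset.univ) (dbe be O) (dch ch O) s ∂(PB fun _ : TG × Bool => hf)) := by
  refine ⟨A, h, hbd, X, h1, h2, h3, h4, rfl, rfl, rfl, T ×ˢ Finset.univ,
    zr (T ×ˢ Finset.univ) (dbe be O) (dch ch O), zr_dep _ _ _, le_rfl, fun s => ?_⟩
  have h5 := pw s
  have h6 : ((nt T be O ch s).eds (ports (T ×ˢ (Finset.univ : Finset Bool)))).card / 2 =
      (Zl814.fe T be O).card := by
    have := eds_double T be ch O s
    unfold nt
    rw [this]; omega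
  rw [h6] at h5
  refine le_trans ?_ h5
  exact Complex.re_le_norm _

section band

variable {M : Mac} {L a b c y0 : ℤ} {A : Finset (ℤ × ℤ)} {B : Band A} {Al Au : Finset (ℤ × ℤ)}

/-- **the network of the double of the lower half** -/
theorem dn_low (h : LB M L a b c y0 B Al Au) {n : ℕ} (hn : y0 = B.y1 + n + 1) {p z0 : ℤ}
    (hz : B.At p z0) (hzy : y0 ≤ z0) :
    DN (lowHalf h.d) (lowM B Al n) (beL B p z0) (topO B n) where
  hT t := (tH_low h hn).symm
  hO := Lr158.openH h hn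
  hb := (Ao857.low_rep B hz h.hs h.hadj 0 0 (fun _ => 0) (a := n) (by omega)).1
  hb2 q hq := Ao857.beL_invol B hz (Ao857.ports_ne_none (Finset.mem_sdiff.1 hq).1)
  gd q r hq := gd_iff h hz hzy (fun t e => by
    rw [mem_topO, ← top_cut h hn]
    exact exists_congr fun i => eq_comm) hq

/-- **`HB` for the vector below** -/
theorem hb_low (h : LB M L a b c y0 B Al Au) {n : ℕ} (hn : y0 = B.y1 + n + 1) {p z0 : ℤ}
    (hz : B.At p z0) (hzy : y0 ≤ z0) {ρ κ M' : ℕ} (hs : (lowHalf h.d).Sz ρ)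
    (hbd : (lowHalf h.d).Bd ρ κ) (tw c' : ℝ) (φ : Port TG → ℝ) {X : Finset Sp}
    (h1 : X.card ≤ M')
    (h2 : ∀ x ∈ X, ∀ y ∈ X, x ≠ y → Disjoint (x.sup hs (3 * ρ)) (y.sup hs (3 * ρ)))
    (h3 : ∀ x ∈ X, x.In hs (3 * ρ)) (h4 : cnt X .cv ≤ cnt X .rf)
    (pw : PW hs (lowM B Al n) (beL B p z0) (topO B n) (fun q => -chL B p z0 tw c' φ q) X)
    (τ : Port TG → Bool) :
    HB κ M' ρ (Zl814.fe (lowM B Al n) (beL B p z0) (topO B n)).card (cnt X .mk) (cnt X .e2) (cnt X .e1)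
      (nrm (That (nn B + 1) tw (1 / 2) ^ (n + 1) *ᵥ InZ B Al φ (plainL A Al φ) τ) ^ 2) := by
  have key := hb_half hs hbd h1 h2 h3 h4 pw
  have e1 := Ao857.low_nrm B hz h.hs h.hadj tw c' φ (a := n) (by omega) τ
  have E := dn_low h hn hz hzy
  have e2 : dch (fun q => -chL B p z0 tw c' φ q) (topO B n) =
      fun q => -dch (chL B p z0 tw c' φ) (topO B n) q := by
    funext q
    unfold dch
    split_ifs <;> simp
  rw [e2, int_zr_neg (dbe_mem E.hb) (dbe_inv E.hb E.hb2), ← e1] at key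
  exact key

end band

/-- **`HB` for the covector above** (through the reflected band) -/
theorem hb_up {M : Mac} {L a b c y0 : ℤ} {B : Band (D M.F L)} (m : MB M L a b c B)
    (g1 : -B.y2 < y0) (g2 : y0 ≤ -B.y1) {n : ℕ} (hn : y0 = -B.y2 + n + 1) {p z0 : ℤ}
    (hz : (rB B).At p z0) (hzy : y0 ≤ z0) {ρ κ M' : ℕ} (hs : (lowHalf (lb_up m g1 g2).d).Sz ρ)
    (hbd : (lowHalf (lb_up m g1 g2).d).Bd ρ κ) (tw c' : ℝ) (φ : Port TG → ℝ) {X : Finset Sp}
    (h1 : X.card ≤ M')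
    (h2 : ∀ x ∈ X, ∀ y ∈ X, x ≠ y → Disjoint (x.sup hs (3 * ρ)) (y.sup hs (3 * ρ)))
    (h3 : ∀ x ∈ X, x.In hs (3 * ρ)) (h4 : cnt X .cv ≤ cnt X .rf)
    (pw : PW hs (lowM (rB B) (rA (upT (D M.F L) B.xl B.xr B.y2)) n) (beL (rB B) p z0)
      (topO (rB B) n) (fun q => -chL (rB B) p z0 (-tw) c' (fun q => -φ (rp q)) q) X)
    (τ : Port TG → Bool) :
    HB κ M' ρ (Zl814.fe (lowM (rB B) (rA (upT (D M.F L) B.xl B.xr B.y2)) n) (beL (rB B) p z0)
      (topO (rB B) n)).card (cnt X .mk) (cnt X .e2) (cnt X .e1)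
      (nrm (OutZ B (upT (D M.F L) B.xl B.xr B.y2) φ
        (plainL (D M.F L) (upT (D M.F L) B.xl B.xr B.y2) φ) τ ᵥ*
          That (nn B + 2) tw (1 / 2) ^ (n + 1)) ^ 2) := by
  have hx : B.xl ≤ B.xr := by
    have := (lb_up m g1 g2).d.ab
    have h5 := m.xl
    have h6 := m.xr
    have h7 := m.hL
    omega
  rw [Rf896.nrm_out_plain' B hx (fun t ht => (m.split).subu ht) φ τ tw (n + 1)]
  exact hb_low (lb_up m g1 g2) hn hz hzy hs hbd (-tw) c' (fun q => -φ (rp q)) h1 h2 h3 h4 pw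
    fun q => τ (rp q)

end Crest.Agent.R158.Nz399
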