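import Crest.Agent.R158.Ad2_350

/-!
# Row 158, Block N (helper399): norm link

The squared norm of the vector of a network (any tile set, any glueing list, any cut list) is the
value of the doubled network: tiles `T × Bool`, copy `true` is the mirror image (side `d ↦ -d`),
same glueing phases, same cut phases, crosscut ports glued to their mirror images.

* `cutL` : list of cuts
* `Rev`, `Rev.star` : `star (F σ) = F (!σ)`
* `jm k` : ports of the copy `k`
* `norm_link`
-/

set_option autoImplicit false
set_option linter.unusedSectionVars false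
set_option linter.unusedSimpArgs false

noncomputable section

open Finset
open Crest.Agent.R158.Sw300 (Port)
open Crest.Agent.R158.Ad350

namespace Crest.Agent.R158.Nz399

section general

variable {P : Type*} [DecidableEq P]

/-- cut a list of ends -/
def cutL (c : List (ℝ × P)) (F : (P → Bool) → ℂ) : (P → Bool) → ℂ :=
  c.foldl (fun F e => cut e.1 e.2 F) F

@[simp] lemma cutL_nil (F : (P → Bool) → ℂ) : cutL [] F = F := rfl
@[simp] lemma cutL_cons (e : ℝ × P) (c : List (ℝ × P)) (F : (P → Bool) → ℂ) :
    cutL (e :: c) F = cutL c (cut e.1 e.2 F) := rfl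

/-! ### complex conjugation -/

/-- conjugation is arrow reversal -/
def Rev (F : (P → Bool) → ℂ) : Prop := ∀ σ, star (F σ) = F fun p => !σ p

lemma not_update (σ : P → Bool) (p : P) (b : Bool) :
    (fun q => !Function.update σ p b q) = Function.update (fun q => !σ q) p (!b) := by
  funext q
  by_cases h : q = p
  · subst h; simp
  · simp [h]

lemma Rev.ctr {F : (P → Bool) → ℂ} (h : Rev F) (χ : ℝ) (a b : P) : Rev (ctr χ a b F) := by
  intro σ
  simp only [Ad350.ctr, star_add, star_mul', star_ei, h _, not_update, Fintype.sum_bool, sg_true,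
    sg_false, Bool.not_true, Bool.not_false, mul_neg, neg_neg]
  ring

lemma Rev.cut {F : (P → Bool) → ℂ} (h : Rev F) (φ : ℝ) (p : P) : Rev (cut φ p F) := by
  intro σ
  simp only [Ad350.cut, star_add, star_mul', star_ei, h _, not_update, Fintype.sum_bool, sg_true,
    sg_false, Bool.not_true, Bool.not_false, mul_neg, neg_neg]
  ring

lemma Rev.glueL {F : (P → Bool) → ℂ} (h : Rev F) (l : List (ℝ × P × P)) :
    Rev (St.glueL l F) := by
  induction l generalizing F with
  | nil => exact h
  | cons e l ih => rw [St.glueL_cons]; exact ih (h.ctr _ _ _)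


lemma star_w6 (o : ZMod 4 → Bool) : star (w6 o) = w6 o := by
  unfold w6
  split_ifs <;> simp

lemma rev_tiles {T : Type*} [DecidableEq T] (A : Finset T) : Rev (tilesF A) := by
  intro σ
  unfold tilesF
  rw [star_prod]
  refine Finset.prod_congr rfl fun t _ => ?_
  rw [star_w6, ← w6_flip]

/-! ### dependence on finitely many ends -/

/-- `F` only sees the ends in `L` -/
def Sees (L : Finset P) (F : (P → Bool) → ℂ) : Prop :=
  ∀ σ σ' : P → Bool, (∀ p ∈ L, σ p = σ' p) → F σ = F σ'

lemma Sees.mono {L L' : Finset P} (h : L ⊆ L') {F : (P → Bool) → ℂ} (hF : Sees L F) : Sees L' F :=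
  fun σ σ' hs => hF σ σ' fun p hp => hs p (h hp)


lemma Sees.ctr {L : Finset P} {F : (P → Bool) → ℂ} (hF : Sees L F) (χ : ℝ) (a b : P) :
    Sees ((L.erase a).erase b) (ctr χ a b F) := by
  intro σ σ' hs
  refine Finset.sum_congr rfl fun τ _ => ?_
  congr 1
  refine hF _ _ fun q hq => ?_
  by_cases hb : q = b
  · subst hb; simp
  · by_cases ha : q = a
    · subst ha; rw [Function.update_of_ne hb, Function.update_of_ne hb]; simp
    · rw [Function.update_of_ne hb, Function.update_of_ne hb, Function.update_of_ne ha,
        Function.update_of_ne ha]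
      exact hs q (Finset.mem_erase.2 ⟨hb, Finset.mem_erase.2 ⟨ha, hq⟩⟩)

lemma Sees.cut {L : Finset P} {F : (P → Bool) → ℂ} (hF : Sees L F) (φ : ℝ) (a : P) :
    Sees (L.erase a) (cut φ a F) := by
  intro σ σ' hs
  refine Finset.sum_congr rfl fun τ _ => ?_
  congr 1
  refine hF _ _ fun q hq => ?_
  by_cases ha : q = a
  · subst ha; simp
  · rw [Function.update_of_ne ha, Function.update_of_ne ha]
    exact hs q (Finset.mem_erase.2 ⟨ha, hq⟩)

/-- remaining ends -/
def remL (l : List (ℝ × P × P)) (L : Finset P) : Finset P :=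
  l.foldl (fun L e => (L.erase e.2.1).erase e.2.2) L


lemma Sees.glueL {L : Finset P} {F : (P → Bool) → ℂ} (hF : Sees L F) (l : List (ℝ × P × P)) :
    Sees (remL l L) (St.glueL l F) := by
  induction l generalizing F L with
  | nil => exact hF
  | cons e l ih => rw [St.glueL_cons]; exact ih (hF.ctr _ _ _)




lemma sees_tiles {T : Type*} [DecidableEq T] (A : Finset T) : Sees (ports A) (tilesF A) := by
  intro σ σ' hs
  unfold tilesF
  refine Finset.prod_congr rfl fun t ht => ?_
  congr 1
  funext d
  exact hs _ (mem_ports.2 ht)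

/-! ### relabelling -/

variable {Q : Type*} [DecidableEq Q]











end general

/-! ### the two copies -/

variable {T : Type*} [DecidableEq T]

/-- ports of the copy `k`; the copy `true` is the mirror image -/
def jm (k : Bool) : Port T → Port (T × Bool) :=
  Option.map fun y => ((y.1, k), if k then -y.2 else y.2)

@[simp] lemma jm_none (k : Bool) : jm k (none : Port T) = none := rfl
@[simp] lemma jm_false (t : T) (d : ZMod 4) : jm false (some (t, d)) = some ((t, false), d) := rfl
@[simp] lemma jm_true (t : T) (d : ZMod 4) : jm true (some (t, d)) = some ((t, true), -d) := rfl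

lemma jm_inj (k : Bool) : Function.Injective (jm k : Port T → Port (T × Bool)) := by
  intro x y h
  cases x with
  | none => cases y with
    | none => rfl
    | some y => simp [jm] at h
  | some x => cases y with
    | none => simp [jm] at h
    | some y =>
      obtain ⟨t, d⟩ := x
      obtain ⟨t', d'⟩ := y
      cases k
      · simpa using h
      · simpa using h

lemma jm_ne {x y : Port T} (hx : x ≠ none) : jm false x ≠ jm true y := by
  cases x with
  | none => exact absurd rfl hx
  | some x => cases y with
    | none => simp [jm]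
    | some y => simp [jm]

lemma w6_neg (o : ZMod 4 → Bool) : w6 (fun d => o (-d)) = w6 o := by
  have h1 : (-1 : ZMod 4) = 3 := by decide
  have h2 : (-2 : ZMod 4) = 2 := by decide
  have h3 : (-3 : ZMod 4) = 1 := by decide
  unfold w6
  simp only [neg_zero, h1, h2, h3]
  cases o 0 <;> cases o 1 <;> cases o 2 <;> cases o 3 <;> simp

lemma tiles_copy (A : Finset T) (k : Bool) (σ : Port (T × Bool) → Bool) :
    tilesF (A ×ˢ {k}) σ = tilesF A (σ ∘ jm k) := by
  unfold tilesF
  rw [Finset.prod_product]
  refine Finset.prod_congr rfl fun t _ => ?_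
  rw [Finset.prod_singleton]
  cases k
  · rfl
  · rw [← w6_neg]
    rfl

lemma tiles_double (A : Finset T) (σ : Port (T × Bool) → Bool) :
    tilesF (A ×ˢ univ) σ = tilesF A (σ ∘ jm false) * tilesF A (σ ∘ jm true) := by
  have h : A ×ˢ (univ : Finset Bool) = A ×ˢ {false} ∪ A ×ˢ {true} := by
    rw [← Finset.product_union]
    congr 1
    ext b
    cases b <;> simp
  rw [h, tilesF_union, tiles_copy, tiles_copy]
  rw [Finset.disjoint_product]
  right
  simp





/-- the ports of the lists are ports of tiles of `A` -/
structure NetOk (A : Finset T) (l : List (ℝ × Port T × Port T)) (c : List (ℝ × Port T)) {n : ℕ}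
    (p : Fin n → Port T) : Prop where
  inj : Function.Injective p
  mem : ∀ i, p i ∈ ports A
  lmem : ∀ e ∈ l, e.2.1 ∈ ports A ∧ e.2.2 ∈ ports A
  cmem : ∀ e ∈ c, e.2 ∈ ports A
  cp : ∀ e ∈ c, ∀ i, p i ≠ e.2
  all : ∀ x ∈ ports A, (∀ e ∈ l, x ≠ e.2.1 ∧ x ≠ e.2.2) → (∀ e ∈ c, x ≠ e.2) → ∃ i, p i = x

lemma ne_none_of_mem {A : Finset T} {x : Port T} (h : x ∈ ports A) : x ≠ none := by
  rintro rfl; exact none_ports h


end Crest.Agent.R158.Nz399
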