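import Crest.Agent.R158.Fm2_857
import Crest.Agent.R158.Csh_410
import Crest.Agent.R158.Fm3_857
import Crest.Agent.R158.Zl1_814
import Crest.Agent.R158.Xr11_249
import Crest.Agent.R158.Mg2_949
import Crest.Agent.R158.Nz10_399
import Crest.Agent.R158.Rf2_896
import Crest.Agent.R158.Nn2_857

-- ▼ part R158/Nj1_107
section

/-!
# Row 158, Q1d (helper107): number of ends of the family

* `card_freeD` : at most `4 #F L` free ends of `D(F, L)`
* `card_freeG`, `card_JP` : at most `(4 #F + 3) L` ends of the family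
-/

set_option autoImplicit false

noncomputable section

open Finset

namespace Crest.Agent.R158.Nj107

open Crest.Agent.R158.Sw300 (Port)
open Crest.Agent.R158.Env664 (TG Band Run D mem_D nbP nbP_W nbP_N nbP_E nbP_S PortOf portOf_some z4
  div_iff)
open Crest.Agent.R158.Fm857
open Crest.Agent.R158.Tj656 (P4)

/-- free end number `s` of the side `d` of the cell `c` -/
def gE (L : ℤ) (x : (ℤ × ℤ) × ZMod 4 × ℤ) : Port (ℤ × ℤ) :=
  some (if x.2.1 = 0 then (x.1.1 * L, x.1.2 * L + x.2.2)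
    else if x.2.1 = 1 then (x.1.1 * L + x.2.2, x.1.2 * L + L - 1)
    else if x.2.1 = 2 then (x.1.1 * L + L - 1, x.1.2 * L + x.2.2)
    else (x.1.1 * L + x.2.2, x.1.2 * L), x.2.1)

theorem freeD_sub {F : Finset (ℤ × ℤ)} {L : ℤ} (hL : 0 < L) (B : Band (D F L)) :
    freeD B ⊆ (F ×ˢ ((Finset.univ : Finset (ZMod 4)) ×ˢ Finset.Ico (0 : ℤ) L)).image (gE L) := by
  intro q hq
  unfold freeD at hq
  rw [Finset.mem_filter] at hq
  obtain ⟨hq, hn, -⟩ := hq
  obtain ⟨⟨x, y⟩, d, rfl, ht⟩ := Ad350.mem_ports' hq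
  have ht' := (mem_D hL _).1 ht
  simp only at ht'
  have hx := (div_iff hL x (x / L)).1 rfl
  have hy := (div_iff hL y (y / L)).1 rfl
  rw [Finset.mem_image]
  have z02 : ¬ ((1 : ZMod 4) = 0) := by decide
  have z20 : ¬ ((2 : ZMod 4) = 0) := by decide
  have z21 : ¬ ((2 : ZMod 4) = 1) := by decide
  have z30 : ¬ ((3 : ZMod 4) = 0) := by decide
  have z31 : ¬ ((3 : ZMod 4) = 1) := by decide
  have z32 : ¬ ((3 : ZMod 4) = 2) := by decide
  rcases z4 d with rfl | rfl | rfl | rfl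
  · refine ⟨((x / L, y / L), 0, y - y / L * L), ?_, ?_⟩
    · rw [Finset.mem_product, Finset.mem_product, Finset.mem_Ico]
      exact ⟨ht', Finset.mem_univ _, by simp only; omega, by simp only; omega⟩
    · have e : x = x / L * L := by
        by_contra hne
        apply hn
        rw [nbP_W, portOf_some, mem_D hL]
        simp only
        rw [(div_iff hL (x - 1) (x / L)).2 ⟨by omega, by omega⟩]
        exact ht'
      simp only [gE, if_true]
      congr 3
      · exact e.symm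
      · ring
  · refine ⟨((x / L, y / L), 1, x - x / L * L), ?_, ?_⟩
    · rw [Finset.mem_product, Finset.mem_product, Finset.mem_Ico]
      exact ⟨ht', Finset.mem_univ _, by simp only; omega, by simp only; omega⟩
    · have e : y = y / L * L + L - 1 := by
        by_contra hne
        apply hn
        rw [nbP_N, portOf_some, mem_D hL]
        simp only
        rw [(div_iff hL (y + 1) (y / L)).2 ⟨by omega, by omega⟩]
        exact ht'
      simp only [gE, if_neg z02, if_true]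
      congr 3
      · ring
      · exact e.symm
  · refine ⟨((x / L, y / L), 2, y - y / L * L), ?_, ?_⟩
    · rw [Finset.mem_product, Finset.mem_product, Finset.mem_Ico]
      exact ⟨ht', Finset.mem_univ _, by simp only; omega, by simp only; omega⟩
    · have e : x = x / L * L + L - 1 := by
        by_contra hne
        apply hn
        rw [nbP_E, portOf_some, mem_D hL]
        simp only
        rw [(div_iff hL (x + 1) (x / L)).2 ⟨by omega, by omega⟩]
        exact ht'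
      simp only [gE, if_neg z20, if_neg z21, if_true]
      congr 3
      · exact e.symm
      · ring
  · refine ⟨((x / L, y / L), 3, x - x / L * L), ?_, ?_⟩
    · rw [Finset.mem_product, Finset.mem_product, Finset.mem_Ico]
      exact ⟨ht', Finset.mem_univ _, by simp only; omega, by simp only; omega⟩
    · have e : y = y / L * L := by
        by_contra hne
        apply hn
        rw [nbP_S, portOf_some, mem_D hL]
        simp only
        rw [(div_iff hL (y - 1) (y / L)).2 ⟨by omega, by omega⟩]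
        exact ht'
      simp only [gE, if_neg z30, if_neg z31, if_neg z32]
      congr 3
      · ring
      · exact e.symm

theorem card_freeD {F : Finset (ℤ × ℤ)} {L : ℤ} (hL : 0 < L) (B : Band (D F L)) :
    (freeD B).card ≤ F.card * (4 * L.toNat) := by
  refine (Finset.card_le_card (freeD_sub hL B)).trans (Finset.card_image_le.trans ?_)
  rw [Finset.card_product, Finset.card_product, Int.card_Ico, Finset.card_univ, ZMod.card, sub_zero]

theorem card_freeG {F : Finset (ℤ × ℤ)} {L : ℤ} (hL : 0 < L) (B : Band (D F L)) (hR : B.R = L) :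
    (freeG B).card ≤ (4 * F.card + 3) * L.toNat := by
  unfold freeG
  refine (Finset.card_union_le _ _).trans ?_
  have h1 : ((freeD B).image (Ao857.tpm Ao857.inlE)).card ≤ F.card * (4 * L.toNat) :=
    Finset.card_image_le.trans (card_freeD hL B)
  have h2 : (flr B ∪ cil B).card ≤ L.toNat + (L + 1).toNat := by
    refine (Finset.card_union_le _ _).trans (add_le_add ?_ ?_)
    · unfold flr
      refine Finset.card_image_le.trans ?_
      rw [Int.card_Ico, hR, sub_zero]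
    · unfold cil
      refine Finset.card_image_le.trans ?_
      rw [Int.card_Ico, hR, sub_zero]
  have h3 : (L + 1).toNat = L.toNat + 1 := by omega
  have h4 : 1 ≤ L.toNat := by omega
  nlinarith

theorem card_JP (P : P4) {L : ℤ} (hL : 0 < L) (δ : ℝ) (B : Band (D P.F L)) (hR : B.R = L) :
    (JP P L δ B).card ≤ (4 * P.F.card + 3) * L.toNat :=
  (Finset.card_le_card (Finset.filter_subset _ _)).trans (card_freeG hL B hR)

end Crest.Agent.R158.Nj107
end
end

-- ▼ part R158/Nj2_107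
section

/-!
# Row 158, Q1d (helper107): input (A) of `NormIn`

* `card_J` : number of members of `Fm857.fz`
* `co_le` : coefficients, `J0`, `card_J0`, `mem_J0` : the member `none`
-/

set_option autoImplicit false

noncomputable section

open Finset

namespace Crest.Agent.R158.Nj107

open Crest.Agent.R158.Env664 (TG Band D)
open Crest.Agent.R158.Fm857
open Crest.Agent.R158.Tj656 (P4)

/-- **number of members** -/
theorem card_J (P : P4) {L : ℤ} (hL : 0 < L) (δ : ℝ) (B : Band (D P.F L)) (hR : B.R = L) {κ : ℕ}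
    (hκ : 4 * P.F.card + 4 ≤ κ) : (Fintype.card (fz P L δ B).J : ℝ) ≤ κ * (L : ℝ) := by
  have h1 : Fintype.card (fz P L δ B).J = (insertNone (JP P L δ B)).card :=
    Fintype.card_coe (insertNone (JP P L δ B))
  have h2 : (insertNone (JP P L δ B)).card = (JP P L δ B).card + 1 := Finset.card_insertNone _
  have h3 := card_JP P hL δ B hR
  have h4 : Fintype.card (fz P L δ B).J ≤ κ * L.toNat := by
    rw [h1, h2]
    have h5 : 1 ≤ L.toNat := by omega
    nlinarith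
  have h6 : ((L.toNat : ℕ) : ℝ) = (L : ℝ) := by
    have : ((L.toNat : ℕ) : ℤ) = L := Int.toNat_of_nonneg hL.le
    exact_mod_cast this
  rw [← h6]
  exact_mod_cast h4

/-- **coefficients** -/
theorem co_le (P : P4) (L : ℤ) (δ : ℝ) (B : Band (D P.F L)) (μ : (fz P L δ B).J) :
    ‖(fz P L δ B).co μ‖ ≤ 1 := by
  have h : ‖(fz P L δ B).co μ‖ = 1 / 2 := norm_kap B _ _ _ _
  rw [h]
  norm_num

/-- the member `none` -/
def mu0 (P : P4) (L : ℤ) (δ : ℝ) (B : Band (D P.F L)) : (fz P L δ B).J :=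
  (⟨none, Finset.none_mem_insertNone⟩ : {e : Option (Sw300.Port TG) // e ∈ insertNone (JP P L δ B)})

/-- the member `none`, as a finite set -/
def J0 (P : P4) (L : ℤ) (δ : ℝ) (B : Band (D P.F L)) : Finset (fz P L δ B).J := {mu0 P L δ B}

theorem card_J0 (P : P4) (L : ℤ) (δ : ℝ) (B : Band (D P.F L)) : (J0 P L δ B).card = 1 :=
  Finset.card_singleton _

theorem mem_J0 {P : P4} {L : ℤ} {δ : ℝ} {B : Band (D P.F L)} {μ : (fz P L δ B).J} :
    μ ∈ J0 P L δ B ↔ μ.1 = none := by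
  have h0 : μ ∈ J0 P L δ B ↔ μ = mu0 P L δ B := by
    unfold J0
    exact Finset.mem_singleton
  rw [h0]
  constructor
  · rintro rfl
    rfl
  · intro h
    exact Subtype.ext h


end Crest.Agent.R158.Nj107
end
end

-- ▼ part R158/Zl2_814
section

/-!
# Row 158 (helper814): the normalisation `ZP`, lower bound in the names of `Csh_410`

* `norm_ZP`
* `nums` : the numbers of rows `a + 1 = ⌊(y - 2h)L⌋ - y1`, `b + 1 = y2 - ⌊(y + 2h)L⌋`
* `split_on` : `Split` of the band of a slice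
* `zp_lower_card`, `zp_lower`
-/

set_option autoImplicit false

noncomputable section

open Finset

namespace Crest.Agent.R158.Zl814

open Crest.Agent.R158.Ad350
open Crest.Agent.R158.Ao857
open Crest.Agent.R158.Fm857 (freeG ZP)
open Crest.Agent.R158.Nz399 (Pm)
open Crest.Agent.R158.Env664 (TG Band Run D lowT upT Adj4)
open Crest.Agent.R158.Cs410 (OnB InHalf)
open Crest.Agent.R158.Tj656 (P4)

theorem norm_ZP {P : P4} {L : ℤ} {B : Band (D P.F L)} (h : 0 ≤ Zv B L) :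
    ‖ZP P L B‖ = Zv B L := by
  have h1 : ‖Complex.exp (Complex.I * (Real.pi / 12))‖ = 1 := by
    have := Complex.norm_exp_ofReal_mul_I (Real.pi / 12)
    rw [mul_comm]
    push_cast at this
    exact this
  unfold ZP
  rw [norm_mul, norm_star, h1, one_mul, Complex.norm_real]
  exact Real.norm_of_nonneg h

/-- the rows -/
theorem nums {h : ℝ} (hh : 0 < h) : ∃ L0 : ℤ, ∀ L : ℤ, L0 ≤ L → ∀ (A B' : ℤ) (y : ℝ)
    {T : Finset (ℤ × ℤ)} (B : Band T), OnB A B' L h y B → 0 < L ∧ ∃ a b : ℕ,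
      (⌊(y - 2 * h) * L⌋ - B.y1).toNat = a + 1 ∧ (B.y2 - ⌊(y + 2 * h) * L⌋).toNat = b + 1 ∧
      (∀ y0 : ℤ, y - h ≤ (y0 : ℝ) / L → (y0 : ℝ) / L ≤ y + h →
        B.y1 + (a : ℤ) < y0 ∧ y0 ≤ B.y2 - 1 - (b : ℤ)) ∧
      h * L / 2 ≤ (a : ℝ) ∧ (a : ℝ) ≤ 2 * h * L ∧ h * L / 2 ≤ (b : ℝ) ∧ (b : ℝ) ≤ 2 * h * L ∧
      (A ≤ B' → ∃ p y0 : ℤ, B.At p y0 ∧ B.y1 + (a : ℤ) < y0 ∧ y0 ≤ B.y2 - 1 - (b : ℤ)) := by
  refine ⟨⌈8 / h⌉ + 2, fun L hL A B' y T B hB => ?_⟩
  have hL1 : (8 / h : ℝ) + 2 ≤ (L : ℝ) := by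
    have h1 := Int.le_ceil (8 / h : ℝ)
    have h2 : ((⌈8 / h⌉ + 2 : ℤ) : ℝ) ≤ (L : ℝ) := by exact_mod_cast hL
    push_cast at h2
    linarith
  have h8 : 0 < 8 / h := by positivity
  have hL0 : (0 : ℝ) < L := by linarith
  have hLz : 0 < L := by exact_mod_cast hL0
  have hL2 : (2 : ℝ) ≤ L := by linarith
  have e1 : 8 ≤ h * L := by
    have : 8 / h ≤ (L : ℝ) := by linarith
    rw [div_le_iff₀ hh] at this
    linarith
  obtain ⟨hxl, hxr, hR, hy1, hy2⟩ := hB
  have f1 := Int.floor_le ((y - 3 * h) * (L : ℝ))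
  have f2 := Int.lt_floor_add_one ((y - 3 * h) * (L : ℝ))
  have f3 := Int.floor_le ((y + 3 * h) * (L : ℝ))
  have f4 := Int.lt_floor_add_one ((y + 3 * h) * (L : ℝ))
  rw [← hy1] at f1 f2
  rw [← hy2] at f3 f4
  have g1 := Int.floor_le ((y - 2 * h) * (L : ℝ))
  have g2 := Int.lt_floor_add_one ((y - 2 * h) * (L : ℝ))
  have g3 := Int.floor_le ((y + 2 * h) * (L : ℝ))
  have g4 := Int.lt_floor_add_one ((y + 2 * h) * (L : ℝ))
  set u : ℤ := ⌊(y - 2 * h) * (L : ℝ)⌋ with hu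
  set v : ℤ := ⌊(y + 2 * h) * (L : ℝ)⌋ with hv
  have hA1 : (7 : ℝ) ≤ ((u - B.y1 : ℤ) : ℝ) := by push_cast; nlinarith
  have hB1 : (7 : ℝ) ≤ ((B.y2 - v : ℤ) : ℝ) := by push_cast; nlinarith
  have hA2 : 7 ≤ u - B.y1 := by exact_mod_cast hA1
  have hB2 : 7 ≤ B.y2 - v := by exact_mod_cast hB1
  obtain ⟨a, ha⟩ : ∃ a : ℕ, (u - B.y1).toNat = a + 1 := ⟨(u - B.y1).toNat - 1, by omega⟩
  obtain ⟨b, hb⟩ : ∃ b : ℕ, (B.y2 - v).toNat = b + 1 := ⟨(B.y2 - v).toNat - 1, by omega⟩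
  have ha' : (a : ℤ) = u - B.y1 - 1 := by omega
  have hb' : (b : ℤ) = B.y2 - v - 1 := by omega
  have haR : (a : ℝ) = u - B.y1 - 1 := by exact_mod_cast ha'
  have hbR : (b : ℝ) = B.y2 - v - 1 := by exact_mod_cast hb'
  have key : ∀ y0 : ℤ, y - h ≤ (y0 : ℝ) / L → (y0 : ℝ) / L ≤ y + h →
      B.y1 + (a : ℤ) < y0 ∧ y0 ≤ B.y2 - 1 - (b : ℤ) := by
    intro y0 k1 k2
    rw [le_div_iff₀ hL0] at k1
    rw [div_le_iff₀ hL0] at k2
    have k3 : (u : ℝ) ≤ y0 := by nlinarith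
    have k4 : (y0 : ℝ) ≤ v := by
      have : (y0 : ℝ) ≤ (v : ℝ) + 1 - 8 := by nlinarith
      linarith
    have k3' : u ≤ y0 := by exact_mod_cast k3
    have k4' : y0 ≤ v := by exact_mod_cast k4
    exact ⟨by omega, by omega⟩
  refine ⟨hLz, a, b, ha, hb, key, ?_, ?_, ?_, ?_, ?_⟩
  · rw [haR]; nlinarith
  · rw [haR]; nlinarith
  · rw [hbR]; nlinarith
  · rw [hbR]; nlinarith
  · intro hAB
    have m1 := Int.floor_le (y * (L : ℝ))
    have m2 := Int.lt_floor_add_one (y * (L : ℝ))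
    have k := key ⌊y * (L : ℝ)⌋ (by rw [le_div_iff₀ hL0]; nlinarith)
      (by rw [div_le_iff₀ hL0]; nlinarith)
    have hL2' : 2 ≤ L := by exact_mod_cast hL2
    have hABL : A * L ≤ B' * L := mul_le_mul_of_nonneg_right hAB hLz.le
    refine ⟨B.xr, ⌊y * (L : ℝ)⌋, ⟨by omega, by omega, ?_, le_refl _⟩, k.1, k.2⟩
    rw [hxl, hxr]
    omega


/-- **lower bound of the normalisation, any two numbers of free ends** -/
theorem zp_lower_card : ∃ h0 c : ℝ, 0 < h0 ∧ 0 < c ∧ ∀ h : ℝ, 0 < h → h < h0 → ∃ L0 : ℤ,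
    ∀ L : ℤ, L0 ≤ L → ∀ (P : P4) (A B' : ℤ) (y : ℝ) (B : Band (D P.F L)), OnB A B' L h y B →
      ∀ p y0 : ℤ, B.At p y0 → ZP P L B ≠ 0 ∧ ∀ ml mu : ℕ, ml + mu ≤ (freeG B).card →
      c * √3 ^ (((ml : ℝ) + mu) / 2) * Pm L.toNat ≤ ‖ZP P L B‖ := by
  obtain ⟨c, q, hc, hq, hq1, hZ⟩ := Zs_ge
  obtain ⟨N, hN⟩ := exists_pow_lt_of_lt_one (show (0 : ℝ) < 1 / 4 by norm_num) hq1
  obtain ⟨h0, hh0, hP⟩ := par_ev N
  refine ⟨h0, 3 ^ (-(1 / 4 : ℝ)) * c, hh0, by positivity, fun h hh hlt => ?_⟩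
  obtain ⟨L0, hL0⟩ := hP h hh hlt
  refine ⟨L0, fun L hL P A B' y B hB p y0 hz => ?_⟩
  obtain ⟨hPar, hLp, hn⟩ := hL0 L hL y (D P.F L) B hB.R hB.y1 hB.y2
  have hN2 : 2 * q ^ N ≤ 1 / 2 := by linarith
  have k1 := hZ (D P.F L) B p y0 (L / 8) (L / 2) _ N hz hPar hN2 _ hn
  have hPm : 0 < Pm L.toNat := by
    obtain ⟨c1, hc1, hl⟩ := Zm180.pm_lower
    have hL1 : 1 ≤ L.toNat := by omega
    refine lt_of_lt_of_le ?_ (hl L.toNat hL1)
    have : (0 : ℝ) < (L.toNat : ℝ) := by exact_mod_cast hL1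
    positivity
  have h3 : (0 : ℝ) < (3 : ℝ) ^ ((((freeG B).card : ℝ) - 1) / 4) := by positivity
  have hZs : 0 < Zc180.Zs B (L / 8) (L / 2) (B.y2 - B.y1).toNat :=
    lt_of_lt_of_le (mul_pos hc hPm) k1
  have hv : 0 < Zv B L := mul_pos h3 hZs
  have h4 := norm_ZP (P := P) hv.le
  refine ⟨fun h5 => ?_, fun ml mu hm => ?_⟩
  · rw [h5, norm_zero] at h4
    exact hv.ne h4
  · have k2 := sqrt3_pow hm
    push_cast at k2
    rw [h4]
    unfold Zv
    refine le_trans (le_of_eq ?_) (mul_le_mul k2 k1 (by positivity) h3.le)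
    ring


end Crest.Agent.R158.Zl814
end
end

-- ▼ part R158/Nj3_107
section

/-!
# Row 158, Q1d (helper107): `NormIn fz P` from the members

* `Bd.mono`, `HB.mono`, `Mem.mono` : monotone in `κ`, `M`
* `MemIn P` : for each slice there are `ρ`, `ml`, `mu` with `ml + mu ≤ #freeG` and `Mem` of all the
  members of `Fm857.fz`
* `normIn_of : MemIn P → NormIn fz P`
-/

set_option autoImplicit false

noncomputable section

namespace Crest.Agent.R158.Nj107

open Crest.Agent.R158.Nz399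
open Crest.Agent.R158.Ka470
open Crest.Agent.R158.Env664 (TG Band D Run)
open Crest.Agent.R158.Fm857
open Crest.Agent.R158.Tj656 (P4)
open Crest.Agent.R158.Cs410 (FamZ OnB InHalf)

theorem Bd.mono {A : Half} {ρ κ κ' : ℕ} (h : A.Bd ρ κ) (hk : κ ≤ κ') : A.Bd ρ κ' := by
  have h1 : (κ : ℤ) * ρ ≤ κ' * ρ := mul_le_mul_of_nonneg_right (by exact_mod_cast hk) (by positivity)
  obtain ⟨X0, Y0, h2⟩ := h.hH
  refine ⟨⟨X0, Y0, fun v hv => ?_⟩, h.hR.trans h1⟩
  have := h2 v hv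
  omega

theorem HB.mono {κ M κ' M' ρ m a b c : ℕ} {V : ℝ} (h : HB κ M ρ m a b c V) (hk : κ ≤ κ')
    (hM : M ≤ M') : HB κ' M' ρ m a b c V := by
  obtain ⟨A, hs, h1, X, h2, h3⟩ := h
  exact ⟨A, hs, Bd.mono h1 hk, X, h2.trans hM, h3⟩

theorem Mem.mono {F : Finset (ℤ × ℤ)} {L : ℤ} {B : Band (D F L)} {Fm : FamZ B}
    {κ M κ' M' ρ ml mu a1 b1 k : ℕ} {μ : Fm.J} (h : Mem Fm κ M ρ ml mu a1 b1 k μ) (hk : κ ≤ κ')
    (hM : M ≤ M') : Mem Fm κ' M' ρ ml mu a1 b1 k μ := by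
  obtain ⟨a, a', b, b', c, c', h1, h2, h3, h4, h5⟩ := h
  exact ⟨a, a', b, b', c, c', h1, h2, h3, HB.mono h4 hk hM, HB.mono h5 hk hM⟩

open Classical in
/-- **the members** -/
def MemIn (P : P4) : Prop :=
  ∃ h0 : ℝ, 0 < h0 ∧ ∀ A B' r : ℤ, Run P.F A B' r → ∀ h y δ : ℝ, 0 < h → h < h0 →
    0 < δ → δ ≤ h / 100 → InHalf r (y - 4 * h) (y + 4 * h) →
    ∃ (κ M : ℕ) (L0 : ℤ), ∀ L : ℤ, L0 ≤ L → Even L → ∀ B : Band (D P.F L), OnB A B' L h y B →
      ∃ ρ ml mu : ℕ, 1 ≤ ρ ∧ L ≤ κ * (3 * ρ) ∧ 3 * (ρ : ℤ) ≤ L ∧ ml + mu ≤ (freeG B).card ∧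
        ∀ μ : (fz P L δ B).J, Mem (fz P L δ B) κ M ρ ml mu (⌊(y - 2 * h) * L⌋ - B.y1).toNat
          (B.y2 - ⌊(y + 2 * h) * L⌋).toNat (if μ.1 = none then 0 else 1) μ

/-- existence of a point of the band -/
theorem exists_at {P : P4} {A B' r : ℤ} (hr : Run P.F A B' r) {h y : ℝ} (hh : 0 < h) :
    ∃ L0 : ℤ, ∀ L : ℤ, L0 ≤ L → 0 < L ∧ ∀ B : Band (D P.F L), OnB A B' L h y B →
      ∃ p y0, B.At p y0 := by
  have hAB : A ≤ B' := hr.le
  obtain ⟨N, hN⟩ := exists_nat_gt (2 / h)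
  refine ⟨N + 2, fun L hL => ?_⟩
  have hL0 : 0 < L := by omega
  refine ⟨hL0, fun B hB => ?_⟩
  have hLr : (0 : ℝ) < L := by exact_mod_cast hL0
  have hLh : 2 < h * L := by
    have h1 : ((N + 2 : ℤ) : ℝ) ≤ L := by exact_mod_cast hL
    push_cast at h1
    have h2 : 2 / h < L := by linarith
    rw [div_lt_iff₀ hh] at h2
    linarith
  refine ⟨B.xr, ⌊y * L⌋, ?_, ?_, ?_, le_refl _⟩
  · rw [hB.y1]
    have h1 := Int.floor_le ((y - 3 * h) * (L : ℝ))
    have h2 := Int.lt_floor_add_one (y * (L : ℝ))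
    have : ((⌊(y - 3 * h) * (L : ℝ)⌋ : ℤ) : ℝ) < ((⌊y * (L : ℝ)⌋ : ℤ) : ℝ) := by nlinarith
    exact_mod_cast this
  · rw [hB.y2]
    have h1 := Int.floor_le (y * (L : ℝ))
    have h2 := Int.lt_floor_add_one ((y + 3 * h) * (L : ℝ))
    have : ((⌊y * (L : ℝ)⌋ : ℤ) : ℝ) < ((⌊(y + 3 * h) * (L : ℝ)⌋ : ℤ) : ℝ) := by nlinarith
    exact_mod_cast this
  · rw [hB.xl, hB.xr]
    have : A * L ≤ B' * L := mul_le_mul_of_nonneg_right hAB hL0.le
    omega

/-- **`NormIn` from the members** -/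
theorem normIn_of {P : P4} (hM : MemIn P) : NormIn fz P := by
  obtain ⟨h1, hh1, hM⟩ := hM
  obtain ⟨h2, c, hh2, hc, hZ⟩ := Zl814.zp_lower_card
  refine ⟨min h1 h2, lt_min hh1 hh2, fun A B' r hr h y δ hh hlt hδ hδh hhalf => ?_⟩
  obtain ⟨κ, M, L1, hM⟩ := hM A B' r hr h y δ hh (hlt.trans_le (min_le_left _ _)) hδ hδh hhalf
  obtain ⟨L2, hZ⟩ := hZ h hh (hlt.trans_le (min_le_right _ _))
  obtain ⟨L3, hat⟩ := exists_at (P := P) hr (y := y) hh
  refine ⟨max κ (4 * P.F.card + 4), M, c, max L1 (max L2 (max L3 1)), by omega, hc, by omega,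
    fun L hL hev B hB => ?_⟩
  obtain ⟨hL0, hat⟩ := hat L (by omega)
  obtain ⟨p, y0, hz⟩ := hat B hB
  obtain ⟨ρ, ml, mu, g1, g2, g3, g4, g5⟩ := hM L (by omega) hev B hB
  obtain ⟨-, hZ⟩ := hZ L (by omega) P A B' y B hB p y0 hz
  refine ⟨ρ, ml, mu, g1, ?_, g3, hZ ml mu g4, co_le P L δ B, J0 P L δ B, ?_, ?_, ?_, ?_⟩
  · refine g2.trans (mul_le_mul_of_nonneg_right ?_ (by positivity))
    exact_mod_cast le_max_left κ _
  · rw [card_J0]; omega
  · exact card_J P hL0 δ B hB.R (le_max_right _ _)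
  · intro μ hμ
    have h3 := g5 μ
    rw [if_pos (mem_J0.1 hμ)] at h3
    exact Mem.mono h3 (le_max_left _ _) le_rfl
  · intro μ hμ
    have h3 := g5 μ
    rw [if_neg fun h => hμ (mem_J0.2 h)] at h3
    exact Mem.mono h3 (le_max_left _ _) le_rfl

/-- **`NormP` from the members** -/
theorem normP_of_mem (hcp : CP) {P : P4} (hM : MemIn P) : Cs410.NormP fz P :=
  normP_of hcp (normIn_of hM)

end Crest.Agent.R158.Nj107
end
end

-- ▼ part R158/Nn3_857
section

/-!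
# Row 158 (helper857): free ends of the two halves, the upper one taken in the reflected band

* `mem_lowM_rB` : tiles of the reflected low half = reflected tiles of the upper half
* `rp_fe` : a free end of the reflected low half is a reflected free end of `G^(z)`
* `fe_low_rb` : the two numbers of free ends add up to at most `#freeG`
-/

set_option autoImplicit false

noncomputable section

open Finset

namespace Crest.Agent.R158.Nn857

open Crest.Agent.R158.Ad350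
open Crest.Agent.R158.Ao857
open Crest.Agent.R158.Fm857
open Crest.Agent.R158.Rf896
open Crest.Agent.R158.Zl814 (fe mem_fe fe_low low_up_disj)
open Crest.Agent.R158.Sw300 (Port)
open Crest.Agent.R158.Env664 (TG Band Run PortOf nbP)

variable {A : Finset (ℤ × ℤ)} {B : Band A}

lemma mem_rA_inlE {C : Finset (ℤ × ℤ)} {t : TG} : t ∈ (rA C).map inlE ↔ rt t ∈ C.map inlE := by
  rcases t with t | t
  · rw [rt_inl, mem_inlE, mem_inlE, mem_rA]
  · rw [rt_inr]
    exact iff_of_false not_inlE not_inlE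

lemma gI_rf' (i : ℕ) (y : ℤ) : gI (rB B) i y = rt (gI B i (-y - 1)) := by
  have h := gI_rf B i (-y - 1)
  rwa [show -(-y - 1) - 1 = y by ring] at h

lemma mem_rows_rB (hx : B.xl ≤ B.xr) {b : ℕ} {t : TG} :
    t ∈ rowsM (rB B) (nn (rB B)) b (rB B).y1 ↔
      rt t ∈ rowsM B (nn B + 1) b (B.y2 - 1 - (b : ℤ)) := by
  have hn := nn_rB B hx
  rw [mem_rowsM, mem_rowsM]
  constructor
  · rintro ⟨i, j, h1, h2, rfl⟩
    refine ⟨i, b - j, by omega, by omega, ?_⟩
    rw [gI_rf', rt_rt]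
    congr 1
    simp only [rB_y1]
    have : ((b - j : ℕ) : ℤ) = (b : ℤ) - j := by omega
    rw [this]
    ring
  · rintro ⟨i, j, h1, h2, h3⟩
    refine ⟨i, b - j, by omega, by omega, ?_⟩
    rw [gI_rf', ← rt_rt t, h3]
    congr 2
    simp only [rB_y1]
    have : ((b - j : ℕ) : ℤ) = (b : ℤ) - j := by omega
    rw [this]
    ring

/-- **tiles of the reflected low half** -/
theorem mem_lowM_rB (hx : B.xl ≤ B.xr) {Au : Finset (ℤ × ℤ)} {b : ℕ} {t : TG} :
    t ∈ lowM (rB B) (rA Au) b ↔ rt t ∈ upM B Au b := by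
  unfold lowM upM
  rw [Finset.mem_union, Finset.mem_union, mem_rA_inlE, mem_rows_rB hx]

lemma ports_lowM_rB (hx : B.xl ≤ B.xr) {Au : Finset (ℤ × ℤ)} {b : ℕ} {q : Port TG}
    (hq : q ∈ ports (lowM (rB B) (rA Au) b)) : rp q ∈ ports (upM B Au b) := by
  obtain ⟨t, d, rfl, ht⟩ := mem_ports' hq
  rw [rp_some, mem_ports]
  exact (mem_lowM_rB hx).1 ht

lemma mouth_rq {r : Port (ℤ × ℤ)} (h : mouth B (rq r)) : mouth (rB B) r := by
  rcases r with _ | ⟨⟨x, y⟩, d⟩
  · exact h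
  · have h' : (B.y1 ≤ -y - 1 ∧ -y - 1 < B.y2) ∧ ((-d = 0 ∧ x = B.xl) ∨ (-d = 2 ∧ x = B.xr)) := h
    show (-B.y2 ≤ y ∧ y < -B.y1) ∧ ((d = 0 ∧ x = B.xl) ∨ (d = 2 ∧ x = B.xr))
    refine ⟨by omega, ?_⟩
    rcases h'.2 with ⟨k1, k2⟩ | ⟨k1, k2⟩
    · exact Or.inl ⟨neg_eq_zero.1 k1, k2⟩
    · refine Or.inr ⟨?_, k2⟩
      rw [← neg_neg d, k1]
      decide

/-- **a free end of the reflected low half is a reflected free end of `G^(z)`** -/
theorem rp_fe {p' z' : ℤ} (h : (rB B).At p' z') {Al Au : Finset (ℤ × ℤ)} (hs : Split B Al Au)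
    {b : ℕ} (hb : -B.y2 + (b : ℤ) < z') {q : Port TG}
    (hq : q ∈ fe (lowM (rB B) (rA Au) b) (beL (rB B) p' z') (topO (rB B) b)) :
    rp q ∈ freeG B := by
  have h1 := fe_low h (Crest.Agent.R158.Rf896.Split.rf hs) hb hq
  have h2 := (mem_fe.1 hq).1.1
  unfold freeG at h1 ⊢
  rw [Finset.mem_union, Finset.mem_union] at h1 ⊢
  rcases h1 with h1 | h1 | h1
  · left
    rw [Finset.mem_image] at h1 ⊢
    obtain ⟨r, hr, rfl⟩ := h1
    refine ⟨rq r, ?_, (rp_tpm r).symm⟩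
    unfold freeD at hr ⊢
    rw [Finset.mem_filter] at hr ⊢
    refine ⟨mem_ports_rA.1 hr.1, fun k => hr.2.1 ?_, fun k => hr.2.2 (mouth_rq k)⟩
    rw [nbP_rq] at k
    have := (portOf_rq (A := A) (rq (nbP r))).2 k
    rwa [rq_rq] at this
  · right; right
    rw [mem_flr] at h1
    obtain ⟨i, k1, k2, rfl⟩ := h1
    rw [mem_cil]
    refine ⟨i, k1, k2, ?_⟩
    rw [rp_some, rt_inr]
    have e3 : (-(3 : ZMod 4)) = 1 := by decide
    rw [e3]
    unfold rz
    simp only [rB_y1]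
    rw [neg_neg]
  · exfalso
    rw [mem_cil] at h1
    obtain ⟨i, k1, k2, rfl⟩ := h1
    rw [mem_ports] at h2
    unfold lowM at h2
    rcases Finset.mem_union.1 h2 with h2 | h2
    · exact not_inlE h2
    · obtain ⟨i', j, hi, hj, he⟩ := (mem_rowsM (rB B)).1 h2
      have hy := h.hy2
      simp only [rB_y2] at hy
      by_cases h5 : (i' : ℤ) ≤ (rB B).xr - (rB B).xl
      · rw [gI_le (rB B) h5] at he
        exact absurd he (by simp)
      · rw [gI_gt (rB B) h5] at he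
        simp only [Sum.inr.injEq, Prod.mk.injEq, rB_y2, rB_y1] at he
        omega

/-- **the free ends of the lower half and of the reflected upper half** -/
theorem fe_low_rb {p z0 p' z' : ℤ} (h : B.At p z0) (h' : (rB B).At p' z')
    {Al Au : Finset (ℤ × ℤ)} (hs : Split B Al Au) {a b : ℕ} (ha : B.y1 + (a : ℤ) < z0)
    (hb : z0 ≤ B.y2 - 1 - (b : ℤ)) (hb' : -B.y2 + (b : ℤ) < z') :
    (fe (lowM B Al a) (beL B p z0) (topO B a)).card +
      (fe (lowM (rB B) (rA Au) b) (beL (rB B) p' z') (topO (rB B) b)).card ≤ (freeG B).card := by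
  have hd : Disjoint (fe (lowM B Al a) (beL B p z0) (topO B a))
      ((fe (lowM (rB B) (rA Au) b) (beL (rB B) p' z') (topO (rB B) b)).image rp) := by
    rw [Finset.disjoint_left]
    intro q h1 h2
    obtain ⟨r, hr, rfl⟩ := Finset.mem_image.1 h2
    exact ports_disj (low_up_disj h hs ha hb) (mem_fe.1 h1).1.1
      (ports_lowM_rB (le_run B h) (mem_fe.1 hr).1.1)
  rw [← Finset.card_image_of_injective (fe (lowM (rB B) (rA Au) b) (beL (rB B) p' z')
    (topO (rB B) b)) rp_inj, ← Finset.card_union_of_disjoint hd]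
  refine Finset.card_le_card (Finset.union_subset (fe_low h hs ha) ?_)
  intro q hq
  obtain ⟨r, hr, rfl⟩ := Finset.mem_image.1 hq
  exact rp_fe h' hs hb' hr

end Crest.Agent.R158.Nn857
end
end

-- ▼ part R158/Nj4_107

/-!
# Row 158, Q1d (helper107): `MemIn` from 857's numbers and the members (399)

* `memIn_of`, `normP_mem`
-/

set_option autoImplicit false

noncomputable section

namespace Crest.Agent.R158.Nj107

open Crest.Agent.R158.Nz399
open Crest.Agent.R158.Ka470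
open Crest.Agent.R158.Nn857
open Crest.Agent.R158.Env664 (TG Band D Run lowT upT)
open Crest.Agent.R158.Fm857
open Crest.Agent.R158.Ao857
open Crest.Agent.R158.Rf896 (rA rB)
open Crest.Agent.R158.Tj656 (P4)
open Crest.Agent.R158.Cs410 (FamZ OnB InHalf)

open Classical in
/-- 399's literal -/
def MemP' (P : P4) : Prop :=
  ∃ M : ℕ, ∀ (a b c L : ℤ) (δ : ℝ) (B : Band (D P.F L)) (ρ κ : ℕ) (yl yu p z0 : ℤ) (a1 b1 : ℕ),
    Nums P a b c L δ B ρ κ yl yu p z0 a1 b1 → Even L → ∀ μ : (fz P L δ B).J,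
      Mem (fz P L δ B) κ M ρ
        (Zl814.fe (lowM B (lowT (D P.F L) B.xl B.xr B.y1) a1) (beL B p z0) (topO B a1)).card
        (Zl814.fe (lowM (rB B) (rA (upT (D P.F L) B.xl B.xr B.y2)) b1) (beL (rB B) p (-z0))
          (topO (rB B) b1)).card
        (a1 + 1) (b1 + 1) (if μ.1 = none then 0 else 1) μ

theorem memIn_of {P : P4} (hM : MemP' P) : MemIn P := by
  classical
  obtain ⟨M, hM⟩ := hM
  refine ⟨1, one_pos, fun A B' r hr h y δ hh _ hδ hδh hhalf => ?_⟩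
  obtain ⟨κ, L0, -, -, hN⟩ := nums hr hh hδ hδh hhalf
  refine ⟨κ, M, L0, fun L hL hev B hB => ?_⟩
  obtain ⟨a1, b1, N⟩ := hN L hL B hB
  have ha : (⌊(y - 2 * h) * L⌋ - B.y1).toNat = a1 + 1 := by
    have := N.ha
    omega
  have hb : (B.y2 - ⌊(y + 2 * h) * L⌋).toNat = b1 + 1 := by
    have := N.hb
    omega
  have h1 := N.ha
  have h2 := N.hb
  have h3 := N.hl
  have h4 := N.hu
  refine ⟨_, _, _, N.ρ1, N.k1, N.k2, fe_low_rb (a := a1) (b := b1) N.hz N.hzR N.mb.split (by omega)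
    (by omega) (by omega), fun μ => ?_⟩
  rw [ha, hb]
  exact hM A B' r L δ B _ κ _ _ _ _ a1 b1 N hev μ

/-- **`NormP`** -/
theorem normP_mem (hcp : CP) {P : P4} (hM : MemP' P) : Cs410.NormP fz P :=
  normP_of_mem hcp (memIn_of hM)

end Crest.Agent.R158.Nj107
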