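import Crest.Agent.R158.Pt10_266
import Crest.Agent.R158.Nz7_399
import Crest.Agent.R158.Ne6_808
import Crest.Agent.R158.Nz8_399
import Crest.Agent.R158.Ne7_808
import Crest.Agent.R158.Nz10_399
import Crest.Agent.R158.Nn2_857
import Crest.Agent.R158.Fm3_857

-- ▼ part R158/Pt11_266
section

/-!
# R158, patches (helper266), file Pt11: marks and ends in a chart

* **`sv_mk`** : a strand counted by `Kn .mk`
* **`sv_e2`** : the strand of `fe g p 0` if the standard picture is not in `E2 n`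
* **`sv_e1`** : a strand over the end `0` if the standard picture is not in `G1 n`
-/

set_option autoImplicit false
set_option linter.unusedVariables false
set_option linter.unusedSectionVars false
set_option linter.unusedSimpArgs false

noncomputable section

namespace Crest.Agent.R158.Pt266

open Crest.Agent.R158.Sw300 (Port thru tn)
open Crest.Agent.R158.Xr249 (full CPath)
open Crest.Agent.R158.Nm211 (St Dir mv dx dy trn nx6 rd opp Hit KK Far)
open Crest.Agent.R158.Ka470 (Patt View Free en ex sg B1 B3 Bv Cuts)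
open Crest.Agent.R158.Ad350 (tnet tql seam)
open Crest.Agent.R158.Nz399 (Kind Tk Dk Yk Xk qd rt rs pl ps od fe we patK rq mem_Tk Kn Kp G1)

variable {T : Type*} {G : T × ZMod 4 → T × ZMod 4 → Prop} {C : Ka470.Ch T G} {s : T → Bool}
variable {p : ℤ × ℤ} {g N n : ℕ}

/-- a floor strand of the box of a mark -/
theorem ff_wk (hF : ∀ v, C.F v = false) (hP : Patt C.R (Bv N p) p (patK .mk g)) (hN : n + 1 ≤ N)
    {a : ℤ} (ha : -(n : ℤ) ≤ a ∧ a < n) {m : ℕ}
    (h1 : ∀ j ≤ m, ((nx6 (stdf C s g p))^[j] ((a, 0), 0)).1 ∈ Tk .mk n)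
    (h2 : ((nx6 (stdf C s g p))^[m + 1] ((a, 0), 0)).1.2 < 0) :
    ∃ (a' : ℤ) (l : List ((ℤ × ℤ) × ZMod 4)), (-(n : ℤ) ≤ a' ∧ a' < n) ∧
      ((nx6 (stdf C s g p))^[m + 1] ((a, 0), 0)).1 = (a', -1) ∧
      (quadV N p (patK .mk g)).Real (fe g p a) ∧ (quadV N p (patK .mk g)).Real (fe g p a') ∧
      Wk (s ∘ C.emb) (RG (full (quadV N p (patK .mk g)).A)) (fe g p a) (fe g p a') l := by
  have h3 := mem_Tk.1 (h1 m le_rfl)
  have h3q : 0 ≤ ((nx6 (stdf C s g p))^[m] ((a, 0), 0)).1.2 := h3.2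
  have h4 := step4i (stdf C s g p) m ((a, 0), 0)
  obtain ⟨hd, hy, hx⟩ : ((nx6 (stdf C s g p))^[m + 1] ((a, 0), 0)).2 = 2 ∧
      ((nx6 (stdf C s g p))^[m] ((a, 0), 0)).1.2 = 0 ∧
      ((nx6 (stdf C s g p))^[m + 1] ((a, 0), 0)).1.1 =
        ((nx6 (stdf C s g p))^[m] ((a, 0), 0)).1.1 := by
    rcases h4 with ⟨e0, e1, e2⟩ | ⟨e0, e1, e2⟩ | ⟨e0, e1, e2⟩ | ⟨e0, e1, e2⟩
    · omega
    · omega
    · exact ⟨e0, by omega, e1⟩
    · omega
  set a' : ℤ := ((nx6 (stdf C s g p))^[m] ((a, 0), 0)).1.1 with ha'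
  have hpos : ((nx6 (stdf C s g p))^[m] ((a, 0), 0)).1 = (a', 0) := Prod.ext rfl hy
  have hpos' : ((nx6 (stdf C s g p))^[m + 1] ((a, 0), 0)).1 = (a', -1) := by
    refine Prod.ext hx ?_
    rcases h4 with ⟨e0, e1, e2⟩ | ⟨e0, e1, e2⟩ | ⟨e0, e1, e2⟩ | ⟨e0, e1, e2⟩ <;> simp only <;> omega
  have hop : op C s ((C.f s)^[m] (ps g p ((a, 0), 0))) = fe g p a' := by
    rw [op_iter, hpos, hd]
    rfl
  obtain ⟨h5, h6⟩ := box_strand hF hP hN h1 (fun hq => by
    have hq' : 0 ≤ ((nx6 (stdf C s g p))^[m + 1] ((a, 0), 0)).1.2 := hq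
    omega)
  rw [hop] at h5 h6
  rw [ip_floor] at h6
  have hX : (quadV N p (patK .mk g)).Real (fe g p a) :=
    real_fe_std hP (by omega) (by omega) (by omega) (show (0 : ℤ) ≤ 0 from le_rfl)
      (fun hq => by
        have hq' : (0 : ℤ) ≤ -1 := hq
        omega)
  exact ⟨a', _, ⟨h3.1.1.1, h3.1.1.2⟩, hpos', hX, h5, h6⟩

variable {be : Port T → Port T} {ch : Port T → ℝ} {b : (ℤ × ℤ) × ZMod 4 → Bool}
  {cc : (ℤ × ℤ) × ZMod 4 → ℤ}

theorem ff_sv {k : Kind} (h : BoxP C be ch N p (patK k g) b cc) {a a' : ℤ}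
    (hX : (quadV N p (patK k g)).Real (fe g p a)) (hY : (quadV N p (patK k g)).Real (fe g p a'))
    {l : List ((ℤ × ℤ) × ZMod 4)}
    (hw : Wk (s ∘ C.emb) (RG (full (quadV N p (patK k g)).A)) (fe g p a) (fe g p a') l) :
    (a' < a ∧ SV G be ch s (mp C.emb (fe g p a)) (mp C.emb (fe g p a'))
        (val (b (fe g p a)) 0 (cc (fe g p a) - cc (fe g p a'))) ∨
      a < a' ∧ SV G be ch s (mp C.emb (fe g p a)) (mp C.emb (fe g p a'))
        (val (b (fe g p a)) 0 (cc (fe g p a') - cc (fe g p a)))) := by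
  have hne : a ≠ a' := by
    rintro e
    have := wk_ne (quadV N p (patK k g)).hole hX.ffree hY.ffree hw
    exact this (by rw [← e])
  obtain ⟨D, ⟨h7, h8, h9⟩ | ⟨h7, h8, h9⟩⟩ := h.sv hX hY hw
  · obtain ⟨rfl, h10⟩ := typ_ff h7
    exact Or.inl ⟨lt_of_le_of_ne h10 hne.symm, h9⟩
  · obtain ⟨rfl, h10⟩ := typ_ff h7
    exact Or.inr ⟨lt_of_le_of_ne h10 hne, h9⟩

/-- **(E1), marks** -/
theorem sv_mk (h : BoxP C be ch N p (patK .mk g) b cc) (hN : n + 1 ≤ N) {c0 : St ℤ}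
    (hc : c0 ∈ Xk .mk n) (hit : Hit (nx6 (stdf C s g p)) (Dk .mk n) (Yk .mk) c0) :
    ∃ a a' : ℤ, c0 = ((a, 0), 0) ∧ (0 ≤ a ∧ a < n) ∧ (-(n : ℤ) ≤ a' ∧ a' < 0) ∧
      (quadV N p (patK .mk g)).Real (fe g p a) ∧ (quadV N p (patK .mk g)).Real (fe g p a') ∧
      SV G be ch s (mp C.emb (fe g p a)) (mp C.emb (fe g p a'))
        (val (b (fe g p a)) 0 (cc (fe g p a) - cc (fe g p a'))) := by
  obtain ⟨a, ha, rfl⟩ := Finset.mem_image.1 hc
  rw [Finset.mem_Ico] at ha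
  obtain ⟨M, h1, h2⟩ := hit
  obtain ⟨m, rfl⟩ : ∃ m, M = m + 1 := by
    refine ⟨M - 1, ?_⟩
    rcases Nat.eq_zero_or_pos M with h0 | h0
    · subst h0
      exact absurd (show a < 0 from h2.1) (by omega)
    · omega
  have h2' : ((nx6 (stdf C s g p))^[m + 1] ((a, 0), 0)).1.1 < 0 ∧
    ((nx6 (stdf C s g p))^[m + 1] ((a, 0), 0)).1.2 < 0 := h2
  obtain ⟨a', l, h3, h4, h5, h6, h7⟩ := ff_wk h.F h.patt hN (a := a) (by omega) (m := m)
    (fun j hj => h1 j (by omega)) h2'.2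
  have h8 : a' < 0 := by
    have := h2'.1
    rw [h4] at this
    exact this
  rcases ff_sv h h5 h6 h7 with ⟨h7, h9⟩ | ⟨h7, h9⟩
  · exact ⟨a, a', rfl, ha, ⟨h3.1, h8⟩, h5, h6, h9⟩
  · omega

/-- **(E1), ends** : the strand of the end `0` does not go far -/
theorem sv_e2 (h : BoxP C be ch N p (patK .mk g) b cc) (hn : 1 ≤ n) (hN : n + 1 ≤ N)
    (hE : stdf C s g p ∉ Tw440.E2 n) :
    ∃ a' : ℤ, (-(n : ℤ) ≤ a' ∧ a' < n) ∧
      (quadV N p (patK .mk g)).Real (fe g p 0) ∧ (quadV N p (patK .mk g)).Real (fe g p a') ∧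
      (a' < 0 ∧ SV G be ch s (mp C.emb (fe g p 0)) (mp C.emb (fe g p a'))
          (val (b (fe g p 0)) 0 (cc (fe g p 0) - cc (fe g p a'))) ∨
        0 < a' ∧ SV G be ch s (mp C.emb (fe g p 0)) (mp C.emb (fe g p a'))
          (val (b (fe g p 0)) 0 (cc (fe g p a') - cc (fe g p 0)))) := by
  have hW : stdf C s g p ∉ Tw440.Wk2 n := fun h => hE (Tw440.wk2_sub hn h)
  set it : ℕ → St ℤ := fun j => (nx6 (stdf C s g p))^[j] ((0, 0), 0) with hit
  have hsm : ∀ k, (∀ j < k, 0 ≤ (it j).1.2) →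
      (-(n : ℤ) < (it k).1.1 ∧ (it k).1.1 < n) ∧ -(n : ℤ) < (it k).1.2 ∧ (it k).1.2 < n := by
    intro k hk
    by_contra hcon
    apply hW
    refine ⟨k, hk, ?_⟩
    show (n : ℤ) ≤ |(it k).1.1 - 0| ∨ (n : ℤ) ≤ |(it k).1.2 - 0|
    rw [sub_zero, sub_zero, le_abs, le_abs]
    omega
  have hX : (quadV N p (patK .mk g)).Real (fe g p 0) :=
    real_fe_std h.patt (by omega) (by omega) (by omega) (show (0 : ℤ) ≤ 0 from le_rfl)
      (fun hq => by
        have hq' : (0 : ℤ) ≤ -1 := hq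
        omega)
  obtain ⟨Y, L, w, hY, hne⟩ := full_end (quadV N p (patK .mk g)).hole (s ∘ C.emb) hX.ffree
  rw [← ip_floor] at w
  obtain ⟨m, hm, rfl, rfl⟩ := wk_iter h.F (by
    rw [ps_fst]
    exact (mem_quadV h.patt (v := (0, 0)) (by simp only; omega)).2
      (show (0 : ℤ) ≤ 0 from le_rfl)) w
  have hpos : ∀ j, ((C.f s)^[j] (ps g p ((0, 0), 0))).1 = pl g p (it j).1 :=
    fun j => iter_fst g p _ j
  have key : ∀ j ≤ m, 0 ≤ (it j).1.2 := by
    intro j
    induction j using Nat.strong_induction_on with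
    | _ j ih =>
      intro hj
      have h3 := hsm j (fun i hi => ih i hi (by omega))
      have h4 := hm j hj
      rw [hpos] at h4
      have h5 : qd .mk (it j).1 := (mem_quadV h.patt (by omega)).1 h4
      exact h5
  have hT : ∀ j ≤ m, (it j).1 ∈ Tk .mk n := by
    intro j hj
    have h3 := hsm j (fun i hi => key i (by omega))
    exact mem_Tk.2 ⟨by omega, key j hj⟩
  have h2 : (it (m + 1)).1.2 < 0 := by
    by_contra hcon
    have h3 := hsm (m + 1) (fun i hi => key i (by omega))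
    apply hY.2
    rw [← next_pos, hpos]
    exact (mem_quadV h.patt (by omega)).2 (show (0 : ℤ) ≤ _ from by omega)
  obtain ⟨a', l, h3, h4, h5, h6, h7⟩ := ff_wk h.F h.patt hN (a := 0) (by omega) (m := m) hT h2
  exact ⟨a', h3, h5, h6, ff_sv h h5 h6 h7⟩

lemma kn_ex {k : Kind} {s' : ℤ × ℤ → Bool} (h : Kn k n s' ≠ 0) :
    ∃ c0 ∈ Xk k n, Hit (nx6 s') (Dk k n) (Yk k) c0 := by
  unfold Nz399.Kn Nm211.KK at h
  obtain ⟨c, hc⟩ := Finset.card_ne_zero.1 h
  exact ⟨c, (@Finset.mem_filter _ _ (fun x => Classical.propDecidable _) _ _).1 hc⟩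

/-- **(E1), ends** : a strand over the end `0` -/
theorem sv_e1 (h : BoxP C be ch N p (patK .mk g) b cc) (hN : n + 2 ≤ N)
    (hE : stdf C s g p ∉ G1 n) :
    ∃ a a' : ℤ, (1 ≤ a ∧ a ≤ n) ∧ (-(n : ℤ) ≤ a' ∧ a' < 0) ∧
      (quadV N p (patK .mk g)).Real (fe g p a) ∧ (quadV N p (patK .mk g)).Real (fe g p a') ∧
      SV G be ch s (mp C.emb (fe g p a)) (mp C.emb (fe g p a'))
        (val (b (fe g p a)) 0 (cc (fe g p a) - cc (fe g p a'))) := by
  have hE' : ¬ (Kn .mk n (stdf C s g p) = 0 ∨ Kp .mk 0 (1, 0) n (stdf C s g p) = 0) := hE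
  push Not at hE'
  obtain ⟨hE1, hE2⟩ := hE'
  -- the first gap
  obtain ⟨c0, hc, hit⟩ := kn_ex hE1
  obtain ⟨a, ha, rfl⟩ := Finset.mem_image.1 hc
  rw [Finset.mem_Ico] at ha
  obtain ⟨M, h1, h2⟩ := hit
  obtain ⟨m, rfl⟩ : ∃ m, M = m + 1 := by
    refine ⟨M - 1, ?_⟩
    rcases Nat.eq_zero_or_pos M with h0 | h0
    · subst h0
      exact absurd (show a < 0 from h2.1) (by omega)
    · omega
  have h2' : ((nx6 (stdf C s g p))^[m + 1] ((a, 0), 0)).1.1 < 0 ∧
    ((nx6 (stdf C s g p))^[m + 1] ((a, 0), 0)).1.2 < 0 := h2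
  obtain ⟨a', l, h3, h4, h5, h6, h7⟩ := ff_wk h.F h.patt (n := n) (by omega) (a := a)
    (by omega) (m := m) (fun j hj => h1 j (by omega)) h2'.2
  have h8 : a' < 0 := by
    have := h2'.1
    rw [h4] at this
    exact this
  by_cases ha0 : 1 ≤ a
  · rcases ff_sv h h5 h6 h7 with ⟨h7, h9⟩ | ⟨h7, h9⟩
    · exact ⟨a, a', ⟨ha0, by omega⟩, ⟨h3.1, h8⟩, h5, h6, h9⟩
    · omega
  obtain rfl : a = 0 := by omega
  -- the second gap
  rw [Nz399.Kp_eq] at hE2
  obtain ⟨c1, hc1, hit1⟩ := kn_ex hE2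
  obtain ⟨e, he, rfl⟩ := Finset.mem_image.1 hc1
  rw [Finset.mem_Ico] at he
  obtain ⟨M1, k1, k2⟩ := hit1
  have hps : ∀ c : St ℤ, (ps 0 (1, 0) c).1 = (c.1.1 + 1, c.1.2) := by
    intro c
    rw [ps_fst]
    show c.1 + (1, 0) = _
    ext <;> simp
  have hit2 : ∀ j, ((nx6 (stdf C s g p))^[j] ((e + 1, 0), 0)).1 =
      (((nx6 fun v => xor (od 0) (stdf C s g p (pl 0 (1, 0) v)))^[j] ((e, 0), 0)).1.1 + 1,
        ((nx6 fun v => xor (od 0) (stdf C s g p (pl 0 (1, 0) v)))^[j] ((e, 0), 0)).1.2) := by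
    intro j
    have e1 : (((e + 1, 0), 0) : St ℤ) = ps 0 (1, 0) ((e, 0), 0) := by
      refine Prod.ext ?_ rfl
      rw [hps]
    rw [e1, Tw440.ps_iter, hps]
  obtain ⟨m1, rfl⟩ : ∃ m, M1 = m + 1 := by
    refine ⟨M1 - 1, ?_⟩
    rcases Nat.eq_zero_or_pos M1 with h0 | h0
    · subst h0
      exact absurd (show e < 0 from k2.1) (by omega)
    · omega
  have k1' : ∀ j ≤ m1, ((nx6 (stdf C s g p))^[j] ((e + 1, 0), 0)).1 ∈ Tk .mk (n + 1) := by
    intro j hj
    have q1 := mem_Tk.1 (k1 j (by omega))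
    rw [hit2]
    have q2 : 0 ≤ ((nx6 fun v => xor (od 0) (stdf C s g p (pl 0 (1, 0) v)))^[j] ((e, 0), 0)).1.2 :=
      q1.2
    refine mem_Tk.2 ⟨?_, q2⟩
    push_cast
    omega
  have k2a : ((nx6 fun v => xor (od 0) (stdf C s g p (pl 0 (1, 0) v)))^[m1 + 1]
      ((e, 0), 0)).1.1 < 0 := k2.1
  have k2b : ((nx6 fun v => xor (od 0) (stdf C s g p (pl 0 (1, 0) v)))^[m1 + 1]
      ((e, 0), 0)).1.2 < 0 := k2.2
  obtain ⟨e', l', h3', h4', h5', h6', h7'⟩ := ff_wk h.F h.patt (n := n + 1) (by omega) (a := e + 1)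
    (by push_cast; omega) (m := m1) k1' (by rw [hit2]; exact k2b)
  push_cast at h3'
  have h8' : e' < 1 := by
    have := hit2 (m1 + 1)
    rw [h4'] at this
    have h9 := congrArg Prod.fst this
    simp only at h9
    omega
  have h9' : e' ≠ 0 := by
    rintro rfl
    have hs := (rg_glu (full (quadV N p (patK .mk g)).A))
    have w1 := Wk.reverse hs.sym h7'
    have hfr : ∀ {y : (ℤ × ℤ) × ZMod 4}, (quadV N p (patK .mk g)).Real y →
        Fr (RG (full (quadV N p (patK .mk g)).A)) y := by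
      rintro y hy b hb
      rw [rg_full] at hb
      exact hy.2.2 hb.2.1
    have w2 := Wk.det hs.fn w1 (hfr h5') h7 (hfr h6)
    have w3 : fe g p (e + 1) = fe g p a' := w2.1
    have w4 := congrArg Prod.fst (Nz399.pl_inj g p (congrArg Prod.fst w3))
    simp only at w4
    omega
  rcases ff_sv h h5' h6' h7' with ⟨q7, q9⟩ | ⟨q7, q9⟩
  · refine ⟨e + 1, e', ⟨by omega, by omega⟩, ⟨?_, by omega⟩, h5', h6', q9⟩
    -- the strand starts at distance `< n` of the end `1`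
    have q1 := mem_Tk.1 (k1 m1 (by omega))
    have q3 := hit2 m1
    have q4 := step4i (stdf C s g p) m1 ((e + 1, 0), 0)
    have q5 : ((nx6 (stdf C s g p))^[m1 + 1] ((e + 1, 0), 0)).1.1 = e' := by rw [h4']
    have q6 : ((nx6 (stdf C s g p))^[m1 + 1] ((e + 1, 0), 0)).1.2 = -1 := by rw [h4']
    have q7 : ((nx6 (stdf C s g p))^[m1] ((e + 1, 0), 0)).1.1 =
      ((nx6 fun v => xor (od 0) (stdf C s g p (pl 0 (1, 0) v)))^[m1] ((e, 0), 0)).1.1 + 1 := by
      rw [q3]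
    have q8 : 0 ≤ ((nx6 fun v => xor (od 0) (stdf C s g p (pl 0 (1, 0) v)))^[m1] ((e, 0), 0)).1.2 :=
      q1.2
    have q10 : ((nx6 (stdf C s g p))^[m1] ((e + 1, 0), 0)).1.2 =
      ((nx6 fun v => xor (od 0) (stdf C s g p (pl 0 (1, 0) v)))^[m1] ((e, 0), 0)).1.2 := by
      rw [q3]
    omega
  · omega

end Crest.Agent.R158.Pt266
end
end

-- ▼ part R158/Pt12_266
section

/-!
# R158, patches (helper266), file Pt12: special points of a half environment

* `boxP_of` : the box of an admissible special point, `sv_z` : value of a class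
* **`zero_special`** : a factor `mk`, `e2`, `e1` of value `0` gives a class of value `0`
* **`cv_special`, `rf_special`** : values of the strands counted at the corners
-/

set_option autoImplicit false
set_option linter.unusedVariables false
set_option linter.unusedSectionVars false
set_option linter.unusedSimpArgs false
set_option synthInstance.maxSize 1000

noncomputable section

namespace Crest.Agent.R158.Pt266

open Crest.Agent.R158.Sw300 (Port thru tn)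
open Crest.Agent.R158.Xr249 (full CPath)
open Crest.Agent.R158.Nm211 (St Dir mv dx dy trn nx6 rd opp Hit KK Far)
open Crest.Agent.R158.Ka470 (Patt View Free en ex sg B1 B3 Bv Cuts Half)
open Crest.Agent.R158.Ad350 (tnet tql seam)
open Crest.Agent.R158.Env664 (TG)
open Crest.Agent.R158.Lr158 (PhH OpenH gg Cg)
open Crest.Agent.R158.Ne808 (DN nt cpb)
open Crest.Agent.R158.Nz399 (Kind Tk Dk Yk Xk qd rt rs pl ps od fe we patK rq mem_Tk Kn Kp G1 Sp
  SpOk Chg kd Fk dbe dch fv)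

variable {A : Half} {ρ : ℕ} {h : A.Sz ρ} {i : Fin 4} {p : ℤ × ℤ} {k : Kind} {g N n : ℕ}
  {T : Finset TG} {be : Port TG → Port TG} {ch : Port TG → ℝ} {ps' cc : TG × ZMod 4 → ℤ} {cl : ℤ}
  {O : Finset (Port TG)} {s : TG × Bool → Bool}

/-- box of a special point -/
theorem boxP_of (E : DN A T be O) (H : PhH A ch ps' cc cl) (hB : A.Good ρ i (Bv N p))
    (hP : Patt (Half.chf h i).R (Bv N p) p (patK k g)) :
    BoxP (Half.chf h i) (dbe be O) (dch ch O) N p (patK k g) (cpb h i) (Cg cc cl h i) where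
  F := Half.chf_F h i
  patt := hP
  view := hB.view h
  rule := ⟨gg A cl i, Ne808.gauge_of E H hP, Ne808.ruleC_of H E.hO hB hP⟩

/-- value of the class of a strand -/
theorem sv_z (E : DN A T be O) {x y : (TG × Bool) × ZMod 4} {v : ℝ} (hx : A.tH x.1.1)
    (hy : A.tH y.1.1) (hv : SV A.Gd (dbe be O) (dch ch O) s x y v) :
    ‖(nt T be O ch s).z ((nt T be O ch s).cls (some x))‖ = |v| := by
  obtain ⟨l, h1, h2, h3, h4⟩ := hv
  rw [E.z_arc hx hy (Ne808.pk h1) h2 h3, h4]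

lemma cpb_eq {b : Bool} {B : Set (ℤ × ℤ)} {X : (ℤ × ℤ) × ZMod 4}
    (hk : ∀ u ∈ B, u ∈ (Half.chf h i).R → ((Half.chf h i).emb u).2 = b)
    (h1 : X.1 ∈ B) (h2 : X.1 ∈ (Half.chf h i).R) : cpb h i X = !b := by
  unfold cpb
  rw [hk _ h1 h2]

/-- **a factor of value `0` gives a class of value `0`** -/
theorem zero_special (E : DN A T be O) (H : PhH A ch ps' cc cl) (h : A.Sz ρ) {x : Sp}
    (hx : SpOk h (Cg cc cl h) x) (hf : kd x.f = .mk) (h0 : x.val h (3 * ρ) s = 0) :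
    ∃ X : (ℤ × ℤ) × ZMod 4, X.1 ∈ (Half.chf h x.i).R ∧
      A.tH (mp (Half.chf h x.i).emb X).1.1 ∧
      (nt T be O ch s).z ((nt T be O ch s).cls (some (mp (Half.chf h x.i).emb X))) = 0 := by
  have hρ := h.pos
  obtain ⟨i, f, g, p⟩ := x
  obtain ⟨hgood, hpatt, k, hk, hchg⟩ := hx
  simp only at hgood hpatt hk hchg hf ⊢
  rw [hf] at hpatt
  have hbox := boxP_of E H hgood hpatt
  have fin : ∀ {a a' : ℤ} {v : ℝ}, (quadV (5 * ρ) p (patK .mk g)).Real (fe g p a) →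
      (quadV (5 * ρ) p (patK .mk g)).Real (fe g p a') →
      SV A.Gd (dbe be O) (dch ch O) s (mp (Half.chf h i).emb (fe g p a))
        (mp (Half.chf h i).emb (fe g p a')) v → v = 0 →
      ∃ X : (ℤ × ℤ) × ZMod 4, X.1 ∈ (Half.chf h i).R ∧
      A.tH (mp (Half.chf h i).emb X).1.1 ∧
      (nt T be O ch s).z ((nt T be O ch s).cls (some (mp (Half.chf h i).emb X))) = 0 := by
    intro a a' v h1 h2 h3 h4
    refine ⟨fe g p a, ((mem_quadB hpatt).1 h1.1).1, Ne808.real_tH hpatt h1, ?_⟩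
    rw [← norm_eq_zero, sv_z E (Ne808.real_tH hpatt h1) (Ne808.real_tH hpatt h2) h3, h4, abs_zero]
  have hcp : ∀ {a : ℤ}, (quadV (5 * ρ) p (patK .mk g)).Real (fe g p a) →
      cpb h i (fe g p a) = !k := fun h1 =>
    cpb_eq hk ((mem_quadB hpatt).1 h1.1).2 ((mem_quadB hpatt).1 h1.1).1
  have hval : fv f (3 * ρ) (stdf (Half.chf h i) s g p) = 0 := h0
  cases f with
  | cv => simp [kd] at hf
  | rf => simp [kd] at hf
  | mk =>
    have h1 : Kn .mk (3 * ρ) (stdf (Half.chf h i) s g p) ≠ 0 := by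
      intro h2
      have h3 : fv .mk (3 * ρ) (stdf (Half.chf h i) s g p) = 1 := by
        unfold Nz399.fv
        exact Set.indicator_of_mem (s := {s | Kn .mk (3 * ρ) s = 0}) h2 _
      rw [h3] at hval
      norm_num at hval
    obtain ⟨c0, hc, hh⟩ := kn_ex h1
    obtain ⟨a, a', rfl, ha, ha', hX, hY, hv⟩ := sv_mk hbox (by omega) hc hh
    refine fin hX hY hv ?_
    have h2 := hchg a a' ha.1 ha.2 ha'.1 ha'.2
    rw [hcp hX]
    cases k
    · exact Ne808.val_true_zero (by simpa using h2)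
    · exact Ne808.val_false0_zero (by simpa using h2)
  | e2 =>
    obtain ⟨rfl, hc1, hc2⟩ := hchg
    have h1 : stdf (Half.chf h i) s g p ∉ Tw440.E2 (3 * ρ) := by
      intro h2
      have h3 : fv .e2 (3 * ρ) (stdf (Half.chf h i) s g p) = 1 := by
        unfold Nz399.fv
        exact Set.indicator_of_mem h2 _
      rw [h3] at hval
      norm_num at hval
    obtain ⟨a', ha', hX, hY, ⟨h4, hv⟩ | ⟨h4, hv⟩⟩ := sv_e2 hbox (by omega) (by omega) h1
    · refine fin hX hY hv ?_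
      rw [hcp hX]
      exact Ne808.val_true_zero (hc2 a' ha'.1 h4)
    · refine fin hX hY hv ?_
      rw [hcp hX]
      exact Ne808.val_true_zero (hc1 a' h4 ha'.2)
  | e1 =>
    obtain ⟨rfl, hc1⟩ := hchg
    have h1 : stdf (Half.chf h i) s g p ∉ G1 (3 * ρ) := by
      intro h2
      have h3 : fv .e1 (3 * ρ) (stdf (Half.chf h i) s g p) = 1 := by
        unfold Nz399.fv
        exact Set.indicator_of_mem h2 _
      rw [h3] at hval
      norm_num at hval
    obtain ⟨a, a', ha, ha', hX, hY, hv⟩ := sv_e1 hbox (by omega) h1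
    refine fin hX hY hv ?_
    rw [hcp hX]
    exact Ne808.val_false0_zero (hc1 a a' (by omega) ha.2 ha'.1 ha'.2)



/-- **reflex corners** : the counted strands have value `1` -/
theorem rf_special (E : DN A T be O) (H : PhH A ch ps' cc cl) (h : A.Sz ρ) {i : Fin 4} {g : ℕ}
    {p : ℤ × ℤ} (hx : SpOk h (Cg cc cl h) ⟨i, .rf, g, p⟩) {c0 : St ℤ} (hc : c0 ∈ Xk .rf (3 * ρ))
    (hh : Hit (nx6 (stdf (Half.chf h i) s g p)) (Dk .rf (3 * ρ)) (Yk .rf) c0) :
    ∃ a a' : ℤ, c0 = ((0, a), 1) ∧ (-((3 * ρ : ℕ) : ℤ) ≤ a ∧ a < 0) ∧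
      (-((3 * ρ : ℕ) : ℤ) ≤ a' ∧ a' < 0) ∧
      (quadV (5 * ρ) p (patK .rf g)).Real (we g p a) ∧
      (quadV (5 * ρ) p (patK .rf g)).Real (fe g p a') ∧
      ‖(nt T be O ch s).z ((nt T be O ch s).cls (some (mp (Half.chf h i).emb (we g p a))))‖ = 1 := by
  have hρ := h.pos
  obtain ⟨hgood, hpatt, k, hk, rfl, hchg⟩ := hx
  have hpatt' : Patt (Half.chf h i).R (Bv (5 * ρ) p) p (patK .rf g) := hpatt
  obtain ⟨a, a', h1, h2, h3, h4, h5, h6⟩ := sv_rf (boxP_of E H hgood hpatt') (n := 3 * ρ)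
    (by omega) hc hh
  refine ⟨a, a', h1, h2, h3, h4, h5, ?_⟩
  have e1 : cpb h i (we g p a) = !true :=
    cpb_eq hk ((mem_quadB hpatt').1 h4.1).2 ((mem_quadB hpatt').1 h4.1).1
  have e2 : Cg cc cl h i (we g p a) - Cg cc cl h i (fe g p a') = 0 := by
    rw [hchg a a' h2.1 h2.2 h3.1 h3.2, sub_self]
  rw [e1, e2, Bool.not_true] at h6
  rw [sv_z E (Ne808.real_tH hpatt' h4) (Ne808.real_tH hpatt' h5) h6]
  exact Ne808.val_false_rf

end Crest.Agent.R158.Pt266
end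
end

-- ▼ part R158/Ne8_808
section

/-!
# R158, block Q1d, leaf (E) (helper808), part 8: **the pointwise theorem**

* `cls_cases` : every class is big, or of weight at most `1`, or counted at a convex corner of the
  second copy
* `seen_of` : admissible special points are completely seen
* **`pw`** : `‖z‖ ≤ √3 ^ (#ends / 2) * ((∏ x ∈ X, x.val) * 2 ^ BN)`
-/

set_option autoImplicit false
set_option linter.unusedSectionVars false
set_option synthInstance.maxSize 1000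

noncomputable section

namespace Crest.Agent.R158.Ne808

open Crest.Agent.R158.Nm211
open Crest.Agent.R158.Nz399
open Crest.Agent.R158.Ka470
open Crest.Agent.R158.Ad350 (Net tnet ports mem_ports mem_ports' tnet_ok seam)
open Crest.Agent.R158.Sw300 (Port thru)
open Crest.Agent.R158.Env664 (TG)
open Crest.Agent.R158.Lr158 (PhH OpenH Phi gg Cg Stp nxe REnd)
open Crest.Agent.R158.Pt266 (Quad quadB mp dir Gauge NxT val sgn wph RG RuleC ip op tt Cl comp
  rg_full pl_four qd_pl_eq qd_pl_inj fe_face we_face typ_cv typ_rf rg_glu stdf)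
open Crest.Agent.R158.Xr249 (full)

section

variable {A : Half} {ρ : ℕ} {h : A.Sz ρ} {i : Fin 4} {x1 x2 z1 z2 : ℤ} {o p : ℤ × ℤ}
  {pat : Bool → Bool → Bool} {T : Finset TG} {be : Port TG → Port TG}
  {ch : Port TG → ℝ} {ps cc : TG × ZMod 4 → ℤ} {cl : ℤ} {O : Finset (Port TG)}
  {s : TG × Bool → Bool}

theorem cw_le_one {P : Type*} [DecidableEq P] {N : Net P} {c : Finset P}
    (he : (N.eds c).Nonempty) (hz : ‖N.z c‖ ≤ √3) : N.cw c ≤ 1 := by
  unfold Net.cw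
  rw [if_pos he, div_le_one (by positivity)]
  exact hz

/-- a strand between real ends of a small box is of weight at most `1` or counted -/
theorem arc_cases {L a' b' c' : ℤ}
    (m : A.Mc L a' b' c') (h : A.Sz ρ) (h' : A.Sz' ρ L) {X : Finset Sp}
    (hX : XOk h L (Cg cc cl h) X) (hC : RfC h L (Cg cc cl h))
    (hP : Patt (Half.chf h i).R (B5 ρ o) p pat) (hcut : Cuts (B5 ρ o) p → p ∈ A.Ver L i)
    {x y : (ℤ × ℤ) × ZMod 4} {k : List ((ℤ × ℤ) × ZMod 4)}
    (hx : (quadB (o.1 - ρ) (o.1 + 2 * ρ) (o.2 - ρ) (o.2 + 2 * ρ) p pat).Real x)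
    (hy : (quadB (o.1 - ρ) (o.1 + 2 * ρ) (o.2 - ρ) (o.2 + 2 * ρ) p pat).Real y)
    (hw : Pt266.Wk (s ∘ (Half.chf h i).emb)
      (RG (full (quadB (o.1 - ρ) (o.1 + 2 * ρ) (o.2 - ρ) (o.2 + 2 * ρ) p pat).A)) x y k)
    {D : ℤ} (ht : (quadB (o.1 - ρ) (o.1 + 2 * ρ) (o.2 - ρ) (o.2 + 2 * ρ) p pat).Typ x y D)
    (hb : cpb h i y = cpb h i x) :
    |val (cpb h i x) D (Cg cc cl h i x - Cg cc cl h i y)| ≤ √3 ∨
    ∃ g < 4, (⟨1, .cv, g, p⟩ : Sp) ∈ X ∧
      ∃ c0 ∈ (⟨1, .cv, g, p⟩ : Spot (Fin 4)).cs (Half.chf h) (3 * ρ) s,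
        some (mp (Half.chf h i).emb x) = some ((Half.chf h 1).pe c0) := by
  cases hcx : cpb h i x with
  | true => exact Or.inl val_true
  | false =>
    rw [hcx] at hb
    have hD : D = 0 ∨ D = 1 ∨ D = -1 := by
      rcases ht with ⟨h1, -⟩ | ⟨h1, -⟩ | ⟨h1, -⟩
      · exact Or.inl h1
      · exact Or.inr (Or.inl h1)
      · exact Or.inr (Or.inr h1)
    rcases hD with rfl | rfl | rfl
    · exact Or.inl val_false0
    · exact Or.inr (cv_counted m h h' hX hP hcut hx hy hw ht hcx hb)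
    · left
      rw [rf_const m h h' hC hP hcut hx hy ht hcx hb, sub_self, val_false_rf]
      exact Net.one_le_s3

/-- **the classes** -/
theorem cls_cases (E : DN A T be O) (H : PhH A ch ps cc cl) {L a' b' c' : ℤ}
    (m : A.Mc L a' b' c') (h : A.Sz ρ) (h' : A.Sz' ρ L) {X : Finset Sp}
    (hX : XOk h L (Cg cc cl h) X) (hC : RfC h L (Cg cc cl h)) {c : Finset (Port (TG × Bool))}
    (hc : c ∈ (nt T be O ch s).classes (ports (T ×ˢ (Finset.univ : Finset Bool)))) :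
    Half.BigS h s {q | some q ∈ c} ∨ (nt T be O ch s).cw c ≤ 1 ∨
    ∃ g < 4, ∃ p : ℤ × ℤ, (⟨1, .cv, g, p⟩ : Sp) ∈ X ∧
      ∃ c0 ∈ (⟨1, .cv, g, p⟩ : Spot (Fin 4)).cs (Half.chf h) (3 * ρ) s,
        (nt T be O ch s).cls (some ((Half.chf h 1).pe c0)) = c := by
  rcases small_cls E H h m h' hc with hb | hz | ⟨i, o, p, pat, x, y, k, hg, hP, hcut, hx, hy, hw, rfl⟩
  · exact Or.inl hb
  · exact Or.inr (Or.inl ((Net.cw_le_norm _).trans hz.le))
  right
  have hg3 : A.Good ρ i (Bx (o.1 - ρ) (o.1 + 2 * ρ) (o.2 - ρ) (o.2 + 2 * ρ)) :=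
    hg.mono (B3_sub _ _)
  have hP3 : Patt (Half.chf h i).R (Bx (o.1 - ρ) (o.1 + 2 * ρ) (o.2 - ρ) (o.2 + 2 * ρ)) p pat :=
    hP.mono (B3_sub _ _)
  obtain ⟨he, hcl⟩ := arc_ends (ch := ch) E hg3 hP3 hx hy hw
  have hne : ((nt T be O ch s).eds
      ((nt T be O ch s).cls (some (mp (Half.chf h i).emb x)))).Nonempty := by
    rw [he]
    exact Finset.insert_nonempty _ _
  obtain ⟨D, ⟨ht, hb, hv⟩ | ⟨ht, hb, hv⟩⟩ := arcC E H hg3 hP3 hx hy hw
  · rcases arc_cases m h h' hX hC hP hcut hx hy hw ht hb with h1 | ⟨g, hg4, hgX, c0, hc0, e⟩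
    · exact Or.inl (cw_le_one hne (by rw [hv]; exact h1))
    · exact Or.inr ⟨g, hg4, p, hgX, c0, hc0, by rw [← e]⟩
  · have hw' := Pt266.Wk.reverse (rg_glu (full (quadB (o.1 - ρ) (o.1 + 2 * ρ) (o.2 - ρ)
      (o.2 + 2 * ρ) p pat).A)).sym hw
    rcases arc_cases m h h' hX hC hP hcut hy hx hw' ht hb.symm with
      h1 | ⟨g, hg4, hgX, c0, hc0, e⟩
    · refine Or.inl (cw_le_one hne ?_)
      rw [hv]
      rwa [hb] at h1
    · exact Or.inr ⟨g, hg4, p, hgX, c0, hc0, by rw [← e, hcl]⟩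

/-! ### admissible points are completely seen -/

theorem yk_qd {k : Kind} {c : St ℤ} (hc : c ∈ Yk k) : ¬ qd k c.1 := by
  cases k
  · have hc' : c.1.1 < 0 := hc
    rintro ⟨h1, -⟩
    omega
  · have hc1 : c.1.1 < 0 := hc.1
    have hc2 : c.1.2 < 0 := hc.2.1
    rintro (h1 | h1) <;> omega
  · have hc2 : c.1.2 < 0 := hc.2
    intro h1
    have h1' : 0 ≤ c.1.2 := h1
    omega

theorem seen_of (E : DN A T be O) (h : A.Sz ρ) {k : Kind} {g : ℕ}
    (hB : A.Good ρ i (Bv (5 * ρ) p))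
    (hP : Patt (Half.chf h i).R (Bv (5 * ρ) p) p (patK k g)) :
    (⟨i, k, g, p⟩ : Spot (Fin 4)).Seen (Half.chf h) (dbe be O) (3 * ρ) := by
  have hρ := h.pos
  have hρ' : (1 : ℤ) ≤ ρ := by exact_mod_cast hρ
  have hF := Half.chf_F h i
  have hmem : ∀ c0 ∈ Dk k (3 * ρ), (Nz399.ps g p c0).1 ∈ (Half.chf h i).R ∧
      (Nz399.ps g p c0).1 ∈ Bv (5 * ρ) p := by
    intro c0 hc0
    obtain ⟨h1, h2⟩ := mem_Tk.1 hc0
    push_cast at h1
    have h3 : pl g p c0.1 ∈ Bv (5 * ρ) p := pl_Bv g p (by push_cast; omega)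
    rw [ps_pl]
    refine ⟨?_, h3⟩
    rw [hP _ h3, patK_pl]
    exact h2
  refine ⟨?_, ?_, ?_⟩
  · rintro c ⟨c0, hc0, rfl⟩
    exact (hmem c0 hc0).1
  · intro c hc
    obtain ⟨c0, hc0, rfl⟩ := Finset.mem_image.1 hc
    have hD := hmem c0 (Xk_Dk hc0)
    have hq : Free A.Gd ((Half.chf h i).pe (Nz399.ps g p c0)) := by
      rw [Pt266.pe_ip hF]
      have hreal : (Pt266.quadV (5 * ρ) p (patK k g)).Real (ip (Nz399.ps g p c0)) := by
        cases k
        · obtain ⟨x, hx, rfl⟩ := Finset.mem_image.1 hc0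
          rw [Finset.mem_Ico] at hx
          rw [Pt266.ip_floor]
          push_cast at hx
          exact Pt266.real_fe_std hP (by omega) (by push_cast; omega) (by push_cast; omega)
            ⟨hx.1, le_rfl⟩ (fun hq => absurd hq.2 (by norm_num))
        · obtain ⟨y, hy, rfl⟩ := Finset.mem_image.1 hc0
          rw [Finset.mem_Ico] at hy
          rw [Pt266.ip_wall]
          push_cast at hy
          refine Pt266.real_we_std hP (by omega) (by push_cast; omega) (by push_cast; omega)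
            (Or.inl le_rfl) ?_
          rintro (hq | hq)
          · exact absurd hq (by norm_num)
          · have hq' : 0 ≤ y := hq
            omega
        · obtain ⟨x, hx, rfl⟩ := Finset.mem_image.1 hc0
          rw [Finset.mem_Ico] at hx
          rw [Pt266.ip_floor]
          push_cast at hx
          refine Pt266.real_fe_std hP (by omega) (by push_cast; omega) (by push_cast; omega)
            (show (0 : ℤ) ≤ 0 from le_rfl) (fun hq => ?_)
          have hq' : (0 : ℤ) ≤ -1 := hq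
          omega
      exact Pt266.free_of_real hF hP (hB.view h) hreal
    exact (E.free (Lr158.tH_emb h i hD.1)).1 hq
  · rintro c ⟨c0, hc0, rfl⟩ c' ⟨c0', hc0', rfl⟩ hstep
    obtain ⟨hR, hBv⟩ := hmem c0 hc0
    have hstd := ps_step.1 hstep
    have h1 := (mem_Tk.1 hc0).1
    push_cast at h1
    have h2 : c0'.1.1 = c0.1.1 + dx c0'.2 ∧ c0'.1.2 = c0.1.2 + dy c0'.2 := by
      rw [hstd]; simp [mv]
    have h3 : (Nz399.ps g p c0').1 ∈ Bv (5 * ρ) p := by
      rw [ps_pl]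
      refine pl_Bv g p ?_
      rcases dxy c0'.2 with ⟨-, h3, h4⟩ | ⟨-, h3, h4⟩ | ⟨-, h3, h4⟩ | ⟨-, h3, h4⟩ <;>
        (push_cast; omega)
    have h4 : (Nz399.ps g p c0').1 ∉ (Half.chf h i).R := by
      rw [ps_pl] at h3 ⊢
      rw [hP _ h3, patK_pl]
      exact yk_qd hc0'
    have h5 := hB.view h (Nz399.ps g p c0).1 hR hBv (Nz399.ps g p c0').2
      (by rw [← hstep]; exact h3) (by rw [← hstep]; exact h4)
    have h6 : A.tH ((Half.chf h i).pt (Nz399.ps g p c0).1 (ex (Nz399.ps g p c0').2)).1.1 :=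
      Lr158.tH_emb h i hR
    exact (E.free h6).1 h5

/-! ### the pointwise theorem -/

/-- the spot of a special point -/
def spo (x : Sp) : Spot (Fin 4) := ⟨x.i, kd x.f, x.g, x.p⟩

/-- weight of the counted strands -/
def wt (v : Spot (Fin 4)) : ℝ := if v.k = .cv then 2 / √3 else 1 / √3

theorem wt_cv {v : Spot (Fin 4)} (hv : v.k = .cv) : wt v = 2 / √3 := if_pos hv

theorem wt_rf {v : Spot (Fin 4)} (hv : v.k = .rf) : wt v = 1 / √3 :=
  if_neg (by rw [hv]; decide)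

theorem wt_nonneg (v : Spot (Fin 4)) : 0 ≤ wt v := by
  unfold wt; split_ifs <;> positivity

theorem val_spo (h : A.Sz ρ) {x : Sp} (hf : x.f = .cv ∨ x.f = .rf) (n : ℕ) :
    x.val h n s = wt (spo x) ^ (spo x).K (Half.chf h) n s := by
  obtain ⟨i, f, g, p⟩ := x
  have e : ∀ k, Kp k g p n (rd (Half.chf h i).emb (Half.chf h i).Fn s) =
      Kn k n fun v => xor (od g) (rd (Half.chf h i).emb (Half.chf h i).Fn s (pl g p v)) :=
    fun k => Kp_eq k g p n _
  rcases hf with hf | hf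
  · simp only at hf
    subst hf
    rw [wt_cv (v := spo ⟨i, .cv, g, p⟩) rfl]
    show _ = (2 / √3) ^ Kp .cv g p n (rd (Half.chf h i).emb (Half.chf h i).Fn s)
    rw [e]
    rfl
  · simp only at hf
    subst hf
    rw [wt_rf (v := spo ⟨i, .rf, g, p⟩) rfl]
    show _ = (1 / √3) ^ Kp .rf g p n (rd (Half.chf h i).emb (Half.chf h i).Fn s)
    rw [e]
    rfl

theorem val_ind (h : A.Sz ρ) {x : Sp} (hf : ¬ (x.f = .cv ∨ x.f = .rf)) (n : ℕ) :
    x.val h n s = 0 ∨ x.val h n s = 1 := by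
  obtain ⟨i, f, g, p⟩ := x
  have key : ∀ S : Set (ℤ × ℤ → Bool), ∀ z, S.indicator (fun _ => (1 : ℝ)) z = 0 ∨
      S.indicator (fun _ => (1 : ℝ)) z = 1 := by
    intro S z
    by_cases hz : z ∈ S
    · right; exact Set.indicator_of_mem hz _
    · left; exact Set.indicator_of_notMem hz _
  cases f
  · exact absurd (Or.inl rfl) hf
  · exact absurd (Or.inr rfl) hf
  · exact key _ _
  · exact key _ _
  · exact key _ _

theorem spo_inj {x y : Sp} (hx : x.f = .cv ∨ x.f = .rf) (hy : y.f = .cv ∨ y.f = .rf)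
    (e : spo x = spo y) : x = y := by
  obtain ⟨i, f, g, p⟩ := x
  obtain ⟨i', f', g', p'⟩ := y
  unfold spo at e
  simp only [Spot.mk.injEq] at e
  obtain ⟨rfl, h1, rfl, rfl⟩ := e
  have : f = f' := by
    rcases hx with rfl | rfl <;> rcases hy with rfl | rfl
    · rfl
    · exact absurd h1 (by decide)
    · exact absurd h1 (by decide)
    · rfl
  rw [this]

theorem sup_spo (h : A.Sz ρ) {x : Sp} (hf : x.f = .cv ∨ x.f = .rf) (n : ℕ) {t : TG × Bool} :
    t ∈ (spo x).sup (Half.chf h) n ↔ t ∈ x.sup h n := by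
  obtain ⟨i, f, g, p⟩ := x
  unfold Spot.sup Sp.sup Nz399.fS spo
  rw [Finset.mem_image, Finset.mem_image]
  rcases hf with hf | hf <;> (simp only at hf; subst hf; rfl)

/-- number of big classes -/
theorem big_le (E : DN A T be O) (h : A.Sz ρ) (B : Finset (Finset (Port (TG × Bool))))
    (hB : ∀ c ∈ B, c ∈ (nt T be O ch s).classes (ports (T ×ˢ (Finset.univ : Finset Bool))) ∧
      Half.BigS h s {q | some q ∈ c}) : B.card ≤ BN h s := by
  have hN := E.ok ch s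
  refine BN_le h s (fun j : Fin B.card => {q | some q ∈ (B.equivFin.symm j).1}) ?_ ?_
  · intro j k hjk q hq hq'
    have h1 := hB _ (B.equivFin.symm j).2
    have h2 := hB _ (B.equivFin.symm k).2
    obtain ⟨x, hx, e1⟩ := Finset.mem_image.1 h1.1
    obtain ⟨y, hy, e2⟩ := Finset.mem_image.1 h2.1
    have hne : (nt T be O ch s).cls x ≠ (nt T be O ch s).cls y := by
      rw [e1, e2]
      intro hh
      exact hjk (B.equivFin.symm.injective (Subtype.ext hh))
    have h3 := Net.cls_disj hN (hN.clV.sub hx) (hN.clV.sub hy) hne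
    rw [e1, e2] at h3
    exact Finset.disjoint_left.1 h3 hq hq'
  · intro j
    exact (hB _ (B.equivFin.symm j).2).2

/-- **THE POINTWISE THEOREM** (`PW` of helper399) -/
theorem pw (E : DN A T be O) (H : PhH A ch ps cc cl) {L a' b' c' : ℤ}
    (m : A.Mc L a' b' c') (h : A.Sz ρ) (h' : A.Sz' ρ L) {X : Finset Sp}
    (hX : XOk h L (Cg cc cl h) X) (hC : RfC h L (Cg cc cl h)) :
    ∀ s, ‖(nt T be O ch s).z (ports (T ×ˢ (Finset.univ : Finset Bool)))‖ ≤
      √3 ^ (((nt T be O ch s).eds (ports (T ×ˢ (Finset.univ : Finset Bool)))).card / 2) *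
        ((∏ x ∈ X, x.val h (3 * ρ) s) * 2 ^ BN h s) := by
  classical
  intro s
  have hN := E.ok ch s
  have hρ := h.pos
  by_cases h0 : ∃ x ∈ X, ¬ (x.f = .cv ∨ x.f = .rf) ∧ x.val h (3 * ρ) s = 0
  · -- a factor of value `0`
    obtain ⟨x, hx, hf, hx0⟩ := h0
    have hkd : kd x.f = .mk := by
      cases hxf : x.f
      · exact absurd (Or.inl hxf) hf
      · exact absurd (Or.inr hxf) hf
      · rfl
      · rfl
      · rfl
    obtain ⟨Y, -, h2, h3⟩ := Pt266.zero_special E H h (hX.ok x hx) hkd hx0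
    have h4 : (some (mp (Half.chf h x.i).emb Y) : Port (TG × Bool)) ∈
        ports (T ×ˢ (Finset.univ : Finset Bool)) := mem_ports.2 (E.mem.2 h2)
    have h5 : (nt T be O ch s).z (ports (T ×ˢ (Finset.univ : Finset Bool))) = 0 := by
      have h6 := Net.z_classes hN hN.clV
      refine h6.trans (Finset.prod_eq_zero (Finset.mem_image_of_mem _ h4) h3)
    rw [h5, norm_zero, Finset.prod_eq_zero hx hx0]
    simp
  push Not at h0
  set X0 := X.filter fun x => x.f = .cv ∨ x.f = .rf with hX0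
  have hprod : ∏ x ∈ X, x.val h (3 * ρ) s = ∏ x ∈ X0, x.val h (3 * ρ) s := by
    rw [hX0, Finset.prod_filter]
    refine Finset.prod_congr rfl fun x hx => ?_
    by_cases hf : x.f = .cv ∨ x.f = .rf
    · rw [if_pos hf]
    · rw [if_neg hf]
      rcases val_ind (s := s) h hf (3 * ρ) with h1 | h1
      · exact absurd h1 (h0 x hx (not_or.1 hf))
      · exact h1
  have hX0f : ∀ x ∈ X0, x ∈ X ∧ (x.f = .cv ∨ x.f = .rf) := fun x hx => Finset.mem_filter.1 hx
  have hinj : Set.InjOn spo (X0 : Set Sp) := fun x hx y hy e =>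
    spo_inj (hX0f x hx).2 (hX0f y hy).2 e
  set I := X0.image spo with hI
  have hprod2 : ∏ x ∈ X0, x.val h (3 * ρ) s = ∏ v ∈ I, wt v ^ v.K (Half.chf h) (3 * ρ) s := by
    rw [hI, Finset.prod_image hinj]
    exact Finset.prod_congr rfl fun x hx => val_spo h (hX0f x hx).2 _
  have hIx : ∀ v ∈ I, ∃ x ∈ X, (x.f = .cv ∨ x.f = .rf) ∧ spo x = v := by
    intro v hv
    obtain ⟨x, hx, rfl⟩ := Finset.mem_image.1 hv
    exact ⟨x, (hX0f x hx).1, (hX0f x hx).2, rfl⟩
  have hseen : ∀ v ∈ I, v.Seen (Half.chf h) (dbe be O) (3 * ρ) := by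
    intro v hv
    obtain ⟨x, hx, hf, rfl⟩ := hIx v hv
    exact seen_of E h (hX.ok x hx).good (hX.ok x hx).patt
  have hdis : ∀ v ∈ I, ∀ v' ∈ I, v ≠ v' →
      Disjoint (v.sup (Half.chf h) (3 * ρ)) (v'.sup (Half.chf h) (3 * ρ)) := by
    intro v hv v' hv' hne
    obtain ⟨x, hx, hf, rfl⟩ := hIx v hv
    obtain ⟨x', hx', hf', rfl⟩ := hIx v' hv'
    have h1 := hX.dis x hx x' hx' fun e => hne (by rw [e])
    rw [Finset.disjoint_left] at h1 ⊢
    intro t ht ht'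
    exact h1 ((sup_spo h hf _).1 ht) ((sup_spo h hf' _).1 ht')
  have hG : ∀ a b, A.Gd a b → dbe be O (some a) = some b ∧ a ≠ b := E.g1
  have hA : ∀ i, ∀ u ∈ (Half.chf h i).R, (Half.chf h i).emb u ∈
      T ×ˢ (Finset.univ : Finset Bool) := fun i => E.emb h i
  set B := ((nt T be O ch s).classes (ports (T ×ˢ (Finset.univ : Finset Bool)))).filter
    fun c => Half.BigS h s {q | some q ∈ c} with hBdef
  have hBcard : B.card ≤ BN h s := big_le (ch := ch) E h B fun c hc => Finset.mem_filter.1 hc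
  have hcw : ∀ v ∈ I, ∀ c ∈ v.cs (Half.chf h) (3 * ρ) s,
      (nt T be O ch s).cw ((nt T be O ch s).cls (some ((Half.chf h v.i).pe c))) ≤ wt v := by
    intro v hv c hc
    obtain ⟨y, -, -, hport, heds, -⟩ := Spot.cs_eds (ch := dch ch O) hN hG hA (hseen v hv) hc
    have hne : ((nt T be O ch s).eds
        ((nt T be O ch s).cls (some ((Half.chf h v.i).pe c)))).Nonempty := by
      have heds' : (nt T be O ch s).eds ((nt T be O ch s).cls (some ((Half.chf h v.i).pe c))) =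
        {some ((Half.chf h v.i).pe c), some y} := heds
      rw [heds']
      exact Finset.insert_nonempty _ _
    have hcwv : (nt T be O ch s).cw ((nt T be O ch s).cls (some ((Half.chf h v.i).pe c))) =
        ‖(nt T be O ch s).z ((nt T be O ch s).cls (some ((Half.chf h v.i).pe c)))‖ / √3 := by
      unfold Net.cw
      rw [if_pos hne]
    rw [hcwv]
    obtain ⟨x, hx, hf, rfl⟩ := hIx v hv
    rcases hf with hf | hf
    · rw [wt_cv (v := spo x) (by show kd x.f = _; rw [hf]; rfl)]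
      exact div_le_div_of_nonneg_right (Net.norm_cls_le hN (hN.clV.sub hport)) (by positivity)
    · rw [wt_rf (v := spo x) (by show kd x.f = _; rw [hf]; rfl)]
      refine div_le_div_of_nonneg_right ?_ (by positivity)
      obtain ⟨i, f, g, p⟩ := x
      simp only at hf
      subst hf
      obtain ⟨c0, hc0, rfl⟩ := Finset.mem_image.1 ((Spot.mem_cs.1 hc).1)
      have hc1 := (mem_cs_ps (C := Half.chf h) (i := i) (k := .rf)).1 hc
      obtain ⟨a, a1, rfl, -, -, -, -, hz⟩ :=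
        Pt266.rf_special (s := s) E H h (hX.ok _ hx) hc1.1 hc1.2
      have e2 : (Half.chf h i).pe (Nz399.ps g p ((0, a), 1)) =
          mp (Half.chf h i).emb (we g p a) := by
        rw [Pt266.pe_ip (Half.chf_F h i), Pt266.ip_wall]
      have e3 : (Half.chf h (spo ⟨i, Fk.rf, g, p⟩).i).pe
          (Nz399.ps (spo ⟨i, Fk.rf, g, p⟩).g (spo ⟨i, Fk.rf, g, p⟩).p ((0, a), 1)) =
          mp (Half.chf h i).emb (we g p a) := e2
      rw [e3]
      exact hz.le
  have key := Spot.prod_bound (ch := dch ch O) (n := 3 * ρ) (s := s) hN hG hA I hseen hdis wt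
    (fun v _ => wt_nonneg v) hcw B ?_
  · refine le_trans key ?_
    rw [hprod, hprod2, mul_assoc]
    refine mul_le_mul_of_nonneg_left ?_ (by positivity)
    refine mul_le_mul_of_nonneg_left ?_ (Finset.prod_nonneg fun v _ => pow_nonneg (wt_nonneg v) _)
    exact pow_le_pow_right₀ (by norm_num) hBcard
  · intro c hc hnot hcB
    rcases cls_cases (ch := ch) E H m h h' hX hC hc with h1 | h1 | ⟨g, hg, p, hpX, c0, hc0, e⟩
    · exact absurd (Finset.mem_filter.2 ⟨hc, h1⟩) hcB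
    · exact h1
    · exfalso
      refine hnot (spo ⟨1, .cv, g, p⟩) ?_ c0 hc0 e
      exact Finset.mem_image_of_mem _ (Finset.mem_filter.2 ⟨hpX, Or.inl rfl⟩)

end

end Crest.Agent.R158.Ne808
end
end

-- ▼ part R158/Nz11_399

/-!
# R158, block Q1d (helper399), part 11: the members of the literal family

* `XD`, `XAll` : the lists of special points (932)
* `MemP`, `member : XAll P → MemP P` (with the pointwise theorem `Ne808.pw`)
-/

set_option autoImplicit false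

noncomputable section

namespace Crest.Agent.R158.Nz399

open MeasureTheory ProbabilityTheory unitInterval Matrix
open Crest.Agent.R158.Rs689
open Crest.Agent.R158.Nm211
open Crest.Agent.R158.Ka470
open Crest.Agent.R158.Env664 (TG D Run Band Mac lowT upT Adj4)
open Crest.Agent.R158.Sw300 (Port)
open Crest.Agent.R158.Ad350 (ports tnet mem_ports mem_ports')
open Crest.Agent.R158.Cs410 (nrm nrm_nonneg FZ NormP OnB InHalf InA OutA σ0)
open Crest.Agent.R158.Bd932 (That e3)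
open Crest.Agent.R158.Ao857 (nn beL chL topO botO lowM upM InZ OutZ plainL Split mem_topO)
open Crest.Agent.R158.Ne808 (DN nt RfC)
open Crest.Agent.R158.Rf896 (rA rB rp)
open Crest.Agent.R158.Fm857 (fz ctw phi clow JP mkG)
open Crest.Agent.R158.Lr158 (PhH Cg ccU psU phH_low phH_up)
open Crest.Agent.R158.Tj656 (P4)
open Crest.Agent.R158.Nn857 (Nums)

/-- **special points of one half** -/
structure XD {A : Half} {ρ : ℕ} (h : A.Sz ρ) (L : ℤ) (cc : TG × ZMod 4 → ℤ) (cl : ℤ) (M : ℕ)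
    (X : Finset Sp) : Prop where
  ok : XOk h L (Cg cc cl h) X
  rfc : RfC h L (Cg cc cl h)
  card : X.card ≤ M
  cnt : cnt X .cv ≤ cnt X .rf

/-- **special points of the literal family** -/
def XAll (P : P4) : Prop :=
  ∃ M : ℕ, ∀ (a b c L : ℤ) (δ : ℝ) (B : Band (D P.F L)) (ρ κ : ℕ) (yl yu p z0 : ℤ) (a1 b1 : ℕ)
    (N : Nums P a b c L δ B ρ κ yl yu p z0 a1 b1), Even L →
    ∀ e ∈ Finset.insertNone (JP P L δ B), ∃ Xl Xu : Finset Sp,
      XD N.szl.1 L (fun q => Fm857.cp B (L / 2) (mkG P L 0) (mkG P L 1) e (some q))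
        (clow B (L / 2) (mkG P L 0) (mkG P L 1) e) M Xl ∧
      XD N.szu.1 L (ccU (M := Mg949.mac P) B (L / 2) (mkG P L 0) (mkG P L 1) e)
        (-(clow B (L / 2) (mkG P L 0) (mkG P L 1) e + 1)) M Xu ∧
      cnt Xl .mk + cnt Xu .mk = 3 ∧ cnt Xl .e2 + cnt Xu .e2 = (if e = none then 0 else 1) ∧
      cnt Xl .e1 + cnt Xu .e1 = (if e = none then 0 else 1)

/-- **the members** -/
def MemP (P : P4) : Prop :=
  ∃ M : ℕ, ∀ (a b c L : ℤ) (δ : ℝ) (B : Band (D P.F L)) (ρ κ : ℕ) (yl yu p z0 : ℤ) (a1 b1 : ℕ),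
    Nums P a b c L δ B ρ κ yl yu p z0 a1 b1 → Even L → ∀ μ : (fz P L δ B).J,
      Mem (fz P L δ B) κ M ρ
        (Zl814.fe (lowM B (lowT (D P.F L) B.xl B.xr B.y1) a1) (beL B p z0) (topO B a1)).card
        (Zl814.fe (lowM (rB B) (rA (upT (D P.F L) B.xl B.xr B.y2)) b1) (beL (rB B) p (-z0))
          (topO (rB B) b1)).card
        (a1 + 1) (b1 + 1) (if μ.1 = none then 0 else 1) μ

theorem bd_mono {A : Half} {ρ κ κ' : ℕ} (h : A.Bd ρ κ) (hk : κ ≤ κ') : A.Bd ρ κ' := by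
  have h1 : (κ : ℤ) * ρ ≤ κ' * ρ := by gcongr
  obtain ⟨X0, Y0, h2⟩ := h.hH
  refine ⟨⟨X0, Y0, fun v hv => ?_⟩, h.hR.trans h1⟩
  have := h2 v hv
  omega

theorem HB.mono {κ κ' M ρ m a b c : ℕ} {V : ℝ} (h : HB κ M ρ m a b c V) (hk : κ ≤ κ') :
    HB κ' M ρ m a b c V := by
  obtain ⟨A, hs, hbd, h⟩ := h
  exact ⟨A, hs, bd_mono hbd hk, h⟩

theorem Mem.mono {F : Finset (ℤ × ℤ)} {L : ℤ} {B : Band (D F L)} {Fm : Cs410.FamZ B}
    {κ κ' M ρ ml mu a1 b1 k : ℕ} {μ : Fm.J} (h : Mem Fm κ M ρ ml mu a1 b1 k μ) (hk : κ ≤ κ') :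
    Mem Fm κ' M ρ ml mu a1 b1 k μ := by
  obtain ⟨a, a', b, b', c, c', h1, h2, h3, h4, h5⟩ := h
  exact ⟨a, a', b, b', c, c', h1, h2, h3, h4.mono hk, h5.mono hk⟩

theorem member {P : P4} (hX : XAll P) : MemP P := by
  obtain ⟨M, hX⟩ := hX
  refine ⟨M, fun a b c L δ B ρ κ yl yu p z0 a1 b1 N hev μ => ?_⟩
  obtain ⟨Xl, Xu, XL, XU, n1, n2, n3⟩ := hX a b c L δ B ρ κ yl yu p z0 a1 b1 N hev μ.1 μ.2
  refine ⟨_, _, _, _, _, _, n1, n2, n3, ?_, ?_⟩
  · have pw : PW N.szl.1 _ _ _ _ Xl := Ne808.pw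
      (dn_low (lb_low N.mb N.l1 N.l2) (n := a1) (by have := N.ha; omega) N.hz N.hl)
      (phH_low N.mb N.l1 N.l2 N.hz N.hl (L / 2) (mkG P L 0) (mkG P L 1) μ.1 0)
      (lowHalf_mc (lb_low N.mb N.l1 N.l2).d) N.szl.1 N.szl.2 XL.ok XL.rfc
    exact hb_low (lb_low N.mb N.l1 N.l2) (n := a1) (by have := N.ha; omega) N.hz N.hl N.szl.1
      N.bdl (ctw B (L / 2) (mkG P L 0) (mkG P L 1) μ.1) 0
      (phi B (L / 2) (mkG P L 0) (mkG P L 1) μ.1) XL.card XL.ok.dis (fun x hx => (XL.ok.ok x hx).in)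
      XL.cnt pw σ0
  · have pw : PW N.szu.1 _ _ _ _ Xu := Ne808.pw
      (dn_low (lb_up N.mb N.u1 N.u2) (n := b1) (by
        have := N.hb
        show -yu = -B.y2 + b1 + 1
        omega) N.hzR N.hu)
      (phH_up N.mb N.u1 N.u2 N.hzR N.hu (L / 2) (mkG P L 0) (mkG P L 1) μ.1 0)
      (lowHalf_mc (lb_up N.mb N.u1 N.u2).d) N.szu.1 N.szu.2 XU.ok XU.rfc
    exact hb_up N.mb N.u1 N.u2 (n := b1) (by have := N.hb; omega) N.hzR N.hu N.szu.1
      N.bdu (ctw B (L / 2) (mkG P L 0) (mkG P L 1) μ.1 + e3) 0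
      (phi B (L / 2) (mkG P L 0) (mkG P L 1) μ.1) XU.card XU.ok.dis (fun x hx => (XU.ok.ok x hx).in)
      XU.cnt pw σ0

end Crest.Agent.R158.Nz399
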