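import Crest.Agent.R158.Cc3_841

-- ▼ part R158/Xd1_841
section

/-!
# R158, NormP (helper841), Xd1: supports of different special points are disjoint

* `emb_pos` : the charts 0, 1, 2 agree in one system of coordinates; `emb_strip` : chart 3 and 2
* `sup_pos` : position of a tile of a support
* `Loc` : location of a corner of 470's list `XC`
* `sup_dis` : supports of two different corners; `dis_other` : support of a corner and of a special
  point far from the vertices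
-/

set_option autoImplicit false

noncomputable section

namespace Crest.Agent.R158.Xd841

open Crest.Agent.R158.Env664 (TG)
open Crest.Agent.R158.Ka470
open Crest.Agent.R158.Ka470.Half
open Crest.Agent.R158.Nz399

variable {A : Half} {ρ : ℕ}

/-! ### tiles of the charts -/

theorem emb0 (h : A.Sz ρ) (u : ℤ × ℤ) : (chf h 0).emb u = (Sum.inl u, false) := rfl

theorem emb1 (h : A.Sz ρ) (u : ℤ × ℤ) :
    (chf h 1).emb u = (Sum.inl (u.1, 2 * A.y0 - 1 - u.2), true) := rfl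

theorem emb3 (h : A.Sz ρ) (u : ℤ × ℤ) :
    (chf h 3).emb u = (Sum.inr (u.1, A.ry u.2), A.kk u.2) := rfl

theorem emb2_in (h : A.Sz ρ) {u : ℤ × ℤ} (h1 : A.xl ≤ u.1) (h2 : u.1 ≤ A.xr) :
    (chf h 2).emb u = (Sum.inl (u.1, A.ry u.2), A.kk u.2) := by
  show ((if u.1 < A.xl then Sum.inr (A.R - (A.xl - u.1), A.ry u.2)
    else if u.1 ≤ A.xr then Sum.inl (u.1, A.ry u.2) else Sum.inr (u.1 - A.xr - 1, A.ry u.2) : TG),
      A.kk u.2) = _
  rw [if_neg (by omega), if_pos h2]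

theorem emb2_l (h : A.Sz ρ) {u : ℤ × ℤ} (h1 : u.1 < A.xl) :
    (chf h 2).emb u = (Sum.inr (A.R - (A.xl - u.1), A.ry u.2), A.kk u.2) := by
  show ((if u.1 < A.xl then Sum.inr (A.R - (A.xl - u.1), A.ry u.2)
    else if u.1 ≤ A.xr then Sum.inl (u.1, A.ry u.2) else Sum.inr (u.1 - A.xr - 1, A.ry u.2) : TG),
      A.kk u.2) = _
  rw [if_pos h1]

theorem emb2_r (h : A.Sz ρ) {u : ℤ × ℤ} (h1 : A.xr < u.1) :
    (chf h 2).emb u = (Sum.inr (u.1 - A.xr - 1, A.ry u.2), A.kk u.2) := by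
  have hx := A.hx
  show ((if u.1 < A.xl then Sum.inr (A.R - (A.xl - u.1), A.ry u.2)
    else if u.1 ≤ A.xr then Sum.inl (u.1, A.ry u.2) else Sum.inr (u.1 - A.xr - 1, A.ry u.2) : TG),
      A.kk u.2) = _
  rw [if_neg (by omega), if_neg (by omega)]

theorem kk_false {y : ℤ} (h : A.kk y = false) : y < A.y0 ∧ A.ry y = y := by
  have : y < A.y0 := by
    by_contra hcon
    rw [kk_ge _ (by omega)] at h
    exact absurd h (by decide)
  exact ⟨this, ry_lt _ this⟩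

theorem kk_true {y : ℤ} (h : A.kk y = true) : A.y0 ≤ y ∧ A.ry y = 2 * A.y0 - 1 - y := by
  have : A.y0 ≤ y := by
    by_contra hcon
    rw [kk_lt _ (by omega)] at h
    exact absurd h (by decide)
  exact ⟨this, ry_ge _ this⟩

/-- chart 0 and chart 2 -/
theorem pos02 (h : A.Sz ρ) {u w : ℤ × ℤ} (e : (chf h 0).emb u = (chf h 2).emb w) :
    u = w ∧ w.2 < A.y0 ∧ A.xl ≤ w.1 ∧ w.1 ≤ A.xr := by
  rw [emb0] at e
  rcases lt_or_ge w.1 A.xl with h1 | h1
  · rw [emb2_l h h1] at e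
    simp at e
  rcases lt_or_ge A.xr w.1 with h2 | h2
  · rw [emb2_r h h2] at e
    simp at e
  rw [emb2_in h h1 h2] at e
  simp only [Prod.mk.injEq, Sum.inl.injEq] at e
  obtain ⟨h3, h4⟩ := kk_false e.2.symm
  refine ⟨?_, h3, h1, h2⟩
  rw [e.1, h4]

/-- chart 1 and chart 2 -/
theorem pos12 (h : A.Sz ρ) {u w : ℤ × ℤ} (e : (chf h 1).emb u = (chf h 2).emb w) :
    u = w ∧ A.y0 ≤ w.2 ∧ A.xl ≤ w.1 ∧ w.1 ≤ A.xr := by
  rw [emb1] at e
  rcases lt_or_ge w.1 A.xl with h1 | h1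
  · rw [emb2_l h h1] at e
    simp at e
  rcases lt_or_ge A.xr w.1 with h2 | h2
  · rw [emb2_r h h2] at e
    simp at e
  rw [emb2_in h h1 h2] at e
  simp only [Prod.mk.injEq, Sum.inl.injEq] at e
  obtain ⟨h3, h4⟩ := kk_true e.2.symm
  refine ⟨?_, h3, h1, h2⟩
  rw [h4] at e
  exact Prod.ext e.1.1 (by omega)

/-- chart 2 and chart 3 -/
theorem pos23 (h : A.Sz ρ) {u w : ℤ × ℤ} (e : (chf h 2).emb u = (chf h 3).emb w) :
    u.2 = w.2 ∧ ((u.1 < A.xl ∧ w.1 = A.R - (A.xl - u.1)) ∨ (A.xr < u.1 ∧ w.1 = u.1 - A.xr - 1)) := by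
  rw [emb3] at e
  rcases lt_or_ge u.1 A.xl with h1 | h1
  · rw [emb2_l h h1] at e
    simp only [Prod.mk.injEq, Sum.inr.injEq] at e
    exact ⟨A.ry_kk_inj e.1.2 e.2, Or.inl ⟨h1, e.1.1.symm⟩⟩
  rcases lt_or_ge A.xr u.1 with h2 | h2
  · rw [emb2_r h h2] at e
    simp only [Prod.mk.injEq, Sum.inr.injEq] at e
    exact ⟨A.ry_kk_inj e.1.2 e.2, Or.inr ⟨h2, e.1.1.symm⟩⟩
  rw [emb2_in h h1 h2] at e
  simp at e

/-! ### supports -/

/-- half size of the box of a factor -/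
def sz (f : Fk) (n : ℕ) : ℕ := if f = .e1 then n + 1 else n

/-- **position of a tile of a support** -/
theorem sup_pos {h : A.Sz ρ} {n : ℕ} {x : Sp} (hx : x.In h n) {t : TG × Bool}
    (ht : t ∈ x.sup h n) : ∃ u, u ∈ Bv (sz x.f n) x.p ∧ u ∈ (chf h x.i).R ∧
      t = (chf h x.i).emb u := by
  unfold Sp.sup fS at ht
  rw [Finset.mem_image] at ht
  obtain ⟨v, hv, rfl⟩ := ht
  refine ⟨_, pl_Bv x.g x.p ?_, hx v hv, rfl⟩
  cases hf : x.f <;> rw [hf] at hv <;> simp only [Tf] at hv <;> have h1 := (mem_Tk.1 hv).1 <;>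
    simpa [sz] using h1

/-- location of a corner of the list `XC` -/
def Loc (A : Half) (L : ℤ) (x : Sp) : Prop :=
  (x.i = 1 ∧ x.p ∈ A.Ver L 1 ∧ (x.f = .cv ∨ x.f = .rf)) ∨
    (x.i = 2 ∧ x.f = .rf ∧ (x.p = (A.xl, 2 * A.y0 - A.y1) ∨ x.p = (A.xr + 1, 2 * A.y0 - A.y1)))

theorem Loc.sz {L : ℤ} {x : Sp} (h : Loc A L x) (n : ℕ) : Xd841.sz x.f n = n := by
  unfold Xd841.sz
  rcases h with ⟨-, -, h | h⟩ | ⟨-, h, -⟩ <;> rw [h] <;> exact if_neg (by decide)

/-- multiples of `L` closer than `L` agree -/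
theorem dvd_close {L a b : ℤ} (h1 : L ∣ a) (h2 : L ∣ b) (h3 : a - b < L) (h4 : b - a < L) :
    a = b := by
  obtain ⟨i, rfl⟩ := h1
  obtain ⟨j, rfl⟩ := h2
  have hL : 0 < L := by omega
  have h5 : i - j < 1 := by
    by_contra hcon
    nlinarith
  have h6 : j - i < 1 := by
    by_contra hcon
    nlinarith
  have : i = j := by omega
  rw [this]

theorem Lbig {L a b c : ℤ} (m : A.Mc L a b c) (h : A.Sz ρ) (h5 : 5 * (ρ : ℤ) ≤ A.y0 - A.y1) :
    15 * (ρ : ℤ) ≤ L := by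
  have h1 := m.W
  have h2 := m.Y
  have h3 := h.y
  have h4 := h.w
  omega

/-- the mouths are far from the macroscopic heights -/
theorem mou_far {L a b c : ℤ} (m : A.Mc L a b c) (h : A.Sz ρ) (h5 : 5 * (ρ : ℤ) ≤ A.y0 - A.y1)
    (h6 : 6 * (ρ : ℤ) ≤ A.y1 - A.Y) {q : ℤ} (hq : L ∣ q) :
    6 * (ρ : ℤ) ≤ q - A.y1 ∨ 6 * (ρ : ℤ) ≤ A.y1 - q := by
  obtain ⟨k, rfl⟩ := hq
  have hL := m.hL
  have h1 := m.W
  have h2 := m.Y
  have h3 := h.w
  have hρ : (1 : ℤ) ≤ ρ := by exact_mod_cast h.pos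
  rcases le_or_gt k c with hk | hk
  · right
    have : L * k ≤ c * L := by nlinarith
    omega
  · left
    have : c * L + L ≤ L * k := by nlinarith
    omega

theorem disj_of {α : Type*} [DecidableEq α] {S T : Finset α} (h : ∀ t, t ∈ S → t ∈ T → False) :
    Disjoint S T := Finset.disjoint_left.2 fun t h1 h2 => h t h1 h2

/-- **(D1)** supports of two corners -/
theorem sup_dis {L a b c : ℤ} (m : A.Mc L a b c) (h : A.Sz ρ)
    (h5 : 5 * (ρ : ℤ) ≤ A.y0 - A.y1) (h6 : 6 * (ρ : ℤ) ≤ A.y1 - A.Y) {n : ℕ} (hn : n ≤ 3 * ρ)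
    {x y : Sp} (hx : x.In h n) (hy : y.In h n) (lx : Loc A L x) (ly : Loc A L y)
    (hne : x.i ≠ y.i ∨ x.p ≠ y.p) : Disjoint (x.sup h n) (y.sup h n) := by
  classical
  refine disj_of fun t h1 h2 => ?_
  obtain ⟨u, u1, u2, rfl⟩ := sup_pos hx h1
  obtain ⟨w, w1, w2, e⟩ := sup_pos hy h2
  rw [lx.sz] at u1
  rw [ly.sz] at w1
  have hL := Lbig m h h5
  have hab := m.ab
  have hρ : (1 : ℤ) ≤ ρ := by exact_mod_cast h.pos
  have hn' : (n : ℤ) ≤ 3 * ρ := by exact_mod_cast hn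
  obtain ⟨⟨a1, a2⟩, a3, a4⟩ := u1
  obtain ⟨⟨b1, b2⟩, b3, b4⟩ := w1
  obtain ⟨xi, xf, xg, xp⟩ := x
  obtain ⟨yi, yf, yg, yp⟩ := y
  simp only at *
  rcases lx with ⟨rfl, vx, -⟩ | ⟨rfl, -, vx⟩ <;> rcases ly with ⟨rfl, vy, -⟩ | ⟨rfl, -, vy⟩
  · have huw := (chf h 1).inj u2 w2 e
    subst huw
    have c1 : L ∣ xp.1 := vx.1
    have c2 : L ∣ 2 * A.y0 - xp.2 := vx.2
    have c3 : L ∣ yp.1 := vy.1
    have c4 : L ∣ 2 * A.y0 - yp.2 := vy.2
    have e1 := dvd_close c1 c3 (by omega) (by omega)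
    have e2 := dvd_close c2 c4 (by omega) (by omega)
    have : xp = yp := Prod.ext e1 (by omega)
    rcases hne with hne | hne
    · exact hne rfl
    · exact hne this
  · obtain ⟨rfl, -, -, -⟩ := pos12 h e
    have h7 := mou_far m h h5 h6 (q := 2 * A.y0 - xp.2) vx.2
    rcases vy with rfl | rfl
    · simp only at b3 b4
      omega
    · simp only at b3 b4
      omega
  · obtain ⟨rfl, -, -, -⟩ := pos12 h e.symm
    have h7 := mou_far m h h5 h6 (q := 2 * A.y0 - yp.2) vy.2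
    rcases vx with rfl | rfl
    · simp only at a3 a4
      omega
    · simp only at a3 a4
      omega
  · have huw := (chf h 2).inj u2 w2 e
    subst huw
    rcases vx with rfl | rfl <;> rcases vy with rfl | rfl
    · rcases hne with hne | hne <;> exact hne rfl
    · simp only at a1 a2 b1 b2
      omega
    · simp only at a1 a2 b1 b2
      omega
    · rcases hne with hne | hne <;> exact hne rfl

/-- far from all the corners of the second copy -/
def FarV (A : Half) (L : ℤ) (D : ℤ) (q : ℤ × ℤ) : Prop :=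
  (∀ p ∈ A.Ver L 1, D ≤ |q.1 - p.1| ∨ D ≤ |q.2 - p.2|) ∧
    ∀ p, (p = (A.xl, 2 * A.y0 - A.y1) ∨ p = (A.xr + 1, 2 * A.y0 - A.y1)) →
      D ≤ |q.1 - p.1| ∨ D ≤ |q.2 - p.2|

/-- location of the other special points -/
def Oth (A : Half) (L : ℤ) (ρ : ℕ) (y : Sp) : Prop :=
  y.i = 0 ∨ ((y.i = 1 ∨ y.i = 2) ∧ FarV A L (8 * ρ) y.p) ∨
    (y.i = 3 ∧ 8 * (ρ : ℤ) ≤ y.p.1 ∧ y.p.1 ≤ A.R - 8 * ρ)

theorem sz_le (f : Fk) (n : ℕ) : sz f n ≤ n + 1 := by
  unfold sz; split_ifs <;> omega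

/-- **(D2)** support of a corner and of another special point -/
theorem dis_other {L a b c : ℤ} (m : A.Mc L a b c) (h : A.Sz ρ)
    (h5 : 5 * (ρ : ℤ) ≤ A.y0 - A.y1) {n : ℕ} (hn : n ≤ 3 * ρ)
    {x y : Sp} (hx : x.In h n) (hy : y.In h n) (lx : Loc A L x) (ly : Oth A L ρ y) :
    Disjoint (x.sup h n) (y.sup h n) := by
  classical
  refine disj_of fun t h1 h2 => ?_
  obtain ⟨u, u1, u2, rfl⟩ := sup_pos hx h1
  obtain ⟨w, w1, w2, e⟩ := sup_pos hy h2
  rw [lx.sz] at u1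
  have hL := Lbig m h h5
  have hab := m.ab
  have hρ : (1 : ℤ) ≤ ρ := by exact_mod_cast h.pos
  have hn' : (n : ℤ) ≤ 3 * ρ := by exact_mod_cast hn
  have hs : ((sz y.f n : ℕ) : ℤ) ≤ n + 1 := by exact_mod_cast sz_le y.f n
  obtain ⟨⟨a1, a2⟩, a3, a4⟩ := u1
  obtain ⟨⟨b1, b2⟩, b3, b4⟩ := w1
  obtain ⟨xi, xf, xg, xp⟩ := x
  obtain ⟨yi, yf, yg, yp⟩ := y
  simp only at *
  generalize sz yf n = N at hs b1 b2 b3 b4
  -- two positions in the same coordinates
  have key : ∀ p : ℤ × ℤ, (8 * (ρ : ℤ) ≤ |yp.1 - p.1| ∨ 8 * (ρ : ℤ) ≤ |yp.2 - p.2|) →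
      xp = p → u = w → False := by
    rintro p hp rfl rfl
    rcases hp with hp | hp
    · rcases abs_cases (yp.1 - xp.1) with ⟨h7, -⟩ | ⟨h7, -⟩ <;> omega
    · rcases abs_cases (yp.2 - xp.2) with ⟨h7, -⟩ | ⟨h7, -⟩ <;> omega
  rcases lx with ⟨rfl, vx, -⟩ | ⟨rfl, -, vx⟩
  · rcases ly with rfl | ⟨rfl | rfl, hf1, -⟩ | ⟨rfl, -, -⟩
    · rw [emb1, emb0] at e
      simp at e
    · exact key _ (hf1 _ vx) rfl ((chf h 1).inj u2 w2 e)
    · exact key _ (hf1 _ vx) rfl (pos12 h e).1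
    · rw [emb1, emb3] at e
      simp at e
  · rcases ly with rfl | ⟨rfl | rfl, -, hf2⟩ | ⟨rfl, g1, g2⟩
    · obtain ⟨rfl, h7, -, -⟩ := pos02 h e.symm
      rcases vx with rfl | rfl <;> simp only at a3 a4 <;> omega
    · exact key _ (hf2 _ vx) rfl (pos12 h e.symm).1.symm
    · exact key _ (hf2 _ vx) rfl ((chf h 2).inj u2 w2 e)
    · obtain ⟨-, h7⟩ := pos23 h e
      have g1' : 8 * (ρ : ℤ) ≤ yp.1 := g1
      have g2' : yp.1 ≤ A.R - 8 * ρ := g2
      rcases vx with rfl | rfl <;> simp only at a1 a2 <;> omega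

end Crest.Agent.R158.Xd841
end
end

-- ▼ part R158/Xd2_841

/-!
# R158, NormP (helper841), Xd2: disjointness of two arbitrary special points

* `Apart N p q` : the boxes of radius `N` around the vertices `p`, `q` do not meet
* `Sep A N x y` : sufficient condition, by charts; `dis_gen` : the supports are disjoint
-/

set_option autoImplicit false

noncomputable section

namespace Crest.Agent.R158.Xd841

open Crest.Agent.R158.Env664 (TG)
open Crest.Agent.R158.Ka470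
open Crest.Agent.R158.Ka470.Half
open Crest.Agent.R158.Nz399

variable {A : Half} {ρ : ℕ}

/-- the boxes of radius `N` around `p` and `q` do not meet -/
def Apart (N : ℤ) (p q : ℤ × ℤ) : Prop := 2 * N ≤ |p.1 - q.1| ∨ 2 * N ≤ |p.2 - q.2|

theorem Apart.symm {N : ℤ} {p q : ℤ × ℤ} (h : Apart N p q) : Apart N q p := by
  unfold Apart at *
  rwa [abs_sub_comm q.1, abs_sub_comm q.2]

theorem Apart.mono {N N' : ℤ} {p q : ℤ × ℤ} (h : Apart N p q) (hN : N' ≤ N) : Apart N' p q := by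
  unfold Apart at *
  omega

theorem apart_false {N : ℤ} {n k : ℕ} {p q u : ℤ × ℤ} (h : Apart N p q) (hn : (n : ℤ) ≤ N)
    (hk : (k : ℤ) ≤ N) (h1 : u ∈ Bv n p) (h2 : u ∈ Bv k q) : False := by
  obtain ⟨⟨a1, a2⟩, a3, a4⟩ := h1
  obtain ⟨⟨b1, b2⟩, b3, b4⟩ := h2
  rcases h with h | h
  · rcases abs_cases (p.1 - q.1) with ⟨h7, -⟩ | ⟨h7, -⟩ <;> omega
  · rcases abs_cases (p.2 - q.2) with ⟨h7, -⟩ | ⟨h7, -⟩ <;> omega

/-- separated special points (`N` = radius of the boxes) -/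
def Sep (A : Half) (N : ℤ) (i j : Fin 4) (p q : ℤ × ℤ) : Prop :=
  match i, j with
  | 0, 1 => True
  | 1, 0 => True
  | 0, 3 => True
  | 3, 0 => True
  | 1, 3 => True
  | 3, 1 => True
  | 2, 3 => Apart N (p.1 + (A.R - A.xl), p.2) q ∧ Apart N (p.1 - (A.xr + 1), p.2) q
  | 3, 2 => Apart N (q.1 + (A.R - A.xl), q.2) p ∧ Apart N (q.1 - (A.xr + 1), q.2) p
  | _, _ => Apart N p q

theorem Bv_shift {n : ℕ} {p u : ℤ × ℤ} (s : ℤ) (h : u ∈ Bv n p) :
    (u.1 + s, u.2) ∈ Bv n (p.1 + s, p.2) := by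
  obtain ⟨⟨a1, a2⟩, a3, a4⟩ := h
  exact ⟨⟨by simp only; omega, by simp only; omega⟩, a3, a4⟩

/-- **supports of two separated special points** -/
theorem dis_gen (h : A.Sz ρ) {n : ℕ} {N : ℤ} {x y : Sp} (hx : x.In h n) (hy : y.In h n)
    (hN : (sz x.f n : ℤ) ≤ N) (hN' : (sz y.f n : ℤ) ≤ N) (hs : Sep A N x.i y.i x.p y.p) :
    Disjoint (x.sup h n) (y.sup h n) := by
  classical
  refine disj_of fun t h1 h2 => ?_
  obtain ⟨u, u1, u2, rfl⟩ := sup_pos hx h1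
  obtain ⟨w, w1, w2, e⟩ := sup_pos hy h2
  obtain ⟨xi, xf, xg, xp⟩ := x
  obtain ⟨yi, yf, yg, yp⟩ := y
  simp only at *
  have k23 : ∀ {u w p q : ℤ × ℤ} {n k : ℕ}, (chf h 2).emb u = (chf h 3).emb w →
      u ∈ Bv n p → w ∈ Bv k q → (n : ℤ) ≤ N → (k : ℤ) ≤ N →
      Apart N (p.1 + (A.R - A.xl), p.2) q ∧ Apart N (p.1 - (A.xr + 1), p.2) q → False := by
    intro u w p q n k e hu hw hn hk hs
    obtain ⟨e1, ⟨-, e2⟩ | ⟨-, e2⟩⟩ := pos23 h e
    · have h3 := Bv_shift (A.R - A.xl) hu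
      have h4 : (u.1 + (A.R - A.xl), u.2) = w := Prod.ext (by simp only; omega) e1
      rw [h4] at h3
      exact apart_false hs.1 hn hk h3 hw
    · have h3 := Bv_shift (-(A.xr + 1)) hu
      have h4 : (u.1 + -(A.xr + 1), u.2) = w := Prod.ext (by simp only; omega) e1
      rw [h4, ← sub_eq_add_neg] at h3
      exact apart_false hs.2 hn hk h3 hw
  fin_cases xi <;> fin_cases yi
  · have huw := (chf h 0).inj u2 w2 e
    subst huw
    exact apart_false hs hN hN' u1 w1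
  · change (chf h 0).emb u = (chf h 1).emb w at e
    rw [emb0, emb1] at e
    simp at e
  · obtain ⟨rfl, -⟩ := pos02 h e
    exact apart_false hs hN hN' u1 w1
  · change (chf h 0).emb u = (chf h 3).emb w at e
    rw [emb0, emb3] at e
    simp at e
  · change (chf h 1).emb u = (chf h 0).emb w at e
    rw [emb0, emb1] at e
    simp at e
  · have huw := (chf h 1).inj u2 w2 e
    subst huw
    exact apart_false hs hN hN' u1 w1
  · obtain ⟨rfl, -⟩ := pos12 h e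
    exact apart_false hs hN hN' u1 w1
  · change (chf h 1).emb u = (chf h 3).emb w at e
    rw [emb1, emb3] at e
    simp at e
  · obtain ⟨rfl, -⟩ := pos02 h e.symm
    exact apart_false hs hN hN' u1 w1
  · obtain ⟨rfl, -⟩ := pos12 h e.symm
    exact apart_false hs hN hN' u1 w1
  · have huw := (chf h 2).inj u2 w2 e
    subst huw
    exact apart_false hs hN hN' u1 w1
  · exact k23 e u1 w1 hN hN' hs
  · change (chf h 3).emb u = (chf h 0).emb w at e
    rw [emb0, emb3] at e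
    simp at e
  · change (chf h 3).emb u = (chf h 1).emb w at e
    rw [emb1, emb3] at e
    simp at e
  · exact k23 e.symm w1 u1 hN' hN hs
  · have huw := (chf h 3).inj u2 w2 e
    subst huw
    exact apart_false hs hN hN' u1 w1

/-- the radius `n + 1` always suffices -/
theorem dis_gen' (h : A.Sz ρ) {n : ℕ} {x y : Sp} (hx : x.In h n) (hy : y.In h n)
    (hs : Sep A ((n : ℤ) + 1) x.i y.i x.p y.p) : Disjoint (x.sup h n) (y.sup h n) :=
  dis_gen h hx hy (by exact_mod_cast sz_le x.f n) (by exact_mod_cast sz_le y.f n) hs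

/-! ### counts of disjoint unions -/

theorem cnt_union {X Y : Finset Sp} (h : Disjoint X Y) (f : Fk) :
    cnt (X ∪ Y) f = cnt X f + cnt Y f := by
  classical
  unfold cnt
  rw [Finset.filter_union, Finset.card_union_of_disjoint]
  exact Finset.disjoint_filter_filter h

theorem cnt_eq_zero {X : Finset Sp} {f : Fk} (h : ∀ x ∈ X, x.f ≠ f) : cnt X f = 0 := by
  unfold cnt
  rw [Finset.card_eq_zero, Finset.filter_eq_empty_iff]
  exact fun x hx => h x hx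

/-- lists with different factors are disjoint -/
theorem disj_f {X Y : Finset Sp} (hX : ∀ x ∈ X, x.f = .cv ∨ x.f = .rf)
    (hY : ∀ y ∈ Y, y.f ≠ .cv ∧ y.f ≠ .rf) : Disjoint X Y := by
  classical
  refine disj_of fun t h1 h2 => ?_
  rcases hX t h1 with h | h
  · exact (hY t h2).1 h
  · exact (hY t h2).2 h

/-- pairwise disjointness of a union -/
theorem dis_union {X Y : Finset Sp} {S : Sp → Finset (TG × Bool)}
    (h1 : ∀ x ∈ X, ∀ y ∈ X, x ≠ y → Disjoint (S x) (S y))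
    (h2 : ∀ x ∈ Y, ∀ y ∈ Y, x ≠ y → Disjoint (S x) (S y))
    (h3 : ∀ x ∈ X, ∀ y ∈ Y, Disjoint (S x) (S y)) :
    ∀ x ∈ X ∪ Y, ∀ y ∈ X ∪ Y, x ≠ y → Disjoint (S x) (S y) := by
  intro x hx y hy hne
  rcases Finset.mem_union.1 hx with hx | hx <;> rcases Finset.mem_union.1 hy with hy | hy
  · exact h1 x hx y hy hne
  · exact h3 x hx y hy
  · exact (h3 y hy x hx).symm
  · exact h2 x hx y hy hne

end Crest.Agent.R158.Xd841
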