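import Crest.Agent.R158.Nz8_399
import Crest.Agent.R158.Lr2_158

/-!
# R158, NormP (helper612): planar special points of the marks, part 1

* `pg d` : number of quarter turns of the wall with outer side `d`
* `q0 X`, `q1 X` : vertices of the end `X`; `wp X j` : the `j`-th end after `X` on a flat wall
  (clockwise), `nxt`, `mir`
* `gF X`, `gT A X` : the gap before `X` in the natural / mirrored copy, `eF X`, `eT A X` : the end `X`
* `FlatW A r X` : near `X` the half environment is a half plane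
* `gF_ok`, `gT_ok`, `eF_ok`, `eT_ok` : `SpOk`
-/

set_option autoImplicit false
set_option linter.unusedSimpArgs false
set_option linter.unusedTactic false
set_option linter.unreachableTactic false

noncomputable section

namespace Crest.Agent.R158.Xp612

open Crest.Agent.R158.Nm211
open Crest.Agent.R158.Ka470
open Crest.Agent.R158.Nz399
open Crest.Agent.R158.Lr158
open Crest.Agent.R158.Pt266 (dir)
open Crest.Agent.R158.Env664 (TG)
open Crest.Agent.R158.Sw300 (Port)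

abbrev V := ℤ × ℤ

/-- number of quarter turns of the wall with outer side `d` -/
def pg (d : ZMod 4) : ℕ := (3 - d).val

/-- vertex of the end `X` (index `0`) -/
def q0 (X : V × ZMod 4) : V := X.1 - rt^[pg X.2] (0, 0)

/-- vertex of the end `X` (index `-1`) -/
def q1 (X : V × ZMod 4) : V := X.1 - rt^[pg X.2] (-1, 0)

/-- the `j`-th end after `X` on a flat wall -/
def wp (X : V × ZMod 4) (j : ℤ) : V × ZMod 4 := (X.1 + j • dir (X.2 + 1), X.2)

/-- next end -/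
def nxt (X : V × ZMod 4) : V × ZMod 4 := (X.1 + dir (X.2 + 1), X.2)

/-- mirrored end -/
def mir (A : Half) (X : V × ZMod 4) : V × ZMod 4 := (A.rf X.1, -X.2)

/-- gap before `X`, natural copy -/
def gF (X : V × ZMod 4) : Sp := ⟨0, .mk, pg X.2, q1 X⟩

/-- gap before `X`, mirrored copy -/
def gT (A : Half) (X : V × ZMod 4) : Sp := ⟨1, .mk, pg (-X.2), q0 (mir A X)⟩

/-- end `X`, natural copy -/
def eF (X : V × ZMod 4) : Sp := ⟨0, .e2, pg X.2, q0 X⟩

/-- end `X`, mirrored copy -/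
def eT (A : Half) (X : V × ZMod 4) : Sp := ⟨1, .e1, pg (-X.2), q0 (mir A X)⟩

/-- the end after the gap of a mark (`u` : reflected half) -/
def ga (u : Bool) (X : V × ZMod 4) : V × ZMod 4 := if u then nxt X else X

/-- special points of an end of the family -/
def XE (A : Half) : Option (Port TG) → Finset Sp
  | some (some (Sum.inl t, d)) => if t ∈ A.H then {eF (t, d), eT A (t, d)} else ∅
  | _ => ∅

/-- **planar special points of the marks** -/
def XP (A : Half) (u : Bool) (m1 m2 : V × ZMod 4) (e : Option (Port TG)) : Finset Sp :=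
  (if m1.1 ∈ A.H then {gT A (ga u m1)} else ∅) ∪
    ((if m2.1 ∈ A.H then (if e = none then {gF (ga u m2)} else {gT A (ga u m2)}) else ∅) ∪
      XE A e)

/-! ### rotations -/

theorem pg_val : pg 3 = 0 ∧ pg 2 = 1 ∧ pg 1 = 2 ∧ pg 0 = 3 := by decide

theorem pg_cast (d : ZMod 4) : (3 : ZMod 4) - (pg d : ZMod 4) = d := by
  unfold pg
  rw [ZMod.natCast_zmod_val]
  ring

theorem fe_q0 (X : V × ZMod 4) (x : ℤ) : fe (pg X.2) (q0 X) x = wp X (-x) := by
  obtain ⟨⟨a, b⟩, d⟩ := X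
  unfold fe wp
  rw [pg_cast]
  obtain ⟨p3, p2, p1, p0⟩ := pg_val
  have d1 : (0 : ZMod 4) + 1 = 1 := by decide
  have d2 : (1 : ZMod 4) + 1 = 2 := by decide
  have d3 : (2 : ZMod 4) + 1 = 3 := by decide
  have d4 : (3 : ZMod 4) + 1 = 0 := by decide
  rcases Lr158.z4 d with rfl | rfl | rfl | rfl
  · simp only [q0, p0, d1, dir1, pl]
    simp [Function.iterate_succ_apply', rt]
    ring
  · simp only [q0, p1, d2, dir2, pl]
    simp [Function.iterate_succ_apply', rt]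
    ring
  · simp only [q0, p2, d3, dir3, pl]
    simp [Function.iterate_succ_apply', rt]
    ring
  · simp only [q0, p3, d4, dir0, pl]
    simp [rt]
    ring

theorem fe_q1 (X : V × ZMod 4) (x : ℤ) : fe (pg X.2) (q1 X) x = wp X (-(x + 1)) := by
  obtain ⟨⟨a, b⟩, d⟩ := X
  unfold fe wp
  rw [pg_cast]
  obtain ⟨p3, p2, p1, p0⟩ := pg_val
  have d1 : (0 : ZMod 4) + 1 = 1 := by decide
  have d2 : (1 : ZMod 4) + 1 = 2 := by decide
  have d3 : (2 : ZMod 4) + 1 = 3 := by decide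
  have d4 : (3 : ZMod 4) + 1 = 0 := by decide
  rcases Lr158.z4 d with rfl | rfl | rfl | rfl
  · simp only [q1, p0, d1, dir1, pl]
    simp [Function.iterate_succ_apply', rt]
    ring
  · simp only [q1, p1, d2, dir2, pl]
    simp [Function.iterate_succ_apply', rt]
    ring
  · simp only [q1, p2, d3, dir3, pl]
    simp [Function.iterate_succ_apply', rt]
    ring
  · simp only [q1, p3, d4, dir0, pl]
    simp [rt]
    ring

theorem wp_zero (X : V × ZMod 4) : wp X 0 = X := by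
  unfold wp; simp

theorem wp_one (X : V × ZMod 4) : wp X 1 = nxt X := by
  unfold wp nxt; simp

theorem wp_wp (X : V × ZMod 4) (i j : ℤ) : wp (wp X i) j = wp X (i + j) := by
  unfold wp
  rw [add_smul, add_assoc]

theorem wp_nxt (X : V × ZMod 4) (j : ℤ) : wp (nxt X) j = wp X (j + 1) := by
  rw [← wp_one, wp_wp, add_comm]

theorem wp_mir (A : Half) (X : V × ZMod 4) (j : ℤ) : wp (mir A X) j = mir A (wp X (-j)) := by
  obtain ⟨⟨a, b⟩, d⟩ := X
  unfold wp mir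
  have e1 : ∀ d : ZMod 4, dir (-d + 1) = (-(dir (d + 1)).1, (dir (d + 1)).2) := by decide
  rw [e1]
  simp [Half.rf]
  ring

/-! ### flat walls -/

/-- inner side of the wall through `X` -/
def inner (X : V × ZMod 4) (u : V) : Prop :=
  0 ≤ (X.1.1 - u.1) * (dir X.2).1 + (X.1.2 - u.2) * (dir X.2).2

/-- **near `X` the half environment is a half plane** -/
structure FlatW (A : Half) (r : ℤ) (X : V × ZMod 4) : Prop where
  m : ∀ u : V, |u.1 - X.1.1| ≤ r → |u.2 - X.1.2| ≤ r → ¬ A.Mou u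
  p : ∀ u : V, |u.1 - X.1.1| ≤ r → |u.2 - X.1.2| ≤ r → (u ∈ A.H ↔ inner X u)

theorem FlatW.mono {A : Half} {r r' : ℤ} {X : V × ZMod 4} (h : FlatW A r X) (hr : r' ≤ r) :
    FlatW A r' X := ⟨fun u h1 h2 => h.m u (h1.trans hr) (h2.trans hr),
  fun u h1 h2 => h.p u (h1.trans hr) (h2.trans hr)⟩

theorem inner_wp (X : V × ZMod 4) (j : ℤ) (u : V) : inner (wp X j) u ↔ inner X u := by
  obtain ⟨⟨a, b⟩, d⟩ := X
  obtain ⟨x, y⟩ := u
  unfold inner wp
  rcases Lr158.z4 d with rfl | rfl | rfl | rfl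
  · rw [show (0 : ZMod 4) + 1 = 1 by decide, dir1, dir0]; simp
  · rw [show (1 : ZMod 4) + 1 = 2 by decide, dir2, dir1]; simp
  · rw [show (2 : ZMod 4) + 1 = 3 by decide, dir3, dir2]; simp
  · rw [show (3 : ZMod 4) + 1 = 0 by decide, dir0, dir3]; simp

theorem FlatW.shift {A : Half} {r : ℤ} {X : V × ZMod 4} (h : FlatW A r X) (j : ℤ) :
    FlatW A (r - |j|) (wp X j) := by
  have key : ∀ u : V, |u.1 - (wp X j).1.1| ≤ r - |j| → |u.2 - (wp X j).1.2| ≤ r - |j| →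
      |u.1 - X.1.1| ≤ r ∧ |u.2 - X.1.2| ≤ r := by
    intro u h1 h2
    obtain ⟨⟨a, b⟩, d⟩ := X
    obtain ⟨x, y⟩ := u
    have hd := dir_bd (d + 1)
    have e1 : (wp ((a, b), d) j).1.1 = a + j * (dir (d + 1)).1 := by simp [wp]
    have e2 : (wp ((a, b), d) j).1.2 = b + j * (dir (d + 1)).2 := by simp [wp]
    rw [e1] at h1
    rw [e2] at h2
    have key2 : ∀ e : ℤ, -1 ≤ e → e ≤ 1 → |j * e| ≤ |j| := by
      intro e k1 k2
      rw [abs_mul]
      have : |e| ≤ 1 := abs_le.2 ⟨k1, k2⟩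
      nlinarith [abs_nonneg j]
    have k1 := key2 _ hd.1.1 hd.1.2
    have k2 := key2 _ hd.2.1 hd.2.2
    rw [abs_le] at k1 k2 h1 h2
    simp only at h1 h2 ⊢
    constructor
    · rw [abs_le]; constructor <;> linarith
    · rw [abs_le]; constructor <;> linarith
  refine ⟨fun u h1 h2 => h.m u (key u h1 h2).1 (key u h1 h2).2, fun u h1 h2 => ?_⟩
  rw [h.p u (key u h1 h2).1 (key u h1 h2).2, inner_wp]

theorem patK_mk : (∀ bx bz, patK .mk 0 bx bz = bz) ∧ (∀ bx bz, patK .mk 1 bx bz = !bx) ∧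
    (∀ bx bz, patK .mk 2 bx bz = !bz) ∧ ∀ bx bz, patK .mk 3 bx bz = bx := by decide

/-- value of the vertex -/
theorem q0_val (a b : ℤ) : q0 ((a, b), 0) = (a, b + 1) ∧ q0 ((a, b), 1) = (a + 1, b + 1) ∧
    q0 ((a, b), 2) = (a + 1, b) ∧ q0 ((a, b), 3) = (a, b) := by
  obtain ⟨p3, p2, p1, p0⟩ := pg_val
  refine ⟨?_, ?_, ?_, ?_⟩
  · simp only [q0, p0]; simp [Function.iterate_succ_apply', rt]
  · simp only [q0, p1]; simp [Function.iterate_succ_apply', rt]
  · simp only [q0, p2]; simp [Function.iterate_succ_apply', rt]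
  · simp only [q0, p3]; simp

theorem q1_val (a b : ℤ) : q1 ((a, b), 0) = (a, b) ∧ q1 ((a, b), 1) = (a, b + 1) ∧
    q1 ((a, b), 2) = (a + 1, b + 1) ∧ q1 ((a, b), 3) = (a + 1, b) := by
  obtain ⟨p3, p2, p1, p0⟩ := pg_val
  refine ⟨?_, ?_, ?_, ?_⟩
  · simp only [q1, p0]; simp [Function.iterate_succ_apply', rt]
  · simp only [q1, p1]; simp [Function.iterate_succ_apply', rt]
  · simp only [q1, p2]; simp [Function.iterate_succ_apply', rt]
  · simp only [q1, p3]; simp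

/-- the vertices are close to the end -/
theorem q_near (X : V × ZMod 4) : ((0 ≤ (q0 X).1 - X.1.1 ∧ (q0 X).1 - X.1.1 ≤ 1) ∧
    0 ≤ (q0 X).2 - X.1.2 ∧ (q0 X).2 - X.1.2 ≤ 1) ∧
    (0 ≤ (q1 X).1 - X.1.1 ∧ (q1 X).1 - X.1.1 ≤ 1) ∧
    0 ≤ (q1 X).2 - X.1.2 ∧ (q1 X).2 - X.1.2 ≤ 1 := by
  obtain ⟨⟨a, b⟩, d⟩ := X
  obtain ⟨e0, e1, e2, e3⟩ := q0_val a b
  obtain ⟨f0, f1, f2, f3⟩ := q1_val a b
  rcases Lr158.z4 d with rfl | rfl | rfl | rfl
  · rw [e0, f0]; simp
  · rw [e1, f1]; simp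
  · rw [e2, f2]; simp
  · rw [e3, f3]; simp

/-- pattern of a flat wall at the vertex `p` -/
theorem patt_of {R : Finset V} {n : ℕ} {X : V × ZMod 4} {p : V} (hp : p = q0 X ∨ p = q1 X)
    (h : ∀ u : V, |u.1 - X.1.1| ≤ n + 1 → |u.2 - X.1.2| ≤ n + 1 → (u ∈ R ↔ inner X u)) :
    Patt R (Bv n p) p (patK .mk (pg X.2)) := by
  obtain ⟨⟨a, b⟩, d⟩ := X
  rintro ⟨x, y⟩ ⟨⟨u1, u2⟩, u3, u4⟩
  obtain ⟨e0, e1, e2, e3⟩ := q0_val a b
  obtain ⟨f0, f1, f2, f3⟩ := q1_val a b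
  obtain ⟨p3, p2, p1, p0⟩ := pg_val
  obtain ⟨k0, k1, k2, k3⟩ := patK_mk
  have hh := h (x, y)
  simp only at u1 u2 u3 u4 hh ⊢
  rcases Lr158.z4 d with rfl | rfl | rfl | rfl
  · rw [e0, f0] at hp
    rw [p0, k3]
    rw [hh (by rw [abs_le]; rcases hp with rfl | rfl <;> simp only at * <;> constructor <;> omega)
      (by rw [abs_le]; rcases hp with rfl | rfl <;> simp only at * <;> constructor <;> omega)]
    unfold inner
    rw [dir0]
    rcases hp with rfl | rfl <;> simp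
  · rw [e1, f1] at hp
    rw [p1, k2]
    rw [hh (by rw [abs_le]; rcases hp with rfl | rfl <;> simp only at * <;> constructor <;> omega)
      (by rw [abs_le]; rcases hp with rfl | rfl <;> simp only at * <;> constructor <;> omega)]
    unfold inner
    rw [dir1]
    rcases hp with rfl | rfl <;> simp <;> omega
  · rw [e2, f2] at hp
    rw [p2, k1]
    rw [hh (by rw [abs_le]; rcases hp with rfl | rfl <;> simp only at * <;> constructor <;> omega)
      (by rw [abs_le]; rcases hp with rfl | rfl <;> simp only at * <;> constructor <;> omega)]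
    unfold inner
    rw [dir2]
    rcases hp with rfl | rfl <;> simp <;> omega
  · rw [e3, f3] at hp
    rw [p3, k0]
    rw [hh (by rw [abs_le]; rcases hp with rfl | rfl <;> simp only at * <;> constructor <;> omega)
      (by rw [abs_le]; rcases hp with rfl | rfl <;> simp only at * <;> constructor <;> omega)]
    unfold inner
    rw [dir3]
    rcases hp with rfl | rfl <;> simp

/-- positions in the box of a vertex are close to the end -/
theorem near_of {n : ℕ} {X : V × ZMod 4} {p : V} (hp : p = q0 X ∨ p = q1 X) {u : V}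
    (hu : u ∈ Bv n p) : |u.1 - X.1.1| ≤ n + 1 ∧ |u.2 - X.1.2| ≤ n + 1 := by
  obtain ⟨⟨u1, u2⟩, u3, u4⟩ := hu
  obtain ⟨⟨⟨a1, a2⟩, a3, a4⟩, ⟨b1, b2⟩, b3, b4⟩ := q_near X
  rcases hp with rfl | rfl
  · rw [abs_le, abs_le]; omega
  · rw [abs_le, abs_le]; omega

theorem inner_mir (A : Half) (X : V × ZMod 4) (u : V) : inner (mir A X) u ↔ inner X (A.rf u) := by
  obtain ⟨⟨a, b⟩, d⟩ := X
  obtain ⟨x, y⟩ := u
  unfold inner mir Half.rf
  rw [dir_neg]
  simp only
  constructor <;> intro h <;> nlinarith [h]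

/-- the mirrored half plane -/
theorem FlatW.mir {A : Half} {r : ℤ} {X : V × ZMod 4} (h : FlatW A r X) :
    (∀ u : V, |u.1 - (mir A X).1.1| ≤ r → |u.2 - (mir A X).1.2| ≤ r → ¬ A.Mou (A.rf u)) ∧
      ∀ u : V, |u.1 - (mir A X).1.1| ≤ r → |u.2 - (mir A X).1.2| ≤ r →
        (A.rf u ∈ A.H ↔ inner (mir A X) u) := by
  have key : ∀ u : V, |u.1 - (Xp612.mir A X).1.1| ≤ r → |u.2 - (Xp612.mir A X).1.2| ≤ r →
      |(A.rf u).1 - X.1.1| ≤ r ∧ |(A.rf u).2 - X.1.2| ≤ r := by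
    intro u h1 h2
    have e1 : (Xp612.mir A X).1 = A.rf X.1 := rfl
    rw [e1] at h1 h2
    simp only [Half.rf] at h1 h2 ⊢
    refine ⟨h1, ?_⟩
    rw [abs_le] at h2 ⊢
    omega
  refine ⟨fun u h1 h2 => h.m _ (key u h1 h2).1 (key u h1 h2).2, fun u h1 h2 => ?_⟩
  rw [h.p _ (key u h1 h2).1 (key u h1 h2).2, inner_mir]

/-! ### charges in the planar charts -/

section

variable {A : Half} {ρ : ℕ}

theorem Cg_zero (cc : TG × ZMod 4 → ℤ) (cl : ℤ) (h : A.Sz ρ) (X : V × ZMod 4) :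
    Cg cc cl h 0 X = cc (Sum.inl X.1, X.2) := by
  unfold Cg
  have e1 : eps h 0 X = 1 := rfl
  have e2 : upp h 0 X = (Sum.inl X.1, X.2) := rfl
  rw [e1, e2, if_neg (fun hh => absurd hh.1 (by decide))]
  ring

theorem Cg_one (cc : TG × ZMod 4 → ℤ) (cl : ℤ) (h : A.Sz ρ) (X : V × ZMod 4) :
    Cg cc cl h 1 X = -cc (Sum.inl (A.rf X.1), -X.2) := by
  unfold Cg
  have e1 : eps h 1 X = -1 := rfl
  have e2 : upp h 1 X = (Sum.inl (A.rf X.1), -X.2) := rfl
  rw [e1, e2, if_neg (fun hh => absurd hh.1 (by decide))]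
  ring

theorem Cg_one_mir (cc : TG × ZMod 4 → ℤ) (cl : ℤ) (h : A.Sz ρ) (X : V × ZMod 4) :
    Cg cc cl h 1 (mir A X) = -cc (Sum.inl X.1, X.2) := by
  rw [Cg_one]
  unfold mir
  rw [Half.rf_rf, neg_neg]

/-- profile of the charges along a flat wall: jump `q` before `X` -/
structure Prof (cc : TG × ZMod 4 → ℤ) (n : ℤ) (X : V × ZMod 4) (q : ℤ) : Prop where
  r : ∀ j : ℤ, 0 ≤ j → j ≤ n → (cc (Sum.inl (wp X j).1, X.2) - cc (Sum.inl X.1, X.2)) % 3 = 0
  l : ∀ j : ℤ, 0 < j → j ≤ n →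
    (cc (Sum.inl X.1, X.2) - cc (Sum.inl (wp X (-j)).1, X.2) - q) % 3 = 0

/-- **the gap before `X` in the natural copy** -/
theorem gF_ok {cc : TG × ZMod 4 → ℤ} {cl : ℤ} {h : A.Sz ρ} {X : V × ZMod 4} {r : ℤ}
    (hr : 5 * (ρ : ℤ) + 1 ≤ r) (hf : FlatW A r X) (hc : Prof cc (3 * ρ) X (-1)) :
    SpOk h (Cg cc cl h) (gF X) where
  good := fun u hu => by
    have h1 := near_of (Or.inr rfl) hu
    push_cast at h1
    exact hf.m u (h1.1.trans hr) (h1.2.trans hr)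
  patt := patt_of (Or.inr rfl) fun u h1 h2 => by
    push_cast at h1 h2
    exact hf.p u (h1.trans hr) (h2.trans hr)
  chg := by
    refine ⟨false, fun _ _ _ => rfl, ?_⟩
    show ∀ a b : ℤ, 0 ≤ a → a < (3 * ρ : ℕ) → -((3 * ρ : ℕ) : ℤ) ≤ b → b < 0 →
      (Cg cc cl h 0 (fe (pg X.2) (q1 X) a) - Cg cc cl h 0 (fe (pg X.2) (q1 X) b) -
        (if false then 2 else 1)) % 3 = 0
    intro a b h1 h2 h3 h4
    rw [fe_q1, fe_q1, Cg_zero, Cg_zero]
    push_cast at h2 h3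
    have k1 := hc.l (a + 1) (by omega) (by omega)
    have k2 := hc.r (-(b + 1)) (by omega) (by omega)
    have e1 : (wp X (-(a + 1))).2 = X.2 := rfl
    have e2 : (wp X (-(b + 1))).2 = X.2 := rfl
    rw [e1, e2]
    simp only [Bool.false_eq_true, if_false]
    omega

/-- **the gap before `X` in the mirrored copy** -/
theorem gT_ok {cc : TG × ZMod 4 → ℤ} {cl : ℤ} {h : A.Sz ρ} {X : V × ZMod 4} {r : ℤ}
    (hr : 5 * (ρ : ℤ) + 1 ≤ r) (hf : FlatW A r X) (hc : Prof cc (3 * ρ) X 1) :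
    SpOk h (Cg cc cl h) (gT A X) where
  good := fun u hu => by
    have h1 := near_of (X := mir A X) (Or.inl rfl) hu
    push_cast at h1
    exact hf.mir.1 u (h1.1.trans hr) (h1.2.trans hr)
  patt := patt_of (X := mir A X) (Or.inl rfl) fun u h1 h2 => by
    push_cast at h1 h2
    rw [← hf.mir.2 u (h1.trans hr) (h2.trans hr)]
    exact A.mem_rf
  chg := by
    refine ⟨true, fun _ _ _ => rfl, ?_⟩
    show ∀ a b : ℤ, 0 ≤ a → a < (3 * ρ : ℕ) → -((3 * ρ : ℕ) : ℤ) ≤ b → b < 0 →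
      (Cg cc cl h 1 (fe (pg (mir A X).2) (q0 (mir A X)) a) -
        Cg cc cl h 1 (fe (pg (mir A X).2) (q0 (mir A X)) b) - (if true then 2 else 1)) % 3 = 0
    intro a b h1 h2 h3 h4
    rw [fe_q0, fe_q0, wp_mir, wp_mir, Cg_one_mir, Cg_one_mir, neg_neg, neg_neg]
    push_cast at h2 h3
    have k1 := hc.r a (by omega) (by omega)
    have k2 := hc.l (-b) (by omega) (by omega)
    rw [neg_neg] at k2
    have e1 : (wp X a).2 = X.2 := rfl
    have e2 : (wp X b).2 = X.2 := rfl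
    rw [e1, e2]
    simp only [if_true]
    omega

/-- **the end `X` in the natural copy** -/
theorem eF_ok {cc : TG × ZMod 4 → ℤ} {cl : ℤ} {h : A.Sz ρ} {X : V × ZMod 4} {r : ℤ}
    (hr : 5 * (ρ : ℤ) + 1 ≤ r) (hf : FlatW A r X) (hc : ∀ j : ℤ, 0 < j → j ≤ 3 * ρ →
      (cc (Sum.inl (wp X j).1, X.2) - cc (Sum.inl X.1, X.2) + 1) % 3 = 0 ∧
      (cc (Sum.inl X.1, X.2) - cc (Sum.inl (wp X (-j)).1, X.2) + 1) % 3 = 0) :
    SpOk h (Cg cc cl h) (eF X) where
  good := fun u hu => by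
    have h1 := near_of (Or.inl rfl) hu
    push_cast at h1
    exact hf.m u (h1.1.trans hr) (h1.2.trans hr)
  patt := patt_of (Or.inl rfl) fun u h1 h2 => by
    push_cast at h1 h2
    exact hf.p u (h1.trans hr) (h2.trans hr)
  chg := by
    refine ⟨false, fun _ _ _ => rfl, ?_⟩
    show false = false ∧ (∀ a : ℤ, 0 < a → a < (3 * ρ : ℕ) →
      (Cg cc cl h 0 (fe (pg X.2) (q0 X) a) - Cg cc cl h 0 (fe (pg X.2) (q0 X) 0) - 1) % 3 = 0) ∧
      ∀ b : ℤ, -((3 * ρ : ℕ) : ℤ) ≤ b → b < 0 →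
        (Cg cc cl h 0 (fe (pg X.2) (q0 X) 0) - Cg cc cl h 0 (fe (pg X.2) (q0 X) b) - 1) % 3 = 0
    refine ⟨rfl, fun a h1 h2 => ?_, fun b h1 h2 => ?_⟩
    · rw [fe_q0, fe_q0, neg_zero, wp_zero, Cg_zero, Cg_zero]
      push_cast at h2
      have k1 := (hc a h1 (by omega)).2
      have e1 : (wp X (-a)).2 = X.2 := rfl
      rw [e1]
      omega
    · rw [fe_q0, fe_q0, neg_zero, wp_zero, Cg_zero, Cg_zero]
      push_cast at h1
      have k1 := (hc (-b) (by omega) (by omega)).1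
      have e1 : (wp X (-b)).2 = X.2 := rfl
      rw [e1]
      omega

/-- **the end `X` in the mirrored copy** -/
theorem eT_ok {cc : TG × ZMod 4 → ℤ} {cl : ℤ} {h : A.Sz ρ} {X : V × ZMod 4} {r : ℤ}
    (hr : 5 * (ρ : ℤ) + 1 ≤ r) (hf : FlatW A r X) (hc : ∀ j : ℤ, 0 < j → j ≤ 3 * ρ →
      (cc (Sum.inl (wp X j).1, X.2) - cc (Sum.inl X.1, X.2) + 1) % 3 = 0 ∧
      (cc (Sum.inl X.1, X.2) - cc (Sum.inl (wp X (-j)).1, X.2) + 1) % 3 = 0) :
    SpOk h (Cg cc cl h) (eT A X) where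
  good := fun u hu => by
    have h1 := near_of (X := mir A X) (Or.inl rfl) hu
    push_cast at h1
    exact hf.mir.1 u (h1.1.trans hr) (h1.2.trans hr)
  patt := patt_of (X := mir A X) (Or.inl rfl) fun u h1 h2 => by
    push_cast at h1 h2
    rw [← hf.mir.2 u (h1.trans hr) (h2.trans hr)]
    exact A.mem_rf
  chg := by
    refine ⟨true, fun _ _ _ => rfl, ?_⟩
    show true = true ∧ ∀ a b : ℤ, 0 < a → a ≤ (3 * ρ : ℕ) → -((3 * ρ : ℕ) : ℤ) ≤ b → b < 0 →
      (Cg cc cl h 1 (fe (pg (mir A X).2) (q0 (mir A X)) a) -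
        Cg cc cl h 1 (fe (pg (mir A X).2) (q0 (mir A X)) b) - 2) % 3 = 0
    refine ⟨rfl, fun a b h1 h2 h3 h4 => ?_⟩
    rw [fe_q0, fe_q0, wp_mir, wp_mir, Cg_one_mir, Cg_one_mir, neg_neg, neg_neg]
    push_cast at h2 h3
    have k1 := (hc a h1 (by omega)).1
    have k2 := (hc (-b) (by omega) (by omega)).2
    rw [neg_neg] at k2
    have e1 : (wp X a).2 = X.2 := rfl
    have e2 : (wp X b).2 = X.2 := rfl
    rw [e1, e2]
    omega

end

end Crest.Agent.R158.Xp612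
end
private theorem rz_44e48bb253 : type_of% @_root_.Crest.Agent.R158.Xp612.XE.eq_1 := @_root_.Crest.Agent.R158.Xp612.XE.eq_1 -- L68
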