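import Crest.Agent.R158.Lr2_158
import Crest.Agent.R158.Nz8_399
import Crest.Agent.R158.Fm2_857
import Crest.Agent.R158.Lr6_158
import Crest.Agent.R158.Xp1_612
import Crest.Agent.R158.Lr7_158
import Crest.Agent.R158.Xd2_841
import Crest.Agent.R158.Hw2_949
import Crest.Agent.R158.Hb1_656
import Crest.Agent.R158.Lr8_158

-- ▼ part R158/Xs1_932
section

/-!
# R158, block Q1d, leaf XM (helper932), part 1: special points of the strip (chart 3 of a double)

* `sMk j`, `sE2 j`, `sE1 j` : special points of the strip: gap before the column `j` of the floor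
  (copy `false`), end of the column `j` of the floor (copy `false`), the same end in the copy `true`
* `ok_mk`, `ok_e2`, `ok_e1` : they are admissible for charges that jump by `1` there
* `sup_flo`, `sup_cei`, `sup_planar`, `sup_mouth_l`, `sup_mouth_r` : supports
-/

set_option autoImplicit false

noncomputable section

namespace Crest.Agent.R158.Xs932

open Crest.Agent.R158.Nm211
open Crest.Agent.R158.Ka470
open Crest.Agent.R158.Ka470.Half
open Crest.Agent.R158.Nz399
open Crest.Agent.R158.Lr158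
open Crest.Agent.R158.Env664 (TG)

variable {A : Half} {ρ : ℕ}

/-- gap of the floor before the column `j`, copy `false` -/
def sMk (A : Half) (j : ℤ) : Sp := ⟨3, .mk, 0, (j, A.y1)⟩

/-- end of the floor in the column `j`, copy `false` -/
def sE2 (A : Half) (j : ℤ) : Sp := ⟨3, .e2, 0, (j, A.y1)⟩

/-- end of the ceiling in the column `j`, copy `true` -/
def sE1 (A : Half) (j : ℤ) : Sp := ⟨3, .e1, 2, (j + 1, 2 * A.y0 - A.y1)⟩

theorem pl0 (p v : ℤ × ℤ) : pl 0 p v = v + p := rfl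

theorem pl2 (p v : ℤ × ℤ) : pl 2 p v = (p.1 - 1 - v.1, p.2 - 1 - v.2) := by
  obtain ⟨x, y⟩ := v
  obtain ⟨a, b⟩ := p
  show rt (rt (x, y)) + (a, b) = _
  simp only [rt, Prod.mk_add_mk, Prod.mk.injEq]
  constructor <;> ring

theorem fe0 (j y a : ℤ) : fe 0 (j, y) a = ((j + a, y), 3) := by
  unfold fe
  rw [pl0]
  simp only [Prod.mk_add_mk, Prod.mk.injEq]
  refine ⟨⟨by ring, by ring⟩, by decide⟩

theorem fe2 (j y a : ℤ) : fe 2 (j + 1, y) a = ((j - a, y - 1), 1) := by
  unfold fe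
  rw [pl2]
  simp only [Prod.mk.injEq]
  refine ⟨⟨by ring, by ring⟩, by decide⟩

/-- charges of the floor, copy `false` -/
theorem Cg_flo (cc : TG × ZMod 4 → ℤ) (cl : ℤ) (h : A.Sz ρ) (x : ℤ) :
    Cg cc cl h 3 ((x, A.y1), 3) = cc (Sum.inr (x, A.y1), 3) := by
  have h01 := A.h1
  have e1 : ((chf h 3).emb (x, A.y1)) = (Sum.inr (x, A.y1), false) := by
    show ((Sum.inr (x, A.ry A.y1) : TG), A.kk A.y1) = _
    rw [ry_lt _ h01, kk_lt _ h01]
  unfold Cg eps upp
  rw [e1]
  simp [Ka470.sg]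

/-- charges of the ceiling, copy `true` -/
theorem Cg_cei (cc : TG × ZMod 4 → ℤ) (cl : ℤ) (h : A.Sz ρ) (x : ℤ) :
    Cg cc cl h 3 ((x, 2 * A.y0 - A.y1 - 1), 1) = -cc (Sum.inr (x, A.y1), 3) := by
  have h01 := A.h1
  have e1 : ((chf h 3).emb (x, 2 * A.y0 - A.y1 - 1)) = (Sum.inr (x, A.y1), true) := by
    show ((Sum.inr (x, A.ry (2 * A.y0 - A.y1 - 1)) : TG), A.kk (2 * A.y0 - A.y1 - 1)) = _
    rw [ry_ge _ (by omega), kk_ge _ (by omega)]
    congr 3
    ring
  have e2 : Ka470.sg true (1 : ZMod 4) = 3 := by decide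
  unfold Cg eps upp
  rw [e1]
  simp only
  rw [e2, if_pos trivial, if_neg (fun hh => absurd hh.1 (by decide))]
  ring

theorem patK_mk0 (bx bz : Bool) : patK .mk 0 bx bz = bz := by
  revert bx bz; decide

theorem patK_mk2 (bx bz : Bool) : patK .mk 2 bx bz = !bz := by
  revert bx bz; decide

/-- boxes of the strip -/
theorem good3 {p : ℤ × ℤ} (h1 : 5 * (ρ : ℤ) ≤ p.1) (h2 : p.1 + 5 * ρ ≤ A.R) :
    A.Good ρ 3 (Bv (5 * ρ) p) := by
  rintro u ⟨⟨u1, u2⟩, -⟩
  push_cast at u1 u2
  constructor <;> omega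

/-- the floor of the strip -/
theorem patt_flo (h : A.Sz ρ) (hy : 5 * (ρ : ℤ) ≤ A.y0 - A.y1) {j : ℤ} (h1 : 5 * (ρ : ℤ) ≤ j)
    (h2 : j + 5 * ρ ≤ A.R) : Patt (chf h 3).R (Bv (5 * ρ) (j, A.y1)) (j, A.y1) (patK .mk 0) := by
  intro u hu
  have hg := good3 (A := A) (ρ := ρ) (p := (j, A.y1)) h1 h2
  rw [memS h (hg u hu), patK_mk0, y1_ry]
  obtain ⟨⟨u1, u2⟩, u3, u4⟩ := hu
  push_cast at u1 u2 u3 u4
  simp only [decide_eq_true_eq]
  have := h.pos
  omega

/-- the ceiling of the strip -/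
theorem patt_cei (h : A.Sz ρ) (hy : 5 * (ρ : ℤ) ≤ A.y0 - A.y1) {j : ℤ} (h1 : 5 * (ρ : ℤ) ≤ j)
    (h2 : j + 5 * ρ ≤ A.R) : Patt (chf h 3).R (Bv (5 * ρ) (j, 2 * A.y0 - A.y1))
      (j, 2 * A.y0 - A.y1) (patK .mk 2) := by
  intro u hu
  have hg := good3 (A := A) (ρ := ρ) (p := (j, 2 * A.y0 - A.y1)) h1 h2
  rw [memS h (hg u hu), patK_mk2, y1_ry]
  obtain ⟨⟨u1, u2⟩, u3, u4⟩ := hu
  push_cast at u1 u2 u3 u4
  simp only [Bool.not_eq_true', decide_eq_false_iff_not]
  have := h.pos
  omega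

theorem copy_flo (h : A.Sz ρ) (hy : 5 * (ρ : ℤ) ≤ A.y0 - A.y1) {j : ℤ} :
    ∀ u ∈ Bv (5 * ρ) (j, A.y1), u ∈ (chf h 3).R → ((chf h 3).emb u).2 = false := by
  rintro u ⟨-, u3, u4⟩ -
  push_cast at u3 u4
  show A.kk u.2 = false
  exact kk_lt _ (by omega)

theorem copy_cei (h : A.Sz ρ) (hy : 5 * (ρ : ℤ) ≤ A.y0 - A.y1) {j : ℤ} :
    ∀ u ∈ Bv (5 * ρ) (j, 2 * A.y0 - A.y1), u ∈ (chf h 3).R → ((chf h 3).emb u).2 = true := by
  rintro u ⟨-, u3, u4⟩ -
  push_cast at u3 u4
  show A.kk u.2 = true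
  exact kk_ge _ (by omega)

section ok

variable {cc : TG × ZMod 4 → ℤ} {cl : ℤ} {cf : ℤ → ℤ}

/-- **gap of charge `1`** -/
theorem ok_mk (h : A.Sz ρ) (hy : 5 * (ρ : ℤ) ≤ A.y0 - A.y1) {j : ℤ} (h1 : 5 * (ρ : ℤ) ≤ j)
    (h2 : j + 5 * ρ ≤ A.R) (hcf : ∀ i, 0 ≤ i → i < A.R → cc (Sum.inr (i, A.y1), 3) = cf i)
    (hj : ∀ i i' : ℤ, j ≤ i → i < j + 3 * ρ → j - 3 * ρ ≤ i' → i' < j → cf i = cf i' + 1) :
    SpOk h (Cg cc cl h) (sMk A j) where
  good := good3 h1 h2
  patt := patt_flo h hy h1 h2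
  chg := by
    refine ⟨false, copy_flo h hy, ?_⟩
    intro a b ha ha' hb hb'
    show (Cg cc cl h 3 (fe 0 (j, A.y1) a) - Cg cc cl h 3 (fe 0 (j, A.y1) b) -
      (if false = true then 2 else 1)) % 3 = 0
    rw [fe0, fe0, Cg_flo, Cg_flo]
    have e : ((3 * ρ : ℕ) : ℤ) = 3 * ρ := by push_cast; ring
    rw [e] at ha' hb
    rw [hcf _ (by omega) (by omega), hcf _ (by omega) (by omega),
      hj (j + a) (j + b) (by omega) (by omega) (by omega) (by omega)]
    rw [if_neg (by decide)]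
    omega

/-- **end with two gaps of charge `1`**, copy `false` -/
theorem ok_e2 (h : A.Sz ρ) (hy : 5 * (ρ : ℤ) ≤ A.y0 - A.y1) {j : ℤ} (h1 : 5 * (ρ : ℤ) ≤ j)
    (h2 : j + 5 * ρ ≤ A.R) (hcf : ∀ i, 0 ≤ i → i < A.R → cc (Sum.inr (i, A.y1), 3) = cf i)
    (hr : ∀ i : ℤ, j < i → i < j + 3 * ρ → cf i = cf j + 1)
    (hl : ∀ i : ℤ, j - 3 * ρ ≤ i → i < j → cf j = cf i + 1) :
    SpOk h (Cg cc cl h) (sE2 A j) where
  good := good3 h1 h2
  patt := patt_flo h hy h1 h2
  chg := by
    refine ⟨false, copy_flo h hy, rfl, ?_, ?_⟩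
    · intro a ha ha'
      show (Cg cc cl h 3 (fe 0 (j, A.y1) a) - Cg cc cl h 3 (fe 0 (j, A.y1) 0) - 1) % 3 = 0
      rw [fe0, fe0, Cg_flo, Cg_flo]
      have e : ((3 * ρ : ℕ) : ℤ) = 3 * ρ := by push_cast; ring
      rw [e] at ha'
      rw [hcf _ (by omega) (by omega), hcf _ (by omega) (by omega),
        hr (j + a) (by omega) (by omega), add_zero]
      omega
    · intro b hb hb'
      show (Cg cc cl h 3 (fe 0 (j, A.y1) 0) - Cg cc cl h 3 (fe 0 (j, A.y1) b) - 1) % 3 = 0
      rw [fe0, fe0, Cg_flo, Cg_flo]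
      have e : ((3 * ρ : ℕ) : ℤ) = 3 * ρ := by push_cast; ring
      rw [e] at hb
      rw [hcf _ (by omega) (by omega), hcf _ (by omega) (by omega), add_zero,
        hl (j + b) (by omega) (by omega)]
      omega

/-- **end with two gaps of charge `1`**, copy `true` -/
theorem ok_e1 (h : A.Sz ρ) (hy : 5 * (ρ : ℤ) ≤ A.y0 - A.y1) {j : ℤ} (h1 : 5 * (ρ : ℤ) ≤ j)
    (h2 : j + 1 + 5 * ρ ≤ A.R) (hcf : ∀ i, 0 ≤ i → i < A.R → cc (Sum.inr (i, A.y1), 3) = cf i)
    (hj : ∀ i i' : ℤ, j < i → i ≤ j + 3 * ρ → j - 3 * ρ ≤ i' → i' < j → cf i = cf i' + 2) :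
    SpOk h (Cg cc cl h) (sE1 A j) where
  good := good3 (p := (j + 1, 2 * A.y0 - A.y1)) (by simp only; omega) h2
  patt := patt_cei h hy (by omega) h2
  chg := by
    refine ⟨true, copy_cei h hy, rfl, ?_⟩
    intro a b ha ha' hb hb'
    show (Cg cc cl h 3 (fe 2 (j + 1, 2 * A.y0 - A.y1) a) -
      Cg cc cl h 3 (fe 2 (j + 1, 2 * A.y0 - A.y1) b) - 2) % 3 = 0
    rw [fe2, fe2, Cg_cei, Cg_cei]
    have e : ((3 * ρ : ℕ) : ℤ) = 3 * ρ := by push_cast; ring
    rw [e] at ha' hb
    rw [hcf _ (by omega) (by omega), hcf _ (by omega) (by omega),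
      hj (j - b) (j - a) (by omega) (by omega) (by omega) (by omega)]
    omega

end ok

/-! ### supports -/

theorem mem_sup {h : A.Sz ρ} {n : ℕ} {x : Sp} {t : TG × Bool} :
    t ∈ x.sup h n ↔ ∃ v ∈ Tf x.f n, (chf h x.i).emb (pl x.g x.p v) = t := by
  classical
  unfold Sp.sup fS
  rw [Finset.mem_image]

/-- box of the support -/
theorem Tf_box {f : Fk} {n : ℕ} {v : ℤ × ℤ} (hv : v ∈ Tf f n) :
    (-(n : ℤ) - 1 ≤ v.1 ∧ v.1 ≤ n) ∧ -(n : ℤ) - 1 ≤ v.2 ∧ v.2 ≤ n := by
  cases f <;> simp only [Tf] at hv <;> rw [mem_Tk] at hv <;> obtain ⟨hv, -⟩ := hv <;>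
    push_cast at hv <;> omega

/-- box of the support, all factors but `e1` -/
theorem Tf_box' {f : Fk} (hf : f ≠ .e1) {n : ℕ} {v : ℤ × ℤ} (hv : v ∈ Tf f n) :
    (-(n : ℤ) ≤ v.1 ∧ v.1 < n) ∧ -(n : ℤ) ≤ v.2 ∧ v.2 < n := by
  cases f <;> simp only [Tf] at hv <;> first | exact absurd rfl hf | exact (mem_Tk.1 hv).1

theorem Tf_up {f : Fk} (hf : f = .mk ∨ f = .e2 ∨ f = .e1) {n : ℕ} {v : ℤ × ℤ} (hv : v ∈ Tf f n) :
    0 ≤ v.2 := by
  rcases hf with rfl | rfl | rfl <;> exact (mem_Tk.1 hv).2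

/-- support of a point of the floor -/
theorem sup_flo {h : A.Sz ρ} (hy : 5 * (ρ : ℤ) ≤ A.y0 - A.y1) {x : Sp} {j : ℤ}
    (hx : x = sMk A j ∨ x = sE2 A j) {t : TG × Bool} (ht : t ∈ x.sup h (3 * ρ)) :
    ∃ c y, t = (Sum.inr (c, y), false) ∧ j - 3 * ρ ≤ c ∧ c < j + 3 * ρ := by
  rw [mem_sup] at ht
  obtain ⟨v, hv, rfl⟩ := ht
  have hρ := h.pos
  rcases hx with rfl | rfl
  · have h1 := Tf_box' (by simp [sMk]) hv
    have h2 := Tf_up (Or.inl rfl) hv
    push_cast at h1
    refine ⟨v.1 + j, A.ry (v.2 + A.y1), ?_, by omega, by omega⟩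
    show ((Sum.inr (v.1 + j, A.ry (v.2 + A.y1)) : TG), A.kk (v.2 + A.y1)) = _
    rw [kk_lt _ (by omega)]
  · have h1 := Tf_box' (by simp [sE2]) hv
    have h2 := Tf_up (Or.inr (Or.inl rfl)) hv
    push_cast at h1
    refine ⟨v.1 + j, A.ry (v.2 + A.y1), ?_, by omega, by omega⟩
    show ((Sum.inr (v.1 + j, A.ry (v.2 + A.y1)) : TG), A.kk (v.2 + A.y1)) = _
    rw [kk_lt _ (by omega)]

/-- support of a point of the ceiling -/
theorem sup_cei {h : A.Sz ρ} (hy : 5 * (ρ : ℤ) ≤ A.y0 - A.y1) {j : ℤ} {t : TG × Bool}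
    (ht : t ∈ (sE1 A j).sup h (3 * ρ)) :
    ∃ c y, t = (Sum.inr (c, y), true) ∧ j - 3 * ρ ≤ c ∧ c ≤ j + 3 * ρ + 1 := by
  rw [mem_sup] at ht
  obtain ⟨v, hv, rfl⟩ := ht
  have hρ := h.pos
  have h1 := Tf_box hv
  have h2 := Tf_up (Or.inr (Or.inr rfl)) hv
  push_cast at h1
  refine ⟨j - v.1, A.ry (2 * A.y0 - A.y1 - 1 - v.2), ?_, by omega, by omega⟩
  have e : pl (sE1 A j).g (sE1 A j).p v = (j - v.1, 2 * A.y0 - A.y1 - 1 - v.2) := by
    show pl 2 (j + 1, 2 * A.y0 - A.y1) v = _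
    rw [pl2]
    congr 1
    ring
  rw [e]
  show ((Sum.inr (j - v.1, A.ry (2 * A.y0 - A.y1 - 1 - v.2)) : TG),
    A.kk (2 * A.y0 - A.y1 - 1 - v.2)) = _
  rw [kk_ge _ (by omega)]

/-- support of a point of a planar chart -/
theorem sup_planar {h : A.Sz ρ} {n : ℕ} {x : Sp} (hx : x.i = 0 ∨ x.i = 1) {t : TG × Bool}
    (ht : t ∈ x.sup h n) : ∃ v, t.1 = Sum.inl v := by
  rw [mem_sup] at ht
  obtain ⟨v, hv, rfl⟩ := ht
  rcases hx with hx | hx
  · rw [hx]
    exact ⟨_, rfl⟩
  · rw [hx]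
    exact ⟨_, rfl⟩


end Crest.Agent.R158.Xs932
end
end

-- ▼ part R158/Xs2_932
section

/-!
# R158, block Q1d, leaf XM (helper932), part 2: charges of 857's family on the strip

* `Pla m` : the port `m` is a planar port (the marks are)
* `cfl b e i` : charge `cp` of the end of the floor in the column `i` (`cp_flo`)
* `ccl b e i` : charge `ccU` of the end of the floor of the reflected upper half (`ccU_flo`)
-/

set_option autoImplicit false

noncomputable section

namespace Crest.Agent.R158.Xs932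

open Crest.Agent.R158.Sw300 (Port)
open Crest.Agent.R158.Env664 (TG Mac D Band)
open Crest.Agent.R158.Fm857
open Crest.Agent.R158.Lr158 (ccU)
open Crest.Agent.R158.Rf896 (rp rt rz)

/-- planar port -/
def Pla (m : Port TG) : Prop := ∃ (v : ℤ × ℤ) (d : ZMod 4), m = some (Sum.inl v, d)

variable {A : Finset (ℤ × ℤ)} (B : Band A) (b : ℤ)

theorem ge1_eq (m q : Port TG) : ge1 B b m q =
    if blkG B b m < blkG B b q ∨ (blkG B b m = blkG B b q ∧ innG B m ≤ innG B q) then 1 else 0 := by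
  unfold ge1 pG
  simp only [Prod.Lex.toLex_le_toLex]

theorem gt1_eq (m q : Port TG) : gt1 B b m q =
    if blkG B b m < blkG B b q ∨ (blkG B b m = blkG B b q ∧ innG B m < innG B q) then 1 else 0 := by
  unfold gt1 pG
  simp only [Prod.Lex.toLex_lt_toLex]

theorem blk_pla {m : Port TG} (hm : Pla m) : blkG B b m = 1 ∨ blkG B b m = 4 := by
  obtain ⟨v, d, rfl⟩ := hm
  simp only [blkG]
  split_ifs
  · exact Or.inl rfl
  · exact Or.inr rfl

theorem blk_flo (i y : ℤ) : blkG B b (some (Sum.inr (i, y), 3)) = if i < b then 0 else 2 := by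
  simp [blkG]

theorem blk_cei (i y : ℤ) {d : ZMod 4} (hd : d ≠ 3) :
    blkG B b (some (Sum.inr (i, y), d)) = if i < b then 5 else 3 := by
  simp [blkG, hd]

theorem inn_flo (i y : ℤ) : innG B (some (Sum.inr (i, y), 3)) = -i := by
  simp [innG]

theorem inn_cei (i y : ℤ) {d : ZMod 4} (hd : d ≠ 3) :
    innG B (some (Sum.inr (i, y), d)) = i := by
  simp [innG, hd]

theorem low_pla {m : Port TG} (hm : Pla m) : low1 B b m = if blkG B b m = 1 then 1 else 0 := by
  unfold low1
  rcases blk_pla B b hm with h | h <;> rw [h] <;> decide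

theorem low_flo (i y : ℤ) : low1 B b (some (Sum.inr (i, y), 3)) = 1 := by
  unfold low1
  rw [blk_flo]
  split_ifs <;> simp_all

theorem low_cei (i y : ℤ) {d : ZMod 4} (hd : d ≠ 3) :
    low1 B b (some (Sum.inr (i, y), d)) = 0 := by
  unfold low1
  rw [blk_cei B b i y hd]
  split_ifs <;> simp_all

/-! ### the floor -/

theorem ge1_pla_flo {m : Port TG} (hm : Pla m) (i y : ℤ) :
    ge1 B b m (some (Sum.inr (i, y), 3)) = if i < b then 0 else low1 B b m := by
  rw [ge1_eq, low_pla B b hm, blk_flo, inn_flo]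
  rcases blk_pla B b hm with h | h <;> rw [h] <;> split_ifs <;> first | rfl | omega

theorem gt1_pla_flo {m : Port TG} (hm : Pla m) (i y : ℤ) :
    gt1 B b m (some (Sum.inr (i, y), 3)) = if i < b then 0 else low1 B b m := by
  rw [gt1_eq, low_pla B b hm, blk_flo, inn_flo]
  rcases blk_pla B b hm with h | h <;> rw [h] <;> split_ifs <;> first | rfl | omega

/-- charge of the floor -/
def cfl (b : ℤ) (e : Option (Port TG)) (i : ℤ) : ℤ :=
  match e with
  | some (some (Sum.inr (j, _), d)) =>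
    if d = 3 then
      (if j < b then -(if i ≤ j then 1 else 0) - (if i < j then 1 else 0)
        else (if j < i then 1 else 0) + (if j ≤ i then 1 else 0))
    else 0
  | _ => 0

variable {b} in
/-- **charges of the ends of the floor** -/
theorem cp_flo {m1 m2 : Port TG} (hm1 : Pla m1) (hm2 : Pla m2) (e : Option (Port TG)) (i y : ℤ) :
    cp B b m1 m2 e (some (Sum.inr (i, y), 3)) = cfl b e i := by
  have hls : (isLS b (some (Sum.inr (i, y), (3 : ZMod 4)))) ↔ b ≤ i := Iff.rfl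
  unfold cp cb clow
  rw [ge1_pla_flo B b hm1, ge1_pla_flo B b hm2]
  rcases e with _ | _ | ⟨v | ⟨j, z⟩, d⟩
  · simp only [cfl]
    by_cases hi : i < b
    · rw [if_pos hi, if_pos hi, if_neg (by rw [hls]; omega)]; ring
    · rw [if_neg hi, if_neg hi, if_pos (by rw [hls]; omega)]; ring
  · have e1 : ge1 B b none (some (Sum.inr (i, y), 3)) = 0 := by
      rw [ge1_eq, blk_flo]
      have : blkG B b none = 6 := rfl
      rw [this]
      split_ifs <;> first | rfl | omega
    have e2 : gt1 B b none (some (Sum.inr (i, y), 3)) = 0 := by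
      rw [gt1_eq, blk_flo]
      have : blkG B b none = 6 := rfl
      rw [this]
      split_ifs <;> first | rfl | omega
    have e3 : low1 B b none = 0 := by
      unfold low1
      have : blkG B b none = 6 := rfl
      rw [this]; rfl
    simp only [cfl, e1, e2, e3]
    by_cases hi : i < b
    · rw [if_pos hi, if_pos hi, if_neg (by rw [hls]; omega)]; ring
    · rw [if_neg hi, if_neg hi, if_pos (by rw [hls]; omega)]; ring
  · simp only [cfl]
    rw [ge1_pla_flo B b ⟨v, d, rfl⟩, gt1_pla_flo B b ⟨v, d, rfl⟩]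
    by_cases hi : i < b
    · rw [if_pos hi, if_pos hi, if_pos hi, if_neg (by rw [hls]; omega)]; ring
    · rw [if_neg hi, if_neg hi, if_neg hi, if_pos (by rw [hls]; omega)]; ring
  · simp only [cfl]
    rw [ge1_eq, gt1_eq]
    by_cases hd : d = 3
    · subst hd
      rw [blk_flo, blk_flo, inn_flo, inn_flo, low_flo, if_pos rfl]
      by_cases hi : i < b
      · rw [if_neg (by rw [hls]; omega : ¬ isLS b (some (Sum.inr (i, y), (3 : ZMod 4))))]
        simp only [hi, if_true]
        by_cases hj : j < b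
        · simp only [hj, if_true, lt_irrefl, false_or, true_and]
          split_ifs <;> omega
        · simp only [hj, if_false]
          split_ifs <;> omega
      · rw [if_pos (by rw [hls]; omega : isLS b (some (Sum.inr (i, y), (3 : ZMod 4))))]
        simp only [hi, if_false]
        by_cases hj : j < b
        · simp only [hj, if_true]
          split_ifs <;> omega
        · simp only [hj, if_false, lt_irrefl, false_or, true_and]
          split_ifs <;> omega
    · rw [blk_flo, blk_cei B b j z hd, inn_flo, inn_cei B j z hd, low_cei B b j z hd, if_neg hd]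
      by_cases hi : i < b
      · rw [if_neg (by rw [hls]; omega : ¬ isLS b (some (Sum.inr (i, y), (3 : ZMod 4))))]
        simp only [hi, if_true]
        by_cases hj : j < b
        · simp only [hj, if_true]
          split_ifs <;> omega
        · simp only [hj, if_false]
          split_ifs <;> omega
      · rw [if_pos (by rw [hls]; omega : isLS b (some (Sum.inr (i, y), (3 : ZMod 4))))]
        simp only [hi, if_false]
        by_cases hj : j < b
        · simp only [hj, if_true]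
          split_ifs <;> omega
        · simp only [hj, if_false]
          split_ifs <;> omega

/-! ### the ceiling -/

theorem ge1_pla_cei {m : Port TG} (hm : Pla m) (i y : ℤ) :
    ge1 B b m (some (Sum.inr (i, y), 1)) = if i < b then 1 else low1 B b m := by
  rw [ge1_eq, low_pla B b hm, blk_cei B b i y (by decide), inn_cei B i y (by decide)]
  rcases blk_pla B b hm with h | h <;> rw [h] <;> split_ifs <;> first | rfl | omega

theorem gt1_pla_cei {m : Port TG} (hm : Pla m) (i y : ℤ) :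
    gt1 B b m (some (Sum.inr (i, y), 1)) = if i < b then 1 else low1 B b m := by
  rw [gt1_eq, low_pla B b hm, blk_cei B b i y (by decide), inn_cei B i y (by decide)]
  rcases blk_pla B b hm with h | h <;> rw [h] <;> split_ifs <;> first | rfl | omega

/-- charge of the ceiling -/
def cce (b : ℤ) (e : Option (Port TG)) (i : ℤ) : ℤ :=
  match e with
  | some (some (Sum.inr (j, _), d)) =>
    if d = 3 then 0 else
      (if j < b then (if i < j then 1 else 0) + (if i ≤ j then 1 else 0)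
        else -(if j ≤ i then 1 else 0) - (if j < i then 1 else 0))
  | _ => 0

variable {b} in
/-- **charges of the ends of the ceiling** -/
theorem cp_cei {m1 m2 : Port TG} (hm1 : Pla m1) (hm2 : Pla m2) {e : Option (Port TG)}
    (he : e ≠ some none) (i y : ℤ) :
    cp B b m1 m2 e (some (Sum.inr (i, y), 1)) = cce b e i := by
  have hls : (isLS b (some (Sum.inr (i, y), (1 : ZMod 4)))) ↔ b ≤ i := Iff.rfl
  unfold cp cb clow
  rw [ge1_pla_cei B b hm1, ge1_pla_cei B b hm2]
  rcases e with _ | _ | ⟨v | ⟨j, z⟩, d⟩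
  · simp only [cce]
    by_cases hi : i < b
    · rw [if_pos hi, if_pos hi, if_neg (by rw [hls]; omega)]; ring
    · rw [if_neg hi, if_neg hi, if_pos (by rw [hls]; omega)]; ring
  · exact absurd rfl he
  · simp only [cce]
    rw [ge1_pla_cei B b ⟨v, d, rfl⟩, gt1_pla_cei B b ⟨v, d, rfl⟩]
    by_cases hi : i < b
    · rw [if_pos hi, if_pos hi, if_pos hi, if_neg (by rw [hls]; omega)]; ring
    · rw [if_neg hi, if_neg hi, if_neg hi, if_pos (by rw [hls]; omega)]; ring
  · simp only [cce]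
    rw [ge1_eq, gt1_eq, blk_cei B b i y (by decide), inn_cei B i y (by decide)]
    by_cases hd : d = 3
    · subst hd
      rw [blk_flo, inn_flo, low_flo, if_pos rfl]
      by_cases hi : i < b
      · rw [if_neg (by rw [hls]; omega : ¬ isLS b (some (Sum.inr (i, y), (1 : ZMod 4))))]
        simp only [hi, if_true]
        by_cases hj : j < b
        · simp only [hj, if_true]
          split_ifs <;> omega
        · simp only [hj, if_false]
          split_ifs <;> omega
      · rw [if_pos (by rw [hls]; omega : isLS b (some (Sum.inr (i, y), (1 : ZMod 4))))]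
        simp only [hi, if_false]
        by_cases hj : j < b
        · simp only [hj, if_true]
          split_ifs <;> omega
        · simp only [hj, if_false]
          split_ifs <;> omega
    · rw [blk_cei B b j z hd, inn_cei B j z hd, low_cei B b j z hd, if_neg hd]
      by_cases hi : i < b
      · rw [if_neg (by rw [hls]; omega : ¬ isLS b (some (Sum.inr (i, y), (1 : ZMod 4))))]
        simp only [hi, if_true]
        by_cases hj : j < b
        · simp only [hj, if_true, lt_irrefl, false_or, true_and]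
          split_ifs <;> omega
        · simp only [hj, if_false]
          split_ifs <;> omega
      · rw [if_pos (by rw [hls]; omega : isLS b (some (Sum.inr (i, y), (1 : ZMod 4))))]
        simp only [hi, if_false]
        by_cases hj : j < b
        · simp only [hj, if_true]
          split_ifs <;> omega
        · simp only [hj, if_false, lt_irrefl, false_or, true_and]
          split_ifs <;> omega

/-- charge of the floor of the reflected upper half -/
def ccl (b : ℤ) (e : Option (Port TG)) (i : ℤ) : ℤ := (if i < b then 1 else 2) - cce b e i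

/-- **charges of the floor of the reflected upper half** -/
theorem ccU_flo {M : Mac} {L : ℤ} {B : Band (D M.F L)} {b : ℤ} {m1 m2 : Port TG} (hm1 : Pla m1)
    (hm2 : Pla m2) {e : Option (Port TG)} (he : e ≠ some none) (i y : ℤ) :
    ccU B b m1 m2 e (Sum.inr (i, y), 3) = ccl b e i := by
  have e1 : rp (some (Sum.inr (i, y), 3)) = some (Sum.inr (i, -y - 1), 1) := by
    show some (rt (Sum.inr (i, y)), -(3 : ZMod 4)) = _
    rw [show -(3 : ZMod 4) = 1 by decide]
    rfl
  show (if i < b then (1 : ℤ) else 2) - cp B b m1 m2 e (rp (some (Sum.inr (i, y), 3))) = _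
  rw [e1, cp_cei B hm1 hm2 he]
  rfl

end Crest.Agent.R158.Xs932
end
private theorem rz_0d7d50c911 : type_of% @_root_.Crest.Agent.R158.Xs932.cce.eq_1 := @_root_.Crest.Agent.R158.Xs932.cce.eq_1 -- L182
private theorem rz_4d76a3e0a1 : type_of% @_root_.Crest.Agent.R158.Xs932.cfl.eq_1 := @_root_.Crest.Agent.R158.Xs932.cfl.eq_1 -- L88
end

-- ▼ part R158/Xs3_932
section

/-!
# R158, block Q1d, leaf XM (helper932), part 3: the strip half of the list XM

* `XSlow A e`, `XSup A b e` : special points of the strip for the member `e`, lower half / reflected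
  upper half (`A` = the half environment)
* `ok_low`, `ok_up` : they are admissible
* `dis_low`, `dis_up` : disjoint supports; `dis_planar` : disjoint from the points of the charts 0, 1
* `col_low`, `col_up` : columns; `cnt_low`, `cnt_up` : counts
-/

set_option autoImplicit false

noncomputable section

namespace Crest.Agent.R158.Xs932

open Crest.Agent.R158.Nm211
open Crest.Agent.R158.Ka470
open Crest.Agent.R158.Ka470.Half
open Crest.Agent.R158.Nz399
open Crest.Agent.R158.Lr158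
open Crest.Agent.R158.Sw300 (Port)
open Crest.Agent.R158.Env664 (TG Mac D Band)
open Crest.Agent.R158.Rf896 (rB)
open Crest.Agent.R158.Fm857 (isLS)

/-- **strip points of the member `e`, lower half** -/
def XSlow (A : Half) (e : Option (Port TG)) : Finset Sp :=
  match e with
  | some (some (Sum.inr (j, _), d)) => if d = 3 then {sE2 A j, sE1 A j} else ∅
  | _ => ∅

/-- strip points of the member `e` on the ceiling -/
def XSe (A : Half) (e : Option (Port TG)) : Finset Sp :=
  match e with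
  | some (some (Sum.inr (j, _), d)) => if d = 3 then ∅ else {sE2 A j, sE1 A j}
  | _ => ∅

/-- **strip points of the member `e`, reflected upper half** -/
def XSup (A : Half) (b : ℤ) (e : Option (Port TG)) : Finset Sp := insert (sMk A b) (XSe A e)

/-- columns of the ends of the floor -/
def ColL (ρ : ℕ) (R : ℤ) (e : Option (Port TG)) : Prop :=
  ∀ j y, e = some (some (Sum.inr (j, y), 3)) → 8 * (ρ : ℤ) ≤ j ∧ j + 1 + 8 * ρ ≤ R

/-- columns of the ends of the ceiling -/
def ColU (ρ : ℕ) (R b : ℤ) (e : Option (Port TG)) : Prop :=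
  ∀ j y d, e = some (some (Sum.inr (j, y), d)) → d ≠ 3 →
    (8 * (ρ : ℤ) ≤ j ∧ j + 1 + 8 * ρ ≤ R) ∧ (j + 6 * ρ ≤ b ∨ b + 6 * ρ ≤ j)

theorem mem_XSlow {A : Half} {e : Option (Port TG)} {x : Sp} (hx : x ∈ XSlow A e) :
    ∃ j y, e = some (some (Sum.inr (j, y), 3)) ∧ (x = sE2 A j ∨ x = sE1 A j) := by
  rcases e with _ | _ | ⟨v | ⟨j, y⟩, d⟩
  · exact absurd hx (Finset.notMem_empty _)
  · exact absurd hx (Finset.notMem_empty _)
  · exact absurd hx (Finset.notMem_empty _)
  · simp only [XSlow] at hx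
    by_cases hd : d = 3
    · subst hd
      rw [if_pos rfl, Finset.mem_insert, Finset.mem_singleton] at hx
      exact ⟨j, y, rfl, hx⟩
    · rw [if_neg hd] at hx
      exact absurd hx (Finset.notMem_empty _)

theorem mem_XSe {A : Half} {e : Option (Port TG)} {x : Sp} (hx : x ∈ XSe A e) :
    ∃ j y d, e = some (some (Sum.inr (j, y), d)) ∧ d ≠ 3 ∧ (x = sE2 A j ∨ x = sE1 A j) := by
  rcases e with _ | _ | ⟨v | ⟨j, y⟩, d⟩
  · exact absurd hx (Finset.notMem_empty _)
  · exact absurd hx (Finset.notMem_empty _)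
  · exact absurd hx (Finset.notMem_empty _)
  · simp only [XSe] at hx
    by_cases hd : d = 3
    · rw [if_pos hd] at hx
      exact absurd hx (Finset.notMem_empty _)
    · rw [if_neg hd, Finset.mem_insert, Finset.mem_singleton] at hx
      exact ⟨j, y, d, rfl, hd, hx⟩

/-! ### admissible -/

section ok

variable {M : Mac} {L a b c : ℤ} {B : Band (D M.F L)} {ρ : ℕ}

/-- **the strip points of the lower half are admissible** -/
theorem ok_low {A : Half} (hR : A.R = B.R) (h : A.Sz ρ)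
    (hy : 5 * (ρ : ℤ) ≤ A.y0 - A.y1) {b' : ℤ} {m1 m2 : Port TG} (hm1 : Pla m1) (hm2 : Pla m2)
    {e : Option (Port TG)} (he : ColL ρ B.R e) (cl : ℤ) :
    ∀ x ∈ XSlow A e, SpOk h (Cg (fun q => Fm857.cp B b' m1 m2 e (some q)) cl h) x := by
  intro x hx
  obtain ⟨j, y, he', hx'⟩ := mem_XSlow hx
  clear hx
  subst he'
  obtain ⟨h1, h2⟩ := he j y rfl
  rw [← hR] at h2
  have hρ := h.pos
  have hcf : ∀ i, 0 ≤ i → i < A.R → (fun q : TG × ZMod 4 =>
      Fm857.cp B b' m1 m2 (some (some (Sum.inr (j, y), 3))) (some q)) (Sum.inr (i, A.y1), 3) =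
      cfl b' (some (some (Sum.inr (j, y), 3))) i := fun i _ _ => cp_flo B hm1 hm2 _ i _
  rcases hx' with rfl | rfl
  · refine ok_e2 h hy (by omega) (by omega) hcf ?_ ?_
    · intro i hi _
      simp only [cfl, if_true]
      split_ifs <;> omega
    · intro i hi hi'
      simp only [cfl, if_true]
      split_ifs <;> omega
  · refine ok_e1 h hy (by omega) (by omega) hcf ?_
    intro i i' hi hi1 hi2 hi3
    simp only [cfl, if_true]
    split_ifs <;> omega

/-- **the strip points of the reflected upper half are admissible** -/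
theorem ok_up {A : Half} (hR : A.R = B.R + 1) (h : A.Sz ρ)
    (hy : 5 * (ρ : ℤ) ≤ A.y0 - A.y1) {b' : ℤ} {m1 m2 : Port TG} (hm1 : Pla m1) (hm2 : Pla m2)
    {e : Option (Port TG)} (hn : e ≠ some none) (he : ColU ρ (B.R + 1) b' e)
    (hb1 : 8 * (ρ : ℤ) ≤ b') (hb2 : b' + 8 * ρ ≤ B.R + 1) (cl : ℤ) :
    ∀ x ∈ XSup A b' e, SpOk h (Cg (ccU B b' m1 m2 e) cl h) x := by
  intro x hx
  have hρ := h.pos
  have hcf : ∀ i, 0 ≤ i → i < A.R → ccU B b' m1 m2 e (Sum.inr (i, A.y1), 3) = ccl b' e i :=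
    fun i _ _ => ccU_flo hm1 hm2 hn i _
  rw [XSup, Finset.mem_insert] at hx
  rcases hx with rfl | hx
  · refine ok_mk h hy (by omega) (by omega) hcf ?_
    intro i i' hi hi1 hi2 hi3
    rcases e with _ | _ | ⟨v | ⟨j, y⟩, d⟩
    · simp only [ccl, cce]
      split_ifs <;> omega
    · exact absurd rfl hn
    · simp only [ccl, cce]
      split_ifs <;> omega
    · by_cases hd : d = 3
      · simp only [ccl, cce, if_pos hd]
        split_ifs <;> omega
      · obtain ⟨-, h3⟩ := he j y d rfl hd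
        simp only [ccl, cce, if_neg hd]
        split_ifs <;> omega
  · obtain ⟨j, y, d, rfl, hd, hx⟩ := mem_XSe hx
    obtain ⟨⟨h1, h2⟩, h3⟩ := he j y d rfl hd
    rcases hx with rfl | rfl
    · refine ok_e2 h hy (by omega) (by omega) hcf ?_ ?_
      · intro i hi hi'
        simp only [ccl, cce, if_neg hd]
        split_ifs <;> omega
      · intro i hi hi'
        simp only [ccl, cce, if_neg hd]
        split_ifs <;> omega
    · refine ok_e1 h hy (by omega) (by omega) hcf ?_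
      intro i i' hi hi1 hi2 hi3
      simp only [ccl, cce, if_neg hd]
      split_ifs <;> omega

end ok

/-! ### disjoint supports -/

section dis

variable {A : Half} {ρ : ℕ}

theorem chart_low {e : Option (Port TG)} {x : Sp} (hx : x ∈ XSlow A e) : x.i = 3 := by
  obtain ⟨j, y, -, rfl | rfl⟩ := mem_XSlow hx <;> rfl

theorem chart_up {b' : ℤ} {e : Option (Port TG)} {x : Sp} (hx : x ∈ XSup A b' e) : x.i = 3 := by
  rw [XSup, Finset.mem_insert] at hx
  rcases hx with rfl | hx
  · rfl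
  · obtain ⟨j, y, d, -, -, rfl | rfl⟩ := mem_XSe hx <;> rfl

theorem sup_strip {h : A.Sz ρ} {n : ℕ} {x : Sp} (hx : x.i = 3) {t : TG × Bool}
    (ht : t ∈ x.sup h n) : ∃ v, t.1 = Sum.inr v := by
  rw [mem_sup] at ht
  obtain ⟨v, hv, rfl⟩ := ht
  rw [hx]
  exact ⟨_, rfl⟩

/-- **strip points and planar points have disjoint supports** -/
theorem dis_planar {h : A.Sz ρ} {n m : ℕ} {x y : Sp} (hx : x.i = 3) (hy : y.i = 0 ∨ y.i = 1) :
    Disjoint (x.sup h n) (y.sup h m) := by
  rw [Finset.disjoint_left]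
  intro t ht ht'
  obtain ⟨v, hv⟩ := sup_strip hx ht
  obtain ⟨w, hw⟩ := sup_planar hy ht'
  rw [hv] at hw
  exact absurd hw (by simp)

theorem dis_e2_e1 {h : A.Sz ρ} (hy : 5 * (ρ : ℤ) ≤ A.y0 - A.y1) {i j : ℤ} {x : Sp}
    (hx : x = sMk A i ∨ x = sE2 A i) :
    Disjoint (x.sup h (3 * ρ)) ((sE1 A j).sup h (3 * ρ)) := by
  rw [Finset.disjoint_left]
  intro t ht ht'
  obtain ⟨c, y, hc, -⟩ := sup_flo hy hx ht
  obtain ⟨c', y', hc', -⟩ := sup_cei hy ht'
  rw [hc] at hc'
  exact absurd hc' (by simp)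

theorem dis_mk_e2 {h : A.Sz ρ} (hy : 5 * (ρ : ℤ) ≤ A.y0 - A.y1) {i j : ℤ}
    (hij : j + 6 * ρ ≤ i ∨ i + 6 * ρ ≤ j) :
    Disjoint ((sMk A i).sup h (3 * ρ)) ((sE2 A j).sup h (3 * ρ)) := by
  rw [Finset.disjoint_left]
  intro t ht ht'
  obtain ⟨c, y, hc, h1, h2⟩ := sup_flo hy (Or.inl rfl) ht
  obtain ⟨c', y', hc', h3, h4⟩ := sup_flo hy (Or.inr rfl) ht'
  rw [hc, Prod.mk.injEq, Sum.inr.injEq, Prod.mk.injEq] at hc'
  omega

/-- **disjoint supports, lower half** -/
theorem dis_low {h : A.Sz ρ} (hy : 5 * (ρ : ℤ) ≤ A.y0 - A.y1) {e : Option (Port TG)} :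
    ∀ x ∈ XSlow A e, ∀ y ∈ XSlow A e, x ≠ y → Disjoint (x.sup h (3 * ρ)) (y.sup h (3 * ρ)) := by
  intro x hx y hy' hne
  obtain ⟨j, z, he, h1⟩ := mem_XSlow hx
  obtain ⟨j', z', he', h2⟩ := mem_XSlow hy'
  rw [he] at he'
  simp only [Option.some.injEq, Prod.mk.injEq, Sum.inr.injEq, and_true] at he'
  obtain ⟨rfl, rfl⟩ := he'
  rcases h1 with rfl | rfl <;> rcases h2 with rfl | rfl
  · exact absurd rfl hne
  · exact dis_e2_e1 hy (Or.inr rfl)
  · exact (dis_e2_e1 hy (Or.inr rfl)).symm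
  · exact absurd rfl hne

/-- **disjoint supports, reflected upper half** -/
theorem dis_up {h : A.Sz ρ} (hy : 5 * (ρ : ℤ) ≤ A.y0 - A.y1) {R b' : ℤ} {e : Option (Port TG)}
    (he : ColU ρ R b' e) :
    ∀ x ∈ XSup A b' e, ∀ y ∈ XSup A b' e, x ≠ y →
      Disjoint (x.sup h (3 * ρ)) (y.sup h (3 * ρ)) := by
  have key : ∀ x ∈ XSe A e, Disjoint ((sMk A b').sup h (3 * ρ)) (x.sup h (3 * ρ)) := by
    intro x hx
    obtain ⟨j, y, d, rfl, hd, hx⟩ := mem_XSe hx
    obtain ⟨-, h3⟩ := he j y d rfl hd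
    rcases hx with rfl | rfl
    · exact dis_mk_e2 hy h3
    · exact dis_e2_e1 hy (Or.inl rfl)
  intro x hx y hy' hne
  rw [XSup, Finset.mem_insert] at hx hy'
  rcases hx with rfl | hx <;> rcases hy' with rfl | hy'
  · exact absurd rfl hne
  · exact key _ hy'
  · exact (key _ hx).symm
  · obtain ⟨j, z, d, he, hd, h1⟩ := mem_XSe hx
    obtain ⟨j', z', d', he', hd', h2⟩ := mem_XSe hy'
    rw [he] at he'
    simp only [Option.some.injEq, Prod.mk.injEq, Sum.inr.injEq] at he'
    obtain ⟨⟨rfl, rfl⟩, rfl⟩ := he'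
    rcases h1 with rfl | rfl <;> rcases h2 with rfl | rfl
    · exact absurd rfl hne
    · exact dis_e2_e1 hy (Or.inr rfl)
    · exact (dis_e2_e1 hy (Or.inr rfl)).symm
    · exact absurd rfl hne

/-- columns of the strip points (841's `dis_other`) -/
theorem col_low {R : ℤ} {e : Option (Port TG)} (he : ColL ρ R e) {x : Sp} (hx : x ∈ XSlow A e) :
    8 * (ρ : ℤ) ≤ x.p.1 ∧ x.p.1 ≤ R - 8 * ρ := by
  obtain ⟨j, y, h0, h1⟩ := mem_XSlow hx
  obtain ⟨h2, h3⟩ := he j y h0
  rcases h1 with rfl | rfl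
  · show 8 * (ρ : ℤ) ≤ j ∧ j ≤ R - 8 * ρ
    omega
  · show 8 * (ρ : ℤ) ≤ j + 1 ∧ j + 1 ≤ R - 8 * ρ
    omega

theorem col_up {R b' : ℤ} {e : Option (Port TG)} (he : ColU ρ R b' e) (hb1 : 8 * (ρ : ℤ) ≤ b')
    (hb2 : b' + 8 * ρ ≤ R) {x : Sp} (hx : x ∈ XSup A b' e) :
    8 * (ρ : ℤ) ≤ x.p.1 ∧ x.p.1 ≤ R - 8 * ρ := by
  rw [XSup, Finset.mem_insert] at hx
  rcases hx with rfl | hx
  · show 8 * (ρ : ℤ) ≤ b' ∧ b' ≤ R - 8 * ρ
    omega
  · obtain ⟨j, y, d, h0, hd, h1⟩ := mem_XSe hx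
    obtain ⟨⟨h2, h3⟩, -⟩ := he j y d h0 hd
    rcases h1 with rfl | rfl
    · show 8 * (ρ : ℤ) ≤ j ∧ j ≤ R - 8 * ρ
      omega
    · show 8 * (ρ : ℤ) ≤ j + 1 ∧ j + 1 ≤ R - 8 * ρ
      omega

end dis

/-! ### counts -/

section cnt

variable (A : Half)

/-- `1` if the member is an end of the floor -/
def onF (e : Option (Port TG)) : ℕ :=
  match e with
  | some (some (Sum.inr _, d)) => if d = 3 then 1 else 0
  | _ => 0

/-- `1` if the member is an end of the ceiling -/
def onC (e : Option (Port TG)) : ℕ :=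
  match e with
  | some (some (Sum.inr _, d)) => if d = 3 then 0 else 1
  | _ => 0

theorem cnt_empty (f : Fk) : cnt ∅ f = 0 := rfl

theorem cnt_pair (j : ℤ) (f : Fk) :
    cnt {sE2 A j, sE1 A j} f = if f = .e2 ∨ f = .e1 then 1 else 0 := by
  have hne : sE2 A j ≠ sE1 A j := by simp [sE2, sE1]
  unfold cnt
  cases f <;> simp [Finset.filter_insert, Finset.filter_singleton, sE2, sE1]

/-- **counts, lower half** -/
theorem cnt_low (e : Option (Port TG)) (f : Fk) :
    cnt (XSlow A e) f = if f = .e2 ∨ f = .e1 then onF e else 0 := by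
  rcases e with _ | _ | ⟨v | ⟨j, y⟩, d⟩
  · simp [XSlow, onF, cnt_empty]
  · simp [XSlow, onF, cnt_empty]
  · simp [XSlow, onF, cnt_empty]
  · simp only [XSlow, onF]
    by_cases hd : d = 3
    · rw [if_pos hd, if_pos hd, cnt_pair]
    · rw [if_neg hd, if_neg hd, cnt_empty]
      simp

theorem cnt_XSe (e : Option (Port TG)) (f : Fk) :
    cnt (XSe A e) f = if f = .e2 ∨ f = .e1 then onC e else 0 := by
  rcases e with _ | _ | ⟨v | ⟨j, y⟩, d⟩
  · simp [XSe, onC, cnt_empty]
  · simp [XSe, onC, cnt_empty]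
  · simp [XSe, onC, cnt_empty]
  · simp only [XSe, onC]
    by_cases hd : d = 3
    · rw [if_pos hd, if_pos hd, cnt_empty]
      simp
    · rw [if_neg hd, if_neg hd, cnt_pair]

/-- **counts, reflected upper half** -/
theorem cnt_up (b : ℤ) (e : Option (Port TG)) (f : Fk) :
    cnt (XSup A b e) f = (if f = .mk then 1 else 0) + if f = .e2 ∨ f = .e1 then onC e else 0 := by
  have hn : sMk A b ∉ XSe A e := by
    intro hx
    obtain ⟨j, y, d, -, -, hx | hx⟩ := mem_XSe hx
    · exact absurd (congrArg Sp.f hx) (by simp [sMk, sE2])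
    · exact absurd (congrArg Sp.f hx) (by simp [sMk, sE1])
  rw [← cnt_XSe A e f]
  unfold cnt XSup
  rw [Finset.filter_insert]
  by_cases hf : f = .mk
  · subst hf
    rw [if_pos rfl, if_pos (show (sMk A b).f = .mk from rfl),
      Finset.card_insert_of_notMem fun h => hn (Finset.mem_filter.1 h).1, add_comm]
  · rw [if_neg hf, if_neg (show ¬ (sMk A b).f = f from fun h => hf h.symm), zero_add]

/-- number of points -/
theorem card_low (e : Option (Port TG)) : (XSlow A e).card ≤ 2 := by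
  rcases e with _ | _ | ⟨v | ⟨j, y⟩, d⟩
  · simp [XSlow]
  · simp [XSlow]
  · simp [XSlow]
  · simp only [XSlow]
    split_ifs
    · exact Finset.card_le_two
    · simp

theorem card_up (b : ℤ) (e : Option (Port TG)) : (XSup A b e).card ≤ 3 := by
  refine (Finset.card_insert_le _ _).trans ?_
  have : (XSe A e).card ≤ 2 := by
    rcases e with _ | _ | ⟨v | ⟨j, y⟩, d⟩
    · simp [XSe]
    · simp [XSe]
    · simp [XSe]
    · simp only [XSe]
      split_ifs
      · simp
      · exact Finset.card_le_two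
  omega

end cnt

end Crest.Agent.R158.Xs932
end
private theorem rz_743564cc9a : type_of% @_root_.Crest.Agent.R158.Xs932.XSe.eq_1 := @_root_.Crest.Agent.R158.Xs932.XSe.eq_1 -- L37
private theorem rz_1e84239126 : type_of% @_root_.Crest.Agent.R158.Xs932.XSlow.eq_1 := @_root_.Crest.Agent.R158.Xs932.XSlow.eq_1 -- L31
private theorem rz_dd883b66ed : type_of% @_root_.Crest.Agent.R158.Xs932.onC.eq_1 := @_root_.Crest.Agent.R158.Xs932.onC.eq_1 -- L295
private theorem rz_8b3264ff76 : type_of% @_root_.Crest.Agent.R158.Xs932.onF.eq_1 := @_root_.Crest.Agent.R158.Xs932.onF.eq_1 -- L289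
end

-- ▼ part R158/Xs4_932
section

/-!
# R158, block Q1d, leaf XM (helper932), part 4: the list XM, total counts

* `col_JP` : columns of the strip members of 857's family
* `XMlow`, `XMup` : special points of the marks and of the member, lower half / reflected upper half
* `cnt_XP` : counts of 612's planar part
* `not_run`, `memH_low`, `memH_up`, `half_xor` : the tile of a free end lies in exactly one half
* `tot_mk`, `tot_e2`, `tot_e1` : total counts `3; 1; 1` resp. `3; 0; 0`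
-/

set_option autoImplicit false

noncomputable section

namespace Crest.Agent.R158.Xs932

open Crest.Agent.R158.Nm211
open Crest.Agent.R158.Ka470
open Crest.Agent.R158.Ka470.Half
open Crest.Agent.R158.Nz399
open Crest.Agent.R158.Lr158
open Crest.Agent.R158.Sw300 (Port)
open Crest.Agent.R158.Env664 (TG Mac D Band Run lowT upT mark)
open Crest.Agent.R158.Rf896 (rB rA rz rp rt mem_rA rz_rz)
open Crest.Agent.R158.Fm857 (freeG mem_freeG mem_Jd JP DelP mkG mkP mouth)
open Crest.Agent.R158.Pt266 (dir FFree)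
open Crest.Agent.R158.Tj656 (P4)
open Crest.Agent.R158.Xp612 (V pg q0 q1 mir gF gT eF eT ga nxt XE XP)

/-! ### columns -/

/-- **columns of the strip members** -/
theorem col_JP {P : P4} {L : ℤ} {δ : ℝ} {B : Band (D P.F L)} (hR : B.R = L) {ρ : ℕ}
    (h0 : 1 ≤ ρ) (h1 : 8 * (ρ : ℤ) ≤ DelP L δ) (h2 : 64 * (ρ : ℤ) ≤ L) {e : Option (Port TG)}
    (he : e ∈ Finset.insertNone (JP P L δ B)) :
    ColL ρ B.R e ∧ ColU ρ (B.R + 1) (L / 2) e ∧ e ≠ some none ∧ 8 * (ρ : ℤ) ≤ L / 2 ∧
      L / 2 + 8 * ρ ≤ B.R + 1 := by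
  have h0' : (1 : ℤ) ≤ ρ := by exact_mod_cast h0
  refine ⟨?_, ?_, ?_, by omega, by omega⟩
  · intro j y hj
    subst hj
    have h3 := (mem_Jd B).1 (Finset.some_mem_insertNone.1 he)
    have h4 := h3.2.2
    simp only [Fm857.far, if_true] at h4
    omega
  · intro j y d hj hd
    subst hj
    have h3 := (mem_Jd B).1 (Finset.some_mem_insertNone.1 he)
    have h4 := h3.2.2
    simp only [Fm857.far, if_neg hd] at h4
    omega
  · rintro rfl
    have h3 := (mem_Jd B).1 (Finset.some_mem_insertNone.1 he)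
    exact h3.2.2

/-- ends of the family are free ends -/
theorem free_JP {P : P4} {L : ℤ} {δ : ℝ} {B : Band (D P.F L)} {e : Option (Port TG)}
    (he : e ∈ Finset.insertNone (JP P L δ B)) : ∀ e' ∈ e, e' ∈ freeG B := by
  intro e' h
  obtain rfl : e = some e' := h
  exact ((mem_Jd B).1 (Finset.some_mem_insertNone.1 he)).1

/-! ### the lists -/

/-- **special points of the marks and of the member, lower half** -/
def XMlow (A : Half) (X1 X2 : V × ZMod 4) (e : Option (Port TG)) : Finset Sp :=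
  XP A false X1 X2 e ∪ XSlow A e

/-- reflected end -/
def rX (X : V × ZMod 4) : V × ZMod 4 := (rz X.1, -X.2)

/-- **special points of the marks and of the member, reflected upper half** -/
def XMup (A : Half) (b : ℤ) (X1 X2 : V × ZMod 4) (e : Option (Port TG)) : Finset Sp :=
  XP A true (rX X1) (rX X2) (e.map rp) ∪ XSup A b e

theorem XE_chart {A : Half} {e : Option (Port TG)} {x : Sp} (hx : x ∈ XE A e) :
    x.i = 0 ∨ x.i = 1 := by
  rcases e with _ | _ | ⟨t | ⟨j, y⟩, d⟩
  · exact absurd hx (Finset.notMem_empty _)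
  · exact absurd hx (Finset.notMem_empty _)
  · simp only [XE] at hx
    split_ifs at hx
    · rw [Finset.mem_insert, Finset.mem_singleton] at hx
      rcases hx with rfl | rfl
      · exact Or.inl rfl
      · exact Or.inr rfl
    · exact absurd hx (Finset.notMem_empty _)
  · exact absurd hx (Finset.notMem_empty _)

theorem XP_chart {A : Half} {u : Bool} {X1 X2 : V × ZMod 4} {e : Option (Port TG)} {x : Sp}
    (hx : x ∈ XP A u X1 X2 e) : x.i = 0 ∨ x.i = 1 := by
  unfold XP at hx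
  rw [Finset.mem_union, Finset.mem_union] at hx
  rcases hx with hx | hx | hx
  · split_ifs at hx
    · rw [Finset.mem_singleton.1 hx]; exact Or.inr rfl
    · exact absurd hx (Finset.notMem_empty _)
  · split_ifs at hx
    · rw [Finset.mem_singleton.1 hx]; exact Or.inl rfl
    · rw [Finset.mem_singleton.1 hx]; exact Or.inr rfl
    · exact absurd hx (Finset.notMem_empty _)
  · exact XE_chart hx

/-! ### counts -/

theorem cnt_union {X Y : Finset Sp} (h : Disjoint X Y) (f : Fk) :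
    cnt (X ∪ Y) f = cnt X f + cnt Y f := by
  unfold cnt
  rw [Finset.filter_union, Finset.card_union_of_disjoint]
  exact Finset.disjoint_filter_filter h

theorem cnt_sing (x : Sp) (f : Fk) : cnt {x} f = if x.f = f then 1 else 0 := by
  unfold cnt
  rw [Finset.filter_singleton]
  split_ifs <;> simp

theorem dis_PS_low (A : Half) (X1 X2 : V × ZMod 4) (e : Option (Port TG)) :
    Disjoint (XP A false X1 X2 e) (XSlow A e) := by
  rw [Finset.disjoint_left]
  intro x h1 h2
  have h3 := XP_chart h1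
  rw [chart_low h2] at h3
  rcases h3 with h3 | h3 <;> exact absurd h3 (by decide)

theorem dis_PS_up (A : Half) (b : ℤ) (X1 X2 : V × ZMod 4) (e : Option (Port TG)) :
    Disjoint (XP A true (rX X1) (rX X2) (e.map rp)) (XSup A b e) := by
  rw [Finset.disjoint_left]
  intro x h1 h2
  have h3 := XP_chart h1
  rw [chart_up h2] at h3
  rcases h3 with h3 | h3 <;> exact absurd h3 (by decide)

theorem pg_inj {d d' : ZMod 4} (h : pg d = pg d') : d = d' := by
  revert d d'; decide

theorem q0_inj {X Y : V × ZMod 4} (h2 : X.2 = Y.2) (h : q0 X = q0 Y) : X = Y := by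
  obtain ⟨x, d⟩ := X
  obtain ⟨y, d'⟩ := Y
  obtain rfl : d = d' := h2
  have : x - Nz399.rt^[pg d] (0, 0) = y - Nz399.rt^[pg d] (0, 0) := h
  rw [sub_left_inj.1 this]

theorem gT_inj (A : Half) {X Y : V × ZMod 4} (h : gT A X = gT A Y) : X = Y := by
  have h1 : pg (-X.2) = pg (-Y.2) := congrArg Sp.g h
  have h2 : q0 (mir A X) = q0 (mir A Y) := congrArg Sp.p h
  have h3 : mir A X = mir A Y := q0_inj (pg_inj h1) h2
  have h4 : A.rf X.1 = A.rf Y.1 := congrArg Prod.fst h3
  have h5 : -X.2 = -Y.2 := congrArg Prod.snd h3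
  refine Prod.ext ?_ (neg_inj.1 h5)
  rw [← A.rf_rf X.1, h4, A.rf_rf]

theorem nxt_inj {X Y : V × ZMod 4} (h : nxt X = nxt Y) : X = Y := by
  obtain ⟨x, d⟩ := X
  obtain ⟨y, d'⟩ := Y
  obtain rfl : d = d' := congrArg Prod.snd h
  have : x + dir (d + 1) = y + dir (d + 1) := congrArg Prod.fst h
  rw [add_right_cancel this]

theorem ga_inj {u : Bool} {X Y : V × ZMod 4} (h : ga u X = ga u Y) : X = Y := by
  cases u
  · exact h
  · exact nxt_inj h

/-- `1` if the member is a planar end of the half -/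
def onE (A : Half) (e : Option (Port TG)) : ℕ :=
  match e with
  | some (some (Sum.inl t, _)) => if t ∈ A.H then 1 else 0
  | _ => 0

theorem cnt_XE (A : Half) (e : Option (Port TG)) (f : Fk) :
    cnt (XE A e) f = if f = .e2 ∨ f = .e1 then onE A e else 0 := by
  rcases e with _ | _ | ⟨t | ⟨j, y⟩, d⟩
  · simp [XE, onE, cnt_empty]
  · simp [XE, onE, cnt_empty]
  · simp only [XE, onE]
    by_cases ht : t ∈ A.H
    · rw [if_pos ht, if_pos ht]
      unfold cnt
      cases f <;> simp [Finset.filter_insert, Finset.filter_singleton, eF, eT]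
    · rw [if_neg ht, if_neg ht, cnt_empty]
      simp
  · simp [XE, onE, cnt_empty]

open Classical in
/-- **counts of the planar part** -/
theorem cnt_XP (A : Half) (u : Bool) {X1 X2 : V × ZMod 4} (hne : X1 ≠ X2) (e : Option (Port TG))
    (f : Fk) : cnt (XP A u X1 X2 e) f =
      (if f = .mk then (if X1.1 ∈ A.H then 1 else 0) + (if X2.1 ∈ A.H then 1 else 0) else 0) +
      (if f = .e2 ∨ f = .e1 then onE A e else 0) := by
  have key : ∀ x ∈ XE A e, x.f ≠ .mk := by
    intro x hx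
    rcases e with _ | _ | ⟨t | ⟨j, y⟩, d⟩
    · exact absurd hx (Finset.notMem_empty _)
    · exact absurd hx (Finset.notMem_empty _)
    · simp only [XE] at hx
      split_ifs at hx
      · rw [Finset.mem_insert, Finset.mem_singleton] at hx
        rcases hx with rfl | rfl <;> simp [eF, eT]
      · exact absurd hx (Finset.notMem_empty _)
    · exact absurd hx (Finset.notMem_empty _)
  have h2 : Disjoint (if X2.1 ∈ A.H then (if e = none then {gF (ga u X2)} else {gT A (ga u X2)})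
      else (∅ : Finset Sp)) (XE A e) := by
    rw [Finset.disjoint_left]
    intro x h1 h2
    apply key x h2
    split_ifs at h1
    · rw [Finset.mem_singleton.1 h1]; rfl
    · rw [Finset.mem_singleton.1 h1]; rfl
    · exact absurd h1 (Finset.notMem_empty _)
  have h3 : Disjoint (if X1.1 ∈ A.H then {gT A (ga u X1)} else (∅ : Finset Sp))
      ((if X2.1 ∈ A.H then (if e = none then {gF (ga u X2)} else {gT A (ga u X2)})
        else (∅ : Finset Sp)) ∪ XE A e) := by
    rw [Finset.disjoint_left]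
    intro x h1 h2
    split_ifs at h1
    · rw [Finset.mem_singleton.1 h1] at h2
      rw [Finset.mem_union] at h2
      rcases h2 with h2 | h2
      · split_ifs at h2
        · have := congrArg Sp.i (Finset.mem_singleton.1 h2)
          exact absurd this (by simp [gT, gF])
        · exact hne (ga_inj (gT_inj A (Finset.mem_singleton.1 h2)))
        · exact absurd h2 (Finset.notMem_empty _)
      · exact key _ h2 rfl
    · exact absurd h1 (Finset.notMem_empty _)
  have c1 : ∀ x : Sp, x.f = .mk → cnt {x} f = if f = .mk then 1 else 0 := by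
    intro x hx
    rw [cnt_sing, hx]
    by_cases hf : f = .mk
    · rw [if_pos hf.symm, if_pos hf]
    · rw [if_neg (fun h => hf h.symm), if_neg hf]
  unfold XP
  rw [cnt_union h3, cnt_union h2, cnt_XE]
  by_cases a1 : X1.1 ∈ A.H <;> by_cases a2 : X2.1 ∈ A.H <;> by_cases a3 : e = none <;>
    simp only [a1, a2, a3, if_true, if_false] <;>
    (try rw [c1 _ (show (gT A (ga u X1)).f = .mk from rfl)]) <;>
    (try rw [c1 _ (show (gF (ga u X2)).f = .mk from rfl)]) <;>
    (try rw [c1 _ (show (gT A (ga u X2)).f = .mk from rfl)]) <;>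
    (try rw [cnt_empty]) <;> by_cases hf : f = .mk <;> simp [hf]

/-- number of points -/
theorem card_XE (A : Half) (e : Option (Port TG)) : (XE A e).card ≤ 2 := by
  rcases e with _ | _ | ⟨t | ⟨j, y⟩, d⟩
  · simp [XE]
  · simp [XE]
  · simp only [XE]
    split_ifs
    · exact Finset.card_le_two
    · simp
  · simp [XE]

theorem card_XP (A : Half) (u : Bool) (X1 X2 : V × ZMod 4) (e : Option (Port TG)) :
    (XP A u X1 X2 e).card ≤ 4 := by
  unfold XP
  refine (Finset.card_union_le _ _).trans ?_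
  have h1 := Finset.card_union_le (if X2.1 ∈ A.H then (if e = none then {gF (ga u X2)}
    else {gT A (ga u X2)}) else (∅ : Finset Sp)) (XE A e)
  have h2 := card_XE A e
  have h3 : (if X1.1 ∈ A.H then {gT A (ga u X1)} else (∅ : Finset Sp)).card ≤ 1 := by
    split_ifs <;> simp
  have h4 : (if X2.1 ∈ A.H then (if e = none then {gF (ga u X2)}
    else {gT A (ga u X2)}) else (∅ : Finset Sp)).card ≤ 1 := by
    split_ifs <;> simp
  omega

theorem card_XMlow (A : Half) (X1 X2 : V × ZMod 4) (e : Option (Port TG)) :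
    (XMlow A X1 X2 e).card ≤ 7 := by
  unfold XMlow
  refine (Finset.card_union_le _ _).trans ?_
  have h1 := card_XP A false X1 X2 e
  have h2 := card_low A e
  omega

theorem card_XMup (A : Half) (b : ℤ) (X1 X2 : V × ZMod 4) (e : Option (Port TG)) :
    (XMup A b X1 X2 e).card ≤ 7 := by
  unfold XMup
  refine (Finset.card_union_le _ _).trans ?_
  have h1 := card_XP A true (rX X1) (rX X2) (e.map rp)
  have h2 := card_up A b e
  omega

/-! ### the tile of a free end lies in exactly one half -/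

section half

variable {M : Mac} {L a b c : ℤ} {B : Band (D M.F L)}

/-- tiles of the planar free ends are not in the rows of the band -/
theorem not_run (m : MB M L a b c B) {t : ℤ × ℤ} {d : ZMod 4}
    (hq : (some (Sum.inl t, d) : Port TG) ∈ freeG B) :
    t ∈ D M.F L ∧ ¬ (B.xl ≤ t.1 ∧ t.1 ≤ B.xr ∧ B.y1 ≤ t.2 ∧ t.2 < B.y2) := by
  rcases mem_freeG'.1 hq with ⟨t', d', h1, h2, h3⟩ | ⟨i, -, -, h1⟩ | ⟨i, -, -, h1⟩
  · simp only [Option.some.injEq, Prod.mk.injEq, Sum.inl.injEq] at h1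
    obtain ⟨rfl, rfl⟩ := h1
    refine ⟨h2.1, ?_⟩
    rintro ⟨h4, h5, h6, h7⟩
    have g1 := m.h1
    have g2 := m.h2
    obtain ⟨x, y⟩ := t
    simp only at h4 h5 h6 h7
    have hr : ∀ y', B.y1 - 1 ≤ y' → y' ≤ B.y2 → ∀ x', B.xl ≤ x' → x' ≤ B.xr →
        (x', y') ∈ D M.F L := fun y' k1 k2 x' k3 k4 =>
      (mb_run m (y := y') (by omega) (by omega)).mem x' k3 k4
    have h8 := h2.2
    rcases Ka470.Half.z4 d with rfl | rfl | rfl | rfl
    · rw [dir0] at h8
      by_cases hx : x = B.xl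
      · exact h3 ⟨⟨h6, h7⟩, Or.inl ⟨rfl, hx⟩⟩
      · exact h8 (hr (y + 0) (by omega) (by omega) (x + -1) (by omega) (by omega))
    · rw [dir1] at h8
      exact h8 (hr (y + 1) (by omega) (by omega) (x + 0) (by omega) (by omega))
    · rw [dir2] at h8
      by_cases hx : x = B.xr
      · exact h3 ⟨⟨h6, h7⟩, Or.inr ⟨rfl, hx⟩⟩
      · exact h8 (hr (y + 0) (by omega) (by omega) (x + 1) (by omega) (by omega))
    · rw [dir3] at h8
      exact h8 (hr (y + -1) (by omega) (by omega) (x + 0) (by omega) (by omega))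
  · simp at h1
  · simp at h1

/-- **lower half** -/
theorem memH_low (m : MB M L a b c B) {y0 : ℤ} (h1 : B.y1 < y0) (h2 : y0 ≤ B.y2) {t : ℤ × ℤ}
    (ht : ¬ (B.xl ≤ t.1 ∧ t.1 ≤ B.xr ∧ B.y1 ≤ t.2 ∧ t.2 < B.y2)) :
    t ∈ (lowHalf (lb_low m h1 h2).d).H ↔ t ∈ lowT (D M.F L) B.xl B.xr B.y1 := by
  obtain ⟨x, y⟩ := t
  have h3 := tH_inl (lb_low m h1 h2) (x := x) (y := y)
  refine h3.trans ⟨fun h => ?_, Or.inl⟩
  rcases h with h | h
  · exact h
  · exact absurd ⟨h.1.1, h.1.2, h.2.1, by simp only; omega⟩ ht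

/-- **reflected upper half** -/
theorem memH_up (m : MB M L a b c B) {y0 : ℤ} (h1 : -B.y2 < y0) (h2 : y0 ≤ -B.y1) {t : ℤ × ℤ}
    (ht : ¬ (B.xl ≤ t.1 ∧ t.1 ≤ B.xr ∧ B.y1 ≤ t.2 ∧ t.2 < B.y2)) :
    rz t ∈ (lowHalf (lb_up m h1 h2).d).H ↔ t ∈ upT (D M.F L) B.xl B.xr B.y2 := by
  obtain ⟨x, y⟩ := t
  have h3 := tH_inl (lb_up m h1 h2) (x := x) (y := -y - 1)
  refine h3.trans ⟨fun h => ?_, fun h => ?_⟩
  · rcases h with h | h
    · rw [mem_rA] at h
      have e : rz (x, -y - 1) = (x, y) := by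
        unfold rz
        simp
      rwa [e] at h
    · simp only [Rf896.rB_xl, Rf896.rB_xr, Rf896.rB_y1] at h
      simp only at ht
      omega
  · left
    rw [mem_rA]
    have e : rz (x, -y - 1) = (x, y) := by
      unfold rz
      simp
    rwa [e]

/-- **exactly one half** -/
theorem half_xor (m : MB M L a b c B) {y0 y0' : ℤ} (h1 : B.y1 < y0) (h2 : y0 ≤ B.y2)
    (h1' : -B.y2 < y0') (h2' : y0' ≤ -B.y1) {t : ℤ × ℤ} {d : ZMod 4}
    (hq : (some (Sum.inl t, d) : Port TG) ∈ freeG B) :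
    (t ∈ (lowHalf (lb_low m h1 h2).d).H ∧ rz t ∉ (lowHalf (lb_up m h1' h2').d).H) ∨
      (t ∉ (lowHalf (lb_low m h1 h2).d).H ∧ rz t ∈ (lowHalf (lb_up m h1' h2').d).H) := by
  obtain ⟨k1, k2⟩ := not_run m hq
  rw [memH_low m h1 h2 k2, memH_up m h1' h2' k2]
  have hs := m.split
  have hp := (hs.part t.1 t.2).1 k1
  have hd := Finset.disjoint_left.1 hs.disj
  rcases hp with hp | hp | hp
  · exact Or.inl ⟨hp, hd hp⟩
  · exact Or.inr ⟨fun h => hd h hp, hp⟩
  · exact absurd hp k2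

/-- `Sp` counts of the two halves: `mk` -/
theorem tot_mk (m : MB M L a b c B) {y0 y0' : ℤ} (h1 : B.y1 < y0) (h2 : y0 ≤ B.y2)
    (h1' : -B.y2 < y0') (h2' : y0' ≤ -B.y1) (b' : ℤ) {X1 X2 : V × ZMod 4} (hne : X1 ≠ X2)
    (hX1 : (some (Sum.inl X1.1, X1.2) : Port TG) ∈ freeG B)
    (hX2 : (some (Sum.inl X2.1, X2.2) : Port TG) ∈ freeG B) (e : Option (Port TG)) :
    cnt (XMlow (lowHalf (lb_low m h1 h2).d) X1 X2 e) .mk +
      cnt (XMup (lowHalf (lb_up m h1' h2').d) b' X1 X2 e) .mk = 3 := by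
  have hne' : rX X1 ≠ rX X2 := by
    intro h
    apply hne
    have k1 : rz X1.1 = rz X2.1 := congrArg Prod.fst h
    have k2 : -X1.2 = -X2.2 := congrArg Prod.snd h
    exact Prod.ext (Rf896.rz_inj k1) (neg_inj.1 k2)
  unfold XMlow XMup
  rw [cnt_union (dis_PS_low _ _ _ _), cnt_union (dis_PS_up _ _ _ _ _), cnt_XP _ _ hne,
    cnt_XP _ _ hne', cnt_low, cnt_up]
  have e1 : (rX X1).1 = rz X1.1 := rfl
  have e2 : (rX X2).1 = rz X2.1 := rfl
  rw [e1, e2]
  simp only [if_true, reduceCtorEq, or_self, if_false]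
  rcases half_xor m h1 h2 h1' h2' hX1 with ⟨k1, k2⟩ | ⟨k1, k2⟩ <;>
    rcases half_xor m h1 h2 h1' h2' hX2 with ⟨k3, k4⟩ | ⟨k3, k4⟩ <;>
    simp only [k1, k2, k3, k4, if_true, if_false]

/-- number of `e2` factors of a member -/
def kE (e : Option (Port TG)) : ℕ := if e = none then 0 else 1

theorem rp_inl (t : ℤ × ℤ) (d : ZMod 4) :
    rp (some (Sum.inl t, d)) = some (Sum.inl (rz t), -d) := rfl

theorem rp_inr (t : ℤ × ℤ) (d : ZMod 4) :
    rp (some (Sum.inr t, d)) = some (Sum.inr (rz t), -d) := rfl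

theorem on_sum (m : MB M L a b c B) {y0 y0' : ℤ} (h1 : B.y1 < y0) (h2 : y0 ≤ B.y2)
    (h1' : -B.y2 < y0') (h2' : y0' ≤ -B.y1) {e : Option (Port TG)}
    (he : ∀ e' ∈ e, e' ∈ freeG B) :
    onE (lowHalf (lb_low m h1 h2).d) e + onF e +
      (onE (lowHalf (lb_up m h1' h2').d) (e.map rp) + onC e) = kE e := by
  rcases e with _ | q
  · rfl
  · have hq := he q rfl
    rcases mem_freeG'.1 hq with ⟨t, d, rfl, h3, h4⟩ | ⟨i, -, -, rfl⟩ | ⟨i, -, -, rfl⟩
    · rw [Option.map_some, rp_inl]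
      simp only [onE, onF, onC, kE, reduceCtorEq, if_false, add_zero]
      rcases half_xor m h1 h2 h1' h2' hq with ⟨k1, k2⟩ | ⟨k1, k2⟩ <;>
        simp only [k1, k2, if_true, if_false]
    · rw [Option.map_some, rp_inr]
      simp [onE, onF, onC, kE]
    · rw [Option.map_some, rp_inr]
      have h13 : (1 : ZMod 4) ≠ 3 := by decide
      simp [onE, onF, onC, kE, h13]

/-- **total count of the factors `e2`** -/
theorem tot_e2 (m : MB M L a b c B) {y0 y0' : ℤ} (h1 : B.y1 < y0) (h2 : y0 ≤ B.y2)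
    (h1' : -B.y2 < y0') (h2' : y0' ≤ -B.y1) (b' : ℤ) {X1 X2 : V × ZMod 4} (hne : X1 ≠ X2)
    {e : Option (Port TG)} (he : ∀ e' ∈ e, e' ∈ freeG B) :
    cnt (XMlow (lowHalf (lb_low m h1 h2).d) X1 X2 e) .e2 +
      cnt (XMup (lowHalf (lb_up m h1' h2').d) b' X1 X2 e) .e2 = kE e := by
  have hne' : rX X1 ≠ rX X2 := by
    intro h
    apply hne
    have k1 : rz X1.1 = rz X2.1 := congrArg Prod.fst h
    have k2 : -X1.2 = -X2.2 := congrArg Prod.snd h
    exact Prod.ext (Rf896.rz_inj k1) (neg_inj.1 k2)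
  have key := on_sum m h1 h2 h1' h2' he
  unfold XMlow XMup
  rw [cnt_union (dis_PS_low _ _ _ _), cnt_union (dis_PS_up _ _ _ _ _), cnt_XP _ _ hne,
    cnt_XP _ _ hne', cnt_low, cnt_up]
  simp only [reduceCtorEq, if_false, true_or, if_true, zero_add]
  exact key

/-- **total count of the factors `e1`** -/
theorem tot_e1 (m : MB M L a b c B) {y0 y0' : ℤ} (h1 : B.y1 < y0) (h2 : y0 ≤ B.y2)
    (h1' : -B.y2 < y0') (h2' : y0' ≤ -B.y1) (b' : ℤ) {X1 X2 : V × ZMod 4} (hne : X1 ≠ X2)
    {e : Option (Port TG)} (he : ∀ e' ∈ e, e' ∈ freeG B) :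
    cnt (XMlow (lowHalf (lb_low m h1 h2).d) X1 X2 e) .e1 +
      cnt (XMup (lowHalf (lb_up m h1' h2').d) b' X1 X2 e) .e1 = kE e := by
  have hne' : rX X1 ≠ rX X2 := by
    intro h
    apply hne
    have k1 : rz X1.1 = rz X2.1 := congrArg Prod.fst h
    have k2 : -X1.2 = -X2.2 := congrArg Prod.snd h
    exact Prod.ext (Rf896.rz_inj k1) (neg_inj.1 k2)
  have key := on_sum m h1 h2 h1' h2' he
  unfold XMlow XMup
  rw [cnt_union (dis_PS_low _ _ _ _), cnt_union (dis_PS_up _ _ _ _ _), cnt_XP _ _ hne,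
    cnt_XP _ _ hne', cnt_low, cnt_up]
  simp only [reduceCtorEq, if_false, or_true, if_true, zero_add]
  exact key

end half

/-- no corner factors -/
theorem cnt_XM_cr {A : Half} {X1 X2 : V × ZMod 4} (hne : X1 ≠ X2) (b : ℤ) (e : Option (Port TG))
    {f : Fk} (hf : f = .cv ∨ f = .rf) :
    cnt (XMlow A X1 X2 e) f = 0 ∧ cnt (XMup A b X1 X2 e) f = 0 := by
  have hne' : rX X1 ≠ rX X2 := by
    intro h
    apply hne
    have k1 : rz X1.1 = rz X2.1 := congrArg Prod.fst h
    have k2 : -X1.2 = -X2.2 := congrArg Prod.snd h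
    exact Prod.ext (Rf896.rz_inj k1) (neg_inj.1 k2)
  unfold XMlow XMup
  rw [cnt_union (dis_PS_low _ _ _ _), cnt_union (dis_PS_up _ _ _ _ _), cnt_XP _ _ hne,
    cnt_XP _ _ hne', cnt_low, cnt_up]
  rcases hf with rfl | rfl <;> simp

end Crest.Agent.R158.Xs932
end
private theorem rz_6defbcbfc0 : type_of% @_root_.Crest.Agent.R158.Xs932.onE.eq_1 := @_root_.Crest.Agent.R158.Xs932.onE.eq_1 -- L169
end

-- ▼ part R158/Xa1_932

/-!
# R158, block Q1d, XAll (helper932), part 1: marks of `P4`, distances, location of the planar points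

* `mkG_eq`, `mt_freeG`, `mks_JP` : the marks are free ends of `G^(z)`
* `FarT L xl xr y1 D t` : the tile `t` is far from the macroscopic vertices and from the mouth corners
* `farT_mark`, `farT_e`, `farT_rz`
* `oth_XP` : the planar points of XM are far from the corners of the second copy (841's `Oth`)
-/

set_option autoImplicit false

noncomputable section

namespace Crest.Agent.R158.Xa932

open Crest.Agent.R158.Nm211
open Crest.Agent.R158.Ka470
open Crest.Agent.R158.Ka470.Half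
open Crest.Agent.R158.Nz399
open Crest.Agent.R158.Lr158
open Crest.Agent.R158.Xs932
open Crest.Agent.R158.Sw300 (Port)
open Crest.Agent.R158.Env664 (TG Mac D Band Run lowT upT mark mem_D div_iff nbc)
open Crest.Agent.R158.Rf896 (rB rA rz rp)
open Crest.Agent.R158.Fm857 (freeG mem_Jd JP DelP mkG mkP mouth SpP vertP mouthC mem_SpP mem_vertP
  mem_mouthC)
open Crest.Agent.R158.Pt266 (dir FFree)
open Crest.Agent.R158.Tj656 (P4)
open Crest.Agent.R158.Hb656 (mt mk2)
open Crest.Agent.R158.Xp612 (V pg q0 q1 mir gF gT eF eT ga nxt XE XP q_near)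
open Crest.Agent.R158.Xd841 (FarV Oth)

/-- band in a macroscopic row, far from its lines and from the middle height -/
structure NV {A : Finset (ℤ × ℤ)} (B : Band A) (L c D : ℤ) : Prop where
  D1 : 1 ≤ D
  hL : 2 * D + 8 ≤ L
  lo : c * L + D ≤ B.y1
  hi : B.y2 + D ≤ c * L + L
  hy : B.y1 < B.y2
  half : B.y2 + D ≤ c * L + L / 2 ∨ c * L + L / 2 + D ≤ B.y1

/-! ### the marks -/

theorem mkG_eq (P : P4) (L : ℤ) (j : Fin 3) :
    mkG P L j = some (Sum.inl (mt P L j).1, (mt P L j).2) := by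
  unfold mkG mkP
  rw [Hb656.mark_eq]
  rfl

theorem nbc_dir (t : ℤ × ℤ) (d : ZMod 4) : nbc t d = t + dir d := by
  obtain ⟨x, y⟩ := t
  rcases Lr158.z4 d with rfl | rfl | rfl | rfl
  · rw [dir0]; simp [nbc, sub_eq_add_neg]
  · rw [dir1, nbc, if_neg (by decide), if_pos rfl]; simp
  · rw [dir2, nbc, if_neg (by decide), if_neg (by decide), if_pos rfl]; simp
  · rw [dir3, nbc, if_neg (by decide), if_neg (by decide), if_neg (by decide)]
    simp [sub_eq_add_neg]

/-- rows of the marks -/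
theorem mt_row {P : P4} {L : ℤ} {A : Finset (ℤ × ℤ)} {B : Band A} {c D : ℤ} (hN : NV B L c D)
    (hev : Even L) (j : Fin 3) :
    (mt P L j).1.2 + D ≤ B.y1 ∨ B.y2 + D - 1 ≤ (mt P L j).1.2 := by
  obtain ⟨h1, h2, h3, h4, h5, h6⟩ := hN
  obtain ⟨m, rfl⟩ := hev
  have e2 : (m + m) / 2 = m := by omega
  rw [e2] at h6
  unfold Hb656.mt mk2
  rw [e2]
  generalize P.cc j = q
  obtain ⟨⟨u, v⟩, d⟩ := q
  have key : (v * (m + m) + (m + m) ≤ c * (m + m)) ∨ v = c ∨ c * (m + m) + (m + m) ≤ v * (m + m) := by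
    rcases lt_trichotomy v c with h | h | h
    · left; nlinarith
    · right; left; exact h
    · right; right; nlinarith
  simp only
  rcases key with h | rfl | h
  · left; split_ifs <;> simp only <;> omega
  · split_ifs <;> simp only <;> omega
  · right; split_ifs <;> simp only <;> omega

/-- **the marks are free ends of `G^(z)`** -/
theorem mt_freeG {P : P4} {L : ℤ} {B : Band (D P.F L)} {c D' : ℤ} (hN : NV B L c D') (hev : Even L)
    (j : Fin 3) : (some (Sum.inl (mt P L j).1, (mt P L j).2) : Port TG) ∈ freeG B := by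
  have hL := hN.hL
  have hD := hN.D1
  obtain ⟨h1, h2⟩ := Hw949.mt_out (P := P) (L := L) (by omega) hev j
  refine mem_freeG'.2 (Or.inl ⟨_, _, rfl, ⟨h1, ?_⟩, ?_⟩)
  · have : (mt P L j).1 + dir (mt P L j).2 = Hw949.nt (mt P L j) := (nbc_dir _ _).symm
    rw [this]
    exact h2
  · rintro ⟨⟨h3, h4⟩, -⟩
    have key : ∀ t : ℤ × ℤ, (t.2 + D' ≤ B.y1 ∨ B.y2 + D' - 1 ≤ t.2) → B.y1 ≤ t.2 →
        t.2 + 1 ≤ B.y2 → False := by
      intro t
      omega
    exact key _ (mt_row (P := P) hN hev j) h3 h4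

theorem mkG_free {P : P4} {L : ℤ} {B : Band (D P.F L)} {c D' : ℤ} (hN : NV B L c D')
    (hev : Even L) (j : Fin 3) : mkG P L j ∈ freeG B := by
  rw [mkG_eq]
  exact mt_freeG hN hev j

/-- **158's `Mks` for the literal family** -/
theorem mks_JP {P : P4} {L : ℤ} {δ : ℝ} {B : Band (D P.F L)} {c D' : ℤ} (hN : NV B L c D')
    (hev : Even L) {e : Option (Port TG)} (he : e ∈ Finset.insertNone (JP P L δ B)) :
    Mks B (mkG P L 0) (mkG P L 1) e :=
  ⟨mkG_free hN hev 0, mkG_free hN hev 1, free_JP he⟩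

theorem pla_mkG (P : P4) (L : ℤ) (j : Fin 3) : Pla (mkG P L j) := ⟨_, _, mkG_eq P L j⟩

/-! ### distances -/

/-- the tile `t` is far from the macroscopic vertices and from the mouth corners -/
def FarT (L xl xr y1 D : ℤ) (t : ℤ × ℤ) : Prop :=
  (∀ i j : ℤ, D ≤ |t.1 - L * i| ∨ D ≤ |t.2 - L * j|) ∧
    (D ≤ |t.1 - xl| ∨ D ≤ |t.2 - y1|) ∧ (D ≤ |t.1 - (xr + 1)| ∨ D ≤ |t.2 - y1|)

theorem le_abs_iff {a b : ℤ} : a ≤ |b| ↔ a ≤ b ∨ a ≤ -b := le_abs

/-- small changes -/
theorem FarT.near {L xl xr y1 D : ℤ} {t t' : ℤ × ℤ} (h : FarT L xl xr y1 (D + 1) t)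
    (h1 : |t'.1 - t.1| ≤ 1) (h2 : |t'.2 - t.2| ≤ 1) : FarT L xl xr y1 D t' := by
  rw [abs_le] at h1 h2
  obtain ⟨a1, a2, a3⟩ := h
  refine ⟨fun i j => ?_, ?_, ?_⟩
  · have := a1 i j
    generalize L * i = u at *
    generalize L * j = v at *
    simp only [le_abs_iff] at this ⊢
    omega
  · simp only [le_abs_iff] at a2 ⊢
    omega
  · simp only [le_abs_iff] at a3 ⊢
    omega

/-- reflection -/
theorem farT_rz {L xl xr y2 D : ℤ} {t : ℤ × ℤ} (h : FarT L xl xr y2 (D + 1) t) :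
    FarT L xl xr (-y2) D (rz t) := by
  obtain ⟨a1, a2, a3⟩ := h
  have e1 : (rz t).1 = t.1 := rfl
  have e2 : (rz t).2 = -t.2 - 1 := rfl
  unfold FarT
  rw [e1, e2]
  refine ⟨fun i j => ?_, ?_, ?_⟩
  · have := a1 i (-j)
    rw [mul_neg] at this
    generalize L * i = u at *
    generalize L * j = v at *
    simp only [le_abs_iff] at this ⊢
    omega
  · simp only [le_abs_iff] at a2 ⊢
    omega
  · simp only [le_abs_iff] at a3 ⊢
    omega

/-- **the marks are far from the vertices and from the mouths** -/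
theorem farT_mark {P : P4} {L : ℤ} {A : Finset (ℤ × ℤ)} {B : Band A} {c D : ℤ} (hN : NV B L c D)
    (hev : Even L) (j : Fin 3) {xl xr y : ℤ} (hy : y = B.y1 ∨ y = B.y2) :
    FarT L xl xr y (D - 1) (mt P L j).1 := by
  have h0 := mt_row (P := P) hN hev j
  obtain ⟨h1, h2, h3, h4, h5, h6⟩ := hN
  refine ⟨fun i k => ?_, Or.inr ?_, Or.inr ?_⟩
  · obtain ⟨m, rfl⟩ := hev
    have e2 : (m + m) / 2 = m := by omega
    unfold Hb656.mt mk2
    rw [e2]
    generalize P.cc j = q
    obtain ⟨⟨u, v⟩, d⟩ := q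
    have key : ∀ w i : ℤ, m - 1 ≤ |w * (m + m) + m - (m + m) * i| ∧
        m - 1 ≤ |w * (m + m) + m - 1 - (m + m) * i| := by
      intro w i
      simp only [le_abs_iff]
      rcases lt_or_ge w i with h | h
      · constructor <;> right <;> nlinarith
      · constructor <;> left <;> nlinarith
    obtain ⟨k1, k2⟩ := key u i
    obtain ⟨k3, k4⟩ := key v k
    split_ifs
    · right; simp only; omega
    · left; simp only; omega
    · right; simp only; omega
    · left; simp only; omega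
  · rw [le_abs_iff]; rcases hy with rfl | rfl <;> omega
  · rw [le_abs_iff]; rcases hy with rfl | rfl <;> omega

/-- **the planar members are far from the vertices and from the mouths** -/
theorem farT_e {P : P4} {L : ℤ} {δ : ℝ} {B : Band (D P.F L)} {D' : ℤ} (h0 : 0 ≤ D')
    (hL : D' + 1 ≤ L) (hD : D' + 1 ≤ DelP L δ) {t : ℤ × ℤ} {d : ZMod 4}
    (he : (some (Sum.inl t, d) : Port TG) ∈ JP P L δ B) {y : ℤ} (hy : y = B.y1 ∨ y = B.y2) :
    FarT L B.xl B.xr y D' t := by
  obtain ⟨h1, -, h2⟩ := (mem_Jd B).1 he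
  have hL0 : 0 < L := by omega
  have ht : t ∈ D P.F L := by
    rcases mem_freeG'.1 h1 with ⟨t', d', k1, k2, -⟩ | ⟨i, -, -, k1⟩ | ⟨i, -, -, k1⟩
    · simp only [Option.some.injEq, Prod.mk.injEq, Sum.inl.injEq] at k1
      rw [k1.1]
      exact k2.1
    · simp at k1
    · simp at k1
  have h3 : ∀ v ∈ SpP P L B, DelP L δ ≤ |t.1 - v.1| ∨ DelP L δ ≤ |t.2 - v.2| := h2
  refine ⟨fun i k => ?_, ?_, ?_⟩
  · rw [mem_D hL0] at ht
    obtain ⟨a1, a2⟩ := (div_iff hL0 t.1 (t.1 / L)).1 rfl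
    obtain ⟨a3, a4⟩ := (div_iff hL0 t.2 (t.2 / L)).1 rfl
    by_contra hcon
    push Not at hcon
    obtain ⟨c1, c2⟩ := hcon
    rw [abs_lt] at c1 c2
    have i1 : i = t.1 / L ∨ i = t.1 / L + 1 := by
      have b1 : t.1 / L - 1 < i := by
        by_contra hh
        have : i ≤ t.1 / L - 1 := by omega
        nlinarith
      have b2 : i < t.1 / L + 2 := by
        by_contra hh
        have : t.1 / L + 2 ≤ i := by omega
        nlinarith
      omega
    have k1 : k = t.2 / L ∨ k = t.2 / L + 1 := by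
      have b1 : t.2 / L - 1 < k := by
        by_contra hh
        have : k ≤ t.2 / L - 1 := by omega
        nlinarith
      have b2 : k < t.2 / L + 2 := by
        by_contra hh
        have : t.2 / L + 2 ≤ k := by omega
        nlinarith
      omega
    have hv : (i * L, k * L) ∈ SpP P L B := by
      refine mem_SpP.2 (Or.inl (mem_vertP.2 ⟨_, ht, ?_⟩))
      rcases i1 with rfl | rfl <;> rcases k1 with rfl | rfl
      · exact Or.inl rfl
      · exact Or.inr (Or.inr (Or.inl rfl))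
      · exact Or.inr (Or.inl rfl)
      · exact Or.inr (Or.inr (Or.inr rfl))
    have h4 := h3 _ hv
    have e1 : L * i = i * L := mul_comm _ _
    have e2 : L * k = k * L := mul_comm _ _
    simp only [le_abs_iff] at h4
    omega
  · rcases hy with rfl | rfl
    · have h4 := h3 (B.xl, B.y1) (mem_SpP.2 (Or.inr (Or.inr (mem_mouthC.2 (Or.inl rfl)))))
      simp only [le_abs_iff] at h4 ⊢
      omega
    · have h4 := h3 (B.xl, B.y2 - 1)
        (mem_SpP.2 (Or.inr (Or.inr (mem_mouthC.2 (Or.inr (Or.inl rfl))))))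
      simp only [le_abs_iff] at h4 ⊢
      omega
  · rcases hy with rfl | rfl
    · have h4 := h3 (B.xr, B.y1)
        (mem_SpP.2 (Or.inr (Or.inr (mem_mouthC.2 (Or.inr (Or.inr (Or.inl rfl)))))))
      simp only [le_abs_iff] at h4 ⊢
      omega
    · have h4 := h3 (B.xr, B.y2 - 1)
        (mem_SpP.2 (Or.inr (Or.inr (mem_mouthC.2 (Or.inr (Or.inr (Or.inr rfl)))))))
      simp only [le_abs_iff] at h4 ⊢
      omega

/-! ### location of the planar points -/

/-- vertices of the mirrored ends -/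
theorem farV_of {A : Half} {L : ℤ} {ρ : ℕ} {X : V × ZMod 4}
    (h : FarT L A.xl A.xr A.y1 (8 * ρ + 1) X.1) : FarV A L (8 * ρ) (q0 (mir A X)) := by
  obtain ⟨⟨⟨n1, n2⟩, n3, n4⟩, -⟩ := q_near (mir A X)
  obtain ⟨a1, a2, a3⟩ := h
  have e1 : (mir A X).1.1 = X.1.1 := rfl
  have e2 : (mir A X).1.2 = 2 * A.y0 - 1 - X.1.2 := rfl
  rw [e1] at n1 n2
  rw [e2] at n3 n4
  refine ⟨?_, ?_⟩
  · rintro ⟨p1, p2⟩ ⟨⟨i, hi⟩, k, hk⟩
    simp only at hi hk
    have := a1 i k
    rw [← hi, ← hk] at this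
    simp only [le_abs_iff] at this ⊢
    omega
  · rintro p (rfl | rfl)
    · simp only [le_abs_iff] at a2 ⊢
      omega
    · simp only [le_abs_iff] at a3 ⊢
      omega

theorem ga_near (u : Bool) (X : V × ZMod 4) :
    |(ga u X).1.1 - X.1.1| ≤ 1 ∧ |(ga u X).1.2 - X.1.2| ≤ 1 := by
  cases u
  · simp [ga]
  · have e1 : (ga true X).1.1 = X.1.1 + (dir (X.2 + 1)).1 := rfl
    have e2 : (ga true X).1.2 = X.1.2 + (dir (X.2 + 1)).2 := rfl
    have hd := dir_bd (X.2 + 1)
    rw [e1, e2, abs_le, abs_le]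
    omega

/-- **location of the planar points of XM** -/
theorem oth_XP {A : Half} {L : ℤ} {ρ : ℕ} {u : Bool} {X1 X2 : V × ZMod 4} {e : Option (Port TG)}
    (h1 : FarT L A.xl A.xr A.y1 (8 * ρ + 2) X1.1) (h2 : FarT L A.xl A.xr A.y1 (8 * ρ + 2) X2.1)
    (he : ∀ t d, e = some (some (Sum.inl t, d)) → FarT L A.xl A.xr A.y1 (8 * ρ + 1) t) :
    ∀ x ∈ XP A u X1 X2 e, Oth A L ρ x := by
  have key : ∀ X : V × ZMod 4, FarT L A.xl A.xr A.y1 (8 * ρ + 2) X.1 →
      Oth A L ρ (gT A (ga u X)) := by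
    intro X hX
    refine Or.inr (Or.inl ⟨Or.inl rfl, farV_of ?_⟩)
    have h3 := ga_near u X
    refine FarT.near (t := X.1) ?_ h3.1 h3.2
    have : (8 * (ρ : ℤ) + 1 + 1) = 8 * ρ + 2 := by ring
    rw [this]
    exact hX
  intro x hx
  unfold XP at hx
  rw [Finset.mem_union, Finset.mem_union] at hx
  rcases hx with hx | hx | hx
  · split_ifs at hx
    · rw [Finset.mem_singleton.1 hx]; exact key _ h1
    · exact absurd hx (Finset.notMem_empty _)
  · split_ifs at hx
    · rw [Finset.mem_singleton.1 hx]; exact Or.inl rfl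
    · rw [Finset.mem_singleton.1 hx]; exact key _ h2
    · exact absurd hx (Finset.notMem_empty _)
  · rcases e with _ | _ | ⟨t | ⟨j, y⟩, d⟩
    · exact absurd hx (Finset.notMem_empty _)
    · exact absurd hx (Finset.notMem_empty _)
    · simp only [XE] at hx
      split_ifs at hx
      · rw [Finset.mem_insert, Finset.mem_singleton] at hx
        rcases hx with rfl | rfl
        · exact Or.inl rfl
        · exact Or.inr (Or.inl ⟨Or.inl rfl, farV_of (he t d rfl)⟩)
      · exact absurd hx (Finset.notMem_empty _)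
    · exact absurd hx (Finset.notMem_empty _)

end Crest.Agent.R158.Xa932
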