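import Crest.Agent.R158.Ka12_470
import Crest.Agent.R158.Ka10_470
import Crest.Agent.R158.Xd2_841
import Crest.Agent.R158.Xa1_932
import Crest.Agent.R158.Nz11_399

-- ▼ part R158/Ka13_470
section

/-!
R158, block Q1d (helper470), part 13: admissible lists.

* `xok` : corners of the second copy + the other special points form an admissible list
* `xok_ld`, `cnt_ld`, `card_ld` : the same for the halves `lowHalf d` of a macroscopic polyomino
-/

set_option autoImplicit false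

noncomputable section

namespace Crest.Agent.R158.Ka470

open Crest.Agent.R158.Nm211
open Crest.Agent.R158.Env664 (TG Mac D mem_D Band)
open Crest.Agent.R158.Xr249 (mem_lowT)
open Crest.Agent.R158.Cc841 (cv dg HConn)
open Crest.Agent.R158.Nz399 (SpOk XOk Sp Fk cnt)
open Crest.Agent.R158.Xd841 (Oth Loc)

namespace Half

variable {A : Half} {ρ : ℕ}


/-- **supports of the corners are disjoint** -/
theorem XC_dis {L a b c : ℤ} (m : A.Mc L a b c) (h : A.Sz ρ)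
    (h5 : 5 * (ρ : ℤ) ≤ A.y0 - A.y1) (h6 : 6 * (ρ : ℤ) ≤ A.y1 - A.Y)
    {x y : Sp} (hx : x ∈ A.XC) (hy : y ∈ A.XC) (ix : x.In h (3 * ρ)) (iy : y.In h (3 * ρ))
    (hne : x ≠ y) : Disjoint (x.sup h (3 * ρ)) (y.sup h (3 * ρ)) := by
  refine Xd841.sup_dis m h h5 h6 (le_refl _) ix iy (XC_loc m hx) (XC_loc m hy) ?_
  by_contra hcon
  push Not at hcon
  exact hne (XC_inj hx hy hcon.1 hcon.2)

/-- **admissible list** -/
theorem xok {L a b c : ℤ} (m : A.Mc L a b c) (h : A.Sz ρ) (h' : A.Sz' ρ L)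
    (h5 : 5 * (ρ : ℤ) ≤ A.y0 - A.y1) (h6 : 6 * (ρ : ℤ) ≤ A.y1 - A.Y) (hd : dg A.H = ∅)
    {C : Fin 4 → (ℤ × ℤ) × ZMod 4 → ℤ} (hC1 : CvC h L C) (hC2 : RfC' h L C) {XM : Finset Sp}
    (hok : ∀ x ∈ XM, SpOk h C x)
    (hdis : ∀ x ∈ XM, ∀ y ∈ XM, x ≠ y → Disjoint (x.sup h (3 * ρ)) (y.sup h (3 * ρ)))
    (hoth : ∀ x ∈ XM, Oth A L ρ x) : XOk h L C (A.XC ∪ XM) where
  ok x hx := by
    rcases Finset.mem_union.1 hx with hx | hx
    · exact XC_ok m h h' h5 hC1 hC2 hx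
    · exact hok x hx
  dis := by
    refine Xd841.dis_union ?_ hdis ?_
    · intro x hx y hy hne
      exact XC_dis m h h5 h6 hx hy (XC_ok m h h' h5 hC1 hC2 hx).in
        (XC_ok m h h' h5 hC1 hC2 hy).in hne
    · intro x hx y hy
      exact Xd841.dis_other m h h5 (le_refl _) (XC_ok m h h' h5 hC1 hC2 hx).in (hok y hy).in
        (XC_loc m hx) (hoth y hy)
  comp p hp g hg hP := Finset.mem_union_left _ (XC_comp m h hp hg hP)
  nodg p _ pat hP := Cc841.nodg_of hd h hP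

theorem XC_f {x : Sp} (hx : x ∈ A.XC) : x.f = .cv ∨ x.f = .rf := by
  rcases mem_XC.1 hx with ⟨p, -, -, -, rfl⟩ | ⟨p, -, rfl⟩ | rfl | rfl
  · exact Or.inl rfl
  all_goals exact Or.inr rfl

/-- counts of the whole list -/
theorem cnt_xok (hc : HConn A.H) {XM : Finset Sp} (hf : ∀ x ∈ XM, x.f ≠ .cv ∧ x.f ≠ .rf) :
    cnt (A.XC ∪ XM) .cv ≤ cnt (A.XC ∪ XM) .rf ∧
      ∀ f : Fk, f ≠ .cv → f ≠ .rf → cnt (A.XC ∪ XM) f = cnt XM f := by
  have hd : Disjoint A.XC XM := Xd841.disj_f (fun x hx => XC_f hx) hf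
  have e1 : cnt XM .cv = 0 := Xd841.cnt_eq_zero fun x hx => (hf x hx).1
  have e2 : cnt XM .rf = 0 := Xd841.cnt_eq_zero fun x hx => (hf x hx).2
  refine ⟨?_, fun f h1 h2 => ?_⟩
  · rw [cnt_union hd, cnt_union hd, e1, e2]
    exact cnt_le hc
  · rw [cnt_union hd, cnt_zero h1 h2, zero_add]

end Half

section

open Half

variable {M : Mac} {L a b c y1 y0 R : ℤ}

theorem lowHalf_sub (d : LD M L a b c y1 y0 R) : (lowHalf d).H ⊆ D M.F L :=
  fun _ ht => (mem_lowT.1 ht).1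

/-- **admissible list for a half of a macroscopic polyomino** -/
theorem xok_ld (d : LD M L a b c y1 y0 R) {ρ : ℕ} (h : (lowHalf d).Sz ρ) (h' : (lowHalf d).Sz' ρ L)
    (h5 : 5 * (ρ : ℤ) ≤ y0 - y1) (h6 : 6 * (ρ : ℤ) ≤ y1 - c * L)
    {C : Fin 4 → (ℤ × ℤ) × ZMod 4 → ℤ} (hC1 : CvC h L C) (hC2 : RfC' h L C) {XM : Finset Sp}
    (hok : ∀ x ∈ XM, SpOk h C x)
    (hdis : ∀ x ∈ XM, ∀ y ∈ XM, x ≠ y → Disjoint (x.sup h (3 * ρ)) (y.sup h (3 * ρ)))
    (hoth : ∀ x ∈ XM, Oth (lowHalf d) L ρ x) : XOk h L C ((lowHalf d).XC ∪ XM) :=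
  xok (lowHalf_mc d) h h' h5 h6 (Cc841.dg_low M d.hL _ _ _) hC1 hC2 hok hdis hoth

theorem cnt_ld (d : LD M L a b c y1 y0 R) {XM : Finset Sp}
    (hf : ∀ x ∈ XM, x.f ≠ .cv ∧ x.f ≠ .rf) :
    cnt ((lowHalf d).XC ∪ XM) .cv ≤ cnt ((lowHalf d).XC ∪ XM) .rf ∧
      ∀ f : Fk, f ≠ .cv → f ≠ .rf → cnt ((lowHalf d).XC ∪ XM) f = cnt XM f :=
  cnt_xok Cc841.low_hc hf

theorem card_ld (d : LD M L a b c y1 y0 R) (XM : Finset Sp) :
    ((lowHalf d).XC ∪ XM).card ≤ 4 * M.F.card + 2 + XM.card :=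
  (Finset.card_union_le _ _).trans
    (Nat.add_le_add_right (card_XC (lowHalf_mc d) (lowHalf_sub d)) _)

end

end Crest.Agent.R158.Ka470
end
end

-- ▼ part R158/Xa2_932

/-!
# R158, block Q1d, XAll (helper932), part 2: the lists of special points of the literal family

* `nv_nums` : numbers of the row from 857's `Nums`
* `oth_low`, `oth_up` : location of the points of `XMlow`, `XMup`
* `PlOk` : the planar points are admissible with disjoint supports (612)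
* `xd_low`, `xd_up` : `XD` of the two lists
* `xall_of` : the union step
-/

set_option autoImplicit false

noncomputable section

namespace Crest.Agent.R158.Xa932

open Crest.Agent.R158.Nm211
open Crest.Agent.R158.Ka470
open Crest.Agent.R158.Ka470.Half
open Crest.Agent.R158.Nz399
open Crest.Agent.R158.Lr158
open Crest.Agent.R158.Xs932
open Crest.Agent.R158.Sw300 (Port)
open Crest.Agent.R158.Env664 (TG Mac D Band Run lowT upT mark mem_D div_iff nbc)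
open Crest.Agent.R158.Rf896 (rB rA rz rp)
open Crest.Agent.R158.Fm857 (freeG mem_Jd JP DelP mkG mkP clow)
open Crest.Agent.R158.Tj656 (P4)
open Crest.Agent.R158.Xp612 (V XP)
open Crest.Agent.R158.Xd841 (FarV Oth)
open Crest.Agent.R158.Ne808 (RfC)
open Crest.Agent.R158.Nn857 (Nums)

theorem FarT.mono {L xl xr y1 D D' : ℤ} {t : ℤ × ℤ} (h : FarT L xl xr y1 D t) (hD : D' ≤ D) :
    FarT L xl xr y1 D' t :=
  ⟨fun i j => (h.1 i j).imp hD.trans hD.trans, h.2.1.imp hD.trans hD.trans,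
    h.2.2.imp hD.trans hD.trans⟩

variable {P : P4} {a b c L : ℤ} {δ : ℝ} {B : Band (D P.F L)} {ρ κ : ℕ} {yl yu p z0 : ℤ} {a1 b1 : ℕ}

/-- **numbers of the row** -/
theorem nv_nums (N : Nums P a b c L δ B ρ κ yl yu p z0 a1 b1) : NV B L c (8 * ρ + 4) := by
  have h1 : (1 : ℤ) ≤ ρ := by exact_mod_cast N.ρ1
  have h2 := N.L64
  have h3 := N.c1
  have h4 := N.c2
  have h5 := N.half
  have h6 := N.mb.hy
  exact ⟨by omega, by omega, by omega, by omega, h6, by omega⟩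

/-- **points of the lower half** -/
theorem oth_low (N : Nums P a b c L δ B ρ κ yl yu p z0 a1 b1) (hev : Even L)
    {e : Option (Port TG)} (he : e ∈ Finset.insertNone (JP P L δ B)) :
    ∀ x ∈ XMlow (lowHalf (lb_low N.mb N.l1 N.l2).d) (Hb656.mt P L 0) (Hb656.mt P L 1) e,
      Oth (lowHalf (lb_low N.mb N.l1 N.l2).d) L ρ x := by
  have hV := nv_nums N
  have h1 : (1 : ℤ) ≤ ρ := by exact_mod_cast N.ρ1
  have h2 := N.L64
  have h3 := N.D64
  obtain ⟨c1, -, -, -, -⟩ := col_JP N.R64 N.ρ1 (by omega) h2 he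
  intro x hx
  rcases Finset.mem_union.1 hx with hx | hx
  · refine oth_XP (u := false) ?_ ?_ ?_ x hx
    · exact (farT_mark (P := P) hV hev 0 (Or.inl rfl)).mono (by omega)
    · exact (farT_mark (P := P) hV hev 1 (Or.inl rfl)).mono (by omega)
    · intro t d hd
      rw [hd] at he
      have h5 := farT_e (D' := 8 * ρ + 1) (by omega) (by omega) (by omega)
        (Finset.some_mem_insertNone.1 he) (Or.inl rfl)
      rw [N.mb.xl, N.mb.xr] at h5
      exact h5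
  · exact Or.inr (Or.inr ⟨chart_low hx, col_low c1 hx⟩)

/-- **points of the reflected upper half** -/
theorem oth_up (N : Nums P a b c L δ B ρ κ yl yu p z0 a1 b1) (hev : Even L)
    {e : Option (Port TG)} (he : e ∈ Finset.insertNone (JP P L δ B)) :
    ∀ x ∈ XMup (lowHalf (lb_up N.mb N.u1 N.u2).d) (L / 2) (Hb656.mt P L 0) (Hb656.mt P L 1) e,
      Oth (lowHalf (lb_up N.mb N.u1 N.u2).d) L ρ x := by
  have hV := nv_nums N
  have h1 : (1 : ℤ) ≤ ρ := by exact_mod_cast N.ρ1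
  have h2 := N.L64
  have h3 := N.D64
  obtain ⟨-, c1, -, c2, c3⟩ := col_JP N.R64 N.ρ1 (by omega) h2 he
  intro x hx
  rcases Finset.mem_union.1 hx with hx | hx
  · refine oth_XP (u := true) ?_ ?_ ?_ x hx
    · exact farT_rz ((farT_mark (P := P) hV hev 0 (Or.inr rfl)).mono (by omega))
    · exact farT_rz ((farT_mark (P := P) hV hev 1 (Or.inr rfl)).mono (by omega))
    · intro t d hd
      rw [Option.map_eq_some_iff] at hd
      obtain ⟨q, rfl, hq⟩ := hd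
      have h4 := Finset.some_mem_insertNone.1 he
      rcases q with _ | ⟨t' | t', d'⟩
      · exact absurd hq (by simp [rp])
      · rw [rp_inl] at hq
        simp only [Option.some.injEq, Prod.mk.injEq, Sum.inl.injEq] at hq
        rw [← hq.1]
        have h5 := farT_e (D' := 8 * ρ + 1 + 1) (by omega) (by omega) (by omega) h4 (Or.inr rfl)
        rw [N.mb.xl, N.mb.xr] at h5
        exact farT_rz h5
      · rw [rp_inr] at hq
        simp at hq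
  · exact Or.inr (Or.inr ⟨chart_up hx, col_up c1 c2 c3 hx⟩)

/-- **the planar points are admissible with disjoint supports** (612) -/
structure PlOk {A : Half} (h : A.Sz ρ) (C : Fin 4 → (ℤ × ℤ) × ZMod 4 → ℤ) (X : Finset Sp) :
    Prop where
  ok : ∀ x ∈ X, SpOk h C x
  dis : ∀ x ∈ X, ∀ y ∈ X, x ≠ y → Disjoint (x.sup h (3 * ρ)) (y.sup h (3 * ρ))

/-- members of a list with no corner factors -/
theorem f_of_cnt {X : Finset Sp} {f : Fk} (h : cnt X f = 0) : ∀ x ∈ X, x.f ≠ f := by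
  intro x hx hf
  unfold cnt at h
  rw [Finset.card_eq_zero, Finset.filter_eq_empty_iff] at h
  exact h hx hf

/-- **the list of one half**, abstract form -/
theorem xd_of {M' : Mac} {a b c y1 y0 R : ℤ} (d : LD M' L a b c y1 y0 R) (h : (lowHalf d).Sz ρ)
    (h' : (lowHalf d).Sz' ρ L) (h5 : 5 * (ρ : ℤ) ≤ y0 - y1) (h6 : 6 * (ρ : ℤ) ≤ y1 - c * L)
    {cc : TG × ZMod 4 → ℤ} {cl : ℤ} (hC1 : CvC h L (Cg cc cl h)) (hC2 : RfC' h L (Cg cc cl h))
    (hC3 : RfC h L (Cg cc cl h)) {X S : Finset Sp} (hX : PlOk h (Cg cc cl h) X)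
    (hXc : ∀ x ∈ X, x.i = 0 ∨ x.i = 1) (hS : ∀ x ∈ S, SpOk h (Cg cc cl h) x)
    (hSc : ∀ x ∈ S, x.i = 3)
    (hSd : ∀ x ∈ S, ∀ y ∈ S, x ≠ y → Disjoint (x.sup h (3 * ρ)) (y.sup h (3 * ρ)))
    (hO : ∀ x ∈ X ∪ S, Oth (lowHalf d) L ρ x) (h7 : (X ∪ S).card ≤ 7)
    (h8 : ∀ f, f = Fk.cv ∨ f = Fk.rf → cnt (X ∪ S) f = 0) {M : ℕ} (hM : 4 * M'.F.card + 9 ≤ M) :
    XD h L cc cl M ((lowHalf d).XC ∪ (X ∪ S)) := by
  have hok : ∀ x ∈ X ∪ S, SpOk h (Cg cc cl h) x := by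
    intro x hx
    rcases Finset.mem_union.1 hx with hx | hx
    · exact hX.ok x hx
    · exact hS x hx
  have hdis : ∀ x ∈ X ∪ S, ∀ y ∈ X ∪ S, x ≠ y →
      Disjoint (x.sup h (3 * ρ)) (y.sup h (3 * ρ)) :=
    Xd841.dis_union hX.dis hSd fun x hx y hy' => (dis_planar (hSc y hy') (hXc x hx)).symm
  refine ⟨xok_ld d h h' h5 h6 hC1 hC2 hok hdis hO, hC3, ?_, ?_⟩
  · have h9 := card_ld d (X ∪ S)
    omega
  · exact (cnt_ld d fun x hx => ⟨f_of_cnt (h8 _ (Or.inl rfl)) x hx,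
      f_of_cnt (h8 _ (Or.inr rfl)) x hx⟩).1

/-- **the list of the lower half** -/
theorem xd_low (N : Nums P a b c L δ B ρ κ yl yu p z0 a1 b1) (hev : Even L)
    {e : Option (Port TG)} (he : e ∈ Finset.insertNone (JP P L δ B))
    (hC1 : CvC N.szl.1 L (Cg (fun q => Fm857.cp B (L / 2) (mkG P L 0) (mkG P L 1) e (some q))
      (clow B (L / 2) (mkG P L 0) (mkG P L 1) e) N.szl.1))
    (hC2 : RfC' N.szl.1 L (Cg (fun q => Fm857.cp B (L / 2) (mkG P L 0) (mkG P L 1) e (some q))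
      (clow B (L / 2) (mkG P L 0) (mkG P L 1) e) N.szl.1))
    (hC3 : RfC N.szl.1 L (Cg (fun q => Fm857.cp B (L / 2) (mkG P L 0) (mkG P L 1) e (some q))
      (clow B (L / 2) (mkG P L 0) (mkG P L 1) e) N.szl.1))
    (hP : PlOk N.szl.1 (Cg (fun q => Fm857.cp B (L / 2) (mkG P L 0) (mkG P L 1) e (some q))
      (clow B (L / 2) (mkG P L 0) (mkG P L 1) e) N.szl.1)
      (XP (lowHalf (lb_low N.mb N.l1 N.l2).d) false (Hb656.mt P L 0) (Hb656.mt P L 1) e)) {M : ℕ}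
    (hM : 4 * P.F.card + 9 ≤ M) :
    XD N.szl.1 L (fun q => Fm857.cp B (L / 2) (mkG P L 0) (mkG P L 1) e (some q))
      (clow B (L / 2) (mkG P L 0) (mkG P L 1) e) M
      ((lowHalf (lb_low N.mb N.l1 N.l2).d).XC ∪
        XMlow (lowHalf (lb_low N.mb N.l1 N.l2).d) (Hb656.mt P L 0) (Hb656.mt P L 1) e) := by
  have h1 : (1 : ℤ) ≤ ρ := by exact_mod_cast N.ρ1
  have h2 := N.L64
  have h3 := N.D64
  have h4 := N.y5l
  have h5 := N.c1
  have hy : 5 * (ρ : ℤ) ≤ (lowHalf (lb_low N.mb N.l1 N.l2).d).y0 -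
      (lowHalf (lb_low N.mb N.l1 N.l2).d).y1 := by
    show 5 * (ρ : ℤ) ≤ yl - B.y1
    omega
  obtain ⟨c1, -, -, -, -⟩ := col_JP N.R64 N.ρ1 (by omega) h2 he
  have hne : Hb656.mt P L 0 ≠ Hb656.mt P L 1 := Hw949.mt_ne (P := P) (by omega) hev (by decide)
  exact xd_of (lb_low N.mb N.l1 N.l2).d N.szl.1 N.szl.2 hy (by omega) hC1 hC2 hC3 hP
    (fun x hx => XP_chart hx)
    (ok_low (M := Mg949.mac P) (B := B) (A := lowHalf (lb_low N.mb N.l1 N.l2).d) rfl N.szl.1 hy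
      (pla_mkG P L 0) (pla_mkG P L 1) c1 _)
    (fun x hx => chart_low hx) (dis_low hy) (oth_low N hev he) (card_XMlow _ _ _ _)
    (fun f hf => (cnt_XM_cr hne 0 e hf).1) hM

/-- **the list of the reflected upper half** -/
theorem xd_up (N : Nums P a b c L δ B ρ κ yl yu p z0 a1 b1) (hev : Even L)
    {e : Option (Port TG)} (he : e ∈ Finset.insertNone (JP P L δ B))
    (hC1 : CvC N.szu.1 L (Cg (ccU (M := Mg949.mac P) B (L / 2) (mkG P L 0) (mkG P L 1) e)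
      (-(clow B (L / 2) (mkG P L 0) (mkG P L 1) e + 1)) N.szu.1))
    (hC2 : RfC' N.szu.1 L (Cg (ccU (M := Mg949.mac P) B (L / 2) (mkG P L 0) (mkG P L 1) e)
      (-(clow B (L / 2) (mkG P L 0) (mkG P L 1) e + 1)) N.szu.1))
    (hC3 : RfC N.szu.1 L (Cg (ccU (M := Mg949.mac P) B (L / 2) (mkG P L 0) (mkG P L 1) e)
      (-(clow B (L / 2) (mkG P L 0) (mkG P L 1) e + 1)) N.szu.1))
    (hP : PlOk N.szu.1 (Cg (ccU (M := Mg949.mac P) B (L / 2) (mkG P L 0) (mkG P L 1) e)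
      (-(clow B (L / 2) (mkG P L 0) (mkG P L 1) e + 1)) N.szu.1)
      (XP (lowHalf (lb_up N.mb N.u1 N.u2).d) true (rX (Hb656.mt P L 0)) (rX (Hb656.mt P L 1))
        (e.map rp))) {M : ℕ}
    (hM : 4 * (Mg949.mac P).rf.F.card + 9 ≤ M) :
    XD N.szu.1 L (ccU (M := Mg949.mac P) B (L / 2) (mkG P L 0) (mkG P L 1) e)
      (-(clow B (L / 2) (mkG P L 0) (mkG P L 1) e + 1)) M
      ((lowHalf (lb_up N.mb N.u1 N.u2).d).XC ∪
        XMup (lowHalf (lb_up N.mb N.u1 N.u2).d) (L / 2) (Hb656.mt P L 0) (Hb656.mt P L 1) e) := by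
  have h1 : (1 : ℤ) ≤ ρ := by exact_mod_cast N.ρ1
  have h2 := N.L64
  have h3 := N.D64
  have h4 := N.y5u
  have h5 := N.c2
  have hy : 5 * (ρ : ℤ) ≤ (lowHalf (lb_up N.mb N.u1 N.u2).d).y0 -
      (lowHalf (lb_up N.mb N.u1 N.u2).d).y1 := by
    show 5 * (ρ : ℤ) ≤ -yu - -B.y2
    omega
  obtain ⟨-, c1, c2, c3, c4⟩ := col_JP N.R64 N.ρ1 (by omega) h2 he
  have hne : Hb656.mt P L 0 ≠ Hb656.mt P L 1 := Hw949.mt_ne (P := P) (by omega) hev (by decide)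
  have h6 : 6 * (ρ : ℤ) ≤ -B.y2 - (-c - 1) * L := by
    have : (-c - 1) * L = -(c * L) - L := by ring
    rw [this]
    omega
  exact xd_of (lb_up N.mb N.u1 N.u2).d N.szu.1 N.szu.2 hy h6 hC1 hC2 hC3 hP
    (fun x hx => XP_chart hx)
    (ok_up (M := Mg949.mac P) (B := B) (A := lowHalf (lb_up N.mb N.u1 N.u2).d) rfl N.szu.1 hy
      (pla_mkG P L 0) (pla_mkG P L 1) c2 c1 c3 c4 _)
    (fun x hx => chart_up hx) (dis_up hy c1) (oth_up N hev he) (card_XMup _ _ _ _ _)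
    (fun f hf => (cnt_XM_cr hne (L / 2) e hf).2) hM

/-! ### the union step -/

/-- charges at the corners (874) -/
def VcAll (P : P4) : Prop :=
  ∀ (a b c L : ℤ) (δ : ℝ) (B : Band (D P.F L)) (ρ κ : ℕ) (yl yu p z0 : ℤ) (a1 b1 : ℕ)
    (N : Nums P a b c L δ B ρ κ yl yu p z0 a1 b1), Even L →
    ∀ e ∈ Finset.insertNone (JP P L δ B),
      (CvC N.szl.1 L (Cg (fun q => Fm857.cp B (L / 2) (mkG P L 0) (mkG P L 1) e (some q))
        (clow B (L / 2) (mkG P L 0) (mkG P L 1) e) N.szl.1) ∧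
      RfC' N.szl.1 L (Cg (fun q => Fm857.cp B (L / 2) (mkG P L 0) (mkG P L 1) e (some q))
        (clow B (L / 2) (mkG P L 0) (mkG P L 1) e) N.szl.1) ∧
      RfC N.szl.1 L (Cg (fun q => Fm857.cp B (L / 2) (mkG P L 0) (mkG P L 1) e (some q))
        (clow B (L / 2) (mkG P L 0) (mkG P L 1) e) N.szl.1)) ∧
      (CvC N.szu.1 L (Cg (ccU (M := Mg949.mac P) B (L / 2) (mkG P L 0) (mkG P L 1) e)
        (-(clow B (L / 2) (mkG P L 0) (mkG P L 1) e + 1)) N.szu.1) ∧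
      RfC' N.szu.1 L (Cg (ccU (M := Mg949.mac P) B (L / 2) (mkG P L 0) (mkG P L 1) e)
        (-(clow B (L / 2) (mkG P L 0) (mkG P L 1) e + 1)) N.szu.1) ∧
      RfC N.szu.1 L (Cg (ccU (M := Mg949.mac P) B (L / 2) (mkG P L 0) (mkG P L 1) e)
        (-(clow B (L / 2) (mkG P L 0) (mkG P L 1) e + 1)) N.szu.1))

/-- planar points (612) -/
def PlAll (P : P4) : Prop :=
  ∀ (a b c L : ℤ) (δ : ℝ) (B : Band (D P.F L)) (ρ κ : ℕ) (yl yu p z0 : ℤ) (a1 b1 : ℕ)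
    (N : Nums P a b c L δ B ρ κ yl yu p z0 a1 b1), Even L →
    ∀ e ∈ Finset.insertNone (JP P L δ B),
      PlOk N.szl.1 (Cg (fun q => Fm857.cp B (L / 2) (mkG P L 0) (mkG P L 1) e (some q))
        (clow B (L / 2) (mkG P L 0) (mkG P L 1) e) N.szl.1)
        (XP (lowHalf (lb_low N.mb N.l1 N.l2).d) false (Hb656.mt P L 0) (Hb656.mt P L 1) e) ∧
      PlOk N.szu.1 (Cg (ccU (M := Mg949.mac P) B (L / 2) (mkG P L 0) (mkG P L 1) e)
        (-(clow B (L / 2) (mkG P L 0) (mkG P L 1) e + 1)) N.szu.1)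
        (XP (lowHalf (lb_up N.mb N.u1 N.u2).d) true (rX (Hb656.mt P L 0)) (rX (Hb656.mt P L 1))
          (e.map rp))

/-- **the union step** -/
theorem xall_of {P : P4} (hV : VcAll P) (hP : PlAll P) : XAll P := by
  refine ⟨4 * (P.F.card + (Mg949.mac P).rf.F.card) + 9, ?_⟩
  intro a b c L δ B ρ κ yl yu p z0 a1 b1 N hev e he
  obtain ⟨⟨v1, v2, v3⟩, v4, v5, v6⟩ := hV a b c L δ B ρ κ yl yu p z0 a1 b1 N hev e he
  obtain ⟨p1, p2⟩ := hP a b c L δ B ρ κ yl yu p z0 a1 b1 N hev e he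
  have h1 : (1 : ℤ) ≤ ρ := by exact_mod_cast N.ρ1
  have h2 := N.L64
  have hne : Hb656.mt P L 0 ≠ Hb656.mt P L 1 := Hw949.mt_ne (P := P) (by omega) hev (by decide)
  have hNV := nv_nums N
  have f0 := mt_freeG (P := P) hNV hev 0
  have f1 := mt_freeG (P := P) hNV hev 1
  have cl := cnt_ld (lb_low N.mb N.l1 N.l2).d
    (XM := XMlow (lowHalf (lb_low N.mb N.l1 N.l2).d) (Hb656.mt P L 0) (Hb656.mt P L 1) e)
    (fun x hx => ⟨f_of_cnt (cnt_XM_cr hne 0 e (Or.inl rfl)).1 x hx,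
      f_of_cnt (cnt_XM_cr hne 0 e (Or.inr rfl)).1 x hx⟩)
  have cu := cnt_ld (lb_up N.mb N.u1 N.u2).d
    (XM := XMup (lowHalf (lb_up N.mb N.u1 N.u2).d) (L / 2) (Hb656.mt P L 0) (Hb656.mt P L 1) e)
    (fun x hx => ⟨f_of_cnt (cnt_XM_cr hne (L / 2) e (Or.inl rfl)).2 x hx,
      f_of_cnt (cnt_XM_cr hne (L / 2) e (Or.inr rfl)).2 x hx⟩)
  refine ⟨_, _, xd_low N hev he v1 v2 v3 p1 (by omega), xd_up N hev he v4 v5 v6 p2 (by omega),
    ?_, ?_, ?_⟩
  · rw [cl.2 _ (by decide) (by decide), cu.2 _ (by decide) (by decide)]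
    exact tot_mk N.mb N.l1 N.l2 N.u1 N.u2 (L / 2) hne f0 f1 e
  · rw [cl.2 _ (by decide) (by decide), cu.2 _ (by decide) (by decide)]
    exact tot_e2 N.mb N.l1 N.l2 N.u1 N.u2 (L / 2) hne (free_JP he)
  · rw [cl.2 _ (by decide) (by decide), cu.2 _ (by decide) (by decide)]
    exact tot_e1 N.mb N.l1 N.l2 N.u1 N.u2 (L / 2) hne (free_JP he)

end Crest.Agent.R158.Xa932
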