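import Crest.Agent.R158.Xp1_612
import Crest.Agent.R158.Lr7_158
import Crest.Agent.R158.Fm2_857
import Crest.Agent.R158.Xd2_841
import Crest.Agent.R158.Xa2_932

-- ▼ part R158/Xp2_612
section

/-!
# R158, NormP (helper612): planar special points of the marks, part 2

* `FlatD B r X` : near the end `X` the domain is a half plane, no tile of the band
* `flatW_of` : `FlatW` for `lowHalf`
* `cp_flat` : step of the charges along a flat wall
* `prof_m1`, `prof_m2`, `prof_none`, `prof_e` : profiles of the charges around the marks and the end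
* `*_up` : the same for the reflected upper half
-/

set_option autoImplicit false

noncomputable section

namespace Crest.Agent.R158.Xp612

open Crest.Agent.R158.Nm211
open Crest.Agent.R158.Ka470
open Crest.Agent.R158.Nz399
open Crest.Agent.R158.Lr158
open Crest.Agent.R158.Pt266 (dir FFree nx_flat)
open Crest.Agent.R158.Env664 (TG Mac D mem_D div_iff Run CutAdj Adj4 lowT upT Band)
open Crest.Agent.R158.Sw300 (Port)
open Crest.Agent.R158.Xr249 (full mem_lowT low_step)
open Crest.Agent.R158.Fm857 (freeG pG cp cb isLS)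
open Crest.Agent.R158.Rf896 (rA rB rz rp mem_rA rz_rz)

/-- **near the end `X` the domain is a half plane that contains no tile of the band** -/
structure FlatD {A : Finset V} (B : Band A) (r : ℤ) (X : V × ZMod 4) : Prop where
  p : ∀ u : V, |u.1 - X.1.1| ≤ r → |u.2 - X.1.2| ≤ r → (u ∈ A ↔ inner X u)
  nb : ∀ u : V, |u.1 - X.1.1| ≤ r → |u.2 - X.1.2| ≤ r →
    ¬ ((B.xl ≤ u.1 ∧ u.1 ≤ B.xr) ∧ B.y1 ≤ u.2 ∧ u.2 < B.y2)

theorem FlatD.mono {A : Finset V} {B : Band A} {r r' : ℤ} {X : V × ZMod 4} (h : FlatD B r X)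
    (hr : r' ≤ r) : FlatD B r' X := ⟨fun u h1 h2 => h.p u (h1.trans hr) (h2.trans hr),
  fun u h1 h2 => h.nb u (h1.trans hr) (h2.trans hr)⟩

/-! ### `FlatW` for the lower half -/

section

variable {M : Mac} {L a b c y1 y0 R : ℤ}

/-- **flat walls of `lowHalf`** -/
theorem flatW_of (d : LD M L a b c y1 y0 R) {r : ℤ} {X : V × ZMod 4}
    (hp : ∀ u : V, |u.1 - X.1.1| ≤ r → |u.2 - X.1.2| ≤ r → (u ∈ D M.F L ↔ inner X u))
    (hnb : ∀ u : V, |u.1 - X.1.1| ≤ r → |u.2 - X.1.2| ≤ r →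
      ¬ ((a * L ≤ u.1 ∧ u.1 ≤ b * L + L - 1) ∧ y1 ≤ u.2 ∧ u.2 < y0))
    (hH : X.1 ∈ (lowHalf d).H) : FlatW (lowHalf d) r X := by
  have h1 := d.h1
  have hXD : X.1 ∈ D M.F L := (mem_lowT.1 hH).1
  refine ⟨fun u k1 k2 hm => hnb u k1 k2 ⟨hm.1.1, hm.1.2⟩, fun u k1 k2 => ?_⟩
  constructor
  · intro hu
    exact (hp u k1 k2).1 (mem_lowT.1 hu).1
  · intro hu
    obtain ⟨⟨x, y⟩, e⟩ := X
    obtain ⟨u1, u2⟩ := u
    simp only at k1 k2 hXD
    have k1' := abs_le.1 k1
    have k2' := abs_le.1 k2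
    have hr : 0 ≤ r := (abs_nonneg _).trans k1
    -- horizontal segment, then vertical segment
    have hh : (u1, y) ∈ lowT (D M.F L) (a * L) (b * L + L - 1) y0 := by
      refine hseg (fun s t => low_step) (x := x) (fun z hz => ?_) hH
      refine (hp (z, y) (by simp only; rw [abs_le]; omega) (by simp [hr])).2 ?_
      unfold inner at hu ⊢
      simp only at hu ⊢
      rcases Lr158.z4 e with rfl | rfl | rfl | rfl
      · rw [dir0] at hu ⊢; simp only at hu ⊢; omega
      · rw [dir1] at hu ⊢; simp only at hu ⊢; omega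
      · rw [dir2] at hu ⊢; simp only at hu ⊢; omega
      · rw [dir3] at hu ⊢; simp only at hu ⊢; omega
    refine vseg (fun s t => low_step) (y := y) (fun z hz => ?_) (fun g1 g2 => ?_) hh
    · refine (hp (u1, z) (by simpa using k1) (by simp only; rw [abs_le]; omega)).2 ?_
      unfold inner at hu ⊢
      simp only at hu ⊢
      rcases Lr158.z4 e with rfl | rfl | rfl | rfl
      · rw [dir0] at hu ⊢; simp only at hu ⊢; omega
      · rw [dir1] at hu ⊢; simp only at hu ⊢; omega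
      · rw [dir2] at hu ⊢; simp only at hu ⊢; omega
      · rw [dir3] at hu ⊢; simp only at hu ⊢; omega
    · by_contra hc
      refine hnb (u1, y0 - 1) (by simpa using k1) ?_ ⟨⟨g1, g2⟩, by simp only; omega,
        by simp only; omega⟩
      simp only
      rw [abs_le]
      omega


end

/-! ### charges along a flat wall -/

section

variable {A : Finset V} {B : Band A} {b' : ℤ}

/-- port of `G^(z)` of an end of the domain -/
def pD (X : V × ZMod 4) : Port TG := some (Sum.inl X.1, X.2)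

theorem pD_inj {X Y : V × ZMod 4} (h : pD X = pD Y) : X = Y := by
  unfold pD at h
  simp only [Option.some.injEq, Prod.mk.injEq, Sum.inl.injEq] at h
  exact Prod.ext h.1 h.2

theorem near_wp (X : V × ZMod 4) (j : ℤ) : |(wp X j).1.1 - X.1.1| ≤ |j| ∧
    |(wp X j).1.2 - X.1.2| ≤ |j| := by
  obtain ⟨⟨x, y⟩, e⟩ := X
  have hd := dir_bd (e + 1)
  have key2 : ∀ f : ℤ, -1 ≤ f → f ≤ 1 → |j * f| ≤ |j| := by
    intro f k1 k2
    rw [abs_mul]
    have : |f| ≤ 1 := abs_le.2 ⟨k1, k2⟩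
    nlinarith [abs_nonneg j, abs_nonneg f]
  have e1 : (wp ((x, y), e) j).1.1 - x = j * (dir (e + 1)).1 := by simp [wp]
  have e2 : (wp ((x, y), e) j).1.2 - y = j * (dir (e + 1)).2 := by simp [wp]
  constructor
  · show |_ - x| ≤ |j|; rw [e1]; exact key2 _ hd.1.1 hd.1.2
  · show |_ - y| ≤ |j|; rw [e2]; exact key2 _ hd.2.1 hd.2.2

theorem wp_far (X : V × ZMod 4) (j : ℤ) : |(wp X j).1.1 - X.1.1| = |j| ∨
    |(wp X j).1.2 - X.1.2| = |j| := by
  obtain ⟨⟨x, y⟩, e⟩ := X
  have e1 : (wp ((x, y), e) j).1.1 - x = j * (dir (e + 1)).1 := by simp [wp]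
  have e2 : (wp ((x, y), e) j).1.2 - y = j * (dir (e + 1)).2 := by simp [wp]
  show |_ - x| = |j| ∨ |_ - y| = |j|
  rw [e1, e2, abs_mul, abs_mul]
  rcases Lr158.z4 e with rfl | rfl | rfl | rfl
  · right; rw [show (0 : ZMod 4) + 1 = 1 by decide, dir1]; simp
  · left; rw [show (1 : ZMod 4) + 1 = 2 by decide, dir2]; simp
  · right; rw [show (2 : ZMod 4) + 1 = 3 by decide, dir3]; simp
  · left; rw [show (3 : ZMod 4) + 1 = 0 by decide, dir0]; simp

theorem wp_inj {X : V × ZMod 4} {i j : ℤ} (h : wp X i = wp X j) : i = j := by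
  have h1 : wp (wp X i) (j - i) = wp X i := by rw [wp_wp, add_sub_cancel, h]
  have h2 := wp_far (wp X i) (j - i)
  rw [h1] at h2
  simp only [sub_self, abs_zero] at h2
  have h3 : |j - i| = 0 := by rcases h2 with h2 | h2 <;> exact h2.symm
  have := abs_eq_zero.1 h3
  omega

theorem not_inner_out (X : V × ZMod 4) : ¬ inner X (X.1 + dir X.2) := by
  obtain ⟨⟨x, y⟩, e⟩ := X
  unfold inner
  rcases Lr158.z4 e with rfl | rfl | rfl | rfl
  · simp only [dir0]; simp
  · simp only [dir1]; simp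
  · simp only [dir2]; simp
  · simp only [dir3]; simp

/-- the ends of the wall are free ends of `G^(z)` -/
theorem FlatD.free {r : ℤ} {X : V × ZMod 4} (h : FlatD B r X) {j : ℤ} (hj : |j| + 1 ≤ r) :
    pD (wp X j) ∈ freeG B ∧ FFree A (wp X j) := by
  obtain ⟨k1, k2⟩ := near_wp X j
  have hd := dir_bd (wp X j).2
  have hr0 : 0 ≤ |j| := abs_nonneg j
  have h1 : (wp X j).1 ∈ A := by
    refine (h.p _ (by linarith) (by linarith)).2 ((inner_wp X j _).1 ?_)
    unfold inner; simp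
  have h2 : (wp X j).1 + dir (wp X j).2 ∉ A := by
    intro hc
    have h3 := (h.p _ (by
      rw [abs_le] at k1 ⊢
      simp only [Prod.fst_add]
      constructor <;> linarith [hd.1.1, hd.1.2]) (by
      rw [abs_le] at k2 ⊢
      simp only [Prod.snd_add]
      constructor <;> linarith [hd.2.1, hd.2.2])).1 hc
    rw [← inner_wp X j] at h3
    exact not_inner_out _ h3
  have hf : FFree A (wp X j) := ⟨h1, h2⟩
  refine ⟨mem_freeG'.2 (Or.inl ⟨_, _, rfl, hf, ?_⟩), hf⟩
  intro hm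
  have h3 := h.nb (wp X j).1 (by linarith) (by linarith)
  unfold Fm857.mouth at hm
  obtain ⟨k3, ⟨-, k4⟩ | ⟨-, k4⟩⟩ := hm
  · have hle : B.xl ≤ B.xr := (B.run _ k3.1 k3.2).le
    have k5 : (wp X j).1.1 = B.xl := k4
    exact h3 ⟨⟨k5.ge, by rw [k5]; exact hle⟩, k3⟩
  · have hle : B.xl ≤ B.xr := (B.run _ k3.1 k3.2).le
    have k5 : (wp X j).1.1 = B.xr := k4
    exact h3 ⟨⟨by rw [k5]; exact hle, k5.le⟩, k3⟩

theorem cp_inl {m1 m2 : Port TG} {e : Option (Port TG)} (X : V × ZMod 4) :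
    cp B b' m1 m2 e (pD X) = cb B b' m1 m2 e (pD X) := by
  unfold Fm857.cp
  rw [if_neg (show ¬ isLS b' (pD X) from fun h => h), sub_zero]

/-- **step of the charges along a flat wall** -/
theorem cp_flat {w : Sw300.Wd V} {l : List (Port V)}
    (hw : Psi664.BW (full A) B.xl B.y1 w l) (hy : B.y1 < B.y2) {r : ℤ} {X : V × ZMod 4}
    (h : FlatD B r X) {m1 m2 : Port TG} {e : Option (Port TG)} (h1 : m1 ∈ freeG B)
    (h2 : m2 ∈ freeG B) (he : ∀ e' ∈ e, e' ∈ freeG B) {j : ℤ} (hj : |j| + 1 ≤ r)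
    (hj' : |j + 1| + 1 ≤ r) :
    cp B b' m1 m2 e (pD (wp X (j + 1))) = cp B b' m1 m2 e (pD (wp X j)) +
      Jn m1 m2 e (pD (wp X j)) (pD (wp X (j + 1))) := by
  obtain ⟨f1, g1⟩ := h.free hj
  obtain ⟨f2, g2⟩ := h.free hj'
  rw [cp_inl, cp_inl]
  refine cb_suc ?_ h1 h2 he
  have hrun := B.run B.y1 le_rfl hy
  have hle := hrun.le
  have e1 : wp X (j + 1) = ((wp X j).1 + dir ((wp X j).2 + 1), (wp X j).2) := by
    rw [← wp_wp, wp_one]; rfl
  have hn : Pt266.NxT (full A).gl (some (wp X j)) (some (wp X (j + 1))) 0 := by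
    rw [e1]
    refine nx_flat g1.1 ?_ ?_
    · have := g2.1; rw [e1] at this; exact this
    · have := g2.2; rw [e1] at this; exact this
  obtain ⟨k1, k2⟩ := near_wp X j
  obtain ⟨k1', k2'⟩ := near_wp X (j + 1)
  refine suc_D hw ⟨hrun.mem _ hle le_rfl, ?_⟩ f1 f2 hn ?_ ?_
  · show (B.xr, B.y1) + dir 2 ∉ A
    rw [dir2]
    simpa using hrun.right
  · intro hc
    have h3 := h.nb (wp X (j + 1)).1 (by linarith) (by linarith)
    apply h3
    rw [hc]
    exact ⟨⟨le_rfl, hle⟩, le_rfl, hy⟩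
  · intro hc
    have h3 := h.nb (wp X j).1 (by linarith) (by linarith)
    apply h3
    rw [hc]
    exact ⟨⟨hle, le_rfl⟩, le_rfl, hy⟩

end

/-! ### profiles -/

theorem prof_gen {cc : TG × ZMod 4 → ℤ} {n q : ℤ} {X : V × ZMod 4}
    (hs : ∀ j : ℤ, -n ≤ j → j < n → cc (Sum.inl (wp X (j + 1)).1, X.2) =
      cc (Sum.inl (wp X j).1, X.2) + if j + 1 = 0 then q else 0) : Prof cc n X q := by
  have hr : ∀ k : ℕ, (k : ℤ) ≤ n → cc (Sum.inl (wp X k).1, X.2) = cc (Sum.inl X.1, X.2) := by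
    intro k
    induction k with
    | zero => intro _; rw [Nat.cast_zero, wp_zero]
    | succ k ih =>
      intro hk
      push_cast at hk ⊢
      rw [hs k (by omega) (by omega), ih (by omega), if_neg (by omega), add_zero]
  have hl : ∀ k : ℕ, (k : ℤ) + 1 ≤ n → cc (Sum.inl X.1, X.2) =
      cc (Sum.inl (wp X (-((k : ℤ) + 1))).1, X.2) + q := by
    intro k
    induction k with
    | zero =>
      intro hk
      have h1 := hs (-1) (by omega) (by omega)
      rw [if_pos (by norm_num), show (-1 : ℤ) + 1 = 0 by norm_num, wp_zero] at h1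
      simpa using h1
    | succ k ih =>
      intro hk
      push_cast at hk
      rw [ih (by omega)]
      have h1 := hs (-((k : ℤ) + 1 + 1)) (by omega) (by omega)
      rw [if_neg (by omega), show -((k : ℤ) + 1 + 1) + 1 = -((k : ℤ) + 1) by ring, add_zero] at h1
      rw [h1]
      push_cast
      rfl
  refine ⟨fun j h1 h2 => ?_, fun j h1 h2 => ?_⟩
  · obtain ⟨k, rfl⟩ := Int.eq_ofNat_of_zero_le h1
    have := hr k h2
    rw [this]; simp
  · obtain ⟨k, hk⟩ := Int.eq_ofNat_of_zero_le (show 0 ≤ j - 1 by omega)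
    have h3 := hl k (by omega)
    have e1 : (k : ℤ) + 1 = j := by omega
    rw [e1] at h3
    rw [h3]; simp

theorem prof_gen2 {cc : TG × ZMod 4 → ℤ} {n : ℤ} {X : V × ZMod 4}
    (hs : ∀ j : ℤ, -n ≤ j → j < n → cc (Sum.inl (wp X (j + 1)).1, X.2) =
      cc (Sum.inl (wp X j).1, X.2) + ((if j + 1 = 0 then -1 else 0) + if j = 0 then -1 else 0)) :
    ∀ j : ℤ, 0 < j → j ≤ n →
      (cc (Sum.inl (wp X j).1, X.2) - cc (Sum.inl X.1, X.2) + 1) % 3 = 0 ∧
      (cc (Sum.inl X.1, X.2) - cc (Sum.inl (wp X (-j)).1, X.2) + 1) % 3 = 0 := by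
  have hr : ∀ k : ℕ, (k : ℤ) + 1 ≤ n → cc (Sum.inl (wp X ((k : ℤ) + 1)).1, X.2) =
      cc (Sum.inl X.1, X.2) - 1 := by
    intro k
    induction k with
    | zero =>
      intro hk
      have h1 := hs 0 (by omega) (by omega)
      rw [if_neg (by omega), if_pos rfl, wp_zero] at h1
      simp only [Nat.cast_zero]
      rw [h1]; ring
    | succ k ih =>
      intro hk
      push_cast at hk ⊢
      rw [hs _ (by omega) (by omega), ih (by omega), if_neg (by omega), if_neg (by omega)]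
      ring
  have hl : ∀ k : ℕ, (k : ℤ) + 1 ≤ n → cc (Sum.inl X.1, X.2) =
      cc (Sum.inl (wp X (-((k : ℤ) + 1))).1, X.2) - 1 := by
    intro k
    induction k with
    | zero =>
      intro hk
      have h1 := hs (-1) (by omega) (by omega)
      rw [if_pos (by norm_num), if_neg (by norm_num), show (-1 : ℤ) + 1 = 0 by norm_num,
        wp_zero] at h1
      simp only [Nat.cast_zero]
      rw [h1]
      norm_num
      ring
    | succ k ih =>
      intro hk
      push_cast at hk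
      rw [ih (by omega)]
      have h1 := hs (-((k : ℤ) + 1 + 1)) (by omega) (by omega)
      rw [if_neg (by omega), if_neg (by omega),
        show -((k : ℤ) + 1 + 1) + 1 = -((k : ℤ) + 1) by ring] at h1
      rw [h1]
      push_cast
      ring
  intro j h1 h2
  obtain ⟨k, hk⟩ := Int.eq_ofNat_of_zero_le (show 0 ≤ j - 1 by omega)
  have e1 : (k : ℤ) + 1 = j := by omega
  have h3 := hl k (by omega)
  have h4 := hr k (by omega)
  rw [e1] at h3 h4
  refine ⟨?_, ?_⟩
  · rw [h4]; ring_nf; simp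
  · omega

section

variable {A : Finset V} {B : Band A} {b' : ℤ}

/-- `q` is not one of the ends `wp X i`, `|i| ≤ n` -/
def Off (n : ℤ) (X : V × ZMod 4) (q : Port TG) : Prop := ∀ i : ℤ, |i| ≤ n → q ≠ pD (wp X i)

theorem Off.ind {n : ℤ} {X : V × ZMod 4} {q : Port TG} (h : Off n X q) {i : ℤ} (hi : |i| ≤ n) :
    ind q (pD (wp X i)) = 0 := if_neg (h i hi)

theorem ind_wp (X : V × ZMod 4) (i : ℤ) : ind (pD X) (pD (wp X i)) = if i = 0 then 1 else 0 := by
  unfold ind
  refine if_congr ?_ rfl rfl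
  constructor
  · intro h
    have h1 := pD_inj h
    have h2 : wp X 0 = wp X i := by rw [wp_zero]; exact h1
    exact (wp_inj h2).symm
  · rintro rfl
    rw [wp_zero]

/-- charges as a function of the ports of `TG` -/
def ccF (B : Band A) (b' : ℤ) (m1 m2 : Port TG) (e : Option (Port TG)) (q : TG × ZMod 4) : ℤ :=
  cp B b' m1 m2 e (some q)

variable {w : Sw300.Wd V} {l : List (Port V)}

/-- **profile at the first mark** -/
theorem prof_m1 (hw : Psi664.BW (full A) B.xl B.y1 w l) (hy : B.y1 < B.y2) {r n : ℤ}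
    {X : V × ZMod 4} (h : FlatD B r X) (hn : n + 1 ≤ r) {m2 : Port TG} {e : Option (Port TG)}
    (h2 : m2 ∈ freeG B) (he : ∀ e' ∈ e, e' ∈ freeG B) (o2 : Off n X m2)
    (oe : ∀ e' ∈ e, Off n X e') (h1 : pD X ∈ freeG B) :
    Prof (ccF B b' (pD X) m2 e) n X 1 := by
  refine prof_gen fun j k1 k2 => ?_
  have j1 : |j| ≤ n := abs_le.2 ⟨k1, by omega⟩
  have j2 : |j + 1| ≤ n := abs_le.2 ⟨by omega, by omega⟩
  have h3 := cp_flat (b' := b') hw hy h h1 h2 he (j := j) (by omega) (by omega)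
  show cp B b' (pD X) m2 e (pD (wp X (j + 1))) = cp B b' (pD X) m2 e (pD (wp X j)) + _
  rw [h3]
  congr 1
  unfold Jn
  rw [ind_wp, o2.ind j2]
  cases e with
  | none => simp
  | some e' =>
    have oe' := oe e' rfl
    simp only
    rw [oe'.ind j1, oe'.ind j2]
    simp

/-- **profile at the second mark** -/
theorem prof_m2 (hw : Psi664.BW (full A) B.xl B.y1 w l) (hy : B.y1 < B.y2) {r n : ℤ}
    {X : V × ZMod 4} (h : FlatD B r X) (hn : n + 1 ≤ r) {m1 e : Port TG}
    (h1 : m1 ∈ freeG B) (he : e ∈ freeG B) (o1 : Off n X m1)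
    (oe : Off n X e) (h2 : pD X ∈ freeG B) :
    Prof (ccF B b' m1 (pD X) (some e)) n X 1 := by
  refine prof_gen fun j k1 k2 => ?_
  have j1 : |j| ≤ n := abs_le.2 ⟨k1, by omega⟩
  have j2 : |j + 1| ≤ n := abs_le.2 ⟨by omega, by omega⟩
  have h3 := cp_flat (b' := b') hw hy h h1 h2 (e := some e) (fun e' he' => by
    rw [Option.mem_some_iff] at he'; rw [← he']; exact he) (j := j) (by omega) (by omega)
  show cp B b' m1 (pD X) (some e) (pD (wp X (j + 1))) =
    cp B b' m1 (pD X) (some e) (pD (wp X j)) + _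
  rw [h3]
  congr 1
  unfold Jn
  rw [ind_wp, o1.ind j2]
  simp only
  rw [oe.ind j1, oe.ind j2]
  simp

/-- **profile at the second mark, member `none`** -/
theorem prof_none (hw : Psi664.BW (full A) B.xl B.y1 w l) (hy : B.y1 < B.y2) {r n : ℤ}
    {X : V × ZMod 4} (h : FlatD B r X) (hn : n + 1 ≤ r) {m1 : Port TG}
    (h1 : m1 ∈ freeG B) (o1 : Off n X m1) (h2 : pD X ∈ freeG B) :
    Prof (ccF B b' m1 (pD X) none) n X (-1) := by
  refine prof_gen fun j k1 k2 => ?_
  have j1 : |j| ≤ n := abs_le.2 ⟨k1, by omega⟩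
  have j2 : |j + 1| ≤ n := abs_le.2 ⟨by omega, by omega⟩
  have h3 := cp_flat (b' := b') hw hy h h1 h2 (e := none) (fun e' he' => by simp at he')
    (j := j) (by omega) (by omega)
  show cp B b' m1 (pD X) none (pD (wp X (j + 1))) = cp B b' m1 (pD X) none (pD (wp X j)) + _
  rw [h3]
  congr 1
  unfold Jn
  rw [ind_wp, o1.ind j2]
  simp only
  split_ifs <;> simp

/-- **profile at the end `e`** -/
theorem prof_e (hw : Psi664.BW (full A) B.xl B.y1 w l) (hy : B.y1 < B.y2) {r n : ℤ}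
    {X : V × ZMod 4} (h : FlatD B r X) (hn : n + 1 ≤ r) {m1 m2 : Port TG}
    (h1 : m1 ∈ freeG B) (h2 : m2 ∈ freeG B) (o1 : Off n X m1)
    (o2 : Off n X m2) (he : pD X ∈ freeG B) :
    ∀ j : ℤ, 0 < j → j ≤ n →
      (ccF B b' m1 m2 (some (pD X)) (Sum.inl (wp X j).1, X.2) -
        ccF B b' m1 m2 (some (pD X)) (Sum.inl X.1, X.2) + 1) % 3 = 0 ∧
      (ccF B b' m1 m2 (some (pD X)) (Sum.inl X.1, X.2) -
        ccF B b' m1 m2 (some (pD X)) (Sum.inl (wp X (-j)).1, X.2) + 1) % 3 = 0 := by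
  refine prof_gen2 fun j k1 k2 => ?_
  have j1 : |j| ≤ n := abs_le.2 ⟨k1, by omega⟩
  have j2 : |j + 1| ≤ n := abs_le.2 ⟨by omega, by omega⟩
  have h3 := cp_flat (b' := b') hw hy h h1 h2 (e := some (pD X)) (fun e' he' => by
    rw [Option.mem_some_iff] at he'; rw [← he']; exact he) (j := j) (by omega) (by omega)
  show cp B b' m1 m2 (some (pD X)) (pD (wp X (j + 1))) =
    cp B b' m1 m2 (some (pD X)) (pD (wp X j)) + _
  rw [h3]
  congr 1
  unfold Jn
  rw [o1.ind j2, o2.ind j2]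
  simp only
  rw [ind_wp, ind_wp]
  split_ifs <;> simp

end

end Crest.Agent.R158.Xp612
end
end

-- ▼ part R158/Xp3_612
section

/-!
# R158, NormP (helper612): planar special points of the marks, part 3

* `rX`, `flatW_up`, `prof_up`, `prof_e_up` : the reflected upper half
* `FarX M L B r X` : `X` is a free end at distance more than `r` from the vertices of its cell and from
  the mouth corners
* **`flatD_of`** : `FarX → FlatD`
-/

set_option autoImplicit false

noncomputable section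

namespace Crest.Agent.R158.Xp612

open Crest.Agent.R158.Nm211
open Crest.Agent.R158.Ka470
open Crest.Agent.R158.Nz399
open Crest.Agent.R158.Lr158
open Crest.Agent.R158.Pt266 (dir FFree nx_flat)
open Crest.Agent.R158.Env664 (TG Mac D mem_D div_iff Run CutAdj Adj4 lowT upT Band)
open Crest.Agent.R158.Sw300 (Port)
open Crest.Agent.R158.Xr249 (full mem_lowT low_step)
open Crest.Agent.R158.Fm857 (freeG pG cb isLS mouthC mem_mouthC clow)
open Crest.Agent.R158.Rf896 (rA rB rz rp mem_rA rz_rz)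

/-! ### reflection -/

/-- reflected end -/
def rX (X : V × ZMod 4) : V × ZMod 4 := (rz X.1, -X.2)


theorem inner_rX (X : V × ZMod 4) (u : V) : inner (rX X) u ↔ inner X (rz u) := by
  obtain ⟨⟨a, b⟩, d⟩ := X
  obtain ⟨x, y⟩ := u
  unfold inner rX rz
  rw [dir_neg]
  simp only
  constructor <;> intro h <;> nlinarith [h]

theorem wp_rX (X : V × ZMod 4) (j : ℤ) : wp (rX X) j = rX (wp X (-j)) := by
  obtain ⟨⟨a, b⟩, d⟩ := X
  unfold wp rX
  have e1 : ∀ d : ZMod 4, dir (-d + 1) = (-(dir (d + 1)).1, (dir (d + 1)).2) := by decide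
  rw [e1]
  simp [rz]
  ring

theorem rz_near {X u : V} {r : ℤ} (h1 : |u.1 - (rz X).1| ≤ r) (h2 : |u.2 - (rz X).2| ≤ r) :
    |(rz u).1 - X.1| ≤ r ∧ |(rz u).2 - X.2| ≤ r := by
  unfold rz at *
  simp only at *
  refine ⟨h1, ?_⟩
  rw [abs_le] at h2 ⊢
  omega

section

variable {M : Mac} {L a b c : ℤ} {B : Band (D M.F L)}

/-- **flat walls of the lower half** -/
theorem flatW_low (m : MB M L a b c B) {y0 : ℤ} (h1 : B.y1 < y0) (h2 : y0 ≤ B.y2) {r : ℤ}
    {X : V × ZMod 4} (h : FlatD B r X) (hH : X.1 ∈ (lowHalf (lb_low m h1 h2).d).H) :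
    FlatW (lowHalf (lb_low m h1 h2).d) r X := by
  have e1 := m.xl
  have e2 := m.xr
  refine flatW_of _ h.p (fun u k1 k2 hc => h.nb u k1 k2 ?_) hH
  omega

/-- **flat walls of the reflected upper half** -/
theorem flatW_up (m : MB M L a b c B) {y0 : ℤ} (h1 : -B.y2 < y0) (h2 : y0 ≤ -B.y1) {r : ℤ}
    {X : V × ZMod 4} (h : FlatD B r X) (hH : (rX X).1 ∈ (lowHalf (lb_up m h1 h2).d).H) :
    FlatW (lowHalf (lb_up m h1 h2).d) r (rX X) := by
  have e1 := m.xl
  have e2 := m.xr
  have hDr : D M.rf.F L = rA (D M.F L) := Rf896.D_rA m.hL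
  refine flatW_of _ (fun u k1 k2 => ?_) (fun u k1 k2 hc => ?_) hH
  · obtain ⟨k3, k4⟩ := rz_near k1 k2
    rw [hDr, mem_rA, h.p _ k3 k4, inner_rX]
  · obtain ⟨k3, k4⟩ := rz_near k1 k2
    have hc' : (a * L ≤ u.1 ∧ u.1 ≤ b * L + L - 1) ∧ -B.y2 ≤ u.2 ∧ u.2 < y0 := hc
    refine h.nb _ k3 k4 ?_
    unfold rz
    simp only
    omega

/-- charges of the reflected half at a reflected end -/
theorem ccU_rX (b' : ℤ) (m1 m2 : Port TG) (e : Option (Port TG)) (X : V × ZMod 4) :
    ccU B b' m1 m2 e (Sum.inl (rX X).1, (rX X).2) =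
      1 - ccF B b' m1 m2 e (Sum.inl X.1, X.2) := by
  have e1 : rp (some (Sum.inl (rX X).1, (rX X).2)) = (some (Sum.inl X.1, X.2) : Port TG) := by
    show (some (Sum.inl (rz (rX X).1), -(rX X).2) : Port TG) = _
    unfold rX
    simp only
    rw [rz_rz, neg_neg]
  show 1 - Fm857.cp B b' m1 m2 e (rp (some (Sum.inl (rX X).1, (rX X).2))) = _
  rw [e1]
  rfl

/-- **profile of a gap in the reflected half** -/
theorem prof_up {b' : ℤ} {m1 m2 : Port TG} {e : Option (Port TG)} {X : V × ZMod 4} {n q : ℤ}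
    (hn : 0 ≤ n) (h : Prof (ccF B b' m1 m2 e) (n + 1) X q) :
    Prof (ccU B b' m1 m2 e) n (nxt (rX X)) q := by
  have key : ∀ j : ℤ, ccU B b' m1 m2 e (Sum.inl (wp (nxt (rX X)) j).1, (nxt (rX X)).2) =
      1 - ccF B b' m1 m2 e (Sum.inl (wp X (-(j + 1))).1, X.2) := by
    intro j
    have e1 : wp (nxt (rX X)) j = rX (wp X (-(j + 1))) := by rw [wp_nxt, wp_rX]
    have e2 : (nxt (rX X)).2 = (rX (wp X (-(j + 1)))).2 := rfl
    rw [e1, e2, ccU_rX]
    rfl
  have key0 : ccU B b' m1 m2 e (Sum.inl (nxt (rX X)).1, (nxt (rX X)).2) =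
      1 - ccF B b' m1 m2 e (Sum.inl (wp X (-1)).1, X.2) := by
    have := key 0
    rwa [wp_zero, zero_add] at this
  have k0 := h.l 1 (by norm_num) (by omega)
  refine ⟨fun j h1 h2 => ?_, fun j h1 h2 => ?_⟩
  · have k1 := h.l (j + 1) (by omega) (by omega)
    rw [key, key0]
    omega
  · have k1 := h.r (j - 1) (by omega) (by omega)
    have e3 : -(-j + 1) = j - 1 := by ring
    rw [key, key0, e3]
    omega

/-- **profile of the end in the reflected half** -/
theorem prof_e_up {b' : ℤ} {m1 m2 : Port TG} {e : Option (Port TG)} {X : V × ZMod 4} {n : ℤ}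
    (h : ∀ j : ℤ, 0 < j → j ≤ n →
      (ccF B b' m1 m2 e (Sum.inl (wp X j).1, X.2) - ccF B b' m1 m2 e (Sum.inl X.1, X.2) + 1) % 3 = 0 ∧
      (ccF B b' m1 m2 e (Sum.inl X.1, X.2) -
        ccF B b' m1 m2 e (Sum.inl (wp X (-j)).1, X.2) + 1) % 3 = 0) :
    ∀ j : ℤ, 0 < j → j ≤ n →
      (ccU B b' m1 m2 e (Sum.inl (wp (rX X) j).1, (rX X).2) -
        ccU B b' m1 m2 e (Sum.inl (rX X).1, (rX X).2) + 1) % 3 = 0 ∧
      (ccU B b' m1 m2 e (Sum.inl (rX X).1, (rX X).2) -
        ccU B b' m1 m2 e (Sum.inl (wp (rX X) (-j)).1, (rX X).2) + 1) % 3 = 0 := by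
  have key : ∀ j : ℤ, ccU B b' m1 m2 e (Sum.inl (wp (rX X) j).1, (rX X).2) =
      1 - ccF B b' m1 m2 e (Sum.inl (wp X (-j)).1, X.2) := by
    intro j
    have e1 : wp (rX X) j = rX (wp X (-j)) := wp_rX X j
    have e2 : (rX X).2 = (rX (wp X (-j))).2 := rfl
    rw [e1, e2, ccU_rX]
    rfl
  intro j h1 h2
  obtain ⟨k1, k2⟩ := h j h1 h2
  rw [key, key, ccU_rX, neg_neg]
  constructor <;> omega

end

/-! ### geometry -/

/-- `X` is a free end, not in the mouths, at distance more than `r` from the vertices of its cell and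
from the mouth corners -/
structure FarX (F : Finset V) (L : ℤ) (B : Band (D F L)) (r : ℤ) (X : V × ZMod 4) : Prop where
  free : FFree (D F L) X
  nm : ¬ Fm857.mouth B (some X)
  v : ∀ p q : ℤ, (p = X.1.1 / L ∨ p = X.1.1 / L + 1) → (q = X.1.2 / L ∨ q = X.1.2 / L + 1) →
    r < |X.1.1 - p * L| ∨ r < |X.1.2 - q * L|
  mc : ∀ v ∈ mouthC B, r < |X.1.1 - v.1| ∨ r < |X.1.2 - v.2|

theorem FarX.mono {F : Finset V} {L : ℤ} {B : Band (D F L)} {r r' : ℤ} {X : V × ZMod 4}
    (h : FarX F L B r X) (hr : r' ≤ r) : FarX F L B r' X :=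
  ⟨h.free, h.nm, fun p q h1 h2 => (h.v p q h1 h2).imp (lt_of_le_of_lt hr) (lt_of_le_of_lt hr),
    fun v hv => (h.mc v hv).imp (lt_of_le_of_lt hr) (lt_of_le_of_lt hr)⟩

/-- position of a free end in its cell -/
theorem FarX.cell {F : Finset V} {L : ℤ} (hL : 0 < L) {B : Band (D F L)} {r : ℤ} (hr : 1 ≤ r)
    {X : V × ZMod 4} (h : FarX F L B r X) : ∃ i j : ℤ, (i, j) ∈ F ∧
      ((X.2 = 0 ∧ X.1.1 = i * L ∧ (i - 1, j) ∉ F ∧ j * L + r < X.1.2 ∧ X.1.2 + r < j * L + L) ∨
      (X.2 = 2 ∧ X.1.1 = i * L + L - 1 ∧ (i + 1, j) ∉ F ∧ j * L + r < X.1.2 ∧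
        X.1.2 + r < j * L + L) ∨
      (X.2 = 3 ∧ X.1.2 = j * L ∧ (i, j - 1) ∉ F ∧ i * L + r < X.1.1 ∧ X.1.1 + r < i * L + L) ∨
      (X.2 = 1 ∧ X.1.2 = j * L + L - 1 ∧ (i, j + 1) ∉ F ∧ i * L + r < X.1.1 ∧
        X.1.1 + r < i * L + L)) := by
  obtain ⟨⟨x, y⟩, d⟩ := X
  obtain ⟨⟨h1, h2⟩, -, hv, -⟩ := h
  simp only at hv h1 h2 ⊢
  rw [mem_D hL] at h1
  simp only at h1
  set i := x / L with hi
  set j := y / L with hj
  obtain ⟨a1, a2⟩ := (div_iff hL x i).1 hi.symm
  obtain ⟨a3, a4⟩ := (div_iff hL y j).1 hj.symm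
  have key : ∀ (p q : ℤ) (u : V), p * L ≤ u.1 → u.1 < p * L + L → q * L ≤ u.2 →
      u.2 < q * L + L → (u ∈ D F L ↔ (p, q) ∈ F) := by
    intro p q u k1 k2 k3 k4
    rw [mem_D hL, (div_iff hL _ _).2 ⟨k1, k2⟩, (div_iff hL _ _).2 ⟨k3, k4⟩]
  have e1 : (i + 1) * L = i * L + L := by ring
  have e2 : (j + 1) * L = j * L + L := by ring
  have e3 : (i - 1) * L = i * L - L := by ring
  have e4 : (j - 1) * L = j * L - L := by ring
  have v00 := hv i j (Or.inl rfl) (Or.inl rfl)
  have v01 := hv i (j + 1) (Or.inl rfl) (Or.inr rfl)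
  have v10 := hv (i + 1) j (Or.inr rfl) (Or.inl rfl)
  have v11 := hv (i + 1) (j + 1) (Or.inr rfl) (Or.inr rfl)
  rw [e1] at v10 v11
  rw [e2] at v01 v11
  rw [lt_abs, lt_abs] at v00 v01 v10 v11
  refine ⟨i, j, h1, ?_⟩
  rcases Lr158.z4 d with rfl | rfl | rfl | rfl
  · left
    rw [dir0] at h2
    simp only [Prod.mk_add_mk, add_zero] at h2
    have hx : x = i * L := by
      by_contra hne
      exact h2 ((key i j _ (by simp only; omega) (by simp only; omega) a3 a4).2 h1)
    have h3 : (i - 1, j) ∉ F := by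
      rw [← key (i - 1) j (x + -1, y) (by simp only; omega) (by simp only; omega) a3 a4]
      exact h2
    refine ⟨rfl, hx, h3, ?_, ?_⟩ <;> omega
  · right; right; right
    rw [dir1] at h2
    simp only [Prod.mk_add_mk, add_zero] at h2
    have hx : y = j * L + L - 1 := by
      by_contra hne
      exact h2 ((key i j _ a1 a2 (by simp only; omega) (by simp only; omega)).2 h1)
    have h3 : (i, j + 1) ∉ F := by
      rw [← key i (j + 1) (x, y + 1) a1 a2 (by simp only; omega) (by simp only; omega)]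
      exact h2
    refine ⟨rfl, hx, h3, ?_, ?_⟩ <;> omega
  · right; left
    rw [dir2] at h2
    simp only [Prod.mk_add_mk, add_zero] at h2
    have hx : x = i * L + L - 1 := by
      by_contra hne
      exact h2 ((key i j _ (by simp only; omega) (by simp only; omega) a3 a4).2 h1)
    have h3 : (i + 1, j) ∉ F := by
      rw [← key (i + 1) j (x + 1, y) (by simp only; omega) (by simp only; omega) a3 a4]
      exact h2
    refine ⟨rfl, hx, h3, ?_, ?_⟩ <;> omega
  · right; right; left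
    rw [dir3] at h2
    simp only [Prod.mk_add_mk, add_zero] at h2
    have hx : y = j * L := by
      by_contra hne
      exact h2 ((key i j _ a1 a2 (by simp only; omega) (by simp only; omega)).2 h1)
    have h3 : (i, j - 1) ∉ F := by
      rw [← key i (j - 1) (x, y + -1) a1 a2 (by simp only; omega) (by simp only; omega)]
      exact h2
    refine ⟨rfl, hx, h3, ?_, ?_⟩ <;> omega

/-- **free ends far from the vertices and the mouth corners are on flat walls** -/
theorem flatD_of {M : Mac} {L a b c : ℤ} {B : Band (D M.F L)} (m : MB M L a b c B) {r : ℤ}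
    (hr : 1 ≤ r) (g1 : c * L + r < B.y1) (g2 : B.y2 + r < c * L + L) {X : V × ZMod 4}
    (h : FarX M.F L B r X) : FlatD B r X := by
  have hL := m.hL
  obtain ⟨i, j, hF, hX⟩ := h.cell hL hr
  obtain ⟨-, hnm, -, hmc⟩ := h
  obtain ⟨⟨x, y⟩, d⟩ := X
  simp only at hX hmc
  have key : ∀ (p q : ℤ) (u : V), p * L ≤ u.1 → u.1 < p * L + L → q * L ≤ u.2 →
      u.2 < q * L + L → (u ∈ D M.F L ↔ (p, q) ∈ M.F) := by
    intro p q u k1 k2 k3 k4
    rw [mem_D hL, (div_iff hL _ _).2 ⟨k1, k2⟩, (div_iff hL _ _).2 ⟨k3, k4⟩]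
  have e1 : (i + 1) * L = i * L + L := by ring
  have e2 : (j + 1) * L = j * L + L := by ring
  have e3 : (i - 1) * L = i * L - L := by ring
  have e4 : (j - 1) * L = j * L - L := by ring
  constructor
  · rintro ⟨u1, u2⟩ k1 k2
    simp only at k1 k2
    rw [abs_le] at k1 k2
    unfold inner
    simp only
    rcases hX with ⟨rfl, hx, hn, h3, h4⟩ | ⟨rfl, hx, hn, h3, h4⟩ | ⟨rfl, hx, hn, h3, h4⟩ |
      ⟨rfl, hx, hn, h3, h4⟩
    · rw [dir0]
      simp only
      by_cases hu : i * L ≤ u1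
      · rw [key i j _ (by simp only; omega) (by simp only; omega) (by simp only; omega)
          (by simp only; omega)]
        exact iff_of_true hF (by omega)
      · rw [key (i - 1) j _ (by simp only; omega) (by simp only; omega) (by simp only; omega)
          (by simp only; omega)]
        exact iff_of_false hn (by omega)
    · rw [dir2]
      simp only
      by_cases hu : u1 < i * L + L
      · rw [key i j _ (by simp only; omega) (by simp only; omega) (by simp only; omega)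
          (by simp only; omega)]
        exact iff_of_true hF (by omega)
      · rw [key (i + 1) j _ (by simp only; omega) (by simp only; omega) (by simp only; omega)
          (by simp only; omega)]
        exact iff_of_false hn (by omega)
    · rw [dir3]
      simp only
      by_cases hu : j * L ≤ u2
      · rw [key i j _ (by simp only; omega) (by simp only; omega) (by simp only; omega)
          (by simp only; omega)]
        exact iff_of_true hF (by omega)
      · rw [key i (j - 1) _ (by simp only; omega) (by simp only; omega) (by simp only; omega)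
          (by simp only; omega)]
        exact iff_of_false hn (by omega)
    · rw [dir1]
      simp only
      by_cases hu : u2 < j * L + L
      · rw [key i j _ (by simp only; omega) (by simp only; omega) (by simp only; omega)
          (by simp only; omega)]
        exact iff_of_true hF (by omega)
      · rw [key i (j + 1) _ (by simp only; omega) (by simp only; omega) (by simp only; omega)
          (by simp only; omega)]
        exact iff_of_false hn (by omega)
  · rintro ⟨u1, u2⟩ k1 k2 ⟨⟨k3, k4⟩, k5, k6⟩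
    simp only at k1 k2 k3 k4 k5 k6
    rw [abs_le] at k1 k2
    have exl := m.xl
    have exr := m.xr
    have hrun := m.run
    -- the macroscopic row
    have hlt : ∀ p q : ℤ, p * L < q * L → p < q := fun p q hpq => by
      by_contra hcon
      have : q * L ≤ p * L := by nlinarith
      omega
    have hc1 : (c + 1) * L = c * L + L := by ring
    have hrow : ∀ q : ℤ, q * L ≤ y → y < q * L + L → q = c := by
      intro q q1 q2
      have s1 := hlt q (c + 1) (by rw [hc1]; omega)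
      have s2 := hlt c (q + 1) (by rw [add_mul, one_mul]; omega)
      omega
    have hmem : ∀ p : ℤ, a ≤ p → p ≤ b → (p, c) ∈ M.F := fun p p1 p2 => hrun.mem p p1 p2
    rcases hX with ⟨rfl, hx, hn, h3, h4⟩ | ⟨rfl, hx, hn, h3, h4⟩ | ⟨rfl, hx, hn, h3, h4⟩ |
      ⟨rfl, hx, hn, h3, h4⟩
    · obtain rfl := hrow j (by omega) (by omega)
      have ha : a ≤ i := by
        have := hlt (a - 1) i (by rw [sub_mul, one_mul]; omega)
        omega
      have hb : i ≤ b := by
        have h5 := hlt i (b + 2) (by rw [add_mul]; omega)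
        rcases eq_or_ne i (b + 1) with h6 | h6
        · rw [h6] at hF; exact absurd hF hrun.right
        · omega
      have hia : i = a := by
        by_contra hne
        exact hn (hmem _ (by omega) (by omega))
      have hxl : x = B.xl := by rw [hx, hia, exl]
      have hmo : ¬ (B.y1 ≤ y ∧ y < B.y2) := fun hm => hnm ⟨hm, Or.inl ⟨rfl, hxl⟩⟩
      have m1 := hmc (B.xl, B.y1) (mem_mouthC.2 (Or.inl rfl))
      have m2 := hmc (B.xl, B.y2 - 1) (mem_mouthC.2 (Or.inr (Or.inl rfl)))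
      simp only at m1 m2
      rw [lt_abs, lt_abs] at m1 m2
      omega
    · obtain rfl := hrow j (by omega) (by omega)
      have ha : a ≤ i := by
        have := hlt (a - 2) i (by rw [sub_mul]; omega)
        rcases eq_or_ne i (a - 1) with h6 | h6
        · rw [h6] at hF; exact absurd hF hrun.left
        · omega
      have hb : i ≤ b := by
        have h5 := hlt i (b + 1) (by rw [add_mul, one_mul]; omega)
        omega
      have hia : i = b := by
        by_contra hne
        exact hn (hmem _ (by omega) (by omega))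
      have hxl : x = B.xr := by rw [hx, hia, exr]
      have hmo : ¬ (B.y1 ≤ y ∧ y < B.y2) := fun hm => hnm ⟨hm, Or.inr ⟨rfl, hxl⟩⟩
      have m1 := hmc (B.xr, B.y1) (mem_mouthC.2 (Or.inr (Or.inr (Or.inl rfl))))
      have m2 := hmc (B.xr, B.y2 - 1) (mem_mouthC.2 (Or.inr (Or.inr (Or.inr rfl))))
      simp only at m1 m2
      rw [lt_abs, lt_abs] at m1 m2
      omega
    · obtain rfl := hrow j (by omega) (by omega)
      omega
    · obtain rfl := hrow j (by omega) (by omega)
      omega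

end Crest.Agent.R158.Xp612
end
end

-- ▼ part R158/Xp4_612
section

/-!
# R158, NormP (helper612): planar special points of the marks, part 4

* `Pts F L B r s X1 X2 e` : the two marks and the end are far from the corners and from one another
* **`ok_low`, `ok_up`** : the planar special points are admissible (`SpOk`)
* **`dis_XP`, `dis_low`, `dis_up`** : their supports are disjoint
-/

set_option autoImplicit false

noncomputable section

namespace Crest.Agent.R158.Xp612

open Crest.Agent.R158.Nm211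
open Crest.Agent.R158.Ka470
open Crest.Agent.R158.Nz399
open Crest.Agent.R158.Lr158
open Crest.Agent.R158.Xd841
open Crest.Agent.R158.Pt266 (dir FFree nx_flat)
open Crest.Agent.R158.Env664 (TG Mac D mem_D div_iff Run CutAdj Adj4 lowT upT Band)
open Crest.Agent.R158.Sw300 (Port)
open Crest.Agent.R158.Fm857 (freeG mouthC mem_mouthC)
open Crest.Agent.R158.Rf896 (rA rB rz rp)

/-- sup-distance of two tiles -/
def Ds (s : ℤ) (t u : V) : Prop := s ≤ |t.1 - u.1| ∨ s ≤ |t.2 - u.2|

theorem Ds.symm {s : ℤ} {t u : V} (h : Ds s t u) : Ds s u t := by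
  unfold Ds at *
  rwa [abs_sub_comm u.1, abs_sub_comm u.2]

theorem Ds.mono {s s' : ℤ} {t u : V} (h : Ds s t u) (hs : s' ≤ s) : Ds s' t u := by
  unfold Ds at *
  omega

theorem Ds.rz {s : ℤ} {t u : V} (h : Ds s t u) : Ds s (rz t) (rz u) := by
  unfold Ds Rf896.rz at *
  simp only
  have e1 : -t.2 - 1 - (-u.2 - 1) = -(t.2 - u.2) := by ring
  rwa [e1, abs_neg]

/-- **positions of the marks and of the end** -/
structure Pts (F : Finset V) (L : ℤ) (B : Band (D F L)) (r s : ℤ) (X1 X2 : V × ZMod 4)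
    (e : Option (Port TG)) : Prop where
  f1 : FarX F L B r X1
  f2 : FarX F L B r X2
  fe : ∀ t d, e = some (some (Sum.inl t, d)) → FarX F L B r (t, d)
  ge : ∀ e' ∈ e, e' ∈ freeG B
  d12 : Ds s X1.1 X2.1
  d1 : ∀ t d, e = some (some (Sum.inl t, d)) → Ds s X1.1 t
  d2 : ∀ t d, e = some (some (Sum.inl t, d)) → Ds s X2.1 t

theorem off_of {n s : ℤ} {X Y : V × ZMod 4} (h : Ds s X.1 Y.1) (hn : n < s) : Off n X (pD Y) := by
  intro i hi hc
  have h1 := pD_inj hc
  obtain ⟨k1, k2⟩ := near_wp X i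
  rw [← h1, abs_sub_comm] at k1 k2
  rcases h with h | h <;> omega

theorem off_e {n s : ℤ} {X : V × ZMod 4} {e' : Port TG}
    (h : ∀ t d, e' = some (Sum.inl t, d) → Ds s X.1 t) (hn : n < s) : Off n X e' := by
  intro i hi hc
  have h1 := h _ _ hc
  obtain ⟨k1, k2⟩ := near_wp X i
  rw [abs_sub_comm] at k1 k2
  rcases h1 with h1 | h1 <;> omega

section

variable {M : Mac} {L a b c : ℤ} {B : Band (D M.F L)} {b' : ℤ} {r s : ℤ}
  {X1 X2 : V × ZMod 4} {e : Option (Port TG)}

theorem freeG_of {A : Finset V} {B : Band A} {r : ℤ} {X : V × ZMod 4} (h : FlatD B r X)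
    (hr : 1 ≤ r) : pD X ∈ freeG B := by
  have := (h.free (j := 0) (by simpa using hr)).1
  rwa [wp_zero] at this

/-- **the planar special points of the lower half are admissible** -/
theorem ok_low (m : MB M L a b c B) {y0 : ℤ} (h1 : B.y1 < y0) (h2 : y0 ≤ B.y2) {ρ : ℕ}
    (h : (lowHalf (lb_low m h1 h2).d).Sz ρ) (hr : 5 * (ρ : ℤ) + 1 ≤ r)
    (g1 : c * L + r < B.y1) (g2 : B.y2 + r < c * L + L) (hs : 3 * (ρ : ℤ) < s)
    (P : Pts M.F L B r s X1 X2 e) (cl : ℤ) :
    ∀ x ∈ XP (lowHalf (lb_low m h1 h2).d) false X1 X2 e,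
      SpOk h (Cg (ccF B b' (pD X1) (pD X2) e) cl h) x := by
  obtain ⟨w, l, hw⟩ := mb_bw m
  have hy : B.y1 < B.y2 := by omega
  have hr1 : 1 ≤ r := by omega
  have F1 := flatD_of m hr1 g1 g2 P.f1
  have F2 := flatD_of m hr1 g1 g2 P.f2
  have G1 := freeG_of F1 hr1
  have G2 := freeG_of F2 hr1
  intro x hx
  unfold XP at hx
  rw [Finset.mem_union, Finset.mem_union] at hx
  rcases hx with hx | hx | hx
  · split_ifs at hx with hH
    · rw [Finset.mem_singleton.1 hx]
      exact gT_ok hr (flatW_low m h1 h2 F1 hH) (prof_m1 hw hy F1 (by omega) G2 P.ge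
        (off_of P.d12 hs) (fun e' he' => off_e (fun t d ht => P.d1 t d (by
          rw [Option.mem_def] at he'; rw [he', ht])) hs) G1)
    · exact absurd hx (Finset.notMem_empty _)
  · split_ifs at hx with hH he
    · rw [Finset.mem_singleton.1 hx]
      subst he
      exact gF_ok hr (flatW_low m h1 h2 F2 hH) (prof_none hw hy F2 (by omega) G1
        (off_of P.d12.symm hs) G2)
    · rw [Finset.mem_singleton.1 hx]
      obtain ⟨e', rfl⟩ := Option.ne_none_iff_exists'.1 he
      exact gT_ok hr (flatW_low m h1 h2 F2 hH) (prof_m2 hw hy F2 (by omega) G1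
        (P.ge e' rfl) (off_of P.d12.symm hs) (off_e (fun t d ht => P.d2 t d (by rw [ht])) hs) G2)
    · exact absurd hx (Finset.notMem_empty _)
  · rcases e with _ | _ | ⟨t | ⟨j, y⟩, d⟩
    · exact absurd hx (Finset.notMem_empty _)
    · exact absurd hx (Finset.notMem_empty _)
    · simp only [XE] at hx
      split_ifs at hx with hH
      · have F3 := flatD_of m hr1 g1 g2 (P.fe t d rfl)
        have G3 := freeG_of F3 hr1
        have Pe := prof_e (b' := b') (n := 3 * (ρ : ℤ)) hw hy F3 (by omega) G1 G2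
          (off_of (Y := X1) (P.d1 t d rfl).symm hs) (off_of (Y := X2) (P.d2 t d rfl).symm hs) G3
        have W3 := flatW_low m h1 h2 F3 hH
        rw [Finset.mem_insert, Finset.mem_singleton] at hx
        rcases hx with rfl | rfl
        · exact eF_ok hr W3 Pe
        · exact eT_ok hr W3 Pe
      · exact absurd hx (Finset.notMem_empty _)
    · exact absurd hx (Finset.notMem_empty _)

theorem map_rp_eq {t : V} {d : ZMod 4} (h : e.map rp = some (some (Sum.inl t, d))) :
    e = some (some (Sum.inl (rz t), -d)) := by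
  rcases e with _ | _ | ⟨t' | ⟨j, y⟩, d'⟩
  · exact absurd h (by simp)
  · have : (some none : Option (Port TG)) = some (some (Sum.inl t, d)) := h
    simp at this
  · have h' : (some (some (Sum.inl (rz t'), -d')) : Option (Port TG)) =
      some (some (Sum.inl t, d)) := h
    simp only [Option.some.injEq, Prod.mk.injEq, Sum.inl.injEq] at h'
    obtain ⟨rfl, rfl⟩ := h'
    rw [Rf896.rz_rz, neg_neg]
  · have h' : (some (some (Sum.inr _, -d')) : Option (Port TG)) = some (some (Sum.inl t, d)) := h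
    simp at h'

/-- **the planar special points of the reflected upper half are admissible** -/
theorem ok_up (m : MB M L a b c B) {y0 : ℤ} (h1 : -B.y2 < y0) (h2 : y0 ≤ -B.y1) {ρ : ℕ}
    (h : (lowHalf (lb_up m h1 h2).d).Sz ρ) (hr : 5 * (ρ : ℤ) + 2 ≤ r)
    (g1 : c * L + r < B.y1) (g2 : B.y2 + r < c * L + L) (hs : 3 * (ρ : ℤ) + 1 < s)
    (P : Pts M.F L B r s X1 X2 e) (cl : ℤ) :
    ∀ x ∈ XP (lowHalf (lb_up m h1 h2).d) true (rX X1) (rX X2) (e.map rp),
      SpOk h (Cg (ccU B b' (pD X1) (pD X2) e) cl h) x := by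
  obtain ⟨w, l, hw⟩ := mb_bw m
  have hy : B.y1 < B.y2 := by omega
  have hr1 : 1 ≤ r := by omega
  have F1 := flatD_of m hr1 g1 g2 P.f1
  have F2 := flatD_of m hr1 g1 g2 P.f2
  have G1 := freeG_of F1 hr1
  have G2 := freeG_of F2 hr1
  have sh : ∀ X : V × ZMod 4, FlatD B r X → (rX X).1 ∈ (lowHalf (lb_up m h1 h2).d).H →
      FlatW (lowHalf (lb_up m h1 h2).d) (5 * ρ + 1) (nxt (rX X)) := by
    intro X F hH
    have := (flatW_up m h1 h2 F hH).shift 1
    rw [wp_one] at this
    exact this.mono (by simp; omega)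
  intro x hx
  unfold XP at hx
  rw [Finset.mem_union, Finset.mem_union] at hx
  rcases hx with hx | hx | hx
  · split_ifs at hx with hH
    · rw [Finset.mem_singleton.1 hx]
      exact gT_ok le_rfl (sh X1 F1 hH) (prof_up (by positivity)
        (prof_m1 hw hy F1 (by omega) G2 P.ge
        (off_of P.d12 hs) (fun e' he' => off_e (fun t d ht => P.d1 t d (by
          rw [Option.mem_def] at he'; rw [he', ht])) hs) G1))
    · exact absurd hx (Finset.notMem_empty _)
  · split_ifs at hx with hH he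
    · rw [Finset.mem_singleton.1 hx]
      rw [Option.map_eq_none_iff] at he
      subst he
      exact gF_ok le_rfl (sh X2 F2 hH) (prof_up (by positivity)
        (prof_none hw hy F2 (by omega) G1 (off_of P.d12.symm hs) G2))
    · rw [Finset.mem_singleton.1 hx]
      rw [Option.map_eq_none_iff] at he
      obtain ⟨e', rfl⟩ := Option.ne_none_iff_exists'.1 he
      exact gT_ok le_rfl (sh X2 F2 hH) (prof_up (by positivity)
        (prof_m2 hw hy F2 (by omega) G1
        (P.ge e' rfl) (off_of P.d12.symm hs) (off_e (fun t d ht => P.d2 t d (by rw [ht])) hs) G2))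
    · exact absurd hx (Finset.notMem_empty _)
  · rcases e with _ | _ | ⟨t | ⟨j, y⟩, d⟩
    · exact absurd hx (Finset.notMem_empty _)
    · exact absurd hx (Finset.notMem_empty _)
    · have hx' : x ∈ (if (rX (t, d)).1 ∈ (lowHalf (lb_up m h1 h2).d).H then
          {eF (rX (t, d)), eT (lowHalf (lb_up m h1 h2).d) (rX (t, d))} else ∅ : Finset Sp) := hx
      split_ifs at hx' with hH
      · have F3 := flatD_of m hr1 g1 g2 (P.fe t d rfl)
        have G3 := freeG_of F3 hr1
        have Pe := prof_e (b' := b') (n := 3 * (ρ : ℤ)) hw hy F3 (by omega) G1 G2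
          (off_of (Y := X1) (P.d1 t d rfl).symm (by omega))
          (off_of (Y := X2) (P.d2 t d rfl).symm (by omega)) G3
        have W3 := flatW_up m h1 h2 F3 hH
        rw [Finset.mem_insert, Finset.mem_singleton] at hx'
        rcases hx' with rfl | rfl
        · exact eF_ok (by omega) W3 (prof_e_up Pe)
        · exact eT_ok (by omega) W3 (prof_e_up Pe)
      · exact absurd hx' (Finset.notMem_empty _)
    · exact absurd hx (Finset.notMem_empty _)

end

/-! ### disjoint supports -/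

theorem sep01 {A : Half} {N : ℤ} {i j : Fin 4} {p q : V} (hi : i = 0 ∨ i = 1) (hj : j = 0 ∨ j = 1)
    (h : i = j → Apart N p q) : Sep A N i j p q := by
  rcases hi with rfl | rfl <;> rcases hj with rfl | rfl
  · exact h rfl
  · trivial
  · trivial
  · exact h rfl

theorem ga_close (u : Bool) (X : V × ZMod 4) :
    |(ga u X).1.1 - X.1.1| ≤ 1 ∧ |(ga u X).1.2 - X.1.2| ≤ 1 := by
  cases u
  · simp [ga]
  · have := near_wp X 1
    rw [wp_one] at this
    simpa [ga] using this

theorem Ds.ga {s : ℤ} {X : V × ZMod 4} {t : V} (h : Ds s X.1 t) (u : Bool) :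
    Ds (s - 1) (ga u X).1 t := by
  obtain ⟨k1, k2⟩ := ga_close u X
  unfold Ds at *
  rw [abs_le] at k1 k2
  rw [le_abs, le_abs] at *
  omega

theorem apart_F {s N : ℤ} {X Y : V × ZMod 4} (h : Ds s X.1 Y.1) (hN : 2 * N + 1 ≤ s) :
    Apart N (q0 X) (q0 Y) := by
  obtain ⟨⟨a1, a2⟩, -⟩ := q_near X
  obtain ⟨⟨b1, b2⟩, -⟩ := q_near Y
  unfold Ds at h
  unfold Apart
  rw [le_abs, le_abs] at *
  omega

theorem apart_T {A : Half} {s N : ℤ} {X Y : V × ZMod 4} (h : Ds s X.1 Y.1)
    (hN : 2 * N + 1 ≤ s) : Apart N (q0 (mir A X)) (q0 (mir A Y)) := by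
  refine apart_F (s := s) ?_ hN
  have e1 : (mir A X).1.1 = X.1.1 := rfl
  have e2 : (mir A X).1.2 = 2 * A.y0 - 1 - X.1.2 := rfl
  have e3 : (mir A Y).1.1 = Y.1.1 := rfl
  have e4 : (mir A Y).1.2 = 2 * A.y0 - 1 - Y.1.2 := rfl
  unfold Ds at *
  rw [e1, e2, e3, e4]
  have e5 : 2 * A.y0 - 1 - X.1.2 - (2 * A.y0 - 1 - Y.1.2) = -(X.1.2 - Y.1.2) := by ring
  rwa [e5, abs_neg]

/-- members of `XP` -/
theorem XP_cases {A : Half} {u : Bool} {X1 X2 : V × ZMod 4} {e : Option (Port TG)} {x : Sp}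
    (hx : x ∈ XP A u X1 X2 e) : x = gT A (ga u X1) ∨ (e = none ∧ x = gF (ga u X2)) ∨
      (e ≠ none ∧ x = gT A (ga u X2)) ∨
      ∃ t d, e = some (some (Sum.inl t, d)) ∧ (x = eF (t, d) ∨ x = eT A (t, d)) := by
  unfold XP at hx
  rw [Finset.mem_union, Finset.mem_union] at hx
  rcases hx with hx | hx | hx
  · split_ifs at hx
    · exact Or.inl (Finset.mem_singleton.1 hx)
    · exact absurd hx (Finset.notMem_empty _)
  · split_ifs at hx with _ he
    · exact Or.inr (Or.inl ⟨he, Finset.mem_singleton.1 hx⟩)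
    · exact Or.inr (Or.inr (Or.inl ⟨he, Finset.mem_singleton.1 hx⟩))
    · exact absurd hx (Finset.notMem_empty _)
  · rcases e with _ | _ | ⟨t | ⟨j, y⟩, d⟩
    · exact absurd hx (Finset.notMem_empty _)
    · exact absurd hx (Finset.notMem_empty _)
    · simp only [XE] at hx
      split_ifs at hx
      · rw [Finset.mem_insert, Finset.mem_singleton] at hx
        exact Or.inr (Or.inr (Or.inr ⟨t, d, rfl, hx⟩))
      · exact absurd hx (Finset.notMem_empty _)
    · exact absurd hx (Finset.notMem_empty _)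

/-- **the supports of the planar special points are disjoint** -/
theorem dis_XP {A : Half} {ρ : ℕ} (h : A.Sz ρ) {u : Bool} {X1 X2 : V × ZMod 4}
    {e : Option (Port TG)} {s : ℤ} (hs : 6 * (ρ : ℤ) + 8 ≤ s)
    (hin : ∀ x ∈ XP A u X1 X2 e, x.In h (3 * ρ)) (d12 : Ds s X1.1 X2.1)
    (d1 : ∀ t d, e = some (some (Sum.inl t, d)) → Ds s X1.1 t)
    (d2 : ∀ t d, e = some (some (Sum.inl t, d)) → Ds s X2.1 t) :
    ∀ x ∈ XP A u X1 X2 e, ∀ y ∈ XP A u X1 X2 e, x ≠ y →
      Disjoint (x.sup h (3 * ρ)) (y.sup h (3 * ρ)) := by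
  have k12 : Apart (3 * (ρ : ℤ) + 1) (q0 (mir A (ga u X1))) (q0 (mir A (ga u X2))) := by
    refine apart_T (s := s - 1 - 1) ?_ (by omega)
    exact ((d12.ga u).symm.ga u).symm
  have k1 : ∀ t d, e = some (some (Sum.inl t, d)) →
      Apart (3 * (ρ : ℤ) + 1) (q0 (mir A (ga u X1))) (q0 (mir A (t, d))) := fun t d ht =>
    apart_T (s := s - 1) ((d1 t d ht).ga u) (by omega)
  have k2 : ∀ t d, e = some (some (Sum.inl t, d)) →
      Apart (3 * (ρ : ℤ) + 1) (q0 (mir A (ga u X2))) (q0 (mir A (t, d))) := fun t d ht =>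
    apart_T (s := s - 1) ((d2 t d ht).ga u) (by omega)
  intro x hx y hy hne
  refine dis_gen' h (hin x hx) (hin y hy) ?_
  have e3 : (((3 * ρ : ℕ) : ℤ) + 1) = 3 * (ρ : ℤ) + 1 := by push_cast; ring
  rw [e3]
  have n01 : (0 : Fin 4) ≠ 1 := by decide
  rcases XP_cases hx with rfl | ⟨he, rfl⟩ | ⟨he, rfl⟩ | ⟨t, d, ht, rfl | rfl⟩ <;>
    rcases XP_cases hy with rfl | ⟨he', rfl⟩ | ⟨he', rfl⟩ | ⟨t', d', ht', rfl | rfl⟩
  -- gT X1
  · exact absurd rfl hne
  · exact sep01 (Or.inr rfl) (Or.inl rfl) fun hc => absurd hc n01.symm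
  · exact sep01 (Or.inr rfl) (Or.inr rfl) fun _ => k12
  · exact sep01 (Or.inr rfl) (Or.inl rfl) fun hc => absurd hc n01.symm
  · exact sep01 (Or.inr rfl) (Or.inr rfl) fun _ => k1 _ _ ht'
  -- gF X2
  · exact sep01 (Or.inl rfl) (Or.inr rfl) fun hc => absurd hc n01
  · exact absurd rfl hne
  · exact absurd he he'
  · rw [he] at ht'; exact absurd ht' (by simp)
  · rw [he] at ht'; exact absurd ht' (by simp)
  -- gT X2
  · exact sep01 (Or.inr rfl) (Or.inr rfl) fun _ => k12.symm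
  · exact absurd he' he
  · exact absurd rfl hne
  · exact sep01 (Or.inr rfl) (Or.inl rfl) fun hc => absurd hc n01.symm
  · exact sep01 (Or.inr rfl) (Or.inr rfl) fun _ => k2 _ _ ht'
  -- eF
  · exact sep01 (Or.inl rfl) (Or.inr rfl) fun hc => absurd hc n01
  · rw [he'] at ht; exact absurd ht (by simp)
  · exact sep01 (Or.inl rfl) (Or.inr rfl) fun hc => absurd hc n01
  · rw [ht] at ht'
    simp only [Option.some.injEq, Prod.mk.injEq, Sum.inl.injEq] at ht'
    obtain ⟨rfl, rfl⟩ := ht'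
    exact absurd rfl hne
  · exact sep01 (Or.inl rfl) (Or.inr rfl) fun hc => absurd hc n01
  -- eT
  · exact sep01 (Or.inr rfl) (Or.inr rfl) fun _ => (k1 _ _ ht).symm
  · rw [he'] at ht; exact absurd ht (by simp)
  · exact sep01 (Or.inr rfl) (Or.inr rfl) fun _ => (k2 _ _ ht).symm
  · exact sep01 (Or.inr rfl) (Or.inl rfl) fun hc => absurd hc n01.symm
  · rw [ht] at ht'
    simp only [Option.some.injEq, Prod.mk.injEq, Sum.inl.injEq] at ht'
    obtain ⟨rfl, rfl⟩ := ht'
    exact absurd rfl hne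

section

variable {M : Mac} {L a b c : ℤ} {B : Band (D M.F L)} {b' : ℤ} {r s : ℤ}
  {X1 X2 : V × ZMod 4} {e : Option (Port TG)}

/-- **disjoint supports, lower half** -/
theorem dis_low (m : MB M L a b c B) {y0 : ℤ} (h1 : B.y1 < y0) (h2 : y0 ≤ B.y2) {ρ : ℕ}
    (h : (lowHalf (lb_low m h1 h2).d).Sz ρ) (hr : 5 * (ρ : ℤ) + 1 ≤ r)
    (g1 : c * L + r < B.y1) (g2 : B.y2 + r < c * L + L) (hs : 6 * (ρ : ℤ) + 8 ≤ s)
    (P : Pts M.F L B r s X1 X2 e) :
    ∀ x ∈ XP (lowHalf (lb_low m h1 h2).d) false X1 X2 e,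
      ∀ y ∈ XP (lowHalf (lb_low m h1 h2).d) false X1 X2 e, x ≠ y →
      Disjoint (x.sup h (3 * ρ)) (y.sup h (3 * ρ)) :=
  dis_XP h hs (fun x hx => (ok_low (b' := 0) m h1 h2 h hr g1 g2 (by omega) P 0 x hx).in)
    P.d12 P.d1 P.d2

/-- **disjoint supports, reflected upper half** -/
theorem dis_up (m : MB M L a b c B) {y0 : ℤ} (h1 : -B.y2 < y0) (h2 : y0 ≤ -B.y1) {ρ : ℕ}
    (h : (lowHalf (lb_up m h1 h2).d).Sz ρ) (hr : 5 * (ρ : ℤ) + 2 ≤ r)
    (g1 : c * L + r < B.y1) (g2 : B.y2 + r < c * L + L) (hs : 6 * (ρ : ℤ) + 8 ≤ s)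
    (P : Pts M.F L B r s X1 X2 e) :
    ∀ x ∈ XP (lowHalf (lb_up m h1 h2).d) true (rX X1) (rX X2) (e.map rp),
      ∀ y ∈ XP (lowHalf (lb_up m h1 h2).d) true (rX X1) (rX X2) (e.map rp), x ≠ y →
      Disjoint (x.sup h (3 * ρ)) (y.sup h (3 * ρ)) := by
  refine dis_XP h hs (fun x hx => (ok_up (b' := 0) m h1 h2 h hr g1 g2 (by omega) P 0 x hx).in)
    P.d12.rz (fun t d ht => ?_) (fun t d ht => ?_)
  · have := (P.d1 _ _ (map_rp_eq ht)).rz
    rwa [Rf896.rz_rz] at this
  · have := (P.d2 _ _ (map_rp_eq ht)).rz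
    rwa [Rf896.rz_rz] at this

end

end Crest.Agent.R158.Xp612
end
end

-- ▼ part R158/Xa3_932

/-!
# R158, block Q1d, XAll (helper932), part 3: positions of the marks and of the member

* `pts_nums` : 612's `Pts` for the literal family
* `plAll` : `PlAll P`
-/

set_option autoImplicit false

noncomputable section

namespace Crest.Agent.R158.Xa932

open Crest.Agent.R158.Nm211
open Crest.Agent.R158.Ka470
open Crest.Agent.R158.Ka470.Half
open Crest.Agent.R158.Nz399
open Crest.Agent.R158.Lr158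
open Crest.Agent.R158.Xs932
open Crest.Agent.R158.Sw300 (Port)
open Crest.Agent.R158.Env664 (TG Mac D Band Run lowT upT mark mem_D div_iff nbc)
open Crest.Agent.R158.Rf896 (rB rA rz rp)
open Crest.Agent.R158.Fm857 (freeG mem_Jd JP DelP mkG mkP clow mouth mouthC mem_mouthC mem_SpP)
open Crest.Agent.R158.Pt266 (dir FFree)
open Crest.Agent.R158.Tj656 (P4)
open Crest.Agent.R158.Xp612 (V XP FarX Pts Ds)
open Crest.Agent.R158.Nn857 (Nums)

/-- planar members of `freeG` -/
theorem free_inv {A : Finset (ℤ × ℤ)} {B : Band A} {X : V × ZMod 4}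
    (h : (some (Sum.inl X.1, X.2) : Port TG) ∈ freeG B) : FFree A X ∧ ¬ mouth B (some X) := by
  rcases mem_freeG'.1 h with ⟨t, d, k1, k2, k3⟩ | ⟨i, -, -, k1⟩ | ⟨i, -, -, k1⟩
  · simp only [Option.some.injEq, Prod.mk.injEq, Sum.inl.injEq] at k1
    obtain ⟨rfl, rfl⟩ := k1
    exact ⟨k2, k3⟩
  · simp at k1
  · simp at k1

/-- `FarT` gives the distances of `FarX` -/
theorem farT_v {L xl xr y1 D r : ℤ} {t : V} (h : FarT L xl xr y1 D t) (hr : r < D) (p q : ℤ) :
    r < |t.1 - p * L| ∨ r < |t.2 - q * L| := by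
  have h1 := h.1 p q
  rw [mul_comm L p, mul_comm L q] at h1
  exact h1.imp (lt_of_lt_of_le hr) (lt_of_lt_of_le hr)

variable {P : P4} {a b c L : ℤ} {δ : ℝ} {B : Band (D P.F L)} {ρ κ : ℕ} {yl yu p z0 : ℤ} {a1 b1 : ℕ}

/-- the marks -/
theorem farX_mark (N : Nums P a b c L δ B ρ κ yl yu p z0 a1 b1) (hev : Even L) (j : Fin 3) :
    FarX P.F L B (5 * ρ + 2) (Hb656.mt P L j) := by
  have hV := nv_nums N
  obtain ⟨f1, f2⟩ := free_inv (mt_freeG (P := P) hV hev j)
  have h1 : (1 : ℤ) ≤ ρ := by exact_mod_cast N.ρ1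
  refine ⟨f1, f2, fun p q _ _ => farT_v (farT_mark (P := P) hV hev j (xl := B.xl) (xr := B.xr)
    (Or.inl rfl)) (by omega) p q, fun v hv => Or.inr ?_⟩
  have h2 := mt_row (P := P) hV hev j
  have h3 := hV.hy
  rw [lt_abs]
  rcases mem_mouthC.1 hv with rfl | rfl | rfl | rfl <;> simp only <;> omega

/-- the member -/
theorem farX_e (N : Nums P a b c L δ B ρ κ yl yu p z0 a1 b1) {t : V} {d : ZMod 4}
    (he : (some (Sum.inl t, d) : Port TG) ∈ JP P L δ B) : FarX P.F L B (5 * ρ + 2) (t, d) := by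
  have h1 : (1 : ℤ) ≤ ρ := by exact_mod_cast N.ρ1
  have h2 := N.L64
  have h3 := N.D64
  obtain ⟨k1, -, k2⟩ := (mem_Jd B).1 he
  obtain ⟨f1, f2⟩ := free_inv (X := (t, d)) k1
  have k3 : ∀ v ∈ Fm857.SpP P L B, DelP L δ ≤ |t.1 - v.1| ∨ DelP L δ ≤ |t.2 - v.2| := k2
  refine ⟨f1, f2, fun p q _ _ => farT_v (farT_e (D' := 8 * ρ) (by omega) (by omega) (by omega) he
    (Or.inl rfl)) (by omega) p q, fun v hv => ?_⟩
  have k4 := k3 v (mem_SpP.2 (Or.inr (Or.inr hv)))
  rcases k4 with k4 | k4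
  · left; simp only; omega
  · right; simp only; omega

/-- distance of the member to the marks -/
theorem ds_e (N : Nums P a b c L δ B ρ κ yl yu p z0 a1 b1) {t : V} {d : ZMod 4}
    (he : (some (Sum.inl t, d) : Port TG) ∈ JP P L δ B) (j : Fin 3) :
    Ds (6 * ρ + 8) (Hb656.mt P L j).1 t := by
  have h1 : (1 : ℤ) ≤ ρ := by exact_mod_cast N.ρ1
  have h3 := N.D64
  obtain ⟨-, -, k2⟩ := (mem_Jd B).1 he
  have k3 : ∀ v ∈ Fm857.SpP P L B, DelP L δ ≤ |t.1 - v.1| ∨ DelP L δ ≤ |t.2 - v.2| := k2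
  have e1 : (Hb656.mt P L j).1 = Fm857.tlP (mkP P L j) := by
    unfold mkP
    rw [Hb656.mark_eq]
    rfl
  have k4 := k3 _ (mem_SpP.2 (Or.inr (Or.inl ⟨j, rfl⟩)))
  rw [← e1] at k4
  refine Ds.symm ?_
  unfold Ds
  rcases k4 with k4 | k4
  · left; omega
  · right; omega

/-- **positions** -/
theorem pts_nums (N : Nums P a b c L δ B ρ κ yl yu p z0 a1 b1) (hev : Even L)
    {e : Option (Port TG)} (he : e ∈ Finset.insertNone (JP P L δ B)) :
    Pts P.F L B (5 * ρ + 2) (6 * ρ + 8) (Hb656.mt P L 0) (Hb656.mt P L 1) e := by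
  have h1 : (1 : ℤ) ≤ ρ := by exact_mod_cast N.ρ1
  have h2 := N.L64
  refine ⟨farX_mark N hev 0, farX_mark N hev 1, ?_, free_JP he, ?_, ?_, ?_⟩
  · rintro t d rfl
    exact farX_e N (Finset.some_mem_insertNone.1 he)
  · have h3 := Hw949.mt_dist P (L := L) (by omega) hev (i := 0) (j := 1) (by decide)
    refine Ds.mono (s := L / 2) ?_ (by omega)
    exact h3
  · rintro t d rfl
    exact ds_e N (Finset.some_mem_insertNone.1 he) 0
  · rintro t d rfl
    exact ds_e N (Finset.some_mem_insertNone.1 he) 1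

/-- **planar points of the literal family** -/
theorem plAll (P : P4) : PlAll P := by
  intro a b c L δ B ρ κ yl yu p z0 a1 b1 N hev e he
  have h1 : (1 : ℤ) ≤ ρ := by exact_mod_cast N.ρ1
  have h2 := N.L64
  have g1 : c * L + (5 * ρ + 2) < B.y1 := by
    have := N.c1
    omega
  have g2 : B.y2 + (5 * ρ + 2) < c * L + L := by
    have := N.c2
    omega
  have hP := pts_nums N hev he
  have e0 := mkG_eq P L 0
  have e1 := mkG_eq P L 1
  rw [e0, e1]
  refine ⟨⟨?_, ?_⟩, ⟨?_, ?_⟩⟩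
  · exact Xp612.ok_low (M := Mg949.mac P) N.mb N.l1 N.l2 N.szl.1 (by omega) g1 g2 (by omega) hP _
  · exact Xp612.dis_low (M := Mg949.mac P) N.mb N.l1 N.l2 N.szl.1 (by omega) g1 g2 (by omega) hP
  · exact Xp612.ok_up (M := Mg949.mac P) N.mb N.u1 N.u2 N.szu.1 (by omega) g1 g2 (by omega) hP _
  · exact Xp612.dis_up (M := Mg949.mac P) N.mb N.u1 N.u2 N.szu.1 (by omega) g1 g2 (by omega) hP

end Crest.Agent.R158.Xa932
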