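import Crest.Agent.R158.Lr15_874
import Crest.Agent.R158.Xa2_932
import Crest.Agent.R158.Xa3_932
import Crest.Agent.R158.Ad2_350
import Crest.Agent.R158.Ad3_350
import Crest.Agent.R158.Ad4_350
import Crest.Agent.R158.Pt5_266
import Crest.Agent.R158.Dn2_211
import Crest.Agent.R158.Nz3_399
import Crest.Agent.R158.Ad5_350
import Crest.Agent.R158.Xr8_249
import Crest.Agent.R158.Ka1_470
import Crest.Agent.R158.Pt6_266
import Crest.Agent.R158.Da1_570
import Crest.Agent.R158.Nz7_399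
import Crest.Agent.R158.Nj4_107
import Crest.Agent.R158.Nz11_399

-- ▼ part R158/Lr16_874
section

/-!
# R158, block Q1d (helper874), part 16: the input `VcAll` of helper932's union step
-/

set_option autoImplicit false

namespace Crest.Agent.R158.Lr874

/-- **the charges at the corners, literal family** -/
theorem vc_all (P : Tj656.P4) : Xa932.VcAll P := by
  intro a b c L δ B ρ κ yl yu p z0 a1 b1 N hev e he
  have hm := Xa932.mks_JP (Xa932.nv_nums N) hev he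
  have v := vc_nums_low N hm he
  have w := vc_nums_up N hm he
  exact ⟨⟨v.cvc, v.rfc', v.rfc⟩, w.cvc, w.rfc', w.rfc⟩

end Crest.Agent.R158.Lr874
end

-- ▼ part R158/Xa4_932
section

/-!
# R158, block Q1d, XAll (helper932), part 4: the special points of the literal family
-/

set_option autoImplicit false

namespace Crest.Agent.R158.Xa932

/-- **special points of the literal family** -/
theorem xall (P : Tj656.P4) : Nz399.XAll P := xall_of (Lr874.vc_all P) (plAll P)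

end Crest.Agent.R158.Xa932
end

-- ▼ part R158/Dn1_211
section

/-!
# Row 158, corner lemma DENT (helper211), part 1: closed networks of a tile region, arrow reversal

* `net A s be ch` : the tiles `A` with splitting `s`, glueing involution `be`, phases `ch` of the
  outgoing arrows
* `zsum` : `∑_s (net A s be ch).z = 2^|A| ∑_B e^{i ∑ ch} ∏ w6`
* `zsum_neg` : arrow reversal `ch → -ch`
* `Ends`, `two_ends`, `z_sq` : `(z V)² = ∏ over the cut ends` when every loop has value `1`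
-/

set_option autoImplicit false
set_option linter.unusedSimpArgs false
set_option linter.unusedSectionVars false

noncomputable section

open Finset

namespace Crest.Agent.R158.Dn211

open Crest.Agent.R158.Sw300 (Port thru thru_thru thru_ne tn)
open Crest.Agent.R158.Ad350

variable {T : Type*} [DecidableEq T]

/-- partner of a port inside its tile -/
def alp (s : T → Bool) : Port T → Port T := Option.map fun y => (y.1, thru (s y.1) y.2)

/-- closed network -/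
def net (A : Finset T) (s : T → Bool) (be : Port T → Port T) (ch : Port T → ℝ) :
    Net (Port T) where
  V := ports A
  al := alp s
  be := be
  om := fun x => ch x - x.elim 0 fun y => Real.pi / 24 * tq (s y.1) y.2

/-- glueing involution of the ports of `A` -/
structure BeOk (A : Finset T) (be : Port T → Port T) : Prop where
  mem : ∀ p ∈ ports A, be p ∈ ports A
  inv : ∀ p ∈ ports A, be (be p) = p


/-- orientation of the ports: outgoing in `B` -/
def ori (B : Finset (Port T)) (p : Port T) : Bool := decide (p ∈ B)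

/-- consistent at the glueings -/
def BG (A : Finset T) (be : Port T → Port T) (B : Finset (Port T)) : Prop :=
  ∀ p ∈ ports A, be p ≠ p → (be p ∈ B ↔ p ∉ B)

instance (A : Finset T) (be : Port T → Port T) (B : Finset (Port T)) : Decidable (BG A be B) := by
  unfold BG; infer_instance

/-- phase of an orientation -/
def cph (A : Finset T) (ch : Port T → ℝ) (B : Finset (Port T)) : ℝ :=
  ∑ p ∈ ports A, ch p * sg (ori B p)

lemma dec_not {a b : Prop} [Decidable a] [Decidable b] : (decide a = !decide b) ↔ (a ↔ ¬ b) := by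
  by_cases ha : a <;> by_cases hb : b <;> simp [ha, hb]

lemma ts_good (A : Finset T) (s : T → Bool) (B : Finset (Port T)) :
    (ts A s).good (ori B) ↔ ∀ p ∈ ports A, (alp s p ∈ B ↔ p ∉ B) := by
  unfold St.good ori
  exact forall₂_congr fun p _ => dec_not

lemma net_good (A : Finset T) (s : T → Bool) (be : Port T → Port T) (ch : Port T → ℝ)
    (B : Finset (Port T)) :
    (net A s be ch).good (ports A) B ↔ (ts A s).good (ori B) ∧ BG A be B := by
  rw [ts_good]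
  unfold Net.good BG
  constructor
  · intro h
    exact ⟨fun p hp => (h p hp).1, fun p hp => (h p hp).2⟩
  · rintro ⟨h1, h2⟩ p hp
    exact ⟨h1 p hp, h2 p hp⟩

lemma net_ph (A : Finset T) (s : T → Bool) (be : Port T → Port T) (ch : Port T → ℝ)
    (B : Finset (Port T)) (h : (ts A s).good (ori B)) :
    (net A s be ch).ph (ports A) B = cph A ch B + (ts A s).ph (ori B) / 2 := by
  unfold Net.ph cph St.ph
  rw [Finset.sum_div, show (ts A s).L = ports A from rfl, ← Finset.sum_add_distrib]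
  refine Finset.sum_congr rfl fun p hp => ?_
  have h1 := h p hp
  rw [h1, sg_not]
  obtain ⟨t, d, rfl, ht⟩ := mem_ports' hp
  simp only [net, ts, ori, Option.elim_some]
  ring

/-- the vector of the splitting seen by the network -/
theorem net_z (A : Finset T) (s : T → Bool) (be : Port T → Port T) (ch : Port T → ℝ) :
    (net A s be ch).z (ports A) = ∑ B ∈ (ports A).powerset with BG A be B,
      ei (cph A ch B) * (ts A s).vec (ori B) := by
  unfold Net.z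
  rw [Finset.sum_filter, Finset.sum_filter]
  refine Finset.sum_congr rfl fun B _ => ?_
  by_cases h1 : BG A be B
  · by_cases h2 : (ts A s).good (ori B)
    · rw [if_pos ((net_good A s be ch B).2 ⟨h2, h1⟩), if_pos h1, net_ph A s be ch B h2, ei_add,
        St.vec, if_pos h2]
    · rw [if_neg (fun h => h2 ((net_good A s be ch B).1 h).1), if_pos h1, St.vec, if_neg h2,
        mul_zero]
  · rw [if_neg (fun h => h1 ((net_good A s be ch B).1 h).2), if_neg h1]

/-- **six-vertex form** -/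
theorem zsum (A : Finset T) (be : Port T → Port T) (ch : Port T → ℝ) :
    ∑ S ∈ A.powerset, (net A (fun t => decide (t ∈ S)) be ch).z (ports A) =
      2 ^ A.card * ∑ B ∈ (ports A).powerset with BG A be B,
        ei (cph A ch B) * tilesF A (ori B) := by
  simp only [net_z]
  rw [Finset.sum_comm, Finset.mul_sum]
  refine Finset.sum_congr rfl fun B _ => ?_
  rw [← Finset.mul_sum, tiles_expand]
  have : (2 : ℂ) ^ A.card * (1 / 2) ^ A.card = 1 := by
    rw [← mul_pow]; norm_num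
  calc ei (cph A ch B) * ∑ S ∈ A.powerset, (ts A fun t => decide (t ∈ S)).vec (ori B)
      = (2 ^ A.card * (1 / 2) ^ A.card) * (ei (cph A ch B) *
        ∑ S ∈ A.powerset, (ts A fun t => decide (t ∈ S)).vec (ori B)) := by rw [this, one_mul]
    _ = _ := by ring

/-- **arrow reversal** -/
theorem zsum_neg {A : Finset T} {be : Port T → Port T} (h : BeOk A be) (ch : Port T → ℝ) :
    ∑ S ∈ A.powerset, (net A (fun t => decide (t ∈ S)) be ch).z (ports A) =
      ∑ S ∈ A.powerset, (net A (fun t => decide (t ∈ S)) be (fun p => - ch p)).z (ports A) := by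
  rw [zsum, zsum]
  congr 1
  refine Finset.sum_bij' (fun B _ => ports A \ B) (fun B _ => ports A \ B) ?_ ?_ ?_ ?_ ?_
  · intro B hB
    simp only [Finset.mem_filter, Finset.mem_powerset] at hB ⊢
    refine ⟨Finset.sdiff_subset, fun p hp hne => ?_⟩
    have h1 := hB.2 p hp hne
    have h2 := h.mem p hp
    simp only [Finset.mem_sdiff, hp, h2, true_and, h1]
  · intro B hB
    simp only [Finset.mem_filter, Finset.mem_powerset] at hB ⊢
    refine ⟨Finset.sdiff_subset, fun p hp hne => ?_⟩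
    have h1 := hB.2 p hp hne
    have h2 := h.mem p hp
    simp only [Finset.mem_sdiff, hp, h2, true_and, h1]
  · intro B hB
    simp only [Finset.mem_filter, Finset.mem_powerset] at hB
    exact Finset.sdiff_sdiff_eq_self hB.1
  · intro B hB
    simp only [Finset.mem_filter, Finset.mem_powerset] at hB
    exact Finset.sdiff_sdiff_eq_self hB.1
  · intro B hB
    simp only [Finset.mem_filter, Finset.mem_powerset] at hB
    have ho : ∀ p ∈ ports A, ori (ports A \ B) p = !ori B p := by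
      intro p hp
      unfold ori
      by_cases hpB : p ∈ B <;> simp [hp, hpB]
    congr 1
    · congr 1
      unfold cph
      refine Finset.sum_congr rfl fun p hp => ?_
      rw [ho p hp, sg_not]
      ring
    · unfold tilesF
      refine Finset.prod_congr rfl fun t ht => ?_
      rw [← w6_flip]
      congr 1
      funext d
      rw [ho _ (mem_ports.2 ht)]

/-! ### product over the cut ends -/

section Ends

variable {P : Type*} [DecidableEq P] {N : Net P}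

/-- cut ends -/
def Ends (N : Net P) : Finset P := N.V.filter fun p => N.be p = p

lemma mem_Ends {p : P} : p ∈ Ends N ↔ p ∈ N.V ∧ N.be p = p := by
  simp [Ends]

/-- the cut ends of a strand between two cut ends -/
theorem arc_ends (h : N.Ok) {x : P} (hx : x ∈ N.V) {n : ℕ}
    (hn : ∀ i < n, N.be (N.al (N.g^[i] x)) ≠ N.al (N.g^[i] x)) (h1 : N.be x = x)
    (h2 : N.be (N.al (N.g^[n] x)) = N.al (N.g^[n] x)) :
    x ≠ N.al (N.g^[n] x) ∧ ((Ends N).filter fun p => N.cls p = N.cls x) = {x, N.al (N.g^[n] x)} := by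
  have hs : N.Strand x n := ⟨hn, Or.inl ⟨h1, h2⟩⟩
  have hcls := hs.cls h hx
  have hyV : N.al (N.g^[n] x) ∈ N.V := h.alV _ (Net.it_mem h hx n)
  have hycls : N.al (N.g^[n] x) ∈ N.cls x := by
    rw [hcls]
    exact Finset.mem_union_right _ (Net.mem_Ow.2 ⟨n, le_rfl, rfl⟩)
  refine ⟨(Net.it_ne h hx hn n 0 le_rfl (Nat.zero_le _)).symm, ?_⟩
  ext p
  simp only [Finset.mem_filter, mem_Ends, Finset.mem_insert, Finset.mem_singleton]
  constructor
  · rintro ⟨⟨hp, hb⟩, hc⟩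
    have hp' : p ∈ N.cls x := by rw [← hc]; exact Net.self_mem_cls hp
    rw [hcls, Finset.mem_union] at hp'
    rcases hp' with hp' | hp'
    · obtain ⟨i, hi, rfl⟩ := Net.mem_Iw.1 hp'
      cases i with
      | zero => left; rfl
      | succ i =>
        exfalso
        rw [Function.iterate_succ_apply'] at hb
        have h3 : N.be (N.g (N.g^[i] x)) = N.al (N.g^[i] x) :=
          h.be2 _ (h.alV _ (Net.it_mem h hx i))
        rw [h3] at hb
        exact hn i (by omega) hb.symm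
    · obtain ⟨i, hi, rfl⟩ := Net.mem_Ow.1 hp'
      rcases Nat.lt_or_ge i n with h3 | h3
      · exact absurd hb (hn i h3)
      · obtain rfl : i = n := by omega
        right; rfl
  · rintro (rfl | rfl)
    · exact ⟨⟨hx, h1⟩, rfl⟩
    · exact ⟨⟨hyV, h2⟩, Net.cls_eq_of_mem h hx hycls⟩

/-- the class of a port on a loop contains no cut end -/
theorem loop_ends (h : N.Ok) {x : P} (hx : x ∈ N.V) {n : ℕ} (hs : N.Strand x n)
    (hb : N.be (N.al (N.g^[n] x)) = x) {p : P} (hp : p ∈ N.V) (hc : N.cls p = N.cls x) :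
    N.be p ≠ p := by
  intro hbp
  have hcls := hs.cls h hx
  have hp' : p ∈ N.cls x := by rw [← hc]; exact Net.self_mem_cls hp
  rw [hcls, Finset.mem_union] at hp'
  have hxb : N.be x = N.al (N.g^[n] x) := by
    conv_lhs => rw [← hb]
    exact h.be2 _ (h.alV _ (Net.it_mem h hx n))
  have hne := Net.it_ne h hx hs.1 n 0 le_rfl (Nat.zero_le _)
  rcases hp' with hp' | hp'
  · obtain ⟨i, hi, rfl⟩ := Net.mem_Iw.1 hp'
    cases i with
    | zero =>
      rw [Function.iterate_zero, id] at hbp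
      rw [hbp] at hxb
      exact hne hxb.symm
    | succ i =>
      rw [Function.iterate_succ_apply'] at hbp
      have h3 : N.be (N.g (N.g^[i] x)) = N.al (N.g^[i] x) :=
        h.be2 _ (h.alV _ (Net.it_mem h hx i))
      rw [h3] at hbp
      exact hs.1 i (by omega) hbp.symm
  · obtain ⟨i, hi, rfl⟩ := Net.mem_Ow.1 hp'
    rcases Nat.lt_or_ge i n with h3 | h3
    · exact hs.1 i h3 hbp
    · obtain rfl : i = n := by omega
      rw [hb] at hbp
      exact hne hbp.symm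


end Ends

end Crest.Agent.R158.Dn211
end
end

-- ▼ part R158/Dn3_211
section

/-!
# Row 158, corner lemma (helper211), part 3: the network of a plane region

* `beR R` : glueing involution of a region, `NR R s ch` : its network (`ch = 0` at the glueings)
* `wa_of_wk`, `wk_of_wa` : walks of helper350 and helper266
* `arc_value` : `z = 2 cos (π/12 (2 - D) + φ_y - φ_x)`, `loop_value` : `z = 1`
-/

set_option autoImplicit false
set_option linter.unusedSimpArgs false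
set_option linter.unusedSectionVars false

noncomputable section

open Finset

namespace Crest.Agent.R158.Dn211

open Crest.Agent.R158.Sw300 (Port thru thru_thru thru_ne tn)
open Crest.Agent.R158.Ad350
open Crest.Agent.R158.Pt266 (RG RFree Wk tt rg_glu CwC patch_turn patch_loop patch_end pass)
open Crest.Agent.R158.Xr249 (Reg)

theorem net_eq {T : Type*} [DecidableEq T] (A : Finset T) (s : T → Bool) (be : Port T → Port T)
    (ch : Port T → ℝ) : net A s be ch = tnet A s be ch := by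
  unfold net tnet
  congr 1
  funext p
  rw [ths]
  cases p with
  | none => simp
  | some y => simp only [Option.elim_some]; ring

variable {R : Reg}

open Classical in
/-- glueing involution of a region -/
def beR (R : Reg) (p : Port (ℤ × ℤ)) : Port (ℤ × ℤ) :=
  if h : ∃ q, R.gl p q then h.choose else p

theorem beR_of_gl {p q : Port (ℤ × ℤ)} (h : R.gl p q) : beR R p = q := by
  have hex : ∃ q, R.gl p q := ⟨q, h⟩
  unfold beR
  rw [dif_pos hex]
  exact R.gl_glue.fn _ _ _ hex.choose_spec h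

theorem beR_of_free {p : Port (ℤ × ℤ)} (h : ∀ q, ¬ R.gl p q) : beR R p = p := by
  unfold beR
  rw [dif_neg]
  rintro ⟨q, hq⟩
  exact h q hq

theorem gl_some {p q : Port (ℤ × ℤ)} (h : R.gl p q) :
    ∃ a b : (ℤ × ℤ) × ZMod 4, p = some a ∧ q = some b ∧ RG R a b := by
  cases p with
  | none => exact absurd h (by simp [Reg.gl])
  | some a =>
    cases q with
    | none => exact absurd (R.gl_glue.sym _ _ h) (by simp [Reg.gl])
    | some b => exact ⟨a, b, rfl, rfl, h⟩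

theorem gl_mem_P {a b : (ℤ × ℤ) × ZMod 4} (h : RG R a b) : a.1 ∈ R.P := by
  obtain ⟨⟨x, y⟩, d⟩ := a
  unfold RG Reg.gl at h
  simp only at h
  rcases h with ⟨-, h, -⟩ | ⟨-, h, -⟩ | ⟨-, h, -⟩ | ⟨-, h, -⟩
  · have := (R.hP _ _ h).2
    simpa using this
  · exact (R.vP _ _ h).1
  · exact (R.hP _ _ h).1
  · have := (R.vP _ _ h).2
    simpa using this

theorem gl_ne {p q : Port (ℤ × ℤ)} (h : R.gl p q) : p ≠ q := by
  rintro rfl
  obtain ⟨a, b, h1, h2, h3⟩ := gl_some h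
  rw [h1] at h2
  obtain rfl := Option.some.inj h2
  obtain ⟨⟨x, y⟩, d⟩ := a
  unfold RG Reg.gl at h3
  simp only [Option.some.injEq, Prod.mk.injEq] at h3
  rcases h3 with ⟨-, -, ⟨h3, -⟩, -⟩ | ⟨-, -, ⟨-, h3⟩, -⟩ | ⟨-, -, ⟨h3, -⟩, -⟩ | ⟨-, -, ⟨-, h3⟩, -⟩ <;>
    omega

theorem beR_ok (R : Reg) : BeOk R.P (beR R) := by
  have key : ∀ p ∈ ports R.P, (beR R p ∈ ports R.P) ∧ beR R (beR R p) = p := by
    intro p hp
    by_cases h : ∃ q, R.gl p q
    · obtain ⟨q, hq⟩ := h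
      rw [beR_of_gl hq]
      have hq' := R.gl_glue.sym _ _ hq
      refine ⟨?_, beR_of_gl hq'⟩
      obtain ⟨a, b, rfl, rfl, h3⟩ := gl_some hq'
      exact mem_ports.2 (gl_mem_P h3)
    · push Not at h
      rw [beR_of_free h]
      exact ⟨hp, beR_of_free h⟩
  exact ⟨fun p hp => (key p hp).1, fun p hp => (key p hp).2⟩

/-- the network of a region -/
abbrev NR (R : Reg) (s : ℤ × ℤ → Bool) (ch : Port (ℤ × ℤ) → ℝ) : Net (Port (ℤ × ℤ)) :=
  tnet R.P s (beR R) ch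

theorem NR_ok (R : Reg) (s : ℤ × ℤ → Bool) (ch : Port (ℤ × ℤ) → ℝ) : (NR R s ch).Ok :=
  tnet_ok (beR_ok R).mem (beR_ok R).inv


theorem free_end {a : (ℤ × ℤ) × ZMod 4} (h : RFree R a) : beR R (some a) = some a := by
  refine beR_of_free fun q hq => ?_
  obtain ⟨a', b, h1, rfl, h3⟩ := gl_some hq
  obtain rfl := Option.some.inj h1
  exact h.2 _ h3

theorem end_free {p : Port (ℤ × ℤ)} (hp : p ∈ ports R.P) (h : beR R p = p) :
    ∃ a, p = some a ∧ RFree R a := by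
  obtain ⟨t, d, rfl, ht⟩ := mem_ports' hp
  refine ⟨(t, d), rfl, ht, fun b hb => ?_⟩
  have h1 : beR R (some (t, d)) = some b := beR_of_gl hb
  exact gl_ne hb (h.symm.trans h1)

theorem mem_ends {s : ℤ × ℤ → Bool} {ch : Port (ℤ × ℤ) → ℝ} {p : Port (ℤ × ℤ)} :
    p ∈ Ends (NR R s ch) ↔ ∃ a, p = some a ∧ RFree R a := by
  rw [mem_Ends]
  constructor
  · rintro ⟨h1, h2⟩
    exact end_free h1 h2
  · rintro ⟨a, rfl, h⟩
    exact ⟨mem_ports.2 h.1, free_end h⟩

theorem wa_of_wk {s : ℤ × ℤ → Bool} {ch : Port (ℤ × ℤ) → ℝ} {x y : (ℤ × ℤ) × ZMod 4}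
    {l : List ((ℤ × ℤ) × ZMod 4)} (h : Wk s (RG R) x y l) :
    (NR R s ch).Wa (some x) (some y) (l.map some) := by
  induction h with
  | one => exact Net.Wa.one (N := NR R s ch) (some x)
  | @snoc q r l h1 h2 ih =>
    have hb : (NR R s ch).be (some q) = some r := beR_of_gl h2
    have h3 := Net.Wa.snoc ih (by rw [hb]; exact (gl_ne h2).symm)
    rw [hb] at h3
    rw [List.map_append]
    exact h3

theorem wk_of_wa {s : ℤ × ℤ → Bool} {ch : Port (ℤ × ℤ) → ℝ} {x y : Port (ℤ × ℤ)}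
    {l : List (Port (ℤ × ℤ))} (hx : x ∈ ports R.P) (h : (NR R s ch).Wa x y l) :
    ∃ x' y' l', x = some x' ∧ y = some y' ∧ l = l'.map some ∧ Wk s (RG R) x' y' l' := by
  induction h with
  | one =>
    obtain ⟨t, d, rfl, ht⟩ := mem_ports' hx
    exact ⟨(t, d), pass s (t, d), [(t, d)], rfl, rfl, rfl, .one⟩
  | @snoc q l h1 h2 ih =>
    obtain ⟨x', y', l', e1, rfl, rfl, h3⟩ := ih
    have hgl : ∃ q, R.gl (some y') q := by
      by_contra hcon
      push Not at hcon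
      exact h2 (beR_of_free hcon)
    obtain ⟨q, hq⟩ := hgl
    obtain ⟨a, b, h4, rfl, h5⟩ := gl_some hq
    obtain rfl := Option.some.inj h4
    have hb : (NR R s ch).be (some y') = some b := beR_of_gl hq
    rw [hb]
    exact ⟨x', pass s b, l' ++ [b], e1, rfl, by simp, h3.snoc h5⟩

theorem tql_map (s : ℤ × ℤ → Bool) (l : List ((ℤ × ℤ) × ZMod 4)) :
    tql s (l.map some) = -(tt s l : ℝ) := by
  induction l with
  | nil => simp [tql]
  | cons a l ih =>
    have h1 : tql s ((a :: l).map some) = tq (s a.1) a.2 + tql s (l.map some) := by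
      simp [tql]
    rw [h1, ih, Pt266.tt_cons, tq_eq]
    push_cast
    ring

/-- phases vanish at the glueings -/
def Nat0 (R : Reg) (ch : Port (ℤ × ℤ) → ℝ) : Prop := ∀ p q, R.gl p q → ch p = 0

theorem seam_zero {ch : Port (ℤ × ℤ) → ℝ} (h0 : Nat0 R ch) (l : List (Port (ℤ × ℤ))) :
    seam (beR R) ch l = 0 := by
  unfold seam
  refine List.sum_eq_zero fun x hx => ?_
  obtain ⟨p, _, rfl⟩ := List.mem_map.1 hx
  by_cases h : ∃ q, R.gl p q
  · obtain ⟨q, hq⟩ := h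
    rw [beR_of_gl hq, h0 _ _ hq, h0 _ _ (R.gl_glue.sym _ _ hq), sub_zero]
  · push Not at h
    rw [beR_of_free h, sub_self]

/-- **value of an arc** -/
theorem arc_value {s : ℤ × ℤ → Bool} {ch : Port (ℤ × ℤ) → ℝ} (h0 : Nat0 R ch)
    {x y : (ℤ × ℤ) × ZMod 4} {l : List ((ℤ × ℤ) × ZMod 4)} (hx : RFree R x) (hy : RFree R y)
    (h : Wk s (RG R) x y l) : (NR R s ch).z ((NR R s ch).cls (some x)) =
      2 * Real.cos (Real.pi / 12 * (-(tt s l : ℝ)) + (ch (some y) - ch (some x))) := by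
  have hxP : (some x : Port (ℤ × ℤ)) ∈ ports R.P := mem_ports.2 hx.1
  have hw := wa_of_wk (ch := ch) h
  obtain ⟨-, -, h1⟩ := Net.z_arc (NR_ok R s ch) hxP hw (free_end hx) (free_end hy)
  obtain ⟨-, h2⟩ := Wa_wl (beR_ok R).inv (beR_ok R).mem hxP hw
  rw [h1, h2, tql_map, seam_zero h0, add_zero]

/-- the other end of an arc is in the same class -/
theorem arc_cls {s : ℤ × ℤ → Bool} {ch : Port (ℤ × ℤ) → ℝ}
    {x y : (ℤ × ℤ) × ZMod 4} {l : List ((ℤ × ℤ) × ZMod 4)} (hx : RFree R x) (hy : RFree R y)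
    (h : Wk s (RG R) x y l) : some x ≠ (some y : Port (ℤ × ℤ)) ∧
      ((Ends (NR R s ch)).filter fun p => (NR R s ch).cls p = (NR R s ch).cls (some x)) =
        {some x, some y} := by
  have hxP : (some x : Port (ℤ × ℤ)) ∈ ports R.P := mem_ports.2 hx.1
  have hw := wa_of_wk (ch := ch) h
  obtain ⟨n, -, h2, h3⟩ := hw.data
  have h4 := arc_ends (NR_ok R s ch) hxP h3 (free_end hx) (by rw [← h2]; exact free_end hy)
  rwa [← h2] at h4

theorem cos_four (k : ℤ) (h : k = 4 ∨ k = -4) : 2 * Real.cos (Real.pi / 12 * (-(k : ℝ))) = 1 := by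
  have h1 : Real.cos (Real.pi / 12 * (-(k : ℝ))) = Real.cos (Real.pi / 3) := by
    rcases h with rfl | rfl
    · rw [← Real.cos_neg]
      congr 1
      push_cast
      ring
    · congr 1
      push_cast
      ring
  rw [h1, Real.cos_pi_div_three]
  norm_num

/-- **value of a loop** -/
theorem loop_value (hsc : R.SC) (hc : R.Conn) {s : ℤ × ℤ → Bool} {ch : Port (ℤ × ℤ) → ℝ}
    (h0 : Nat0 R ch) {x : Port (ℤ × ℤ)} (hx : x ∈ ports R.P) {n : ℕ} (hs : (NR R s ch).Strand x n)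
    (hb : (NR R s ch).be ((NR R s ch).al ((NR R s ch).g^[n] x)) = x) :
    (NR R s ch).z ((NR R s ch).cls x) = 1 := by
  have hok := NR_ok R s ch
  have hw := Net.Wa.of_it (N := NR R s ch) n hs.1
  have hnd : ((List.range (n + 1)).map fun i => (NR R s ch).g^[i] x).Nodup := by
    refine List.Nodup.map_on (fun i hi j hj e => ?_) List.nodup_range
    rw [List.mem_range] at hi hj
    exact hs.inj hok hx i j (by omega) (by omega) e
  obtain ⟨-, h1⟩ := Net.z_loop hok hx hw hb hnd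
  obtain ⟨hyP, h2⟩ := Wa_wl (beR_ok R).inv (beR_ok R).mem hx hw
  obtain ⟨x', y', l', e1, e2, e3, h3⟩ := wk_of_wa hx hw
  have hne := Net.it_ne hok hx hs.1 n 0 le_rfl (Nat.zero_le _)
  have hgl : R.gl ((NR R s ch).al ((NR R s ch).g^[n] x)) x := by
    by_contra hcon
    have : ∀ q, ¬ R.gl ((NR R s ch).al ((NR R s ch).g^[n] x)) q := by
      intro q hq
      have h4 : q = x := by rw [← hb]; exact (beR_of_gl hq).symm
      exact hcon (h4 ▸ hq)
    exact hne ((beR_of_free this).symm.trans hb)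
  have hcl : Pt266.Cl s (RG R) l' := by
    refine ⟨?_, x', y', h3, ?_⟩
    · rw [e3] at hnd
      exact hnd.of_map _
    · show R.gl (some y') (some x')
      rw [← e1, ← e2]
      exact hgl
  have hP : ∀ p ∈ l', p.1 ∈ R.P := by
    intro p hp
    have h5 : (some p : Port (ℤ × ℤ)) ∈ ((List.range (n + 1)).map fun i => (NR R s ch).g^[i] x) := by
      rw [e3]; exact List.mem_map_of_mem hp
    obtain ⟨i, _, hi⟩ := List.mem_map.1 h5
    have h6 := Net.it_mem hok hx i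
    rw [hi] at h6
    exact mem_ports.1 h6
  have htt := patch_loop hsc hc hcl hP
  have hcx : ch x = 0 := h0 _ _ (R.gl_glue.sym _ _ hgl)
  have hcy : ch ((NR R s ch).al ((NR R s ch).g^[n] x)) = 0 := h0 _ _ hgl
  rw [h1, h2, seam_zero h0, hcx, hcy, e3, tql_map, sub_zero, add_zero, add_zero]
  have := cos_four _ htt
  exact_mod_cast this

end Crest.Agent.R158.Dn211
end
end

-- ▼ part R158/Dn4_211
section

/-!
# Row 158, corner lemma (helper211), part 4: the L-shape, local and macroscopic strands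

* `Lr n` : `[0,8n) × [0,4n) ∪ [4n,8n) × [-4n,0)`
* `XA n`, `DA n` : entering states, states inside; `sE`, `sX` : side of an entering / leaving state
  (clockwise `0 … 5`: W, N, E, floor right, step wall, floor left)
* `vp`, `ip`, `jp` : the six corners; `Xp`, `Dp`, `Yp` : windows of the corner `p`
* `dich` : a strand from the side `i` to the side `j > i` is local at a corner or macroscopic
-/

set_option autoImplicit false

noncomputable section

namespace Crest.Agent.R158.Dn211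

open MeasureTheory ProbabilityTheory unitInterval
open Crest.Agent.R158.Rs689 Crest.Agent.R158.Nm211 Crest.Agent.R158.Nz399

/-- the L-shape -/
def Lr (n : ℕ) : Finset (ℤ × ℤ) :=
  (Finset.Ico 0 (8 * (n : ℤ)) ×ˢ Finset.Ico 0 (4 * (n : ℤ))) ∪
    (Finset.Ico (4 * (n : ℤ)) (8 * (n : ℤ)) ×ˢ Finset.Ico (-(4 * (n : ℤ))) 0)

theorem mem_Lr {n : ℕ} {t : ℤ × ℤ} : t ∈ Lr n ↔
    ((0 ≤ t.1 ∧ t.1 < 8 * n) ∧ 0 ≤ t.2 ∧ t.2 < 4 * n) ∨
      ((4 * n ≤ t.1 ∧ t.1 < 8 * n) ∧ -(4 * (n : ℤ)) ≤ t.2 ∧ t.2 < 0) := by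
  simp only [Lr, Finset.mem_union, Finset.mem_product, Finset.mem_Ico]

/-- entering states -/
def XA (n : ℕ) : Finset (St ℤ) :=
  ((Lr n) ×ˢ (Finset.univ : Finset Dir)).filter fun c => mv c.1 (opp c.2) ∉ Lr n

theorem mem_XA {n : ℕ} {c : St ℤ} : c ∈ XA n ↔ c.1 ∈ Lr n ∧ mv c.1 (opp c.2) ∉ Lr n := by
  simp [XA]

/-- states inside -/
def DA (n : ℕ) : Set (St ℤ) := {c | c.1 ∈ Lr n}

theorem XA_cases {n : ℕ} {c : St ℤ} (h : c ∈ XA n) :
    (c.2 = 1 ∧ c.1.1 = 0 ∧ 0 ≤ c.1.2 ∧ c.1.2 < 4 * n) ∨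
    (c.2 = 2 ∧ c.1.2 = 4 * n - 1 ∧ 0 ≤ c.1.1 ∧ c.1.1 < 8 * n) ∨
    (c.2 = 3 ∧ c.1.1 = 8 * n - 1 ∧ -(4 * (n : ℤ)) ≤ c.1.2 ∧ c.1.2 < 4 * n) ∨
    (c.2 = 0 ∧ c.1.2 = -(4 * (n : ℤ)) ∧ 4 * n ≤ c.1.1 ∧ c.1.1 < 8 * n) ∨
    (c.2 = 1 ∧ c.1.1 = 4 * n ∧ -(4 * (n : ℤ)) ≤ c.1.2 ∧ c.1.2 < 0) ∨
    (c.2 = 0 ∧ c.1.2 = 0 ∧ 0 ≤ c.1.1 ∧ c.1.1 < 4 * n) := by
  obtain ⟨⟨x, y⟩, d⟩ := c
  rw [mem_XA, mem_Lr, mem_Lr] at h
  fin_cases d <;> simp [mv, opp, dx, dy] at h ⊢ <;> omega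

/-- leaving states -/
theorem out_cases {n : ℕ} {e : St ℤ} (h1 : e.1 ∉ Lr n) (h2 : mv e.1 (opp e.2) ∈ Lr n) :
    (e.2 = 3 ∧ e.1.1 = -1 ∧ 0 ≤ e.1.2 ∧ e.1.2 < 4 * n) ∨
    (e.2 = 0 ∧ e.1.2 = 4 * n ∧ 0 ≤ e.1.1 ∧ e.1.1 < 8 * n) ∨
    (e.2 = 1 ∧ e.1.1 = 8 * n ∧ -(4 * (n : ℤ)) ≤ e.1.2 ∧ e.1.2 < 4 * n) ∨
    (e.2 = 2 ∧ e.1.2 = -(4 * (n : ℤ)) - 1 ∧ 4 * n ≤ e.1.1 ∧ e.1.1 < 8 * n) ∨
    (e.2 = 3 ∧ e.1.1 = 4 * n - 1 ∧ -(4 * (n : ℤ)) ≤ e.1.2 ∧ e.1.2 < 0) ∨
    (e.2 = 2 ∧ e.1.2 = -1 ∧ 0 ≤ e.1.1 ∧ e.1.1 < 4 * n) := by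
  obtain ⟨⟨x, y⟩, d⟩ := e
  rw [mem_Lr] at h1 h2
  fin_cases d <;> simp [mv, opp, dx, dy] at h1 h2 ⊢ <;> omega

/-- side of an entering state -/
def sE (c : St ℤ) : Fin 6 :=
  match c.2 with
  | 0 => if c.1.2 < 0 then 3 else 5
  | 1 => if c.1.2 < 0 then 4 else 0
  | 2 => 1
  | 3 => 2

/-- side of a leaving state -/
def sX (e : St ℤ) : Fin 6 :=
  match e.2 with
  | 0 => 1
  | 1 => 2
  | 2 => if e.1.2 < -1 then 3 else 5
  | 3 => if e.1.2 < 0 then 4 else 0

/-- corners -/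
def vp (n : ℕ) (p : Fin 6) : ℤ × ℤ :=
  match p with
  | 0 => (0, 4 * n)
  | 1 => (8 * n, 4 * n)
  | 2 => (8 * n, -(4 * (n : ℤ)))
  | 3 => (4 * n, -(4 * (n : ℤ)))
  | 4 => (4 * n, 0)
  | 5 => (0, 0)

/-- first side at the corner -/
def ip (p : Fin 6) : Fin 6 :=
  match p with
  | 0 => 0
  | 1 => 1
  | 2 => 2
  | 3 => 3
  | 4 => 4
  | 5 => 0

/-- second side at the corner -/
def jp (p : Fin 6) : Fin 6 :=
  match p with
  | 0 => 1
  | 1 => 2
  | 2 => 3
  | 3 => 4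
  | 4 => 5
  | 5 => 5

/-- tiles of the window of the corner `p` -/
def Tp (n : ℕ) (p : Fin 6) : Finset (ℤ × ℤ) := (Lr n).filter fun t => rho (vp n p) t ≤ n

/-- states inside the window -/
def Dp (n : ℕ) (p : Fin 6) : Set (St ℤ) := {c | c.1 ∈ Tp n p}

/-- starting states of the window -/
def Xp (n : ℕ) (p : Fin 6) : Finset (St ℤ) :=
  (XA n).filter fun c => sE c = ip p ∧ rho (vp n p) c.1 ≤ n

/-- leaving states -/
def Yp (n : ℕ) (p : Fin 6) : Set (St ℤ) := {e | e.1 ∉ Lr n ∧ sX e = jp p}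

/-- number of strands around the corner `p` inside the window -/
def Kq (n : ℕ) (p : Fin 6) (s : ℤ × ℤ → Bool) : ℕ := KK (nx6 s) (Dp n p) (Yp n p) (Xp n p)

/-- scale of the macroscopic strands -/
def hm (n : ℕ) : ℕ := (n + 1) / 2

/-- the strand from `c` leaves the L-shape at `e` -/
def ExitA (n : ℕ) (s : ℤ × ℤ → Bool) (c e : St ℤ) : Prop :=
  ∃ m, (∀ j < m, (nx6 s)^[j] c ∈ DA n) ∧ (nx6 s)^[m] c = e ∧ e.1 ∉ Lr n

/-- the strand from `c` is macroscopic -/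
def MacA (n : ℕ) (s : ℤ × ℤ → Bool) (c : St ℤ) : Prop :=
  ∃ m, (∀ j < m, (nx6 s)^[j] c ∈ DA n) ∧ Far (hm n) c ((nx6 s)^[m] c)

theorem exit_unique {n : ℕ} {s : ℤ × ℤ → Bool} {c e e' : St ℤ} (h : ExitA n s c e)
    (h' : ExitA n s c e') : e = e' := by
  obtain ⟨m, h1, h2, h3⟩ := h
  obtain ⟨m', h1', h2', h3'⟩ := h'
  have : m = m' := by
    rcases Nat.lt_trichotomy m m' with h | h | h
    · have := h1' m h
      rw [h2] at this
      exact absurd this h3
    · exact h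
    · have := h1 m' h
      rw [h2'] at this
      exact absurd this h3'
  rw [← h2, ← h2', this]

theorem prev_mem {n : ℕ} {s : ℤ × ℤ → Bool} {c : St ℤ} {m : ℕ} (hm : 0 < m)
    (h : ∀ j < m, (nx6 s)^[j] c ∈ DA n) :
    mv ((nx6 s)^[m] c).1 (opp ((nx6 s)^[m] c).2) ∈ Lr n := by
  obtain ⟨k, rfl⟩ : ∃ k, m = k + 1 := ⟨m - 1, by omega⟩
  have h1 := h k (by omega)
  rw [Function.iterate_succ_apply']
  set c' := (nx6 s)^[k] c
  have h2 : mv (nx6 s c').1 (opp (nx6 s c').2) = c'.1 := by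
    unfold nx6 mv
    simp [dx_opp, dy_opp]
  rw [h2]
  exact h1

theorem exit_cases {n : ℕ} {s : ℤ × ℤ → Bool} {c e : St ℤ} (hc : c ∈ XA n)
    (h : ExitA n s c e) : e.1 ∉ Lr n ∧ mv e.1 (opp e.2) ∈ Lr n := by
  obtain ⟨m, h1, h2, h3⟩ := h
  refine ⟨h3, ?_⟩
  rcases Nat.eq_zero_or_pos m with h0 | h0
  · subst h0
    rw [Function.iterate_zero, id] at h2
    exact absurd (mem_XA.1 hc).1 (h2 ▸ h3)
  · rw [← h2]
    exact prev_mem h0 h1


/-- **local or macroscopic** -/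
theorem dich {n : ℕ} (hn : 1 ≤ n) {s : ℤ × ℤ → Bool} {c e : St ℤ} (hc : c ∈ XA n)
    (h : ExitA n s c e) (hij : sE c < sX e) :
    MacA n s c ∨ ∃ p, c ∈ Xp n p ∧ Hit (nx6 s) (Dp n p) (Yp n p) c ∧
      sE c = ip p ∧ sX e = jp p := by
  by_cases hmac : MacA n s c
  · exact Or.inl hmac
  right
  obtain ⟨he1, he2⟩ := exit_cases hc h
  have hco := out_cases he1 he2
  have hcc := XA_cases hc
  obtain ⟨m, h1, h2, h3⟩ := h
  have hnear : ∀ j ≤ m, |((nx6 s)^[j] c).1.1 - c.1.1| < hm n ∧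
      |((nx6 s)^[j] c).1.2 - c.1.2| < hm n := by
    intro j hj
    exact not_far' fun hf => hmac ⟨j, fun i hi => h1 i (by omega), hf⟩
  have hen := hnear m le_rfl
  rw [h2] at hen
  simp only [abs_lt] at hen hnear
  have hh : 2 * hm n ≤ n + 1 := by unfold hm; omega
  have hcA := (mem_XA.1 hc).1
  have fin : ∀ p : Fin 6, sE c = ip p → sX e = jp p → rho (vp n p) c.1 ≤ n →
      (∀ t : ℤ × ℤ, t ∈ Lr n → (-(hm n : ℤ) < t.1 - c.1.1 ∧ t.1 - c.1.1 < hm n) →
        (-(hm n : ℤ) < t.2 - c.1.2 ∧ t.2 - c.1.2 < hm n) → rho (vp n p) t ≤ n) →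
      ∃ p, c ∈ Xp n p ∧ Hit (nx6 s) (Dp n p) (Yp n p) c ∧ sE c = ip p ∧ sX e = jp p := by
    intro p hp1 hp2 hp3 hp4
    refine ⟨p, Finset.mem_filter.2 ⟨hc, hp1, hp3⟩, ⟨m, fun j hj => ?_, ?_⟩, hp1, hp2⟩
    · have h4 := h1 j hj
      have h5 := hnear j hj.le
      exact Finset.mem_filter.2 ⟨h4, hp4 _ h4 h5.1 h5.2⟩
    · rw [h2]
      exact ⟨he1, hp2⟩
  have hij' : (sE c : ℕ) < sX e := hij
  obtain ⟨⟨cx, cy⟩, cd⟩ := c
  obtain ⟨⟨ex, ey⟩, ed⟩ := e
  simp only at hcc hco hen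
  rcases hcc with ⟨rfl, a1, a2, a3⟩ | ⟨rfl, a1, a2, a3⟩ | ⟨rfl, a1, a2, a3⟩ | ⟨rfl, a1, a2, a3⟩ |
    ⟨rfl, a1, a2, a3⟩ | ⟨rfl, a1, a2, a3⟩ <;>
  rcases hco with ⟨rfl, b1, b2, b3⟩ | ⟨rfl, b1, b2, b3⟩ | ⟨rfl, b1, b2, b3⟩ | ⟨rfl, b1, b2, b3⟩ |
    ⟨rfl, b1, b2, b3⟩ | ⟨rfl, b1, b2, b3⟩ <;>
  first
  | (exfalso; omega)
  | (exfalso
     simp only [sE, sX] at hij'
     (try split_ifs at hij') <;> simp at hij' <;> omega)
  | (refine fin 0 ?_ ?_ ?_ ?_
     · simp only [sE, ip]; split_ifs <;> first | rfl | (exfalso; omega)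
     · simp only [sX, jp]
     · simp only [rho, vp]; omega
     · rintro ⟨tx, ty⟩ ht h4 h5
       rw [mem_Lr] at ht
       simp only [rho, vp] at ht h4 h5 ⊢
       omega)
  | (refine fin 1 ?_ ?_ ?_ ?_
     · simp only [sE, ip]
     · simp only [sX, jp]
     · simp only [rho, vp]; omega
     · rintro ⟨tx, ty⟩ ht h4 h5
       rw [mem_Lr] at ht
       simp only [rho, vp] at ht h4 h5 ⊢
       omega)
  | (refine fin 2 ?_ ?_ ?_ ?_
     · simp only [sE, ip]
     · simp only [sX, jp]; split_ifs <;> first | rfl | (exfalso; omega)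
     · simp only [rho, vp]; omega
     · rintro ⟨tx, ty⟩ ht h4 h5
       rw [mem_Lr] at ht
       simp only [rho, vp] at ht h4 h5 ⊢
       omega)
  | (refine fin 3 ?_ ?_ ?_ ?_
     · simp only [sE, ip]; split_ifs <;> first | rfl | (exfalso; omega)
     · simp only [sX, jp]; split_ifs <;> first | rfl | (exfalso; omega)
     · simp only [rho, vp]; omega
     · rintro ⟨tx, ty⟩ ht h4 h5
       rw [mem_Lr] at ht
       simp only [rho, vp] at ht h4 h5 ⊢
       omega)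
  | (refine fin 4 ?_ ?_ ?_ ?_
     · simp only [sE, ip]; split_ifs <;> first | rfl | (exfalso; omega)
     · simp only [sX, jp]; split_ifs <;> first | rfl | (exfalso; omega)
     · simp only [rho, vp]; omega
     · rintro ⟨tx, ty⟩ ht h4 h5
       rw [mem_Lr] at ht
       simp only [rho, vp] at ht h4 h5 ⊢
       omega)
  | (refine fin 5 ?_ ?_ ?_ ?_
     · simp only [sE, ip]; split_ifs <;> first | rfl | (exfalso; omega)
     · simp only [sX, jp]; split_ifs <;> first | rfl | (exfalso; omega)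
     · simp only [rho, vp]; omega
     · rintro ⟨tx, ty⟩ ht h4 h5
       rw [mem_Lr] at ht
       simp only [rho, vp] at ht h4 h5 ⊢
       omega)

end Crest.Agent.R158.Dn211
end
private theorem rz_e923bdcd67 : type_of% @_root_.Crest.Agent.R158.Dn211.ip.eq_1 := @_root_.Crest.Agent.R158.Dn211.ip.eq_1 -- L93
private theorem rz_7947725b16 : type_of% @_root_.Crest.Agent.R158.Dn211.jp.eq_1 := @_root_.Crest.Agent.R158.Dn211.jp.eq_1 -- L103
private theorem rz_f3e58750ca : type_of% @_root_.Crest.Agent.R158.Dn211.sE.eq_1 := @_root_.Crest.Agent.R158.Dn211.sE.eq_1 -- L67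
private theorem rz_6fac24f590 : type_of% @_root_.Crest.Agent.R158.Dn211.sX.eq_1 := @_root_.Crest.Agent.R158.Dn211.sX.eq_1 -- L75
private theorem rz_94cefc145f : type_of% @_root_.Crest.Agent.R158.Dn211.vp.eq_1 := @_root_.Crest.Agent.R158.Dn211.vp.eq_1 -- L83
end

-- ▼ part R158/Dn5_211
section

/-!
# Row 158, corner lemma (helper211), part 5: strands of the L-shape as walks, product formula

* `pq c` : port through which the state `c` enters its tile
* `strand` : the strand from `c` leaves at `e`, walk from `pq c` to `pq (rev e)`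
* `z_prod` : `z V` as a product over the cut ends
-/

set_option autoImplicit false
set_option linter.unusedSimpArgs false

noncomputable section

open Finset

namespace Crest.Agent.R158.Dn211

open MeasureTheory ProbabilityTheory
open Crest.Agent.R158.Rs689 Crest.Agent.R158.Nm211
open Crest.Agent.R158.Sw300 (Port thru thru_thru thru_ne tn)
open Crest.Agent.R158.Ad350
open Crest.Agent.R158.Pt266 (RG RFree Wk tt rg_glu CwC patch_turn patch_loop patch_end pass Fr tt_rv)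
open Crest.Agent.R158.Xr249 (Reg full)
open Crest.Agent.R158.Ka470 (en ex ex_en thru_sg)

/-- port through which a state enters its tile -/
def pq (c : Nm211.St ℤ) : (ℤ × ℤ) × ZMod 4 := (c.1, en c.2)

theorem pq_inj : Function.Injective pq := by
  rintro ⟨v, d⟩ ⟨w, e⟩ h
  simp only [pq, Prod.mk.injEq] at h
  rw [h.1, Ka470.en_inj h.2]

theorem en_surj (a : ZMod 4) : ∃ d : Dir, en d = a := by
  revert a; decide

theorem pq_surj (a : (ℤ × ℤ) × ZMod 4) : ∃ c, pq c = a := by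
  obtain ⟨d, hd⟩ := en_surj a.2
  exact ⟨(a.1, d), by rw [pq, hd]⟩

/-- splitting convention of helper266 / helper350 -/
def flp (s : ℤ × ℤ → Bool) (v : ℤ × ℤ) : Bool := !s v

theorem thru_en (b : Bool) (d : Dir) : thru (!b) (en d) = ex (trn b d) := by
  have := thru_sg false (!b) d
  simpa [Ka470.sg] using this

theorem pass_pq (s : ℤ × ℤ → Bool) (c : Nm211.St ℤ) :
    pass (flp s) (pq c) = (c.1, ex (nx6 s c).2) := by
  unfold Pt266.pass pq flp nx6
  simp only [thru_en]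

variable {A : Finset (ℤ × ℤ)}

/-- glueings of a full region -/
theorem rg_full {t : ℤ × ℤ} {d : Dir} {b : (ℤ × ℤ) × ZMod 4} :
    RG (full A) (t, ex d) b ↔ (t ∈ A ∧ mv t d ∈ A) ∧ b = (mv t d, en d) := by
  obtain ⟨x, y⟩ := t
  unfold RG
  have e : ∀ q : (ℤ × ℤ) × ZMod 4, (some b : Port (ℤ × ℤ)) = some q ↔ b = q := fun q =>
    Option.some_inj
  fin_cases d
  · show (full A).gl (some ((x, y), 1)) (some b) ↔ _
    rw [Reg.gl_1, Xr249.full_v, e]
    simp [mv, dx, dy, en]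
  · show (full A).gl (some ((x, y), 2)) (some b) ↔ _
    rw [Reg.gl_2, Xr249.full_h, e]
    simp [mv, dx, dy, en]
  · show (full A).gl (some ((x, y), 3)) (some b) ↔ _
    rw [Reg.gl_3, Xr249.full_v, e]
    simp [mv, dx, dy, en, ← sub_eq_add_neg, and_comm]
  · show (full A).gl (some ((x, y), 0)) (some b) ↔ _
    rw [Reg.gl_0, Xr249.full_h, e]
    simp [mv, dx, dy, en, ← sub_eq_add_neg, and_comm]

theorem rfree_pq {c : Nm211.St ℤ} :
    RFree (full A) (pq c) ↔ c.1 ∈ A ∧ mv c.1 (opp c.2) ∉ A := by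
  have h1 : pq c = (c.1, ex (opp c.2)) := by unfold pq; rw [ex_en]
  unfold RFree Fr
  rw [h1]
  simp only [Xr249.full_P, rg_full]
  constructor
  · rintro ⟨h2, h3⟩
    exact ⟨h2, fun h4 => h3 _ ⟨⟨h2, h4⟩, rfl⟩⟩
  · rintro ⟨h2, h3⟩
    exact ⟨h2, fun b hb => h3 hb.1.2⟩

theorem rfree_XA {n : ℕ} {c : Nm211.St ℤ} : RFree (full (Lr n)) (pq c) ↔ c ∈ XA n := by
  rw [rfree_pq, mem_XA]

/-- a walk is an orbit of states -/
theorem wk_iter {s : ℤ × ℤ → Bool} {c : Nm211.St ℤ} (hc : c.1 ∈ A) {y : (ℤ × ℤ) × ZMod 4}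
    {l : List ((ℤ × ℤ) × ZMod 4)} (h : Wk (flp s) (RG (full A)) (pq c) y l) :
    ∃ m, (∀ j ≤ m, ((nx6 s)^[j] c).1 ∈ A) ∧
      y = (((nx6 s)^[m] c).1, ex ((nx6 s)^[m + 1] c).2) := by
  induction h with
  | one =>
    refine ⟨0, fun j hj => ?_, ?_⟩
    · have : j = 0 := by omega
      subst this
      exact hc
    · exact pass_pq s c
  | @snoc q r l h1 h2 ih =>
    obtain ⟨m, h3, h4⟩ := ih
    rw [h4, rg_full] at h2
    have h5 : mv ((nx6 s)^[m] c).1 ((nx6 s)^[m + 1] c).2 = ((nx6 s)^[m + 1] c).1 := by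
      rw [Function.iterate_succ_apply']; rfl
    rw [h5] at h2
    refine ⟨m + 1, fun j hj => ?_, ?_⟩
    · rcases Nat.lt_or_ge j (m + 1) with h | h
      · exact h3 j (by omega)
      · have : j = m + 1 := by omega
        rw [this]; exact h2.1.2
    · rw [h2.2]
      have h6 : ((((nx6 s)^[m + 1] c).1, en ((nx6 s)^[m + 1] c).2) : (ℤ × ℤ) × ZMod 4) =
          pq ((nx6 s)^[m + 1] c) := rfl
      rw [h6, pass_pq, ← Function.iterate_succ_apply' (nx6 s)]

theorem rev_rev (c : Nm211.St ℤ) : rev (rev c) = c := by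
  obtain ⟨⟨x, y⟩, d⟩ := c
  unfold rev mv
  simp [dx_opp, dy_opp]

/-- the reversed orbit -/
theorem rev_iter (s : ℤ × ℤ → Bool) (c : Nm211.St ℤ) (m : ℕ) : ∀ k ≤ m,
    (nx6 s)^[k] (rev ((nx6 s)^[m] c)) = rev ((nx6 s)^[m - k] c) := by
  intro k
  induction k with
  | zero => intro _; rfl
  | succ k ih =>
    intro hk
    rw [Function.iterate_succ_apply', ih (by omega)]
    obtain ⟨r, hr⟩ : ∃ r, m - k = r + 1 := ⟨m - k - 1, by omega⟩
    have hr' : m - (k + 1) = r := by omega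
    rw [hr, hr', Function.iterate_succ_apply', rev_nx]

theorem exit_rev {n : ℕ} {s : ℤ × ℤ → Bool} {c e : Nm211.St ℤ} (hc : c ∈ XA n)
    (h : ExitA n s c e) : ExitA n s (rev e) (rev c) := by
  obtain ⟨m, h1, rfl, h3⟩ := h
  refine ⟨m, fun k hk => ?_, ?_, ?_⟩
  · rw [rev_iter s c m k hk.le]
    exact prev_mem (by omega) fun j hj => h1 j (by omega)
  · rw [rev_iter s c m m le_rfl, Nat.sub_self]
    rfl
  · exact (mem_XA.1 hc).2

/-- **the strand from an entering state** -/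
theorem strand {n : ℕ} (hsc : (full (Lr n)).SC) (hcn : (full (Lr n)).Conn) (s : ℤ × ℤ → Bool)
    {c : Nm211.St ℤ} (hc : c ∈ XA n) : ∃ e l, ExitA n s c e ∧ rev e ∈ XA n ∧ rev e ≠ c ∧
      Wk (flp s) (RG (full (Lr n))) (pq c) (pq (rev e)) l := by
  obtain ⟨y, l, hw, hy, hne⟩ := patch_end hsc hcn (flp s) (rfree_XA.2 hc)
  obtain ⟨m, h1, h2⟩ := wk_iter (mem_XA.1 hc).1 hw
  have h3 : pq (rev ((nx6 s)^[m + 1] c)) = y := by
    rw [h2]
    unfold pq rev
    rw [← ex_en, opp_opp]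
    congr 1
    rw [Function.iterate_succ_apply']
    unfold nx6 mv
    simp [dx_opp, dy_opp]
  have h4 : rev ((nx6 s)^[m + 1] c) ∈ XA n := by
    rw [← rfree_XA, h3]
    exact hy
  refine ⟨(nx6 s)^[m + 1] c, l, ⟨m + 1, fun j hj => h1 j (by omega), rfl, ?_⟩, h4, ?_, ?_⟩
  · have h5 := (mem_XA.1 h4).2
    have h6 : mv (rev ((nx6 s)^[m + 1] c)).1 (opp (rev ((nx6 s)^[m + 1] c)).2) =
        ((nx6 s)^[m + 1] c).1 := by
      have := congrArg Prod.fst (rev_rev ((nx6 s)^[m + 1] c))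
      exact this
    rw [h6] at h5
    exact h5
  · rintro h5
    rw [h5] at h3
    exact hne h3.symm
  · rw [h3]; exact hw

/-- sides -/
theorem sE_rev (e : Nm211.St ℤ) : sE (rev e) = sX e := by
  obtain ⟨⟨x, y⟩, d⟩ := e
  have hy0 : (y + 0 < 0) = (y < 0) := by rw [add_zero]
  have hy1 : (y + 1 < 0) = (y < -1) := propext (by omega)
  fin_cases d
  · rfl
  · rfl
  · show (if y + 1 < 0 then (3 : Fin 6) else 5) = if y < -1 then 3 else 5
    simp only [hy1]
  · show (if y + 0 < 0 then (4 : Fin 6) else 0) = if y < 0 then 4 else 0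
    simp only [hy0]

theorem sX_rev (c : Nm211.St ℤ) : sX (rev c) = sE c := by
  have h3 := sE_rev (rev c)
  rw [rev_rev] at h3
  exact h3.symm

/-! ### product over the cut ends -/

section prod

variable {P : Type*} [DecidableEq P] {N : Net P}

/-- **`z V` as a product over the cut ends** -/
theorem z_prod (h : N.Ok) (hl : ∀ x ∈ N.V, ∀ n, N.Strand x n → N.be (N.al (N.g^[n] x)) = x →
    N.z (N.cls x) = 1) (ω : P → ℂ)
    (hω : ∀ x ∈ Ends N, ∀ y ∈ Ends N, x ≠ y → N.cls y = N.cls x → ω x * ω y = N.z (N.cls x)) :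
    N.z N.V = ∏ x ∈ Ends N, ω x := by
  classical
  rw [Net.z_classes h h.clV]
  rw [← Finset.prod_fiberwise_of_maps_to (s := Ends N) (t := N.classes N.V) (g := N.cls)
    (fun x hx => Finset.mem_image_of_mem _ (mem_Ends.1 hx).1) ω]
  refine Finset.prod_congr rfl fun c hc => ?_
  obtain ⟨p, hp, rfl⟩ := Finset.mem_image.1 hc
  obtain ⟨x, hx, n, hs, e⟩ := Net.exists_strand h hp
  rw [e]
  rcases hs.2 with ⟨h1, h2⟩ | ⟨h1, h2⟩
  · obtain ⟨h3, h4⟩ := arc_ends h hx hs.1 h1 h2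
    rw [h4, Finset.prod_pair h3]
    have hy : N.al (N.g^[n] x) ∈ Ends N ∧ N.cls (N.al (N.g^[n] x)) = N.cls x := by
      have : N.al (N.g^[n] x) ∈ (Ends N).filter fun p => N.cls p = N.cls x := by
        rw [h4]; simp
      exact Finset.mem_filter.1 this
    exact (hω x (mem_Ends.2 ⟨hx, h1⟩) _ hy.1 h3 hy.2).symm
  · have hemp : ((Ends N).filter fun y => N.cls y = N.cls x) = ∅ := by
      refine Finset.filter_eq_empty_iff.2 fun {y} hy hc => ?_
      exact loop_ends h hx hs h1 (mem_Ends.1 hy).1 hc (mem_Ends.1 hy).2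
    rw [hemp, Finset.prod_empty]
    exact hl x hx n hs h1

end prod

end Crest.Agent.R158.Dn211
end
end

-- ▼ part R158/Da2_570
section

/-!
# R158 (helper570), file Da2: region table of the L-shape (DENT-A, 211's message 11100)

* `Lr n = [0,8n) × [0,4n) ∪ [4n,8n) × [-4n,0)`, sides `sid`, levels `lv`
* **(T1)** `lr_sc`, `lr_conn`
* **(T2)** `lr_free`
* **(T3)** `lr_chain`
-/

set_option autoImplicit false
set_option linter.unusedVariables false
set_option linter.unusedSimpArgs false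

noncomputable section

namespace Crest.Agent.R158.Da570

open Crest.Agent.R158.Pt266
open Crest.Agent.R158.Xr249 (rot rot_some rot_none Nx Reg full CPath full_SC full_Conn)
open Crest.Agent.R158.Env664 (Adj4)

/-- the L-shape -/
def Lr (n : ℕ) : Finset (ℤ × ℤ) :=
  (Finset.Ico (0 : ℤ) (8 * n) ×ˢ Finset.Ico (0 : ℤ) (4 * n)) ∪
    (Finset.Ico (4 * n : ℤ) (8 * n) ×ˢ Finset.Ico (-(4 * n) : ℤ) 0)

/-- side of a port -/
def sid (x : (ℤ × ℤ) × ZMod 4) : Fin 6 :=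
  if x.2 = 0 then (if x.1.2 < 0 then 4 else 0) else if x.2 = 1 then 1 else if x.2 = 2 then 2
    else (if x.1.2 < 0 then 3 else 5)

/-- levels of the sides -/
def lv : Fin 6 → ℤ := ![0, 1, 2, 3, 4, 3]

lemma mem_Lr {n : ℕ} {x y : ℤ} : (x, y) ∈ Lr n ↔
    (0 ≤ x ∧ x < 8 * n ∧ 0 ≤ y ∧ y < 4 * n) ∨ (4 * n ≤ x ∧ x < 8 * n ∧ -(4 * n) ≤ y ∧ y < 0) := by
  simp only [Lr, Finset.mem_union, Finset.mem_product, Finset.mem_Ico]
  tauto

lemma zd : (0 : ZMod 4) ≠ 1 ∧ (0 : ZMod 4) ≠ 2 ∧ (0 : ZMod 4) ≠ 3 ∧ (1 : ZMod 4) ≠ 0 ∧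
    (1 : ZMod 4) ≠ 2 ∧ (1 : ZMod 4) ≠ 3 ∧ (2 : ZMod 4) ≠ 0 ∧ (2 : ZMod 4) ≠ 1 ∧ (2 : ZMod 4) ≠ 3 ∧
    (3 : ZMod 4) ≠ 0 ∧ (3 : ZMod 4) ≠ 1 ∧ (3 : ZMod 4) ≠ 2 := by decide

lemma dir0 : dir 0 = (-1, 0) := by simp [dir]
lemma dir1 : dir 1 = (0, 1) := by
  obtain ⟨h1, h2, h3, h4, h5, h6, h7, h8, h9, h10, h11, h12⟩ := zd
  simp [dir, h4]
lemma dir2 : dir 2 = (1, 0) := by
  obtain ⟨h1, h2, h3, h4, h5, h6, h7, h8, h9, h10, h11, h12⟩ := zd
  simp [dir, h7, h8]
lemma dir3 : dir 3 = (0, -1) := by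
  obtain ⟨h1, h2, h3, h4, h5, h6, h7, h8, h9, h10, h11, h12⟩ := zd
  simp [dir, h10, h11, h12]

lemma z31 : (3 : ZMod 4) + 1 = 0 := by decide
lemma z21 : (2 : ZMod 4) + 1 = 3 := by decide
lemma z11 : (1 : ZMod 4) + 1 = 2 := by decide
lemma z01 : (0 : ZMod 4) + 1 = 1 := by decide
lemma z03 : (0 : ZMod 4) + 3 = 3 := by decide

/-- **(T1)** -/
theorem lr_hole (n : ℕ) : Hole (Lr n) := by
  rintro ⟨x, y⟩ hc
  rw [mem_Lr] at hc
  have htop : ∀ t ∈ Lr n, t.2 ≤ 4 * (n : ℤ) := by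
    rintro ⟨a, b⟩ h
    rw [mem_Lr] at h
    simp only
    omega
  -- a column from which we can go up
  have up : ∀ a b : ℤ, (a < 0 ∨ 8 * (n : ℤ) ≤ a ∨ 4 * (n : ℤ) ≤ b) →
      CPath {t | t ∉ Lr n} (a, b) (a, max b (4 * n)) := by
    intro a b hab
    refine CPath.ver (le_max_left _ _) fun z h1 h2 => ?_
    simp only [Set.mem_ofPred_eq, mem_Lr]
    omega
  have top' : ∀ a b : ℤ, ∀ t ∈ Lr n, t.2 ≤ (a, max b (4 * (n : ℤ))).2 := fun a b t ht =>
    (htop t ht).trans (le_max_right _ _)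
  by_cases h1 : x < 0 ∨ 8 * (n : ℤ) ≤ x ∨ 4 * (n : ℤ) ≤ y
  · exact ⟨_, up x y h1, top' x y⟩
  by_cases h2 : x < 4 * (n : ℤ)
  · refine ⟨_, CPath.trans (b := (-1, y)) ?_ (up (-1) y (Or.inl (by omega))), top' (-1) y⟩
    refine (CPath.hor (x1 := -1) (x2 := x) (y := y) (by omega) fun z h3 h4 => ?_).symm
    simp only [Set.mem_ofPred_eq, mem_Lr]
    omega
  · refine ⟨_, CPath.trans (b := (8 * (n : ℤ), y)) ?_ (up (8 * n) y (Or.inr (Or.inl le_rfl))),
      top' (8 * n) y⟩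
    refine CPath.hor (x1 := x) (x2 := 8 * n) (y := y) (by omega) fun z h3 h4 => ?_
    simp only [Set.mem_ofPred_eq, mem_Lr]
    omega

theorem lr_sc (n : ℕ) : (full (Lr n)).SC := full_SC (lr_hole n)

theorem lr_conn {n : ℕ} : (full (Lr n)).Conn := by
  have key : ∀ a ∈ Lr n, CPath {t | t ∈ Lr n} a (0, 0) := by
    rintro ⟨x, y⟩ h
    rw [mem_Lr] at h
    have h1 : CPath {t | t ∈ Lr n} (x, y) (x, 0) := by
      rcases le_total 0 y with h2 | h2
      · refine (CPath.ver (y1 := 0) (y2 := y) (x := x) h2 fun z h3 h4 => ?_).symm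
        simp only [Set.mem_ofPred_eq, mem_Lr]
        omega
      · refine CPath.ver (y1 := y) (y2 := 0) (x := x) h2 fun z h3 h4 => ?_
        simp only [Set.mem_ofPred_eq, mem_Lr]
        omega
    refine h1.trans (CPath.hor (x1 := 0) (x2 := x) (y := 0) (by omega) fun z h3 h4 => ?_).symm
    simp only [Set.mem_ofPred_eq, mem_Lr]
    omega
  exact full_Conn fun a ha b hb => (key a ha).trans (key b hb).symm

/-- **(T2)** -/
theorem lr_free {n : ℕ} {a b : ℤ} {d : ZMod 4} : RFree (full (Lr n)) ((a, b), d) ↔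
    (d = 0 ∧ a = 0 ∧ 0 ≤ b ∧ b < 4 * n) ∨ (d = 1 ∧ b = 4 * n - 1 ∧ 0 ≤ a ∧ a < 8 * n) ∨
    (d = 2 ∧ a = 8 * n - 1 ∧ -(4 * n) ≤ b ∧ b < 4 * n) ∨
    (d = 3 ∧ b = -(4 * n) ∧ 4 * n ≤ a ∧ a < 8 * n) ∨
    (d = 0 ∧ a = 4 * n ∧ -(4 * n) ≤ b ∧ b < 0) ∨ (d = 3 ∧ b = 0 ∧ 0 ≤ a ∧ a < 4 * n) := by
  obtain ⟨h1, h2, h3, h4, h5, h6, h7, h8, h9, h10, h11, h12⟩ := zd
  rw [rfree_full, FFree]
  rcases Xr249.Reg.d4 d with rfl | rfl | rfl | rfl
  · simp only [dir0, Prod.mk_add_mk, mem_Lr, h1, h2, h3, true_and, false_and, false_or, or_false]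
    omega
  · simp only [dir1, Prod.mk_add_mk, mem_Lr, h4, h5, h6, true_and, false_and, false_or, or_false]
    omega
  · simp only [dir2, Prod.mk_add_mk, mem_Lr, h7, h8, h9, true_and, false_and, false_or, or_false]
    omega
  · simp only [dir3, Prod.mk_add_mk, mem_Lr, h10, h11, h12, true_and, false_and, false_or, or_false]
    omega

/-! ### the boundary, numbered -/

/-- port number `i` of the boundary -/
def bp (n i : ℤ) : (ℤ × ℤ) × ZMod 4 :=
  if i < 4 * n then ((0, i), 0) else if i < 12 * n then ((i - 4 * n, 4 * n - 1), 1)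
  else if i < 20 * n then ((8 * n - 1, 16 * n - 1 - i), 2)
  else if i < 24 * n then ((28 * n - 1 - i, -(4 * n)), 3)
  else if i < 28 * n then ((4 * n, i - 28 * n), 0)
  else ((32 * n - 1 - i, 0), 3)

lemma bp1 {n i : ℤ} (h : i < 4 * n) : bp n i = ((0, i), 0) := if_pos h
lemma bp2 {n i : ℤ} (h0 : 4 * n ≤ i) (h : i < 12 * n) : bp n i = ((i - 4 * n, 4 * n - 1), 1) := by
  rw [bp, if_neg (by omega), if_pos h]
lemma bp3 {n i : ℤ} (hn : 0 ≤ n) (h0 : 12 * n ≤ i) (h : i < 20 * n) :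
    bp n i = ((8 * n - 1, 16 * n - 1 - i), 2) := by
  rw [bp, if_neg (by omega), if_neg (by omega), if_pos h]
lemma bp4 {n i : ℤ} (hn : 0 ≤ n) (h0 : 20 * n ≤ i) (h : i < 24 * n) :
    bp n i = ((28 * n - 1 - i, -(4 * n)), 3) := by
  rw [bp, if_neg (by omega), if_neg (by omega), if_neg (by omega), if_pos h]
lemma bp5 {n i : ℤ} (hn : 0 ≤ n) (h0 : 24 * n ≤ i) (h : i < 28 * n) :
    bp n i = ((4 * n, i - 28 * n), 0) := by
  rw [bp, if_neg (by omega), if_neg (by omega), if_neg (by omega), if_neg (by omega), if_pos h]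
lemma bp6 {n i : ℤ} (hn : 0 ≤ n) (h0 : 28 * n ≤ i) : bp n i = ((32 * n - 1 - i, 0), 3) := by
  rw [bp, if_neg (by omega), if_neg (by omega), if_neg (by omega), if_neg (by omega),
    if_neg (by omega)]

/-- number of a port -/
def ix (n : ℤ) (x : (ℤ × ℤ) × ZMod 4) : ℤ :=
  if x.2 = 0 then (if x.1.2 < 0 then x.1.2 + 28 * n else x.1.2)
  else if x.2 = 1 then x.1.1 + 4 * n
  else if x.2 = 2 then 16 * n - 1 - x.1.2
  else (if x.1.2 < 0 then 28 * n - 1 - x.1.1 else 32 * n - 1 - x.1.1)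

lemma ix_bp {n i : ℤ} (hn : 1 ≤ n) (h0 : 0 ≤ i) (h : i < 32 * n) : ix n (bp n i) = i := by
  obtain ⟨h1, h2, h3, h4, h5, h6, h7, h8, h9, h10, h11, h12⟩ := zd
  rcases lt_or_ge i (4 * n) with c1 | c1
  · rw [bp1 c1]
    simp only [ix, if_true, if_neg (show ¬ i < 0 by omega)]
  rcases lt_or_ge i (12 * n) with c2 | c2
  · rw [bp2 c1 c2]
    simp only [ix, h4, if_false, if_true]
    omega
  rcases lt_or_ge i (20 * n) with c3 | c3
  · rw [bp3 (by omega) c2 c3]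
    simp only [ix, h7, h8, if_false, if_true]
    omega
  rcases lt_or_ge i (24 * n) with c4 | c4
  · rw [bp4 (by omega) c3 c4]
    simp only [ix, h10, h11, h12, if_false, if_pos (show -(4 * n) < 0 by omega)]
    omega
  rcases lt_or_ge i (28 * n) with c5 | c5
  · rw [bp5 (by omega) c4 c5]
    simp only [ix, if_true, if_pos (show i - 28 * n < 0 by omega)]
    omega
  · rw [bp6 (by omega) c5]
    simp only [ix, h10, h11, h12, if_false, if_neg (show ¬ (0 : ℤ) < 0 by omega)]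
    omega

lemma bp_ix {n : ℕ} (hn : 1 ≤ n) {x : (ℤ × ℤ) × ZMod 4} (hx : RFree (full (Lr n)) x) :
    bp n (ix n x) = x ∧ 0 ≤ ix n x ∧ ix n x < 32 * n := by
  obtain ⟨h1, h2, h3, h4, h5, h6, h7, h8, h9, h10, h11, h12⟩ := zd
  rcases x with ⟨⟨a, b⟩, d⟩
  rw [lr_free] at hx
  rcases hx with ⟨rfl, rfl, c1, c2⟩ | ⟨rfl, rfl, c1, c2⟩ | ⟨rfl, rfl, c1, c2⟩ | ⟨rfl, rfl, c1, c2⟩ |
    ⟨rfl, rfl, c1, c2⟩ | ⟨rfl, rfl, c1, c2⟩
  · have e : ix n (((0 : ℤ), b), (0 : ZMod 4)) = b := by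
      simp only [ix, if_true, if_neg (show ¬ b < 0 by omega)]
    rw [e, bp1 (by omega)]
    exact ⟨rfl, by omega, by omega⟩
  · have e : ix n ((a, (4 * n - 1 : ℤ)), (1 : ZMod 4)) = a + 4 * n := by
      simp only [ix, h4, if_false, if_true]
    rw [e, bp2 (by omega) (by omega)]
    refine ⟨by rw [add_sub_cancel_right], by omega, by omega⟩
  · have e : ix n (((8 * n - 1 : ℤ), b), (2 : ZMod 4)) = 16 * n - 1 - b := by
      simp only [ix, h7, h8, if_false, if_true]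
    rw [e, bp3 (by omega) (by omega) (by omega)]
    refine ⟨by rw [sub_sub_cancel], by omega, by omega⟩
  · have e : ix n ((a, (-(4 * n) : ℤ)), (3 : ZMod 4)) = 28 * n - 1 - a := by
      simp only [ix, h10, h11, h12, if_false, if_pos (show -(4 * (n : ℤ)) < 0 by omega)]
    rw [e, bp4 (by omega) (by omega) (by omega)]
    refine ⟨by rw [sub_sub_cancel], by omega, by omega⟩
  · have e : ix n (((4 * n : ℤ), b), (0 : ZMod 4)) = b + 28 * n := by
      simp only [ix, if_true, if_pos (show b < 0 by omega)]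
    rw [e, bp5 (by omega) (by omega) (by omega)]
    refine ⟨by rw [add_sub_cancel_right], by omega, by omega⟩
  · have e : ix n ((a, (0 : ℤ)), (3 : ZMod 4)) = 32 * n - 1 - a := by
      simp only [ix, h10, h11, h12, if_false, if_neg (show ¬ (0 : ℤ) < 0 by omega)]
    rw [e, bp6 (by omega) (by omega)]
    refine ⟨by rw [sub_sub_cancel], by omega, by omega⟩

/-- side of port number `i` -/
lemma sid_bp {n i : ℤ} (hn : 1 ≤ n) (h0 : 0 ≤ i) (h : i < 32 * n) :
    sid (bp n i) = if i < 4 * n then 0 else if i < 12 * n then 1 else if i < 20 * n then 2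
      else if i < 24 * n then 3 else if i < 28 * n then 4 else 5 := by
  obtain ⟨h1, h2, h3, h4, h5, h6, h7, h8, h9, h10, h11, h12⟩ := zd
  rcases lt_or_ge i (4 * n) with c1 | c1
  · rw [bp1 c1, if_pos c1]
    simp only [sid, if_true, if_neg (show ¬ i < 0 by omega)]
  rw [if_neg (not_lt.2 c1)]
  rcases lt_or_ge i (12 * n) with c2 | c2
  · rw [bp2 c1 c2, if_pos c2]
    simp only [sid, h4, if_false, if_true]
  rw [if_neg (not_lt.2 c2)]
  rcases lt_or_ge i (20 * n) with c3 | c3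
  · rw [bp3 (by omega) c2 c3, if_pos c3]
    simp only [sid, h7, h8, if_false, if_true]
  rw [if_neg (not_lt.2 c3)]
  rcases lt_or_ge i (24 * n) with c4 | c4
  · rw [bp4 (by omega) c3 c4, if_pos c4]
    simp only [sid, h10, h11, h12, if_false, if_pos (show -(4 * n) < 0 by omega)]
  rw [if_neg (not_lt.2 c4)]
  rcases lt_or_ge i (28 * n) with c5 | c5
  · rw [bp5 (by omega) c4 c5, if_pos c5]
    simp only [sid, if_true, if_pos (show i - 28 * n < 0 by omega)]
  · rw [bp6 (by omega) c5, if_neg (not_lt.2 c5)]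
    simp only [sid, h10, h11, h12, if_false, if_neg (show ¬ (0 : ℤ) < 0 by omega)]

lemma sid_mono {n i j : ℤ} (hn : 1 ≤ n) (h0 : 0 ≤ i) (hij : i ≤ j) (h : j < 32 * n) :
    sid (bp n i) ≤ sid (bp n j) := by
  rw [sid_bp hn h0 (by omega), sid_bp hn (by omega) h]
  have d1 : (0 : Fin 6) ≤ 0 := le_rfl
  split_ifs <;> first | decide | (exfalso; omega)

/-- one clockwise step -/
lemma bp_step {n : ℕ} (hn : 1 ≤ n) {i : ℤ} (h0 : 0 ≤ i) (h : i + 1 < 32 * n) :
    NxT (full (Lr n)).gl (some (bp n i)) (some (bp n (i + 1)))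
      (lv (sid (bp n (i + 1))) - lv (sid (bp n i))) := by
  have hn' : (1 : ℤ) ≤ n := by exact_mod_cast hn
  have hl : lv 0 = 0 ∧ lv 1 = 1 ∧ lv 2 = 2 ∧ lv 3 = 3 ∧ lv 4 = 4 ∧ lv 5 = 3 := ⟨rfl, rfl, rfl, rfl, rfl, rfl⟩
  obtain ⟨l0, l1, l2, l3, l4, l5⟩ := hl
  rw [sid_bp hn' h0 (by omega), sid_bp hn' (by omega) h]
  rcases lt_or_ge i (4 * n) with c1 | c1
  · rcases lt_or_ge (i + 1) (4 * n) with e1 | e1
    · rw [if_pos c1, if_pos e1, bp1 c1, bp1 e1, sub_self]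
      have := nx_flat (A := Lr n) (t := (0, i)) (d := 0)
        (by rw [mem_Lr]; omega)
        (by rw [z01, dir1, Prod.mk_add_mk, mem_Lr]; omega)
        (by rw [z01, dir1, dir0, Prod.mk_add_mk, Prod.mk_add_mk, mem_Lr]; omega)
      rw [z01, dir1, Prod.mk_add_mk, add_zero] at this
      exact this
    · obtain rfl : i = 4 * n - 1 := by omega
      rw [if_pos c1, if_neg (by omega), if_pos (by omega), bp1 c1, bp2 (by omega) (by omega)]
      have := nx_convex (A := Lr n) (t := (0, 4 * n - 1)) (d := 0)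
        (by rw [z01, dir1, Prod.mk_add_mk, mem_Lr]; omega)
      rw [z01] at this
      rw [l1, l0, show (4 * (n : ℤ) - 1 + 1 - 4 * n) = 0 by ring]
      exact this
  rw [if_neg (not_lt.2 c1), if_neg (show ¬ i + 1 < 4 * n by omega)]
  rcases lt_or_ge i (12 * n) with c2 | c2
  · rcases lt_or_ge (i + 1) (12 * n) with e1 | e1
    · rw [if_pos c2, if_pos e1, bp2 c1 c2, bp2 (by omega) e1, sub_self]
      have := nx_flat (A := Lr n) (t := (i - 4 * n, 4 * n - 1)) (d := 1)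
        (by rw [mem_Lr]; omega)
        (by rw [z11, dir2, Prod.mk_add_mk, mem_Lr]; omega)
        (by rw [z11, dir2, dir1, Prod.mk_add_mk, Prod.mk_add_mk, mem_Lr]; omega)
      rw [z11, dir2, Prod.mk_add_mk, add_zero] at this
      rw [show i + 1 - 4 * (n : ℤ) = i - 4 * n + 1 by ring]
      exact this
    · obtain rfl : i = 12 * n - 1 := by omega
      rw [if_pos c2, if_neg (by omega), if_pos (by omega), bp2 c1 c2, bp3 (by omega) (by omega) (by omega)]
      have := nx_convex (A := Lr n) (t := (12 * n - 1 - 4 * n, 4 * n - 1)) (d := 1)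
        (by rw [z11, dir2, Prod.mk_add_mk, mem_Lr]; omega)
      rw [z11] at this
      rw [l2, l1, show (8 * (n : ℤ) - 1) = 12 * n - 1 - 4 * n by ring,
        show (16 * (n : ℤ) - 1 - (12 * n - 1 + 1)) = 4 * n - 1 by ring]
      exact this
  rw [if_neg (not_lt.2 c2), if_neg (show ¬ i + 1 < 12 * n by omega)]
  rcases lt_or_ge i (20 * n) with c3 | c3
  · rcases lt_or_ge (i + 1) (20 * n) with e1 | e1
    · rw [if_pos c3, if_pos e1, bp3 (by omega) c2 c3, bp3 (by omega) (by omega) e1, sub_self]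
      have := nx_flat (A := Lr n) (t := (8 * n - 1, 16 * n - 1 - i)) (d := 2)
        (by rw [mem_Lr]; omega)
        (by rw [z21, dir3, Prod.mk_add_mk, mem_Lr]; omega)
        (by rw [z21, dir3, dir2, Prod.mk_add_mk, Prod.mk_add_mk, mem_Lr]; omega)
      rw [z21, dir3, Prod.mk_add_mk, add_zero] at this
      rw [show 16 * (n : ℤ) - 1 - (i + 1) = 16 * n - 1 - i + -1 by ring]
      exact this
    · obtain rfl : i = 20 * n - 1 := by omega
      rw [if_pos c3, if_neg (by omega), if_pos (by omega), bp3 (by omega) c2 c3,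
        bp4 (by omega) (by omega) (by omega)]
      have := nx_convex (A := Lr n) (t := (8 * n - 1, 16 * n - 1 - (20 * n - 1))) (d := 2)
        (by rw [z21, dir3, Prod.mk_add_mk, mem_Lr]; omega)
      rw [z21] at this
      rw [l3, l2, show (28 * (n : ℤ) - 1 - (20 * n - 1 + 1)) = 8 * n - 1 by ring,
        show (-(4 * (n : ℤ))) = 16 * n - 1 - (20 * n - 1) by ring]
      exact this
  rw [if_neg (not_lt.2 c3), if_neg (show ¬ i + 1 < 20 * n by omega)]
  rcases lt_or_ge i (24 * n) with c4 | c4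
  · rcases lt_or_ge (i + 1) (24 * n) with e1 | e1
    · rw [if_pos c4, if_pos e1, bp4 (by omega) c3 c4, bp4 (by omega) (by omega) e1, sub_self]
      have := nx_flat (A := Lr n) (t := (28 * n - 1 - i, -(4 * n))) (d := 3)
        (by rw [mem_Lr]; omega)
        (by rw [z31, dir0, Prod.mk_add_mk, mem_Lr]; omega)
        (by rw [z31, dir3, dir0, Prod.mk_add_mk, Prod.mk_add_mk, mem_Lr]; omega)
      rw [z31, dir0, Prod.mk_add_mk, add_zero] at this
      rw [show 28 * (n : ℤ) - 1 - (i + 1) = 28 * n - 1 - i + -1 by ring]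
      exact this
    · obtain rfl : i = 24 * n - 1 := by omega
      rw [if_pos c4, if_neg (by omega), if_pos (by omega), bp4 (by omega) c3 c4,
        bp5 (by omega) (by omega) (by omega)]
      have := nx_convex (A := Lr n) (t := (28 * n - 1 - (24 * n - 1), -(4 * n))) (d := 3)
        (by rw [z31, dir0, Prod.mk_add_mk, mem_Lr]; omega)
      rw [z31] at this
      rw [l4, l3, show ((24 * (n : ℤ) - 1 + 1) - 28 * n) = -(4 * n) by ring,
        show ((4 * (n : ℤ)), (-(4 * (n : ℤ)))) = (28 * (n : ℤ) - 1 - (24 * (n : ℤ) - 1), -(4 * (n : ℤ))) by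
          rw [show (28 * (n : ℤ) - 1 - (24 * n - 1)) = 4 * n by ring]]
      exact this
  rw [if_neg (not_lt.2 c4), if_neg (show ¬ i + 1 < 24 * n by omega)]
  rcases lt_or_ge i (28 * n) with c5 | c5
  · rcases lt_or_ge (i + 1) (28 * n) with e1 | e1
    · rw [if_pos c5, if_pos e1, bp5 (by omega) c4 c5, bp5 (by omega) (by omega) e1, sub_self]
      have := nx_flat (A := Lr n) (t := (4 * n, i - 28 * n)) (d := 0)
        (by rw [mem_Lr]; omega)
        (by rw [z01, dir1, Prod.mk_add_mk, mem_Lr]; omega)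
        (by rw [z01, dir1, dir0, Prod.mk_add_mk, Prod.mk_add_mk, mem_Lr]; omega)
      rw [z01, dir1, Prod.mk_add_mk, add_zero] at this
      rw [show i + 1 - 28 * (n : ℤ) = i - 28 * n + 1 by ring]
      exact this
    · obtain rfl : i = 28 * n - 1 := by omega
      rw [if_pos c5, if_neg (by omega), bp5 (by omega) c4 c5, bp6 (by omega) (by omega)]
      have := nx_reflex (A := Lr n) (t := (4 * n, 28 * n - 1 - 28 * n)) (d := 0)
        (by rw [mem_Lr]; omega)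
        (by rw [z01, dir1, Prod.mk_add_mk, mem_Lr]; omega)
        (by rw [z01, dir1, dir0, Prod.mk_add_mk, Prod.mk_add_mk, mem_Lr]; omega)
        (by rw [dir0, Prod.mk_add_mk, mem_Lr]; omega)
      rw [z01, dir1, dir0, Prod.mk_add_mk, Prod.mk_add_mk, z03] at this
      rw [l5, l4, show (32 * (n : ℤ) - 1 - (28 * n - 1 + 1)) = 4 * n + 0 + -1 by ring,
        show ((4 * (n : ℤ) + 0 + -1), (0 : ℤ)) = (4 * (n : ℤ) + 0 + -1, 28 * (n : ℤ) - 1 - 28 * n + 1 + 0) by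
          rw [show 28 * (n : ℤ) - 1 - 28 * n + 1 + 0 = 0 by ring]]
      exact this
  · rw [if_neg (not_lt.2 c5), if_neg (show ¬ i + 1 < 28 * n by omega), bp6 (by omega) c5,
      bp6 (by omega) (by omega), sub_self]
    have := nx_flat (A := Lr n) (t := (32 * n - 1 - i, 0)) (d := 3)
      (by rw [mem_Lr]; omega)
      (by rw [z31, dir0, Prod.mk_add_mk, mem_Lr]; omega)
      (by rw [z31, dir3, dir0, Prod.mk_add_mk, Prod.mk_add_mk, mem_Lr]; omega)
    rw [z31, dir0, Prod.mk_add_mk, add_zero] at this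
    rw [show 32 * (n : ℤ) - 1 - (i + 1) = 32 * n - 1 - i + -1 by ring]
    exact this

/-- chain between two numbered ports -/
lemma bp_chain {n : ℕ} (hn : 1 ≤ n) {i : ℤ} (h0 : 0 ≤ i) :
    ∀ k : ℕ, i + 1 + k < 32 * n → ∃ m, CwC (full (Lr n)).gl (bp n i) (bp n (i + 1 + k))
      (lv (sid (bp n (i + 1 + k))) - lv (sid (bp n i))) m ∧
      ∀ z ∈ m, ∃ j, i < j ∧ j < i + 1 + k ∧ z = bp n j := by
  intro k
  induction k with
  | zero =>
    intro h
    simp only [Nat.cast_zero, add_zero] at h ⊢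
    exact ⟨[], .one (bp_step hn h0 h), by simp⟩
  | succ k ih =>
    intro h
    push_cast at h ⊢
    obtain ⟨m, h1, h2⟩ := ih (by omega)
    have h3 := bp_step hn (i := i + 1 + k) (by omega) (by omega)
    rw [show i + 1 + (k : ℤ) + 1 = i + 1 + (k + 1) by ring] at h3
    refine ⟨m ++ [bp n (i + 1 + k)], (h1.snoc h3).cast (by ring), ?_⟩
    intro z hz
    rcases List.mem_append.1 hz with hz | hz
    · obtain ⟨j, h4, h5, rfl⟩ := h2 z hz
      exact ⟨j, h4, by omega, rfl⟩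
    · rw [List.mem_singleton] at hz
      exact ⟨i + 1 + k, by omega, by omega, hz⟩

/-- **(T3)** -/
theorem lr_chain {n : ℕ} (hn : 1 ≤ n) {x y : (ℤ × ℤ) × ZMod 4} (hx : RFree (full (Lr n)) x)
    (hy : RFree (full (Lr n)) y) (hxy : x ≠ y) :
    (sid x ≤ sid y ∧ ∃ m, CwC (full (Lr n)).gl x y (lv (sid y) - lv (sid x)) m ∧ x ∉ m) ∨
    (sid y ≤ sid x ∧ ∃ m, CwC (full (Lr n)).gl y x (lv (sid x) - lv (sid y)) m ∧ y ∉ m) := by
  have hn' : (1 : ℤ) ≤ n := by exact_mod_cast hn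
  have key : ∀ {x y : (ℤ × ℤ) × ZMod 4}, RFree (full (Lr n)) x → RFree (full (Lr n)) y →
      ix n x < ix n y →
      sid x ≤ sid y ∧ ∃ m, CwC (full (Lr n)).gl x y (lv (sid y) - lv (sid x)) m ∧ x ∉ m := by
    intro x y hx hy hlt
    obtain ⟨e1, e2, e3⟩ := bp_ix hn hx
    obtain ⟨f1, f2, f3⟩ := bp_ix hn hy
    have h1 := sid_mono hn' e2 hlt.le f3
    rw [e1, f1] at h1
    refine ⟨h1, ?_⟩
    obtain ⟨k, hk⟩ := Int.le.dest (show ix n x + 1 ≤ ix n y by omega)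
    obtain ⟨m, h2, h3⟩ := bp_chain hn e2 k (by omega)
    rw [hk, e1, f1] at h2
    refine ⟨m, h2, fun h4 => ?_⟩
    obtain ⟨j, h5, h6, h7⟩ := h3 x h4
    have h8 := ix_bp hn' (i := j) (by omega) (by omega)
    rw [← h7] at h8
    omega
  rcases lt_trichotomy (ix n x) (ix n y) with h | h | h
  · exact Or.inl (key hx hy h)
  · exfalso
    apply hxy
    rw [← (bp_ix hn hx).1, ← (bp_ix hn hy).1, h]
  · exact Or.inr (key hy hx h)

end Crest.Agent.R158.Da570
end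
end

-- ▼ part R158/Dn6_211
section

/-!
# Row 158, corner lemma (helper211), part 6: value of the network of the L-shape

* `ww σ i j` : weight of a strand from the side `i` to the side `j > i`, gauge `σ = ± 1`
* `PP σ n s` : product of the weights of the strands
* `z_LR` : `z V = (3^{1/4})^{|XA|} PP`
* `PP_int` : `∫ PP 1 = ∫ PP (-1)`
-/

set_option autoImplicit false
set_option linter.unusedSimpArgs false

noncomputable section

open Finset

namespace Crest.Agent.R158.Dn211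

open MeasureTheory ProbabilityTheory
open Crest.Agent.R158.Rs689 Crest.Agent.R158.Nm211
open Crest.Agent.R158.Sw300 (Port thru thru_thru thru_ne tn)
open Crest.Agent.R158.Ad350
open Crest.Agent.R158.Pt266 (RG RFree Wk tt rg_glu CwC patch_turn patch_loop patch_end pass Fr tt_rv)
open Crest.Agent.R158.Xr249 (Reg full)
open Crest.Agent.R158.Ka470 (en ex ex_en thru_sg)


/-- gauge -/
def gg (i : Fin 6) : ℝ := if i = 4 then 1 else 0

/-- weight of a strand from the side `i` to the side `j > i` -/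
def ww (σ : ℝ) (i j : Fin 6) : ℝ :=
  2 * Real.cos (Real.pi / 12 * (2 - ((Da570.lv j - Da570.lv i : ℤ) : ℝ) + σ * (gg j - gg i))) /
    Real.sqrt 3

theorem sqrt3_pos : 0 < Real.sqrt 3 := Real.sqrt_pos.2 (by norm_num)

open Classical in
/-- exit of the strand from `c` -/
def exA (n : ℕ) (s : ℤ × ℤ → Bool) (c : Nm211.St ℤ) : Nm211.St ℤ :=
  if h : ∃ e, ExitA n s c e then h.choose else c

theorem exA_eq {n : ℕ} {s : ℤ × ℤ → Bool} {c e : Nm211.St ℤ} (h : ExitA n s c e) :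
    exA n s c = e := by
  unfold exA
  rw [dif_pos ⟨e, h⟩]
  exact exit_unique (Exists.choose_spec (⟨e, h⟩ : ∃ e, ExitA n s c e)) h

/-- weight attached to the first end of a strand -/
def Wt (σ : ℝ) (n : ℕ) (s : ℤ × ℤ → Bool) (c : Nm211.St ℤ) : ℝ :=
  if sE c < sX (exA n s c) then ww σ (sE c) (sX (exA n s c)) else 1

/-- product of the weights of the strands -/
def PP (σ : ℝ) (n : ℕ) (s : ℤ × ℤ → Bool) : ℝ := ∏ c ∈ XA n, Wt σ n s c

open Classical in
/-- phases of the cut ends -/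
def chL (n : ℕ) (σ : ℝ) : Port (ℤ × ℤ) → ℝ
  | none => 0
  | some a => if RFree (full (Lr n)) a ∧ Da570.sid a = 4 then σ * (Real.pi / 12) else 0

theorem chL_pos {n : ℕ} {σ : ℝ} {a : (ℤ × ℤ) × ZMod 4}
    (h : RFree (full (Lr n)) a ∧ Da570.sid a = 4) : chL n σ (some a) = σ * (Real.pi / 12) := by
  classical
  unfold chL
  exact if_pos h

theorem chL_zero {n : ℕ} {σ : ℝ} {a : (ℤ × ℤ) × ZMod 4}
    (h : ¬ (RFree (full (Lr n)) a ∧ Da570.sid a = 4)) : chL n σ (some a) = 0 := by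
  classical
  unfold chL
  exact if_neg h

theorem chL_nat (n : ℕ) (σ : ℝ) : Nat0 (full (Lr n)) (chL n σ) := by
  intro p q h
  obtain ⟨a, b, rfl, rfl, h3⟩ := gl_some h
  refine chL_zero ?_
  rintro ⟨h4, -⟩
  exact h4.2 _ h3

theorem sid_pq (c : Nm211.St ℤ) : Da570.sid (pq c) = sE c := by
  obtain ⟨⟨x, y⟩, d⟩ := c
  fin_cases d
  · rfl
  · rfl
  · rfl
  · rfl

theorem chL_pq {n : ℕ} {σ : ℝ} {c : Nm211.St ℤ} (hc : c ∈ XA n) :
    chL n σ (some (pq c)) = Real.pi / 12 * (σ * gg (sE c)) := by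
  unfold gg
  by_cases h : sE c = 4
  · rw [chL_pos ⟨rfree_XA.2 hc, by rw [sid_pq, h]⟩, if_pos h]; ring
  · rw [chL_zero (fun hh => h (by rw [← sid_pq]; exact hh.2)), if_neg h]; ring

theorem chL_neg (n : ℕ) (σ : ℝ) (p : Port (ℤ × ℤ)) : chL n (-σ) p = -chL n σ p := by
  cases p with
  | none => simp [chL]
  | some a =>
    by_cases h : RFree (full (Lr n)) a ∧ Da570.sid a = 4
    · rw [chL_pos h, chL_pos h]; ring
    · rw [chL_zero h, chL_zero h]; ring

theorem ww_self (σ : ℝ) (i : Fin 6) : Real.sqrt 3 = 2 * Real.cos (Real.pi / 12 *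
    (2 - ((Da570.lv i - Da570.lv i : ℤ) : ℝ) + σ * (gg i - gg i))) := by
  have : Real.pi / 12 * (2 - ((Da570.lv i - Da570.lv i : ℤ) : ℝ) + σ * (gg i - gg i)) =
      Real.pi / 6 := by
    rw [sub_self, sub_self]; push_cast; ring
  rw [this, Real.cos_pi_div_six]; ring

/-- **value of a strand** -/
theorem arc_val {n : ℕ} (hn : 1 ≤ n) {σ : ℝ} {s : ℤ × ℤ → Bool} {c e : Nm211.St ℤ}
    {l : List ((ℤ × ℤ) × ZMod 4)} (hc : c ∈ XA n) (he : ExitA n s c e) (hr : rev e ∈ XA n)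
    (hne : rev e ≠ c) (hw : Wk (flp s) (RG (full (Lr n))) (pq c) (pq (rev e)) l) :
    (NR (full (Lr n)) (flp s) (chL n σ)).z
      ((NR (full (Lr n)) (flp s) (chL n σ)).cls (some (pq c))) =
      ((Real.sqrt 3 * (Wt σ n s c * Wt σ n s (rev e)) : ℝ) : ℂ) := by
  have hx := rfree_XA.2 hc
  have hy := rfree_XA.2 hr
  rw [arc_value (chL_nat n σ) hx hy hw, chL_pq hc, chL_pq hr]
  suffices hreal : 2 * Real.cos (Real.pi / 12 * (-(tt (flp s) l : ℝ)) +
        (Real.pi / 12 * (σ * gg (sE (rev e))) - Real.pi / 12 * (σ * gg (sE c)))) =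
        Real.sqrt 3 * (Wt σ n s c * Wt σ n s (rev e)) by
    rw [← hreal]; push_cast; ring
  have hsc : (full (Lr n)).SC := Da570.lr_sc n
  have hcn : (full (Lr n)).Conn := Da570.lr_conn (n := n)
  have e1 : exA n s c = e := exA_eq he
  have e2 : exA n s (rev e) = rev c := exA_eq (exit_rev hc he)
  have e3 : sX e = sE (rev e) := (sE_rev e).symm
  have e4 : sX (rev c) = sE c := sX_rev c
  have hW1 : Wt σ n s c = if sE c < sE (rev e) then ww σ (sE c) (sE (rev e)) else 1 := by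
    unfold Wt; rw [e1, e3]
  have hW2 : Wt σ n s (rev e) = if sE (rev e) < sE c then ww σ (sE (rev e)) (sE c) else 1 := by
    unfold Wt; rw [e2, e4]
  rw [hW1, hW2]
  have h3 := sqrt3_pos
  have hxy : pq c ≠ pq (rev e) := fun h => hne (pq_inj h).symm
  generalize hi : sE c = i
  generalize hj : sE (rev e) = j
  rcases Da570.lr_chain hn hx hy hxy with ⟨h1, m, h2, h4⟩ | ⟨h1, m, h2, h4⟩
  · rw [sid_pq, sid_pq, hi, hj] at h2
    rw [sid_pq, sid_pq, hi, hj] at h1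
    have ht := patch_turn hsc hcn hx hy hw h2 hxy.symm h4
    have hv : 2 * Real.cos (Real.pi / 12 * (-(tt (flp s) l : ℝ)) +
        (Real.pi / 12 * (σ * gg j) - Real.pi / 12 * (σ * gg i))) =
        2 * Real.cos (Real.pi / 12 * (2 - ((Da570.lv j - Da570.lv i : ℤ) : ℝ) +
          σ * (gg j - gg i))) := by
      rw [ht]; push_cast; congr 2; ring
    rw [hv]
    rcases h1.lt_or_eq with h5 | h5
    · rw [if_pos h5, if_neg (not_lt.2 h1), mul_one]
      unfold ww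
      field_simp
    · subst h5
      rw [if_neg (lt_irrefl _), mul_one, mul_one]
      exact_mod_cast (ww_self σ i).symm
  · rw [sid_pq, sid_pq, hi, hj] at h2
    rw [sid_pq, sid_pq, hi, hj] at h1
    have hsym : ∀ a b, RG (full (Lr n)) a b → RG (full (Lr n)) b a := fun a b h =>
      (full (Lr n)).gl_glue.sym _ _ h
    have ht := patch_turn hsc hcn hy hx (hw.reverse hsym) h2 hxy h4
    rw [tt_rv] at ht
    have hv : 2 * Real.cos (Real.pi / 12 * (-(tt (flp s) l : ℝ)) +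
        (Real.pi / 12 * (σ * gg j) - Real.pi / 12 * (σ * gg i))) =
        2 * Real.cos (Real.pi / 12 * (2 - ((Da570.lv i - Da570.lv j : ℤ) : ℝ) +
          σ * (gg i - gg j))) := by
      have ht' : (tt (flp s) l : ℝ) = -(((Da570.lv i - Da570.lv j : ℤ) : ℝ) - 2) := by
        have : tt (flp s) l = -((Da570.lv i - Da570.lv j) - 2) := by linarith
        rw [this]; push_cast; ring
      rw [ht', ← Real.cos_neg]; push_cast; congr 2; ring
    rw [hv]
    rcases h1.lt_or_eq with h5 | h5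
    · rw [if_neg (not_lt.2 h1), if_pos h5, one_mul]
      unfold ww
      field_simp
    · subst h5
      rw [if_neg (lt_irrefl _), mul_one, mul_one]
      exact_mod_cast (ww_self σ j).symm

/-- fourth root of three -/
def q3 : ℝ := Real.sqrt (Real.sqrt 3)

theorem q3_sq : q3 * q3 = Real.sqrt 3 := Real.mul_self_sqrt sqrt3_pos.le

theorem q3_pos : 0 < q3 := Real.sqrt_pos.2 sqrt3_pos

/-- the state entering at a port -/
def pqi : (ℤ × ℤ) × ZMod 4 → Nm211.St ℤ := Function.surjInv pq_surj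

theorem pqi_pq (c : Nm211.St ℤ) : pqi (pq c) = c :=
  pq_inj (Function.surjInv_eq pq_surj (pq c))

/-- **value of the network of the L-shape** -/
theorem z_LR {n : ℕ} (hn : 1 ≤ n) (σ : ℝ) (s : ℤ × ℤ → Bool) :
    (NR (full (Lr n)) (flp s) (chL n σ)).z (ports (full (Lr n)).P) =
      ((q3 ^ (XA n).card * PP σ n s : ℝ) : ℂ) := by
  classical
  have hsc : (full (Lr n)).SC := Da570.lr_sc n
  have hcn : (full (Lr n)).Conn := Da570.lr_conn (n := n)
  set N := NR (full (Lr n)) (flp s) (chL n σ) with hN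
  let ω : Port (ℤ × ℤ) → ℂ := fun p => match p with
    | none => 1
    | some a => ((q3 * Wt σ n s (pqi a) : ℝ) : ℂ)
  have hends : Ends N = (XA n).image fun c => (some (pq c) : Port (ℤ × ℤ)) := by
    ext p
    rw [hN, mem_ends, Finset.mem_image]
    constructor
    · rintro ⟨a, rfl, ha⟩
      obtain ⟨c, rfl⟩ := pq_surj a
      exact ⟨c, rfree_XA.1 ha, rfl⟩
    · rintro ⟨c, hc, rfl⟩
      exact ⟨pq c, rfl, rfree_XA.2 hc⟩
  have key := z_prod (N := N) (NR_ok _ _ _)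
    (fun x hx m hs hb => loop_value hsc hcn (chL_nat n σ) hx hs hb) ω ?_
  · have hV : N.V = ports (full (Lr n)).P := rfl
    rw [hV] at key
    rw [key, hends, Finset.prod_image]
    · unfold PP
      rw [← Finset.prod_const, ← Finset.prod_mul_distrib]
      push_cast
      refine Finset.prod_congr rfl fun c _ => ?_
      show ((q3 * Wt σ n s (pqi (pq c)) : ℝ) : ℂ) = _
      rw [pqi_pq]; push_cast; rfl
    · intro c _ c' _ h
      exact pq_inj (Option.some.inj h)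
  · intro x hx y hy hxy hcl
    rw [hends, Finset.mem_image] at hx
    obtain ⟨c, hc, rfl⟩ := hx
    obtain ⟨e, l, he, hr, hne, hw⟩ := strand hsc hcn s hc
    obtain ⟨-, h2⟩ := arc_cls (ch := chL n σ) (rfree_XA.2 hc) (rfree_XA.2 hr) hw
    have hy2 : y ∈ ({some (pq c), some (pq (rev e))} : Finset (Port (ℤ × ℤ))) := by
      rw [← h2]
      exact Finset.mem_filter.2 ⟨hy, hcl⟩
    rw [Finset.mem_insert, Finset.mem_singleton] at hy2
    rcases hy2 with h3 | h3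
    · exact absurd h3.symm hxy
    · rw [h3]
      show ((q3 * Wt σ n s (pqi (pq c)) : ℝ) : ℂ) * ((q3 * Wt σ n s (pqi (pq (rev e))) : ℝ) : ℂ) = _
      rw [pqi_pq, pqi_pq, hN, arc_val hn hc he hr hne hw]
      rw [← q3_sq]; push_cast; ring

theorem flp_flp (s : ℤ × ℤ → Bool) : flp (flp s) = s := by
  funext v
  simp [flp]

theorem PP_depF {n : ℕ} (hn : 1 ≤ n) (σ : ℝ) : DepF (Lr n) (PP σ n) := by
  intro s s' h
  have h1 := z_LR hn σ s
  have h2 := z_LR hn σ s'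
  have h3 : (NR (full (Lr n)) (flp s) (chL n σ)).z (ports (full (Lr n)).P) =
      (NR (full (Lr n)) (flp s') (chL n σ)).z (ports (full (Lr n)).P) := by
    refine tnet_congr _ _ (fun t ht => ?_) (Finset.Subset.refl _)
    rw [Xr249.full_P] at ht
    simp only [flp, h t ht]
  rw [h1, h2] at h3
  have h4 := Complex.ofReal_injective h3
  exact mul_left_cancel₀ (pow_ne_zero _ q3_pos.ne') h4

/-- **arrow reversal on the L-shape** -/
theorem PP_int {n : ℕ} (hn : 1 ≤ n) :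
    ∫ s, PP 1 n s ∂(PB fun _ : ℤ × ℤ => hf) = ∫ s, PP (-1) n s ∂(PB fun _ : ℤ × ℤ => hf) := by
  have hk : ∀ σ : ℝ, (1 / 2) ^ (full (Lr n)).P.card * ∑ S ∈ (full (Lr n)).P.powerset,
      (NR (full (Lr n)) (fun t => decide (t ∈ S)) (chL n σ)).z (ports (full (Lr n)).P) =
      ((q3 ^ (XA n).card * ∫ s, PP σ n s ∂(PB fun _ : ℤ × ℤ => hf) : ℝ) : ℂ) := by
    intro σ
    rw [pow_sum_eq_integral (full (Lr n)).P
      (fun s => (NR (full (Lr n)) s (chL n σ)).z (ports (full (Lr n)).P))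
      (fun s s' h => tnet_congr _ _ h (Finset.Subset.refl _))]
    have h1 : ∀ s : ℤ × ℤ → Bool, (NR (full (Lr n)) s (chL n σ)).z (ports (full (Lr n)).P) =
        ((q3 ^ (XA n).card * PP σ n (flp s) : ℝ) : ℂ) := by
      intro s
      rw [← z_LR hn σ (flp s), flp_flp]
    rw [integral_congr_ae (ae_of_all _ h1), integral_complex_ofReal, integral_const_mul]
    congr 2
    exact Da570.integral_not (PP_depF hn σ)
  have h1 := hk 1
  have h2 := hk (-1)
  have h3 := zsum_neg (beR_ok (full (Lr n))) (chL n 1)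
  have h4 : (fun p => -chL n 1 p) = chL n (-1) := by
    funext p
    rw [← chL_neg]
  rw [h4] at h3
  simp only [net_eq] at h3
  rw [h3, h2] at h1
  have h5 := Complex.ofReal_injective h1
  exact (mul_left_cancel₀ (pow_ne_zero _ q3_pos.ne') h5).symm

end Crest.Agent.R158.Dn211
end
private theorem rz_c81d482d72 : type_of% @_root_.Crest.Agent.R158.Dn211.chL.eq_1 := @_root_.Crest.Agent.R158.Dn211.chL.eq_1 -- L63
end

-- ▼ part R158/Dn7_211
section

/-!
# Row 158, corner lemma (helper211), part 7: pointwise bounds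

* `PP_bounds` : `(1/√3)^M ∏_p B_p^{K_p} ≤ PP ≤ (2/√3)^M ∏_p B_p^{K_p}`
-/

set_option autoImplicit false
set_option linter.unusedSimpArgs false

noncomputable section

open Finset

namespace Crest.Agent.R158.Dn211

open MeasureTheory ProbabilityTheory
open Crest.Agent.R158.Rs689 Crest.Agent.R158.Nm211

/-- integral gauge -/
def gi (i : Fin 6) : ℤ := if i = 4 then 1 else 0

theorem gg_gi (i : Fin 6) : gg i = (gi i : ℝ) := by
  unfold gg gi; split_ifs <;> simp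

/-- integral exponent -/
def ui (τ : ℤ) (i j : Fin 6) : ℤ := 2 - (Da570.lv j - Da570.lv i) + τ * (gi j - gi i)

theorem ww_ui (τ : ℤ) (i j : Fin 6) :
    ww (τ : ℝ) i j = 2 * Real.cos (Real.pi / 12 * (ui τ i j : ℝ)) / Real.sqrt 3 := by
  unfold ww ui
  rw [gg_gi, gg_gi]
  push_cast
  rfl

theorem ui_bound : ∀ i j : Fin 6, i < j → (-4 ≤ ui 1 i j ∧ ui 1 i j ≤ 4) ∧
    (-4 ≤ ui (-1) i j ∧ ui (-1) i j ≤ 4) := by decide

theorem ui_vals : (∀ p : Fin 6, p ≠ 3 → p ≠ 4 → ui 1 (ip p) (jp p) = ui (-1) (ip p) (jp p)) ∧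
    ui 1 (ip 3) (jp 3) = 2 ∧ ui 1 (ip 4) (jp 4) = 2 ∧ ui (-1) (ip 3) (jp 3) = 0 ∧
    ui (-1) (ip 4) (jp 4) = 4 := by decide

theorem ip_jp : ∀ p p' : Fin 6, ip p = ip p' → jp p = jp p' → p = p' := by decide

theorem ip_lt : ∀ p : Fin 6, ip p < jp p := by decide

theorem cos_int {u : ℤ} (h1 : -4 ≤ u) (h2 : u ≤ 4) :
    1 / 2 ≤ Real.cos (Real.pi / 12 * (u : ℝ)) := by
  have h1' : (-4 : ℝ) ≤ u := by exact_mod_cast h1
  have h2' : (u : ℝ) ≤ 4 := by exact_mod_cast h2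
  have hpi := Real.pi_pos
  rw [← Real.cos_abs, ← Real.cos_pi_div_three]
  refine Real.cos_le_cos_of_nonneg_of_le_pi (abs_nonneg _) (by linarith) ?_
  rw [abs_le]
  constructor <;> nlinarith

theorem ww_bound {τ : ℤ} (hτ : τ = 1 ∨ τ = -1) {i j : Fin 6} (hij : i < j) :
    1 / Real.sqrt 3 ≤ ww (τ : ℝ) i j ∧ ww (τ : ℝ) i j ≤ 2 / Real.sqrt 3 := by
  have h3 := sqrt3_pos
  have hb : -4 ≤ ui τ i j ∧ ui τ i j ≤ 4 := by
    rcases hτ with rfl | rfl
    · exact (ui_bound i j hij).1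
    · exact (ui_bound i j hij).2
  have hc := cos_int hb.1 hb.2
  have hc2 := Real.cos_le_one (Real.pi / 12 * (ui τ i j : ℝ))
  rw [ww_ui]
  constructor
  · exact div_le_div_of_nonneg_right (by linarith) h3.le
  · exact div_le_div_of_nonneg_right (by linarith) h3.le

/-- weight at the corner `p` -/
def BB (τ : ℤ) (p : Fin 6) : ℝ := ww (τ : ℝ) (ip p) (jp p)

theorem BB_bound {τ : ℤ} (hτ : τ = 1 ∨ τ = -1) (p : Fin 6) :
    1 / Real.sqrt 3 ≤ BB τ p ∧ BB τ p ≤ 2 / Real.sqrt 3 := ww_bound hτ (ip_lt p)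

theorem BB_pos {τ : ℤ} (hτ : τ = 1 ∨ τ = -1) (p : Fin 6) : 0 < BB τ p :=
  (div_pos one_pos sqrt3_pos).trans_le (BB_bound hτ p).1

theorem BB_outer {p : Fin 6} (h3 : p ≠ 3) (h4 : p ≠ 4) : BB 1 p = BB (-1) p := by
  unfold BB
  rw [ww_ui, ww_ui, ui_vals.1 p h3 h4]

theorem cos_two : 2 * Real.cos (Real.pi / 12 * ((2 : ℤ) : ℝ)) = Real.sqrt 3 := by
  have : Real.pi / 12 * ((2 : ℤ) : ℝ) = Real.pi / 6 := by push_cast; ring
  rw [this, Real.cos_pi_div_six]; ring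

theorem BB_13 : BB 1 3 = 1 := by
  unfold BB
  rw [ww_ui, ui_vals.2.1, cos_two, div_self sqrt3_pos.ne']

theorem BB_14 : BB 1 4 = 1 := by
  unfold BB
  rw [ww_ui, ui_vals.2.2.1, cos_two, div_self sqrt3_pos.ne']

theorem BB_m3 : BB (-1) 3 = 2 / Real.sqrt 3 := by
  unfold BB
  rw [ww_ui, ui_vals.2.2.2.1]
  simp

theorem BB_m4 : BB (-1) 4 = 1 / Real.sqrt 3 := by
  unfold BB
  rw [ww_ui, ui_vals.2.2.2.2]
  have : Real.pi / 12 * ((4 : ℤ) : ℝ) = Real.pi / 3 := by push_cast; ring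
  rw [this, Real.cos_pi_div_three]
  norm_num

/-- the strand from `c` goes around the corner `p` inside the window -/
def Loc (n : ℕ) (s : ℤ × ℤ → Bool) (p : Fin 6) (c : Nm211.St ℤ) : Prop :=
  c ∈ Xp n p ∧ Hit (nx6 s) (Dp n p) (Yp n p) c

theorem loc_exit {n : ℕ} {s : ℤ × ℤ → Bool} {p : Fin 6} {c : Nm211.St ℤ} (h : Loc n s p c) :
    ∃ e, ExitA n s c e ∧ sE c = ip p ∧ sX e = jp p := by
  obtain ⟨h1, m, h2, h3⟩ := h
  obtain ⟨h4, h5, h6⟩ := Finset.mem_filter.1 h1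
  exact ⟨_, ⟨m, fun j hj => (Finset.mem_filter.1 (h2 j hj)).1, rfl, h3.1⟩, h5, h3.2⟩

theorem loc_unique {n : ℕ} {s : ℤ × ℤ → Bool} {p p' : Fin 6} {c : Nm211.St ℤ} (h : Loc n s p c)
    (h' : Loc n s p' c) : p = p' := by
  obtain ⟨e, h1, h2, h3⟩ := loc_exit h
  obtain ⟨e', h1', h2', h3'⟩ := loc_exit h'
  have := exit_unique h1 h1'
  subst this
  exact ip_jp p p' (by rw [← h2, ← h2']) (by rw [← h3, ← h3'])

theorem loc_wt {n : ℕ} {s : ℤ × ℤ → Bool} {p : Fin 6} {c : Nm211.St ℤ} (h : Loc n s p c)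
    (τ : ℤ) : Wt (τ : ℝ) n s c = BB τ p := by
  obtain ⟨e, h1, h2, h3⟩ := loc_exit h
  unfold Wt BB
  rw [exA_eq h1, h2, h3, if_pos (ip_lt p)]

theorem wt_bound {τ : ℤ} (hτ : τ = 1 ∨ τ = -1) {n : ℕ} (s : ℤ × ℤ → Bool) (c : Nm211.St ℤ) :
    1 / Real.sqrt 3 ≤ Wt (τ : ℝ) n s c ∧ Wt (τ : ℝ) n s c ≤ 2 / Real.sqrt 3 := by
  unfold Wt
  split_ifs with h
  · exact ww_bound hτ h
  · have h3 := sqrt3_pos
    have h4 : Real.sqrt 3 ≤ 2 := by
      rw [show (2 : ℝ) = Real.sqrt 4 by rw [show (4 : ℝ) = 2 ^ 2 by norm_num, Real.sqrt_sq (by norm_num)]]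
      exact Real.sqrt_le_sqrt (by norm_num)
    have h5 : 1 ≤ Real.sqrt 3 := by
      rw [show (1 : ℝ) = Real.sqrt 1 by rw [Real.sqrt_one]]
      exact Real.sqrt_le_sqrt (by norm_num)
    exact ⟨(div_le_one h3).2 h5, (one_le_div h3).2 h4⟩

/-- **the two cases** -/
theorem wt_cases {n : ℕ} (hn : 1 ≤ n) {s : ℤ × ℤ → Bool} {c : Nm211.St ℤ} (hc : c ∈ XA n)
    (hloc : ∀ p, ¬ Loc n s p c) (hmac : ¬ MacA n s c) (τ : ℤ) : Wt (τ : ℝ) n s c = 1 := by
  obtain ⟨e, l, he, -, -, -⟩ := strand (Da570.lr_sc n) (Da570.lr_conn (n := n)) s hc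
  unfold Wt
  rw [exA_eq he, if_neg]
  intro hlt
  rcases dich hn hc he hlt with h | ⟨p, h1, h2, -, -⟩
  · exact hmac h
  · exact hloc p ⟨h1, h2⟩

open Classical in
/-- local factor -/
def lf (τ : ℤ) (n : ℕ) (s : ℤ × ℤ → Bool) (c : Nm211.St ℤ) (p : Fin 6) : ℝ :=
  if Loc n s p c then BB τ p else 1

open Classical in
/-- macroscopic factor -/
def mf (x : ℝ) (n : ℕ) (s : ℤ × ℤ → Bool) (c : Nm211.St ℤ) : ℝ := if MacA n s c then x else 1

theorem sqrt3_le : 1 / Real.sqrt 3 ≤ 1 ∧ 1 ≤ 2 / Real.sqrt 3 := by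
  have h3 := sqrt3_pos
  have h4 : Real.sqrt 3 ≤ 2 := by
    rw [show (2 : ℝ) = Real.sqrt 4 by rw [show (4 : ℝ) = 2 ^ 2 by norm_num, Real.sqrt_sq (by norm_num)]]
    exact Real.sqrt_le_sqrt (by norm_num)
  have h5 : 1 ≤ Real.sqrt 3 := by
    rw [show (1 : ℝ) = Real.sqrt 1 by rw [Real.sqrt_one]]
    exact Real.sqrt_le_sqrt (by norm_num)
  exact ⟨(div_le_one h3).2 h5, (one_le_div h3).2 h4⟩

theorem mf_bounds (n : ℕ) (s : ℤ × ℤ → Bool) (c : Nm211.St ℤ) :
    (0 < mf (1 / Real.sqrt 3) n s c ∧ mf (1 / Real.sqrt 3) n s c ≤ 1) ∧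
      1 ≤ mf (2 / Real.sqrt 3) n s c := by
  unfold mf
  have h3 := sqrt3_pos
  have h4 := sqrt3_le
  split_ifs
  · exact ⟨⟨by positivity, h4.1⟩, h4.2⟩
  · exact ⟨⟨one_pos, le_rfl⟩, le_rfl⟩

theorem wt_two {τ : ℤ} (hτ : τ = 1 ∨ τ = -1) {n : ℕ} (hn : 1 ≤ n) {s : ℤ × ℤ → Bool}
    {c : Nm211.St ℤ} (hc : c ∈ XA n) :
    mf (1 / Real.sqrt 3) n s c * ∏ p, lf τ n s c p ≤ Wt (τ : ℝ) n s c ∧
      Wt (τ : ℝ) n s c ≤ mf (2 / Real.sqrt 3) n s c * ∏ p, lf τ n s c p := by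
  classical
  obtain ⟨⟨m1, m2⟩, m3⟩ := mf_bounds n s c
  by_cases h : ∃ p, Loc n s p c
  · obtain ⟨p, hp⟩ := h
    have hprod : ∏ p, lf τ n s c p = BB τ p := by
      rw [Finset.prod_eq_single p]
      · unfold lf; rw [if_pos hp]
      · intro q _ hq
        unfold lf
        rw [if_neg]
        intro hq'
        exact hq (loc_unique hq' hp)
      · intro h; exact absurd (Finset.mem_univ p) h
    rw [hprod, loc_wt hp]
    have := BB_pos hτ p
    constructor <;> nlinarith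
  · push Not at h
    have hprod : ∏ p, lf τ n s c p = 1 := by
      refine Finset.prod_eq_one fun p _ => ?_
      unfold lf
      rw [if_neg (h p)]
    rw [hprod, mul_one, mul_one]
    by_cases hm : MacA n s c
    · unfold mf
      rw [if_pos hm, if_pos hm]
      exact wt_bound hτ s c
    · rw [wt_cases hn hc h hm]
      exact ⟨m2, m3⟩

/-- number of macroscopic strands -/
def MM (n : ℕ) (s : ℤ × ℤ → Bool) : ℕ := Mac (nx6 s) (DA n) (XA n) (hm n)

theorem prod_mf (x : ℝ) (n : ℕ) (s : ℤ × ℤ → Bool) : ∏ c ∈ XA n, mf x n s c = x ^ MM n s := by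
  classical
  have h : MM n s = ((XA n).filter fun c => MacA n s c).card := by
    unfold MM Mac MacA
    congr 1
  rw [h, ← Finset.prod_const, Finset.prod_filter]
  refine Finset.prod_congr rfl fun c _ => ?_
  unfold mf
  congr

theorem prod_lf (τ : ℤ) (n : ℕ) (s : ℤ × ℤ → Bool) (p : Fin 6) :
    ∏ c ∈ XA n, lf τ n s c p = BB τ p ^ Kq n p s := by
  classical
  have h : Kq n p s = ((XA n).filter fun c => Loc n s p c).card := by
    unfold Kq KK
    congr 1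
    ext c
    rw [Finset.mem_filter, Finset.mem_filter]
    constructor
    · rintro ⟨h1, h2⟩
      exact ⟨(Finset.mem_filter.1 h1).1, h1, h2⟩
    · rintro ⟨-, h1, h2⟩
      exact ⟨h1, h2⟩
  rw [h, ← Finset.prod_const, Finset.prod_filter]
  refine Finset.prod_congr rfl fun c _ => ?_
  unfold lf
  congr

/-- **pointwise bounds** -/
theorem PP_bounds {τ : ℤ} (hτ : τ = 1 ∨ τ = -1) {n : ℕ} (hn : 1 ≤ n) (s : ℤ × ℤ → Bool) :
    (1 / Real.sqrt 3) ^ MM n s * ∏ p, BB τ p ^ Kq n p s ≤ PP (τ : ℝ) n s ∧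
      PP (τ : ℝ) n s ≤ (2 / Real.sqrt 3) ^ MM n s * ∏ p, BB τ p ^ Kq n p s := by
  have h3 := sqrt3_pos
  have key : ∀ x : ℝ, x ^ MM n s * ∏ p, BB τ p ^ Kq n p s =
      ∏ c ∈ XA n, (mf x n s c * ∏ p, lf τ n s c p) := by
    intro x
    rw [Finset.prod_mul_distrib, prod_mf, Finset.prod_comm]
    congr 1
    exact Finset.prod_congr rfl fun p _ => (prod_lf τ n s p).symm
  have hlf : ∀ c p, 0 ≤ lf τ n s c p := by
    intro c p
    unfold lf
    split_ifs
    · exact (BB_pos hτ p).le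
    · exact zero_le_one
  rw [key, key]
  unfold PP
  constructor
  · refine Finset.prod_le_prod (fun c _ => mul_nonneg (mf_bounds n s c).1.1.le
      (Finset.prod_nonneg fun p _ => hlf c p)) fun c hc => (wt_two hτ hn hc).1
  · refine Finset.prod_le_prod (fun c _ => ?_) fun c hc => (wt_two hτ hn hc).2
    exact le_trans (by positivity) (wt_bound hτ s c).1

end Crest.Agent.R158.Dn211
end
end

-- ▼ part R158/Dn8_211
section

/-!
# Row 158, corner lemma (helper211), part 8: the two inner corners are standard corners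

* `ek3` : `∫ b ^ Kq n 3 = EK b .cv n`, `ek4` : `∫ b ^ Kq n 4 = EK b .rf n`
-/

set_option autoImplicit false
set_option linter.unusedSimpArgs false

noncomputable section

open Finset

namespace Crest.Agent.R158.Dn211

open MeasureTheory ProbabilityTheory
open Crest.Agent.R158.Rs689 Crest.Agent.R158.Nm211 Crest.Agent.R158.Nz399

theorem kk_congr {D D' Y Y' : Set (Nm211.St ℤ)} {X X' : Finset (Nm211.St ℤ)} (hX : X = X')
    (hD : D = D') (hXY : ∀ c ∈ X, c ∉ Y ∧ c ∉ Y')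
    (hY : ∀ c ∈ D, ∀ s : ℤ × ℤ → Bool, nx6 s c ∈ Y ↔ nx6 s c ∈ Y') (s : ℤ × ℤ → Bool) :
    KK (nx6 s) D Y X = KK (nx6 s) D' Y' X' := by
  classical
  subst hX hD
  unfold KK
  congr 1
  refine Finset.filter_congr fun c hc => ?_
  have key : ∀ m, (∀ k < m, (nx6 s)^[k] c ∈ D) → ((nx6 s)^[m] c ∈ Y ↔ (nx6 s)^[m] c ∈ Y') := by
    intro m hm
    cases m with
    | zero =>
      rw [Function.iterate_zero, id]
      exact ⟨fun h => absurd h (hXY c hc).1, fun h => absurd h (hXY c hc).2⟩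
    | succ k =>
      rw [Function.iterate_succ_apply']
      exact hY _ (hm k (by omega)) s
  constructor
  · rintro ⟨m, h1, h2⟩
    exact ⟨m, h1, (key m h1).1 h2⟩
  · rintro ⟨m, h1, h2⟩
    exact ⟨m, h1, (key m h1).2 h2⟩

theorem ps0 (a : ℤ × ℤ) (c : Nm211.St ℤ) : ps 0 a c = (c.1 + a, c.2) := rfl

theorem mem_Tp {n : ℕ} {p : Fin 6} {t : ℤ × ℤ} : t ∈ Tp n p ↔ t ∈ Lr n ∧ rho (vp n p) t ≤ n := by
  unfold Tp; rw [Finset.mem_filter]

theorem image_ps {a : ℤ × ℤ} {S : Set (Nm211.St ℤ)} {c : Nm211.St ℤ} :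
    c ∈ ps 0 a '' S ↔ ((c.1.1 - a.1, c.1.2 - a.2), c.2) ∈ S := by
  constructor
  · rintro ⟨⟨⟨x, y⟩, d⟩, h, rfl⟩
    rw [ps0]
    simpa using h
  · intro h
    refine ⟨_, h, ?_⟩
    obtain ⟨⟨x, y⟩, d⟩ := c
    obtain ⟨a1, a2⟩ := a
    rw [ps0]
    simp

theorem nx_form (s : ℤ × ℤ → Bool) (c : Nm211.St ℤ) :
    ∃ d, nx6 s c = (mv c.1 d, d) := ⟨_, rfl⟩

theorem kq3 {n : ℕ} (hn : 1 ≤ n) (s : ℤ × ℤ → Bool) :
    Kq n 3 s = Kp .cv 0 (4 * n, -(4 * (n : ℤ))) n s := by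
  classical
  unfold Kq Kp
  refine kk_congr ?_ ?_ ?_ ?_ s
  · ext c
    rw [Finset.mem_image]
    constructor
    · intro h
      obtain ⟨h1, h2, h3⟩ := Finset.mem_filter.1 h
      have h4 := XA_cases h1
      obtain ⟨⟨x, y⟩, d⟩ := c
      simp only [rho, vp] at h3 h4
      have h5 : d = 0 ∧ y = -(4 * (n : ℤ)) ∧ 4 * (n : ℤ) ≤ x := by
        rcases h4 with ⟨rfl, _⟩ | ⟨rfl, _⟩ | ⟨rfl, _⟩ | ⟨rfl, h5, h6, _⟩ | ⟨rfl, _⟩ | ⟨rfl, h5, _⟩
        · simp only [sE, ip] at h2; split_ifs at h2 <;> simp at h2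
        · simp [sE, ip] at h2
        · simp [sE, ip] at h2
        · exact ⟨rfl, h5, h6⟩
        · simp only [sE, ip] at h2; split_ifs at h2 <;> simp at h2
        · simp only [sE, ip] at h2
          split_ifs at h2 with h6
          · omega
          · simp at h2
      obtain ⟨rfl, rfl, h5⟩ := h5
      refine ⟨((x - 4 * n, 0), 0), ?_, ?_⟩
      · show _ ∈ (Finset.Ico (0 : ℤ) n).image fun x => ((x, (0 : ℤ)), (0 : Dir))
        rw [Finset.mem_image]
        exact ⟨x - 4 * n, Finset.mem_Ico.2 (by omega), rfl⟩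
      · rw [ps0]
        ext <;> simp
    · rintro ⟨c', h1, rfl⟩
      have h1' : c' ∈ (Finset.Ico (0 : ℤ) n).image fun x => ((x, (0 : ℤ)), (0 : Dir)) := h1
      obtain ⟨x, hx, rfl⟩ := Finset.mem_image.1 h1'
      rw [Finset.mem_Ico] at hx
      refine Finset.mem_filter.2 ⟨?_, ?_, ?_⟩
      · rw [mem_XA, mem_Lr, mem_Lr, ps0]
        simp only [Prod.mk_add_mk, mv, opp, dx, dy]
        omega
      · rw [ps0]
        simp only [Prod.mk_add_mk, sE, ip]
        rw [if_pos (by omega)]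
      · rw [ps0]
        simp only [Prod.mk_add_mk, rho, vp]
        omega
  · ext c
    rw [image_ps]
    show c.1 ∈ Tp n 3 ↔ (c.1.1 - 4 * (n : ℤ), c.1.2 - -(4 * (n : ℤ))) ∈ Nz399.Tk .cv n
    rw [mem_Tp, mem_Tk, mem_Lr]
    simp only [rho, vp, qd]
    omega
  · intro c hc
    have h1 := (mem_XA.1 (Finset.mem_filter.1 hc).1).1
    have h2 := XA_cases (Finset.mem_filter.1 hc).1
    refine ⟨fun h => h.1 h1, fun h => ?_⟩
    rw [image_ps] at h
    have h3 : c.1.1 - 4 * (n : ℤ) < 0 := h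
    obtain ⟨-, h5, h6⟩ := Finset.mem_filter.1 hc
    rw [mem_Lr] at h1
    simp only [rho, vp] at h6
    omega
  · intro c hc s
    obtain ⟨d, hd⟩ := nx_form s c
    rw [hd, image_ps]
    have h1 : c.1 ∈ Tp n 3 := hc
    rw [mem_Tp, mem_Lr] at h1
    show (mv c.1 d ∉ Lr n ∧ sX (mv c.1 d, d) = 4) ↔ (mv c.1 d).1 - 4 * (n : ℤ) < 0
    rw [mem_Lr]
    obtain ⟨⟨x, y⟩, d'⟩ := c
    simp only [rho, vp] at h1
    clear hd hc
    fin_cases d
    · simp [mv, dx, dy, sX]; omega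
    · simp [mv, dx, dy, sX]; omega
    · simp only [mv, dx, dy, sX]
      constructor
      · rintro ⟨-, h2⟩
        exfalso
        revert h2
        show ¬ (if y + -1 < -1 then (3 : Fin 6) else 5) = 4
        split_ifs <;> decide
      · intro h2
        exfalso
        have h2' : x + 0 - 4 * (n : ℤ) < 0 := h2
        omega
    · constructor
      · rintro ⟨h3, h2⟩
        have h3' : ¬ (((0 ≤ x + -1 ∧ x + -1 < 8 * n) ∧ 0 ≤ y + 0 ∧ y + 0 < 4 * n) ∨
          ((4 * (n : ℤ) ≤ x + -1 ∧ x + -1 < 8 * n) ∧ -(4 * (n : ℤ)) ≤ y + 0 ∧ y + 0 < 0)) := h3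
        show x + -1 - 4 * (n : ℤ) < 0
        omega
      · intro h2
        have h2' : x + -1 - 4 * (n : ℤ) < 0 := h2
        constructor
        · show ¬ (((0 ≤ x + -1 ∧ x + -1 < 8 * n) ∧ 0 ≤ y + 0 ∧ y + 0 < 4 * n) ∨
            ((4 * (n : ℤ) ≤ x + -1 ∧ x + -1 < 8 * n) ∧ -(4 * (n : ℤ)) ≤ y + 0 ∧ y + 0 < 0))
          omega
        · show (if y + 0 < 0 then (4 : Fin 6) else 0) = 4
          rw [if_pos (by omega)]

theorem kq4 {n : ℕ} (hn : 1 ≤ n) (s : ℤ × ℤ → Bool) :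
    Kq n 4 s = Kp .rf 0 (4 * n, 0) n s := by
  classical
  unfold Kq Kp
  refine kk_congr ?_ ?_ ?_ ?_ s
  · ext c
    rw [Finset.mem_image]
    constructor
    · intro h
      obtain ⟨h1, h2, h3⟩ := Finset.mem_filter.1 h
      have h4 := XA_cases h1
      obtain ⟨⟨x, y⟩, d⟩ := c
      simp only [rho, vp] at h3 h4
      have h5 : d = 1 ∧ y < 0 ∧ x = 4 * n := by
        rcases h4 with ⟨rfl, h5, h6, _⟩ | ⟨rfl, _⟩ | ⟨rfl, _⟩ | ⟨rfl, h5, _⟩ | ⟨rfl, h5, h6, h7⟩ |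
          ⟨rfl, h5, _⟩
        · simp only [sE, ip] at h2
          split_ifs at h2 with h6
          · omega
          · simp at h2
        · simp [sE, ip] at h2
        · simp [sE, ip] at h2
        · simp only [sE, ip] at h2; split_ifs at h2 <;> simp at h2
        · exact ⟨rfl, h7, h5⟩
        · simp only [sE, ip] at h2; split_ifs at h2 <;> simp at h2
      obtain ⟨rfl, h5, rfl⟩ := h5
      refine ⟨((0, y), 1), ?_, ?_⟩
      · show _ ∈ (Finset.Ico (-(n : ℤ)) 0).image fun y => (((0 : ℤ), y), (1 : Dir))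
        rw [Finset.mem_image]
        exact ⟨y, Finset.mem_Ico.2 (by omega), rfl⟩
      · rw [ps0]
        ext <;> simp
    · rintro ⟨c', h1, rfl⟩
      have h1' : c' ∈ (Finset.Ico (-(n : ℤ)) 0).image fun y => (((0 : ℤ), y), (1 : Dir)) := h1
      obtain ⟨x, hx, rfl⟩ := Finset.mem_image.1 h1'
      rw [Finset.mem_Ico] at hx
      refine Finset.mem_filter.2 ⟨?_, ?_, ?_⟩
      · rw [mem_XA, mem_Lr, mem_Lr, ps0]
        constructor
        · simp only [Prod.mk_add_mk]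
          omega
        · show ¬ (((0 ≤ 0 + 4 * (n : ℤ) + -1 ∧ 0 + 4 * (n : ℤ) + -1 < 8 * n) ∧
            0 ≤ x + 0 + 0 ∧ x + 0 + 0 < 4 * n) ∨
            ((4 * (n : ℤ) ≤ 0 + 4 * (n : ℤ) + -1 ∧ 0 + 4 * (n : ℤ) + -1 < 8 * n) ∧
              -(4 * (n : ℤ)) ≤ x + 0 + 0 ∧ x + 0 + 0 < 0))
          omega
      · rw [ps0]
        simp only [Prod.mk_add_mk, sE, ip]
        rw [if_pos (by omega)]
      · rw [ps0]
        simp only [Prod.mk_add_mk, rho, vp]
        omega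
  · ext c
    rw [image_ps]
    show c.1 ∈ Tp n 4 ↔ (c.1.1 - 4 * (n : ℤ), c.1.2 - 0) ∈ Nz399.Tk .rf n
    rw [mem_Tp, mem_Tk, mem_Lr]
    simp only [rho, vp, qd]
    omega
  · intro c hc
    have h1 := (mem_XA.1 (Finset.mem_filter.1 hc).1).1
    refine ⟨fun h => h.1 h1, fun h => ?_⟩
    rw [image_ps] at h
    have h3 : c.1.1 - 4 * (n : ℤ) < 0 ∧ c.1.2 - 0 < 0 ∧ c.2 = 2 := h
    rw [mem_Lr] at h1
    omega
  · intro c hc s
    obtain ⟨d, hd⟩ := nx_form s c
    rw [hd, image_ps]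
    have h1 : c.1 ∈ Tp n 4 := hc
    rw [mem_Tp, mem_Lr] at h1
    show (mv c.1 d ∉ Lr n ∧ sX (mv c.1 d, d) = 5) ↔
      ((mv c.1 d).1 - 4 * (n : ℤ) < 0 ∧ (mv c.1 d).2 - 0 < 0 ∧ d = 2)
    rw [mem_Lr]
    obtain ⟨⟨x, y⟩, d'⟩ := c
    simp only [rho, vp] at h1
    clear hd hc
    fin_cases d
    · simp [mv, dx, dy, sX]
    · simp [mv, dx, dy, sX]
    · constructor
      · rintro ⟨h3, h2⟩
        have h3' : ¬ (((0 ≤ x + 0 ∧ x + 0 < 8 * n) ∧ 0 ≤ y + -1 ∧ y + -1 < 4 * n) ∨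
          ((4 * (n : ℤ) ≤ x + 0 ∧ x + 0 < 8 * n) ∧ -(4 * (n : ℤ)) ≤ y + -1 ∧ y + -1 < 0)) := h3
        refine ⟨?_, ?_, rfl⟩
        · show x + 0 - 4 * (n : ℤ) < 0
          omega
        · show y + -1 - 0 < 0
          omega
      · rintro ⟨h2, h4, -⟩
        have h2' : x + 0 - 4 * (n : ℤ) < 0 := h2
        have h4' : y + -1 - 0 < 0 := h4
        constructor
        · show ¬ (((0 ≤ x + 0 ∧ x + 0 < 8 * n) ∧ 0 ≤ y + -1 ∧ y + -1 < 4 * n) ∨
            ((4 * (n : ℤ) ≤ x + 0 ∧ x + 0 < 8 * n) ∧ -(4 * (n : ℤ)) ≤ y + -1 ∧ y + -1 < 0))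
          omega
        · show (if y + -1 < -1 then (3 : Fin 6) else 5) = 5
          rw [if_neg (by omega)]
    · constructor
      · rintro ⟨-, h2⟩
        exfalso
        have h2' : (if y + 0 < 0 then (4 : Fin 6) else 0) = 5 := h2
        revert h2'
        split_ifs <;> decide
      · rintro ⟨-, -, h2⟩
        exfalso
        revert h2
        decide

theorem rd_id (s : ℤ × ℤ → Bool) : rd (fun w : ℤ × ℤ => w) (fun _ => false) s = s := by
  funext w; simp [rd]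

theorem ek3 {n : ℕ} (hn : 1 ≤ n) (b : ℝ) :
    ∫ s, b ^ Kq n 3 s ∂(PB fun _ : ℤ × ℤ => hf) = EK b .cv n := by
  have h := Kp_int .cv 0 (4 * n, -(4 * (n : ℤ))) n (fun w : ℤ × ℤ => w) (fun _ => false)
    (fun k => b ^ k) (fun v _ w _ h => pl_inj _ _ h)
  simp only [rd_id] at h
  unfold EK
  rw [← h]
  refine integral_congr_ae (ae_of_all _ fun s => ?_)
  show b ^ Kq n 3 s = _
  rw [kq3 hn]

theorem ek4 {n : ℕ} (hn : 1 ≤ n) (b : ℝ) :
    ∫ s, b ^ Kq n 4 s ∂(PB fun _ : ℤ × ℤ => hf) = EK b .rf n := by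
  have h := Kp_int .rf 0 (4 * n, 0) n (fun w : ℤ × ℤ => w) (fun _ => false)
    (fun k => b ^ k) (fun v _ w _ h => pl_inj _ _ h)
  simp only [rd_id] at h
  unfold EK
  rw [← h]
  refine integral_congr_ae (ae_of_all _ fun s => ?_)
  show b ^ Kq n 4 s = _
  rw [kq4 hn]

end Crest.Agent.R158.Dn211
end
end

-- ▼ part R158/Dn9_211
section

/-!
# Row 158, corner lemma (helper211), part 9: `corner_prod`

* `kq_moment`, `kq_tame` : the six corner counts
* `mm_moment` : macroscopic strands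
* `corner_prod` : `E[(2/√3)^{K_cv}] E[(1/√3)^{K_rf}] ≤ C n^ε`
-/

set_option autoImplicit false
set_option linter.unusedSimpArgs false

noncomputable section

open Finset

namespace Crest.Agent.R158.Dn211

open MeasureTheory ProbabilityTheory
open Crest.Agent.R158.Rs689 Crest.Agent.R158.Nm211 Crest.Agent.R158.Nz399

/-! ### the six corner counts -/

/-- leaving states, restricted -/
def Yq (n : ℕ) (p : Fin 6) : Set (Nm211.St ℤ) :=
  {e | e.1 ∉ Lr n ∧ mv e.1 (opp e.2) ∈ Lr n ∧ sX e = jp p}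

theorem mv_back (v : ℤ × ℤ) (d : Dir) : mv (mv v d) (opp d) = v := by
  unfold mv
  simp [dx_opp, dy_opp]

theorem kq_eq (n : ℕ) (p : Fin 6) (s : ℤ × ℤ → Bool) :
    Kq n p s = KK (nx6 s) (Dp n p) (Yq n p) (Xp n p) := by
  unfold Kq
  refine kk_congr rfl rfl (fun c hc => ?_) (fun c hc s => ?_) s
  · have h1 := (mem_XA.1 (Finset.mem_filter.1 hc).1).1
    exact ⟨fun h => h.1 h1, fun h => h.1 h1⟩
  · obtain ⟨d, hd⟩ := nx_form s c
    have h1 : c.1 ∈ Tp n p := hc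
    rw [hd]
    constructor
    · rintro ⟨h2, h3⟩
      refine ⟨h2, ?_, h3⟩
      show mv (mv c.1 d) (opp d) ∈ Lr n
      rw [mv_back]
      exact (mem_Tp.1 h1).1
    · rintro ⟨h2, -, h3⟩
      exact ⟨h2, h3⟩

theorem kq_ent {n : ℕ} {p : Fin 6} {c : Nm211.St ℤ} (hc : c ∈ Dp n p) (s : ℤ × ℤ → Bool) :
    nx6 s c ∉ Xp n p := by
  intro h
  obtain ⟨d, hd⟩ := nx_form s c
  have h1 := (mem_XA.1 (Finset.mem_filter.1 h).1).2
  rw [hd] at h1
  have h2 : mv (mv c.1 d) (opp d) ∉ Lr n := h1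
  rw [mv_back] at h2
  have h3 : c.1 ∈ Tp n p := hc
  exact h2 (mem_Tp.1 h3).1

theorem sE_XA {n : ℕ} {c : Nm211.St ℤ} (hc : c ∈ XA n) :
    (sE c = 0 → c.1.1 = 0 ∧ 0 ≤ c.1.2 ∧ c.1.2 < 4 * n) ∧
    (sE c = 1 → c.1.2 = 4 * n - 1 ∧ 0 ≤ c.1.1 ∧ c.1.1 < 8 * n) ∧
    (sE c = 2 → c.1.1 = 8 * n - 1 ∧ -(4 * (n : ℤ)) ≤ c.1.2 ∧ c.1.2 < 4 * n) ∧
    (sE c = 3 → c.1.2 = -(4 * (n : ℤ)) ∧ 4 * n ≤ c.1.1 ∧ c.1.1 < 8 * n) ∧
    (sE c = 4 → c.1.1 = 4 * n ∧ -(4 * (n : ℤ)) ≤ c.1.2 ∧ c.1.2 < 0) ∧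
    (sE c = 5 → c.1.2 = 0 ∧ 0 ≤ c.1.1 ∧ c.1.1 < 4 * n) := by
  have h := XA_cases hc
  obtain ⟨⟨x, y⟩, d⟩ := c
  simp only at h
  rcases h with ⟨rfl, a1, a2, a3⟩ | ⟨rfl, a1, a2, a3⟩ | ⟨rfl, a1, a2, a3⟩ |
    ⟨rfl, a1, a2, a3⟩ | ⟨rfl, a1, a2, a3⟩ | ⟨rfl, a1, a2, a3⟩
  · have e : sE ((x, y), (1 : Dir)) = 0 := by
      show (if y < 0 then (4 : Fin 6) else 0) = 0
      rw [if_neg (by omega)]
    rw [e]
    simp only [Fin.isValue, Fin.reduceEq, IsEmpty.forall_iff, and_true, forall_const]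
    exact ⟨a1, a2, a3⟩
  · have e : sE ((x, y), (2 : Dir)) = 1 := rfl
    rw [e]
    simp only [Fin.isValue, Fin.reduceEq, IsEmpty.forall_iff, and_true, true_and, forall_const]
    exact ⟨a1, a2, a3⟩
  · have e : sE ((x, y), (3 : Dir)) = 2 := rfl
    rw [e]
    simp only [Fin.isValue, Fin.reduceEq, IsEmpty.forall_iff, and_true, true_and, forall_const]
    exact ⟨a1, a2, a3⟩
  · have e : sE ((x, y), (0 : Dir)) = 3 := by
      show (if y < 0 then (3 : Fin 6) else 5) = 3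
      rw [if_pos (by omega)]
    rw [e]
    simp only [Fin.isValue, Fin.reduceEq, IsEmpty.forall_iff, and_true, true_and, forall_const]
    exact ⟨a1, a2, a3⟩
  · have e : sE ((x, y), (1 : Dir)) = 4 := by
      show (if y < 0 then (4 : Fin 6) else 0) = 4
      rw [if_pos (by omega)]
    rw [e]
    simp only [Fin.isValue, Fin.reduceEq, IsEmpty.forall_iff, and_true, true_and, forall_const]
    exact ⟨a1, a2, a3⟩
  · have e : sE ((x, y), (0 : Dir)) = 5 := by
      show (if y < 0 then (3 : Fin 6) else 5) = 5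
      rw [if_neg (by omega)]
    rw [e]
    simp only [Fin.isValue, Fin.reduceEq, IsEmpty.forall_iff, and_true, true_and, forall_const]
    exact ⟨a1, a2, a3⟩

theorem sX_Y {n : ℕ} {e : Nm211.St ℤ} (h1 : e.1 ∉ Lr n) (h2 : mv e.1 (opp e.2) ∈ Lr n) :
    (sX e = 1 → e.1.2 = 4 * n) ∧ (sX e = 2 → e.1.1 = 8 * n) ∧
    (sX e = 3 → e.1.2 = -(4 * (n : ℤ)) - 1) ∧ (sX e = 4 → e.1.1 = 4 * n - 1) ∧
    (sX e = 5 → e.1.2 = -1 ∧ e.1.1 < 4 * n) := by
  have h := out_cases h1 h2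
  obtain ⟨⟨x, y⟩, d⟩ := e
  simp only at h
  clear h1 h2
  rcases h with ⟨rfl, a1, a2, a3⟩ | ⟨rfl, a1, a2, a3⟩ | ⟨rfl, a1, a2, a3⟩ |
    ⟨rfl, a1, a2, a3⟩ | ⟨rfl, a1, a2, a3⟩ | ⟨rfl, a1, a2, a3⟩
  · have e : sX ((x, y), (3 : Dir)) = 0 := by
      show (if y < 0 then (4 : Fin 6) else 0) = 0
      rw [if_neg (by omega)]
    rw [e]
    simp
  · have e : sX ((x, y), (0 : Dir)) = 1 := rfl
    rw [e]
    simp only [Fin.isValue, Fin.reduceEq, IsEmpty.forall_iff, and_true, true_and, forall_const]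
    exact a1
  · have e : sX ((x, y), (1 : Dir)) = 2 := rfl
    rw [e]
    simp only [Fin.isValue, Fin.reduceEq, IsEmpty.forall_iff, and_true, true_and, forall_const]
    exact a1
  · have e : sX ((x, y), (2 : Dir)) = 3 ∨ sX ((x, y), (2 : Dir)) = 5 ∧ y = -1 ∧ n = 0 := by
      show (if y < -1 then (3 : Fin 6) else 5) = 3 ∨ _
      by_cases hy : y < -1
      · left; rw [if_pos hy]
      · right
        refine ⟨?_, by omega, by omega⟩
        show (if y < -1 then (3 : Fin 6) else 5) = 5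
        rw [if_neg hy]
    rcases e with e | ⟨e, e1, e2⟩
    · rw [e]
      simp only [Fin.isValue, Fin.reduceEq, IsEmpty.forall_iff, and_true, true_and, forall_const]
      exact a1
    · exfalso
      subst e2
      simp at a2 a3
      omega
  · have e : sX ((x, y), (3 : Dir)) = 4 := by
      show (if y < 0 then (4 : Fin 6) else 0) = 4
      rw [if_pos (by omega)]
    rw [e]
    simp only [Fin.isValue, Fin.reduceEq, IsEmpty.forall_iff, and_true, true_and, forall_const]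
    exact a1
  · have e : sX ((x, y), (2 : Dir)) = 5 := by
      show (if y < -1 then (3 : Fin 6) else 5) = 5
      rw [if_neg (by omega)]
    rw [e]
    simp only [Fin.isValue, Fin.reduceEq, IsEmpty.forall_iff, and_true, true_and, forall_const]
    exact ⟨a1, a3⟩

theorem kq_far {n : ℕ} {p : Fin 6} {c e : Nm211.St ℤ} (hc : c ∈ Xp n p) (he : e ∈ Yq n p) :
    Far (max 1 ((rho (vp n p) c.1).toNat - 1)) c e := by
  obtain ⟨h1, h2, h3⟩ := Finset.mem_filter.1 hc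
  obtain ⟨h4, h5, h6⟩ := he
  obtain ⟨s0, s1, s2, s3, s4, s5⟩ := sE_XA h1
  obtain ⟨x1, x2, x3, x4, x5⟩ := sX_Y h4 h5
  have key : (rho (vp n p) c.1 ≤ |e.1.1 - c.1.1| ∨ rho (vp n p) c.1 ≤ |e.1.2 - c.1.2|) ∨
      ((1 ≤ |e.1.1 - c.1.1|) ∧ rho (vp n p) c.1 - 1 ≤ |e.1.2 - c.1.2|) := by
    simp only [rho, le_abs] at h3 ⊢
    fin_cases p
    · have := s0 h2
      have := x1 h6
      simp only [vp] at h3 ⊢
      omega
    · have := s1 h2
      have := x2 h6
      simp only [vp] at h3 ⊢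
      omega
    · have := s2 h2
      have := x3 h6
      simp only [vp] at h3 ⊢
      omega
    · have := s3 h2
      have := x4 h6
      simp only [vp] at h3 ⊢
      omega
    · have := s4 h2
      have := x5 h6
      simp only [vp] at h3 ⊢
      omega
    · have := s0 h2
      have := x5 h6
      simp only [vp] at h3 ⊢
      omega
  unfold Far
  push_cast
  have := rho_pos (vp n p) c.1
  omega

theorem rho_box {v t : ℤ × ℤ} {n : ℤ} (h : rho v t ≤ n) :
    (v.1 - n ≤ t.1 ∧ t.1 < v.1 + n) ∧ v.2 - n ≤ t.2 ∧ t.2 < v.2 + n := by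
  unfold rho at h
  omega

theorem tp_disj {n : ℕ} (hn : 1 ≤ n) {p q : Fin 6} (hpq : p ≠ q) : Disjoint (Tp n p) (Tp n q) := by
  rw [Finset.disjoint_left]
  intro t h1 h2
  have h3 := rho_box (mem_Tp.1 h1).2
  have h4 := rho_box (mem_Tp.1 h2).2
  clear h1 h2
  apply hpq
  fin_cases p <;> fin_cases q <;> first | rfl | (exfalso; simp only [vp] at h3 h4; omega)

/-- **polynomial moments of the corner counts** -/
theorem kq_moment (a : ℝ) (ha : 1 ≤ a) : ∃ C : ℝ, 1 ≤ C ∧ ∃ q : ℕ, ∀ n : ℕ, 1 ≤ n → ∀ p : Fin 6,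
    ∫ s, a ^ Kq n p s ∂(PB fun _ : ℤ × ℤ => hf) ≤ C * (n : ℝ) ^ q := by
  obtain ⟨C, hC, q, h⟩ := corner_moment' a ha
  refine ⟨C, hC, q, fun n hn p => ?_⟩
  have := h n hn (vp n p) (Dp n p) (Yq n p) (Xp n p) (Tp n p) (fun c hc => hc)
    (fun c hc s => kq_ent hc s) (fun c hc => (Finset.mem_filter.1 hc).2.2)
    (fun c hc e he => kq_far hc he)
  simpa only [← kq_eq] using this

theorem kq_dep (n : ℕ) (p : Fin 6) {s s' : ℤ × ℤ → Bool} (h : ∀ v ∈ Tp n p, s v = s' v) :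
    Kq n p s = Kq n p s' := plane_dep (fun _ hc => hc) h

theorem two_pow_bound {C : ℝ} (q : ℕ) : ∃ r : ℕ, ∀ n : ℕ, 1 ≤ n →
    C * (n : ℝ) ^ q ≤ (2 * (n : ℝ)) ^ (r : ℝ) := by
  obtain ⟨m, hm⟩ := exists_nat_ge C
  refine ⟨m + q, fun n hn => ?_⟩
  have hn' : (1 : ℝ) ≤ n := by exact_mod_cast hn
  rw [Real.rpow_natCast, pow_add]
  have h1 : C ≤ (2 * (n : ℝ)) ^ m := by
    refine hm.trans ?_
    have h2 : (m : ℝ) ≤ 2 ^ m := by exact_mod_cast (Nat.lt_two_pow_self).le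
    exact h2.trans (pow_le_pow_left₀ (by norm_num) (by linarith) m)
  have h3 : (n : ℝ) ^ q ≤ (2 * (n : ℝ)) ^ q := pow_le_pow_left₀ (by linarith) (by linarith) q
  exact mul_le_mul h1 h3 (by positivity) (by positivity)

theorem BB_sq {τ : ℤ} (hτ : τ = 1 ∨ τ = -1) (p : Fin 6) :
    max 1 (BB τ p ^ 2) ≤ 2 ∧ max 1 (BB τ p)⁻¹ ≤ 2 := by
  obtain ⟨h1, h2⟩ := BB_bound hτ p
  have h3 := sqrt3_pos
  have h4 : Real.sqrt 3 ≤ 2 := by
    rw [show (2 : ℝ) = Real.sqrt 4 by rw [show (4 : ℝ) = 2 ^ 2 by norm_num, Real.sqrt_sq (by norm_num)]]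
    exact Real.sqrt_le_sqrt (by norm_num)
  have h5 : Real.sqrt 3 * Real.sqrt 3 = 3 := Real.mul_self_sqrt (by norm_num)
  have hb := BB_pos hτ p
  constructor
  · refine max_le (by norm_num) ?_
    calc BB τ p ^ 2 ≤ (2 / Real.sqrt 3) ^ 2 := pow_le_pow_left₀ hb.le h2 2
      _ = 4 / 3 := by
        rw [div_pow, sq (Real.sqrt 3), h5]; norm_num
      _ ≤ 2 := by norm_num
  · refine max_le (by norm_num) ?_
    calc (BB τ p)⁻¹ ≤ (1 / Real.sqrt 3)⁻¹ := inv_anti₀ (by positivity) h1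
      _ = Real.sqrt 3 := by rw [one_div, inv_inv]
      _ ≤ 2 := h4

/-- **tameness of the corner factors** -/
theorem kq_tame : ∃ C : ℝ, 0 ≤ C ∧ ∀ n : ℕ, 1 ≤ n → ∀ τ : ℤ, (τ = 1 ∨ τ = -1) → ∀ p : Fin 6,
    Tame (PB fun _ : ℤ × ℤ => hf) (2 * (n : ℝ)) C fun s => BB τ p ^ Kq n p s := by
  obtain ⟨C, hC, q, h⟩ := kq_moment 2 (by norm_num)
  obtain ⟨r, hr⟩ := two_pow_bound (C := C) q
  refine ⟨6 * r, by positivity, fun n hn τ hτ p => ?_⟩
  have hn' : (1 : ℝ) ≤ n := by exact_mod_cast hn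
  obtain ⟨h1, h2⟩ := BB_sq hτ p
  have hdep : ∀ x : ℝ, DepF (Tp n p) fun s => x ^ Kq n p s := fun x s s' hs => by
    show x ^ Kq n p s = x ^ Kq n p s'
    rw [kq_dep n p hs]
  have hle : ∀ x : ℝ, 0 ≤ x → x ≤ 2 →
      ∫ s, x ^ Kq n p s ∂(PB fun _ : ℤ × ℤ => hf) ≤ (2 * (n : ℝ)) ^ (r : ℝ) := by
    intro x hx0 hx
    refine le_trans (integral_mono ((hdep x).integrable _) ((hdep 2).integrable _) fun s =>
      pow_le_pow_left₀ hx0 hx _) ((h n hn p).trans (hr n hn))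
  exact tame_pow (T := Tp n p) (fun s s' hs => kq_dep n p hs) (BB_pos hτ p) (by linarith)
    (by positivity) (hle _ (by positivity) h1) (hle _ (by positivity) h2)

/-! ### macroscopic strands -/

theorem mm_moment (a : ℝ) (ha : 1 ≤ a) : ∃ C : ℝ, 1 ≤ C ∧ ∀ n : ℕ, 1 ≤ n →
    ∫ s, a ^ MM n s ∂(PB fun _ : ℤ × ℤ => hf) ≤ C := by
  obtain ⟨C, hC, h⟩ := mac_moment.{0} a ha 1 8
  refine ⟨C, hC, fun n hn => ?_⟩
  refine h (hm n) (by unfold hm; omega) (ℤ × ℤ) (fun _ w => w) (fun _ _ => false)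
    (fun _ => (4 * n, 0)) (fun _ => DA n) (fun _ => XA n) (fun _ => Lr n)
    (fun _ => fun _ _ _ _ h => h) (fun _ c hc => hc) (fun _ c hc s h => ?_) (fun _ c hc => ?_)
    (MM n) fun s => ?_
  · obtain ⟨d, hd⟩ := nx_form s c
    have h1 := (mem_XA.1 h).2
    rw [hd] at h1
    have h2 : mv (mv c.1 d) (opp d) ∉ Lr n := h1
    rw [mv_back] at h2
    exact h2 hc
  · have h1 := (mem_XA.1 hc).1
    rw [mem_Lr] at h1
    have h2 : (n : ℤ) ≤ 2 * (hm n : ℤ) := by unfold hm; omega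
    simp only [abs_le]
    push_cast
    omega
  · rw [Fin.sum_univ_one, rd_id]
    rfl

theorem mm_dep (n : ℕ) (x : ℝ) : DepF (Lr n) fun s => x ^ MM n s := fun s s' hs => by
  show x ^ MM n s = x ^ MM n s'
  congr 1
  exact mac_dep (fun c hc => hc) hs

theorem mm_le (n : ℕ) (s : ℤ × ℤ → Bool) : MM n s ≤ (XA n).card := by
  classical
  unfold MM Mac
  exact Finset.card_le_card (Finset.filter_subset _ _)

theorem pow_rpow_comm {x : ℝ} (hx : 0 ≤ x) (m : ℕ) (t : ℝ) : (x ^ m) ^ t = (x ^ t) ^ m := by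
  rw [← Real.rpow_natCast, ← Real.rpow_mul hx, mul_comm, Real.rpow_mul hx, Real.rpow_natCast]

theorem depF_bm {S : Finset (ℤ × ℤ)} {f : (ℤ × ℤ → Bool) → ℝ} (hf : DepF S f)
    (h0 : ∀ s, 0 ≤ f s) : BM f := by
  refine ⟨hf.measurable, h0, ?_⟩
  obtain ⟨B, hB⟩ := hf.bdd
  exact ⟨B, fun s => (le_abs_self _).trans (hB s)⟩

theorem int_pos {S : Finset (ℤ × ℤ)} {f : (ℤ × ℤ → Bool) → ℝ} (hf' : DepF S f)
    (h0 : ∀ s, 0 < f s) : 0 < ∫ s, f s ∂(PB fun _ : ℤ × ℤ => hf) := by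
  rw [integral_pos_iff_support_of_nonneg (fun s => (h0 s).le) (hf'.integrable _)]
  have : Function.support f = Set.univ := by
    ext s
    simp [(h0 s).ne']
  rw [this, measure_univ]
  exact one_pos

end Crest.Agent.R158.Dn211
end
end

-- ▼ part R158/Dn10_211
section

/-!
# Row 158, corner lemma (helper211), part 10: `corner_prod`

* `corner_prod` : `E[(2/√3)^{K_cv}] E[(1/√3)^{K_rf}] ≤ C n^ε`
-/

set_option autoImplicit false
set_option linter.unusedSimpArgs false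

noncomputable section

open Finset

namespace Crest.Agent.R158.Dn211

open MeasureTheory ProbabilityTheory
open Crest.Agent.R158.Rs689 Crest.Agent.R158.Nm211 Crest.Agent.R158.Nz399

theorem final_arith {A P M X Y I J : ℝ} (hA : 0 < A) (hX : 0 < X) (hM : 0 ≤ M) (_hP : 0 ≤ P)
    (h1 : A⁻¹ * (X * Y) ≤ I * M) (h2 : I ≤ J) (h3 : J ≤ A * X * P) : Y ≤ A ^ 2 * (P * M) := by
  have h4 : A⁻¹ * (X * Y) ≤ A * X * P * M :=
    h1.trans (mul_le_mul_of_nonneg_right (h2.trans h3) hM)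
  have h5 : X * Y ≤ A * (A * X * P * M) := by
    have := mul_le_mul_of_nonneg_left h4 hA.le
    rwa [← mul_assoc, mul_inv_cancel₀ hA.ne', one_mul] at this
  have h6 : X * Y ≤ X * (A ^ 2 * (P * M)) := by
    refine h5.trans (le_of_eq ?_)
    ring
  exact le_of_mul_le_mul_left h6 hX

/-- mean of a corner factor -/
def xx (τ : ℤ) (n : ℕ) (p : Fin 6) : ℝ := ∫ s, BB τ p ^ Kq n p s ∂(PB fun _ : ℤ × ℤ => hf)

theorem kq_depF (τ : ℤ) (n : ℕ) (p : Fin 6) : DepF (Tp n p) fun s => BB τ p ^ Kq n p s :=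
  fun s s' hs => by
    show BB τ p ^ Kq n p s = BB τ p ^ Kq n p s'
    rw [kq_dep n p hs]

theorem xx_pos (n : ℕ) (p : Fin 6) : 0 < xx 1 n p :=
  int_pos (kq_depF 1 n p) fun _ => pow_pos (BB_pos (Or.inl rfl) p) _

theorem xx_outer {n : ℕ} {p : Fin 6} (h3 : p ≠ 3) (h4 : p ≠ 4) : xx (-1) n p = xx 1 n p := by
  unfold xx
  rw [BB_outer h3 h4]

theorem xx_13 (n : ℕ) : xx 1 n 3 = 1 := by
  unfold xx
  rw [BB_13]
  simp

theorem xx_14 (n : ℕ) : xx 1 n 4 = 1 := by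
  unfold xx
  rw [BB_14]
  simp

theorem xx_m3 {n : ℕ} (hn : 1 ≤ n) : xx (-1) n 3 = EK (2 / Real.sqrt 3) .cv n := by
  unfold xx
  rw [BB_m3, ek3 hn]

theorem xx_m4 {n : ℕ} (hn : 1 ≤ n) : xx (-1) n 4 = EK (1 / Real.sqrt 3) .rf n := by
  unfold xx
  rw [BB_m4, ek4 hn]

/-- the four outer corners -/
def XX (n : ℕ) : ℝ := xx 1 n 0 * xx 1 n 1 * xx 1 n 2 * xx 1 n 5

theorem XX_pos (n : ℕ) : 0 < XX n := by
  have := xx_pos n 0
  have := xx_pos n 1
  have := xx_pos n 2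
  have := xx_pos n 5
  unfold XX
  positivity

theorem prod_one (n : ℕ) : ∏ p, xx 1 n p = XX n := by
  rw [Fin.prod_univ_six, xx_13, xx_14]
  unfold XX
  ring

theorem prod_neg {n : ℕ} (hn : 1 ≤ n) : ∏ p, xx (-1) n p =
    XX n * (EK (2 / Real.sqrt 3) .cv n * EK (1 / Real.sqrt 3) .rf n) := by
  have h0 : xx (-1) n 0 = xx 1 n 0 := xx_outer (by decide) (by decide)
  have h1 : xx (-1) n 1 = xx 1 n 1 := xx_outer (by decide) (by decide)
  have h2 : xx (-1) n 2 = xx 1 n 2 := xx_outer (by decide) (by decide)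
  have h5 : xx (-1) n 5 = xx 1 n 5 := xx_outer (by decide) (by decide)
  rw [Fin.prod_univ_six, h0, h1, h2, h5, xx_m3 hn, xx_m4 hn]
  unfold XX
  ring

theorem upper_bd {K δ : ℝ} {n : ℕ} (hn : 1 ≤ n)
    (htame : ∀ τ : ℤ, (τ = 1 ∨ τ = -1) → ∀ p : Fin 6,
      Tame (PB fun _ : ℤ × ℤ => hf) (2 * (n : ℝ)) K fun s => BB τ p ^ Kq n p s)
    (hδ0 : 0 < δ) (hδ1 : δ ≤ 1 / 2) :
    ∫ s, PP 1 n s ∂(PB fun _ : ℤ × ℤ => hf) ≤ (2 * (n : ℝ)) ^ (6 * (K * δ)) * XX n *
      (∫ s, ((2 / Real.sqrt 3) ^ MM n s) ^ ((1 + δ) / δ) ∂(PB fun _ : ℤ × ℤ => hf)) ^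
        (δ / (1 + δ)) := by
  have h3 := sqrt3_pos
  have hn' : (1 : ℝ) ≤ n := by exact_mod_cast hn
  have U := loc_upper (w := fun _ : ℤ × ℤ => hf) (N := 2 * (n : ℝ)) (C := K) (by linarith)
    (Finset.univ : Finset (Fin 6)) (fun p => Tp n p)
    (fun p _ q _ hpq => tp_disj hn hpq) (fun p s => BB 1 p ^ Kq n p s) (fun p _ => kq_depF 1 n p)
    (fun p _ => htame 1 (Or.inl rfl) p) (G := fun s => (2 / Real.sqrt 3) ^ MM n s)
    (depF_bm (mm_dep n _) fun s => by positivity) hδ0 hδ1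
  have hcard : ((Finset.univ : Finset (Fin 6)).card : ℝ) = 6 := by simp
  rw [hcard] at U
  rw [← prod_one]
  refine le_trans ?_ U
  have hb : ∀ s, PP 1 n s ≤ (∏ p, BB 1 p ^ Kq n p s) * (2 / Real.sqrt 3) ^ MM n s := by
    intro s
    have := (PP_bounds (τ := 1) (Or.inl rfl) hn s).2
    rw [Int.cast_one] at this
    linarith [mul_comm (∏ p, BB 1 p ^ Kq n p s) ((2 / Real.sqrt 3) ^ MM n s)]
  have hint : Integrable (fun s => (∏ p, BB 1 p ^ Kq n p s) * (2 / Real.sqrt 3) ^ MM n s)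
      (PB fun _ : ℤ × ℤ => hf) :=
    ((BM.prod _ fun p _ => (htame 1 (Or.inl rfl) p).bm).mul
      (depF_bm (mm_dep n _) fun s => by positivity)).integrable
  exact integral_mono ((PP_depF hn 1).integrable _) hint hb

theorem lower_bd {K δ : ℝ} {n : ℕ} (hn : 1 ≤ n)
    (htame : ∀ τ : ℤ, (τ = 1 ∨ τ = -1) → ∀ p : Fin 6,
      Tame (PB fun _ : ℤ × ℤ => hf) (2 * (n : ℝ)) K fun s => BB τ p ^ Kq n p s)
    (hδ0 : 0 < δ) (hδ1 : δ ≤ 1 / 2) :
    (2 * (n : ℝ)) ^ (-(6 * (K * δ))) *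
      (XX n * (EK (2 / Real.sqrt 3) .cv n * EK (1 / Real.sqrt 3) .rf n)) ≤
      (∫ s, PP (-1) n s ∂(PB fun _ : ℤ × ℤ => hf)) *
      (∫ s, ((1 / Real.sqrt 3) ^ MM n s) ^ (-((1 - δ) / δ)) ∂(PB fun _ : ℤ × ℤ => hf)) ^
        (δ / (1 - δ)) := by
  have h3 := sqrt3_pos
  obtain ⟨hs1, hs2⟩ := sqrt3_le
  have hn' : (1 : ℝ) ≤ n := by exact_mod_cast hn
  have L := loc_lower (w := fun _ : ℤ × ℤ => hf) (N := 2 * (n : ℝ)) (C := K) (by linarith)
    (Finset.univ : Finset (Fin 6)) (fun p => Tp n p)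
    (fun p _ q _ hpq => tp_disj hn hpq) (fun p s => BB (-1) p ^ Kq n p s)
    (fun p _ => kq_depF (-1) n p)
    (fun p _ => htame (-1) (Or.inr rfl) p) (G := fun s => (1 / Real.sqrt 3) ^ MM n s)
    (depF_bm (mm_dep n _) fun s => by positivity)
    (c := (1 / Real.sqrt 3) ^ (XA n).card) (by positivity)
    (fun s => pow_le_pow_of_le_one (by positivity) hs1 (mm_le n s)) hδ0 hδ1
  have hcard : ((Finset.univ : Finset (Fin 6)).card : ℝ) = 6 := by simp
  rw [hcard] at L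
  rw [← prod_neg hn]
  refine le_trans L (mul_le_mul_of_nonneg_right ?_ (Real.rpow_nonneg
    (integral_nonneg fun s => Real.rpow_nonneg (by positivity) _) _))
  have hb : ∀ s, (∏ p, BB (-1) p ^ Kq n p s) * (1 / Real.sqrt 3) ^ MM n s ≤ PP (-1) n s := by
    intro s
    have := (PP_bounds (τ := -1) (Or.inr rfl) hn s).1
    rw [Int.cast_neg, Int.cast_one] at this
    linarith [mul_comm (∏ p, BB (-1) p ^ Kq n p s) ((1 / Real.sqrt 3) ^ MM n s)]
  have hint : Integrable (fun s => (∏ p, BB (-1) p ^ Kq n p s) * (1 / Real.sqrt 3) ^ MM n s)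
      (PB fun _ : ℤ × ℤ => hf) :=
    ((BM.prod _ fun p _ => (htame (-1) (Or.inr rfl) p).bm).mul
      (depF_bm (mm_dep n _) fun s => by positivity)).integrable
  exact integral_mono hint ((PP_depF hn (-1)).integrable _) hb

/-- **the corner lemma** -/
theorem corner_prod {ε : ℝ} (hε : 0 < ε) : ∃ C : ℝ, 1 ≤ C ∧ ∀ n : ℕ, 1 ≤ n →
    EK (2 / Real.sqrt 3) .cv n * EK (1 / Real.sqrt 3) .rf n ≤ C * (n : ℝ) ^ ε := by
  obtain ⟨K, hK, htame⟩ := kq_tame
  have h3 := sqrt3_pos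
  obtain ⟨hs1, hs2⟩ := sqrt3_le
  obtain ⟨δ, hδ0, hδ1, hδε⟩ : ∃ δ : ℝ, 0 < δ ∧ δ ≤ 1 / 2 ∧ 12 * (K * δ) ≤ ε := by
    refine ⟨min (1 / 2) (ε / (12 * K + 1)), lt_min (by norm_num) (by positivity),
      min_le_left _ _, ?_⟩
    have h1 : min (1 / 2) (ε / (12 * K + 1)) ≤ ε / (12 * K + 1) := min_le_right _ _
    have h2 : 12 * (K * min (1 / 2) (ε / (12 * K + 1))) ≤ 12 * (K * (ε / (12 * K + 1))) := by
      have := mul_le_mul_of_nonneg_left h1 hK
      linarith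
    refine h2.trans ?_
    rw [show 12 * (K * (ε / (12 * K + 1))) = 12 * K * ε / (12 * K + 1) by ring,
      div_le_iff₀ (by positivity)]
    nlinarith
  have hδ2 : 0 < 1 - δ := by linarith
  have hδ3 : 0 < 1 + δ := by linarith
  have haP : 1 ≤ (2 / Real.sqrt 3) ^ ((1 + δ) / δ) := Real.one_le_rpow hs2 (by positivity)
  have haM : 1 ≤ (1 / Real.sqrt 3) ^ (-((1 - δ) / δ)) :=
    Real.one_le_rpow_of_pos_of_le_one_of_nonpos (by positivity) hs1
      (neg_nonpos.2 (by positivity))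
  obtain ⟨CP, hCP, hP⟩ := mm_moment _ haP
  obtain ⟨CM, hCM, hM⟩ := mm_moment _ haM
  refine ⟨2 ^ ε * (CP ^ (δ / (1 + δ)) * CM ^ (δ / (1 - δ))), ?_, fun n hn => ?_⟩
  · have e1 : (1 : ℝ) ≤ 2 ^ ε := Real.one_le_rpow (by norm_num) hε.le
    have e2 : (1 : ℝ) ≤ CP ^ (δ / (1 + δ)) := Real.one_le_rpow hCP (by positivity)
    have e3 : (1 : ℝ) ≤ CM ^ (δ / (1 - δ)) := Real.one_le_rpow hCM (by positivity)
    exact one_le_mul_of_one_le_of_one_le e1 (one_le_mul_of_one_le_of_one_le e2 e3)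
  have hn' : (1 : ℝ) ≤ n := by exact_mod_cast hn
  have hN : (1 : ℝ) ≤ 2 * n := by linarith
  have hN0 : (0 : ℝ) < 2 * n := by linarith
  have hGP : ∫ s, ((2 / Real.sqrt 3) ^ MM n s) ^ ((1 + δ) / δ) ∂(PB fun _ : ℤ × ℤ => hf) ≤ CP := by
    have : ∀ s : ℤ × ℤ → Bool, ((2 / Real.sqrt 3) ^ MM n s) ^ ((1 + δ) / δ) =
        ((2 / Real.sqrt 3) ^ ((1 + δ) / δ)) ^ MM n s := fun s =>
      pow_rpow_comm (by positivity) _ _
    rw [integral_congr_ae (ae_of_all _ this)]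
    exact hP n hn
  have hGM : ∫ s, ((1 / Real.sqrt 3) ^ MM n s) ^ (-((1 - δ) / δ)) ∂(PB fun _ : ℤ × ℤ => hf) ≤
      CM := by
    have : ∀ s : ℤ × ℤ → Bool, ((1 / Real.sqrt 3) ^ MM n s) ^ (-((1 - δ) / δ)) =
        ((1 / Real.sqrt 3) ^ (-((1 - δ) / δ))) ^ MM n s := fun s =>
      pow_rpow_comm (by positivity) _ _
    rw [integral_congr_ae (ae_of_all _ this)]
    exact hM n hn
  have hGP0 : 0 ≤ ∫ s, ((2 / Real.sqrt 3) ^ MM n s) ^ ((1 + δ) / δ)
      ∂(PB fun _ : ℤ × ℤ => hf) := integral_nonneg fun s => Real.rpow_nonneg (by positivity) _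
  have hGM0 : 0 ≤ ∫ s, ((1 / Real.sqrt 3) ^ MM n s) ^ (-((1 - δ) / δ))
      ∂(PB fun _ : ℤ × ℤ => hf) := integral_nonneg fun s => Real.rpow_nonneg (by positivity) _
  have U := upper_bd hn (htame n hn) hδ0 hδ1
  have L := lower_bd hn (htame n hn) hδ0 hδ1
  rw [← PP_int hn] at L
  have hP1 := Real.rpow_le_rpow hGP0 hGP (show 0 ≤ δ / (1 + δ) by positivity)
  have hM1 := Real.rpow_le_rpow hGM0 hGM (show 0 ≤ δ / (1 - δ) by positivity)
  have hP0 := Real.rpow_nonneg hGP0 (δ / (1 + δ))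
  have hM0 := Real.rpow_nonneg hGM0 (δ / (1 - δ))
  rw [Real.rpow_neg hN0.le] at L
  have hA : 0 < (2 * (n : ℝ)) ^ (6 * (K * δ)) := Real.rpow_pos_of_pos hN0 _
  have key := final_arith hA (XX_pos n) hM0 hP0 L le_rfl U
  refine key.trans ?_
  have hA2 : ((2 * (n : ℝ)) ^ (6 * (K * δ))) ^ 2 ≤ 2 ^ ε * (n : ℝ) ^ ε := by
    rw [← Real.rpow_natCast, ← Real.rpow_mul hN0.le, ← Real.mul_rpow (by norm_num) (by linarith)]
    refine Real.rpow_le_rpow_of_exponent_le hN ?_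
    push_cast
    linarith
  have hPM := mul_le_mul hP1 hM1 hM0 (Real.rpow_nonneg (by linarith) _)
  calc _ ≤ (2 ^ ε * (n : ℝ) ^ ε) * (CP ^ (δ / (1 + δ)) * CM ^ (δ / (1 - δ))) :=
        mul_le_mul hA2 hPM (mul_nonneg hP0 hM0) (by positivity)
    _ = _ := by ring

end Crest.Agent.R158.Dn211
end
end

-- ▼ part R158/Dn12_211
section

/-!
# Row 158 (helper211): the corner product in the form `Nz399.CP`
-/

set_option autoImplicit false

namespace Crest.Agent.R158.Dn211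

open Crest.Agent.R158.Nz399

/-- **the corner product (DENT)** -/
theorem cp_holds : CP := fun _ε hε => by
  obtain ⟨C, -, h⟩ := corner_prod hε
  exact ⟨C, h⟩

end Crest.Agent.R158.Dn211
end

-- ▼ part R158/Nj5_107

/-!
# Row 158, Q1d (helper107): `NormP fz P` from `XAll P`
-/

set_option autoImplicit false

namespace Crest.Agent.R158.Nj107

open Crest.Agent.R158.Fm857
open Crest.Agent.R158.Tj656 (P4)

/-- **`NormP` from the lists of special points** -/
theorem normP_of_XAll {P : P4} (hX : Nz399.XAll P) : Cs410.NormP fz P :=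
  normP_mem Dn211.cp_holds (Nz399.member hX)

theorem normP_all (hX : ∀ P, Nz399.XAll P) : ∀ P, Cs410.NormP fz P :=
  fun P => normP_of_XAll (hX P)

end Crest.Agent.R158.Nj107
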