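import Crest.Agent.R158.Rs1_689
import Crest.Agent.R159.BK
import Crest.Agent.R042.Menger_353

-- ▼ part R158/Nm1_211
section

/-!
# Row 158, Block N (helper211): BK inequality for `PB`, exponential moments

* `chi T` : the configuration whose open coordinates are exactly those of `T`
* `DO A z` : disjoint occurrence of the family `A` in `z`
* `bk_DO` : `P(DO A) ≤ ∏ P(A k)` for increasing events depending on a finite set
* `exp_moment` : exponential moments of the number of disjoint occurrences
-/

set_option autoImplicit false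

noncomputable section

namespace Crest.Agent.R158.Nm211

open MeasureTheory ProbabilityTheory unitInterval
open Crest.Agent.R158.Rs689
open Crest.Agent.R159

variable {ι : Type*} [DecidableEq ι]

/-- the configuration with open set `T` -/
def chi (T : Finset ι) : ι → Bool := fun e => decide (e ∈ T)

/-- disjoint occurrence of a family of events -/
def DO {κ : Type*} (A : κ → Set (ι → Bool)) (z : ι → Bool) : Prop :=
  ∃ D : κ → Finset ι, (∀ k, ∀ e ∈ D k, z e = true) ∧
    (Pairwise fun k l => Disjoint (D k) (D l)) ∧ ∀ k, chi (D k) ∈ A k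

theorem DO.comp {κ κ' : Type*} {A : κ → Set (ι → Bool)} {z : ι → Bool} (h : DO A z)
    {f : κ' → κ} (hf : Function.Injective f) : DO (fun k => A (f k)) z := by
  obtain ⟨D, h1, h2, h3⟩ := h
  exact ⟨fun k => D (f k), fun k => h1 (f k), fun k l hkl => h2 fun h => hkl (hf h),
    fun k => h3 (f k)⟩

theorem DO.mono {κ : Type*} {A A' : κ → Set (ι → Bool)} (hAA : ∀ k, A k ⊆ A' k)
    {z z' : ι → Bool} (hz : ∀ e, z e = true → z' e = true) (h : DO A z) : DO A' z' := by
  obtain ⟨D, h1, h2, h3⟩ := h
  exact ⟨D, fun k e he => hz e (h1 k e he), h2, fun k => hAA k (h3 k)⟩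

theorem chi_inter {S T : Finset ι} {A : Set (ι → Bool)} (hA : Dep S A) :
    chi (T ∩ S) ∈ A ↔ chi T ∈ A := by
  refine hA _ _ fun e he => ?_
  simp [chi, he]


theorem DO_dep {κ : Type*} {S : Finset ι} {A : κ → Set (ι → Bool)} (hA : ∀ k, Dep S (A k)) :
    Dep S {z | DO A z} := by
  have key : ∀ z z' : ι → Bool, (∀ e ∈ S, z e = z' e) → DO A z → DO A z' := by
    rintro z z' hz ⟨D, h1, h2, h3⟩
    refine ⟨fun k => D k ∩ S, fun k e he => ?_, fun k l hkl => ?_, fun k => ?_⟩
    · rw [Finset.mem_inter] at he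
      rw [← hz e he.2]
      exact h1 k e he.1
    · exact (h2 hkl).mono Finset.inter_subset_left Finset.inter_subset_left
    · exact (chi_inter (hA k)).2 (h3 k)
  exact fun z z' hz => ⟨key z z' hz, key z' z fun e he => (hz e he).symm⟩

/-- translation to the finite sums of row 159 -/
theorem real_eq_Pr (w : ι → I) {S : Finset ι} {A : Set (ι → Bool)} (hA : Dep S A) :
    (PB w).real A = FV.Pr S (fun e => (w e : ℝ)) (fun T => chi T ∈ A) := by
  classical
  rw [PB_real_eq w hA, FV.Pr, FV.Ex]
  refine Finset.sum_nbij'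
    (i := fun y : S → Bool => (Finset.univ.filter fun e : S => y e = true).map
      (Function.Embedding.subtype _))
    (j := fun (T : Finset ι) (e : S) => decide (e.1 ∈ T)) ?_ ?_ ?_ ?_ ?_
  · intro y _
    rw [Finset.mem_powerset]
    intro e he
    simp only [Finset.mem_map, Finset.mem_filter, Finset.mem_univ, true_and,
      Function.Embedding.subtype_apply, Subtype.exists] at he
    obtain ⟨a, ha, _, rfl⟩ := he
    exact ha
  · intro T _
    simp
  · intro y _
    funext e
    by_cases h : y e = true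
    · simp [h]
    · have h' : y e = false := by simpa using h
      simp [h']
  · intro T hT
    rw [Finset.mem_powerset] at hT
    ext e
    simp only [Finset.mem_map, Finset.mem_filter, Finset.mem_univ, true_and,
      Function.Embedding.subtype_apply, decide_eq_true_eq, Subtype.exists, exists_and_right,
      exists_eq_right]
    exact ⟨fun h => h.2, fun h => ⟨hT h, h⟩⟩
  · intro y _
    set T : Finset ι := (Finset.univ.filter fun e : S => y e = true).map
      (Function.Embedding.subtype _) with hT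
    have hmem : ∀ e : S, (e : ι) ∈ T ↔ y e = true := by
      intro e
      simp [hT]
    congr 1
    · unfold wt FV.wt
      rw [← Finset.prod_attach S]
      refine Finset.prod_congr rfl fun e _ => ?_
      by_cases h : y e = true
      · rw [if_pos ((hmem e).2 h), h, bern_real_true]
      · have h' : y e = false := by simpa using h
        rw [if_neg fun h1 => h ((hmem e).1 h1), h', bern_real_false]
    · have h1 : y ∈ trc S A ↔ chi T ∈ A := by
        constructor
        · rintro ⟨z, hz, h⟩
          refine (hA z _ fun e he => ?_).1 hz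
          rw [h ⟨e, he⟩]
          have := hmem ⟨e, he⟩
          unfold chi
          by_cases h2 : y ⟨e, he⟩ = true
          · rw [h2]; simp [this.2 h2]
          · have h' : y ⟨e, he⟩ = false := by simpa using h2
            rw [h']
            symm
            rw [decide_eq_false_iff_not]
            exact fun h3 => h2 (this.1 h3)
        · intro h
          refine ⟨chi T, h, fun e => ?_⟩
          unfold chi
          by_cases h2 : y e = true
          · rw [h2]; simp [(hmem e).2 h2]
          · have h' : y e = false := by simpa using h2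
            rw [h', decide_eq_false_iff_not]
            exact fun h3 => h2 ((hmem e).1 h3)
      by_cases h : y ∈ trc S A
      · rw [if_pos h, FV.ind_true (h1.1 h)]
      · rw [if_neg h, FV.ind_false fun h2 => h (h1.2 h2)]

theorem mono_chi {A : Set (ι → Bool)} (iA : Inc A) : Monotone fun T : Finset ι => chi T ∈ A := by
  intro T T' hT h
  refine iA _ _ (fun e he => ?_) h
  simp only [chi, decide_eq_true_eq] at he ⊢
  exact hT he

/-- `Fin n`-families -/
theorem DO_DisjOccL : ∀ (n : ℕ) (A : Fin n → Set (ι → Bool)) (T : Finset ι),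
    (∃ D : Fin n → Finset ι, (∀ k, D k ⊆ T) ∧ (Pairwise fun k l => Disjoint (D k) (D l)) ∧
      ∀ k, chi (D k) ∈ A k) →
    FV.DisjOccL (List.ofFn fun k => fun T : Finset ι => chi T ∈ A k) T
  | 0, _, _, _ => by simp [FV.DisjOccL]
  | n + 1, A, T, ⟨D, h1, h2, h3⟩ => by
    rw [List.ofFn_succ]
    refine ⟨D 0, Finset.univ.biUnion fun k : Fin n => D k.succ, h1 0, ?_, ?_, h3 0, ?_⟩
    · exact Finset.biUnion_subset.2 fun k _ => h1 k.succ
    · rw [Finset.disjoint_biUnion_right]
      intro k _
      exact h2 (Fin.succ_ne_zero k).symm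
    · refine DO_DisjOccL n (fun k => A k.succ) _ ⟨fun k => D k.succ, fun k => ?_,
        fun k l hkl => h2 fun h => hkl (Fin.succ_injective _ h), fun k => h3 k.succ⟩
      exact Finset.subset_biUnion_of_mem (fun k : Fin n => D k.succ) (Finset.mem_univ k)

theorem bk_DO_fin (w : ι → I) {S : Finset ι} {n : ℕ} {A : Fin n → Set (ι → Bool)}
    (hA : ∀ k, Dep S (A k)) (iA : ∀ k, Inc (A k)) :
    (PB w).real {z | DO A z} ≤ ∏ k, (PB w).real (A k) := by
  have h0 : ∀ x ∈ S, 0 ≤ (fun e => (w e : ℝ)) x := fun x _ => (w x).2.1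
  have h1 : ∀ x ∈ S, (fun e => (w e : ℝ)) x ≤ 1 := fun x _ => (w x).2.2
  rw [real_eq_Pr w (DO_dep hA)]
  have h2 : FV.Pr S (fun e => (w e : ℝ)) (fun T => chi T ∈ {z | DO A z}) ≤
      FV.Pr S (fun e => (w e : ℝ))
        (FV.DisjOccL (List.ofFn fun k => fun T : Finset ι => chi T ∈ A k)) := by
    refine FV.Pr_mono h0 h1 fun T _ hT => ?_
    obtain ⟨D, hI, hd, hm⟩ := hT
    refine DO_DisjOccL n A T ⟨D, fun k e he => ?_, hd, hm⟩
    simpa [chi] using hI k e he
  refine h2.trans ((FV.bk_list h0 h1 _ ?_).trans (le_of_eq ?_))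
  · intro B hB
    rw [List.mem_ofFn] at hB
    obtain ⟨k, rfl⟩ := hB
    exact mono_chi (iA k)
  · rw [List.map_ofFn, List.prod_ofFn]
    exact Finset.prod_congr rfl fun k _ => (real_eq_Pr w (hA k)).symm

/-- **BK inequality** for a finite family of increasing events -/
theorem bk_DO (w : ι → I) {S : Finset ι} {κ : Type*} [Fintype κ] {A : κ → Set (ι → Bool)}
    (hA : ∀ k, Dep S (A k)) (iA : ∀ k, Inc (A k)) :
    (PB w).real {z | DO A z} ≤ ∏ k, (PB w).real (A k) := by
  classical
  let e := Fintype.equivFin κ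
  have h1 : {z | DO A z} ⊆ {z | DO (fun k => A (e.symm k)) z} := fun z hz =>
    DO.comp hz e.symm.injective
  refine (measureReal_mono h1).trans ((bk_DO_fin w (fun k => hA _) fun k => iA _).trans
    (le_of_eq ?_))
  exact Fintype.prod_equiv e.symm _ _ fun k => rfl

/-- exponential moment of the number of disjoint occurrences of events of the types `A b` -/
theorem exp_moment (w : ι → I) {S : Finset ι} {β : Type*} [Fintype β] {A : β → Set (ι → Bool)}
    (hA : ∀ b, Dep S (A b)) (iA : ∀ b, Inc (A b)) {q : β → ℝ}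
    (hq : ∀ b, (PB w).real (A b) ≤ q b) {a : ℝ} (ha : 0 ≤ a) (haq : ∀ b, a * q b < 1)
    {m : (ι → Bool) → ℕ} (hmS : ∀ z z' : ι → Bool, (∀ e ∈ S, z e = z' e) → m z = m z')
    (hm : ∀ z, ∃ c : Fin (m z) → β, DO (fun i => A (c i)) z) :
    ∫ z, a ^ (m z) ∂(PB w) ≤ ∏ b, (1 - a * q b)⁻¹ := by
  classical
  have hq0 : ∀ b, 0 ≤ q b := fun b => measureReal_nonneg.trans (hq b)
  -- bound on `m`
  obtain ⟨n, hn⟩ : ∃ n, ∀ z, m z ≤ n := by
    have hf : (Set.range m).Finite := by
      have : Set.range m ⊆ Set.range fun y : S → Bool => m fun e =>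
          if h : e ∈ S then y ⟨e, h⟩ else false := by
        rintro _ ⟨z, rfl⟩
        exact ⟨fun e => z e, hmS _ _ fun e he => by simp [he]⟩
      exact (Set.finite_range _).subset this
    obtain ⟨n, hn⟩ := hf.bddAbove
    exact ⟨n, fun z => hn ⟨z, rfl⟩⟩
  let E : (β → ℕ) → Set (ι → Bool) := fun k =>
    {z | DO (fun i : (Σ b, Fin (k b)) => A i.1) z}
  have hE : ∀ k, Dep S (E k) := fun k => DO_dep fun i => hA i.1
  have hPE : ∀ k, (PB w).real (E k) ≤ ∏ b, q b ^ k b := by
    intro k
    refine (bk_DO w (fun i : (Σ b, Fin (k b)) => hA i.1) fun i => iA i.1).trans ?_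
    rw [Fintype.prod_sigma]
    refine Finset.prod_le_prod (fun b _ => Finset.prod_nonneg fun _ _ => measureReal_nonneg)
      fun b _ => ?_
    show ∏ _y : Fin (k b), (PB w).real (A b) ≤ q b ^ k b
    rw [Finset.prod_const, Finset.card_univ, Fintype.card_fin]
    exact pow_le_pow_left₀ measureReal_nonneg (hq b) _
  let box : Finset (β → ℕ) := Fintype.piFinset fun _ => Finset.range (n + 1)
  -- pointwise bound
  have hpt : ∀ z, a ^ (m z) ≤ ∑ k ∈ box, (E k).indicator (fun _ => a ^ ∑ b, k b) z := by
    intro z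
    obtain ⟨c, hc⟩ := hm z
    let k : β → ℕ := fun b => Fintype.card {i // c i = b}
    have hk : ∑ b, k b = m z := by
      have h := Fintype.card_congr (Equiv.sigmaFiberEquiv c)
      rw [Fintype.card_sigma, Fintype.card_fin] at h
      exact h
    have hkb : k ∈ box := by
      rw [Fintype.mem_piFinset]
      intro b
      rw [Finset.mem_range, Nat.lt_succ_iff]
      refine le_trans ?_ (hn z)
      rw [← hk]
      exact Finset.single_le_sum (f := k) (fun _ _ => Nat.zero_le _) (Finset.mem_univ b)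
    have hzE : z ∈ E k := by
      let f : (Σ b, Fin (k b)) → Fin (m z) := fun i =>
        ((Fintype.equivFin {j // c j = i.1}).symm i.2).1
      have hf : ∀ i, c (f i) = i.1 := fun i =>
        ((Fintype.equivFin {j // c j = i.1}).symm i.2).2
      have hfi : Function.Injective f := by
        rintro ⟨b, x⟩ ⟨b', x'⟩ h
        have hb : b = b' := (hf ⟨b, x⟩).symm.trans ((congrArg c h).trans (hf ⟨b', x'⟩))
        subst hb
        have h2 : (Fintype.equivFin {j // c j = b}).symm x =
            (Fintype.equivFin {j // c j = b}).symm x' := Subtype.ext h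
        rw [(Equiv.injective _ h2)]
      have h3 := DO.comp hc hfi
      show DO (fun i : (Σ b, Fin (k b)) => A i.1) z
      simpa only [hf] using h3
    have h4 : a ^ (m z) = (E k).indicator (fun _ => a ^ ∑ b, k b) z := by
      rw [Set.indicator_of_mem hzE, hk]
    rw [h4]
    exact Finset.single_le_sum (f := fun k => (E k).indicator (fun _ => a ^ ∑ b, k b) z)
      (fun k _ => Set.indicator_nonneg (fun _ _ => pow_nonneg ha _) _) hkb
  have hint : ∀ k, Integrable ((E k).indicator fun _ => a ^ ∑ b, k b) (PB w) := fun k =>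
    (integrable_const _).indicator (hE k).measurableSet
  calc ∫ z, a ^ (m z) ∂(PB w)
      ≤ ∫ z, ∑ k ∈ box, (E k).indicator (fun _ => a ^ ∑ b, k b) z ∂(PB w) :=
        integral_mono_of_nonneg (ae_of_all _ fun z => pow_nonneg ha _)
          (integrable_finsetSum _ fun k _ => hint k) (ae_of_all _ hpt)
    _ = ∑ k ∈ box, (PB w).real (E k) * a ^ ∑ b, k b := by
        rw [integral_finsetSum _ fun k _ => hint k]
        refine Finset.sum_congr rfl fun k _ => ?_
        rw [integral_indicator_const _ (hE k).measurableSet, smul_eq_mul]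
    _ ≤ ∑ k ∈ box, ∏ b, (a * q b) ^ k b := by
        refine Finset.sum_le_sum fun k _ => ?_
        calc (PB w).real (E k) * a ^ ∑ b, k b ≤ (∏ b, q b ^ k b) * a ^ ∑ b, k b :=
              mul_le_mul_of_nonneg_right (hPE k) (pow_nonneg ha _)
          _ = ∏ b, (a * q b) ^ k b := by
              rw [← Finset.prod_pow_eq_pow_sum, ← Finset.prod_mul_distrib]
              exact Finset.prod_congr rfl fun b _ => by rw [mul_pow, mul_comm]
    _ = ∏ b, ∑ j ∈ Finset.range (n + 1), (a * q b) ^ j := by
        rw [Finset.prod_univ_sum]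
    _ ≤ ∏ b, (1 - a * q b)⁻¹ := by
        refine Finset.prod_le_prod (fun b _ => Finset.sum_nonneg fun j _ =>
          pow_nonneg (mul_nonneg ha (hq0 b)) _) fun b _ => ?_
        have h5 : 0 ≤ a * q b := mul_nonneg ha (hq0 b)
        rw [← tsum_geometric_of_lt_one h5 (haq b)]
        exact (summable_geometric_of_lt_one h5 (haq b)).sum_le_tsum _
          fun j _ => pow_nonneg h5 _

end Crest.Agent.R158.Nm211
end
end

-- ▼ part R158/Nm2_211
section

/-!
# Row 158, Block N (helper211): strands give disjoint arms, without planarity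

* `Cn en S z u v` : `u`, `v` are joined by open edges of `S` (`en e` = end points of `e`)
* `CE en S A B` : the event that `A` is joined to `B`
* `cut_or_disj` : Menger: either `k` disjoint open connections from `A` to `B`, or a set of fewer
  than `k` open edges whose closing disconnects `A` from `B`
* `strands` : if `K z` strands run from the corners `X` to the corners `Y` through `D`, then there
  are at least `K z / 2` pairwise disjoint open connections
-/

set_option autoImplicit false

noncomputable section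

namespace Crest.Agent.R158.Nm211

open Crest.Agent.R158.Rs689
open Crest.Agent.R042

variable {ι V : Type*} [DecidableEq ι]

/-- `e` links `u` and `v` -/
def Lk (en : ι → V × V) (e : ι) (u v : V) : Prop := en e = (u, v) ∨ en e = (v, u)

/-- `v` is an end of `e` -/
def Tch (en : ι → V × V) (e : ι) (v : V) : Prop := (en e).1 = v ∨ (en e).2 = v

/-- connection by open edges of `S` -/
def Cn (en : ι → V × V) (S : Set ι) (z : ι → Bool) (u v : V) : Prop :=
  Relation.ReflTransGen (fun u v => ∃ e ∈ S, z e = true ∧ Lk en e u v) u v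

/-- connection event -/
def CE (en : ι → V × V) (S : Set ι) (A B : Set V) : Set (ι → Bool) :=
  {z | ∃ a ∈ A, ∃ b ∈ B, Cn en S z a b}

variable {en : ι → V × V} {S : Set ι} {A B : Set V}

omit [DecidableEq ι] in
theorem Lk.symm {e : ι} {u v : V} (h : Lk en e u v) : Lk en e v u := Or.symm h

omit [DecidableEq ι] in
theorem Lk.tch {e : ι} {u v : V} (h : Lk en e u v) : Tch en e u ∧ Tch en e v := by
  rcases h with h | h
  · exact ⟨Or.inl (by rw [h]), Or.inr (by rw [h])⟩
  · exact ⟨Or.inr (by rw [h]), Or.inl (by rw [h])⟩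

omit [DecidableEq ι] in
theorem Cn.mono {S' : Set ι} {z z' : ι → Bool} (hS : S ⊆ S')
    (hz : ∀ e ∈ S, z e = true → z' e = true) {u v : V} (h : Cn en S z u v) : Cn en S' z' u v := by
  induction h with
  | refl => exact Relation.ReflTransGen.refl
  | tail _ h ih =>
    obtain ⟨e, he, h1, h2⟩ := h
    exact ih.tail ⟨e, hS he, hz e he h1, h2⟩

omit [DecidableEq ι] in
theorem Cn.symm {z : ι → Bool} {u v : V} (h : Cn en S z u v) : Cn en S z v u := by
  induction h with
  | refl => exact Relation.ReflTransGen.refl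
  | tail _ h ih =>
    obtain ⟨e, he, h1, h2⟩ := h
    exact Relation.ReflTransGen.head ⟨e, he, h1, h2.symm⟩ ih

omit [DecidableEq ι] in
theorem Cn.trans {z : ι → Bool} {u v w : V} (h : Cn en S z u v) (h' : Cn en S z v w) :
    Cn en S z u w := Relation.ReflTransGen.trans h h'

omit [DecidableEq ι] in
theorem cn_tch {z : ι → Bool} {e : ι} {u v : V} (he : e ∈ S) (hz : z e = true)
    (hu : Tch en e u) (hv : Tch en e v) : Cn en S z u v := by
  have h1 : Lk en e (en e).1 (en e).2 := Or.inl rfl
  rcases hu with rfl | rfl <;> rcases hv with rfl | rfl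
  · exact Relation.ReflTransGen.refl
  · exact Relation.ReflTransGen.single ⟨e, he, hz, h1⟩
  · exact Relation.ReflTransGen.single ⟨e, he, hz, h1.symm⟩
  · exact Relation.ReflTransGen.refl

omit [DecidableEq ι] in
theorem CE_inc : Inc (CE en S A B) := by
  rintro z z' hz ⟨a, ha, b, hb, h⟩
  exact ⟨a, ha, b, hb, h.mono subset_rfl fun e _ he => hz e he⟩

omit [DecidableEq ι] in
theorem CE_dep (T : Finset ι) : Dep T (CE en (T : Set ι) A B) := by
  have key : ∀ z z' : ι → Bool, (∀ e ∈ T, z e = z' e) → z ∈ CE en (T : Set ι) A B →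
      z' ∈ CE en (T : Set ι) A B := by
    rintro z z' hz ⟨a, ha, b, hb, h⟩
    exact ⟨a, ha, b, hb, h.mono subset_rfl fun e he h1 => by rw [← hz e he]; exact h1⟩
  exact fun z z' hz => ⟨key z z' hz, key z' z fun e he => (hz e he).symm⟩

/-- line graph -/
def LG (en : ι → V × V) : SimpleGraph ι where
  Adj e e' := e ≠ e' ∧ ∃ v, Tch en e v ∧ Tch en e' v
  symm := ⟨fun _ _ ⟨h, v, h1, h2⟩ => ⟨h.symm, v, h2, h1⟩⟩
  loopless := ⟨fun _ h => h.1 rfl⟩

omit [DecidableEq ι] in
theorem cn_of_chain {z : ι → Bool} : ∀ (l : List ι) (u v : V), l.IsChain (LG en).Adj →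
    (∀ e ∈ l, e ∈ S ∧ z e = true) → (∃ a t, l = a :: t ∧ Tch en a u) →
    (∃ s b, l = s ++ [b] ∧ Tch en b v) → Cn en S z u v
  | [], _, _, _, _, ⟨_, _, h, _⟩, _ => by simp at h
  | [a], u, v, _, hl, ⟨a', t, h, hu⟩, ⟨s, b, h', hv⟩ => by
    have ha : a' = a := by
      rw [List.cons.injEq] at h; exact h.1.symm
    have hb : b = a := by
      have : s = [] ∧ b = a := by
        cases s with
        | nil => simpa using h'.symm
        | cons c s => simp at h'
      exact this.2
    subst ha hb
    exact cn_tch (hl _ (by simp)).1 (hl _ (by simp)).2 hu hv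
  | a :: c :: t, u, v, hc, hl, ⟨a', t', h, hu⟩, ⟨s, b, h', hv⟩ => by
    have ha : a' = a := by
      rw [List.cons.injEq] at h; exact h.1.symm
    subst ha
    rw [List.isChain_cons_cons] at hc
    obtain ⟨⟨_, w, hw1, hw2⟩, hc2⟩ := hc
    refine (cn_tch (hl a' (by simp)).1 (hl a' (by simp)).2 hu hw1).trans ?_
    refine cn_of_chain (c :: t) w v hc2 (fun e he => hl e (List.mem_cons_of_mem _ he))
      ⟨c, t, rfl, hw2⟩ ?_
    cases s with
    | nil => simp at h'
    | cons d s =>
      rw [List.cons_append, List.cons.injEq] at h'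
      exact ⟨s, b, h'.2, hv⟩

omit [DecidableEq ι] in
theorem chain_of_cn {z : ι → Bool} {a u : V} (h : Cn en S z a u) :
    a = u ∨ ∃ l : List ι, l.IsChain (LG en).Adj ∧ (∀ e ∈ l, e ∈ S ∧ z e = true) ∧
      (∃ e t, l = e :: t ∧ Tch en e a) ∧ (∃ s e, l = s ++ [e] ∧ Tch en e u) := by
  induction h with
  | refl => exact Or.inl rfl
  | @tail u w _ hs ih =>
    right
    obtain ⟨e, he, hze, hl⟩ := hs
    rcases ih with rfl | ⟨l, h1, h2, h3, s, e', h4, h5⟩
    · exact ⟨[e], List.isChain_singleton e, by simp [he, hze], ⟨e, [], rfl, hl.tch.1⟩,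
        [], e, rfl, hl.tch.2⟩
    · by_cases hee : e' = e
      · subst hee
        exact ⟨l, h1, h2, h3, s, e', h4, hl.tch.2⟩
      · subst h4
        refine ⟨(s ++ [e']) ++ [e], ?_, ?_, ?_, s ++ [e'], e, rfl, hl.tch.2⟩
        · rw [List.append_assoc, List.singleton_append, List.isChain_split]
          refine ⟨h1, ?_⟩
          rw [List.isChain_pair]
          exact ⟨hee, u, h5, hl.tch.1⟩
        · intro x hx
          rcases List.mem_append.1 hx with hx | hx
          · exact h2 x hx
          · rw [List.mem_singleton] at hx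
            subst hx
            exact ⟨he, hze⟩
        · obtain ⟨e0, t0, h6, h7⟩ := h3
          exact ⟨e0, t0 ++ [e], by rw [h6]; rfl, h7⟩

/-- close the edges of `X` -/
def cls (X : Finset ι) (z : ι → Bool) : ι → Bool := fun e => if e ∈ X then false else z e

open Classical in
/-- **Menger** (edge version) -/
theorem cut_or_disj (T : Finset ι) (hAB : ∀ a ∈ A, a ∉ B) (z : ι → Bool) (k : ℕ) :
    DO (fun _ : Fin k => CE en (T : Set ι) A B) z ∨
      ∃ X : Finset ι, X.card < k ∧ cls X z ∉ CE en (T : Set ι) A B := by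
  set W : Finset ι := T.filter fun e => z e = true with hW
  set A' : Finset ι := W.filter fun e => ∃ a ∈ A, Tch en e a with hA'
  set B' : Finset ι := W.filter fun e => ∃ b ∈ B, Tch en e b with hB'
  by_cases hsep : ∀ X, Menger353.Separates (LG en) W A' B' X → k ≤ X.card
  · left
    obtain ⟨Q, hQ, hc⟩ := Menger353.menger hsep
    let f : Fin k ≃ Q := (Fin.castOrderIso hc.symm).toEquiv.trans (Q.equivFin.symm)
    refine ⟨fun i => (f i).1.toFinset, fun i e he => ?_, fun i j hij => ?_, fun i => ?_⟩
    · rw [List.mem_toFinset] at he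
      exact (Finset.mem_filter.1 ((hQ.path _ (f i).2).sub e he)).2
    · refine Finset.disjoint_left.2 ?_
      intro e he he'
      rw [List.mem_toFinset] at he he'
      exact hQ.disj _ (f i).2 _ (f j).2 (fun h => hij (f.injective (Subtype.ext h))) e he he'
    · have hp := hQ.path _ (f i).2
      obtain ⟨a, t, h1, h2, _⟩ := hp.start
      obtain ⟨s, b, h3, h4, _⟩ := hp.stop
      obtain ⟨_, u, hu, hau⟩ := Finset.mem_filter.1 h2
      obtain ⟨_, v, hv, hbv⟩ := Finset.mem_filter.1 h4
      refine ⟨u, hu, v, hv, cn_of_chain (f i).1 u v hp.chain (fun e he => ⟨?_, ?_⟩)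
        ⟨a, t, h1, hau⟩ ⟨s, b, h3, hbv⟩⟩
      · exact (Finset.mem_filter.1 (hp.sub e he)).1
      · simpa [chi] using he
  · right
    push Not at hsep
    obtain ⟨X, hX, hXk⟩ := hsep
    refine ⟨X, hXk, ?_⟩
    rintro ⟨a, ha, b, hb, h⟩
    rcases chain_of_cn h with rfl | ⟨l, h1, h2, ⟨e, t, h3, h3'⟩, s, e', h4, h4'⟩
    · exact hAB a ha hb
    · have hop : ∀ x ∈ l, x ∈ T ∧ x ∉ X ∧ z x = true := by
        intro x hx
        obtain ⟨h5, h6⟩ := h2 x hx
        unfold cls at h6
        by_cases hxX : x ∈ X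
        · rw [if_pos hxX] at h6; exact absurd h6 (by decide)
        · rw [if_neg hxX] at h6
          exact ⟨h5, hxX, h6⟩
      have hWl : ∀ x ∈ l, x ∈ W := fun x hx =>
        Finset.mem_filter.2 ⟨(hop x hx).1, (hop x hx).2.2⟩
      obtain ⟨l', hl', hsub⟩ := Menger353.exists_path_of_chain (G := LG en) (W := W) (A := A')
        (B := B') l.length l le_rfl hWl h1
        ⟨e, t, h3, Finset.mem_filter.2 ⟨hWl e (by rw [h3]; simp), a, ha, h3'⟩⟩
        ⟨s, e', h4, Finset.mem_filter.2 ⟨hWl e' (by rw [h4]; simp), b, hb, h4'⟩⟩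
      obtain ⟨x, hx, hxX⟩ := hX l' hl'
      exact (hop x (hsub x hx)).2.1 hxX

/-! ### strands -/

section Strands

variable {C : Type*} [DecidableEq C]

/-- the strand from `x` through `D` reaches `Y` -/
def Hit (nx : C → C) (D Y : Set C) (x : C) : Prop :=
  ∃ n, (∀ k < n, nx^[k] x ∈ D) ∧ nx^[n] x ∈ Y

/-- the strand from `x` visits `c` before leaving `D` -/
def Vis (nx : C → C) (D : Set C) (x c : C) : Prop :=
  ∃ n, (∀ k ≤ n, nx^[k] x ∈ D) ∧ nx^[n] x = c

omit [DecidableEq C] in
theorem iter_cancel {nx : C → C} {D : Set C} (hinj : Set.InjOn nx D) : ∀ (n m : ℕ) (x x' : C),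
    (∀ k ≤ n, nx^[k] x ∈ D) → (∀ k ≤ n + m, nx^[k] x' ∈ D) → nx^[n] x = nx^[n + m] x' →
    x = nx^[m] x'
  | 0, m, x, x', _, _, h => by simpa using h
  | n + 1, m, x, x', h1, h2, h => by
    refine iter_cancel hinj n m x x' (fun k hk => h1 k (by omega)) (fun k hk => h2 k (by omega)) ?_
    have h3 : n + 1 + m = (n + m) + 1 := by omega
    rw [h3, Function.iterate_succ_apply', Function.iterate_succ_apply'] at h
    exact hinj (h1 n (by omega)) (h2 (n + m) (by omega)) h

omit [DecidableEq C] in
theorem vis_unique {nx : C → C} {D : Set C} (hinj : Set.InjOn nx D) {X : Finset C}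
    (hX : ∀ c ∈ D, nx c ∉ X) {x x' c : C} (hx : x ∈ X) (hx' : x' ∈ X) (h : Vis nx D x c)
    (h' : Vis nx D x' c) : x = x' := by
  have key : ∀ (n n' : ℕ) (x x' : C), n ≤ n' → x ∈ X → (∀ k ≤ n, nx^[k] x ∈ D) →
      (∀ k ≤ n', nx^[k] x' ∈ D) → nx^[n] x = nx^[n'] x' → x = x' := by
    intro n n' x x' hn hx hk' hk h
    obtain ⟨m, rfl⟩ := Nat.exists_eq_add_of_le hn
    have h1 : x = nx^[m] x' := iter_cancel hinj n m x x' hk' hk h
    cases m with
    | zero => exact h1
    | succ m =>
      rw [Function.iterate_succ_apply'] at h1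
      exact absurd (h1 ▸ hx) (hX _ (hk m (by omega)))
  obtain ⟨n, h1, h2⟩ := h
  obtain ⟨n', h1', h2'⟩ := h'
  rcases le_total n n' with hn | hn
  · exact key n n' x x' hn hx h1 h1' (h2.trans h2'.symm)
  · exact (key n' n x' x hn hx' h1' h1 (h2'.trans h2.symm)).symm

/-- number of strands from `X` to `Y` through `D` -/
def KK (nx : C → C) (D Y : Set C) (X : Finset C) : ℕ := by
  classical exact (X.filter fun x => Hit nx D Y x).card

/-- the abstract strand system -/
structure SS (en : ι → V × V) (T : Finset ι) (nx : (ι → Bool) → C → C) (ah : C → ι) (ph : C → V)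
    (D Y : Set C) (X : Finset C) (r : ℕ) : Prop where
  loc : ∀ z z', ∀ c ∈ D, z (ah c) = z' (ah c) → nx z c = nx z' c
  inj : ∀ z, Set.InjOn (nx z) D
  ent : ∀ z, ∀ c ∈ D, nx z c ∉ X
  edge : ∀ c ∈ D, ah c ∈ T
  mult : ∀ e, ∃ R : Finset C, R.card ≤ r ∧ ∀ c ∈ D, ah c = e → c ∈ R
  clo : ∀ z, ∀ c ∈ D, z (ah c) = false → ph (nx z c) = ph c
  opn : ∀ z, ∀ c ∈ D, z (ah c) = true → Lk en (ah c) (ph c) (ph (nx z c))

variable {T : Finset ι} {nx : (ι → Bool) → C → C} {ah : C → ι} {ph : C → V} {D Y : Set C}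
  {X : Finset C} {r : ℕ}

omit [DecidableEq ι] [DecidableEq C] in
/-- right side of a strand -/
theorem SS.cn (h : SS en T nx ah ph D Y X r) (z : ι → Bool) (x : C) : ∀ n : ℕ,
    (∀ k < n, (nx z)^[k] x ∈ D) → Cn en (T : Set ι) z (ph x) (ph ((nx z)^[n] x))
  | 0, _ => Relation.ReflTransGen.refl
  | n + 1, hn => by
    refine (h.cn z x n fun k hk => hn k (by omega)).trans ?_
    rw [Function.iterate_succ_apply']
    have hc := hn n (by omega)
    by_cases hz : z (ah ((nx z)^[n] x)) = true
    · exact Relation.ReflTransGen.single ⟨_, h.edge _ hc, hz, h.opn z _ hc hz⟩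
    · rw [h.clo z _ hc (by simpa using hz)]
      exact Relation.ReflTransGen.refl

/-- flipping one edge changes the number of strands by at most `r` -/
theorem SS.flip (h : SS en T nx ah ph D Y X r) {z z' : ι → Bool} {e : ι}
    (hz : ∀ f, f ≠ e → z f = z' f) : KK (nx z) D Y X ≤ KK (nx z') D Y X + r := by
  classical
  obtain ⟨R, hR, hRe⟩ := h.mult e
  unfold KK
  -- strands that do not visit `e` before leaving
  have h1 : ∀ x, Hit (nx z) D Y x → (∀ c, ah c = e → ¬ Vis (nx z) D x c) → Hit (nx z') D Y x := by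
    rintro x ⟨n, hn, hy⟩ hv
    have h2 : ∀ k ≤ n, (nx z')^[k] x = (nx z)^[k] x := by
      intro k
      induction k with
      | zero => intro _; rfl
      | succ k ih =>
        intro hk
        rw [Function.iterate_succ_apply', Function.iterate_succ_apply', ih (by omega)]
        refine (h.loc z z' _ (hn k (by omega)) (hz _ fun h3 => ?_)).symm
        exact hv _ h3 ⟨k, fun j hj => hn j (by omega), rfl⟩
    refine ⟨n, fun k hk => ?_, ?_⟩
    · rw [h2 k hk.le]; exact hn k hk
    · rw [h2 n le_rfl]; exact hy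
  have h2 : (X.filter fun x => Hit (nx z) D Y x) ⊆
      (X.filter fun x => Hit (nx z') D Y x) ∪
        (X.filter fun x => ∃ c ∈ R, Vis (nx z) D x c) := by
    intro x hx
    rw [Finset.mem_filter] at hx
    rw [Finset.mem_union, Finset.mem_filter, Finset.mem_filter]
    by_cases h3 : ∃ c, ah c = e ∧ Vis (nx z) D x c
    · obtain ⟨c, hc, hv⟩ := h3
      have hcD : c ∈ D := by
        obtain ⟨n, hn, rfl⟩ := hv
        exact hn n le_rfl
      exact Or.inr ⟨hx.1, c, hRe c hcD hc, hv⟩
    · push Not at h3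
      exact Or.inl ⟨hx.1, h1 x hx.2 h3⟩
  refine (Finset.card_le_card h2).trans ((Finset.card_union_le _ _).trans ?_)
  refine Nat.add_le_add_left (le_trans ?_ hR) _
  refine Finset.card_le_card_of_forall_subsingleton (fun x c => Vis (nx z) D x c)
    (fun x hx => ?_) fun c _ x hx x' hx' => ?_
  · obtain ⟨_, c, hc, hv⟩ := Finset.mem_filter.1 hx
    exact ⟨c, hc, hv⟩
  · exact vis_unique (h.inj z) (h.ent z) (Finset.mem_filter.1 hx.1).1
      (Finset.mem_filter.1 hx'.1).1 hx.2 hx'.2

omit [DecidableEq ι] in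
/-- the number of strands depends only on the edges in `T` -/
theorem SS.dep (h : SS en T nx ah ph D Y X r) {z z' : ι → Bool} (hz : ∀ e ∈ T, z e = z' e) :
    KK (nx z) D Y X = KK (nx z') D Y X := by
  classical
  have key : ∀ z z' : ι → Bool, (∀ e ∈ T, z e = z' e) → ∀ x, Hit (nx z) D Y x →
      Hit (nx z') D Y x := by
    rintro z z' hz x ⟨n, hn, hy⟩
    have h2 : ∀ k ≤ n, (nx z')^[k] x = (nx z)^[k] x := by
      intro k
      induction k with
      | zero => intro _; rfl
      | succ k ih =>
        intro hk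
        rw [Function.iterate_succ_apply', Function.iterate_succ_apply', ih (by omega)]
        exact (h.loc z z' _ (hn k (by omega)) (hz _ (h.edge _ (hn k (by omega))))).symm
    refine ⟨n, fun k hk => ?_, ?_⟩
    · rw [h2 k hk.le]; exact hn k hk
    · rw [h2 n le_rfl]; exact hy
  unfold KK
  congr 1
  refine Finset.filter_congr fun x _ => ⟨key z z' hz x, key z' z (fun e he => (hz e he).symm) x⟩

theorem SS.close (h : SS en T nx ah ph D Y X r) (z : ι → Bool) (F : Finset ι) :
    KK (nx z) D Y X ≤ KK (nx (cls F z)) D Y X + r * F.card := by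
  classical
  induction F using Finset.induction_on with
  | empty =>
    have : cls ∅ z = z := by
      funext e; simp [cls]
    rw [this]; simp
  | insert a F ha ih =>
    have h1 := h.flip (z := cls F z) (z' := cls (insert a F) z) (e := a) fun f hf => by
      simp [cls, hf]
    rw [Finset.card_insert_of_notMem ha]
    calc KK (nx z) D Y X ≤ KK (nx (cls F z)) D Y X + r * F.card := ih
      _ ≤ KK (nx (cls (insert a F) z)) D Y X + r + r * F.card := Nat.add_le_add_right h1 _
      _ = KK (nx (cls (insert a F) z)) D Y X + r * (F.card + 1) := by ring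

omit [DecidableEq ι] in
theorem SS.zero (h : SS en T nx ah ph D Y X r) {z : ι → Bool} (hXA : ∀ x ∈ X, ph x ∈ A)
    (hYB : ∀ y ∈ Y, ph y ∈ B) (hz : z ∉ CE en (T : Set ι) A B) : KK (nx z) D Y X = 0 := by
  classical
  unfold KK
  rw [Finset.card_eq_zero, Finset.filter_eq_empty_iff]
  rintro x hx ⟨n, hn, hy⟩
  exact hz ⟨_, hXA x hx, _, hYB _ hy, h.cn z x n hn⟩

/-- **strands give disjoint arms** -/
theorem SS.disj (h : SS en T nx ah ph D Y X r) (hAB : ∀ a ∈ A, a ∉ B)
    (hXA : ∀ x ∈ X, ph x ∈ A) (hYB : ∀ y ∈ Y, ph y ∈ B) (z : ι → Bool) {k : ℕ}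
    (hk : r * (k - 1) < KK (nx z) D Y X) :
    DO (fun _ : Fin k => CE en (T : Set ι) A B) z := by
  rcases cut_or_disj (en := en) T hAB z k with h1 | ⟨F, hF, h2⟩
  · exact h1
  · exfalso
    have h3 := h.close z F
    rw [h.zero hXA hYB h2, zero_add] at h3
    have h4 : r * F.card ≤ r * (k - 1) := Nat.mul_le_mul_left r (by omega)
    omega

end Strands

end Crest.Agent.R158.Nm211
end
end

-- ▼ part R158/Nm3_211

/-!
# Row 158, Block N (helper211): exponential moments of numbers of strands

* `integral_prod_disj` : independence of functions of disjoint finite sets of edges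
* `strand_moment` : `∫ a ^ KK ≤ ∏ b, (1 - a ^ r * q b)⁻¹`
* `local_moment` : combination of local numbers of strands (Hölder over colour classes)
-/

set_option autoImplicit false

noncomputable section

namespace Crest.Agent.R158.Nm211

open MeasureTheory ProbabilityTheory unitInterval
open Crest.Agent.R158.Rs689

variable {ι V : Type*}

/-- the function depends only on the coordinates in `S` -/
def DepF (S : Finset ι) (f : (ι → Bool) → ℝ) : Prop :=
  ∀ z z' : ι → Bool, (∀ e ∈ S, z e = z' e) → f z = f z'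

open Classical in
/-- extension by `false` -/
def ext (S : Finset ι) (y : S → Bool) : ι → Bool := fun e => if h : e ∈ S then y ⟨e, h⟩ else false

theorem DepF.eq {S : Finset ι} {f : (ι → Bool) → ℝ} (hf : DepF S f) (z : ι → Bool) :
    f (ext S (S.restrict z)) = f z :=
  hf _ _ fun e he => by simp [ext, he]

theorem DepF.mono {S T : Finset ι} (h : S ⊆ T) {f : (ι → Bool) → ℝ} (hf : DepF S f) : DepF T f :=
  fun z z' hz => hf z z' fun e he => hz e (h he)

theorem DepF.mul {S : Finset ι} {f g : (ι → Bool) → ℝ} (hf : DepF S f) (hg : DepF S g) :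
    DepF S fun z => f z * g z := fun z z' hz => by
  show f z * g z = f z' * g z'
  rw [hf z z' hz, hg z z' hz]

theorem DepF.prod {κ : Type*} {S : Finset ι} (s : Finset κ) {f : κ → (ι → Bool) → ℝ}
    (hf : ∀ k ∈ s, DepF S (f k)) : DepF S fun z => ∏ k ∈ s, f k z := fun z z' hz =>
  Finset.prod_congr rfl fun k hk => hf k hk z z' hz

theorem DepF.measurable {S : Finset ι} {f : (ι → Bool) → ℝ} (hf : DepF S f) : Measurable f := by
  have h : f = (fun y => f (ext S y)) ∘ S.restrict := by
    funext z
    exact (hf.eq z).symm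
  rw [h]
  exact (Measurable.of_discrete).comp (Finset.measurable_restrict S)

theorem DepF.bdd {S : Finset ι} {f : (ι → Bool) → ℝ} (hf : DepF S f) : ∃ C, ∀ z, ‖f z‖ ≤ C := by
  obtain ⟨C, hC⟩ := (Set.finite_range fun y : S → Bool => ‖f (ext S y)‖).bddAbove
  exact ⟨C, fun z => by rw [← hf.eq z]; exact hC ⟨S.restrict z, rfl⟩⟩

theorem DepF.integrable {S : Finset ι} {f : (ι → Bool) → ℝ} (hf : DepF S f) (w : ι → I) :
    Integrable f (PB w) := by
  obtain ⟨C, hC⟩ := hf.bdd
  exact Integrable.of_bound hf.measurable.aestronglyMeasurable C (ae_of_all _ hC)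

theorem integral_mul_disj (w : ι → I) {S T : Finset ι} (hST : Disjoint S T)
    {f g : (ι → Bool) → ℝ} (hf : DepF S f) (hg : DepF T g) :
    ∫ z, f z * g z ∂(PB w) = (∫ z, f z ∂(PB w)) * ∫ z, g z ∂(PB w) := by
  have h1 : iIndepFun (fun (e : ι) (z : ι → Bool) => z e) (PB w) := by
    have := iIndepFun_infinitePi (P := fun e => bern (w e)) (X := fun _ b => b)
      (fun _ => measurable_id)
    exact this
  have h2 := h1.indepFun_finset S T hST (fun e => measurable_pi_apply e)
  have h3 : IndepFun f g (PB w) := by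
    have h4 := h2.comp (φ := fun y => f (ext S y)) (ψ := fun y => g (ext T y))
      Measurable.of_discrete Measurable.of_discrete
    have e1 : ((fun y => f (ext S y)) ∘ fun (a : ι → Bool) (i : S) => a i) = f := by
      funext z
      exact hf.eq z
    have e2 : ((fun y => g (ext T y)) ∘ fun (a : ι → Bool) (i : T) => a i) = g := by
      funext z
      exact hg.eq z
    rw [e1, e2] at h4
    exact h4
  exact h3.integral_fun_mul_eq_mul_integral hf.measurable.aestronglyMeasurable
    hg.measurable.aestronglyMeasurable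

/-- independence over disjoint finite sets -/
theorem integral_prod_disj (w : ι → I) {κ : Type*} (s : Finset κ) (S : κ → Finset ι)
    (hS : ∀ i ∈ s, ∀ j ∈ s, i ≠ j → Disjoint (S i) (S j)) (f : κ → (ι → Bool) → ℝ)
    (hf : ∀ i ∈ s, DepF (S i) (f i)) :
    ∫ z, ∏ i ∈ s, f i z ∂(PB w) = ∏ i ∈ s, ∫ z, f i z ∂(PB w) := by
  classical
  induction s using Finset.induction_on with
  | empty => simp
  | insert a s ha ih =>
    have hd : Disjoint (S a) (s.biUnion S) := by
      rw [Finset.disjoint_biUnion_right]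
      intro j hj
      exact hS a (Finset.mem_insert_self _ _) j (Finset.mem_insert_of_mem hj)
        (fun h => ha (h ▸ hj))
    have hD : DepF (s.biUnion S) fun z => ∏ i ∈ s, f i z :=
      DepF.prod s fun i hi => (hf i (Finset.mem_insert_of_mem hi)).mono
        (Finset.subset_biUnion_of_mem S hi)
    rw [Finset.prod_insert ha,
      ← ih (fun i hi j hj => hS i (Finset.mem_insert_of_mem hi) j (Finset.mem_insert_of_mem hj))
        (fun i hi => hf i (Finset.mem_insert_of_mem hi)),
      ← integral_mul_disj w hd (hf a (Finset.mem_insert_self _ _)) hD]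
    refine integral_congr_ae (ae_of_all _ fun z => ?_)
    show ∏ i ∈ insert a s, f i z = _
    rw [Finset.prod_insert ha]

/-! ### one local number of strands -/

section Moment

variable [DecidableEq ι] {C : Type*} [DecidableEq C] {en : ι → V × V} {B : Set V}
variable {T : Finset ι} {nx : (ι → Bool) → C → C} {ah : C → ι} {ph : C → V} {D Y : Set C}
  {X : Finset C} {r : ℕ}

/-- **exponential moment of the number of strands** -/
theorem strand_moment (w : ι → I) (h : SS en T nx ah ph D Y X r) (hr : 0 < r) {β : Type*}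
    [Fintype β] {A : β → Set V} (hXA : ∀ x ∈ X, ∃ b, ph x ∈ A b) (hYB : ∀ y ∈ Y, ph y ∈ B)
    (hAB : ∀ b, ∀ v ∈ A b, v ∉ B) {q : β → ℝ}
    (hq : ∀ b, (PB w).real (CE en (T : Set ι) (A b) B) ≤ q b) {a : ℝ} (ha : 1 ≤ a)
    (haq : ∀ b, a ^ r * q b < 1) :
    ∫ z, a ^ (KK (nx z) D Y X) ∂(PB w) ≤ ∏ b, (1 - a ^ r * q b)⁻¹ := by
  classical
  set m : (ι → Bool) → ℕ := fun z => (KK (nx z) D Y X + (r - 1)) / r with hm
  have hmle : ∀ z, KK (nx z) D Y X ≤ r * m z := by
    intro z
    have h1 := Nat.div_add_mod (KK (nx z) D Y X + (r - 1)) r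
    have h2 := Nat.mod_lt (KK (nx z) D Y X + (r - 1)) hr
    have h3 : m z = (KK (nx z) D Y X + (r - 1)) / r := rfl
    rw [← h3] at h1
    omega
  have hmS : ∀ z z' : ι → Bool, (∀ e ∈ T, z e = z' e) → m z = m z' := fun z z' hz => by
    rw [hm]
    show (KK (nx z) D Y X + (r - 1)) / r = (KK (nx z') D Y X + (r - 1)) / r
    rw [h.dep hz]
  have hDO : ∀ z, ∃ c : Fin (m z) → β,
      DO (fun i => CE en (T : Set ι) (A (c i)) B) z := by
    intro z
    rcases Nat.eq_zero_or_pos (m z) with h0 | h0
    · rw [h0]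
      exact ⟨fun i => i.elim0, fun i => i.elim0, fun i => i.elim0, fun i => i.elim0,
        fun i => i.elim0⟩
    · have hk : r * (m z - 1) < KK (nx z) D Y X := by
        have h3 : m z = (KK (nx z) D Y X + (r - 1)) / r := rfl
        have h1 := Nat.div_mul_le_self (KK (nx z) D Y X + (r - 1)) r
        rw [← h3] at h1
        obtain ⟨m', hm'⟩ : ∃ m', m z = m' + 1 := ⟨m z - 1, by omega⟩
        rw [hm'] at h1 ⊢
        have h4 : (m' + 1) * r = r * m' + r := by ring
        rw [h4] at h1
        simp only [Nat.add_sub_cancel]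
        omega
      obtain ⟨E, h1, h2, h3⟩ := h.disj (A := ⋃ b, A b) (B := B)
        (fun v hv => by
          obtain ⟨b, hb⟩ := Set.mem_iUnion.1 hv
          exact hAB b v hb)
        (fun x hx => Set.mem_iUnion.2 (hXA x hx)) hYB z hk
      choose v hv b hb hc using h3
      choose c hcv using fun i => Set.mem_iUnion.1 (hv i)
      exact ⟨c, E, h1, h2, fun i => ⟨v i, hcv i, b i, hb i, hc i⟩⟩
  have ha0 : (0 : ℝ) ≤ a ^ r := pow_nonneg (zero_le_one.trans ha) _
  have h1 := exp_moment w (fun b => CE_dep (en := en) (A := A b) (B := B) T)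
    (fun b => CE_inc) hq ha0 haq hmS hDO
  refine le_trans (integral_mono ?_ ?_ fun z => ?_) h1
  · refine DepF.integrable (S := T) (fun z z' hz => ?_) w
    rw [h.dep hz]
  · refine DepF.integrable (S := T) (fun z z' hz => ?_) w
    rw [hmS z z' hz]
  · show a ^ KK (nx z) D Y X ≤ (a ^ r) ^ m z
    rw [← pow_mul]
    exact pow_le_pow_right₀ ha (hmle z)

end Moment

/-! ### combination -/

theorem prod_le_sum_pow {J : ℕ} (hJ : 0 < J) (y : Fin J → ℝ) (hy : ∀ j, 0 ≤ y j) :
    ∏ j, y j ≤ ∑ j, y j ^ J := by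
  haveI : Nonempty (Fin J) := ⟨⟨0, hJ⟩⟩
  obtain ⟨j, hj⟩ := Finite.exists_max y
  calc ∏ i, y i ≤ ∏ _i : Fin J, y j := Finset.prod_le_prod (fun i _ => hy i) fun i _ => hj i
    _ = y j ^ J := by rw [Finset.prod_const, Finset.card_univ, Fintype.card_fin]
    _ ≤ ∑ i, y i ^ J := Finset.single_le_sum (f := fun i => y i ^ J)
        (fun i _ => pow_nonneg (hy i) _) (Finset.mem_univ j)

/-- **combination of local numbers**: Hölder over the colour classes, independence inside -/
theorem local_moment (w : ι → I) {κ : Type*} [Fintype κ] {J : ℕ} (hJ : 0 < J) (col : κ → Fin J)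
    (T : κ → Finset ι) (hT : ∀ k l, k ≠ l → col k = col l → Disjoint (T k) (T l))
    (N : κ → (ι → Bool) → ℕ)
    (hN : ∀ k, ∀ z z' : ι → Bool, (∀ e ∈ T k, z e = z' e) → N k z = N k z') {a : ℝ} (ha : 1 ≤ a)
    {Q : κ → ℝ} (hQ : ∀ k, ∫ z, (a ^ J) ^ (N k z) ∂(PB w) ≤ Q k) (hQ1 : ∀ k, 1 ≤ Q k) :
    ∫ z, a ^ (∑ k, N k z) ∂(PB w) ≤ J * ∏ k, Q k := by
  classical
  have ha0 : 0 ≤ a := zero_le_one.trans ha
  have hdep : ∀ (k : κ) (b : ℝ), DepF (T k) fun z => b ^ (N k z) := fun k b z z' hz => by
    show b ^ (N k z) = b ^ (N k z')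
    rw [hN k z z' hz]
  have hpt : ∀ z, a ^ (∑ k, N k z) ≤
      ∑ j : Fin J, ∏ k ∈ Finset.univ.filter (fun k => col k = j), (a ^ J) ^ (N k z) := by
    intro z
    have h1 : a ^ (∑ k, N k z) =
        ∏ j : Fin J, ∏ k ∈ Finset.univ.filter (fun k => col k = j), a ^ (N k z) := by
      rw [Finset.prod_fiberwise, Finset.prod_pow_eq_pow_sum]
    rw [h1]
    refine (prod_le_sum_pow hJ _ fun j => Finset.prod_nonneg fun k _ => pow_nonneg ha0 _).trans
      (le_of_eq ?_)
    refine Finset.sum_congr rfl fun j _ => ?_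
    rw [← Finset.prod_pow]
    refine Finset.prod_congr rfl fun k _ => ?_
    rw [← pow_mul, ← pow_mul, mul_comm]
  have hI : ∀ j : Fin J, ∫ z, ∏ k ∈ Finset.univ.filter (fun k => col k = j),
      (a ^ J) ^ (N k z) ∂(PB w) ≤ ∏ k, Q k := by
    intro j
    rw [integral_prod_disj w _ T (fun k hk l hl hkl => hT k l hkl
      ((Finset.mem_filter.1 hk).2.trans (Finset.mem_filter.1 hl).2.symm)) _
      fun k _ => hdep k _]
    refine le_trans (Finset.prod_le_prod (fun k _ => integral_nonneg fun z =>
      pow_nonneg (pow_nonneg ha0 _) _) fun k _ => hQ k) ?_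
    exact Finset.prod_le_prod_of_subset_of_one_le (Finset.filter_subset _ _)
      (fun k _ => zero_le_one.trans (hQ1 k)) fun k _ _ => hQ1 k
  have hall : ∀ j : Fin J, DepF (Finset.univ.biUnion T) fun z =>
      ∏ k ∈ Finset.univ.filter (fun k => col k = j), (a ^ J) ^ (N k z) := fun j =>
    DepF.prod _ fun k _ => (hdep k _).mono (Finset.subset_biUnion_of_mem T (Finset.mem_univ k))
  calc ∫ z, a ^ (∑ k, N k z) ∂(PB w)
      ≤ ∫ z, ∑ j : Fin J, ∏ k ∈ Finset.univ.filter (fun k => col k = j),
          (a ^ J) ^ (N k z) ∂(PB w) := by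
        refine integral_mono ?_ (integrable_finsetSum _ fun j _ => (hall j).integrable w) hpt
        refine DepF.integrable (S := Finset.univ.biUnion T) (fun z z' hz => ?_) w
        rw [Finset.sum_congr rfl fun k _ => hN k z z' fun e he =>
          hz e (Finset.mem_biUnion.2 ⟨k, Finset.mem_univ k, he⟩)]
    _ = ∑ j : Fin J, ∫ z, ∏ k ∈ Finset.univ.filter (fun k => col k = j),
          (a ^ J) ^ (N k z) ∂(PB w) :=
        integral_finsetSum _ fun j _ => (hall j).integrable w
    _ ≤ ∑ _j : Fin J, ∏ k, Q k := Finset.sum_le_sum fun j _ => hI j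
    _ = J * ∏ k, Q k := by simp

end Crest.Agent.R158.Nm211
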