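import Mathlib
import Crest.Agent.R158.Rs1_689
import Crest.Agent.R158.FrPre_158
import Crest.Agent.R158.Rs5_689

-- ▼ part R158/Os1_488
section

/-!
# Row 158, Block OS (helper488): the OSSS inequality for block decision trees

Configurations `x : ι → Bool` (`ι` finite), product weight `W x = ∏ i, w i (x i)`, blocks
`β : ι → κ`.  `mix β k x a` = `x` with block `k` replaced by the values of `a`.
`Inf k g = E_x E_a |g (mix k x a) - g x|`.
* `osss` : `|E (f g) - E f * E g| ≤ C * ∑ k, δ k * Inf k g` for every decision tree determining `f`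
* `osss_expl` : the same for explorations
-/

set_option autoImplicit false
set_option linter.unusedSectionVars false
set_option linter.unusedFintypeInType false
set_option linter.unusedDecidableInType false

noncomputable section

namespace Crest.Agent.R158.Os488

open Finset

variable {ι κ : Type*} [Fintype ι] [DecidableEq ι] [Fintype κ] [DecidableEq κ]

/-- product weight -/
def W (w : ι → Bool → ℝ) (x : ι → Bool) : ℝ := ∏ i, w i (x i)

/-- expectation -/
def E (w : ι → Bool → ℝ) (h : (ι → Bool) → ℝ) : ℝ := ∑ x, W w x * h x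

/-- weights of a product probability -/
structure IsW (w : ι → Bool → ℝ) : Prop where
  nn : ∀ i b, 0 ≤ w i b
  one : ∀ i, w i true + w i false = 1

/-- replace block `k` of `x` by the one of `a` -/
def mix (β : ι → κ) (k : κ) (x a : ι → Bool) : ι → Bool := fun i => if β i = k then a i else x i

variable {w : ι → Bool → ℝ} {β : ι → κ}

theorem W_nonneg (hw : IsW w) (x : ι → Bool) : 0 ≤ W w x := Finset.prod_nonneg fun i _ => hw.nn i _

theorem sum_W (hw : IsW w) : ∑ x, W w x = 1 := by
  unfold W
  have h := (Finset.prod_univ_sum (fun _ : ι => (Finset.univ : Finset Bool)) w).symm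
  rw [Fintype.piFinset_univ] at h
  rw [h]
  refine Finset.prod_eq_one fun i _ => ?_
  rw [Fintype.sum_bool]
  exact hw.one i

theorem mix_mix (k : κ) (x a : ι → Bool) : mix β k (mix β k x a) (mix β k a x) = x := by
  funext i
  simp only [mix]
  split_ifs <;> rfl

theorem W_mix (k : κ) (x a : ι → Bool) :
    W w (mix β k x a) * W w (mix β k a x) = W w x * W w a := by
  unfold W
  rw [← Finset.prod_mul_distrib, ← Finset.prod_mul_distrib]
  refine Finset.prod_congr rfl fun i _ => ?_
  simp only [mix]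
  split_ifs
  · exact mul_comm _ _
  · rfl

/-- swap of a block as a permutation of pairs -/
def swp (β : ι → κ) (k : κ) : ((ι → Bool) × (ι → Bool)) ≃ ((ι → Bool) × (ι → Bool)) where
  toFun p := (mix β k p.1 p.2, mix β k p.2 p.1)
  invFun p := (mix β k p.1 p.2, mix β k p.2 p.1)
  left_inv p := by simp only [mix_mix]
  right_inv p := by simp only [mix_mix]

theorem sum_mix (k : κ) (H : (ι → Bool) → (ι → Bool) → ℝ) :
    ∑ x, ∑ a, W w x * W w a * H (mix β k x a) (mix β k a x) =
      ∑ x, ∑ a, W w x * W w a * H x a := by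
  have h1 : ∀ G : (ι → Bool) → (ι → Bool) → ℝ, ∑ x, ∑ a, G x a =
      ∑ p : (ι → Bool) × (ι → Bool), G p.1 p.2 := fun G =>
    (Fintype.sum_prod_type' G).symm
  rw [h1, h1]
  refine Fintype.sum_equiv (swp β k) _ _ fun p => ?_
  simp only [swp, Equiv.coe_fn_mk]
  rw [W_mix]

theorem E_mix (hw : IsW w) (k : κ) (h : (ι → Bool) → ℝ) :
    ∑ a, W w a * E w (fun x => h (mix β k x a)) = E w h := by
  have h1 := sum_mix (w := w) (β := β) k (fun x _ => h x)
  simp only [E]
  have h2 : ∑ a, W w a * ∑ x, W w x * h (mix β k x a) =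
      ∑ x, ∑ a, W w x * W w a * h (mix β k x a) := by
    rw [Finset.sum_comm]
    refine Finset.sum_congr rfl fun a _ => ?_
    rw [Finset.mul_sum]
    refine Finset.sum_congr rfl fun x _ => ?_
    ring
  rw [h2, h1]
  refine Finset.sum_congr rfl fun x _ => ?_
  rw [← Finset.sum_mul, ← Finset.mul_sum, sum_W hw, mul_one]

theorem E_mono (hw : IsW w) {f g : (ι → Bool) → ℝ} (h : ∀ x, f x ≤ g x) : E w f ≤ E w g :=
  Finset.sum_le_sum fun x _ => mul_le_mul_of_nonneg_left (h x) (W_nonneg hw x)

theorem E_nonneg (hw : IsW w) {f : (ι → Bool) → ℝ} (h : ∀ x, 0 ≤ f x) : 0 ≤ E w f :=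
  Finset.sum_nonneg fun x _ => mul_nonneg (W_nonneg hw x) (h x)

theorem E_const (hw : IsW w) (c : ℝ) : E w (fun _ => c) = c := by
  unfold E
  rw [← Finset.sum_mul, sum_W hw, one_mul]

theorem E_abs (hw : IsW w) (f : (ι → Bool) → ℝ) : |E w f| ≤ E w fun x => |f x| := by
  unfold E
  refine (Finset.abs_sum_le_sum_abs _ _).trans (le_of_eq ?_)
  refine Finset.sum_congr rfl fun x _ => ?_
  rw [abs_mul, abs_of_nonneg (W_nonneg hw x)]

theorem E_sub (f g : (ι → Bool) → ℝ) : E w (fun x => f x - g x) = E w f - E w g := by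
  unfold E
  rw [← Finset.sum_sub_distrib]
  exact Finset.sum_congr rfl fun x _ => by ring

theorem E_smul (c : ℝ) (f : (ι → Bool) → ℝ) : E w (fun x => c * f x) = c * E w f := by
  unfold E
  rw [Finset.mul_sum]
  exact Finset.sum_congr rfl fun x _ => by ring

/-- influence of block `k` -/
def Inf (w : ι → Bool → ℝ) (β : ι → κ) (k : κ) (g : (ι → Bool) → ℝ) : ℝ :=
  ∑ a, W w a * E w fun x => |g (mix β k x a) - g x|

theorem Inf_nonneg (hw : IsW w) (k : κ) (g : (ι → Bool) → ℝ) : 0 ≤ Inf w β k g :=
  Finset.sum_nonneg fun a _ => mul_nonneg (W_nonneg hw a) (E_nonneg hw fun _ => abs_nonneg _)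

/-! ### decision trees -/

/-- decision tree reading blocks -/
inductive DT (X κ : Type*) : Type _
  | leaf : DT X κ
  | node (k : κ) (sub : X → DT X κ) : DT X κ

/-- blocks read on the configuration `x` -/
def reads {X : Type*} : DT X κ → X → Finset κ
  | .leaf, _ => ∅
  | .node k sub, x => insert k (reads (sub x) x)

/-- the tree does not read the blocks of `R`, never reads a block twice, and its decisions depend
only on what has been read -/
def Ok (β : ι → κ) : DT (ι → Bool) κ → Finset κ → Prop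
  | .leaf, _ => True
  | .node k sub, R => k ∉ R ∧ (∀ a, Ok β (sub a) (insert k R)) ∧
      ∀ a a' : ι → Bool, (∀ i, β i = k → a i = a' i) → sub a = sub a'

theorem ok_mix {T : DT (ι → Bool) κ} : ∀ {R : Finset κ}, Ok β T R → ∀ {r : κ}, r ∈ R →
    ∀ x a : ι → Bool, reads T (mix β r x a) = reads T x := by
  induction T with
  | leaf => intro R _ r _ x a; rfl
  | node k sub ih =>
    intro R hT r hr x a
    obtain ⟨h1, h2, h3⟩ := hT
    have hk : k ≠ r := fun h => h1 (h ▸ hr)
    have h4 : sub (mix β r x a) = sub x := h3 _ _ fun i hi => by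
      simp only [mix, hi, if_neg hk]
    simp only [reads]
    rw [h4, ih x (h2 x) (Finset.mem_insert_of_mem hr)]

theorem ok_reads {T : DT (ι → Bool) κ} : ∀ {R : Finset κ}, Ok β T R → ∀ {r : κ}, r ∈ R →
    ∀ x : ι → Bool, r ∉ reads T x := by
  induction T with
  | leaf => intro R _ r _ x h; exact absurd h (Finset.notMem_empty r)
  | node k sub ih =>
    intro R hT r hr x h
    obtain ⟨h1, h2, h3⟩ := hT
    simp only [reads, Finset.mem_insert] at h
    rcases h with h | h
    · exact h1 (h ▸ hr)
    · exact ih x (h2 x) (Finset.mem_insert_of_mem hr) x h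

open Classical in
/-- probability that block `k` is read -/
def δ (w : ι → Bool → ℝ) (T : DT (ι → Bool) κ) (k : κ) : ℝ :=
  E w fun x => if k ∈ reads T x then 1 else 0


theorem δ_node_self (hw : IsW w) (k : κ) (sub : (ι → Bool) → DT (ι → Bool) κ) :
    δ w (.node k sub) k = 1 := by
  unfold δ
  have h : (fun x => if k ∈ reads (.node k sub) x then (1 : ℝ) else 0) = fun _ => 1 := by
    funext x
    simp [reads]
  rw [h, E_const hw]

/-- the reading probabilities of a node are the averages of those of the subtrees -/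
theorem δ_node (hw : IsW w) {k : κ} {sub : (ι → Bool) → DT (ι → Bool) κ} {R : Finset κ}
    (hT : Ok β (.node k sub) R) {j : κ} (hj : j ≠ k) :
    δ w (.node k sub) j = ∑ a, W w a * δ w (sub a) j := by
  classical
  obtain ⟨h1, h2, h3⟩ := hT
  unfold δ
  rw [← E_mix (β := β) hw k]
  refine Finset.sum_congr rfl fun a _ => ?_
  congr 2
  funext x
  have h4 : sub (mix β k x a) = sub a := h3 _ _ fun i hi => by simp [mix, hi]
  have h5 : reads (.node k sub) (mix β k x a) = insert k (reads (sub a) x) := by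
    simp only [reads]
    rw [h4, ok_mix (h2 a) (Finset.mem_insert_self _ _)]
  rw [h5]
  simp [hj]

/-- **OSSS inequality.** -/
theorem osss (hw : IsW w) (g : (ι → Bool) → ℝ) {C : ℝ} (T : DT (ι → Bool) κ) :
    ∀ (R : Finset κ), Ok β T R → ∀ f : (ι → Bool) → ℝ, (∀ x, |f x| ≤ C) →
      (∀ x x', (∀ i, β i ∈ reads T x → x i = x' i) → f x = f x') →
      |E w (fun x => f x * g x) - E w f * E w g| ≤ C * ∑ k, δ w T k * Inf w β k g := by
  induction T with
  | leaf =>
    intro R _ f _ hf
    have h : ∀ x, f x = f fun _ => true := fun x => hf _ _ fun i hi => absurd hi (Finset.notMem_empty _)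
    have h1 : f = fun _ => f fun _ => true := funext h
    have h2 : E w (fun x => f x * g x) = f (fun _ => true) * E w g := by
      rw [← E_smul]
      congr 1
      funext x
      rw [h x]
    rw [h2, h1, E_const hw]
    have h3 : ∑ k, δ w (.leaf : DT (ι → Bool) κ) k * Inf w β k g = 0 := by
      refine Finset.sum_eq_zero fun k _ => ?_
      have : δ w (.leaf : DT (ι → Bool) κ) k = 0 := by
        unfold δ
        have : (fun x : ι → Bool => if k ∈ reads (.leaf : DT (ι → Bool) κ) x then (1 : ℝ) else 0) =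
            fun _ => 0 := by
          funext x
          simp [reads]
        rw [this, E_const hw]
      rw [this, zero_mul]
    rw [h3]
    simp
  | node k sub ih =>
    intro R hT f hC hf
    have hT' := hT
    obtain ⟨h1, h2, h3⟩ := hT
    set F : (ι → Bool) → (ι → Bool) → ℝ := fun a x => f (mix β k x a) with hF
    -- first term
    have e1 : E w (fun x => f x * g x) = ∑ a, W w a * E w (fun x => F a x * g (mix β k x a)) :=
      (E_mix (β := β) hw k fun x => f x * g x).symm
    have e2 : E w f * E w g = ∑ a, W w a * (E w (F a) * E w g) := by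
      rw [← E_mix (β := β) hw k f, Finset.sum_mul]
      exact Finset.sum_congr rfl fun a _ => by ring
    have e3 : ∀ a, |E w (fun x => F a x * g x) - E w (F a) * E w g| ≤
        C * ∑ j, δ w (sub a) j * Inf w β j g := by
      intro a
      refine ih a (insert k R) (h2 a) (F a) (fun x => hC _) fun x x' hx => ?_
      refine hf _ _ fun i hi => ?_
      have h4 : sub (mix β k x a) = sub a := h3 _ _ fun i hi => by simp [mix, hi]
      have h5 : reads (.node k sub) (mix β k x a) = insert k (reads (sub a) x) := by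
        simp only [reads]
        rw [h4, ok_mix (h2 a) (Finset.mem_insert_self _ _)]
      rw [h5, Finset.mem_insert] at hi
      simp only [mix]
      rcases hi with hi | hi
      · rw [if_pos hi, if_pos hi]
      · split_ifs
        · rfl
        · exact hx i hi
    have e4 : |E w (fun x => f x * g x) - ∑ a, W w a * E w (fun x => F a x * g x)| ≤
        C * Inf w β k g := by
      rw [e1, ← Finset.sum_sub_distrib]
      refine (Finset.abs_sum_le_sum_abs _ _).trans ?_
      unfold Inf
      rw [Finset.mul_sum]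
      refine Finset.sum_le_sum fun a _ => ?_
      rw [← mul_sub, abs_mul, abs_of_nonneg (W_nonneg hw a), ← E_sub]
      have h6 : C * (W w a * E w fun x => |g (mix β k x a) - g x|) =
          W w a * E w fun x => C * |g (mix β k x a) - g x| := by
        rw [E_smul]; ring
      rw [h6]
      refine mul_le_mul_of_nonneg_left ?_ (W_nonneg hw a)
      refine (E_abs hw _).trans (E_mono hw fun x => ?_)
      rw [← mul_sub, abs_mul]
      exact mul_le_mul_of_nonneg_right (hC _) (abs_nonneg _)
    have e5 : |∑ a, W w a * E w (fun x => F a x * g x) - E w f * E w g| ≤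
        C * ∑ j, (∑ a, W w a * δ w (sub a) j) * Inf w β j g := by
      rw [e2, ← Finset.sum_sub_distrib]
      refine (Finset.abs_sum_le_sum_abs _ _).trans ?_
      have h7 : C * ∑ j, (∑ a, W w a * δ w (sub a) j) * Inf w β j g =
          ∑ a, W w a * (C * ∑ j, δ w (sub a) j * Inf w β j g) := by
        simp only [Finset.mul_sum, Finset.sum_mul]
        rw [Finset.sum_comm]
        exact Finset.sum_congr rfl fun a _ => Finset.sum_congr rfl fun j _ => by ring
      rw [h7]
      refine Finset.sum_le_sum fun a _ => ?_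
      rw [← mul_sub, abs_mul, abs_of_nonneg (W_nonneg hw a)]
      exact mul_le_mul_of_nonneg_left (e3 a) (W_nonneg hw a)
    have e6 : C * Inf w β k g + C * ∑ j, (∑ a, W w a * δ w (sub a) j) * Inf w β j g ≤
        C * ∑ j, δ w (.node k sub) j * Inf w β j g := by
      rw [← mul_add]
      have hC0 : 0 ≤ C := (abs_nonneg _).trans (hC fun _ => true)
      refine mul_le_mul_of_nonneg_left ?_ hC0
      rw [← Finset.add_sum_erase _ _ (Finset.mem_univ k),
        ← Finset.add_sum_erase _ (fun j => δ w (.node k sub) j * Inf w β j g) (Finset.mem_univ k),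
        δ_node_self hw, one_mul]
      have h8 : ∑ a, W w a * δ w (sub a) k = 0 := by
        refine Finset.sum_eq_zero fun a _ => ?_
        have : δ w (sub a) k = 0 := by
          unfold δ
          have : (fun x => if k ∈ reads (sub a) x then (1 : ℝ) else 0) = fun _ => 0 := by
            funext x
            rw [if_neg (ok_reads (h2 a) (Finset.mem_insert_self _ _) x)]
          rw [this, E_const hw]
        rw [this, mul_zero]
      rw [h8, zero_mul, zero_add]
      refine le_of_eq ?_
      congr 1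
      refine Finset.sum_congr rfl fun j hj => ?_
      rw [δ_node hw hT' (Finset.ne_of_mem_erase hj)]
    calc |E w (fun x => f x * g x) - E w f * E w g|
        = |(E w (fun x => f x * g x) - ∑ a, W w a * E w (fun x => F a x * g x)) +
            (∑ a, W w a * E w (fun x => F a x * g x) - E w f * E w g)| := by ring_nf
      _ ≤ _ := abs_add_le _ _
      _ ≤ C * Inf w β k g + C * ∑ j, (∑ a, W w a * δ w (sub a) j) * Inf w β j g :=
          add_le_add e4 e5
      _ ≤ _ := e6

end Crest.Agent.R158.Os488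
end
private theorem rz_ac193c1799 : type_of% @_root_.Crest.Agent.R158.Os488.reads.eq_def := @_root_.Crest.Agent.R158.Os488.reads.eq_def -- L142
private theorem rz_1602177e48 : type_of% @_root_.Crest.Agent.R158.Os488.reads.eq_1 := @_root_.Crest.Agent.R158.Os488.reads.eq_1 -- L142
end

-- ▼ part R158/Os2_488
section

/-!
# Row 158, Block OS (helper488): explorations and the cluster exploration

* `Expl β` : exploration rule `nxt R x : Option κ`
* `build`, `fin` : the associated decision tree, the final set of explored blocks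
* `osss_expl` : OSSS for explorations
* `Cn s t Z u v` : connection by edges with `Z`
* `osss_cluster` : if every connection from `A` to `B` visits the seed set `Sd` then
  `P(A <-> B) (1 - P(A <-> B)) ≤ 1/2 * ∑ k, P(Sd touches block k) * Inf k`
-/

set_option autoImplicit false
set_option linter.unusedSectionVars false
set_option linter.unusedFintypeInType false
set_option linter.unusedDecidableInType false

noncomputable section

namespace Crest.Agent.R158.Os488

open Finset

variable {ι κ : Type*} [Fintype ι] [DecidableEq ι] [Fintype κ] [DecidableEq κ]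
variable {w : ι → Bool → ℝ} {β : ι → κ}

/-- agreement on the blocks of `R` -/
def Agr (β : ι → κ) (R : Finset κ) (x x' : ι → Bool) : Prop := ∀ i, β i ∈ R → x i = x' i

theorem Agr.symm {R : Finset κ} {x x' : ι → Bool} (h : Agr β R x x') : Agr β R x' x :=
  fun i hi => (h i hi).symm

theorem Agr.mono {R R' : Finset κ} (hR : R ⊆ R') {x x' : ι → Bool} (h : Agr β R' x x') :
    Agr β R x x' := fun i hi => h i (hR hi)

theorem agr_mix {R : Finset κ} {k : κ} {x0 x : ι → Bool} (h : Agr β R x0 x) :
    Agr β (insert k R) (mix β k x0 x) x := by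
  intro i hi
  simp only [mix]
  split_ifs with h1
  · rfl
  · rcases Finset.mem_insert.1 hi with h2 | h2
    · exact absurd h2 h1
    · exact h i h2

/-- exploration rule: the next block is unexplored and depends only on what has been explored -/
structure Expl (β : ι → κ) where
  nxt : Finset κ → (ι → Bool) → Option κ
  new : ∀ {R x k}, nxt R x = some k → k ∉ R
  loc : ∀ {R x x'}, Agr β R x x' → nxt R x = nxt R x'

/-- decision tree of an exploration, with `n` remaining steps -/
def build (X : Expl β) : ℕ → Finset κ → (ι → Bool) → DT (ι → Bool) κ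
  | 0, _, _ => .leaf
  | n + 1, R, x =>
    match X.nxt R x with
    | none => .leaf
    | some k => .node k fun a => build X n (insert k R) (mix β k x a)

/-- final explored set, with `n` remaining steps -/
def fin (X : Expl β) : ℕ → Finset κ → (ι → Bool) → Finset κ
  | 0, R, _ => R
  | n + 1, R, x =>
    match X.nxt R x with
    | none => R
    | some k => fin X n (insert k R) x

theorem ok_build (X : Expl β) (n : ℕ) : ∀ (R : Finset κ) (x : ι → Bool),
    Ok β (build X n R x) R := by
  induction n with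
  | zero => intro R x; trivial
  | succ n ih =>
    intro R x
    simp only [build]
    cases h : X.nxt R x with
    | none => trivial
    | some k =>
      refine ⟨X.new h, fun a => ih _ _, fun a a' haa => ?_⟩
      have : mix β k x a = mix β k x a' := by
        funext i
        simp only [mix]
        split_ifs with h1
        · exact haa i h1
        · rfl
      simp only [this]

theorem reads_build (X : Expl β) (n : ℕ) : ∀ (R : Finset κ) (x0 x : ι → Bool), Agr β R x0 x →
    fin X n R x = R ∪ reads (build X n R x0) x := by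
  induction n with
  | zero => intro R x0 x _; simp [build, fin, reads]
  | succ n ih =>
    intro R x0 x h
    simp only [build, fin, X.loc h.symm]
    cases h1 : X.nxt R x0 with
    | none => simp [reads]
    | some k =>
      simp only [reads]
      rw [ih (insert k R) (mix β k x0 x) x (agr_mix h)]
      ext j
      simp only [Finset.mem_union, Finset.mem_insert]
      tauto

theorem subset_fin (X : Expl β) (n : ℕ) : ∀ (R : Finset κ) (x : ι → Bool), R ⊆ fin X n R x := by
  intro R x
  rw [reads_build X n R x x fun _ _ => rfl]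
  exact Finset.subset_union_left

/-- with enough steps the exploration has stopped -/
theorem nxt_fin (X : Expl β) (n : ℕ) : ∀ (R : Finset κ) (x : ι → Bool),
    Fintype.card κ ≤ n + R.card → X.nxt (fin X n R x) x = none := by
  induction n with
  | zero =>
    intro R x h
    simp only [fin]
    have hR : R = Finset.univ := by
      refine Finset.eq_univ_of_card R (le_antisymm (Finset.card_le_univ R) ?_)
      omega
    cases h1 : X.nxt R x with
    | none => rfl
    | some k => exact absurd (hR ▸ Finset.mem_univ k) (X.new h1)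
  | succ n ih =>
    intro R x h
    simp only [fin]
    cases h1 : X.nxt R x with
    | none => simpa using h1
    | some k =>
      simp only
      refine ih _ _ ?_
      rw [Finset.card_insert_of_notMem (X.new h1)]
      omega

/-- an invariant of the explored set -/
theorem fin_induction (X : Expl β) (x : ι → Bool) (P : Finset κ → Prop)
    (hs : ∀ R k, P R → X.nxt R x = some k → P (insert k R)) (n : ℕ) :
    ∀ R, P R → P (fin X n R x) := by
  induction n with
  | zero => intro R h; exact h
  | succ n ih =>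
    intro R h
    simp only [fin]
    cases h1 : X.nxt R x with
    | none => exact h
    | some k => exact ih _ (hs R k h h1)

/-- explored set -/
def Fn (X : Expl β) (x : ι → Bool) : Finset κ := fin X (Fintype.card κ) ∅ x

theorem nxt_Fn (X : Expl β) (x : ι → Bool) : X.nxt (Fn X x) x = none :=
  nxt_fin X _ _ _ (by omega)

open Classical in
/-- **OSSS for explorations** -/
theorem osss_expl (hw : IsW w) (X : Expl β) (f g : (ι → Bool) → ℝ) {C : ℝ}
    (hC : ∀ x, |f x| ≤ C) (hf : ∀ x x', Agr β (Fn X x) x x' → f x = f x') :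
    |E w (fun x => f x * g x) - E w f * E w g| ≤
      C * ∑ k, E w (fun x => if k ∈ Fn X x then 1 else 0) * Inf w β k g := by
  set x0 : ι → Bool := fun _ => true
  have h1 : ∀ x, reads (build X (Fintype.card κ) ∅ x0) x = Fn X x := by
    intro x
    unfold Fn
    rw [reads_build X _ ∅ x0 x fun i hi => absurd hi (Finset.notMem_empty _),
      Finset.empty_union]
  have h2 := osss hw g (build X (Fintype.card κ) ∅ x0) ∅ (ok_build X _ _ _) f hC
    (fun x x' h => hf x x' fun i hi => h i (by rw [h1]; exact hi))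
  refine h2.trans (le_of_eq ?_)
  congr 1
  refine Finset.sum_congr rfl fun k _ => ?_
  congr 1
  unfold δ
  congr 1
  funext x
  rw [h1]

open Classical in
/-- indicator function of an event -/
def ind (A : Set (ι → Bool)) (x : ι → Bool) : ℝ := if x ∈ A then 1 else 0

open Classical in
/-- OSSS, variance form for events -/
theorem osss_event (hw : IsW w) (X : Expl β) (A : Set (ι → Bool))
    (hA : ∀ x x', Agr β (Fn X x) x x' → (x ∈ A ↔ x' ∈ A)) :
    E w (ind A) * (1 - E w (ind A)) ≤
      1 / 2 * ∑ k, E w (ind {x | k ∈ Fn X x}) * Inf w β k (ind A) := by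
  have h1 := osss_expl hw X (fun x => ind A x - 1 / 2) (ind A) (C := 1 / 2)
    (fun x => by unfold ind; split_ifs <;> norm_num)
    (fun x x' h => by unfold ind; simp only [hA x x' h])
  have h2 : E w (fun x => (ind A x - 1 / 2) * ind A x) = 1 / 2 * E w (ind A) := by
    rw [← E_smul]
    congr 1
    funext x
    unfold ind
    split_ifs <;> norm_num
  have h3 : E w (fun x => ind A x - 1 / 2) = E w (ind A) - 1 / 2 := by
    rw [E_sub, E_const hw]
  rw [h2, h3] at h1
  have h4 : E w (ind A) * (1 - E w (ind A)) =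
      1 / 2 * E w (ind A) - (E w (ind A) - 1 / 2) * E w (ind A) := by ring
  rw [h4]
  refine (le_abs_self _).trans (h1.trans (le_of_eq ?_))
  congr 1
  refine Finset.sum_congr rfl fun k _ => ?_
  congr 2
  funext x
  unfold ind
  by_cases h5 : k ∈ Fn X x <;> simp [h5]

/-! ### clusters -/

section Cluster

variable {V : Type*} (s t : ι → V)

/-- one step along an edge with `Z` -/
def Stp (Z : ι → Prop) (u v : V) : Prop :=
  ∃ e, Z e ∧ ((u = s e ∧ v = t e) ∨ (u = t e ∧ v = s e))

/-- connection by edges with `Z` -/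
def Cn (Z : ι → Prop) (u v : V) : Prop := Relation.ReflTransGen (Stp s t Z) u v

variable {s t}

omit [Fintype ι] [DecidableEq ι] in
theorem Stp.symm {Z : ι → Prop} {u v : V} (h : Stp s t Z u v) : Stp s t Z v u := by
  obtain ⟨e, he, h⟩ := h
  exact ⟨e, he, by tauto⟩

omit [Fintype ι] [DecidableEq ι] in
theorem Cn.symm {Z : ι → Prop} {u v : V} (h : Cn s t Z u v) : Cn s t Z v u := by
  induction h with
  | refl => exact Relation.ReflTransGen.refl
  | tail _ hbc ih => exact Relation.ReflTransGen.head hbc.symm ih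

omit [Fintype ι] [DecidableEq ι] in
theorem Cn.mono {Z Z' : ι → Prop} (hZ : ∀ e, Z e → Z' e) {u v : V} (h : Cn s t Z u v) :
    Cn s t Z' u v := by
  induction h with
  | refl => exact Relation.ReflTransGen.refl
  | tail _ hbc ih =>
    obtain ⟨e, he, h⟩ := hbc
    exact Relation.ReflTransGen.tail ih ⟨e, hZ e he, h⟩

omit [Fintype ι] [DecidableEq ι] in
theorem Cn.trans {Z : ι → Prop} {u v x : V} (h : Cn s t Z u v) (h' : Cn s t Z v x) :
    Cn s t Z u x := Relation.ReflTransGen.trans h h'

/-- in the cluster of the seeds -/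
def Clu (s t : ι → V) (Sd : Set V) (Z : ι → Prop) (v : V) : Prop := ∃ u ∈ Sd, Cn s t Z u v

/-- block `k` touches the cluster of the seeds -/
def Tch (s t : ι → V) (β : ι → κ) (Sd : Set V) (Z : ι → Prop) (k : κ) : Prop :=
  ∃ e, β e = k ∧ (Clu s t Sd Z (s e) ∨ Clu s t Sd Z (t e))

open Classical in
/-- exploration of the cluster of the seeds -/
def cexpl (s t : ι → V) (β : ι → κ) (Sd : Set V) : Expl β where
  nxt R x := if h : ∃ k, k ∉ R ∧ Tch s t β Sd (fun e => β e ∈ R ∧ x e = true) k
    then some h.choose else none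
  new := by
    intro R x k h
    split_ifs at h with h1
    · rw [Option.some.injEq] at h
      exact h ▸ h1.choose_spec.1
  loc := by
    intro R x x' h
    have h1 : (fun e => β e ∈ R ∧ x e = true) = fun e => β e ∈ R ∧ x' e = true := by
      funext e
      by_cases he : β e ∈ R
      · simp only [he, h e he]
      · simp only [he, false_and]
    simp only [h1]

variable {Sd : Set V}

theorem cexpl_nxt_some {R : Finset κ} {x : ι → Bool} {k : κ}
    (h : (cexpl s t β Sd).nxt R x = some k) :
    Tch s t β Sd (fun e => β e ∈ R ∧ x e = true) k := by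
  simp only [cexpl] at h
  split_ifs at h with h1
  · rw [Option.some.injEq] at h
    exact h ▸ h1.choose_spec.2

theorem cexpl_nxt_none {R : Finset κ} {x : ι → Bool}
    (h : (cexpl s t β Sd).nxt R x = none) {k : κ}
    (hk : Tch s t β Sd (fun e => β e ∈ R ∧ x e = true) k) : k ∈ R := by
  simp only [cexpl] at h
  split_ifs at h with h1
  by_contra h2
  exact h1 ⟨k, h2, hk⟩

/-- the explored blocks touch the cluster -/
theorem mem_Fn {x : ι → Bool} {k : κ} (h : k ∈ Fn (cexpl s t β Sd) x) :
    Tch s t β Sd (fun e => x e = true) k := by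
  have h1 := fin_induction (cexpl s t β Sd) x
    (fun R => ∀ k ∈ R, Tch s t β Sd (fun e => x e = true) k) (fun R k hR hk j hj => by
      rcases Finset.mem_insert.1 hj with rfl | hj
      · obtain ⟨e, he, h⟩ := cexpl_nxt_some hk
        refine ⟨e, he, h.imp ?_ ?_⟩
        · rintro ⟨u, hu, h⟩
          exact ⟨u, hu, h.mono fun e he => he.2⟩
        · rintro ⟨u, hu, h⟩
          exact ⟨u, hu, h.mono fun e he => he.2⟩
      · exact hR j hj) (Fintype.card κ) ∅ (fun k hk => absurd hk (Finset.notMem_empty k))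
  exact h1 k h

/-- edges at the cluster are explored, so the cluster is determined -/
theorem clu_det {x x' : ι → Bool} (h : Agr β (Fn (cexpl s t β Sd) x) x x') {v : V}
    (hv : Clu s t Sd (fun e => x' e = true) v) :
    Clu s t Sd (fun e => β e ∈ Fn (cexpl s t β Sd) x ∧ x e = true) v := by
  obtain ⟨u, hu, h1⟩ := hv
  induction h1 with
  | refl => exact ⟨u, hu, Relation.ReflTransGen.refl⟩
  | @tail b c hb hbc ih =>
    obtain ⟨e, he, h2⟩ := hbc
    have h3 : β e ∈ Fn (cexpl s t β Sd) x := by
      refine cexpl_nxt_none (nxt_Fn (cexpl s t β Sd) x) ⟨e, rfl, ?_⟩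
      rcases h2 with ⟨rfl, -⟩ | ⟨rfl, -⟩
      · exact Or.inl ih
      · exact Or.inr ih
    have he : x' e = true := he
    obtain ⟨u', hu', h4⟩ := ih
    exact ⟨u', hu', h4.tail ⟨e, ⟨h3, (h e h3).trans he⟩, h2⟩⟩

/-- connections inside the cluster of the seeds are determined -/
theorem cn_det {x x' : ι → Bool} (h : Agr β (Fn (cexpl s t β Sd) x) x x') {u v : V}
    (hu : Clu s t Sd (fun e => x' e = true) u) (huv : Cn s t (fun e => x' e = true) u v) :
    Cn s t (fun e => x e = true) u v := by
  induction huv with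
  | refl => exact Relation.ReflTransGen.refl
  | @tail b c hb hbc ih =>
    obtain ⟨e, he, h2⟩ := hbc
    have he : x' e = true := he
    obtain ⟨u0, hu0, h0⟩ := hu
    have h5 := clu_det h ⟨u0, hu0, h0.trans hb⟩
    have h3 : β e ∈ Fn (cexpl s t β Sd) x := by
      refine cexpl_nxt_none (nxt_Fn (cexpl s t β Sd) x) ⟨e, rfl, ?_⟩
      rcases h2 with ⟨rfl, -⟩ | ⟨rfl, -⟩
      · exact Or.inl h5
      · exact Or.inr h5
    exact ih.tail ⟨e, (h e h3).trans he, h2⟩

/-- the explored set is determined by itself -/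
theorem fin_agr (X : Expl β) (n : ℕ) : ∀ (R : Finset κ) (x x' : ι → Bool),
    Agr β (fin X n R x) x x' → fin X n R x' = fin X n R x := by
  induction n with
  | zero => intro R x x' _; rfl
  | succ n ih =>
    intro R x x' h
    have h1 : X.nxt R x = X.nxt R x' := X.loc (h.mono (subset_fin X (n + 1) R x))
    simp only [fin] at h ⊢
    rw [← h1]
    cases h2 : X.nxt R x with
    | none => rfl
    | some k =>
      simp only [h2] at h
      exact ih _ _ _ h

theorem Fn_agr (X : Expl β) {x x' : ι → Bool} (h : Agr β (Fn X x) x x') : Fn X x' = Fn X x :=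
  fin_agr X _ _ _ _ h

variable (s t) in
/-- connection event -/
def ConE (A B : Set V) : Set (ι → Bool) :=
  {x | ∃ a ∈ A, ∃ b ∈ B, Cn s t (fun e => x e = true) a b}

theorem conE_det {A B : Set V}
    (hsep : ∀ x ∈ ConE s t A B, ∃ a ∈ A, ∃ b ∈ B, ∃ u ∈ Sd,
      Cn s t (fun e => x e = true) u a ∧ Cn s t (fun e => x e = true) a b)
    {x x' : ι → Bool} (h : Agr β (Fn (cexpl s t β Sd) x) x x') (hx : x' ∈ ConE s t A B) :
    x ∈ ConE s t A B := by
  obtain ⟨a, ha, b, hb, u, hu, h1, h2⟩ := hsep x' hx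
  exact ⟨a, ha, b, hb, cn_det h ⟨u, hu, h1⟩ h2⟩

/-- touching event -/
def TchE (s t : ι → V) (β : ι → κ) (Sd : Set V) (k : κ) : Set (ι → Bool) :=
  {x | Tch s t β Sd (fun e => x e = true) k}

theorem ind_mono {A B : Set (ι → Bool)} (h : A ⊆ B) (x : ι → Bool) : ind A x ≤ ind B x := by
  unfold ind
  by_cases h1 : x ∈ A
  · rw [if_pos h1, if_pos (h h1)]
  · rw [if_neg h1]; split_ifs <;> norm_num

/-- **OSSS for connection events**: every connection from `A` to `B` visits the seeds -/
theorem osss_cluster (hw : IsW w) {A B : Set V}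
    (hsep : ∀ x ∈ ConE s t A B, ∃ a ∈ A, ∃ b ∈ B, ∃ u ∈ Sd,
      Cn s t (fun e => x e = true) u a ∧ Cn s t (fun e => x e = true) a b) :
    E w (ind (ConE s t A B)) * (1 - E w (ind (ConE s t A B))) ≤
      1 / 2 * ∑ k, E w (ind (TchE s t β Sd k)) * Inf w β k (ind (ConE s t A B)) := by
  refine (osss_event hw (cexpl s t β Sd) _ fun x x' h => ⟨fun hx => ?_, conE_det hsep h⟩).trans ?_
  · have h1 : Agr β (Fn (cexpl s t β Sd) x') x' x := by
      rw [Fn_agr _ h]
      exact h.symm
    exact conE_det hsep h1 hx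
  · refine mul_le_mul_of_nonneg_left ?_ (by norm_num)
    refine Finset.sum_le_sum fun k _ => ?_
    refine mul_le_mul_of_nonneg_right ?_ (Inf_nonneg hw k _)
    have h2 : {x | k ∈ Fn (cexpl s t β Sd) x} ⊆ TchE s t β Sd k := fun x hx => mem_Fn hx
    exact E_mono hw fun x => ind_mono h2 x

/-- pivotality of a block -/
def Piv (β : ι → κ) (k : κ) (A : Set (ι → Bool)) : Set (ι → Bool) :=
  {x | ∃ x', (∀ i, β i ≠ k → x' i = x i) ∧ ¬(x' ∈ A ↔ x ∈ A)}

theorem Inf_le_piv (hw : IsW w) (k : κ) (A : Set (ι → Bool)) :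
    Inf w β k (ind A) ≤ E w (ind (Piv β k A)) := by
  unfold Inf
  have h1 : ∀ a, E w (fun x => |ind A (mix β k x a) - ind A x|) ≤ E w (ind (Piv β k A)) := by
    intro a
    refine E_mono hw fun x => ?_
    have h2 : ∀ i, β i ≠ k → mix β k x a i = x i := fun i hi => by simp [mix, hi]
    by_cases h3 : mix β k x a ∈ A <;> by_cases h4 : x ∈ A
    · have : ind A (mix β k x a) - ind A x = 0 := by simp [ind, h3, h4]
      rw [this, abs_zero]
      unfold ind; split_ifs <;> norm_num
    · have h5 : x ∈ Piv β k A := ⟨_, h2, by tauto⟩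
      simp [ind, h3, h4, h5]
    · have h5 : x ∈ Piv β k A := ⟨_, h2, by tauto⟩
      simp [ind, h3, h4, h5]
    · have : ind A (mix β k x a) - ind A x = 0 := by simp [ind, h3, h4]
      rw [this, abs_zero]
      unfold ind; split_ifs <;> norm_num
  calc ∑ a, W w a * E w (fun x => |ind A (mix β k x a) - ind A x|)
      ≤ ∑ a, W w a * E w (ind (Piv β k A)) :=
        Finset.sum_le_sum fun a _ => mul_le_mul_of_nonneg_left (h1 a) (W_nonneg hw a)
    _ = _ := by rw [← Finset.sum_mul, sum_W hw, one_mul]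

/-- **averaged OSSS for connection events** -/
theorem osss_avg (hw : IsW w) {A B : Set V} {γ : Type*} (J : Finset γ) (hJ : J.Nonempty)
    (Sd : γ → Set V)
    (hsep : ∀ j ∈ J, ∀ x ∈ ConE s t A B, ∃ a ∈ A, ∃ b ∈ B, ∃ u ∈ Sd j,
      Cn s t (fun e => x e = true) u a ∧ Cn s t (fun e => x e = true) a b) :
    E w (ind (ConE s t A B)) * (1 - E w (ind (ConE s t A B))) ≤
      1 / 2 * ∑ k, ((∑ j ∈ J, E w (ind (TchE s t β (Sd j) k))) / J.card) *
        E w (ind (Piv β k (ConE s t A B))) := by
  have hJ0 : (0 : ℝ) < J.card := by exact_mod_cast hJ.card_pos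
  have h1 : ∀ j ∈ J, E w (ind (ConE s t A B)) * (1 - E w (ind (ConE s t A B))) ≤
      1 / 2 * ∑ k, E w (ind (TchE s t β (Sd j) k)) * E w (ind (Piv β k (ConE s t A B))) := by
    intro j hj
    refine (osss_cluster (β := β) hw (hsep j hj)).trans ?_
    refine mul_le_mul_of_nonneg_left ?_ (by norm_num)
    refine Finset.sum_le_sum fun k _ => ?_
    exact mul_le_mul_of_nonneg_left (Inf_le_piv hw k _)
      (E_nonneg hw fun x => by unfold ind; split_ifs <;> norm_num)
  have h2 := Finset.sum_le_sum h1
  rw [Finset.sum_const, nsmul_eq_mul] at h2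
  have h3 : ∑ j ∈ J, 1 / 2 * ∑ k, E w (ind (TchE s t β (Sd j) k)) *
      E w (ind (Piv β k (ConE s t A B))) =
      J.card * (1 / 2 * ∑ k, ((∑ j ∈ J, E w (ind (TchE s t β (Sd j) k))) / J.card) *
        E w (ind (Piv β k (ConE s t A B)))) := by
    rw [← Finset.mul_sum, Finset.sum_comm]
    simp only [← Finset.sum_mul]
    rw [mul_left_comm, Finset.mul_sum (a := (J.card : ℝ))]
    congr 1
    refine Finset.sum_congr rfl fun k _ => ?_
    field_simp
  rw [h3] at h2
  exact le_of_mul_le_mul_left h2 hJ0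

end Cluster

end Crest.Agent.R158.Os488
end
private theorem rz_88f6b87ce0 : type_of% @_root_.Crest.Agent.R158.Os488.build.eq_def := @_root_.Crest.Agent.R158.Os488.build.eq_def -- L54
private theorem rz_969751467e : type_of% @_root_.Crest.Agent.R158.Os488.build.eq_1 := @_root_.Crest.Agent.R158.Os488.build.eq_1 -- L54
private theorem rz_b88e03e4dd : type_of% @_root_.Crest.Agent.R158.Os488.fin.eq_def := @_root_.Crest.Agent.R158.Os488.fin.eq_def -- L62
private theorem rz_f186312b03 : type_of% @_root_.Crest.Agent.R158.Os488.fin.eq_1 := @_root_.Crest.Agent.R158.Os488.fin.eq_1 -- L62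
end

-- ▼ part R158/Os3_488
section

/-!
# Row 158, Block OS (helper488): block OSSS for `PB w` (product Bernoulli law of Rs1_689)

`s t : ι → V` end points of the edges, `β : ι → κ` blocks, `S` finite set of edges.
* `CnS s t S z u v`  : connection by open edges of `S`
* `ConS s t S A B`   : `A` connected to `B` inside `S`
* `TchS s t β S Sd k`: block `k` has an edge (in `S`) with an end point connected to `Sd` in `S`
* `PivS β k A`       : block `k` is pivotal for `A`
* `osss_PB`          : averaged block OSSS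
-/

set_option autoImplicit false
set_option linter.unusedSectionVars false

noncomputable section

namespace Crest.Agent.R158.Os488

open MeasureTheory unitInterval Crest.Agent.R158.Rs689

variable {ι κ V : Type*} (s t : ι → V) (β : ι → κ) (S : Finset ι)

/-- connection by open edges of `S` -/
def CnS (z : ι → Bool) (u v : V) : Prop := Cn s t (fun e => e ∈ S ∧ z e = true) u v

/-- connection event -/
def ConS (A B : Set V) : Set (ι → Bool) := {z | ∃ a ∈ A, ∃ b ∈ B, CnS s t S z a b}

/-- block `k` touches the cluster of `Sd` -/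
def TchS (Sd : Set V) (k : κ) : Set (ι → Bool) :=
  {z | ∃ e ∈ S, β e = k ∧ ∃ u ∈ Sd, CnS s t S z u (s e) ∨ CnS s t S z u (t e)}

/-- block `k` is pivotal for `A` -/
def PivS (k : κ) (A : Set (ι → Bool)) : Set (ι → Bool) :=
  {z | ∃ z', (∀ i, β i ≠ k → z' i = z i) ∧ ¬(z' ∈ A ↔ z ∈ A)}

variable {s t β S}

theorem cnS_congr {z z' : ι → Bool} (h : ∀ e ∈ S, z e = z' e) {u v : V} :
    CnS s t S z u v ↔ CnS s t S z' u v := by
  have h1 : (fun e => e ∈ S ∧ z e = true) = fun e => e ∈ S ∧ z' e = true := by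
    funext e
    by_cases he : e ∈ S
    · simp only [he, h e he]
    · simp only [he, false_and]
  unfold CnS
  rw [h1]

theorem dep_conS (A B : Set V) : Dep S (ConS s t S A B) := fun z z' h => by
  simp only [ConS, Set.mem_ofPred_eq, cnS_congr h]



/-! ### restriction to `S` -/

/-- weights on the coordinates of `S` -/
def wS (w : ι → I) (S : Finset ι) (e : S) (b : Bool) : ℝ := (bern (w e)).real {b}

theorem isW_wS (w : ι → I) : IsW (wS w S) where
  nn _ _ := measureReal_nonneg
  one e := by
    simp only [wS]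
    rw [bern_real_true, bern_real_false]
    ring

variable [DecidableEq ι]

theorem real_eq_E (w : ι → I) {A : Set (ι → Bool)} {A' : Set (S → Bool)}
    (h : ∀ z, z ∈ A ↔ S.restrict z ∈ A') : (PB w).real A = E (wS w S) (ind A') := by
  classical
  have hA : Dep S A := fun z z' hz => by
    rw [h, h]
    have : S.restrict z = S.restrict z' := funext fun e => hz e e.2
    rw [this]
  rw [PB_real_eq w hA]
  unfold E
  refine Finset.sum_congr (by ext; simp) fun y _ => ?_
  have h1 : (y ∈ trc S A) ↔ y ∈ A' := by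
    constructor
    · rintro ⟨z, hz, hy⟩
      have : S.restrict z = y := funext fun e => hy e
      rw [← this]
      exact (h z).1 hz
    · intro hy
      refine ⟨fun e => if he : e ∈ S then y ⟨e, he⟩ else false, ?_, fun e => by simp⟩
      rw [h]
      have : S.restrict (fun e => if he : e ∈ S then y ⟨e, he⟩ else false) = y := by
        funext e
        simp
      rw [this]
      exact hy
  unfold ind
  simp only [h1]
  rfl

/-- the blocks met by `S` -/
abbrev Kp (β : ι → κ) (S : Finset ι) [DecidableEq κ] : Type _ := {k // k ∈ S.image β}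

variable [DecidableEq κ]

/-- block map on `S` -/
def bS (β : ι → κ) (S : Finset ι) (e : S) : Kp β S := ⟨β e, Finset.mem_image_of_mem β e.2⟩

omit [DecidableEq ι] in
theorem cnS_iff {z : ι → Bool} {u v : V} :
    CnS s t S z u v ↔
      Cn (fun e : S => s e) (fun e : S => t e) (fun e : S => S.restrict z e = true) u v := by
  have h1 : ∀ a b : V, Stp s t (fun e => e ∈ S ∧ z e = true) a b ↔
      Stp (fun e : S => s e) (fun e : S => t e) (fun e : S => S.restrict z e = true) a b := by
    intro a b
    constructor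
    · rintro ⟨e, ⟨he, hz⟩, h⟩
      exact ⟨⟨e, he⟩, hz, h⟩
    · rintro ⟨e, hz, h⟩
      exact ⟨e, ⟨e.2, hz⟩, h⟩
  have h2 : Stp s t (fun e => e ∈ S ∧ z e = true) =
      Stp (fun e : S => s e) (fun e : S => t e) (fun e : S => S.restrict z e = true) := by
    funext a b
    exact propext (h1 a b)
  unfold CnS Cn
  rw [h2]

omit [DecidableEq ι] in
theorem conS_iff {A B : Set V} {z : ι → Bool} :
    z ∈ ConS s t S A B ↔
      S.restrict z ∈ ConE (fun e : S => s e) (fun e : S => t e) A B := by
  simp only [ConS, ConE, Set.mem_ofPred_eq, cnS_iff]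

theorem tchS_iff {Sd : Set V} (k : Kp β S) {z : ι → Bool} :
    z ∈ TchS s t β S Sd k.1 ↔
      S.restrict z ∈ TchE (fun e : S => s e) (fun e : S => t e) (bS β S) Sd k := by
  simp only [TchS, TchE, Tch, Clu, Set.mem_ofPred_eq, cnS_iff]
  constructor
  · rintro ⟨e, he, hk, u, hu, h⟩
    refine ⟨⟨e, he⟩, Subtype.ext hk, ?_⟩
    exact h.imp (fun h => ⟨u, hu, h⟩) fun h => ⟨u, hu, h⟩
  · rintro ⟨e, he, h⟩
    have hk : β e = k.1 := congrArg Subtype.val he
    rcases h with ⟨u, hu, h⟩ | ⟨u, hu, h⟩
    · exact ⟨e, e.2, hk, u, hu, Or.inl h⟩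
    · exact ⟨e, e.2, hk, u, hu, Or.inr h⟩

theorem pivS_iff (k : Kp β S) {A : Set (ι → Bool)} {A' : Set (S → Bool)}
    (h : ∀ z, z ∈ A ↔ S.restrict z ∈ A') {z : ι → Bool} :
    z ∈ PivS β k.1 A ↔ S.restrict z ∈ Piv (bS β S) k A' := by
  constructor
  · rintro ⟨z', hz', hn⟩
    refine ⟨S.restrict z', fun i hi => hz' i fun hk => hi (Subtype.ext hk), ?_⟩
    rw [← h, ← h]
    exact hn
  · rintro ⟨y, hy, hn⟩
    refine ⟨fun e => if he : e ∈ S then y ⟨e, he⟩ else z e, fun i hi => ?_, ?_⟩
    · show (if he : i ∈ S then y ⟨i, he⟩ else z i) = z i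
      split_ifs with h1
      · exact hy ⟨i, h1⟩ fun hk => hi (congrArg Subtype.val hk)
      · rfl
    · rw [h, h]
      have : S.restrict (fun e => if he : e ∈ S then y ⟨e, he⟩ else z e) = y := by
        funext e
        simp
      rw [this]
      exact hn

/-- **Block OSSS for connection events**, averaged over a finite family of seed sets -/
theorem osss_PB (w : ι → I) (β : ι → κ) {A B : Set V} {γ : Type*} (J : Finset γ)
    (hJ : J.Nonempty) (Sd : γ → Set V)
    (hsep : ∀ j ∈ J, ∀ z ∈ ConS s t S A B, ∃ a ∈ A, ∃ b ∈ B, ∃ u ∈ Sd j,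
      CnS s t S z u a ∧ CnS s t S z a b) :
    (PB w).real (ConS s t S A B) * (1 - (PB w).real (ConS s t S A B)) ≤
      1 / 2 * ∑ k ∈ S.image β, ((∑ j ∈ J, (PB w).real (TchS s t β S (Sd j) k)) / J.card) *
        (PB w).real (PivS β k (ConS s t S A B)) := by
  have h1 := osss_avg (w := wS w S) (β := bS β S) (s := fun e : S => s e) (t := fun e : S => t e)
    (isW_wS w) (A := A) (B := B) J hJ Sd (by
      intro j hj y hy
      obtain ⟨a, ha, b, hb, u, hu, h2, h3⟩ := hsep j hj
        (fun e => if he : e ∈ S then y ⟨e, he⟩ else false) (by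
          rw [conS_iff]
          have : S.restrict (fun e => if he : e ∈ S then y ⟨e, he⟩ else false) = y := by
            funext e
            simp
          rw [this]
          exact hy)
      have h4 : S.restrict (fun e => if he : e ∈ S then y ⟨e, he⟩ else false) = y := by
        funext e
        simp
      rw [cnS_iff, h4] at h2 h3
      exact ⟨a, ha, b, hb, u, hu, h2, h3⟩)
  rw [real_eq_E w (fun z => conS_iff (s := s) (t := t) (A := A) (B := B)),
    ← Finset.sum_coe_sort (S.image β)]
  refine h1.trans (le_of_eq ?_)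
  congr 1
  refine Finset.sum_congr rfl fun k _ => ?_
  rw [real_eq_E w (fun z => pivS_iff k (fun z => conS_iff (s := s) (t := t) (A := A) (B := B)))]
  congr 2
  refine Finset.sum_congr rfl fun j _ => ?_
  rw [real_eq_E w (fun z => tchS_iff k)]

/-- **Consequence**: averaged revealments `≤ δ` force many pivotal blocks -/
theorem sum_piv_ge (w : ι → I) (β : ι → κ) {A B : Set V} {γ : Type*} (J : Finset γ)
    (hJ : J.Nonempty) (Sd : γ → Set V)
    (hsep : ∀ j ∈ J, ∀ z ∈ ConS s t S A B, ∃ a ∈ A, ∃ b ∈ B, ∃ u ∈ Sd j,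
      CnS s t S z u a ∧ CnS s t S z a b) {d : ℝ} (hd : 0 < d)
    (hrev : ∀ k ∈ S.image β, ∑ j ∈ J, (PB w).real (TchS s t β S (Sd j) k) ≤ J.card * d) :
    2 * ((PB w).real (ConS s t S A B) * (1 - (PB w).real (ConS s t S A B))) / d ≤
      ∑ k ∈ S.image β, (PB w).real (PivS β k (ConS s t S A B)) := by
  have hJ0 : (0 : ℝ) < J.card := by exact_mod_cast hJ.card_pos
  have h1 := osss_PB (s := s) (t := t) (S := S) w β (A := A) (B := B) J hJ Sd hsep
  have h2 : ∑ k ∈ S.image β, ((∑ j ∈ J, (PB w).real (TchS s t β S (Sd j) k)) / J.card) *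
        (PB w).real (PivS β k (ConS s t S A B)) ≤
      d * ∑ k ∈ S.image β, (PB w).real (PivS β k (ConS s t S A B)) := by
    rw [Finset.mul_sum]
    refine Finset.sum_le_sum fun k hk => ?_
    refine mul_le_mul_of_nonneg_right ?_ measureReal_nonneg
    rw [div_le_iff₀ hJ0]
    linarith [hrev k hk]
  rw [div_le_iff₀ hd]
  nlinarith

end Crest.Agent.R158.Os488
end
end

-- ▼ part R158/Os4_488

/-!
# Row 158, Block OS (helper488): block revealment and pivotal blocks of rectangle crossings

Rectangle `[a,b] × [c,d]`, `rS a b c d` its edges, blocks `blk m e = (⌊x/m⌋, ⌊y/m⌋)`, `(x,y) = src e`.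
* `lr_conS` : the left-right crossing as a connection event of `Os3_488`
* `tch_sub_arm` : if column `j` touches block `k` then `ArmX (m k) m |j - m k.1|`
* `piv_blocks` : with `f = P_p(LR crossing)`, for every `ρ`,
  `2 f (1-f) ≤ ((2ρ+1)/(b-a+1) + P_p(ArmX 0 m ρ)) * ∑ₖ P_p(block k pivotal)`
* `piv_blocks_pow` : the same from a one-arm bound `P_p(ArmX 0 m R) ≤ C (m/R)^α` for `R ≤ N`
-/

set_option autoImplicit false

noncomputable section

namespace Crest.Agent.R158.Os488

open MeasureTheory unitInterval Crest.Agent.R158.Rs689 Crest.Agent.R158.Fr158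
open Crest.Agent.R161.Geo729 Crest.Agent.R161.Topo374 Crest.Agent.R161.Dual374
open Crest.Agent.R161.Tas682

/-- vertices of the rectangle -/
def rV (a b c d : ℤ) : Finset P2 := Finset.Icc a b ×ˢ Finset.Icc c d

theorem mem_rV {a b c d : ℤ} {v : P2} : v ∈ rV a b c d ↔ v ∈ Rect a b c d := by
  unfold rV Rect
  rw [Finset.mem_product, Finset.mem_Icc, Finset.mem_Icc]
  exact ⟨fun h => ⟨h.1.1, h.1.2, h.2.1, h.2.2⟩, fun h => ⟨⟨h.1, h.2.1⟩, h.2.2.1, h.2.2.2⟩⟩

/-- edges of the rectangle -/
def rS (a b c d : ℤ) : Finset Edge := eIn (rV a b c d)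

/-- block of an edge -/
def blk (m : ℕ) (e : Edge) : P2 := ((src e).1 / (m : ℤ), (src e).2 / (m : ℤ))

/-- left side, right side, columns -/
def colR (a b c d j : ℤ) : Set P2 := {v | v.1 = j ∧ v ∈ Rect a b c d}

theorem cnS_iff_oc {a b c d : ℤ} {z : Cf} {u v : P2} (hu : u ∈ Rect a b c d) :
    CnS src tgt (rS a b c d) z u v ↔ OC z (Rect a b c d) u v := by
  constructor
  · intro h
    refine ⟨hu, ?_⟩
    unfold CnS Cn at h
    induction h with
    | refl => exact .refl
    | tail _ h1 ih =>
      obtain ⟨e, ⟨he, hz⟩, h2⟩ := h1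
      have h3 := mem_eIn.1 he
      rw [mem_rV, mem_rV] at h3
      refine ih.tail ⟨⟨e, hz, h2⟩, ?_⟩
      rcases h2 with ⟨rfl, rfl⟩ | ⟨rfl, rfl⟩
      · exact h3
      · exact h3.symm
  · rintro ⟨-, h⟩
    unfold CnS Cn
    induction h with
    | refl => exact .refl
    | tail _ h1 ih =>
      obtain ⟨⟨e, hz, h2⟩, h3, h4⟩ := h1
      refine ih.tail ⟨e, ⟨mem_eIn.2 ?_, hz⟩, h2⟩
      rw [mem_rV, mem_rV]
      rcases h2 with ⟨rfl, rfl⟩ | ⟨rfl, rfl⟩
      · exact ⟨h3, h4⟩
      · exact ⟨h4, h3⟩

theorem lr_conS (a b c d : ℤ) :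
    {z : Cf | LRc z a b c d} =
      ConS src tgt (rS a b c d) (colR a b c d a) (colR a b c d b) := by
  ext z
  constructor
  · rintro ⟨u, v, hu, hv, h⟩
    exact ⟨u, ⟨hu, h.1⟩, v, ⟨hv, h.right⟩, (cnS_iff_oc h.1).2 h⟩
  · rintro ⟨u, ⟨hu, hu'⟩, v, ⟨hv, hv'⟩, h⟩
    exact ⟨u, v, hu, hv, (cnS_iff_oc hu').1 h⟩

/-- every left-right crossing visits every column -/
theorem lr_sep {a b c d j : ℤ} (haj : a ≤ j) (hjb : j ≤ b) {z : Cf}
    (hz : z ∈ ConS src tgt (rS a b c d) (colR a b c d a) (colR a b c d b)) :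
    ∃ u ∈ colR a b c d a, ∃ v ∈ colR a b c d b, ∃ w ∈ colR a b c d j,
      CnS src tgt (rS a b c d) z w u ∧ CnS src tgt (rS a b c d) z u v := by
  obtain ⟨u, hu, v, hv, h⟩ := hz
  have h1 := (cnS_iff_oc hu.2).1 h
  obtain ⟨w, hw, h2⟩ := first_hit (fun p => p.1) (fun x y hxy => by unfold Nbr at hxy; omega) j h1
    (by have := hu.1; omega) (by have := hv.1; omega)
  have h3 : OC z (Rect a b c d) u w := h2.monoS fun p hp => hp.1
  refine ⟨u, hu, v, hv, w, ⟨hw, h3.right⟩, ?_, h⟩
  exact (cnS_iff_oc h3.right).2 h3.symm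

/-- connections inside the rectangle are connections -/
theorem rch_of_cnS {S : Finset Edge} {z : Cf} {u v : P2} (h : CnS src tgt S z u v) :
    Rch z u v := by
  unfold CnS Cn at h
  induction h with
  | refl => exact .refl
  | tail _ h1 ih =>
    obtain ⟨e, ⟨_, hz⟩, h2⟩ := h1
    exact ih.tail ⟨e, hz, h2⟩

/-- corner of a block -/
def corner (m : ℕ) (k : P2) : P2 := ((m : ℤ) * k.1, (m : ℤ) * k.2)

theorem tch_sub_arm {m : ℕ} (hm : 1 ≤ m) {S : Finset Edge} {Sd : Set P2} {j : ℤ}
    (hSd : ∀ v ∈ Sd, v.1 = j) (k : P2) {r : ℕ} (hr : (r : ℤ) ≤ |j - (m : ℤ) * k.1|) :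
    TchS src tgt (blk m) S Sd k ⊆ ArmX (corner m k) m r := by
  rintro z ⟨e, -, hk, u, hu, h⟩
  have hm0 : (0 : ℤ) < m := by exact_mod_cast hm
  have h1 : (src e).1 / (m : ℤ) = k.1 := congrArg Prod.fst hk
  have h2 : (src e).2 / (m : ℤ) = k.2 := congrArg Prod.snd hk
  have h3 := Int.emod_nonneg (src e).1 hm0.ne'
  have h4 := Int.emod_lt_of_pos (src e).1 hm0
  have h5 := Int.emod_nonneg (src e).2 hm0.ne'
  have h6 := Int.emod_lt_of_pos (src e).2 hm0
  have h7 := Int.mul_ediv_add_emod (src e).1 m
  have h8 := Int.mul_ediv_add_emod (src e).2 m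
  rw [h1] at h7
  rw [h2] at h8
  have hs : |(src e).1 - (corner m k).1| ≤ (m : ℤ) ∧ |(src e).2 - (corner m k).2| ≤ (m : ℤ) := by
    simp only [corner]
    constructor <;> rw [abs_le] <;> constructor <;> linarith
  have ht : |(tgt e).1 - (corner m k).1| ≤ (m : ℤ) ∧ |(tgt e).2 - (corner m k).2| ≤ (m : ℤ) := by
    obtain ⟨⟨x, y⟩, b⟩ := e
    simp only [corner, src] at *
    cases b
    · rw [tgt_h]
      simp only
      constructor <;> rw [abs_le] <;> constructor <;> linarith
    · rw [tgt_v]
      simp only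
      constructor <;> rw [abs_le] <;> constructor <;> linarith
  have hu' : (r : ℤ) ≤ |u.1 - (corner m k).1| := by
    rw [hSd u hu]
    exact hr
  rcases h with h | h
  · exact ⟨src e, u, hs.1, hs.2, Or.inl hu', rch_of_cnS h.symm⟩
  · exact ⟨tgt e, u, ht.1, ht.2, Or.inl hu', rch_of_cnS h.symm⟩

theorem card_near (x : ℤ) (ρ : ℕ) (J : Finset ℤ) :
    ((J.filter fun j => |j - x| < (ρ : ℤ)).card : ℝ) ≤ 2 * ρ + 1 := by
  have h1 : (J.filter fun j => |j - x| < (ρ : ℤ)) ⊆ Finset.Icc (x - ρ) (x + ρ) := by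
    intro j hj
    rw [Finset.mem_filter, abs_lt] at hj
    rw [Finset.mem_Icc]
    omega
  have h2 := Finset.card_le_card h1
  rw [Int.card_Icc] at h2
  have h3 : (x + ρ + 1 - (x - ρ)).toNat = 2 * ρ + 1 := by omega
  rw [h3] at h2
  exact_mod_cast h2

/-- sum of the revealment probabilities over the seed columns -/
theorem rev_sum (p : I) {m ρ : ℕ} (hm : 1 ≤ m) (S : Finset Edge) (J : Finset ℤ)
    (Sd : ℤ → Set P2) (hSd : ∀ j, ∀ v ∈ Sd j, v.1 = j) (k : P2) :
    ∑ j ∈ J, (PB fun _ : Edge => p).real (TchS src tgt (blk m) S (Sd j) k) ≤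
      (2 * ρ + 1) + J.card * (Rs689.nu p).real (ArmX (0, 0) m ρ) := by
  classical
  rw [← Finset.sum_filter_add_sum_filter_not J fun j => |j - (m : ℤ) * k.1| < (ρ : ℤ)]
  refine add_le_add ?_ ?_
  · refine le_trans ?_ (card_near ((m : ℤ) * k.1) ρ J)
    rw [← nsmul_one (Finset.card _)]
    refine Finset.sum_le_card_nsmul _ _ _ fun j _ => measureReal_le_one
  · calc ∑ j ∈ J.filter fun j => ¬|j - (m : ℤ) * k.1| < (ρ : ℤ),
          (PB fun _ : Edge => p).real (TchS src tgt (blk m) S (Sd j) k)
        ≤ ∑ _j ∈ J.filter fun j => ¬|j - (m : ℤ) * k.1| < (ρ : ℤ),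
          (Rs689.nu p).real (ArmX (0, 0) m ρ) := by
          refine Finset.sum_le_sum fun j hj => ?_
          rw [Finset.mem_filter, not_lt] at hj
          rw [← armX_prob p (corner m k)]
          exact measureReal_mono (tch_sub_arm hm (hSd j) k hj.2)
      _ ≤ J.card * (Rs689.nu p).real (ArmX (0, 0) m ρ) := by
          rw [Finset.sum_const, nsmul_eq_mul]
          refine mul_le_mul_of_nonneg_right ?_ measureReal_nonneg
          exact_mod_cast Finset.card_filter_le _ _

/-- **pivotal blocks of a left-right crossing** -/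
theorem piv_blocks (p : I) {a b c d : ℤ} (hab : a ≤ b) {m ρ : ℕ} (hm : 1 ≤ m) :
    2 * ((Rs689.nu p).real {z : Cf | LRc z a b c d} *
      (1 - (Rs689.nu p).real {z : Cf | LRc z a b c d})) ≤
      ((2 * ρ + 1) / ((b - a + 1 : ℤ) : ℝ) + (Rs689.nu p).real (ArmX (0, 0) m ρ)) *
        ∑ k ∈ (rS a b c d).image (blk m),
          (Rs689.nu p).real (PivS (blk m) k {z : Cf | LRc z a b c d}) := by
  classical
  set J : Finset ℤ := Finset.Icc a b with hJ
  have hJc : ((J.card : ℕ) : ℝ) = ((b - a + 1 : ℤ) : ℝ) := by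
    have h1 : ((J.card : ℕ) : ℤ) = b - a + 1 := by
      rw [hJ, Int.card_Icc]
      omega
    rw [← h1]
    simp
  have hJ0 : (0 : ℝ) < J.card := by
    rw [hJc]
    exact_mod_cast (by omega : 0 < b - a + 1)
  have hJn : J.Nonempty := Finset.nonempty_Icc.2 hab
  set D : ℝ := (2 * ρ + 1) / ((b - a + 1 : ℤ) : ℝ) + (Rs689.nu p).real (ArmX (0, 0) m ρ) with hD
  have hD0 : 0 < D := by
    have h1 : 0 ≤ (Rs689.nu p).real (ArmX (0, 0) m ρ) := measureReal_nonneg
    have h2 : 0 < (2 * (ρ : ℝ) + 1) / ((b - a + 1 : ℤ) : ℝ) := by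
      rw [← hJc]
      positivity
    linarith
  have h1 := sum_piv_ge (s := src) (t := tgt) (S := rS a b c d) (fun _ : Edge => p) (blk m)
    (A := colR a b c d a) (B := colR a b c d b) J hJn (fun j => colR a b c d j)
    (fun j hj z hz => by
      rw [hJ, Finset.mem_Icc] at hj
      obtain ⟨u, hu, v, hv, w, hw, h1, h2⟩ := lr_sep hj.1 hj.2 hz
      exact ⟨u, hu, v, hv, w, hw, h1, h2⟩) hD0
    (fun k _ => by
      refine (rev_sum p hm (rS a b c d) J (fun j => colR a b c d j) (fun j v hv => hv.1) k
        (ρ := ρ)).trans (le_of_eq ?_)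
      rw [hD, hJc, mul_add, mul_div_cancel₀]
      rw [← hJc]
      exact hJ0.ne')
  rw [div_le_iff₀ hD0, ← lr_conS, mul_comm _ D] at h1
  exact h1

/-- **pivotal blocks, power form**: from a one-arm bound up to scale `N`. -/
theorem piv_blocks_pow (p : I) {C α : ℝ} (hC : 0 ≤ C) (hα : 0 < α) (hα1 : α ≤ 1) {m N : ℕ}
    (hm : 1 ≤ m) (hmN : m ≤ N)
    (harm : ∀ R : ℕ, m ≤ R → R ≤ N →
      (Rs689.nu p).real (ArmX (0, 0) m R) ≤ C * ((m : ℝ) / R) ^ α)
    {a b c d : ℤ} (hab : (N : ℤ) ≤ b - a) :
    2 * ((Rs689.nu p).real {z : Cf | LRc z a b c d} *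
      (1 - (Rs689.nu p).real {z : Cf | LRc z a b c d})) ≤
      (4 * (C + 3)) * ((m : ℝ) / N) ^ (α / 2) *
        ∑ k ∈ (rS a b c d).image (blk m),
          (Rs689.nu p).real (PivS (blk m) k {z : Cf | LRc z a b c d}) := by
  have hm0 : (0 : ℝ) < m := by exact_mod_cast hm
  have hN0 : (0 : ℝ) < N := by exact_mod_cast (hm.trans hmN)
  have hmN' : (m : ℝ) ≤ N := by exact_mod_cast hmN
  set ρ : ℕ := Nat.sqrt (m * N) with hρ
  have hρ1 : m ≤ ρ := by
    rw [hρ, Nat.le_sqrt]
    exact Nat.mul_le_mul_left _ hmN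
  have hρ2 : ρ ≤ N := by
    have h1 : ρ ^ 2 ≤ m * N := Nat.sqrt_le' _
    have h2 : m * N ≤ N ^ 2 := by rw [pow_two]; exact Nat.mul_le_mul_right _ hmN
    exact (Nat.pow_le_pow_iff_left (by norm_num)).1 (h1.trans h2)
  have hρ0 : (0 : ℝ) < ρ := by exact_mod_cast (hm.trans hρ1)
  have hρs : (ρ : ℝ) ^ 2 ≤ m * N := by exact_mod_cast Nat.sqrt_le' (m * N)
  have hρl : (m : ℝ) * N < ((ρ : ℝ) + 1) ^ 2 := by
    have h1 : m * N < (ρ + 1) ^ 2 := Nat.lt_succ_sqrt' _
    exact_mod_cast h1
  have hab' : a ≤ b := by omega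
  have h1 := piv_blocks p (c := c) (d := d) hab' (m := m) (ρ := ρ) hm
  refine h1.trans (mul_le_mul_of_nonneg_right ?_
    (Finset.sum_nonneg fun _ _ => measureReal_nonneg))
  -- the two parts of the revealment
  set t : ℝ := (m : ℝ) / N with ht
  have ht0 : 0 < t := by positivity
  have ht1 : t ≤ 1 := by rw [ht, div_le_one hN0]; exact hmN'
  have hA : (2 * (ρ : ℝ) + 1) / ((b - a + 1 : ℤ) : ℝ) ≤ 3 * t ^ (α / 2) := by
    have h2 : (2 * (ρ : ℝ) + 1) / ((b - a + 1 : ℤ) : ℝ) ≤ (2 * (ρ : ℝ) + 1) / N := by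
      refine div_le_div_of_nonneg_left (by positivity) hN0 ?_
      have h3 : (N : ℤ) ≤ b - a + 1 := by omega
      exact_mod_cast h3
    refine h2.trans ?_
    have h3 : (2 * (ρ : ℝ) + 1) / N ≤ 3 * ((ρ : ℝ) / N) := by
      rw [← mul_div_assoc, div_le_div_iff_of_pos_right hN0]
      have : (1 : ℝ) ≤ ρ := by exact_mod_cast (hm.trans hρ1)
      linarith
    refine h3.trans (mul_le_mul_of_nonneg_left ?_ (by norm_num))
    have h4 : (ρ : ℝ) / N ≤ t ^ (1 / 2 : ℝ) := by
      rw [← Real.sqrt_eq_rpow]
      refine Real.le_sqrt_of_sq_le ?_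
      rw [div_pow, ht, div_le_div_iff₀ (by positivity) hN0]
      nlinarith
    exact h4.trans (Real.rpow_le_rpow_of_exponent_ge ht0 ht1 (by linarith))
  have hB : (Rs689.nu p).real (ArmX (0, 0) m ρ) ≤ 4 * C * t ^ (α / 2) := by
    refine (harm ρ hρ1 hρ2).trans ?_
    have h2 : (m : ℝ) / ρ ≤ 2 * t ^ (1 / 2 : ℝ) := by
      rw [← Real.sqrt_eq_rpow, ht, div_le_iff₀ hρ0]
      have h3 : Real.sqrt ((m : ℝ) / N) * Real.sqrt (m * N) = m := by
        rw [← Real.sqrt_mul (by positivity)]
        have : (m : ℝ) / N * (m * N) = m ^ 2 := by field_simp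
        rw [this, Real.sqrt_sq hm0.le]
      have h4 : Real.sqrt (m * N) ≤ 2 * ρ := by
        refine Real.sqrt_le_iff.2 ⟨by positivity, ?_⟩
        have : (1 : ℝ) ≤ ρ := by exact_mod_cast (hm.trans hρ1)
        nlinarith
      have h5 := mul_le_mul_of_nonneg_left h4 (Real.sqrt_nonneg ((m : ℝ) / N))
      rw [h3] at h5
      linarith
    have h3 : ((m : ℝ) / ρ) ^ α ≤ 2 * t ^ (α / 2) := by
      have h4 : ((m : ℝ) / ρ) ^ α ≤ (2 * t ^ (1 / 2 : ℝ)) ^ α :=
        Real.rpow_le_rpow (by positivity) h2 hα.le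
      refine h4.trans ?_
      rw [Real.mul_rpow (by norm_num) (by positivity), ← Real.rpow_mul ht0.le]
      have h5 : (1 / 2 : ℝ) * α = α / 2 := by ring
      rw [h5]
      refine mul_le_mul_of_nonneg_right ?_ (by positivity)
      calc (2 : ℝ) ^ α ≤ 2 ^ (1 : ℝ) := Real.rpow_le_rpow_of_exponent_le (by norm_num) hα1
        _ = 2 := by norm_num
    have h4 : 0 ≤ t ^ (α / 2) := by positivity
    nlinarith
  have h4 : 0 ≤ t ^ (α / 2) := by positivity
  nlinarith

end Crest.Agent.R158.Os488
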