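import Crest.Agent.R158.Pt9_266

/-!
# R158, patches (helper266), file Pt10: (E1), (E2) in a chart

* **`count_cv`, `count_rf`** (E2): a small strand around a corner is counted by helper399's `Kn`
* `box_strand`, `lift` : strands that stay in the box of a special point
* **`sv_cv`, `sv_rf`, `sv_mk`, `sv_end`** (E1): the strands counted around a special point, and the
  strand of the end `fe g p 0` if it does not leave the box, with their values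
-/

set_option autoImplicit false
set_option linter.unusedVariables false
set_option linter.unusedSectionVars false
set_option linter.unusedSimpArgs false

noncomputable section

namespace Crest.Agent.R158.Pt266

open Crest.Agent.R158.Sw300 (Port thru tn)
open Crest.Agent.R158.Xr249 (full CPath)
open Crest.Agent.R158.Nm211 (St Dir mv dx dy trn nx6 rd opp Hit KK Far)
open Crest.Agent.R158.Ka470 (Patt View Free en ex sg B1 B3 Bv Cuts)
open Crest.Agent.R158.Ad350 (tnet tql seam)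
open Crest.Agent.R158.Nz399 (Kind Tk Dk Yk Xk qd rt rs pl ps od fe we patK rq mem_Tk)

variable {T : Type*} {G : T × ZMod 4 → T × ZMod 4 → Prop} {C : Ka470.Ch T G} {s : T → Bool}
variable {x1 x2 z1 z2 : ℤ} {p : ℤ × ℤ} {pat : Bool → Bool → Bool} {g N n : ℕ}

lemma next_pos (c : St ℤ) (m : ℕ) : ((C.f s)^[m + 1] c).1 =
    (op C s ((C.f s)^[m] c)).1 + dir (op C s ((C.f s)^[m] c)).2 := by
  have := congrArg Prod.fst (ip_next (C := C) s ((C.f s)^[m] c))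
  rw [Function.iterate_succ_apply']
  exact this

lemma step4i (s' : ℤ × ℤ → Bool) (m : ℕ) (c : St ℤ) :
    (((nx6 s')^[m + 1] c).2 = 0 ∧ ((nx6 s')^[m + 1] c).1.1 = ((nx6 s')^[m] c).1.1 ∧
      ((nx6 s')^[m + 1] c).1.2 = ((nx6 s')^[m] c).1.2 + 1) ∨
    (((nx6 s')^[m + 1] c).2 = 1 ∧ ((nx6 s')^[m + 1] c).1.1 = ((nx6 s')^[m] c).1.1 + 1 ∧
      ((nx6 s')^[m + 1] c).1.2 = ((nx6 s')^[m] c).1.2) ∨
    (((nx6 s')^[m + 1] c).2 = 2 ∧ ((nx6 s')^[m + 1] c).1.1 = ((nx6 s')^[m] c).1.1 ∧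
      ((nx6 s')^[m + 1] c).1.2 = ((nx6 s')^[m] c).1.2 - 1) ∨
    (((nx6 s')^[m + 1] c).2 = 3 ∧ ((nx6 s')^[m + 1] c).1.1 = ((nx6 s')^[m] c).1.1 - 1 ∧
      ((nx6 s')^[m + 1] c).1.2 = ((nx6 s')^[m] c).1.2) := by
  rw [Function.iterate_succ_apply']
  exact step4 s' _

lemma iter_fst (g : ℕ) (p : ℤ × ℤ) (c0 : St ℤ) (j : ℕ) : ((C.f s)^[j] (ps g p c0)).1 =
    pl g p ((nx6 (stdf C s g p))^[j] c0).1 := by
  rw [iter_ps, ps_fst]

/-- **(E2), convex corners** -/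
theorem count_cv (hP : Patt C.R (Ka470.Bx x1 x2 z1 z2) p pat) (hg : g < 4) {c : St ℤ} {m : ℕ}
    {a b : ℤ} (hin : ∀ j ≤ m, ((C.f s)^[j] c).1 ∈ C.R ∧
      ((C.f s)^[j] c).1 ∈ Ka470.Bx x1 x2 z1 z2 ∧ ((C.f s)^[j] c).1 ∈ Bv n p)
    (hX : (quadB x1 x2 z1 z2 p pat).Real (fe g p a)) (ha : 0 ≤ a)
    (hY : (quadB x1 x2 z1 z2 p pat).Real (we g p b)) (hb : 0 ≤ b)
    (hc : ip c = fe g p a) (hc' : op C s ((C.f s)^[m] c) = we g p b) :
    (((a, 0), 0) : St ℤ) ∈ Xk .cv n ∧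
      Hit (nx6 (stdf C s g p)) (Dk .cv n) (Yk .cv) ((a, 0), 0) := by
  obtain rfl : c = ps g p ((a, 0), 0) := ip_inj (hc.trans (ip_floor g p a).symm)
  set it : ℕ → St ℤ := fun j => (nx6 (stdf C s g p))^[j] ((a, 0), 0) with hit
  have hpos : ∀ j, ((C.f s)^[j] (ps g p ((a, 0), 0))).1 = pl g p (it j).1 := fun j => iter_fst g p _ j
  have hstep : ∀ j, it (j + 1) = nx6 (stdf C s g p) (it j) := fun j =>
    Function.iterate_succ_apply' _ _ _
  -- the two missing quadrants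
  have hX' := ((Quad.real_iff _).1 hX).2.2.2
  have hY' := ((Quad.real_iff _).1 hY).2.2.2
  rw [fe_face, Quad.cl_qd] at hX'
  rw [we_face, Quad.cl_qd] at hY'
  have hcl : ∀ j ≤ m, (quadB x1 x2 z1 z2 p pat).cl (pl g p (it j).1) = true := fun j hj => by
    have h := (mem_quadB hP).2 ⟨(hin j hj).1, (hin j hj).2.1⟩
    rw [hpos] at h
    exact ((Quad.mem_A _).1 h).2
  have hm1 : ∀ j ≤ m, ¬ (0 ≤ (it j).1.1 ∧ (it j).1.2 < 0) := by
    rintro j hj ⟨h1, h2⟩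
    have h3 := hcl j hj
    rw [Quad.cl_qd, qd_pl_eq (w := (a, -1)) (by simp only; omega) (by simp only; omega), hX'] at h3
    cases h3
  have hm2 : ∀ j ≤ m, ¬ ((it j).1.1 < 0 ∧ 0 ≤ (it j).1.2) := by
    rintro j hj ⟨h1, h2⟩
    have h3 := hcl j hj
    rw [Quad.cl_qd, qd_pl_eq (w := (-1, b)) (by simp only; omega) (by simp only; omega), hY'] at h3
    cases h3
  have key : ∀ j ≤ m, 0 ≤ (it j).1.1 ∧ 0 ≤ (it j).1.2 := by
    intro j
    induction j with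
    | zero => intro _; exact ⟨ha, le_rfl⟩
    | succ j ih =>
      intro hj
      have h1 := ih (by omega)
      have h2 := hm1 (j + 1) hj
      have h3 := hm2 (j + 1) hj
      have h4 := step4 (stdf C s g p) (it j)
      rw [← hstep] at h4
      omega
  have hT : ∀ j ≤ m, it j ∈ Dk .cv n := by
    intro j hj
    have h1 := (hin j hj).2.2
    rw [hpos] at h1
    exact mem_Tk.2 ⟨bv_pl hg h1, key j hj⟩
  have h0 := mem_Tk.1 (hT 0 (Nat.zero_le _))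
  refine ⟨Finset.mem_image.2 ⟨a, Finset.mem_Ico.2 ⟨ha, ?_⟩, rfl⟩, m + 1, fun j hj => hT j (by omega),
    ?_⟩
  · exact h0.1.1.2
  · have h1 : ((C.f s)^[m + 1] (ps g p ((a, 0), 0))).1 = pl g p (-1, b) := by
      rw [next_pos, hc', we_face]
    rw [hpos] at h1
    have h2 := Nz399.pl_inj g p h1
    show (it (m + 1)).1.1 < 0
    rw [h2]
    norm_num


/-! ### (E1) -/

/-- strands of a region of the chart are strands of the complex -/
lemma lift (hF : ∀ v, C.F v = false) {A : Finset (ℤ × ℤ)} (hA : ∀ v ∈ A, v ∈ C.R)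
    {X Y : (ℤ × ℤ) × ZMod 4} {L : List ((ℤ × ℤ) × ZMod 4)}
    (h : Wk (s ∘ C.emb) (RG (full A)) X Y L) :
    Wk s G (mp C.emb X) (mp C.emb Y) (L.map (mp C.emb)) := by
  refine Wk.map C.emb (fun a b hab => ?_) h
  rw [rg_full] at hab
  obtain ⟨h1, h2, rfl⟩ := hab
  exact chart_glue hF (hA _ h1) (hA _ h2)

lemma quadV_sub {N : ℕ} (hP : Patt C.R (Bv N p) p pat) : ∀ v ∈ (quadV N p pat).A, v ∈ C.R :=
  fun v hv => ((mem_quadB hP).1 hv).1

variable {k : Kind}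

/-- a strand that stays in the box of a special point and leaves the region there -/
theorem box_strand (hF : ∀ v, C.F v = false) (hP : Patt C.R (Bv N p) p (patK k g))
    (hN : n + 1 ≤ N) {c0 : St ℤ} {m : ℕ}
    (h1 : ∀ j ≤ m, ((nx6 (stdf C s g p))^[j] c0).1 ∈ Tk k n)
    (h2 : ¬ qd k ((nx6 (stdf C s g p))^[m + 1] c0).1) :
    (quadV N p (patK k g)).Real (op C s ((C.f s)^[m] (ps g p c0))) ∧
      Wk (s ∘ C.emb) (RG (full (quadV N p (patK k g)).A)) (ip (ps g p c0))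
        (op C s ((C.f s)^[m] (ps g p c0)))
        ((List.range (m + 1)).map fun j => ip ((C.f s)^[j] (ps g p c0))) := by
  have hN' : (n : ℤ) + 1 ≤ N := by exact_mod_cast hN
  have hA : ∀ j ≤ m, ((C.f s)^[j] (ps g p c0)).1 ∈ (quadV N p (patK k g)).A := by
    intro j hj
    rw [iter_fst]
    have h3 := mem_Tk.1 (h1 j hj)
    exact (mem_quadV hP ⟨⟨by omega, by omega⟩, by omega, by omega⟩).2 h3.2
  have h3 := mem_Tk.1 (h1 m le_rfl)
  have h4 := step4i (stdf C s g p) m c0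
  have h5 : (-(N : ℤ) ≤ ((nx6 (stdf C s g p))^[m + 1] c0).1.1 ∧
      ((nx6 (stdf C s g p))^[m + 1] c0).1.1 < N) ∧
      -(N : ℤ) ≤ ((nx6 (stdf C s g p))^[m + 1] c0).1.2 ∧
      ((nx6 (stdf C s g p))^[m + 1] c0).1.2 < N := by omega
  refine ⟨⟨?_, ?_, ?_⟩, iter_wk hF s _ m hA⟩
  · exact hA m le_rfl
  · rw [← next_pos, iter_fst]
    exact Nz399.pl_Bv g p h5
  · rw [← next_pos, iter_fst]
    exact fun h => h2 ((mem_quadV hP h5).1 h)

/-- exit port in standard coordinates -/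
lemma op_iter (c0 : St ℤ) (m : ℕ) : op C s ((C.f s)^[m] (ps g p c0)) =
    (pl g p ((nx6 (stdf C s g p))^[m] c0).1,
      ex ((nx6 (stdf C s g p))^[m + 1] c0).2 - (g : ZMod 4)) := by
  rw [iter_ps, op_ps, Function.iterate_succ_apply']

/-- phases of the box of a special point -/
structure BoxP (C : Ka470.Ch T G) (be : Port T → Port T) (ch : Port T → ℝ) (N : ℕ) (p : ℤ × ℤ)
    (pat : Bool → Bool → Bool) (b : (ℤ × ℤ) × ZMod 4 → Bool) (cc : (ℤ × ℤ) × ZMod 4 → ℤ) :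
    Prop where
  F : ∀ v, C.F v = false
  patt : Patt C.R (Bv N p) p pat
  view : View C (Bv N p)
  rule : ∃ gg : ℤ × ℤ → ℝ, Gauge C be ch gg (quadV N p pat).A ∧
    RuleC (quadV N p pat) (fun X => ch (some (mp C.emb X)) + gg X.1) b cc

/-- a strand of the complex between free ends with a given value -/
def SV (G : T × ZMod 4 → T × ZMod 4 → Prop) (be : Port T → Port T) (ch : Port T → ℝ)
    (s : T → Bool) (x y : T × ZMod 4) (v : ℝ) : Prop :=
  ∃ l, Wk s G x y l ∧ Free G x ∧ Free G y ∧ 2 * Real.cos (wph be ch s x y l) = v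

lemma BoxP.sv {be : Port T → Port T} {ch : Port T → ℝ} {b : (ℤ × ℤ) × ZMod 4 → Bool}
    {cc : (ℤ × ℤ) × ZMod 4 → ℤ} (h : BoxP C be ch N p pat b cc) {X Y : (ℤ × ℤ) × ZMod 4}
    {L : List ((ℤ × ℤ) × ZMod 4)} (hX : (quadV N p pat).Real X) (hY : (quadV N p pat).Real Y)
    (hw : Wk (s ∘ C.emb) (RG (full (quadV N p pat).A)) X Y L) :
    ∃ D : ℤ, ((quadV N p pat).Typ X Y D ∧ b Y = b X ∧
        SV G be ch s (mp C.emb X) (mp C.emb Y) (val (b X) D (cc X - cc Y))) ∨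
      ((quadV N p pat).Typ Y X D ∧ b Y = b X ∧
        SV G be ch s (mp C.emb X) (mp C.emb Y) (val (b X) D (cc Y - cc X))) := by
  obtain ⟨gg, h1, h2⟩ := h.rule
  have f1 : Free G (mp C.emb X) := free_of_real h.F h.patt h.view hX
  have f2 : Free G (mp C.emb Y) := free_of_real h.F h.patt h.view hY
  have w := lift h.F (quadV_sub h.patt) hw
  obtain ⟨D, ⟨h3, h4, h5⟩ | ⟨h3, h4, h5⟩⟩ := phaseC h1 h2 hX hY hw
  · exact ⟨D, Or.inl ⟨h3, h4, _, w, f1, f2, h5⟩⟩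
  · exact ⟨D, Or.inr ⟨h3, h4, _, w, f1, f2, h5⟩⟩

variable {be : Port T → Port T} {ch : Port T → ℝ} {b : (ℤ × ℤ) × ZMod 4 → Bool}
  {cc : (ℤ × ℤ) × ZMod 4 → ℤ}


/-- **(E1), reflex corners** -/
theorem sv_rf (h : BoxP C be ch N p (patK .rf g) b cc) (hN : n + 1 ≤ N) {c0 : St ℤ}
    (hc : c0 ∈ Xk .rf n) (hit : Hit (nx6 (stdf C s g p)) (Dk .rf n) (Yk .rf) c0) :
    ∃ a a' : ℤ, c0 = ((0, a), 1) ∧ (-(n : ℤ) ≤ a ∧ a < 0) ∧ (-(n : ℤ) ≤ a' ∧ a' < 0) ∧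
      (quadV N p (patK .rf g)).Real (we g p a) ∧ (quadV N p (patK .rf g)).Real (fe g p a') ∧
      SV G be ch s (mp C.emb (we g p a)) (mp C.emb (fe g p a'))
        (val (b (we g p a)) (-1) (cc (we g p a) - cc (fe g p a'))) := by
  obtain ⟨a, ha, rfl⟩ := Finset.mem_image.1 hc
  rw [Finset.mem_Ico] at ha
  obtain ⟨M, h1, h2⟩ := hit
  obtain ⟨m, rfl⟩ : ∃ m, M = m + 1 := by
    refine ⟨M - 1, ?_⟩
    rcases Nat.eq_zero_or_pos M with h0 | h0
    · subst h0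
      exact absurd (show (0 : ℤ) < 0 from h2.1) (by omega)
    · omega
  have h1' : ∀ j ≤ m, ((nx6 (stdf C s g p))^[j] ((0, a), 1)).1 ∈ Tk .rf n :=
    fun j hj => h1 j (by omega)
  have h2' : ((nx6 (stdf C s g p))^[m + 1] ((0, a), 1)).1.1 < 0 ∧
    ((nx6 (stdf C s g p))^[m + 1] ((0, a), 1)).1.2 < 0 ∧
    ((nx6 (stdf C s g p))^[m + 1] ((0, a), 1)).2 = 2 := h2
  have h3 := mem_Tk.1 (h1' m le_rfl)
  have h3q : 0 ≤ ((nx6 (stdf C s g p))^[m] ((0, a), 1)).1.1 ∨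
      0 ≤ ((nx6 (stdf C s g p))^[m] ((0, a), 1)).1.2 := h3.2
  have h4 := step4i (stdf C s g p) m ((0, a), 1)
  rw [h2'.2.2] at h4
  obtain ⟨hx, hy⟩ : ((nx6 (stdf C s g p))^[m] ((0, a), 1)).1.1 < 0 ∧
      ((nx6 (stdf C s g p))^[m] ((0, a), 1)).1.2 = 0 := by
    rcases h4 with ⟨e0, e1, e2⟩ | ⟨e0, e1, e2⟩ | ⟨e0, e1, e2⟩ | ⟨e0, e1, e2⟩
    · exact absurd e0 (by decide)
    · exact absurd e0 (by decide)
    · omega
    · exact absurd e0 (by decide)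
  set a' : ℤ := ((nx6 (stdf C s g p))^[m] ((0, a), 1)).1.1 with ha'
  have hpos : ((nx6 (stdf C s g p))^[m] ((0, a), 1)).1 = (a', 0) := Prod.ext rfl hy
  have hop : op C s ((C.f s)^[m] (ps g p ((0, a), 1))) = fe g p a' := by
    rw [op_iter, hpos, h2'.2.2]
    rfl
  obtain ⟨h5, h6⟩ := box_strand h.F h.patt hN h1' (fun hq => by
    have hq' : 0 ≤ ((nx6 (stdf C s g p))^[m + 1] ((0, a), 1)).1.1 ∨
      0 ≤ ((nx6 (stdf C s g p))^[m + 1] ((0, a), 1)).1.2 := hq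
    omega)
  rw [hop] at h5 h6
  rw [ip_wall] at h6
  have hX : (quadV N p (patK .rf g)).Real (we g p a) :=
    real_we_std h.patt (by omega) (by omega) (by omega) (show (0 : ℤ) ≤ 0 ∨ 0 ≤ a from Or.inl le_rfl)
      (fun hq => by
        have hq' : (0 : ℤ) ≤ -1 ∨ 0 ≤ a := hq
        omega)
  refine ⟨a, a', rfl, ha, ⟨h3.1.1.1, hx⟩, hX, h5, ?_⟩
  obtain ⟨D, ⟨h7, h8, h9⟩ | ⟨h7, h8, h9⟩⟩ := h.sv hX h5 h6
  · obtain ⟨rfl, -, -⟩ := typ_wf h7
    exact h9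
  · have := (typ_fw h7).2.2
    omega


end Crest.Agent.R158.Pt266
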