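import Mathlib

/-!
R158, block P (helper470), part 1: Painleve removability of lines.

`holo_off_lines`: `f` continuous on an open `U`, complex differentiable on `U` minus finitely many
horizontal and vertical lines, is complex differentiable on `U`.
-/

set_option autoImplicit false
open Complex MeasureTheory Metric Set Topology Filter
open scoped Interval

namespace Crest.Agent.R158.Pv470

/-- closed rectangle `[a,b] × [c,d]` -/
def Rc (a b c d : ℝ) : Set ℂ := Icc a b ×ℂ Icc c d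

theorem mem_Rc {a b c d : ℝ} {z : ℂ} : z ∈ Rc a b c d ↔ (a ≤ z.re ∧ z.re ≤ b) ∧ c ≤ z.im ∧ z.im ≤ d := by
  simp [Rc, mem_reProdIm]

/-- boundary integral of `f` over `[a,b] × [c,d]` -/
noncomputable def per (f : ℂ → ℂ) (a b c d : ℝ) : ℂ :=
  (∫ x : ℝ in a..b, f (x + c * I)) - (∫ x : ℝ in a..b, f (x + d * I)) +
    I • (∫ y : ℝ in c..d, f (b + y * I)) - I • (∫ y : ℝ in c..d, f (a + y * I))

theorem per_swap_re (f : ℂ → ℂ) (a b c d : ℝ) : per f b a c d = - per f a b c d := by
  simp only [per, intervalIntegral.integral_symm a b]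
  simp only [smul_eq_mul]; ring

theorem per_swap_im (f : ℂ → ℂ) (a b c d : ℝ) : per f a b d c = - per f a b c d := by
  simp only [per, intervalIntegral.integral_symm c d]
  simp only [smul_eq_mul]; ring

theorem wedge_eq (z w : ℂ) (f : ℂ → ℂ) :
    wedgeIntegral z w f + wedgeIntegral w z f = per f z.re w.re z.im w.im := by
  rw [wedgeIntegral_add_wedgeIntegral_eq, per]

/-- `IsConservativeOn` from ordered rectangles. -/
theorem conservative_of_per {f : ℂ → ℂ} {U : Set ℂ}
    (h : ∀ a b c d : ℝ, a ≤ b → c ≤ d → Rc a b c d ⊆ U → per f a b c d = 0) :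
    IsConservativeOn f U := by
  intro z w hzw
  rw [← add_eq_zero_iff_eq_neg, wedge_eq]
  have hR : Rectangle z w = [[z.re, w.re]] ×ℂ [[z.im, w.im]] := rfl
  rw [hR] at hzw
  rcases le_total z.re w.re with h1 | h1 <;> rcases le_total z.im w.im with h2 | h2
  · rw [uIcc_of_le h1, uIcc_of_le h2] at hzw
    exact h _ _ _ _ h1 h2 hzw
  · rw [uIcc_of_le h1, uIcc_of_ge h2] at hzw
    have := h _ _ _ _ h1 h2 hzw
    rw [per_swap_im, this, neg_zero]
  · rw [uIcc_of_ge h1, uIcc_of_le h2] at hzw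
    have := h _ _ _ _ h1 h2 hzw
    rw [per_swap_re, this, neg_zero]
  · rw [uIcc_of_ge h1, uIcc_of_ge h2] at hzw
    have := h _ _ _ _ h1 h2 hzw
    rw [per_swap_re, per_swap_im, this, neg_zero, neg_zero]

theorem cont_hor {f : ℂ → ℂ} {a b c d : ℝ} (hf : ContinuousOn f (Rc a b c d)) {y : ℝ}
    (hy : y ∈ Icc c d) : ContinuousOn (fun x : ℝ => f (x + y * I)) (Icc a b) := by
  refine hf.comp (by fun_prop) ?_
  intro x hx
  rw [mem_Rc]; simpa using ⟨hx, hy⟩

theorem cont_ver {f : ℂ → ℂ} {a b c d : ℝ} (hf : ContinuousOn f (Rc a b c d)) {x : ℝ}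
    (hx : x ∈ Icc a b) : ContinuousOn (fun y : ℝ => f (x + y * I)) (Icc c d) := by
  refine hf.comp (by fun_prop) ?_
  intro y hy
  rw [mem_Rc]; simpa using ⟨hx, hy⟩


theorem per_split_im {f : ℂ → ℂ} {a b c d m : ℝ} (hf : ContinuousOn f (Rc a b c d))
    (hcm : c ≤ m) (hmd : m ≤ d) (hab : a ≤ b) :
    per f a b c d = per f a b c m + per f a b m d := by
  have h1 : ∀ x ∈ Icc a b, IntervalIntegrable (fun y : ℝ => f (x + y * I)) volume c m := by
    intro y hy
    apply ContinuousOn.intervalIntegrable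
    rw [uIcc_of_le hcm]
    exact (cont_ver hf hy).mono (Icc_subset_Icc_right hmd)
  have h2 : ∀ x ∈ Icc a b, IntervalIntegrable (fun y : ℝ => f (x + y * I)) volume m d := by
    intro y hy
    apply ContinuousOn.intervalIntegrable
    rw [uIcc_of_le hmd]
    exact (cont_ver hf hy).mono (Icc_subset_Icc_left hcm)
  have ha := left_mem_Icc.2 hab
  have hb := right_mem_Icc.2 hab
  simp only [per, ← intervalIntegral.integral_add_adjacent_intervals (h1 a ha) (h2 a ha),
    ← intervalIntegral.integral_add_adjacent_intervals (h1 b hb) (h2 b hb), smul_eq_mul]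
  ring

/-- Cauchy-Goursat: continuous on the closed, differentiable on the open rectangle. -/
theorem per_eq_zero {f : ℂ → ℂ} {a b c d : ℝ} (hab : a ≤ b) (hcd : c ≤ d)
    (hf : ContinuousOn f (Rc a b c d)) (hd : DifferentiableOn ℂ f (Ioo a b ×ℂ Ioo c d)) :
    per f a b c d = 0 := by
  have := integral_boundary_rect_eq_zero_of_continuousOn_of_differentiableOn f
    (⟨a, c⟩ : ℂ) (⟨b, d⟩ : ℂ) (by simpa [uIcc_of_le hab, uIcc_of_le hcd, Rc] using hf)
    (by simpa [hab, hcd] using hd)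
  simpa [per] using this

/-- Morera, in terms of `per`. -/
theorem morera {f : ℂ → ℂ} {U : Set ℂ} (hU : IsOpen U) (hf : ContinuousOn f U)
    (h : ∀ a b c d : ℝ, a ≤ b → c ≤ d → Rc a b c d ⊆ U → per f a b c d = 0) :
    DifferentiableOn ℂ f U :=
  (isConservativeOn_and_continuousOn_iff_isDifferentiableOn hU).1 ⟨conservative_of_per h, hf⟩


/-- removal of one horizontal line -/
theorem holo_off_hor {f : ℂ → ℂ} {U : Set ℂ} (hU : IsOpen U) (hf : ContinuousOn f U) (m : ℝ)
    (hd : DifferentiableOn ℂ f (U \ {z | z.im = m})) : DifferentiableOn ℂ f U := by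
  refine morera hU hf fun a b c d hab hcd hR => ?_
  have key : ∀ c' d' : ℝ, c ≤ c' → c' ≤ d' → d' ≤ d → (m ≤ c' ∨ d' ≤ m) → per f a b c' d' = 0 := by
    intro a' b' h1 h2 h3 hm
    have hsub : Rc a b a' b' ⊆ Rc a b c d := by
      intro z hz
      rw [mem_Rc] at hz ⊢
      exact ⟨hz.1, h1.trans hz.2.1, hz.2.2.trans h3⟩
    refine per_eq_zero hab h2 (hf.mono (hsub.trans hR)) (hd.mono ?_)
    intro z hz
    rw [mem_reProdIm] at hz
    refine ⟨hR (mem_Rc.2 ⟨⟨hz.1.1.le, hz.1.2.le⟩, h1.trans hz.2.1.le, hz.2.2.le.trans h3⟩), ?_⟩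
    rintro (rfl : z.im = m)
    rcases hm with h | h
    · exact absurd hz.2.1 (not_lt.2 h)
    · exact absurd hz.2.2 (not_lt.2 h)
  by_cases h1 : m ≤ c
  · exact key c d le_rfl hcd le_rfl (Or.inl h1)
  by_cases h2 : d ≤ m
  · exact key c d le_rfl hcd le_rfl (Or.inr h2)
  push Not at h1 h2
  rw [per_split_im (hf.mono hR) h1.le h2.le hab, key c m le_rfl h1.le h2.le (Or.inr le_rfl),
    key m d h1.le h2.le le_rfl (Or.inl le_rfl), add_zero]




end Crest.Agent.R158.Pv470
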