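import Crest.Agent.R158.Hb0_656
import Crest.Agent.R158.Xr12_249

-- ▼ part R158/Sh1_279
section

/-!
R158, S0237, BLOCK BL, leaf (B2), file 1 (helper279): connectedness of the shifted regions

* `Cn X` : any two tiles of `X` are joined inside `X` (4-connected paths)
* `cn_map`, `enlarge`, `retract` : generic tools
* `NoPinch F`
* `shD_conn0`, `shD_cc0` : `shD F H L δ` is connected, its complement is connected
-/

set_option autoImplicit false

noncomputable section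

namespace Crest.Agent.R158.Sh279

open Crest.Agent.R158.Xr249 (CPath)
open Crest.Agent.R158.Env664 (D Run Adj4 Mac mem_D div_iff)
open Crest.Agent.R158.Hb656

/-- any two tiles of `X` are joined inside `X` -/
def Cn (X : Set (ℤ × ℤ)) : Prop := ∀ a ∈ X, ∀ b ∈ X, CPath X a b

theorem cn_map {X Y : Set (ℤ × ℤ)} (s : ℤ × ℤ → ℤ × ℤ) (hX : Cn X)
    (hst : ∀ a b, Adj4 a b → a ∈ X → b ∈ X → CPath Y (s a) (s b))
    (hcov : ∀ c ∈ Y, ∃ a ∈ X, CPath Y c (s a)) : Cn Y := by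
  intro c hc d hd
  obtain ⟨a, ha, h1⟩ := hcov c hc
  obtain ⟨b, hb, h2⟩ := hcov d hd
  refine h1.trans (CPath.trans ?_ h2.symm)
  have h3 := hX a ha b hb
  clear h1 h2 hb
  induction h3 with
  | refl => exact .refl
  | @tail u v _ h4 ih => exact ih.trans (hst u v h4.1 h4.2.1 h4.2.2)

theorem enlarge {X N : Set (ℤ × ℤ)} (h : Cn X) (hN : ∀ c ∈ N, ∃ d ∈ X, Adj4 c d) : Cn (X ∪ N) := by
  refine cn_map id h (fun a b h1 h2 h3 => CPath.step h1 (Or.inl h2) (Or.inl h3)) ?_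
  rintro c (hc | hc)
  · exact ⟨c, hc, .refl⟩
  · obtain ⟨d, hd, h1⟩ := hN c hc
    exact ⟨d, hd, CPath.step h1 (Or.inr hc) (Or.inl hd)⟩

theorem adj_iff {x y x' y' : ℤ} : Adj4 (x, y) (x', y') ↔
    (x = x' ∧ (y' = y + 1 ∨ y = y' + 1)) ∨ (y = y' ∧ (x' = x + 1 ∨ x = x' + 1)) := Iff.rfl


open Classical in
/-- tiles of `N` can be pushed one step in the direction `σ` -/
theorem retract {X N : Set (ℤ × ℤ)} (σ : ℤ) (hσ : σ = 1 ∨ σ = -1) (h : Cn X)
    (h1 : ∀ x y, (x, y) ∈ N → (x, y) ∈ X → (x + σ, y) ∈ X \ N ∧ (x - σ, y) ∉ X)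
    (h2 : ∀ x y y', (x, y) ∈ N → (x, y) ∈ X → (y' = y + 1 ∨ y' = y - 1) → (x, y') ∈ X \ N →
      (x + σ, y') ∈ X \ N) : Cn (X \ N) := by
  have A1 : ∀ x y : ℤ, Adj4 (x + σ, y) (x, y) := by
    intro x y; rw [adj_iff]; omega
  have A2 : ∀ x y y' : ℤ, (y' = y + 1 ∨ y' = y - 1) → Adj4 (x, y) (x, y') := by
    intro x y y' h; rw [adj_iff]; omega
  refine cn_map (fun c => if c ∈ N then (c.1 + σ, c.2) else c) h ?_ ?_
  · -- steps
    have key : ∀ x y x' y', (x, y) ∈ X → (x', y') ∈ X → (x, y) ∈ N → (x', y') ∉ N →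
        Adj4 (x, y) (x', y') → CPath (X \ N) (x + σ, y) (x', y') := by
      intro x y x' y' m1 m2 n1 n2 had
      obtain ⟨k1, k2⟩ := h1 x y n1 m1
      have hc : (x' = x + σ ∧ y' = y) ∨ (x' = x - σ ∧ y' = y) ∨ (x' = x ∧ (y' = y + 1 ∨ y' = y - 1)) := by
        rw [adj_iff] at had; omega
      rcases hc with ⟨rfl, rfl⟩ | ⟨rfl, rfl⟩ | ⟨rfl, hy⟩
      · exact .refl
      · exact absurd m2 k2
      · have k3 := h2 x' y y' n1 m1 hy ⟨m2, n2⟩
        exact (CPath.step (A2 _ _ _ hy) k1 k3).trans (CPath.step (A1 _ _) k3 ⟨m2, n2⟩)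
    rintro ⟨x, y⟩ ⟨x', y'⟩ had m1 m2
    by_cases n1 : (x, y) ∈ N <;> by_cases n2 : (x', y') ∈ N
    · simp only [if_pos n1, if_pos n2]
      have k1 := (h1 x y n1 m1).1
      have k2 := (h1 x' y' n2 m2).1
      refine CPath.step ?_ k1 k2
      rw [adj_iff] at had ⊢; omega
    · simp only [if_pos n1, if_neg n2]
      exact key x y x' y' m1 m2 n1 n2 had
    · simp only [if_neg n1, if_pos n2]
      exact (key x' y' x y m2 m1 n2 n1 had.symm).symm
    · simp only [if_neg n1, if_neg n2]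
      exact CPath.step had ⟨m1, n1⟩ ⟨m2, n2⟩
  · rintro c ⟨hc1, hc2⟩
    exact ⟨c, hc1, by simp only [if_neg hc2]; exact .refl⟩

/-- no two cells of `F` touch only at a vertex -/
structure NoPinch (F : Finset (ℤ × ℤ)) : Prop where
  ne : ∀ a b : ℤ, (a, b) ∈ F → (a + 1, b + 1) ∈ F → (a + 1, b) ∈ F ∨ (a, b + 1) ∈ F
  nw : ∀ a b : ℤ, (a + 1, b) ∈ F → (a, b + 1) ∈ F → (a, b) ∈ F ∨ (a + 1, b + 1) ∈ F

/-- the macroscopic columns near `x` -/
theorem loc {L : ℤ} (hL : 8 ≤ L) (x : ℤ) : ∃ m U : ℤ,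
    (∀ x', x - 3 ≤ x' → x' ≤ x + 3 → x' / L = if x' < U then m - 1 else m) ∧ U = m * L := by
  refine ⟨(x + 3) / L, (x + 3) / L * L, ?_, rfl⟩
  intro x' h1 h2
  have e := (div_iff (by omega : 0 < L) (x + 3) _).1 rfl
  split_ifs with h
  · rw [div_iff (by omega), sub_mul]; constructor <;> linarith
  · rw [div_iff (by omega)]; constructor <;> linarith

/-! ### tile level facts -/

section tile

variable {F H : Finset (ℤ × ℤ)} {k i0 i1 L : ℤ} {up : Bool}

theorem DH_DF (h : Hang F H k i0 i1 up) (hL : 8 ≤ L) {t : ℤ × ℤ} (ht : t ∈ D H L) : t ∈ D F L := by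
  rw [mem_D (by omega)] at ht ⊢
  exact h.sub ht

/-- tiles of `D F L` in the same row at distance at most `3` are both in `D H L` or both not -/
theorem hor3 (h : Hang F H k i0 i1 up) (hL : 8 ≤ L) {x x' y : ℤ} (h3 : x - 3 ≤ x') (h4 : x' ≤ x + 3)
    (h1 : (x, y) ∈ D H L) (h2 : (x', y) ∈ D F L) : (x', y) ∈ D H L := by
  obtain ⟨m, U, hm, -⟩ := loc hL x
  have e1 := hm x (by omega) (by omega)
  have e2 := hm x' h3 h4
  rw [mem_D (by omega)] at h1 h2 ⊢
  simp only at h1 h2 ⊢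
  rw [e1] at h1
  rw [e2] at h2 ⊢
  split_ifs at h1 h2 ⊢
  · exact h1
  · exact (h.hor (m - 1) (y / L) (Or.inr ⟨h2, by rwa [sub_add_cancel]⟩)).1
  · have := (h.hor (m - 1) (y / L) (Or.inl ⟨h1, by rwa [sub_add_cancel]⟩)).2
    rwa [sub_add_cancel] at this
  · exact h1

/-- the column of `x` -/
theorem cols (hL : 8 ≤ L) (x : ℤ) {σ : ℤ} (hσ : σ = 1 ∨ σ = -1) :
    (x - σ) / L = x / L ∨ (x + σ) / L = x / L := by
  obtain ⟨m, U, hm, -⟩ := loc hL x
  have e0 := hm x (by omega) (by omega)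
  have e1 := hm (x - σ) (by omega) (by omega)
  have e2 := hm (x + σ) (by omega) (by omega)
  rw [e0, e1, e2]
  split_ifs <;> omega

theorem cols2 (hL : 8 ≤ L) (x : ℤ) {σ : ℤ} (hσ : σ = 1 ∨ σ = -1) :
    (x - σ) / L = x / L ∨ (x + 2 * σ) / L = (x + σ) / L := by
  obtain ⟨m, U, hm, -⟩ := loc hL x
  have e0 := hm x (by omega) (by omega)
  have e1 := hm (x - σ) (by omega) (by omega)
  have e2 := hm (x + σ) (by omega) (by omega)
  have e3 := hm (x + 2 * σ) (by omega) (by omega)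
  rw [e0, e1, e2, e3]
  split_ifs <;> omega

theorem mem_col {G : Finset (ℤ × ℤ)} (hL : 8 ≤ L) {x x' y : ℤ} (h : x / L = x' / L) :
    (x, y) ∈ D G L ↔ (x', y) ∈ D G L := by
  rw [mem_D (by omega), mem_D (by omega)]
  simp only
  rw [h]

/-- the set of the tiles of `shD` -/
def Sd (F H : Finset (ℤ × ℤ)) (L δ : ℤ) : Set (ℤ × ℤ) := {t | t ∈ shD F H L δ}

theorem mem_Sd {δ x y : ℤ} : (x, y) ∈ Sd F H L δ ↔
    ((x, y) ∈ D F L ∧ (x, y) ∉ D H L) ∨ (x - δ, y) ∈ D H L := mem_shD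

theorem shD_zero (h : Hang F H k i0 i1 up) (hL : 8 ≤ L) : shD F H L 0 = D F L := by
  ext ⟨x, y⟩
  rw [mem_shD, sub_zero]
  constructor
  · rintro (h1 | h1)
    · exact h1.1
    · exact DH_DF h hL h1
  · intro h1
    by_cases h2 : (x, y) ∈ D H L
    · exact Or.inr h2
    · exact Or.inl ⟨h1, h2⟩

open Classical in
/-- **`shD` is connected** -/
theorem shD_conn0 (h : Hang F H k i0 i1 up) (hL : 8 ≤ L) (hF : Cn {t | t ∈ D F L}) {σ : ℤ}
    (hσ : σ = 1 ∨ σ = -1) : Cn (Sd F H L σ) := by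
  have P : ∀ {x y}, (x, y) ∈ D F L → (x, y) ∉ D H L → (x, y) ∈ Sd F H L σ :=
    fun h1 h2 => mem_Sd.2 (Or.inl ⟨h1, h2⟩)
  have Q : ∀ {x y}, (x, y) ∈ D H L → (x + σ, y) ∈ Sd F H L σ :=
    fun {x y} h1 => mem_Sd.2 (Or.inr (by rwa [add_sub_cancel_right]))
  refine cn_map (fun c => if c ∈ D H L then (c.1 + σ, c.2) else c) hF ?_ ?_
  · have key : ∀ x y x' y', (x, y) ∈ D F L → (x', y') ∈ D F L → (x, y) ∈ D H L → (x', y') ∉ D H L →
        Adj4 (x, y) (x', y') → CPath (Sd F H L σ) (x + σ, y) (x', y') := by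
      intro x y x' y' m1 m2 n1 n2 had
      rw [adj_iff] at had
      have hxx : x' = x := by
        by_contra hne
        have hy : y = y' := by omega
        subst hy
        exact n2 (hor3 h hL (x := x) (x' := x') (by omega) (by omega) n1 m2)
      subst hxx
      rcases cols hL x' hσ with hc | hc
      · -- `x' - σ` in the same column
        have q : (x', y) ∈ Sd F H L σ := by
          rw [mem_Sd]
          exact Or.inr ((mem_col hL hc).2 n1)
        refine (CPath.step ?_ (Q n1) q).trans (CPath.step ?_ q (P m2 n2))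
        · rw [adj_iff]; omega
        · rw [adj_iff]; omega
      · have q : (x' + σ, y') ∈ Sd F H L σ :=
          P ((mem_col hL hc).2 m2) (fun h' => n2 ((mem_col hL hc).1 h'))
        refine (CPath.step ?_ (Q n1) q).trans (CPath.step ?_ q (P m2 n2))
        · rw [adj_iff]; omega
        · rw [adj_iff]; omega
    rintro ⟨x, y⟩ ⟨x', y'⟩ had m1 m2
    by_cases n1 : (x, y) ∈ D H L <;> by_cases n2 : (x', y') ∈ D H L
    · simp only [if_pos n1, if_pos n2]
      refine CPath.step ?_ (Q n1) (Q n2)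
      rw [adj_iff] at had ⊢; omega
    · simp only [if_pos n1, if_neg n2]
      exact key x y x' y' m1 m2 n1 n2 had
    · simp only [if_neg n1, if_pos n2]
      exact (key x' y' x y m2 m1 n2 n1 had.symm).symm
    · simp only [if_neg n1, if_neg n2]
      exact CPath.step had (P m1 n1) (P m2 n2)
  · rintro ⟨x, y⟩ hc
    rcases mem_Sd.1 hc with ⟨h1, h2⟩ | h1
    · exact ⟨(x, y), h1, by simp only [if_neg h2]; exact .refl⟩
    · refine ⟨(x - σ, y), DH_DF h hL h1, ?_⟩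
      simp only [if_pos h1, sub_add_cancel]
      exact .refl

open Classical in
/-- **the complement of `shD` is connected** -/
theorem shD_cc0 (h : Hang F H k i0 i1 up) (hL : 8 ≤ L) (hF : Cn {t | t ∉ D F L}) {σ : ℤ}
    (hσ : σ = 1 ∨ σ = -1) : Cn (Sd F H L σ)ᶜ := by
  have hne : ∀ {x y}, (x, y) ∉ D F L → (x, y) ∉ D H L := fun h1 h2 => h1 (DH_DF h hL h2)
  have mem : ∀ {x y}, ¬ ((x, y) ∈ D F L ∧ (x, y) ∉ D H L) → (x - σ, y) ∉ D H L →
      (x, y) ∈ (Sd F H L σ)ᶜ := by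
    intro x y h1 h2 h3
    rcases mem_Sd.1 h3 with h4 | h4
    · exact h1 h4
    · exact h2 h4
  let near : ℤ × ℤ → Prop := fun c => (c.1 + 1, c.2) ∈ D H L ∨ (c.1 - 1, c.2) ∈ D H L ∨
    (c.1, c.2 + 1) ∈ D H L ∨ (c.1, c.2 - 1) ∈ D H L
  let sh : ℤ × ℤ → Prop := fun c => near c ∧ ¬ ((c.1 + σ, c.2) ∈ D F L ∧ (c.1 + σ, c.2) ∉ D H L)
  -- shifted tiles
  have S1 : ∀ {x y}, (x, y) ∉ D F L → ¬ ((x + σ, y) ∈ D F L ∧ (x + σ, y) ∉ D H L) →
      (x + σ, y) ∈ (Sd F H L σ)ᶜ := by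
    intro x y h1 h2
    refine mem h2 ?_
    rw [add_sub_cancel_right]
    exact hne h1
  -- tiles that are not shifted
  have S0 : ∀ {x y}, (x, y) ∉ D F L → ¬ sh (x, y) → (x, y) ∈ (Sd F H L σ)ᶜ := by
    intro x y h1 h2
    refine mem (fun h3 => h1 h3.1) fun h3 => h2 ⟨?_, ?_⟩
    · rcases hσ with rfl | rfl
      · exact Or.inr (Or.inl h3)
      · exact Or.inl (by simpa using h3)
    · rintro ⟨h4, h5⟩
      exact h5 (hor3 h hL (x := x - σ) (by simp only; omega) (by simp only; omega) h3 h4)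
  refine cn_map (fun c => if sh c then (c.1 + σ, c.2) else c) hF ?_ ?_
  · have key : ∀ x y x' y', (x, y) ∉ D F L → (x', y') ∉ D F L → sh (x, y) → ¬ sh (x', y') →
        Adj4 (x, y) (x', y') → CPath (Sd F H L σ)ᶜ (x + σ, y) (x', y') := by
      intro x y x' y' m1 m2 n1 n2 had
      rw [adj_iff] at had
      by_cases hp : (x' + σ, y') ∈ D F L ∧ (x' + σ, y') ∉ D H L
      · have q : (x, y) ∈ (Sd F H L σ)ᶜ := by
          refine mem (fun h3 => m1 h3.1) fun h3 => ?_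
          by_cases hy : y = y'
          · subst hy
            exact hp.2 (hor3 h hL (x := x - σ) (by omega) (by omega) h3 hp.1)
          · have hx : x = x' := by omega
            subst hx
            rcases cols hL x hσ with hc | hc
            · exact m1 (DH_DF h hL ((mem_col hL hc).1 h3))
            · exact m2 ((mem_col hL hc).1 hp.1)
        refine (CPath.step ?_ (S1 m1 n1.2) q).trans (CPath.step ?_ q (S0 m2 n2))
        · rw [adj_iff]; omega
        · rw [adj_iff]; omega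
      · have q := S1 m2 hp
        refine (CPath.step ?_ (S1 m1 n1.2) q).trans (CPath.step ?_ q (S0 m2 n2))
        · rw [adj_iff]; omega
        · rw [adj_iff]; omega
    rintro ⟨x, y⟩ ⟨x', y'⟩ had m1 m2
    by_cases n1 : sh (x, y) <;> by_cases n2 : sh (x', y')
    · simp only [if_pos n1, if_pos n2]
      refine CPath.step ?_ (S1 m1 n1.2) (S1 m2 n2.2)
      rw [adj_iff] at had ⊢; omega
    · simp only [if_pos n1, if_neg n2]
      exact key x y x' y' m1 m2 n1 n2 had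
    · simp only [if_neg n1, if_pos n2]
      exact (key x' y' x y m2 m1 n2 n1 had.symm).symm
    · simp only [if_neg n1, if_neg n2]
      exact CPath.step had (S0 m1 n1) (S0 m2 n2)
  · rintro ⟨x, y⟩ hc
    by_cases h1 : (x, y) ∈ D F L
    · have h2 : (x, y) ∈ D H L := by
        by_contra h3
        exact hc (mem_Sd.2 (Or.inl ⟨h1, h3⟩))
      have h3 : (x - σ, y) ∉ D H L := fun h3 => hc (mem_Sd.2 (Or.inr h3))
      have h4 : (x - σ, y) ∉ D F L := fun h4 => h3 (hor3 h hL (by omega) (by omega) h2 h4)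
      refine ⟨(x - σ, y), h4, ?_⟩
      have h5 : sh (x - σ, y) := by
        refine ⟨?_, ?_⟩
        · rcases hσ with rfl | rfl
          · refine Or.inl ?_
            simpa using h2
          · refine Or.inr (Or.inl ?_)
            simpa using h2
        · simp only [sub_add_cancel]
          exact fun h6 => h6.2 h2
      simp only [if_pos h5, sub_add_cancel]
      exact .refl
    · refine ⟨(x, y), h1, ?_⟩
      by_cases h2 : sh (x, y)
      · simp only [if_pos h2]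
        refine CPath.step ?_ hc (S1 h1 h2.2)
        rw [adj_iff]; omega
      · simp only [if_neg h2]
        exact .refl

end tile

end Crest.Agent.R158.Sh279
end
end

-- ▼ part R158/Sh2_279
section

/-!
R158, S0237, BLOCK BL, leaf (B2), file 2 (helper279): layers and notches

* `shD_cn`, `shD_cc` : `shD F H L δ`, `|δ| ≤ 1`, is connected, complement connected
* `lay_cn`, `lay_cc` : the same for `shD F H L δ ∪ S`, `S ⊆ RL F H L δ` or `S ⊆ LL F H L δ`
* `notch_cn`, `notch_cc` : the same for `shD F H L δ \ N`, `N` any set of right wall tiles of the part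
  that is not moved
-/

set_option autoImplicit false

noncomputable section

namespace Crest.Agent.R158.Sh279

open Crest.Agent.R158.Xr249 (CPath)
open Crest.Agent.R158.Env664 (D Run Adj4 Mac mem_D div_iff)
open Crest.Agent.R158.Hb656

section lay

variable {F H : Finset (ℤ × ℤ)} {k i0 i1 L : ℤ} {up : Bool}

theorem Sd_zero (h : Hang F H k i0 i1 up) (hL : 8 ≤ L) : Sd F H L 0 = {t | t ∈ D F L} := by
  ext t; simp only [Sd, shD_zero h hL]

theorem shD_cn (h : Hang F H k i0 i1 up) (hL : 8 ≤ L) (hF : Cn {t | t ∈ D F L}) {δ : ℤ}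
    (hδ : δ = 0 ∨ δ = 1 ∨ δ = -1) : Cn (Sd F H L δ) := by
  rcases hδ with rfl | hδ
  · rw [Sd_zero h hL]; exact hF
  · exact shD_conn0 h hL hF hδ

theorem shD_cc (h : Hang F H k i0 i1 up) (hL : 8 ≤ L) (hF : Cn {t | t ∉ D F L}) {δ : ℤ}
    (hδ : δ = 0 ∨ δ = 1 ∨ δ = -1) : Cn (Sd F H L δ)ᶜ := by
  rcases hδ with rfl | hδ
  · rw [Sd_zero h hL]; exact hF
  · exact shD_cc0 h hL hF hδ

/-- outward layer in the direction `σ` -/
def Lay (F H : Finset (ℤ × ℤ)) (L δ σ : ℤ) : Set (ℤ × ℤ) :=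
  {t | (t.1 - σ - δ, t.2) ∈ D H L ∧ (t.1 - δ, t.2) ∉ D F L}

theorem RL_Lay {δ : ℤ} {t : ℤ × ℤ} (h : t ∈ RL F H L δ) : t ∈ Lay F H L δ 1 := mem_RL.1 h

theorem LL_Lay {δ : ℤ} {t : ℤ × ℤ} (h : t ∈ LL F H L δ) : t ∈ Lay F H L δ (-1) := by
  have := mem_LL.1 h
  refine ⟨?_, this.2⟩
  rw [sub_neg_eq_add]
  exact this.1

/-- no pinch at tile level -/
theorem pinch (np : NoPinch F) (hL : 8 ≤ L) {σ x y y' : ℤ} (hσ : σ = 1 ∨ σ = -1)
    (hy : y' = y + 1 ∨ y' = y - 1) (h1 : (x, y) ∈ D F L) (h2 : (x + σ, y) ∉ D F L)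
    (h3 : (x, y') ∉ D F L) (h4 : (x + σ, y') ∈ D F L) : False := by
  rw [mem_D (by omega)] at h1 h2 h3 h4
  simp only at h1 h2 h3 h4
  -- the two columns and the two rows
  have hc : ∀ z s : ℤ, (s = 1 ∨ s = -1) → (z + s) / L = z / L ∨ (z + s) / L = z / L + s := by
    intro z s hs
    obtain ⟨m, U, hm, -⟩ := loc hL z
    rw [hm z (by omega) (by omega), hm (z + s) (by omega) (by omega)]
    split_ifs <;> omega
  have c1 : (x + σ) / L = x / L + σ := by
    rcases hc x σ hσ with h | h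
    · rw [h] at h2; exact absurd h1 h2
    · exact h
  have hy' : y' = y + (y' - y) := by ring
  have c2 : y' / L = y / L + (y' - y) := by
    rcases hc y (y' - y) (by omega) with h | h
    · rw [← hy'] at h; rw [h] at h3; exact absurd h1 h3
    · rw [← hy'] at h; exact h
  rw [c1] at h2 h4
  rw [c2] at h3 h4
  generalize x / L = m at *
  generalize y / L = n at *
  rcases hσ with rfl | rfl <;> rcases hy with rfl | rfl
  · have e : y + 1 - y = 1 := by ring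
    rw [e] at h3 h4
    rcases np.ne m n h1 h4 with h | h
    · exact h2 h
    · exact h3 h
  · have e : y - 1 - y = -1 := by ring
    rw [e] at h3 h4
    have := np.nw m (n - 1)
    rw [sub_add_cancel] at this
    rcases this h4 h1 with h | h
    · exact h3 h
    · exact h2 h
  · have e : y + 1 - y = 1 := by ring
    rw [e] at h3 h4
    have := np.nw (m - 1) n
    rw [sub_add_cancel] at this
    rcases this h1 h4 with h | h
    · exact h2 h
    · exact h3 h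
  · have e : y - 1 - y = -1 := by ring
    rw [e] at h3 h4
    have := np.ne (m - 1) (n - 1)
    rw [sub_add_cancel, sub_add_cancel] at this
    rcases this h4 h1 with h | h
    · exact h3 h
    · exact h2 h

theorem lay_cn {δ σ : ℤ} {N : Set (ℤ × ℤ)} (hN : N ⊆ Lay F H L δ σ) (hσ : σ = 1 ∨ σ = -1)
    (hc : Cn (Sd F H L δ)) : Cn (Sd F H L δ ∪ N) := by
  refine enlarge hc ?_
  rintro ⟨x, y⟩ hx
  refine ⟨(x - σ, y), mem_Sd.2 (Or.inr (hN hx).1), ?_⟩
  rw [adj_iff]; omega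

theorem lay_cc (h : Hang F H k i0 i1 up) (np : NoPinch F) (hL : 8 ≤ L) {δ σ : ℤ} {N : Set (ℤ × ℤ)}
    (hN : N ⊆ Lay F H L δ σ) (hσ : σ = 1 ∨ σ = -1) (hδ : δ = 0 ∨ δ = 1 ∨ δ = -1)
    (hc : Cn (Sd F H L δ)ᶜ) : Cn (Sd F H L δ ∪ N)ᶜ := by
  rw [Set.compl_union]
  rw [← Set.sdiff_eq]
  have hne : ∀ {x y}, (x, y) ∉ D F L → (x, y) ∉ D H L := fun h1 h2 => h1 (DH_DF h hL h2)
  have mem : ∀ {x y}, ¬ ((x, y) ∈ D F L ∧ (x, y) ∉ D H L) → (x - δ, y) ∉ D H L → (x, y) ∉ N →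
      (x, y) ∈ (Sd F H L δ)ᶜ \ N := by
    intro x y h1 h2 h4
    refine ⟨fun h3 => ?_, h4⟩
    rcases mem_Sd.1 h3 with h4 | h4
    · exact h1 h4
    · exact h2 h4
  -- columns
  have col : ∀ {x y}, (x, y) ∈ N → (x - δ - σ) / L ≠ (x - δ) / L := by
    intro x y hx h1
    obtain ⟨h2, h3⟩ := hN hx
    simp only at h2 h3
    refine h3 (DH_DF h hL ((mem_col hL ?_).1 h2))
    rw [← h1]
    congr 1; ring
  refine retract σ hσ hc ?_ ?_
  · intro x y hx hx'
    obtain ⟨h2, h3⟩ := hN hx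
    simp only at h2 h3
    have hcol := col hx
    have hcol2 : (x - δ + σ) / L = (x - δ) / L := by
      rcases cols hL (x - δ) hσ with h4 | h4
      · exact absurd h4 hcol
      · exact h4
    refine ⟨mem ?_ ?_ ?_, ?_⟩
    · rintro ⟨h4, h5⟩
      exact h5 (hor3 h hL (x := x - σ - δ) (by omega) (by omega) h2 h4)
    · intro h4
      refine h3 (DH_DF h hL ((mem_col hL ?_).1 h4))
      rw [← hcol2]
      congr 1; ring
    · intro h4
      have h5 := (hN h4).1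
      simp only [add_sub_cancel_right] at h5
      exact hne h3 h5
    · rw [Set.mem_compl_iff, not_not]
      exact mem_Sd.2 (Or.inr h2)
  · rintro x y y' hx hx' hy ⟨m1, m2⟩
    obtain ⟨h2, h3⟩ := hN hx
    simp only at h2 h3
    have hcol := col hx
    have hcol2 : (x - δ + σ) / L = (x - δ) / L := by
      rcases cols hL (x - δ) hσ with h4 | h4
      · exact absurd h4 hcol
      · exact h4
    have q1 : (x - δ, y') ∉ D H L := fun h4 => m1 (mem_Sd.2 (Or.inr h4))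
    have q2 : (x, y') ∈ D F L → (x, y') ∈ D H L := by
      intro h4
      by_contra h5
      exact m1 (mem_Sd.2 (Or.inl ⟨h4, h5⟩))
    refine mem ?_ ?_ ?_
    · rintro ⟨h4, h5⟩
      have h6 : (x, y') ∉ D F L := fun h6 => h5 (hor3 h hL (by omega) (by omega) (q2 h6) h4)
      -- the columns of `x` and `x + σ` are different
      have h7 : (x + σ) / L ≠ x / L := fun h7 => h6 ((mem_col hL h7).1 h4)
      have h8 : δ = -σ := by
        have c1 := cols2 hL (x - δ) hσ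
        rcases hδ with rfl | hδ
        · rw [sub_zero] at hcol2
          exact absurd hcol2 h7
        · by_contra h8
          have h9 : δ = σ := by omega
          subst h9
          rcases c1 with c1 | c1
          · exact hcol c1
          · refine h7 ?_
            have e1 : x - δ + 2 * δ = x + δ := by ring
            have e2 : x - δ + δ = x := by ring
            rw [e1, e2] at c1
            exact c1
      subst h8
      -- now `x - δ = x + σ`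
      have e1 : x - σ - -σ = x := by ring
      have e2 : x - -σ = x + σ := by ring
      rw [e1] at h2
      rw [e2] at h3
      exact pinch np hL hσ hy (DH_DF h hL h2) h3 h6 h4
    · intro h4
      refine q1 ((mem_col hL ?_).1 h4)
      rw [← hcol2]
      congr 1; ring
    · intro h4
      obtain ⟨h5, h6⟩ := hN h4
      simp only at h5 h6
      refine q1 ?_
      have e1 : x + σ - σ - δ = x - δ := by ring
      rwa [e1] at h5

theorem notch_cn (h : Hang F H k i0 i1 up) (np : NoPinch F) (hL : 8 ≤ L) {δ : ℤ} {N : Set (ℤ × ℤ)}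
    (hN : ∀ t ∈ N, t ∈ D F L ∧ t ∉ D H L ∧ (t.1 + 1, t.2) ∉ D F L) (hδ : δ = 0 ∨ δ = 1 ∨ δ = -1)
    (hc : Cn (Sd F H L δ)) : Cn (Sd F H L δ \ N) := by
  have hne : ∀ {x y}, (x, y) ∉ D F L → (x, y) ∉ D H L := fun h1 h2 => h1 (DH_DF h hL h2)
  have col : ∀ {x y}, (x, y) ∈ N → (x + 1) / L ≠ x / L := by
    intro x y hx h1
    obtain ⟨h2, -, h3⟩ := hN _ hx
    exact h3 ((mem_col hL h1).2 h2)
  have col' : ∀ {x y}, (x, y) ∈ N → (x - 1) / L = x / L ∧ (x - 2) / L = x / L := by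
    intro x y hx
    have h1 := col hx
    obtain ⟨m, U, hm, -⟩ := loc hL x
    have e0 := hm x (by omega) (by omega)
    have e1 := hm (x - 1) (by omega) (by omega)
    have e2 := hm (x - 2) (by omega) (by omega)
    have e3 := hm (x + 1) (by omega) (by omega)
    have e4 := hm (x + 3) (by omega) (by omega)
    obtain ⟨m', U', hm', hU'⟩ := loc hL (x - 2)
    have g0 := hm' x (by omega) (by omega)
    have g1 := hm' (x - 1) (by omega) (by omega)
    have g2 := hm' (x - 2) (by omega) (by omega)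
    have g3 := hm' (x + 1) (by omega) (by omega)
    rw [g0, g3] at h1
    rw [g0, g1, g2]
    constructor
    · split_ifs at h1 ⊢ <;> omega
    · split_ifs at h1 ⊢ <;> omega
  refine retract (-1) (Or.inr rfl) hc ?_ ?_
  · intro x y hx hx'
    obtain ⟨h1, h2, h3⟩ := hN _ hx
    obtain ⟨c1, c2⟩ := col' hx
    simp only at h3
    refine ⟨⟨mem_Sd.2 (Or.inl ⟨(mem_col hL c1).2 h1, fun h4 => h2 ((mem_col hL c1).1 h4)⟩), ?_⟩, ?_⟩
    · intro h4
      have h5 := col h4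
      rw [← sub_eq_add_neg, sub_add_cancel] at h5
      exact h5 c1.symm
    · rw [sub_neg_eq_add]
      intro h4
      rcases mem_Sd.1 h4 with ⟨h5, -⟩ | h5
      · exact h3 h5
      · exact h2 (hor3 h hL (by omega) (by omega) h5 h1)
  · rintro x y y' hx hx' hy ⟨m1, m2⟩
    obtain ⟨h1, h2, h3⟩ := hN _ hx
    obtain ⟨c1, c2⟩ := col' hx
    simp only at h3
    have hn : (x + -1, y') ∉ N := by
      intro h4
      have h5 := col h4
      rw [← sub_eq_add_neg, sub_add_cancel] at h5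
      exact h5 c1.symm
    refine ⟨?_, hn⟩
    rw [← sub_eq_add_neg]
    rcases mem_Sd.1 m1 with ⟨h5, h6⟩ | h5
    · exact mem_Sd.2 (Or.inl ⟨(mem_col hL c1).2 h5, fun h4 => h6 ((mem_col hL c1).1 h4)⟩)
    · rcases hδ with rfl | rfl | rfl
      · rw [sub_zero] at h5
        refine mem_Sd.2 (Or.inr ?_)
        rw [sub_zero]
        exact (mem_col hL c1).2 h5
      · refine mem_Sd.2 (Or.inr ?_)
        have e1 : x - 1 - 1 = x - 2 := by ring
        rw [e1]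
        refine (mem_col hL ?_).2 h5
        rw [c1, c2]
      · -- `δ = -1`
        refine mem_Sd.2 (Or.inr ?_)
        have e1 : x - 1 - -1 = x := by ring
        rw [e1]
        rw [sub_neg_eq_add] at h5
        by_contra h6
        have h7 : (x, y') ∉ D F L := fun h7 => h6 (hor3 h hL (by omega) (by omega) h5 h7)
        exact pinch np hL (Or.inl rfl) hy h1 h3 h7 (DH_DF h hL h5)

theorem notch_cc (h : Hang F H k i0 i1 up) (hL : 8 ≤ L) {δ : ℤ} {N : Set (ℤ × ℤ)}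
    (hN : ∀ t ∈ N, t ∈ D F L ∧ t ∉ D H L ∧ (t.1 + 1, t.2) ∉ D F L) (hδ : δ = 0 ∨ δ = 1 ∨ δ = -1)
    (hc : Cn (Sd F H L δ)ᶜ) : Cn (Sd F H L δ \ N)ᶜ := by
  have e : (Sd F H L δ \ N)ᶜ = (Sd F H L δ)ᶜ ∪ N := by
    ext t
    simp only [Set.mem_compl_iff, Set.mem_sdiff, Set.mem_union]
    tauto
  rw [e]
  refine enlarge hc ?_
  rintro ⟨x, y⟩ hx
  obtain ⟨h1, h2, h3⟩ := hN _ hx
  refine ⟨(x + 1, y), ?_, ?_⟩
  · intro h4
    rcases mem_Sd.1 h4 with ⟨h5, -⟩ | h5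
    · exact h3 h5
    · exact h2 (hor3 h hL (by omega) (by omega) h5 h1)
  · rw [adj_iff]; omega

end lay

end Crest.Agent.R158.Sh279
end
end

-- ▼ part R158/Sh3_279
section

/-!
R158, S0237, BLOCK BL, leaf (B2), file 3 (helper279): the region with a leg whose lower row ends one
tile before the upper row (state after DR, before the notch is filled)

Adapted from `Xr7_249`, `Xr9_249` (helper249): the row under the line stops at `xr - 1`.

* `SlitN`, **`stz'`**, **`wordD'`**, **`exists_GW'`**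
-/

set_option autoImplicit false
set_option linter.unusedVariables false

noncomputable section

namespace Crest.Agent.R158.Sh279

open Crest.Agent.R158.Xr249 Crest.Agent.R158.Xr249.Reg
open Crest.Agent.R158.Env664 (D Run Adj4 Mac mem_D div_iff PortOf portOf_some portOf_none res nbP beP nbD
  beD IsWord)
open Crest.Agent.R158.Ob664 (GW rgt)

/-- the hypotheses on the line, the lower row stops at `xr - 1` -/
structure SlitN (R : Reg) (p y0 xr : ℤ) : Prop where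
  pr : p < xr
  ver : ∀ x, p ≤ x → x < xr → R.v (x, y0 - 1)
  lo : ∀ x, p ≤ x → x < xr - 1 → R.h (x, y0 - 1)
  up : ∀ x, p ≤ x → x < xr → R.h (x, y0)
  wall : (xr, y0 - 1) ∉ R.P

variable {R : Reg} {p y0 xr : ℤ}

theorem glz_glue' (hs : SlitN R p y0 xr) : Glue (R.glz p y0 xr) := by
  refine ⟨?_, ?_, ?_⟩
  · rintro (- | ⟨⟨x, y⟩, d⟩) q h
    · rw [glz_none.1 h]
      exact glz_3.2 (Or.inl ⟨rfl, rfl, rfl⟩)
    · rcases d4 d with rfl | rfl | rfl | rfl
      · obtain ⟨h1, rfl⟩ := glz_0.1 h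
        exact glz_2.2 ⟨h1, by rw [sub_add_cancel]⟩
      · rcases glz_1.1 h with ⟨rfl, h1, h2, rfl⟩ | ⟨h1, h2, rfl⟩
        · exact glz_3.2 (Or.inr (Or.inl ⟨rfl, by omega, by omega, by rw [add_sub_cancel_right]⟩))
        · refine glz_3.2 (Or.inr (Or.inr ⟨?_, ?_, ?_⟩))
          · rintro ⟨h3, h4, h5⟩
            exact h1 ⟨by omega, h4, h5⟩
          · rwa [add_sub_cancel_right]
          · rw [add_sub_cancel_right]
      · obtain ⟨h1, rfl⟩ := glz_2.1 h
        exact glz_0.2 ⟨by rwa [add_sub_cancel_right], by rw [add_sub_cancel_right]⟩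
      · rcases glz_3.1 h with ⟨rfl, rfl, rfl⟩ | ⟨rfl, h1, h2, rfl⟩ | ⟨h1, h2, rfl⟩
        · exact glz_none.2 rfl
        · refine glz_1.2 (Or.inl ⟨rfl, by omega, by omega, by rw [sub_add_cancel]⟩)
        · refine glz_1.2 (Or.inr ⟨?_, h2, by rw [sub_add_cancel]⟩)
          rintro ⟨h3, h4, h5⟩
          exact h1 ⟨by omega, h4, h5⟩
  · rintro (- | ⟨⟨x, y⟩, d⟩) q q' h h'
    · rw [glz_none.1 h, glz_none.1 h']
    · rcases d4 d with rfl | rfl | rfl | rfl
      · rw [(glz_0.1 h).2, (glz_0.1 h').2]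
      · rcases glz_1.1 h with ⟨rfl, h1, h2, rfl⟩ | ⟨h1, h2, rfl⟩
        · rcases glz_1.1 h' with ⟨-, -, -, rfl⟩ | ⟨h4, -, -⟩
          · rfl
          · exact absurd ⟨rfl, h1, h2.le⟩ h4
        · rcases glz_1.1 h' with ⟨h3, h4, h5, -⟩ | ⟨h4, -, rfl⟩
          · exact absurd ⟨h3, h4, h5.le⟩ h1
          · rfl
      · rw [(glz_2.1 h).2, (glz_2.1 h').2]
      · rcases glz_3.1 h with ⟨rfl, rfl, rfl⟩ | ⟨rfl, h1, h2, rfl⟩ | ⟨h1, h2, rfl⟩
        · rcases glz_3.1 h' with ⟨-, -, rfl⟩ | ⟨-, h3, -, -⟩ | ⟨h3, -, -⟩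
          · rfl
          · omega
          · exact absurd ⟨rfl, le_refl _, hs.pr.le⟩ h3
        · rcases glz_3.1 h' with ⟨-, h3, rfl⟩ | ⟨-, h3, -, rfl⟩ | ⟨h3, -, -⟩
          · omega
          · rfl
          · exact absurd ⟨rfl, h1.le, h2⟩ h3
        · rcases glz_3.1 h' with ⟨h3, h4, -⟩ | ⟨h3, h4, h5, -⟩ | ⟨h3, -, rfl⟩
          · have := hs.pr
            exact absurd ⟨h3, by omega, by omega⟩ h1
          · exact absurd ⟨h3, by omega, by omega⟩ h1
          · rfl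
  · rintro (- | ⟨⟨x, y⟩, d⟩) q h
    · rw [glz_none.1 h]; simp
    · rcases d4 d with rfl | rfl | rfl | rfl
      · rw [(glz_0.1 h).2]; simp; omega
      · rcases glz_1.1 h with ⟨rfl, h1, h2, rfl⟩ | ⟨h1, h2, rfl⟩
        · simp
        · simp
      · rw [(glz_2.1 h).2]; simp
      · rcases glz_3.1 h with ⟨rfl, rfl, rfl⟩ | ⟨rfl, h1, h2, rfl⟩ | ⟨h1, h2, rfl⟩
        · simp
        · simp; omega
        · simp; omega

/-- the root row: the whole run of `(p, y0)`, glued to the leg -/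
lemma rowRoot' (hs : SlitN R p y0 xr) {a b : ℤ} (hr : R.IsRun a b y0) (h1 : a ≤ p) (h2 : p ≤ b) :
    RowData (R.glz p y0 xr) {none} (rw_ y0) a b p p 3 (fun _ => none) := by
  refine ⟨Or.inr rfl, h1, le_refl _, h2, ?_, ?_, ?_, ?_, ?_, ?_, ?_, ?_, ?_, ?_⟩
  · intro x y _ _ _ _ h
    exact (Prod.mk.injEq _ _ _ _ ▸ h : x = y ∧ y0 = y0).1
  · intro x _ _ h
    simp at h
  · intro x h1 h2
    exact glz_2.2 ⟨hr.gl x h1 h2, rfl⟩
  · intro q hq
    exact absurd (glz_0.1 hq).1 hr.la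
  · intro q hq
    exact absurd (glz_2.1 hq).1 hr.lb
  · intro x h1 h2 q hq hm
    rcases glz_1.1 (show R.glz p y0 xr (some ((x, y0), 1)) q from hq) with ⟨h3, -⟩ | ⟨-, -, rfl⟩
    · omega
    · rcases hm with hm | ⟨z, _, _, hm⟩
      · simp at hm
      · simp [rw_] at hm
  · intro x h3 h4
    have : x = p := le_antisymm h4 h3
    subst this
    exact ⟨glz_3.2 (Or.inl ⟨rfl, rfl, rfl⟩), rfl⟩
  · intro x h3 h4 h5 q hq hm
    rcases glz_3.1 (show R.glz p y0 xr (some ((x, y0), 3)) q from hq) with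
      ⟨-, h6, -⟩ | ⟨-, h6, h7, rfl⟩ | ⟨-, -, rfl⟩
    · omega
    · rcases hm with hm | ⟨z, _, _, hm⟩
      · simp at hm
      · simp only [tl_some, rw_, Option.some.injEq, Prod.mk.injEq] at hm
        omega
    · rcases hm with hm | ⟨z, _, _, hm⟩
      · simp at hm
      · simp only [tl_some, rw_, Option.some.injEq, Prod.mk.injEq] at hm
        omega
  · intro _ x h3 h4; omega
  · intro _ x h3 h4; omega

/-- attaching a run that touches `Q` below -/
lemma rowBelowz' (hs : SlitN R p y0 xr) {Q : Set (ℤ × ℤ)} {a b t u v : ℤ} (hr : R.IsRun a b t)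
    (hd : ∀ x, a ≤ x → x ≤ b → (x, t) ∉ Q) (hb : R.Below Q a b t u v)
    (hQp : ∀ x, p ≤ x → x ≤ xr → (x, y0) ∈ Q) :
    RowData (R.glz p y0 xr) (A0 Q) (rw_ t) a b u v 3 (fun x => some ((x, t - 1), 1)) := by
  have e1 : ∀ x, a ≤ x → x ≤ b → t = y0 → ¬ (p ≤ x ∧ x ≤ xr) := by
    rintro x h1 h2 rfl ⟨h3, h4⟩
    exact hd x h1 h2 (hQp x h3 h4)
  have e2 : ∀ x, a ≤ x → x ≤ b → t = y0 - 1 → ¬ (p ≤ x ∧ x ≤ xr) := by
    rintro x h1 h2 rfl ⟨h3, h4⟩
    have h5 : x ≠ xr := by rintro rfl; exact hs.wall (hr.mem h1 h2)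
    refine hb.free x h1 h2 ⟨hs.ver x h3 (by omega), ?_⟩
    rw [sub_add_cancel]
    exact hQp x h3 h4
  have k1 := hb.au
  have k2 := hb.vb
  refine ⟨Or.inr rfl, hb.au, hb.uv, hb.vb, ?_, ?_, ?_, ?_, ?_, ?_, ?_, ?_, ?_, ?_⟩
  · intro x y _ _ _ _ h
    exact (Prod.mk.injEq _ _ _ _ ▸ h : x = y ∧ t = t).1
  · intro x h1 h2 h3
    exact hd x h1 h2 (mem_A0.1 h3)
  · intro x h1 h2
    exact glz_2.2 ⟨hr.gl x h1 h2, rfl⟩
  · intro q hq
    exact absurd (glz_0.1 hq).1 hr.la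
  · intro q hq
    exact absurd (glz_2.1 hq).1 hr.lb
  · intro x h1 h2 q hq hm
    rcases glz_1.1 (show R.glz p y0 xr (some ((x, t), 1)) q from hq) with
      ⟨h3, h4, h5, -⟩ | ⟨-, h3, rfl⟩
    · exact e2 x h1 h2 h3 ⟨h4, h5.le⟩
    · rcases mem_A0r.1 hm with h4 | h4
      · exact hb.free x h1 h2 ⟨h3, h4⟩
      · have := h4.2.2; simp only at this; omega
  · intro x h1 h2
    refine ⟨glz_3.2 (Or.inr (Or.inr ⟨?_, (hb.con x h1 h2).1, rfl⟩)), mem_A0.2 (hb.con x h1 h2).2⟩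
    rintro ⟨h3, h4⟩
    exact e1 x (by omega) (by omega) h3 h4
  · intro x h1 h2 h3 q hq hm
    rcases glz_3.1 (show R.glz p y0 xr (some ((x, t), 3)) q from hq) with
      ⟨h6, h7, -⟩ | ⟨h5, h6, h7, -⟩ | ⟨-, h4, rfl⟩
    · exact e1 x h1 h2 h6 ⟨by omega, by have := hs.pr; omega⟩
    · exact e1 x h1 h2 h5 ⟨by omega, by omega⟩
    · rcases mem_A0r.1 hm with h5 | h5
      · exact hb.out x h1 h2 h3 ⟨h4, h5⟩
      · have := h5.2.2; simp only at this; omega
  · intro _ x h1 h2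
    have c1 := hb.con x h1 (by omega)
    have c2 := hb.con (x + 1) (by omega) (by omega)
    refine .go (q := some ((x + 1, t - 1), 0)) ⟨?_, mem_A0.2 c1.2, mem_A0.2 c2.2⟩ ?_
    · rw [rot_some]
      exact glz_2.2 ⟨hb.hor x h1 h2, rfl⟩
    · refine .stop (p := some ((x + 1, t - 1), 0)) fun q hq => ?_
      rw [rot_some] at hq
      rcases glz_1.1 (show R.glz p y0 xr (some ((x + 1, t - 1), 1)) q from hq.1) with
        ⟨h3, h4, h5, -⟩ | ⟨-, -, h5⟩
      · exact e1 (x + 1) (by omega) (by omega) (by omega) ⟨h4, h5.le⟩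
      · rw [sub_add_cancel] at h5
        rw [h5] at hq
        exact hd (x + 1) (by omega) (by omega) (mem_A0.1 hq.2.2)
  · intro h; exact absurd h (by decide)

/-- attaching a run that touches `Q` above, not at the shifted line -/
lemma rowAbovez' (hs : SlitN R p y0 xr) {Q : Set (ℤ × ℤ)} {a b t u v : ℤ} (hr : R.IsRun a b t)
    (hd : ∀ x, a ≤ x → x ≤ b → (x, t) ∉ Q) (hb : R.Above Q a b t u v)
    (hQp : ∀ x, p ≤ x → x ≤ xr → (x, y0) ∈ Q)
    (e2 : ∀ x, a ≤ x → x ≤ b → t = y0 - 1 → ¬ (p ≤ x ∧ x ≤ xr)) :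
    RowData (R.glz p y0 xr) (A0 Q) (rw_ t) a b u v 1 (fun x => some ((x, t + 1), 3)) := by
  have e1 : ∀ x, a ≤ x → x ≤ b → t = y0 → ¬ (p ≤ x ∧ x ≤ xr) := by
    rintro x h1 h2 rfl ⟨h3, h4⟩
    exact hd x h1 h2 (hQp x h3 h4)
  have k1 := hb.au
  have k2 := hb.vb
  refine ⟨Or.inl rfl, hb.au, hb.uv, hb.vb, ?_, ?_, ?_, ?_, ?_, ?_, ?_, ?_, ?_, ?_⟩
  · intro x y _ _ _ _ h
    exact (Prod.mk.injEq _ _ _ _ ▸ h : x = y ∧ t = t).1
  · intro x h1 h2 h3
    exact hd x h1 h2 (mem_A0.1 h3)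
  · intro x h1 h2
    exact glz_2.2 ⟨hr.gl x h1 h2, rfl⟩
  · intro q hq
    exact absurd (glz_0.1 hq).1 hr.la
  · intro q hq
    exact absurd (glz_2.1 hq).1 hr.lb
  · intro x h1 h2 q hq hm
    rcases glz_3.1 (show R.glz p y0 xr (some ((x, t), 3)) q from hq) with
      ⟨h6, h7, -⟩ | ⟨h5, h6, h7, -⟩ | ⟨-, h3, rfl⟩
    · exact e1 x h1 h2 h6 ⟨by omega, by have := hs.pr; omega⟩
    · exact e1 x h1 h2 h5 ⟨by omega, by omega⟩
    · rcases mem_A0r.1 hm with h4 | h4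
      · exact hb.free x h1 h2 ⟨h3, h4⟩
      · have := h4.2.2; simp only at this; omega
  · intro x h1 h2
    refine ⟨glz_1.2 (Or.inr ⟨?_, (hb.con x h1 h2).1, rfl⟩), mem_A0.2 (hb.con x h1 h2).2⟩
    rintro ⟨h3, h4⟩
    exact e2 x (by omega) (by omega) h3 h4
  · intro x h1 h2 h3 q hq hm
    rcases glz_1.1 (show R.glz p y0 xr (some ((x, t), 1)) q from hq) with
      ⟨h4, h5, h6, -⟩ | ⟨-, h4, rfl⟩
    · exact e2 x h1 h2 h4 ⟨h5, h6.le⟩
    · rcases mem_A0r.1 hm with h5 | h5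
      · exact hb.out x h1 h2 h3 ⟨h4, h5⟩
      · have := h5.2.2; simp only at this; omega
  · intro h; exact absurd h (by decide)
  · intro _ x h1 h2
    have c1 := hb.con x h1 (by omega)
    have c2 := hb.con (x + 1) (by omega) (by omega)
    refine .go (q := some ((x, t + 1), 2)) ⟨?_, mem_A0.2 c2.2, mem_A0.2 c1.2⟩ ?_
    · rw [rot_some, show (3 : ZMod 4) + 1 = 0 by decide]
      refine glz_0.2 ⟨?_, ?_⟩
      · rw [add_sub_cancel_right]; exact hb.hor x h1 h2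
      · rw [add_sub_cancel_right]
    · refine .stop (p := some ((x, t + 1), 2)) fun q hq => ?_
      rw [rot_some] at hq
      rcases glz_3.1 (show R.glz p y0 xr (some ((x, t + 1), 3)) q from hq.1) with
        ⟨h6, h7, -⟩ | ⟨h5, h6, h7, -⟩ | ⟨-, h4, h5⟩
      · exact e2 x (by omega) (by omega) (by omega) ⟨by omega, by have := hs.pr; omega⟩
      · exact e2 x (by omega) (by omega) (by omega) ⟨by omega, by omega⟩
      · rw [add_sub_cancel_right] at h5
        rw [h5] at hq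
        exact hd x (by omega) (by omega) (mem_A0.1 hq.2.2)

/-- attaching the run under the shifted line -/
lemma rowLine' (hs : SlitN R p y0 xr) {Q : Set (ℤ × ℤ)} (hQ : R.Good Q) {a b u v : ℤ}
    (hr : R.IsRun a b (y0 - 1))
    (hd : ∀ x, a ≤ x → x ≤ b → (x, y0 - 1) ∉ Q) (hb : R.Above Q a b (y0 - 1) u v)
    (hQp : ∀ x, p ≤ x → x ≤ xr → (x, y0) ∈ Q) (hap : a ≤ p) (hxb : xr - 1 ≤ b) :
    RowData (R.glz p y0 xr) (A0 Q) (rw_ (y0 - 1)) a b u (xr - 1) 1
      (fun x => if x < p then some ((x, y0), 3) else some ((x + 1, y0), 3)) := by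
  have hpr := hs.pr
  have k1 := hb.au
  have k2 := hb.vb
  have hcon : ∀ x, u ≤ x → x ≤ v → R.v (x, y0 - 1) ∧ (x, y0) ∈ Q := by
    intro x h1 h2
    have := hb.con x h1 h2
    rwa [sub_add_cancel] at this
  have hhor : ∀ x, u ≤ x → x < v → R.h (x, y0) := by
    intro x h1 h2
    have := hb.hor x h1 h2
    rwa [sub_add_cancel] at this
  have hout : ∀ x, a ≤ x → x ≤ b → R.v (x, y0 - 1) → (x, y0) ∈ Q → u ≤ x ∧ x ≤ v := by
    intro x h1 h2 h3 h4
    by_contra h5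
    refine hb.out x h1 h2 h5 ⟨h3, ?_⟩
    rwa [sub_add_cancel]
  have hup : u ≤ p ∧ p ≤ v :=
    hout p hap (by omega) (hs.ver p (le_refl _) hpr) (hQp p (le_refl _) hpr.le)
  have hxr : u ≤ xr - 1 ∧ xr - 1 ≤ v :=
    hout (xr - 1) (by omega) (by omega) (hs.ver (xr - 1) (by omega) (by omega))
      (hQp (xr - 1) (by omega) (by omega))
  have hb1 : b = xr - 1 := by
    have h1 : ¬ xr ≤ b := fun h => hs.wall (hr.mem (by omega) h)
    omega
  have hv : v = xr - 1 := by omega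
  have hcon' : ∀ x, u ≤ x → x ≤ xr → (x, y0) ∈ Q := by
    intro x h1 h2
    by_cases h3 : x = xr
    · exact hQp x (by omega) h2
    · exact (hcon x h1 (by omega)).2
  have hhor' : ∀ x, u ≤ x → x < xr → R.h (x, y0) := by
    intro x h1 h2
    by_cases h3 : x = xr - 1
    · exact hs.up x (by omega) h2
    · exact hhor x h1 (by omega)
  have hu : u ≤ xr - 1 := by omega
  have hcv : ∀ x, u ≤ x → x < xr → R.v (x, y0 - 1) := fun x h1 h2 => (hcon x h1 (by omega)).1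
  have hmem := hcon'
  have hne : ∀ x : ℤ, (some ((x, y0), (3 : ZMod 4)) : Port (ℤ × ℤ)) = rot (some ((x, y0), 2)) := by
    intro x; rw [rot_some]; rfl
  -- a port `(x, y0).S` of the upper row is not glued to the built part
  have hfree : ∀ x, u ≤ x → x ≤ xr → x ≠ p → ∀ q, ¬ GA (R.glz p y0 xr) (A0 Q) (some ((x, y0), 3)) q := by
    rintro x h1 h2 h3 q ⟨h4, -, h5⟩
    rcases glz_3.1 h4 with ⟨-, h6, -⟩ | ⟨-, h6, h7, rfl⟩ | ⟨h8, h6, rfl⟩
    · exact h3 h6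
    · exact hd (x - 1) (by omega) (by omega) (mem_A0.1 h5)
    · have h9 : x < p := by
        by_contra hc
        exact h8 ⟨rfl, by omega, h2⟩
      exact hd x (by omega) (by omega) (mem_A0.1 h5)
  refine ⟨Or.inl rfl, hb.au, hu, by omega, ?_, ?_, ?_, ?_, ?_, ?_, ?_, ?_, ?_, ?_⟩
  · intro x y _ _ _ _ h
    exact (Prod.mk.injEq _ _ _ _ ▸ h : x = y ∧ y0 - 1 = y0 - 1).1
  · intro x h1 h2 h3
    exact hd x h1 h2 (mem_A0.1 h3)
  · intro x h1 h2
    exact glz_2.2 ⟨hr.gl x h1 h2, rfl⟩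
  · intro q hq
    exact absurd (glz_0.1 hq).1 hr.la
  · intro q hq
    exact absurd (glz_2.1 hq).1 hr.lb
  · intro x h1 h2 q hq hm
    rcases glz_3.1 (show R.glz p y0 xr (some ((x, y0 - 1), 3)) q from hq) with
      ⟨h6, -⟩ | ⟨h6, -⟩ | ⟨-, h3, rfl⟩
    · omega
    · omega
    · rcases mem_A0r.1 hm with h4 | h4
      · exact hb.free x h1 h2 ⟨h3, h4⟩
      · have := h4.2.2; simp only at this; omega
  · intro x h1 h2
    by_cases hx : x < p
    · rw [if_pos hx]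
      refine ⟨glz_1.2 (Or.inr ⟨?_, hcv x h1 (by omega), by rw [sub_add_cancel]⟩),
        mem_A0.2 (hmem x h1 (by omega))⟩
      rintro ⟨-, h3, -⟩
      omega
    · rw [if_neg hx]
      exact ⟨glz_1.2 (Or.inl ⟨rfl, by omega, by omega, rfl⟩), mem_A0.2 (hmem (x + 1) (by omega) (by omega))⟩
  · intro x h1 h2 h3 q hq hm
    rcases glz_1.1 (show R.glz p y0 xr (some ((x, y0 - 1), 1)) q from hq) with
      ⟨h4, h5, h6, -⟩ | ⟨h4, h5, rfl⟩
    · omega
    · rw [sub_add_cancel] at hm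
      rcases mem_A0r.1 hm with h6 | h6
      · have := hout x h1 h2 h5 h6
        omega
      · have := h6.2.2; simp only at this; omega
  · intro h; exact absurd h (by decide)
  · intro _ x h1 h2
    by_cases hx : x + 1 < p
    · rw [if_pos hx, if_pos (by omega)]
      refine .go (q := some ((x, y0), 2)) ⟨?_, mem_A0.2 (hmem _ (by omega) (by omega)),
        mem_A0.2 (hmem _ (by omega) (by omega))⟩ ?_
      · rw [rot_some, show (3 : ZMod 4) + 1 = 0 by decide]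
        refine glz_0.2 ⟨?_, ?_⟩
        · rw [add_sub_cancel_right]; exact hhor' x h1 (by omega)
        · rw [add_sub_cancel_right]
      · rw [hne]
        refine .stop fun q hq => ?_
        rw [← hne] at hq
        exact hfree x (by omega) (by omega) (by omega) q hq
    · by_cases hx2 : x + 1 = p
      · -- the leg is passed
        subst hx2
        rw [if_neg (by omega), if_pos (by omega)]
        refine .go (q := some ((x + 1, y0), 2)) ⟨?_, mem_A0.2 (hmem _ (by omega) (by omega)),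
          mem_A0.2 (hmem _ (by omega) (by omega))⟩ ?_
        · rw [rot_some, show (3 : ZMod 4) + 1 = 0 by decide]
          refine glz_0.2 ⟨?_, ?_⟩
          · rw [add_sub_cancel_right]; exact hhor' (x + 1) (by omega) (by omega)
          · rw [add_sub_cancel_right]
        refine .go (q := none) ⟨?_, mem_A0.2 (hmem _ (by omega) (by omega)), none_A0⟩ ?_
        · rw [← hne]
          exact glz_3.2 (Or.inl ⟨rfl, rfl, rfl⟩)
        refine .go (q := some ((x + 1, y0), 3)) ⟨?_, none_A0,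
          mem_A0.2 (hmem _ (by omega) (by omega))⟩ ?_
        · rw [rot_none]
          exact glz_none.2 rfl
        refine .go (q := some ((x, y0), 2)) ⟨?_, mem_A0.2 (hmem _ (by omega) (by omega)),
          mem_A0.2 (hmem _ (by omega) (by omega))⟩ ?_
        · rw [rot_some, show (3 : ZMod 4) + 1 = 0 by decide]
          refine glz_0.2 ⟨?_, ?_⟩
          · rw [add_sub_cancel_right]; exact hhor' x (by omega) (by omega)
          · rw [add_sub_cancel_right]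
        rw [hne]
        refine .stop fun q hq => ?_
        rw [← hne] at hq
        exact hfree x (by omega) (by omega) (by omega) q hq
      · rw [if_neg (by omega), if_neg (by omega)]
        refine .go (q := some ((x + 1, y0), 2)) ⟨?_, mem_A0.2 (hmem _ (by omega) (by omega)),
          mem_A0.2 (hmem _ (by omega) (by omega))⟩ ?_
        · rw [rot_some, show (3 : ZMod 4) + 1 = 0 by decide]
          refine glz_0.2 ⟨?_, ?_⟩
          · rw [add_sub_cancel_right]; exact hhor' (x + 1) (by omega) (by omega)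
          · rw [add_sub_cancel_right]
        rw [hne]
        refine .stop fun q hq => ?_
        rw [← hne] at hq
        exact hfree (x + 1) (by omega) (by omega) (by omega) q hq

/-- **the region with a leg is a word** -/
theorem stz' (hs : SlitN R p y0 xr) (hsc : R.SC) (hc : R.Conn) :
    St none (R.glz p y0 xr) (A0 (R.P : Set (ℤ × ℤ))) := by
  have hG := glz_glue' hs
  have hpP : (p, y0) ∈ R.P := by
    have := (R.vP _ _ (hs.ver p (le_refl _) hs.pr)).2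
    rwa [sub_add_cancel] at this
  obtain ⟨a0, b0, h1, h2, hr0⟩ := exists_run hpP
  have hcov := hr0.cover hs.up (le_refl p) hs.pr.le h1 h2
  refine grow hsc hc hr0 (fun Q => St none (R.glz p y0 xr) (A0 Q)) ?_ ?_
  · have := (St.base (b := none) hG).attach_row hG (rowRoot' hs hr0 h1 h2)
    have e : ({none} : Set (Option (ℤ × ℤ))) ∪ Row (rw_ y0) a0 b0 = A0 (cells a0 b0 y0) := by
      rw [Row_eq, A0]; rfl
    rwa [e] at this
  · intro Q a b t hF hQ hsub hr hd hcon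
    have hQp : ∀ x, p ≤ x → x ≤ xr → (x, y0) ∈ Q := fun x h3 h4 =>
      hsub ⟨by simp only; omega, by simp only; omega, rfl⟩
    rw [← A0_union]
    rcases hcon with ⟨u, v, hb⟩ | ⟨u, v, hb⟩
    · exact hF.attach_row hG (rowBelowz' hs hr hd hb hQp)
    · by_cases hp : t = y0 - 1 ∧ ∃ x, a ≤ x ∧ x ≤ b ∧ p ≤ x ∧ x ≤ xr
      · obtain ⟨rfl, x, g1, g2, g3, g4⟩ := hp
        have g5 : x ≠ xr := by rintro rfl; exact hs.wall (hr.mem g1 g2)
        have := hr.cover hs.lo g3 (by omega) g1 g2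
        exact hF.attach_row hG (rowLine' hs hQ hr hd hb hQp this.1 this.2)
      · refine hF.attach_row hG (rowAbovez' hs hr hd hb hQp ?_)
        rintro x g1 g2 g3 ⟨g4, g5⟩
        exact hp ⟨g3, x, g1, g2, g4, g5⟩

lemma glz_mem' (hs : SlitN R p y0 xr) {a b : Port (ℤ × ℤ)} (h : R.glz p y0 xr a b) :
    tl a ∈ A0 (R.P : Set (ℤ × ℤ)) := by
  rcases a with - | ⟨⟨x, y⟩, d⟩
  · exact none_A0
  · refine mem_A0.2 (show (x, y) ∈ R.P from ?_)
    rcases d4 d with rfl | rfl | rfl | rfl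
    · have := (R.hP _ _ (glz_0.1 h).1).2
      rwa [sub_add_cancel] at this
    · rcases glz_1.1 h with ⟨rfl, h1, h2, rfl⟩ | ⟨-, h1, rfl⟩
      · exact (R.vP _ _ (hs.ver x h1 h2)).1
      · exact (R.vP _ _ h1).1
    · exact (R.hP _ _ (glz_2.1 h).1).1
    · rcases glz_3.1 h with ⟨rfl, rfl, rfl⟩ | ⟨rfl, h1, h2, rfl⟩ | ⟨-, h1, rfl⟩
      · have := (R.vP _ _ (hs.ver x (le_refl _) hs.pr)).2
        rwa [sub_add_cancel] at this
      · have := (R.hP _ _ (hs.up (x - 1) (by omega) (by omega))).2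
        rwa [sub_add_cancel] at this
      · have := (R.vP _ _ h1).2
        rwa [sub_add_cancel] at this

lemma glz_GA' (hs : SlitN R p y0 xr) : GA (R.glz p y0 xr) (A0 (R.P : Set (ℤ × ℤ))) = R.glz p y0 xr := by
  funext a b
  refine propext ⟨fun h => h.1, fun h => ⟨h, glz_mem' hs h, glz_mem' hs ((glz_glue' hs).sym _ _ h)⟩⟩


section word

variable {A : Finset (ℤ × ℤ)}

/-- glueing with leg = `glz` of `full A` -/
lemma gb_beD' {p y0 xr : ℤ} (hpr : p < xr) (hv : ∀ x, p ≤ x → x < xr → (x, y0 - 1) ∈ A ∧ (x, y0) ∈ A)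
    (hx : (xr, y0) ∈ A) (hx' : (xr, y0 - 1) ∉ A)
    (hw : (xr + 1, y0) ∉ A) : gb (beD A p y0 xr) = (full A).glz p y0 xr := by
  have hp0 := (hv p (le_refl _) hpr).2
  have hu : ∀ x, p ≤ x → x ≤ xr → (x, y0) ∈ A := by
    intro x h1 h2
    by_cases h3 : x = xr
    · rw [h3]; exact hx
    · exact (hv x h1 (by omega)).2
  funext a q
  refine propext ?_
  rcases a with - | ⟨⟨x, y⟩, d⟩
  · rw [Reg.glz_none, gb, beD, res, Env664.nbD_leg, if_pos ⟨portOf_none A, portOf_some.2 hp0⟩]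
    constructor
    · rintro ⟨h1, -⟩; exact h1.symm
    · rintro rfl; exact ⟨rfl, by simp⟩
  · have key : ∀ r : Port (ℤ × ℤ), nbD p y0 xr (some ((x, y), d)) = r → some ((x, y), d) ≠ r →
        (gb (beD A p y0 xr) (some ((x, y), d)) q ↔ ((x, y) ∈ A ∧ PortOf A r) ∧ q = r) := by
      rintro r h1 h2
      rw [beD, gb_res h1 h2, portOf_some]
    rcases Reg.d4 d with rfl | rfl | rfl | rfl
    · rw [Reg.glz_0, key _ Env664.nbD_W (by simp; omega), portOf_some]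
      refine and_congr ?_ Iff.rfl
      rw [full_h, sub_add_cancel, and_comm]
    · by_cases hc : y = y0 - 1 ∧ p ≤ x ∧ x ≤ xr
      · rw [Reg.glz_1, key _ (Env664.nbD_N1 hc) (by simp), portOf_some]
        obtain ⟨rfl, hc1, hc2⟩ := hc
        constructor
        · rintro ⟨⟨h1, h2⟩, h3⟩
          have h4 : x ≠ xr := by rintro rfl; exact hw h2
          exact Or.inl ⟨rfl, hc1, by omega, h3⟩
        · rintro (⟨-, -, h1, h2⟩ | ⟨h1, -⟩)
          · exact ⟨⟨(hv x hc1 h1).1, hu (x + 1) (by omega) (by omega)⟩, h2⟩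
          · exact absurd ⟨rfl, hc1, hc2⟩ h1
      · rw [Reg.glz_1, key _ (Env664.nbD_N hc) (by simp), portOf_some]
        constructor
        · rintro ⟨h1, h2⟩
          exact Or.inr ⟨hc, h1, h2⟩
        · rintro (⟨h1, h2, h3, -⟩ | ⟨-, h1, h2⟩)
          · exact absurd ⟨h1, h2, h3.le⟩ hc
          · exact ⟨h1, h2⟩
    · rw [Reg.glz_2, key _ Env664.nbD_E (by simp), portOf_some]
      exact Iff.rfl
    · rw [Reg.glz_3]
      by_cases hc : y = y0 ∧ x = p
      · rw [key _ (Env664.nbD_Sleg hc) (by simp)]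
        obtain ⟨rfl, rfl⟩ := hc
        constructor
        · rintro ⟨-, h1⟩
          exact Or.inl ⟨rfl, rfl, h1⟩
        · rintro (⟨-, -, h1⟩ | ⟨-, h1, -⟩ | ⟨h1, -⟩)
          · exact ⟨⟨hp0, portOf_none A⟩, h1⟩
          · omega
          · exact absurd ⟨rfl, le_refl _, hpr.le⟩ h1
      · by_cases hc2 : y = y0 ∧ p < x ∧ x ≤ xr
        · rw [key _ (Env664.nbD_S1 hc2) (by simp; omega), portOf_some]
          obtain ⟨rfl, h1, h2⟩ := hc2
          constructor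
          · rintro ⟨-, h3⟩
            exact Or.inr (Or.inl ⟨rfl, h1, h2, h3⟩)
          · rintro (⟨-, h3, -⟩ | ⟨-, -, -, h3⟩ | ⟨h3, -⟩)
            · omega
            · exact ⟨⟨hu x h1.le h2, (hv (x - 1) (by omega) (by omega)).1⟩, h3⟩
            · exact absurd ⟨rfl, h1.le, h2⟩ h3
        · rw [key _ (Env664.nbD_S ⟨by omega, hc⟩) (by simp; omega), portOf_some]
          constructor
          · rintro ⟨h1, h2⟩
            refine Or.inr (Or.inr ⟨by omega, ?_, h2⟩)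
            rw [full_v, sub_add_cancel]
            exact h1.symm
          · rintro (⟨h1, h2, -⟩ | ⟨h1, h2, h3, -⟩ | ⟨-, h1, h2⟩)
            · exact absurd ⟨h1, h2⟩ hc
            · exact absurd ⟨h1, h2, h3⟩ hc2
            · rw [full_v, sub_add_cancel] at h1
              exact ⟨h1.symm, h2⟩

/-- **region with leg as a word**, the row under the line stops at `xr - 1` -/
theorem wordD' (hsc : (full A).SC) (hc : (full A).Conn) {p y0 xr : ℤ} (hpr : p < xr)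
    (hv : ∀ x, p ≤ x → x < xr → (x, y0 - 1) ∈ A ∧ (x, y0) ∈ A) (hx : (xr, y0) ∈ A)
    (hx' : (xr, y0 - 1) ∉ A) (hw : (xr + 1, y0) ∉ A) :
    ∃ w l, Wrd w l A (beD A p y0 xr) ∧ bas w = none ∧ Sw300.L w = l ∧
      some ((xr - 1, y0 - 1), 2) ∈ l := by
  have hu : ∀ x, p ≤ x → x ≤ xr → (x, y0) ∈ A := by
    intro x h1 h2
    by_cases h3 : x = xr
    · rw [h3]; exact hx
    · exact (hv x h1 (by omega)).2
  have hs : SlitN (full A) p y0 xr := by
    refine ⟨hpr, ?_, ?_, ?_, hx'⟩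
    · intro x h1 h2
      rw [full_v, sub_add_cancel]
      exact hv x h1 h2
    · intro x h1 h2
      exact ⟨(hv x h1 (by omega)).1, (hv (x + 1) (by omega) (by omega)).1⟩
    · intro x h1 h2
      exact ⟨(hv x h1 h2).2, hu (x + 1) (by omega) (by omega)⟩
  have e := gb_beD' hpr hv hx hx' hw
  obtain ⟨c, hw'⟩ := stz' hs hsc hc
  rw [glz_GA' hs, ← e] at hw'
  obtain ⟨w, hw2⟩ := hw'.adapt (by intro t ht; cases ht)
  have hnone : none ∉ c := by
    intro h
    refine ((hw'.inv.mem none).1 h).2 (some ((p, y0), 3)) ?_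
    rw [e]
    exact Reg.glz_none.2 rfl
  obtain ⟨l, h5, -, -⟩ := hw2.wrd hw'.inv (A := A)
    (fun t => by rw [Reg.mem_A0]; exact_mod_cast Iff.rfl) (fun x hx => res_not hx)
    (fun x hx => by
      have h7 : gb (beD A p y0 xr) x (beD A p y0 xr x) := ⟨rfl, fun h => hx h.symm⟩
      rw [e] at h7
      exact Reg.glz_face h7) hnone
  refine ⟨w, l, h5, hw2.bas, ?_, ?_⟩
  · have := h5.L
    rw [hw2.bas] at this
    simpa [Xr249.mk] using this
  · rw [h5.mem]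
    refine ⟨⟨by simp, portOf_some.2 (hv (xr - 1) (by omega) (by omega)).1⟩, ?_⟩
    by_contra h
    have h7 : gb (beD A p y0 xr) (some ((xr - 1, y0 - 1), 2))
        (beD A p y0 xr (some ((xr - 1, y0 - 1), 2))) := ⟨rfl, fun h' => h h'.symm⟩
    rw [e] at h7
    have h8 := (Reg.glz_2.1 h7).1
    rw [full_h, sub_add_cancel] at h8
    exact hx' h8.2

/-- **existence of a good word**, the row under the line stops at `xr - 1` -/
theorem exists_GW' (hsc : (full A).SC) (hc : (full A).Conn) {p y0 xr : ℤ} (hpr : p < xr)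
    (hv : ∀ x, p ≤ x → x < xr → (x, y0 - 1) ∈ A ∧ (x, y0) ∈ A) (hx : (xr, y0) ∈ A)
    (hx' : (xr, y0 - 1) ∉ A) (hw : (xr + 1, y0) ∉ A) :
    ∃ w, GW A (beD A p y0 xr) w := by
  obtain ⟨w, l, h1, h2, -, h3⟩ := wordD' hsc hc hpr hv hx hx' hw
  exact ⟨w, h1.gw h2 (List.ne_nil_of_mem h3)⟩

end word

end Crest.Agent.R158.Sh279
end
end

-- ▼ part R158/Sh4_279

/-!
R158, S0237, BLOCK BL, leaf (B2), file 4 (helper279): words of all regions of the BL chains

`M : Mac`, `Hang M.F H k i0 i1 up`, `NoPinch M.F`, `8 ≤ L`, `δ = 0, 1, -1`.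

* `D_cn`, `D_cc` : the plain polyomino
* **`lay_reg`** : `shD F H L δ ∪ S` (`S ⊆ RL` or `S ⊆ LL`): `SC`, `Conn`
* **`notch_reg`** : `shD F H L δ \ N` (`N` right wall tiles of the part that is not moved): `SC`, `Conn`
* **`lay_GW`**, **`notch_GW`**, **`notch_GW'`** : good words for the slit in a run that is not moved,
  with the value of `rgt`
* **`D_notch_GW`**, **`D_notch_GW'`** : the same without hanging part (same run)
-/

set_option autoImplicit false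

noncomputable section

namespace Crest.Agent.R158.Sh279

open Crest.Agent.R158.Xr249 (CPath full full_Conn SC_of_cc D_cpath lift_path exists_GW)
open Crest.Agent.R158.Env664 (D Run Adj4 Mac mem_D div_iff beD)
open Crest.Agent.R158.Ob664 (GW rgt rgt_not_mem rgt_mem)
open Crest.Agent.R158.Hb656

theorem D_cn (M : Mac) {L : ℤ} (hL : 8 ≤ L) : Cn {t | t ∈ D M.F L} := by
  intro a ha b hb
  have hL' : 0 < L := by omega
  have ha' := (mem_D hL' a).1 ha
  have hb' := (mem_D hL' b).1 hb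
  refine lift_path hL' (Y := {t | t ∈ M.F}) (fun t ht => ?_) (M.conn _ ha' _ hb') ha' rfl rfl
  exact (mem_D hL' t).2 ht

theorem D_cc (M : Mac) {L : ℤ} (hL : 8 ≤ L) : Cn {t | t ∉ D M.F L} :=
  fun _ ha _ hb => D_cpath M (by omega) ha hb

theorem SC_of_cn {A : Finset (ℤ × ℤ)} (h : Cn {t | t ∉ A}) : (full A).SC := SC_of_cc h

theorem Conn_of_cn {A : Finset (ℤ × ℤ)} (h : Cn {t | t ∈ A}) : (full A).Conn := full_Conn h

/-- right end of a run -/
theorem rgt_eq {A : Finset (ℤ × ℤ)} {p xr y : ℤ} (hp : p ≤ xr) (h : ∀ x, p ≤ x → x ≤ xr → (x, y) ∈ A)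
    (hw : (xr + 1, y) ∉ A) : rgt A p y = xr := by
  rcases lt_trichotomy (rgt A p y) xr with h1 | h1 | h1
  · have h2 := Ob664.le_rgt A p y
    exact absurd (h _ (by omega) (by omega)) (rgt_not_mem A p y)
  · exact h1
  · exact absurd (rgt_mem (h p (le_refl _) hp) (by omega) (by omega)) hw

section reg

variable {M : Mac} {H : Finset (ℤ × ℤ)} {k i0 i1 L δ : ℤ} {up : Bool}

/-- **`shD ∪ S`** -/
theorem lay_cn_cc (h : Hang M.F H k i0 i1 up) (np : NoPinch M.F) (hL : 8 ≤ L)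
    (hδ : δ = 0 ∨ δ = 1 ∨ δ = -1) {S : Finset (ℤ × ℤ)}
    (hS : S ⊆ RL M.F H L δ ∨ S ⊆ LL M.F H L δ) :
    Cn {t | t ∈ shD M.F H L δ ∪ S} ∧ Cn {t | t ∉ shD M.F H L δ ∪ S} := by
  obtain ⟨σ, hσ, hN⟩ : ∃ σ : ℤ, (σ = 1 ∨ σ = -1) ∧ (S : Set (ℤ × ℤ)) ⊆ Lay M.F H L δ σ := by
    rcases hS with hS | hS
    · exact ⟨1, Or.inl rfl, fun t ht => RL_Lay (hS ht)⟩
    · exact ⟨-1, Or.inr rfl, fun t ht => LL_Lay (hS ht)⟩
  have e1 : {t | t ∈ shD M.F H L δ ∪ S} = Sd M.F H L δ ∪ S := by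
    ext t; simp [Sd]
  have e2 : {t | t ∉ shD M.F H L δ ∪ S} = (Sd M.F H L δ ∪ S)ᶜ := by
    rw [← e1]; rfl
  rw [e1, e2]
  exact ⟨lay_cn hN hσ (shD_cn h hL (D_cn M hL) hδ),
    lay_cc h np hL hN hσ hδ (shD_cc h hL (D_cc M hL) hδ)⟩

/-- **`shD ∪ S` as a region** -/
theorem lay_reg (h : Hang M.F H k i0 i1 up) (np : NoPinch M.F) (hL : 8 ≤ L)
    (hδ : δ = 0 ∨ δ = 1 ∨ δ = -1) {S : Finset (ℤ × ℤ)}
    (hS : S ⊆ RL M.F H L δ ∨ S ⊆ LL M.F H L δ) :
    (full (shD M.F H L δ ∪ S)).SC ∧ (full (shD M.F H L δ ∪ S)).Conn :=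
  ⟨SC_of_cn (lay_cn_cc h np hL hδ hS).2, Conn_of_cn (lay_cn_cc h np hL hδ hS).1⟩

/-- **`shD \ N`** -/
theorem notch_cn_cc (h : Hang M.F H k i0 i1 up) (np : NoPinch M.F) (hL : 8 ≤ L)
    (hδ : δ = 0 ∨ δ = 1 ∨ δ = -1) {N : Finset (ℤ × ℤ)}
    (hN : ∀ t ∈ N, t ∈ D M.F L ∧ t ∉ D H L ∧ (t.1 + 1, t.2) ∉ D M.F L) :
    Cn {t | t ∈ shD M.F H L δ \ N} ∧ Cn {t | t ∉ shD M.F H L δ \ N} := by
  have e1 : {t | t ∈ shD M.F H L δ \ N} = Sd M.F H L δ \ N := by
    ext t; simp [Sd]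
  have e2 : {t | t ∉ shD M.F H L δ \ N} = (Sd M.F H L δ \ N)ᶜ := by
    rw [← e1]; rfl
  rw [e1, e2]
  have hN' : ∀ t ∈ (N : Set (ℤ × ℤ)), t ∈ D M.F L ∧ t ∉ D H L ∧ (t.1 + 1, t.2) ∉ D M.F L :=
    fun t ht => hN t (by exact_mod_cast ht)
  exact ⟨notch_cn h np hL hN' hδ (shD_cn h hL (D_cn M hL) hδ),
    notch_cc h hL hN' hδ (shD_cc h hL (D_cc M hL) hδ)⟩

theorem notch_reg (h : Hang M.F H k i0 i1 up) (np : NoPinch M.F) (hL : 8 ≤ L)
    (hδ : δ = 0 ∨ δ = 1 ∨ δ = -1) {N : Finset (ℤ × ℤ)}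
    (hN : ∀ t ∈ N, t ∈ D M.F L ∧ t ∉ D H L ∧ (t.1 + 1, t.2) ∉ D M.F L) :
    (full (shD M.F H L δ \ N)).SC ∧ (full (shD M.F H L δ \ N)).Conn :=
  ⟨SC_of_cn (notch_cn_cc h np hL hδ hN).2, Conn_of_cn (notch_cn_cc h np hL hδ hN).1⟩

/-- the tile right of a run that is not moved is outside `shD` -/
theorem wall_shD (h : Hang M.F H k i0 i1 up) (hL : 8 ≤ L) (hδ : δ = 0 ∨ δ = 1 ∨ δ = -1) {x y : ℤ}
    (h1 : (x, y) ∈ D M.F L) (h2 : (x, y) ∉ D H L) (h3 : (x + 1, y) ∉ D M.F L) :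
    (x + 1, y) ∉ shD M.F H L δ := by
  intro h4
  rcases mem_shD.1 h4 with ⟨h5, -⟩ | h5
  · exact h3 h5
  · simp only at h5
    exact h2 (hor3 h hL (by omega) (by omega) h5 h1)

/-- and outside the layers -/
theorem wall_lay (h : Hang M.F H k i0 i1 up) (hL : 8 ≤ L) (hδ : δ = 0 ∨ δ = 1 ∨ δ = -1) {x y : ℤ}
    (h1 : (x, y) ∈ D M.F L) (h2 : (x, y) ∉ D H L) {S : Finset (ℤ × ℤ)}
    (hS : S ⊆ RL M.F H L δ ∨ S ⊆ LL M.F H L δ) : (x + 1, y) ∉ S := by
  intro h4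
  rcases hS with hS | hS
  · have h5 := (mem_RL.1 (hS h4)).1
    simp only at h5
    exact h2 (hor3 h hL (by omega) (by omega) h5 h1)
  · have h5 := (mem_LL.1 (hS h4)).1
    simp only at h5
    exact h2 (hor3 h hL (by omega) (by omega) h5 h1)

/-- **words of `shD ∪ S`**, the slit in a run that is not moved -/
theorem lay_GW (h : Hang M.F H k i0 i1 up) (np : NoPinch M.F) (hL : 8 ≤ L)
    (hδ : δ = 0 ∨ δ = 1 ∨ δ = -1) {S : Finset (ℤ × ℤ)}
    (hS : S ⊆ RL M.F H L δ ∨ S ⊆ LL M.F H L δ) {p xr y : ℤ} (hp : p < xr)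
    (h0 : ∀ x, p ≤ x → x ≤ xr → (x, y - 1) ∈ D M.F L ∧ (x, y - 1) ∉ D H L)
    (h1 : ∀ x, p ≤ x → x ≤ xr → (x, y) ∈ D M.F L ∧ (x, y) ∉ D H L)
    (hw : (xr + 1, y) ∉ D M.F L) :
    rgt (shD M.F H L δ ∪ S) p y = xr ∧
      ∃ w, GW (shD M.F H L δ ∪ S) (beD (shD M.F H L δ ∪ S) p y xr) w := by
  have m0 : ∀ x, p ≤ x → x ≤ xr → (x, y - 1) ∈ shD M.F H L δ ∪ S := fun x h2 h3 =>
    Finset.mem_union_left _ (mem_shD.2 (Or.inl (h0 x h2 h3)))
  have m1 : ∀ x, p ≤ x → x ≤ xr → (x, y) ∈ shD M.F H L δ ∪ S := fun x h2 h3 =>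
    Finset.mem_union_left _ (mem_shD.2 (Or.inl (h1 x h2 h3)))
  have mw : (xr + 1, y) ∉ shD M.F H L δ ∪ S := by
    have h2 := h1 xr hp.le (le_refl _)
    rw [Finset.mem_union, not_or]
    exact ⟨wall_shD h hL hδ h2.1 h2.2 hw, wall_lay h hL hδ h2.1 h2.2 hS⟩
  have hr := lay_reg h np hL hδ hS
  exact ⟨rgt_eq hp.le m1 mw, exists_GW hr.1 hr.2 hp.le (fun x h2 h3 => ⟨m0 x h2 h3, m1 x h2 h3⟩) mw
    (Or.inl hp)⟩

/-- **words of `shD \ N`**, both rows of the slit complete -/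
theorem notch_GW (h : Hang M.F H k i0 i1 up) (np : NoPinch M.F) (hL : 8 ≤ L)
    (hδ : δ = 0 ∨ δ = 1 ∨ δ = -1) {N : Finset (ℤ × ℤ)}
    (hN : ∀ t ∈ N, t ∈ D M.F L ∧ t ∉ D H L ∧ (t.1 + 1, t.2) ∉ D M.F L) {p xr y : ℤ} (hp : p < xr)
    (h0 : ∀ x, p ≤ x → x ≤ xr → (x, y - 1) ∈ D M.F L ∧ (x, y - 1) ∉ D H L ∧ (x, y - 1) ∉ N)
    (h1 : ∀ x, p ≤ x → x ≤ xr → (x, y) ∈ D M.F L ∧ (x, y) ∉ D H L ∧ (x, y) ∉ N)
    (hw : (xr + 1, y) ∉ D M.F L) :
    rgt (shD M.F H L δ \ N) p y = xr ∧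
      ∃ w, GW (shD M.F H L δ \ N) (beD (shD M.F H L δ \ N) p y xr) w := by
  have m0 : ∀ x, p ≤ x → x ≤ xr → (x, y - 1) ∈ shD M.F H L δ \ N := fun x h2 h3 =>
    Finset.mem_sdiff.2 ⟨mem_shD.2 (Or.inl ⟨(h0 x h2 h3).1, (h0 x h2 h3).2.1⟩), (h0 x h2 h3).2.2⟩
  have m1 : ∀ x, p ≤ x → x ≤ xr → (x, y) ∈ shD M.F H L δ \ N := fun x h2 h3 =>
    Finset.mem_sdiff.2 ⟨mem_shD.2 (Or.inl ⟨(h1 x h2 h3).1, (h1 x h2 h3).2.1⟩), (h1 x h2 h3).2.2⟩
  have mw : (xr + 1, y) ∉ shD M.F H L δ \ N := by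
    have h2 := h1 xr hp.le (le_refl _)
    intro h3
    exact wall_shD h hL hδ h2.1 h2.2.1 hw (Finset.mem_sdiff.1 h3).1
  have hr := notch_reg h np hL hδ hN
  exact ⟨rgt_eq hp.le m1 mw, exists_GW hr.1 hr.2 hp.le (fun x h2 h3 => ⟨m0 x h2 h3, m1 x h2 h3⟩) mw
    (Or.inl hp)⟩

/-- **words of `shD \ N`**, the last tile of the lower row of the slit is in the notch -/
theorem notch_GW' (h : Hang M.F H k i0 i1 up) (np : NoPinch M.F) (hL : 8 ≤ L)
    (hδ : δ = 0 ∨ δ = 1 ∨ δ = -1) {N : Finset (ℤ × ℤ)}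
    (hN : ∀ t ∈ N, t ∈ D M.F L ∧ t ∉ D H L ∧ (t.1 + 1, t.2) ∉ D M.F L) {p xr y : ℤ} (hp : p < xr)
    (h0 : ∀ x, p ≤ x → x < xr → (x, y - 1) ∈ D M.F L ∧ (x, y - 1) ∉ D H L ∧ (x, y - 1) ∉ N)
    (h1 : ∀ x, p ≤ x → x ≤ xr → (x, y) ∈ D M.F L ∧ (x, y) ∉ D H L ∧ (x, y) ∉ N)
    (hx : (xr, y - 1) ∈ N) (hw : (xr + 1, y) ∉ D M.F L) :
    rgt (shD M.F H L δ \ N) p y = xr ∧
      ∃ w, GW (shD M.F H L δ \ N) (beD (shD M.F H L δ \ N) p y xr) w := by
  have m0 : ∀ x, p ≤ x → x < xr → (x, y - 1) ∈ shD M.F H L δ \ N := fun x h2 h3 =>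
    Finset.mem_sdiff.2 ⟨mem_shD.2 (Or.inl ⟨(h0 x h2 h3).1, (h0 x h2 h3).2.1⟩), (h0 x h2 h3).2.2⟩
  have m1 : ∀ x, p ≤ x → x ≤ xr → (x, y) ∈ shD M.F H L δ \ N := fun x h2 h3 =>
    Finset.mem_sdiff.2 ⟨mem_shD.2 (Or.inl ⟨(h1 x h2 h3).1, (h1 x h2 h3).2.1⟩), (h1 x h2 h3).2.2⟩
  have mw : (xr + 1, y) ∉ shD M.F H L δ \ N := by
    have h2 := h1 xr hp.le (le_refl _)
    intro h3
    exact wall_shD h hL hδ h2.1 h2.2.1 hw (Finset.mem_sdiff.1 h3).1
  have hr := notch_reg h np hL hδ hN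
  exact ⟨rgt_eq hp.le m1 mw, exists_GW' hr.1 hr.2 hp (fun x h2 h3 => ⟨m0 x h2 h3, m1 x h2 h3.le⟩)
    (m1 xr hp.le (le_refl _)) (fun h3 => (Finset.mem_sdiff.1 h3).2 hx) mw⟩

/-! ### no hanging part -/

/-- the empty hanging part -/
theorem hang_empty (F : Finset (ℤ × ℤ)) : Hang F ∅ 0 1 0 true where
  sub := by simp
  hor := by simp
  ver := by simp
  cut := by intro a h1 h2; omega

theorem shD_empty (F : Finset (ℤ × ℤ)) (L δ : ℤ) : shD F ∅ L δ = D F L := by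
  ext t
  rw [mem_shD]
  simp [D]

theorem not_mem_D_empty {L : ℤ} (t : ℤ × ℤ) : t ∉ D ∅ L := by simp [D]


theorem D_notch_GW (np : NoPinch M.F) (hL : 8 ≤ L) {N : Finset (ℤ × ℤ)}
    (hN : ∀ t ∈ N, t ∈ D M.F L ∧ (t.1 + 1, t.2) ∉ D M.F L) {p xr y : ℤ} (hp : p < xr)
    (h0 : ∀ x, p ≤ x → x ≤ xr → (x, y - 1) ∈ D M.F L ∧ (x, y - 1) ∉ N)
    (h1 : ∀ x, p ≤ x → x ≤ xr → (x, y) ∈ D M.F L ∧ (x, y) ∉ N)
    (hw : (xr + 1, y) ∉ D M.F L) :
    rgt (D M.F L \ N) p y = xr ∧ ∃ w, GW (D M.F L \ N) (beD (D M.F L \ N) p y xr) w := by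
  have := notch_GW (M := M) (δ := 0) (hang_empty M.F) np hL (Or.inl rfl) (N := N)
    (fun t ht => ⟨(hN t ht).1, not_mem_D_empty t, (hN t ht).2⟩) hp
    (fun x h2 h3 => ⟨(h0 x h2 h3).1, not_mem_D_empty _, (h0 x h2 h3).2⟩)
    (fun x h2 h3 => ⟨(h1 x h2 h3).1, not_mem_D_empty _, (h1 x h2 h3).2⟩) hw
  rwa [shD_empty] at this

theorem D_notch_GW' (np : NoPinch M.F) (hL : 8 ≤ L) {N : Finset (ℤ × ℤ)}
    (hN : ∀ t ∈ N, t ∈ D M.F L ∧ (t.1 + 1, t.2) ∉ D M.F L) {p xr y : ℤ} (hp : p < xr)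
    (h0 : ∀ x, p ≤ x → x < xr → (x, y - 1) ∈ D M.F L ∧ (x, y - 1) ∉ N)
    (h1 : ∀ x, p ≤ x → x ≤ xr → (x, y) ∈ D M.F L ∧ (x, y) ∉ N)
    (hx : (xr, y - 1) ∈ N) (hw : (xr + 1, y) ∉ D M.F L) :
    rgt (D M.F L \ N) p y = xr ∧ ∃ w, GW (D M.F L \ N) (beD (D M.F L \ N) p y xr) w := by
  have := notch_GW' (M := M) (δ := 0) (hang_empty M.F) np hL (Or.inl rfl) (N := N)
    (fun t ht => ⟨(hN t ht).1, not_mem_D_empty t, (hN t ht).2⟩) hp
    (fun x h2 h3 => ⟨(h0 x h2 h3).1, not_mem_D_empty _, (h0 x h2 h3).2⟩)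
    (fun x h2 h3 => ⟨(h1 x h2 h3).1, not_mem_D_empty _, (h1 x h2 h3).2⟩) hx hw
  rwa [shD_empty] at this

end reg

end Crest.Agent.R158.Sh279
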