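import Crest.Agent.R158.Hb2_656
import Crest.Agent.R158.Hw2_949
import Crest.Agent.R158.Wd2_377
import Crest.Agent.R158.Sh4_279

-- ▼ part R158/Hb3_656
section

/-!
R158, S0237, BLOCK BL, file 3 (helper656): the chains in ε-form.

* `away_of`, `rl_eps`, `ll_eps` : 679's chains for a fixed configuration, `L → ∞`
-/

set_option autoImplicit false

noncomputable section

namespace Crest.Agent.R158.Hb656

open Filter Topology
open Crest.Agent.R158.Sp896 (V)
open Crest.Agent.R158.Sw300 (Port)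
open Crest.Agent.R158.Env664 (D Run Adj4 Mac mark mem_D beD div_iff exists_run nbc)
open Crest.Agent.R158.Ob664 (HG HA HD rgt)
open Crest.Agent.R158.Tj656 (P4)
open Crest.Agent.R158.Bh679 (NP Words RLchain LLchain MKs HGs mq)
open Crest.Agent.R158.Wd377 (MK)

/-! ### marks -/

theorem mkS_zero (H : Finset V) (L : ℤ) (m : V × ZMod 4) : mkS H L 0 ∅ m = m := by
  unfold mkS
  obtain ⟨⟨x, y⟩, d⟩ := m
  simp

theorem mkS_empty (H : Finset V) (L δ : ℤ) (m : V × ZMod 4) [Decidable (m.1 ∈ D H L)] :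
    mkS H L δ ∅ m = if m.1 ∈ D H L then ((m.1.1 + δ, m.1.2), m.2) else m := by
  unfold mkS
  simp only [Finset.notMem_empty, and_false, if_false]

theorem mks_ok {P : P4} {H : Finset V} {L δ p y0 xr : ℤ} {S : Finset V} :
    MKs P.F H L δ p y0 xr P.cc S ↔
      Rg.ok ⟨shD P.F H L δ ∪ S, p, y0, xr, fun i => mkS H L δ S (mt P L i)⟩ := by
  unfold MKs Rg.ok mq mt
  simp only [mark_eq, Option.map_some]

theorem hgs_val {P : P4} {H : Finset V} {L δ p y0 xr : ℤ} {S : Finset V} :
    HGs P.F H L δ p y0 xr P.cc S =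
      Rg.val ⟨shD P.F H L δ ∪ S, p, y0, xr, fun i => mkS H L δ S (mt P L i)⟩ := by
  unfold HGs Rg.val GH mq mt
  simp only [mark_eq, Option.map_some]

/-! ### the slit is away from the hanging part -/

theorem away_of {F H : Finset V} {k i0 i1 : ℤ} {up : Bool} {a b j : ℤ}
    (h : Cfg F H k i0 i1 up a b j) {L x y : ℤ} (hL : 0 < L) (hs : Sl L a b j x y) :
    Bh679.Away H L x y (b * L + L - 1) := by
  intro x' h1 h2 t ht
  rw [mem_D hL] at ht
  obtain ⟨s1, es1⟩ : ∃ s, s = t.1 / L := ⟨_, rfl⟩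
  obtain ⟨s2, es2⟩ : ∃ s, s = t.2 / L := ⟨_, rfl⟩
  have g1 := (div_iff hL _ _).1 es1.symm
  have g2 := (div_iff hL _ _).1 es2.symm
  rw [← es1, ← es2] at ht
  have hx := hs.hx
  have hy := hs.hy
  have hy' := hs.hy'
  obtain ⟨u, eu, hu1, hu2⟩ : ∃ u, (u = x' ∨ u = x' - 1) ∧ a * L ≤ u ∧ u < b * L + L := by
    rcases le_or_gt x' (b * L + L - 1) with h3 | h3
    · exact ⟨x', Or.inl rfl, by linarith, by linarith⟩
    · have hx' := hs.hx'
      exact ⟨x' - 1, Or.inr rfl, by linarith, by linarith⟩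
  obtain ⟨c, ec⟩ : ∃ c, c = u / L := ⟨_, rfl⟩
  have g3 := (div_iff hL _ _).1 ec.symm
  have hac : a ≤ c := by
    by_contra hcon
    push Not at hcon
    have : c + 1 ≤ a := hcon
    nlinarith
  have hcb : c ≤ b := by
    by_contra hcon
    push Not at hcon
    have : b + 1 ≤ c := hcon
    nlinarith
  rcases h.far c hac hcb (s1, s2) ht with h3 | h3
  · left
    simp only at h3
    rcases le_abs.1 h3 with h4 | h4
    · have h5 : c * L + 2 * L ≤ s1 * L := by nlinarith
      have : L ≤ -(x' - t.1) := by rcases eu with rfl | rfl <;> linarith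
      have h6 := neg_le_abs (x' - t.1)
      linarith
    · have h5 : s1 * L + 2 * L ≤ c * L := by nlinarith
      have h6 := le_abs_self (x' - t.1)
      have h7 : L ≤ x' - t.1 := by rcases eu with rfl | rfl <;> linarith
      linarith
  · right
    simp only at h3
    rcases le_abs.1 h3 with h4 | h4
    · have h5 : j * L + 2 * L ≤ s2 * L := by nlinarith
      have h6 := neg_le_abs (y - t.2)
      linarith
    · have h5 : s2 * L + 2 * L ≤ j * L := by nlinarith
      have h6 := le_abs_self (y - t.2)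
      linarith

/-! ### the chains in ε-form -/

/-- choice of the radius of the thick rows -/
theorem choose_g {C a c : ℝ} (hC : 0 ≤ C) (ha : 0 < a) (hc : 0 < c) (N : ℕ) {ε : ℝ} (hε : 0 < ε) :
    ∃ L0 : ℤ, ∀ L : ℤ, L0 ≤ L → ∃ g : ℕ, 8 ≤ g ∧ 64 * (g : ℤ) ≤ L ∧
      N * (L * (C * (1 / (g : ℝ)) ^ (1 + c)) + C * ((g : ℝ) / L) ^ a) ≤ ε := by
  -- `d` with `N C d ^ a ≤ ε / 2`
  obtain ⟨d, hd0, hd1, hd2⟩ : ∃ d : ℝ, 0 < d ∧ d ≤ 1 / 64 ∧ N * (C * d ^ a) ≤ ε / 2 := by
    have hT : Tendsto (fun d : ℝ => (N : ℝ) * (C * d ^ a)) (𝓝[>] 0) (𝓝 0) := by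
      have h1 : Tendsto (fun d : ℝ => d ^ a) (𝓝[>] 0) (𝓝 0) := by
        have h2 : Tendsto (fun d : ℝ => d ^ a) (𝓝 0) (𝓝 ((0 : ℝ) ^ a)) :=
          (Real.continuousAt_rpow_const 0 a (Or.inr ha.le)).tendsto
        rw [Real.zero_rpow ha.ne'] at h2
        exact h2.mono_left nhdsWithin_le_nhds
      simpa using (h1.const_mul C).const_mul (N : ℝ)
    have h3 : ∀ᶠ d : ℝ in 𝓝[>] 0, (N : ℝ) * (C * d ^ a) < ε / 2 :=
      hT.eventually_lt_const (by linarith)
    have h4 : ∀ᶠ d : ℝ in 𝓝[>] (0 : ℝ), d ∈ Set.Ioc (0 : ℝ) (1 / 64) :=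
      Ioc_mem_nhdsGT (by norm_num)
    obtain ⟨d, h5, h6⟩ := (h3.and h4).exists
    exact ⟨d, h6.1, h6.2, h5.le⟩
  -- first part
  have hT2 : Tendsto (fun L : ℤ => (N : ℝ) * (C * (2 / d) ^ (1 + c) * (L : ℝ) ^ (-c))) atTop
      (𝓝 0) := by
    have h1 : Tendsto (fun L : ℤ => (L : ℝ) ^ (-c)) atTop (𝓝 0) :=
      (tendsto_rpow_neg_atTop hc).comp tendsto_intCast_atTop_atTop
    simpa using (h1.const_mul (C * (2 / d) ^ (1 + c))).const_mul (N : ℝ)
  have h3 : ∀ᶠ L : ℤ in atTop, (N : ℝ) * (C * (2 / d) ^ (1 + c) * (L : ℝ) ^ (-c)) < ε / 2 :=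
    hT2.eventually_lt_const (by linarith)
  obtain ⟨L1, hL1⟩ := eventually_atTop.1 h3
  refine ⟨max L1 (⌈(16 / d : ℝ)⌉), fun L hL => ?_⟩
  have hLa : L1 ≤ L := (le_max_left _ _).trans hL
  have hLb : (16 / d : ℝ) ≤ L := by
    have := (le_max_right L1 (⌈(16 / d : ℝ)⌉)).trans hL
    exact (Int.le_ceil _).trans (by exact_mod_cast this)
  have hdL : 16 ≤ d * L := by
    rw [div_le_iff₀ hd0] at hLb
    linarith
  have hLp : (0 : ℝ) < L := by
    have : (0 : ℝ) < 16 / d := by positivity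
    linarith
  obtain ⟨g, hg⟩ : ∃ g, g = ⌊d * (L : ℝ)⌋₊ := ⟨_, rfl⟩
  have g1 : (g : ℝ) ≤ d * L := by rw [hg]; exact Nat.floor_le (by positivity)
  have g2 : d * L < (g : ℝ) + 1 := by rw [hg]; exact Nat.lt_floor_add_one _
  have g3 : (8 : ℝ) ≤ g := by linarith
  have g4 : d * L / 2 ≤ g := by linarith
  refine ⟨g, by exact_mod_cast g3, ?_, ?_⟩
  · have : (64 * (g : ℝ)) ≤ L := by nlinarith
    exact_mod_cast this
  · have e1 : (L : ℝ) * (C * (1 / (g : ℝ)) ^ (1 + c)) ≤ C * (2 / d) ^ (1 + c) * (L : ℝ) ^ (-c) := by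
      have h5 : (1 / (g : ℝ)) ≤ 2 / d * (1 / L) := by
        rw [div_le_iff₀ (by linarith)]
        have : 2 / d * (1 / L) * (d * L / 2) = 1 := by field_simp
        calc (1 : ℝ) = 2 / d * (1 / L) * (d * L / 2) := this.symm
          _ ≤ 2 / d * (1 / L) * g := by
            apply mul_le_mul_of_nonneg_left g4
            positivity
      have h6 : (1 / (g : ℝ)) ^ (1 + c) ≤ (2 / d * (1 / L)) ^ (1 + c) :=
        Real.rpow_le_rpow (by positivity) h5 (by linarith)
      have h7 : (2 / d * (1 / (L : ℝ))) ^ (1 + c) = (2 / d) ^ (1 + c) * (L : ℝ) ^ (-(1 + c)) := by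
        rw [Real.mul_rpow (by positivity) (by positivity), one_div, Real.inv_rpow hLp.le,
          Real.rpow_neg hLp.le]
      have h8 : (L : ℝ) * (L : ℝ) ^ (-(1 + c)) = (L : ℝ) ^ (-c) := by
        nth_rewrite 1 [← Real.rpow_one (L : ℝ)]
        rw [← Real.rpow_add hLp]
        congr 1
        ring
      calc (L : ℝ) * (C * (1 / (g : ℝ)) ^ (1 + c)) ≤
          (L : ℝ) * (C * ((2 / d) ^ (1 + c) * (L : ℝ) ^ (-(1 + c)))) := by
            rw [← h7]
            gcongr
        _ = C * (2 / d) ^ (1 + c) * ((L : ℝ) * (L : ℝ) ^ (-(1 + c))) := by ring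
        _ = C * (2 / d) ^ (1 + c) * (L : ℝ) ^ (-c) := by rw [h8]
    have e2 : ((g : ℝ) / L) ^ a ≤ d ^ a := by
      apply Real.rpow_le_rpow (by positivity) _ ha.le
      rw [div_le_iff₀ hLp]
      exact g1
    have e3 := hL1 L hLa
    have hN : (0 : ℝ) ≤ N := Nat.cast_nonneg N
    calc N * (L * (C * (1 / (g : ℝ)) ^ (1 + c)) + C * ((g : ℝ) / L) ^ a)
        ≤ N * (C * (2 / d) ^ (1 + c) * (L : ℝ) ^ (-c) + C * d ^ a) := by
          apply mul_le_mul_of_nonneg_left _ hN
          apply add_le_add e1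
          exact mul_le_mul_of_nonneg_left e2 hC
      _ = N * (C * (2 / d) ^ (1 + c) * (L : ℝ) ^ (-c)) + N * (C * d ^ a) := by ring
      _ ≤ ε := by linarith

/-- two-way link -/
def Lk (R R' : Rg) (ε : ℝ) : Prop := (R.ok ↔ R'.ok) ∧ (R.ok → ‖R.val - R'.val‖ ≤ ε)

theorem Lk.fwd {R R' : Rg} {ε : ℝ} (h : Lk R R' ε) : Lk1 R R' ε := fun g => ⟨h.1.1 g, h.2 g⟩

theorem Lk.bwd {R R' : Rg} {ε : ℝ} (h : Lk R R' ε) : Lk1 R' R ε := fun g =>
  ⟨h.1.2 g, by rw [norm_sub_rev]; exact h.2 (h.1.2 g)⟩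

theorem rl_eps (hc : RLchain) (hw : WordsEx) {P : P4} {H : Finset V} {k i0 i1 : ℤ} {up : Bool}
    {a b j : ℤ} (h : Cfg P.F H k i0 i1 up a b j) {δ : ℤ}
    (hδ : up = true ∧ δ = -1 ∨ up = false ∧ δ = 0) {ε : ℝ} (hε : 0 < ε) :
    ∃ L0 : ℤ, ∀ L : ℤ, L0 ≤ L → Even L → ∀ x y : ℤ, Sl L a b j x y →
      Lk ⟨shD P.F H L δ, x, y, b * L + L - 1, fun i => mkS H L δ ∅ (mt P L i)⟩
        ⟨shD P.F H L δ ∪ RL P.F H L δ, x, y, b * L + L - 1,
          fun i => mkS H L δ (RL P.F H L δ) (mt P L i)⟩ ε := by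
  obtain ⟨C, α, c, hC, hα, hc', hch⟩ := hc
  obtain ⟨N, hN⟩ := hch P.F h.np
  obtain ⟨L1, hg⟩ := choose_g hC hα hc' N hε
  obtain ⟨L2, hw2⟩ := hw P H k i0 i1 up a b j h
  refine ⟨max (max L1 L2) 1, fun L hL hev x y hs => ?_⟩
  have l1 : L1 ≤ L := (le_max_left _ _).trans ((le_max_left _ _).trans hL)
  have l2 : L2 ≤ L := (le_max_right _ _).trans ((le_max_left _ _).trans hL)
  have l3 : 1 ≤ L := (le_max_right _ _).trans hL
  obtain ⟨g, g1, g2, g3⟩ := hg L l1
  have hδ' : δ = -1 ∨ δ = 0 := by rcases hδ with ⟨-, e⟩ | ⟨-, e⟩ <;> simp [e]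
  obtain ⟨r1, r2⟩ := hN H k i0 i1 up h.hang L δ x y (b * L + L - 1) g hev hδ' g1 g2
    (by have := hs.hx'; omega) (away_of h (by omega) hs) ((hw2 L l2 hev x y hs).1 δ hδ) P.cc
    (fun i i' e => by by_contra hne; exact Hw949.ci_inj P hne e) (Hw949.ci_spec P)
  rw [mks_ok, mks_ok, Finset.union_empty] at r1
  rw [mks_ok, hgs_val, hgs_val, Finset.union_empty] at r2
  exact ⟨r1, fun g => by rw [norm_sub_rev]; exact (r2 g).trans g3⟩

theorem ll_eps (hc : LLchain) (hw : WordsEx) {P : P4} {H : Finset V} {k i0 i1 : ℤ} {up : Bool}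
    {a b j : ℤ} (h : Cfg P.F H k i0 i1 up a b j) {δ : ℤ}
    (hδ : up = true ∧ δ = 0 ∨ up = false ∧ δ = 1) {ε : ℝ} (hε : 0 < ε) :
    ∃ L0 : ℤ, ∀ L : ℤ, L0 ≤ L → Even L → ∀ x y : ℤ, Sl L a b j x y →
      Lk ⟨shD P.F H L δ, x, y, b * L + L - 1, fun i => mkS H L δ ∅ (mt P L i)⟩
        ⟨shD P.F H L δ ∪ LL P.F H L δ, x, y, b * L + L - 1,
          fun i => mkS H L δ (LL P.F H L δ) (mt P L i)⟩ ε := by
  obtain ⟨C, α, c, hC, hα, hc', hch⟩ := hc
  obtain ⟨N, hN⟩ := hch P.F h.np
  obtain ⟨L1, hg⟩ := choose_g hC hα hc' N hε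
  obtain ⟨L2, hw2⟩ := hw P H k i0 i1 up a b j h
  refine ⟨max (max L1 L2) 1, fun L hL hev x y hs => ?_⟩
  have l1 : L1 ≤ L := (le_max_left _ _).trans ((le_max_left _ _).trans hL)
  have l2 : L2 ≤ L := (le_max_right _ _).trans ((le_max_left _ _).trans hL)
  have l3 : 1 ≤ L := (le_max_right _ _).trans hL
  obtain ⟨g, g1, g2, g3⟩ := hg L l1
  have hδ' : δ = 0 ∨ δ = 1 := by rcases hδ with ⟨-, e⟩ | ⟨-, e⟩ <;> simp [e]
  obtain ⟨r1, r2⟩ := hN H k i0 i1 up h.hang L δ x y (b * L + L - 1) g hev hδ' g1 g2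
    (by have := hs.hx'; omega) (away_of h (by omega) hs) ((hw2 L l2 hev x y hs).2 δ hδ) P.cc
    (fun i i' e => by by_contra hne; exact Hw949.ci_inj P hne e) (Hw949.ci_spec P)
  rw [mks_ok, mks_ok, Finset.union_empty] at r1
  rw [mks_ok, hgs_val, hgs_val, Finset.union_empty] at r2
  exact ⟨r1, fun g => by rw [norm_sub_rev]; exact (r2 g).trans g3⟩

end Crest.Agent.R158.Hb656
end
end

-- ▼ part R158/Hb4_656
section

/-!
R158, S0237, BLOCK BL, file 4 (helper656): the marks of the DR plugs, and the pairs.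

* `mkE_eq_mU`, `pkE_eq_mD`
* `up_pair`, `dn_pair`, `one_pair`
-/

set_option autoImplicit false

noncomputable section

namespace Crest.Agent.R158.Hb656

open Filter Topology
open Crest.Agent.R158.Sp896 (V)
open Crest.Agent.R158.Sw300 (Port)
open Crest.Agent.R158.Env664 (D Run Adj4 Mac mark mem_D beD div_iff exists_run nbc z4)
open Crest.Agent.R158.Ob664 (HG HA HD rgt)
open Crest.Agent.R158.Tj656 (P4)
open Crest.Agent.R158.Bh679 (NP Words RLchain LLchain MKs HGs mq)
open Crest.Agent.R158.Wd377 (MK)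

theorem memD {F : Finset V} {L : ℤ} (hL : 0 < L) {x y a b : ℤ} (h1 : a * L ≤ x)
    (h2 : x < a * L + L) (h3 : b * L ≤ y) (h4 : y < b * L + L) :
    ((x, y) : V) ∈ D F L ↔ ((a, b) : V) ∈ F := Hw949.memD' hL h1 h2 h3 h4

theorem mul_lt_of {L : ℤ} (hL : 0 < L) {a b : ℤ} (h : a * L < b * L) : a < b :=
  lt_of_mul_lt_mul_right h hL.le

theorem nbc_1 (c : V) : nbc c 1 = (c.1, c.2 + 1) := Hw949.nt_1 c
theorem nbc_3 (c : V) : nbc c 3 = (c.1, c.2 - 1) := Hw949.nt_3 c

section marks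

variable {P : P4} {H : Finset V} {k a b a' b' L x y0 y1 : ℤ} {r h : ℝ}

/-- integer form of the position -/
theorem Cr.int (hc : Cr L k a b a' b' r h x y0 y1) (hL : 8 ≤ L) (hh : h ≤ 1 / 8) (hr : 0 < r) :
    k * L - L / 2 < y0 ∧ y1 < k * L + L / 2 - 1 ∧ a * L ≤ x ∧ a' * L ≤ x ∧ x ≤ b * L + L ∧
      x ≤ b' * L + L := by
  have hLr : (8 : ℝ) ≤ L := by exact_mod_cast hL
  have h1 := hc.lo'
  have h2 := hc.hi'
  have h3 := hc.l0
  have h4 := hc.l1
  have h5 := hc.r0
  have h6 := hc.r1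
  have e1 : h * L ≤ L / 8 := by nlinarith
  have e2 : 0 ≤ r * L := by positivity
  have hd : ∀ z : ℤ, (z : ℝ) ≤ L / 8 → z ≤ L / 8 := by
    intro z hz
    rw [Int.le_ediv_iff_mul_le (by norm_num)]
    have : (z : ℝ) * 8 ≤ L := by linarith
    exact_mod_cast this
  have g1 : k * L - y0 ≤ L / 8 := hd _ (by push_cast; linarith)
  have g2 : y1 - k * L ≤ L / 8 := hd _ (by push_cast; linarith)
  refine ⟨by omega, by omega, ?_, ?_, ?_, ?_⟩
  · have : (a : ℝ) * L ≤ x := by linarith
    exact_mod_cast this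
  · have : (a' : ℝ) * L ≤ x := by linarith
    exact_mod_cast this
  · have : (x : ℝ) ≤ b * L + L := by linarith
    exact_mod_cast this
  · have : (x : ℝ) ≤ b' * L + L := by linarith
    exact_mod_cast this

theorem row_cases {L : ℤ} (hL : 8 ≤ L) (k c e : ℤ) (he0 : 0 ≤ e) (he1 : e < L) {y : ℤ}
    (h1 : k * L - L / 2 < y) (h2 : y < k * L + L / 2 - 1) (hy : y = c * L + e) :
    (c = k ∧ e < L / 2 - 1) ∨ (c = k - 1 ∧ L / 2 < e) := by
  have hL0 : 0 < L := by omega
  have g1 : (k - 1) * L < (c + 1) * L := by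
    have : (k - 1) * L = k * L - L := by ring
    have e3 : (c + 1) * L = c * L + L := by ring
    omega
  have g2 : c * L < (k + 1) * L := by
    have : (k + 1) * L = k * L + L := by ring
    omega
  have g3 := mul_lt_of hL0 g1
  have g4 := mul_lt_of hL0 g2
  have : c = k ∨ c = k - 1 := by omega
  rcases this with rfl | rfl
  · left
    exact ⟨rfl, by omega⟩
  · right
    have e3 : (k - 1) * L = k * L - L := by ring
    exact ⟨rfl, by omega⟩

/-- **UP: the marks after DR** -/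
theorem mkE_eq_mU (t : Two P.F H k a b a' b') (hb : b' < b)
    (hc : Cr L k a b a' b' r h x y0 y1) (hL : 8 ≤ L) (hev : Even L) (hh : h ≤ 1 / 8) (hr : 0 < r)
    (i : Fin 3) :
    mkE (Sx L k b b' x y0 y1 ∪ D H L) (mt P L i) = mU H L k b b' (mt P L i) := by
  classical
  obtain ⟨q1, q2, q3, q4, q5, q6⟩ := hc.int hL hh hr
  have hlo := hc.lo
  have hhi := hc.hi
  have hL0 : 0 < L := by omega
  obtain ⟨hF, hN⟩ := Hw949.ci_spec P i
  have hco := t.com
  rw [max_le_iff, le_min_iff, le_min_iff] at hco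
  unfold mt
  obtain ⟨c, hcd⟩ : ∃ c, c = (P.cc i).1 := ⟨_, rfl⟩
  obtain ⟨d, hdd⟩ : ∃ d, d = (P.cc i).2 := ⟨_, rfl⟩
  rw [← hcd, ← hdd] at hN ⊢
  rw [← hcd] at hF
  obtain ⟨c1, c2⟩ := c
  obtain ⟨l, rfl⟩ := hev
  -- membership in the slab
  have key : (mk2 (l + l) (c1, c2) d).1 ∈ Sx (l + l) k b b' x y0 y1 ↔
      (d = 1 ∧ (mk2 (l + l) (c1, c2) d).1.2 = k * (l + l) - 1 ∧
        b' * (l + l) + (l + l) ≤ (mk2 (l + l) (c1, c2) d).1.1 ∧
        (mk2 (l + l) (c1, c2) d).1.1 < b * (l + l) + (l + l)) := by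
    rw [mem_Sx]
    have hl2 : (l + l) / 2 = l := by omega
    rcases z4 d with rfl | rfl | rfl | rfl
    · have e : mk2 (l + l) (c1, c2) 0 = ((c1 * (l + l), c2 * (l + l) + (l + l) / 2), 0) := rfl
      rw [e]
      simp only
      constructor
      · intro g
        exfalso
        have g' : k * (l + l) - (l + l) / 2 < c2 * (l + l) + (l + l) / 2 ∧
            c2 * (l + l) + (l + l) / 2 < k * (l + l) + (l + l) / 2 - 1 := by
          rcases g with g | g <;> constructor <;> omega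
        rcases row_cases (by omega) k c2 ((l + l) / 2) (by omega) (by omega) g'.1 g'.2 rfl with g | g
          <;> omega
      · rintro ⟨g, -⟩
        exact absurd g (by decide)
    · have e : mk2 (l + l) (c1, c2) 1 =
          ((c1 * (l + l) + (l + l) / 2, c2 * (l + l) + (l + l) - 1), 1) := by
        unfold mk2; rw [if_neg (by decide), if_pos rfl]
      rw [e]
      simp only
      rw [nbc_1] at hN
      simp only at hN
      constructor
      · intro g
        have g' : k * (l + l) - (l + l) / 2 < c2 * (l + l) + (l + l) - 1 ∧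
            c2 * (l + l) + (l + l) - 1 < k * (l + l) + (l + l) / 2 - 1 := by
          rcases g with g | g <;> constructor <;> omega
        rcases row_cases (by omega) k c2 ((l + l) - 1) (by omega) (by omega) g'.1 g'.2
          (by ring) with g3 | ⟨rfl, -⟩
        · omega
        have e5 : (k - 1) * (l + l) = k * (l + l) - (l + l) := by ring
        rcases g with g | g
        · refine ⟨trivial, by omega, ?_, g.1.2⟩
          -- the cell is to the right of the upper run
          by_contra hcon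
          push Not at hcon
          have f1 : c1 ≤ b' := by
            by_contra hcc
            push Not at hcc
            have : b' + 1 ≤ c1 := hcc
            have : (b' + 1) * (l + l) ≤ c1 * (l + l) := Int.mul_le_mul_of_nonneg_right this (by omega)
            have e6 : (b' + 1) * (l + l) = b' * (l + l) + (l + l) := by ring
            omega
          have f2 : a' ≤ c1 := by
            by_contra hcc
            push Not at hcc
            have : c1 + 1 ≤ a' := hcc
            have : (c1 + 1) * (l + l) ≤ a' * (l + l) := Int.mul_le_mul_of_nonneg_right this (by omega)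
            have e6 : (c1 + 1) * (l + l) = c1 * (l + l) + (l + l) := by ring
            omega
          apply hN
          have := t.up.mem c1 f2 f1
          rwa [show k - 1 + 1 = k by ring]
        · omega
      · rintro ⟨-, g1, g2, g3⟩
        have f1 : b' < c1 := by
          by_contra hcc
          push Not at hcc
          have : c1 * (l + l) ≤ b' * (l + l) := Int.mul_le_mul_of_nonneg_right hcc (by omega)
          omega
        left
        refine ⟨⟨?_, g3⟩, by omega, by omega⟩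
        have : (b' + 1) * (l + l) ≤ c1 * (l + l) :=
          Int.mul_le_mul_of_nonneg_right (by omega) (by omega)
        have e6 : (b' + 1) * (l + l) = b' * (l + l) + (l + l) := by ring
        omega
    · have e : mk2 (l + l) (c1, c2) 2 =
          ((c1 * (l + l) + (l + l) - 1, c2 * (l + l) + (l + l) / 2 - 1), 2) := by
        unfold mk2; rw [if_neg (by decide), if_neg (by decide), if_pos rfl]
      rw [e]
      simp only
      constructor
      · intro g
        exfalso
        have g' : k * (l + l) - (l + l) / 2 < c2 * (l + l) + (l + l) / 2 - 1 ∧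
            c2 * (l + l) + (l + l) / 2 - 1 < k * (l + l) + (l + l) / 2 - 1 := by
          rcases g with g | g <;> constructor <;> omega
        rcases row_cases (by omega) k c2 ((l + l) / 2 - 1) (by omega) (by omega) g'.1 g'.2
          (by ring) with g | g <;> omega
      · rintro ⟨g, -⟩
        exact absurd g (by decide)
    · have e : mk2 (l + l) (c1, c2) 3 = ((c1 * (l + l) + (l + l) / 2 - 1, c2 * (l + l)), 3) := by
        unfold mk2; rw [if_neg (by decide), if_neg (by decide), if_neg (by decide)]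
      rw [e]
      simp only
      rw [nbc_3] at hN
      simp only at hN
      constructor
      · intro g
        exfalso
        have g' : k * (l + l) - (l + l) / 2 < c2 * (l + l) ∧
            c2 * (l + l) < k * (l + l) + (l + l) / 2 - 1 := by
          rcases g with g | g <;> constructor <;> omega
        rcases row_cases (by omega) k c2 0 (by omega) (by omega) g'.1 g'.2
          (by ring) with ⟨rfl, -⟩ | g3
        · rcases g with g | g
          · omega
          · have f1 : c1 ≤ b' := by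
              by_contra hcc
              push Not at hcc
              have : b' + 1 ≤ c1 := hcc
              have : (b' + 1) * (l + l) ≤ c1 * (l + l) :=
                Int.mul_le_mul_of_nonneg_right this (by omega)
              have e6 : (b' + 1) * (l + l) = b' * (l + l) + (l + l) := by ring
              omega
            have f2 : a ≤ c1 := by
              by_contra hcc
              push Not at hcc
              have : c1 + 1 ≤ a := hcc
              have : (c1 + 1) * (l + l) ≤ a * (l + l) :=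
                Int.mul_le_mul_of_nonneg_right this (by omega)
              have e6 : (c1 + 1) * (l + l) = c1 * (l + l) + (l + l) := by ring
              omega
            exact hN (t.lo.mem c1 f2 (by omega))
        · omega
      · rintro ⟨g, -⟩
        exact absurd g (by decide)
  have hd : (mk2 (l + l) (c1, c2) d).2 = d := by
    unfold mk2
    rcases z4 d with rfl | rfl | rfl | rfl <;> rfl
  have hmem : (mk2 (l + l) (c1, c2) d).1 ∈ Sx (l + l) k b b' x y0 y1 ∪ D H (l + l) ↔ _ :=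
    Finset.mem_union.trans (or_congr_left key)
  unfold mkE mU
  rw [mkS_empty]
  by_cases hcond : d = 1 ∧ (mk2 (l + l) (c1, c2) d).1.2 = k * (l + l) - 1 ∧
        b' * (l + l) + (l + l) ≤ (mk2 (l + l) (c1, c2) d).1.1 ∧
        (mk2 (l + l) (c1, c2) d).1.1 < b * (l + l) + (l + l)
  · rw [if_pos (hmem.2 (Or.inl hcond)), if_pos (by rw [hd]; exact hcond)]
  · have hcond' : ¬ ((mk2 (l + l) (c1, c2) d).2 = 1 ∧
        (mk2 (l + l) (c1, c2) d).1.2 = k * (l + l) - 1 ∧
        b' * (l + l) + (l + l) ≤ (mk2 (l + l) (c1, c2) d).1.1 ∧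
        (mk2 (l + l) (c1, c2) d).1.1 < b * (l + l) + (l + l)) := by rw [hd]; exact hcond
    rw [if_neg hcond']
    by_cases hD : (mk2 (l + l) (c1, c2) d).1 ∈ D H (l + l)
    · rw [if_pos (hmem.2 (Or.inr hD)), if_pos hD]
      rfl
    · rw [if_neg (fun g => (hmem.1 g).elim hcond hD), if_neg hD]

/-- **DN: the marks before DR** -/
theorem pkE_eq_mD (t : Two P.F H k a b a' b') (hb : b < b')
    (hc : Cr L k a b a' b' r h x y0 y1) (hL : 8 ≤ L) (hev : Even L) (hh : h ≤ 1 / 8) (hr : 0 < r)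
    (i : Fin 3) :
    pkE (Sx L k b b' x y0 y1 ∪ (D H L).image fun t => (t.1 + 1, t.2)) (mt P L i) =
      mD H L k b b' (mt P L i) := by
  classical
  obtain ⟨q1, q2, q3, q4, q5, q6⟩ := hc.int hL hh hr
  have hlo := hc.lo
  have hhi := hc.hi
  have hL0 : 0 < L := by omega
  obtain ⟨hF, hN⟩ := Hw949.ci_spec P i
  have hco := t.com
  rw [max_le_iff, le_min_iff, le_min_iff] at hco
  unfold mt
  obtain ⟨c, hcd⟩ : ∃ c, c = (P.cc i).1 := ⟨_, rfl⟩
  obtain ⟨d, hdd⟩ : ∃ d, d = (P.cc i).2 := ⟨_, rfl⟩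
  rw [← hcd, ← hdd] at hN ⊢
  rw [← hcd] at hF
  obtain ⟨c1, c2⟩ := c
  obtain ⟨l, rfl⟩ := hev
  -- membership in the slab
  have key : ((mk2 (l + l) (c1, c2) d).1.1 + 1, (mk2 (l + l) (c1, c2) d).1.2) ∈
        Sx (l + l) k b b' x y0 y1 ↔
      (d = 3 ∧ (mk2 (l + l) (c1, c2) d).1.2 = k * (l + l) ∧
        b * (l + l) + (l + l) ≤ (mk2 (l + l) (c1, c2) d).1.1 ∧
        (mk2 (l + l) (c1, c2) d).1.1 < b' * (l + l) + (l + l)) := by
    rw [mem_Sx]
    rcases z4 d with rfl | rfl | rfl | rfl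
    · have e : mk2 (l + l) (c1, c2) 0 = ((c1 * (l + l), c2 * (l + l) + (l + l) / 2), 0) := rfl
      rw [e]
      simp only
      constructor
      · intro g
        exfalso
        have g' : k * (l + l) - (l + l) / 2 < c2 * (l + l) + (l + l) / 2 ∧
            c2 * (l + l) + (l + l) / 2 < k * (l + l) + (l + l) / 2 - 1 := by
          rcases g with g | g <;> constructor <;> omega
        rcases row_cases (by omega) k c2 ((l + l) / 2) (by omega) (by omega) g'.1 g'.2 rfl with g | g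
          <;> omega
      · rintro ⟨g, -⟩
        exact absurd g (by decide)
    · have e : mk2 (l + l) (c1, c2) 1 =
          ((c1 * (l + l) + (l + l) / 2, c2 * (l + l) + (l + l) - 1), 1) := by
        unfold mk2; rw [if_neg (by decide), if_pos rfl]
      rw [e]
      simp only
      rw [nbc_1] at hN
      simp only at hN
      constructor
      · intro g
        exfalso
        have g' : k * (l + l) - (l + l) / 2 < c2 * (l + l) + (l + l) - 1 ∧
            c2 * (l + l) + (l + l) - 1 < k * (l + l) + (l + l) / 2 - 1 := by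
          rcases g with g | g <;> constructor <;> omega
        rcases row_cases (by omega) k c2 ((l + l) - 1) (by omega) (by omega) g'.1 g'.2
          (by ring) with g3 | ⟨rfl, -⟩
        · omega
        have e5 : (k - 1) * (l + l) = k * (l + l) - (l + l) := by ring
        rcases g with g | g
        · have f1 : c1 ≤ b := by
            by_contra hcc
            push Not at hcc
            have : b + 1 ≤ c1 := hcc
            have : (b + 1) * (l + l) ≤ c1 * (l + l) := Int.mul_le_mul_of_nonneg_right this (by omega)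
            have e6 : (b + 1) * (l + l) = b * (l + l) + (l + l) := by ring
            omega
          have f2 : a' ≤ c1 := by
            by_contra hcc
            push Not at hcc
            have : c1 + 1 ≤ a' := hcc
            have : (c1 + 1) * (l + l) ≤ a' * (l + l) := Int.mul_le_mul_of_nonneg_right this (by omega)
            have e6 : (c1 + 1) * (l + l) = c1 * (l + l) + (l + l) := by ring
            omega
          apply hN
          have := t.up.mem c1 f2 (by omega)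
          rwa [show k - 1 + 1 = k by ring]
        · omega
      · rintro ⟨g, -⟩
        exact absurd g (by decide)
    · have e : mk2 (l + l) (c1, c2) 2 =
          ((c1 * (l + l) + (l + l) - 1, c2 * (l + l) + (l + l) / 2 - 1), 2) := by
        unfold mk2; rw [if_neg (by decide), if_neg (by decide), if_pos rfl]
      rw [e]
      simp only
      constructor
      · intro g
        exfalso
        have g' : k * (l + l) - (l + l) / 2 < c2 * (l + l) + (l + l) / 2 - 1 ∧
            c2 * (l + l) + (l + l) / 2 - 1 < k * (l + l) + (l + l) / 2 - 1 := by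
          rcases g with g | g <;> constructor <;> omega
        rcases row_cases (by omega) k c2 ((l + l) / 2 - 1) (by omega) (by omega) g'.1 g'.2
          (by ring) with g | g <;> omega
      · rintro ⟨g, -⟩
        exact absurd g (by decide)
    · have e : mk2 (l + l) (c1, c2) 3 = ((c1 * (l + l) + (l + l) / 2 - 1, c2 * (l + l)), 3) := by
        unfold mk2; rw [if_neg (by decide), if_neg (by decide), if_neg (by decide)]
      rw [e]
      simp only
      rw [nbc_3] at hN
      simp only at hN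
      constructor
      · intro g
        have g' : k * (l + l) - (l + l) / 2 < c2 * (l + l) ∧
            c2 * (l + l) < k * (l + l) + (l + l) / 2 - 1 := by
          rcases g with g | g <;> constructor <;> omega
        rcases row_cases (by omega) k c2 0 (by omega) (by omega) g'.1 g'.2
          (by ring) with ⟨rfl, -⟩ | g3
        · rcases g with g | g
          · omega
          · refine ⟨trivial, rfl, ?_, by omega⟩
            by_contra hcon
            push Not at hcon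
            have f1 : c1 ≤ b := by
              by_contra hcc
              push Not at hcc
              have : b + 1 ≤ c1 := hcc
              have : (b + 1) * (l + l) ≤ c1 * (l + l) :=
                Int.mul_le_mul_of_nonneg_right this (by omega)
              have e6 : (b + 1) * (l + l) = b * (l + l) + (l + l) := by ring
              omega
            have f2 : a ≤ c1 := by
              by_contra hcc
              push Not at hcc
              have : c1 + 1 ≤ a := hcc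
              have : (c1 + 1) * (l + l) ≤ a * (l + l) :=
                Int.mul_le_mul_of_nonneg_right this (by omega)
              have e6 : (c1 + 1) * (l + l) = c1 * (l + l) + (l + l) := by ring
              omega
            exact hN (t.lo.mem c1 f2 f1)
        · omega
      · rintro ⟨-, g1, g2, g3⟩
        have f1 : b < c1 := by
          by_contra hcc
          push Not at hcc
          have : c1 * (l + l) ≤ b * (l + l) := Int.mul_le_mul_of_nonneg_right hcc (by omega)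
          omega
        have f3 : c1 < b' + 1 := by
          apply mul_lt_of hL0
          have e6 : (b' + 1) * (l + l) = b' * (l + l) + (l + l) := by ring
          omega
        right
        have : (b + 1) * (l + l) ≤ c1 * (l + l) :=
          Int.mul_le_mul_of_nonneg_right (by omega) (by omega)
        have e6 : (b + 1) * (l + l) = b * (l + l) + (l + l) := by ring
        have : c1 * (l + l) ≤ b' * (l + l) :=
          Int.mul_le_mul_of_nonneg_right (by omega) (by omega)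
        refine ⟨⟨by omega, by omega⟩, by omega, by omega⟩
  have hd : (mk2 (l + l) (c1, c2) d).2 = d := by
    unfold mk2
    rcases z4 d with rfl | rfl | rfl | rfl <;> rfl
  have him : ((mk2 (l + l) (c1, c2) d).1.1 + 1, (mk2 (l + l) (c1, c2) d).1.2) ∈
      ((D H (l + l)).image fun t => (t.1 + 1, t.2)) ↔ (mk2 (l + l) (c1, c2) d).1 ∈ D H (l + l) := by
    rw [Finset.mem_image]
    constructor
    · rintro ⟨u, hu, e⟩
      simp only [Prod.mk.injEq, add_left_inj] at e
      have : u = (mk2 (l + l) (c1, c2) d).1 := Prod.ext e.1 e.2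
      rwa [← this]
    · intro g
      exact ⟨_, g, rfl⟩
  have hmem : ((mk2 (l + l) (c1, c2) d).1.1 + 1, (mk2 (l + l) (c1, c2) d).1.2) ∈
      Sx (l + l) k b b' x y0 y1 ∪ ((D H (l + l)).image fun t => (t.1 + 1, t.2)) ↔ _ :=
    Finset.mem_union.trans (or_congr key him)
  unfold pkE mD
  rw [mkS_empty]
  by_cases hcond : d = 3 ∧ (mk2 (l + l) (c1, c2) d).1.2 = k * (l + l) ∧
        b * (l + l) + (l + l) ≤ (mk2 (l + l) (c1, c2) d).1.1 ∧
        (mk2 (l + l) (c1, c2) d).1.1 < b' * (l + l) + (l + l)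
  · rw [if_pos (hmem.2 (Or.inl hcond)), if_pos (by rw [hd]; exact hcond)]
  · have hcond' : ¬ ((mk2 (l + l) (c1, c2) d).2 = 3 ∧
        (mk2 (l + l) (c1, c2) d).1.2 = k * (l + l) ∧
        b * (l + l) + (l + l) ≤ (mk2 (l + l) (c1, c2) d).1.1 ∧
        (mk2 (l + l) (c1, c2) d).1.1 < b' * (l + l) + (l + l)) := by rw [hd]; exact hcond
    rw [if_neg hcond']
    by_cases hD : (mk2 (l + l) (c1, c2) d).1 ∈ D H (l + l)
    · rw [if_pos (hmem.2 (Or.inr hD)), if_pos hD]
    · rw [if_neg (fun g => (hmem.1 g).elim hcond hD), if_neg hD]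

/-! ### the pairs -/

/-- positions of the slits of a crossing pair -/
theorem Cr.sl (hc : Cr L k a b a' b' r h x y0 y1) (hL : 8 ≤ L) (hh : h ≤ 1 / 8)
    (hr : 0 < r) (hrL : 3 ≤ r * L) : Sl L a b (k - 1) x y0 ∧ Sl L a' b' k x y1 := by
  obtain ⟨q1, q2, q3, q4, q5, q6⟩ := hc.int hL hh hr
  have hlo := hc.lo
  have hhi := hc.hi
  have e1 : (k - 1) * L = k * L - L := by ring
  have h3 := hc.l0
  have h4 := hc.l1
  have h5 := hc.r0
  have h6 := hc.r1
  refine ⟨⟨?_, ?_, by omega, by omega⟩, ⟨?_, ?_, by omega, by omega⟩⟩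
  · have : ((a * L + 1 : ℤ) : ℝ) ≤ x := by push_cast; linarith
    exact_mod_cast this
  · have : ((x + 2 : ℤ) : ℝ) ≤ ((b * L + L - 1 : ℤ) : ℝ) := by push_cast; linarith
    exact_mod_cast this
  · have : ((a' * L + 1 : ℤ) : ℝ) ≤ x := by push_cast; linarith
    exact_mod_cast this
  · have : ((x + 2 : ℤ) : ℝ) ≤ ((b' * L + L - 1 : ℤ) : ℝ) := by push_cast; linarith
    exact_mod_cast this

theorem Cr.mono {h' : ℝ} (hc : Cr L k a b a' b' r h x y0 y1) (hL : 0 < L) (hh : h ≤ h') :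
    Cr L k a b a' b' r h' x y0 y1 where
  lo := hc.lo
  hi := hc.hi
  lo' := by
    have hLr : (0 : ℝ) < L := by exact_mod_cast hL
    have := hc.lo'
    nlinarith
  hi' := by
    have hLr : (0 : ℝ) < L := by exact_mod_cast hL
    have := hc.hi'
    nlinarith
  l0 := hc.l0
  l1 := hc.l1
  r0 := hc.r0
  r1 := hc.r1

end marks

theorem ge_div {r : ℝ} (hr : 0 < r) {L : ℤ} (hL : ⌈(8 / r : ℝ)⌉ ≤ L) (hr1 : r ≤ 1) :
    8 ≤ r * L ∧ 8 ≤ L := by
  have h1 : (8 / r : ℝ) ≤ L := (Int.le_ceil _).trans (by exact_mod_cast hL)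
  rw [div_le_iff₀ hr] at h1
  refine ⟨by linarith, ?_⟩
  have h2 : (0 : ℝ) < L := by
    by_contra hcon
    push Not at hcon
    nlinarith
  have : (8 : ℝ) ≤ L := by nlinarith
  exact_mod_cast this

theorem tri6 {v0 v1 v3 v4 v5 v6 v7 : ℂ} {ε : ℝ} (n3 : ‖v1 - v3‖ ≤ ε / 6)
    (n4 : ‖v3 - v4‖ ≤ ε / 6) (n5 : ‖v4 - v5‖ ≤ ε / 6) (n6 : ‖v5 - v6‖ ≤ ε / 6)
    (n7 : ‖v6 - v7‖ ≤ ε / 6) (n8 : ‖v0 - v7‖ ≤ ε / 6) : ‖v0 - v1‖ ≤ ε := by
  have h1 := norm_sub_le_norm_sub_add_norm_sub v0 v7 v1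
  have h2 := norm_sub_le_norm_sub_add_norm_sub v7 v6 v1
  have h3 := norm_sub_le_norm_sub_add_norm_sub v6 v5 v1
  have h4 := norm_sub_le_norm_sub_add_norm_sub v5 v4 v1
  have h5 := norm_sub_le_norm_sub_add_norm_sub v4 v3 v1
  rw [norm_sub_rev] at n3 n4 n5 n6 n7
  linarith

theorem tri6' {v0 v1 v3 v4 v5 v6 v7 : ℂ} {ε : ℝ} (n3 : ‖v0 - v3‖ ≤ ε / 6)
    (n4 : ‖v3 - v4‖ ≤ ε / 6) (n5 : ‖v4 - v5‖ ≤ ε / 6) (n6 : ‖v5 - v6‖ ≤ ε / 6)
    (n7 : ‖v6 - v7‖ ≤ ε / 6) (n8 : ‖v7 - v1‖ ≤ ε / 6) : ‖v0 - v1‖ ≤ ε := by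
  have h1 := norm_sub_le_norm_sub_add_norm_sub v0 v3 v1
  have h2 := norm_sub_le_norm_sub_add_norm_sub v3 v4 v1
  have h3 := norm_sub_le_norm_sub_add_norm_sub v4 v5 v1
  have h4 := norm_sub_le_norm_sub_add_norm_sub v5 v6 v1
  have h5 := norm_sub_le_norm_sub_add_norm_sub v6 v7 v1
  linarith

/-- **crossing pair, lower run longer** -/
theorem up_pair (hm0 : MK0) (hw : WordsEx) (hrl : RLchain) (hll : LLchain) (hmb : MBup)
    (hmb' : MBup') (hnb : NBup) (hdr : DRup) (P : P4) (H : Finset V) (k a b a' b' : ℤ)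
    (hb : b' < b) (hH : Hang P.F H k (b' + 1) b true) (t : Two P.F H k a b a' b') :
    Sm k a b a' b' fun L x y0 y1 ε =>
      ‖GH (D P.F L) x y0 (b * L + L - 1) (mt P L) -
        GH (D P.F L) x y1 (b' * L + L - 1) (mt P L)‖ ≤ ε := by
  intro r hr hr2 ε hε
  have hε' : 0 < ε / 6 := by linarith
  have cfg := cfg_up (np_P4 P) hb hH t
  obtain ⟨L1, g1⟩ := hm0 P a b (k - 1) t.lo
  obtain ⟨L2, g2⟩ := hm0 P a' b' k t.up
  obtain ⟨L3, g3⟩ := ll_eps hll hw cfg (δ := 0) (Or.inl ⟨rfl, rfl⟩) hε'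
  obtain ⟨L4, g4⟩ := hmb P H k (b' + 1) b a' b' k cfg (ε / 6) hε'
  obtain ⟨L5, g5⟩ := rl_eps hrl hw cfg (δ := -1) (Or.inl ⟨rfl, rfl⟩) hε'
  obtain ⟨L6, g6⟩ := hmb' P H k a b a' b' hb t cfg (ε / 6) hε'
  obtain ⟨h7, hh7, L7, g7⟩ := hnb P H k a b a' b' (np_P4 P) hb hH t r hr hr2 (ε / 6) hε'
  obtain ⟨h8, hh8, L8, g8⟩ := hdr P H k a b a' b' (np_P4 P) hb hH t r hr hr2 (ε / 6) hε'
  refine ⟨min (min h7 h8) (1 / 8), lt_min (lt_min hh7 hh8) (by norm_num),
    max (max (max L1 L2) (max L3 L4)) (max (max L5 L6) (max (max L7 L8) ⌈(8 / r : ℝ)⌉)),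
    fun L hL hev x y0 y1 hc => ?_⟩
  simp only [max_le_iff] at hL
  obtain ⟨⟨⟨k1, k2⟩, k3, k4⟩, ⟨k5, k6⟩, ⟨k7, k8⟩, k9⟩ := hL
  obtain ⟨hrL, hL8⟩ := ge_div hr k9 (by linarith)
  have hL0 : 0 < L := by omega
  have c7 : Cr L k a b a' b' r h7 x y0 y1 :=
    hc.mono hL0 ((min_le_left _ _).trans (min_le_left _ _))
  have c8 : Cr L k a b a' b' r h8 x y0 y1 :=
    hc.mono hL0 ((min_le_left _ _).trans (min_le_right _ _))
  obtain ⟨s0, s1⟩ := hc.sl hL8 (min_le_right _ _) hr (by linarith)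
  have ok0 := g1 L k1 hev x y0 s0
  have ok1 := g2 L k2 hev x y1 s1
  have e3 := (g3 L k3 hev x y1 s1).fwd
  rw [shD_zero hH hL0] at e3
  simp only [mkS_zero] at e3
  obtain ⟨o3, n3⟩ := e3 ok1
  obtain ⟨o4, n4⟩ := g4 L k4 hev x y1 s1 o3
  have e5 := (g5 L k5 hev x y1 s1).bwd
  rw [shD_m1 hH hL0] at e5
  obtain ⟨o5, n5⟩ := e5 o4
  obtain ⟨o6, n6⟩ := g6 L k6 hev x y1 s1 o5
  obtain ⟨o7, n7⟩ := g7 L k7 hev x y0 y1 c7 o6
  have e8 := g8 L k8 hev x y0 y1 c8
  simp only [mkE_eq_mU t hb hc hL8 hev (min_le_right _ _) hr] at e8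
  have n8 := e8 ok0 o7
  exact tri6 n3 n4 n5 n6 n7 n8

/-- **crossing pair, upper run longer** -/
theorem dn_pair (hm0 : MK0) (hw : WordsEx) (hrl : RLchain) (hll : LLchain) (hmb : MBdn)
    (hmb' : MBdn') (hnb : NBdn) (hdr : DRdn) (P : P4) (H : Finset V) (k a b a' b' : ℤ)
    (hb : b < b') (hH : Hang P.F H k (b + 1) b' false) (t : Two P.F H k a b a' b') :
    Sm k a b a' b' fun L x y0 y1 ε =>
      ‖GH (D P.F L) x y0 (b * L + L - 1) (mt P L) -
        GH (D P.F L) x y1 (b' * L + L - 1) (mt P L)‖ ≤ ε := by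
  intro r hr hr2 ε hε
  have hε' : 0 < ε / 6 := by linarith
  have cfg := cfg_dn (np_P4 P) hb hH t
  obtain ⟨L1, g1⟩ := hm0 P a b (k - 1) t.lo
  obtain ⟨L2, g2⟩ := hm0 P a' b' k t.up
  obtain ⟨L3, g3⟩ := rl_eps hrl hw cfg (δ := 0) (Or.inr ⟨rfl, rfl⟩) hε'
  obtain ⟨L4, g4⟩ := hmb P H k (b + 1) b' a b (k - 1) cfg (ε / 6) hε'
  obtain ⟨L5, g5⟩ := ll_eps hll hw cfg (δ := 1) (Or.inr ⟨rfl, rfl⟩) hε'
  obtain ⟨L6, g6⟩ := hmb' P H k a b a' b' hb t cfg (ε / 6) hε'
  obtain ⟨h7, hh7, L7, g7⟩ := hnb P H k a b a' b' (np_P4 P) hb hH t r hr hr2 (ε / 6) hε'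
  obtain ⟨h8, hh8, L8, g8⟩ := hdr P H k a b a' b' (np_P4 P) hb hH t r hr hr2 (ε / 6) hε'
  refine ⟨min (min h7 h8) (1 / 8), lt_min (lt_min hh7 hh8) (by norm_num),
    max (max (max L1 L2) (max L3 L4)) (max (max L5 L6) (max (max L7 L8) ⌈(8 / r : ℝ)⌉)),
    fun L hL hev x y0 y1 hc => ?_⟩
  simp only [max_le_iff] at hL
  obtain ⟨⟨⟨k1, k2⟩, k3, k4⟩, ⟨k5, k6⟩, ⟨k7, k8⟩, k9⟩ := hL
  obtain ⟨hrL, hL8⟩ := ge_div hr k9 (by linarith)
  have hL0 : 0 < L := by omega
  have c7 : Cr L k a b a' b' r h7 x y0 y1 :=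
    hc.mono hL0 ((min_le_left _ _).trans (min_le_left _ _))
  have c8 : Cr L k a b a' b' r h8 x y0 y1 :=
    hc.mono hL0 ((min_le_left _ _).trans (min_le_right _ _))
  obtain ⟨s0, s1⟩ := hc.sl hL8 (min_le_right _ _) hr (by linarith)
  have ok0 := g1 L k1 hev x y0 s0
  have ok1 := g2 L k2 hev x y1 s1
  have e3 := (g3 L k3 hev x y0 s0).fwd
  rw [shD_zero hH hL0] at e3
  simp only [mkS_zero] at e3
  obtain ⟨o3, n3⟩ := e3 ok0
  obtain ⟨o4, n4⟩ := g4 L k4 hev x y0 s0 o3
  have e5 := (g5 L k5 hev x y0 s0).bwd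
  rw [shD_p1 hH hL0] at e5
  obtain ⟨o5, n5⟩ := e5 o4
  obtain ⟨o6, n6⟩ := g6 L k6 hev x y0 s0 o5
  obtain ⟨o7, n7⟩ := g7 L k7 hev x y0 y1 c7 ok1
  have e8 := g8 L k8 hev x y0 y1 c8
  simp only [pkE_eq_mD t hb hc hL8 hev (min_le_right _ _) hr] at e8
  have n8 := e8 o6 o7
  rw [norm_sub_rev] at n7
  exact tri6' n3 n4 n5 n6 n8 n7

/-- position of the slits of a pair with one right end -/
theorem Cr1.mono {F : Finset V} {L q b : ℤ} {r h h' : ℝ} {x y0 y1 : ℤ}
    (hc : Cr1 F L q b r h x y0 y1) (hL : 0 < L) (hh : h ≤ h') : Cr1 F L q b r h' x y0 y1 where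
  lt := hc.lt
  n0 := hc.n0
  n1 := hc.n1
  c0 := by
    have hLr : (0 : ℝ) < L := by exact_mod_cast hL
    have := hc.c0
    nlinarith
  c1 := by
    have hLr : (0 : ℝ) < L := by exact_mod_cast hL
    have := hc.c1
    nlinarith
  row := hc.row
  box := hc.box
  out := hc.out
  xr := hc.xr

/-- **pair with one right end** -/
theorem one_pair (hnb : NBone) (hdr : DRone) (P : P4) (q b : ℤ) :
    Sm1 P q b fun L x y0 y1 ε =>
      Rg.ok ⟨D P.F L, x, y0, b * L + L - 1, mt P L⟩ →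
      Rg.ok ⟨D P.F L, x, y1, b * L + L - 1, mt P L⟩ →
      ‖GH (D P.F L) x y0 (b * L + L - 1) (mt P L) -
        GH (D P.F L) x y1 (b * L + L - 1) (mt P L)‖ ≤ ε := by
  intro r hr hr2 ε hε
  have hε' : 0 < ε / 2 := by linarith
  obtain ⟨h7, hh7, L7, g7⟩ := hnb P q b r hr hr2 (ε / 2) hε'
  obtain ⟨h8, hh8, L8, g8⟩ := hdr P q b r hr hr2 (ε / 2) hε'
  refine ⟨min h7 h8, lt_min hh7 hh8, max (max L7 L8) 1, fun L hL hev x y0 y1 hc ok0 ok1 => ?_⟩
  simp only [max_le_iff] at hL
  obtain ⟨⟨k7, k8⟩, k9⟩ := hL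
  have hL0 : 0 < L := by omega
  obtain ⟨o7, n7⟩ := g7 L k7 hev x y0 y1 (hc.mono hL0 (min_le_left _ _)) ok1
  have n8 := g8 L k8 hev x y0 y1 (hc.mono hL0 (min_le_right _ _)) ok0 o7
  rw [norm_sub_rev] at n7
  have := norm_sub_le_norm_sub_add_norm_sub (Rg.val ⟨D P.F L, x, y0, b * L + L - 1, mt P L⟩)
    (Rg.val ⟨D P.F L \ N1 L b y0 y1, x, y1, b * L + L - 1, fun i => nmk L b y0 y1 (mt P L i)⟩)
    (Rg.val ⟨D P.F L, x, y1, b * L + L - 1, mt P L⟩)
  exact this.trans (by linarith)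

end Crest.Agent.R158.Hb656
end
end

-- ▼ part R158/Hb5_656
section

/-!
R158, S0237, BLOCK BL, file 5 (helper656): **`OscM` from the leaves**.
-/

set_option autoImplicit false

noncomputable section

namespace Crest.Agent.R158.Hb656

open Filter Topology Metric
open Crest.Agent.R158.Sp896 (V sq)
open Crest.Agent.R158.Sw300 (Port)
open Crest.Agent.R158.Env664 (D Run Adj4 Mac mark mem_D beD div_iff exists_run nbc z4)
open Crest.Agent.R158.Ob664 (HG HA HD rgt)
open Crest.Agent.R158.Tj656 (P4 Om mpos mem_om om_open)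
open Crest.Agent.R158.Bh679 (NP Words RLchain LLchain MKs HGs mq)
open Crest.Agent.R158.Wd377 (MK)

/-- uniform choice for finitely many data -/
theorem unif {ι : Type*} (S : Finset ι) (Q : ι → ℝ → ℤ → Prop)
    (mono : ∀ i h h' L L', h' ≤ h → L ≤ L' → Q i h L → Q i h' L')
    (H : ∀ i ∈ S, ∃ h : ℝ, 0 < h ∧ ∃ L : ℤ, Q i h L) :
    ∃ h : ℝ, 0 < h ∧ ∃ L : ℤ, ∀ i ∈ S, Q i h L := by
  classical
  induction S using Finset.induction_on with
  | empty => exact ⟨1, one_pos, 0, fun i hi => absurd hi (Finset.notMem_empty i)⟩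
  | insert i S hi ih =>
    obtain ⟨h1, hh1, L1, g1⟩ := ih fun j hj => H j (Finset.mem_insert_of_mem hj)
    obtain ⟨h2, hh2, L2, g2⟩ := H i (Finset.mem_insert_self i S)
    refine ⟨min h1 h2, lt_min hh1 hh2, max L1 L2, fun j hj => ?_⟩
    rcases Finset.mem_insert.1 hj with rfl | hj
    · exact mono _ _ _ _ _ (min_le_right _ _) (le_max_right _ _) g2
    · exact mono _ _ _ _ _ (min_le_left _ _) (le_max_left _ _) (g1 j hj)

section geo

variable {P : P4} {L : ℤ}

theorem om_cell {u v : ℝ} (h : (⟨u, v⟩ : ℂ) ∈ P.Om) {c j : ℤ} (h1 : (c : ℝ) ≤ u)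
    (h2 : u ≤ c + 1) (h3 : (j : ℝ) ≤ v) (h4 : v ≤ j + 1) : (c, j) ∈ P.F := by
  refine (mem_om one_pos).1 h (c, j) ?_
  simp only [Sp896.sq, Set.mem_ofPred_eq]
  refine ⟨?_, ?_, ?_, ?_⟩ <;> simp only [one_mul] <;> assumption

/-- rows and columns of tiles in macroscopic coordinates -/
theorem cast_cell (hL : 0 < L) {x c : ℤ} (h1 : c * L ≤ x) (h2 : x < c * L + L) :
    (c : ℝ) ≤ (x : ℝ) / L ∧ (x : ℝ) / L < c + 1 := by
  have hLr : (0 : ℝ) < L := by exact_mod_cast hL
  rw [le_div_iff₀ hLr, div_lt_iff₀ hLr]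
  constructor
  · exact_mod_cast h1
  · have : ((x : ℤ) : ℝ) < ((c * L + L : ℤ) : ℝ) := by exact_mod_cast h2
    push_cast at this
    linarith

theorem cell_of_om (hL : 0 < L) {x y c j : ℤ} (h : mpos L x y ∈ P.Om) (h1 : c * L ≤ x)
    (h2 : x < c * L + L) (h3 : j * L ≤ y) (h4 : y < j * L + L) : (c, j) ∈ P.F := by
  obtain ⟨q1, q2⟩ := cast_cell hL h1 h2
  obtain ⟨q3, q4⟩ := cast_cell hL h3 h4
  exact om_cell (u := (x : ℝ) / L) (v := (y : ℝ) / L) h q1 q2.le q3 q4.le

/-- the run of the row is `r0 L` longer on both sides -/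
theorem margins (hL : 0 < L) {x y a b j c : ℤ} {r0 : ℝ} (hr : Run P.F a b j)
    (h : ball (mpos L x y) r0 ⊆ P.Om) (h1 : c * L ≤ x) (h2 : x < c * L + L) (hac : a ≤ c)
    (hcb : c ≤ b) (h3 : j * L ≤ y) (h4 : y < j * L + L) :
    (a : ℝ) * L + r0 * L ≤ x ∧ (x : ℝ) + r0 * L ≤ (b + 1) * L := by
  have hLr : (0 : ℝ) < L := by exact_mod_cast hL
  obtain ⟨q1, q2⟩ := cast_cell hL h1 h2
  obtain ⟨q3, q4⟩ := cast_cell hL h3 h4
  have hac' : (a : ℝ) ≤ c := by exact_mod_cast hac
  have hcb' : (c : ℝ) ≤ b := by exact_mod_cast hcb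
  constructor
  · by_contra hcon
    push Not at hcon
    have g1 : (x : ℝ) / L < a + r0 := by rw [div_lt_iff₀ hLr]; linarith
    have hin : (⟨(a : ℝ), (y : ℝ) / L⟩ : ℂ) ∈ P.Om := by
      apply h
      rw [mem_ball, dist_eq_norm]
      have e : (⟨(a : ℝ), (y : ℝ) / L⟩ : ℂ) - mpos L x y = (((a : ℝ) - (x : ℝ) / L : ℝ) : ℂ) := by
        apply Complex.ext <;> simp [mpos]
      rw [e, Complex.norm_real, Real.norm_eq_abs, abs_lt]
      constructor <;> linarith
    have := om_cell (c := a - 1) (j := j) hin (by push_cast; linarith) (by push_cast; linarith)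
      q3 q4.le
    exact hr.left this
  · by_contra hcon
    push Not at hcon
    have g1 : (b : ℝ) + 1 < (x : ℝ) / L + r0 := by
      have : ((b : ℝ) + 1) * L < ((x : ℝ) / L + r0) * L := by
        rw [add_mul ((x : ℝ) / L), div_mul_cancel₀ _ hLr.ne']
        exact hcon
      exact lt_of_mul_lt_mul_right this hLr.le
    have hin : (⟨(b : ℝ) + 1, (y : ℝ) / L⟩ : ℂ) ∈ P.Om := by
      apply h
      rw [mem_ball, dist_eq_norm]
      have e : (⟨(b : ℝ) + 1, (y : ℝ) / L⟩ : ℂ) - mpos L x y =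
          (((b : ℝ) + 1 - (x : ℝ) / L : ℝ) : ℂ) := by
        apply Complex.ext <;> simp [mpos]
      rw [e, Complex.norm_real, Real.norm_eq_abs, abs_lt]
      constructor <;> linarith
    have := om_cell (c := b + 1) (j := j) hin (by push_cast; linarith) (by push_cast; linarith)
      q3 q4.le
    exact hr.right this

/-- tiles near `(x, y)` are tiles of the domain -/
theorem box_of (hL : 0 < L) {x y : ℤ} {r0 r : ℝ} (h : ball (mpos L x y) r0 ⊆ P.Om)
    (hr : 2 * r < r0) {x1 y1 : ℤ} (h1 : |(x1 : ℝ) - x| ≤ r * L) (h2 : |(y1 : ℝ) - y| ≤ r * L) :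
    (x1, y1) ∈ D P.F L := by
  have hLr : (0 : ℝ) < L := by exact_mod_cast hL
  have hin : mpos L x1 y1 ∈ P.Om := by
    apply h
    rw [mem_ball, dist_eq_norm]
    have e1 : |(mpos L x1 y1 - mpos L x y).re| ≤ r := by
      have : (mpos L x1 y1 - mpos L x y).re = ((x1 : ℝ) - x) / L := by simp [mpos]; ring
      rw [this, abs_div, abs_of_pos hLr, div_le_iff₀ hLr]
      exact h1
    have e2 : |(mpos L x1 y1 - mpos L x y).im| ≤ r := by
      have : (mpos L x1 y1 - mpos L x y).im = ((y1 : ℝ) - y) / L := by simp [mpos]; ring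
      rw [this, abs_div, abs_of_pos hLr, div_le_iff₀ hLr]
      exact h2
    have := Complex.norm_le_abs_re_add_abs_im (mpos L x1 y1 - mpos L x y)
    linarith
  rw [mem_D hL]
  have g1 := (div_iff hL x1 (x1 / L)).1 rfl
  have g2 := (div_iff hL y1 (y1 / L)).1 rfl
  exact cell_of_om hL hin g1.1 g1.2 g2.1 g2.2

end geo

/-- all leaves of block BL -/
structure Leaves : Prop where
  hang : HangEx
  mk0 : MK0
  words : WordsEx
  rl : RLchain
  ll : LLchain
  mbup : MBup
  mbdn : MBdn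
  mbup' : MBup'
  mbdn' : MBdn'
  nbup : NBup
  nbdn : NBdn
  nbone : NBone
  drup : DRup
  drdn : DRdn
  drone : DRone

/-- **crossing pairs**, all cases -/
theorem cross_pair (lv : Leaves) (P : P4) (k a b a' b' : ℤ) (hlo : Run P.F a b (k - 1))
    (hup : Run P.F a' b' k) (hco : max a a' ≤ min b b') : Sm k a b a' b' fun L x y0 y1 ε =>
      ‖GH (D P.F L) x y0 (b * L + L - 1) (mt P L) -
        GH (D P.F L) x y1 (b' * L + L - 1) (mt P L)‖ ≤ ε := by
  rcases lt_trichotomy b b' with hb | hb | hb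
  · obtain ⟨H, hH, t⟩ := (lv.hang P k a b a' b' hlo hup hco).2 hb
    exact dn_pair lv.mk0 lv.words lv.rl lv.ll lv.mbdn lv.mbdn' lv.nbdn lv.drdn P H k a b a' b' hb
      hH t
  · subst hb
    intro r hr hr2 ε hε
    obtain ⟨h, hh, L1, g⟩ := one_pair lv.nbone lv.drone P (2 * k) b (r / 2) (by linarith)
      (by linarith) ε hε
    obtain ⟨L2, g2⟩ := lv.mk0 P a b (k - 1) hlo
    obtain ⟨L3, g3⟩ := lv.mk0 P a' b k hup
    refine ⟨min h (1 / 8), lt_min hh (by norm_num), max (max L1 (max L2 L3)) ⌈(8 / r : ℝ)⌉,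
      fun L hL hev x y0 y1 hc => ?_⟩
    simp only [max_le_iff] at hL
    obtain ⟨⟨k1, k2, k3⟩, k4⟩ := hL
    obtain ⟨hrL, hL8⟩ := ge_div hr k4 (by linarith)
    have hL0 : 0 < L := by omega
    have hLr : (0 : ℝ) < L := by exact_mod_cast hL0
    have hh8 : min h (1 / 8) ≤ 1 / 8 := min_le_right _ _
    obtain ⟨s0, s1⟩ := hc.sl hL8 hh8 hr (by linarith)
    obtain ⟨q1, q2, q3, q4, q5, q6⟩ := hc.int hL8 hh8 hr
    have c1 := hc.lo
    have c2 := hc.hi
    have c3 := hc.lo'
    have c4 := hc.hi'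
    have c5 := hc.l0
    have c6 := hc.l1
    have c7 := hc.r0
    have e1 : (k - 1) * L = k * L - L := by ring
    have e2 : (k + 1) * L = k * L + L := by ring
    have hmin : min h (1 / 8) * L ≤ L / 8 := by nlinarith
    have hmin2 : min h (1 / 8) * L ≤ h * L := mul_le_mul_of_nonneg_right (min_le_left _ _) hLr.le
    rw [max_le_iff, le_min_iff, le_min_iff] at hco
    -- tiles of the two rows
    have tile : ∀ x1 y : ℤ, a * L ≤ x1 → a' * L ≤ x1 → x1 ≤ b * L + L - 1 → (k - 1) * L ≤ y →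
        y < (k + 1) * L → (x1, y) ∈ D P.F L := by
      intro x1 y f1 f2 f3 f4 f5
      obtain ⟨u, hu⟩ : ∃ u, u = x1 / L := ⟨_, rfl⟩
      have g1 := (div_iff hL0 _ _).1 hu.symm
      have f6 : u < b + 1 := by
        apply mul_lt_of hL0
        have : (b + 1) * L = b * L + L := by ring
        omega
      have f7 : a < u + 1 := by
        apply mul_lt_of hL0
        have : (u + 1) * L = u * L + L := by ring
        omega
      have f8 : a' < u + 1 := by
        apply mul_lt_of hL0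
        have : (u + 1) * L = u * L + L := by ring
        omega
      rcases lt_or_ge y (k * L) with f9 | f9
      · exact (memD hL0 g1.1 g1.2 f4 (by omega)).2 (hlo.mem u (by omega) (by omega))
      · exact (memD hL0 g1.1 g1.2 f9 (by omega)).2 (hup.mem u (by omega) (by omega))
    have cr : Cr1 P.F L (2 * k) b (r / 2) h x y0 y1 := by
      refine ⟨by omega, ?_, ?_, ?_, ?_, ?_, ?_, ?_, ?_⟩
      · rintro ⟨u, rfl⟩
        have f1 : u * L < k * L := by linarith [mul_comm L u]
        have f2 := mul_lt_of hL0 f1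
        have f3 : u * L ≤ (k - 1) * L := Int.mul_le_mul_of_nonneg_right (by omega) hL0.le
        have := mul_comm L u
        omega
      · rintro ⟨u, rfl⟩
        have f1 : k * L < u * L := by linarith [mul_comm L u]
        have f2 := mul_lt_of hL0 f1
        have f3 : (k + 1) * L ≤ u * L := Int.mul_le_mul_of_nonneg_right (by omega) hL0.le
        have := mul_comm L u
        omega
      · have f : (y0 : ℝ) < k * L := by exact_mod_cast c1
        rw [abs_le]
        push_cast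
        constructor <;> linarith
      · have f : (k * L : ℝ) < y1 := by exact_mod_cast c2
        rw [abs_le]
        push_cast
        constructor <;> linarith
      · intro x1 y f1 f2 f3 f4
        refine tile x1 y ?_ ?_ f2 (by omega) (by omega)
        · have : (a : ℝ) * L ≤ x1 := by linarith
          exact_mod_cast this
        · have : (a' : ℝ) * L ≤ x1 := by linarith
          exact_mod_cast this
      · intro x1 y f1 f2
        rw [abs_le] at f1 f2
        have f : (y0 : ℝ) < k * L := by exact_mod_cast c1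
        have hrr : r / 2 * L ≤ L / 4 := by nlinarith
        refine tile x1 y ?_ ?_ ?_ ?_ ?_
        · have : (a : ℝ) * L ≤ x1 := by linarith
          exact_mod_cast this
        · have : (a' : ℝ) * L ≤ x1 := by linarith
          exact_mod_cast this
        · have : ((x1 : ℤ) : ℝ) < ((b * L + L : ℤ) : ℝ) := by push_cast; linarith
          have : x1 < b * L + L := by exact_mod_cast this
          omega
        · have : (((k - 1) * L : ℤ) : ℝ) ≤ y := by push_cast; linarith
          exact_mod_cast this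
        · have : (y : ℝ) < (((k + 1) * L : ℤ) : ℝ) := by push_cast; linarith
          exact_mod_cast this
      · intro y f1 f2
        rcases lt_or_ge y (k * L) with f9 | f9
        · rw [memD hL0 (a := b + 1) (b := k - 1) (by linarith) (by linarith) (by omega) (by omega)]
          exact hlo.right
        · rw [memD hL0 (a := b + 1) (b := k) (by linarith) (by linarith) f9 (by omega)]
          exact hup.right
      · linarith
    exact g L k1 hev x y0 y1 cr (g2 L k2 hev x y0 s0) (g3 L k3 hev x y1 s1)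
  · obtain ⟨H, hH, t⟩ := (lv.hang P k a b a' b' hlo hup hco).1 hb
    exact up_pair lv.mk0 lv.words lv.rl lv.ll lv.mbup lv.mbup' lv.nbup lv.drup P H k a b a' b' hb
      hH t

end Crest.Agent.R158.Hb656
end
end

-- ▼ part R158/Hb6_656
section

/-!
R158, S0237, BLOCK BL, file 6 (helper656): **`oscM_of : Leaves → ∀ P, OscM P`**
-/

set_option autoImplicit false

noncomputable section

namespace Crest.Agent.R158.Hb656

open Filter Topology Metric
open Crest.Agent.R158.Sp896 (V sq)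
open Crest.Agent.R158.Sw300 (Port)
open Crest.Agent.R158.Env664 (D Run Adj4 Mac mark mem_D beD div_iff exists_run nbc z4)
open Crest.Agent.R158.Ob664 (HG HA HD rgt)
open Crest.Agent.R158.Tj656 (P4 Om mpos mem_om om_open)
open Crest.Agent.R158.Bh679 (NP Words RLchain LLchain MKs HGs mq)
open Crest.Agent.R158.Wd377 (MK)
open Crest.Agent.R158.Cs410 (OscM)

theorem not_dvd_row {L y : ℤ} (hL : 0 < L) (h : ¬ L ∣ y) : y / L * L < y ∧ y < y / L * L + L := by
  obtain ⟨h1, h2⟩ := (div_iff hL y (y / L)).1 rfl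
  refine ⟨lt_of_le_of_ne h1 fun e => h ⟨y / L, ?_⟩, h2⟩
  rw [mul_comm]; exact e.symm

set_option maxHeartbeats 1000000 in
/-- **BLOCK BL** : the official form from the leaves -/
theorem oscM_of (lv : Leaves) (P : P4) : OscM P := by
  classical
  intro q r0 ε hr0 hε
  -- the radius
  obtain ⟨r, hr, hr2, hrr⟩ : ∃ r : ℝ, 0 < r ∧ r ≤ 1 / 4 ∧ 2 * r < r0 :=
    ⟨min (r0 / 4) (1 / 4), lt_min (by linarith) (by norm_num), min_le_right _ _, by
      have := min_le_left (r0 / 4) (1 / 4); linarith⟩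
  set C : Finset ℤ := P.F.image Prod.fst with hC
  set R : Finset ℤ := P.F.image Prod.snd with hR
  -- one right end
  obtain ⟨h1, hh1, L1, g1⟩ := unif C (fun b h L0 => ∀ L : ℤ, L0 ≤ L → 0 < L → Even L →
      ∀ x y0 y1 : ℤ, Cr1 P.F L q b r h x y0 y1 →
        Rg.ok ⟨D P.F L, x, y0, b * L + L - 1, mt P L⟩ →
        Rg.ok ⟨D P.F L, x, y1, b * L + L - 1, mt P L⟩ →
        ‖GH (D P.F L) x y0 (b * L + L - 1) (mt P L) -
          GH (D P.F L) x y1 (b * L + L - 1) (mt P L)‖ ≤ ε)
    (fun b h h' L L' e1 e2 g L3 k1 k2 k3 x y0 y1 hc => g L3 (e2.trans k1) k2 k3 x y0 y1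
      (hc.mono k2 e1))
    (fun b _ => by
      obtain ⟨h, hh, L0, g⟩ := one_pair lv.nbone lv.drone P q b r hr (by linarith) ε hε
      exact ⟨h, hh, L0, fun L k1 _ k3 => g L k1 k3⟩)
  -- crossing pairs
  obtain ⟨h2, hh2, L2, g2⟩ := unif (C ×ˢ C ×ˢ C ×ˢ C) (fun t h L0 => ∀ L : ℤ, L0 ≤ L → 0 < L →
      Even L → ∀ m : ℤ, 2 * m = q → Run P.F t.1 t.2.1 (m - 1) → Run P.F t.2.2.1 t.2.2.2 m →
      max t.1 t.2.2.1 ≤ min t.2.1 t.2.2.2 →
      ∀ x y0 y1 : ℤ, Cr L m t.1 t.2.1 t.2.2.1 t.2.2.2 r h x y0 y1 →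
        ‖GH (D P.F L) x y0 (t.2.1 * L + L - 1) (mt P L) -
          GH (D P.F L) x y1 (t.2.2.2 * L + L - 1) (mt P L)‖ ≤ ε)
    (fun t h h' L L' e1 e2 g L3 k1 k2 k3 m k4 k5 k6 k7 x y0 y1 hc =>
      g L3 (e2.trans k1) k2 k3 m k4 k5 k6 k7 x y0 y1 (hc.mono k2 e1))
    (fun t _ => by
      by_cases hex : ∃ m : ℤ, 2 * m = q ∧ Run P.F t.1 t.2.1 (m - 1) ∧
          Run P.F t.2.2.1 t.2.2.2 m ∧ max t.1 t.2.2.1 ≤ min t.2.1 t.2.2.2
      · obtain ⟨m, k4, k5, k6, k7⟩ := hex
        obtain ⟨h, hh, L0, g⟩ := cross_pair lv P m t.1 t.2.1 t.2.2.1 t.2.2.2 k5 k6 k7 r hr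
          (by linarith) ε hε
        refine ⟨h, hh, L0, fun L k1 _ k3 m' k4' _ _ _ => ?_⟩
        have : m' = m := by omega
        subst this
        exact g L k1 k3
      · exact ⟨1, one_pos, 0, fun L _ _ _ m k4 k5 k6 k7 => absurd ⟨m, k4, k5, k6, k7⟩ hex⟩)
  -- order of the marks
  obtain ⟨h3, hh3, L3, g3⟩ := unif (C ×ˢ C ×ˢ R) (fun t _ L0 => ∀ L : ℤ, L0 ≤ L → Even L →
      Run P.F t.1 t.2.1 t.2.2 → ∀ x y : ℤ, Sl L t.1 t.2.1 t.2.2 x y →
        Rg.ok ⟨D P.F L, x, y, t.2.1 * L + L - 1, mt P L⟩)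
    (fun t h h' L L' _ e2 g L3 k1 => g L3 (e2.trans k1))
    (fun t _ => by
      by_cases hex : Run P.F t.1 t.2.1 t.2.2
      · obtain ⟨L0, g⟩ := lv.mk0 P t.1 t.2.1 t.2.2 hex
        exact ⟨1, one_pos, L0, fun L k1 k2 _ => g L k1 k2⟩
      · exact ⟨1, one_pos, 0, fun L _ _ k => absurd k hex⟩)
  obtain ⟨h, hh⟩ : ∃ h, h = min (min h1 h2) (min (1 / 8) (r0 / 4)) := ⟨_, rfl⟩
  have hpos : 0 < h := by
    rw [hh]; exact lt_min (lt_min hh1 hh2) (lt_min (by norm_num) (by linarith))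
  have hle1 : h ≤ h1 := by rw [hh]; exact (min_le_left _ _).trans (min_le_left _ _)
  have hle2 : h ≤ h2 := by rw [hh]; exact (min_le_left _ _).trans (min_le_right _ _)
  have hle3 : h ≤ 1 / 8 := by rw [hh]; exact (min_le_right _ _).trans (min_le_left _ _)
  have hle4 : h ≤ r0 / 4 := by rw [hh]; exact (min_le_right _ _).trans (min_le_right _ _)
  refine ⟨h, hpos, max (max L1 L2) (max L3 ⌈(8 / r : ℝ)⌉), fun L hL hev => ?_⟩
  simp only [max_le_iff] at hL
  obtain ⟨⟨k1, k2⟩, k3, k4⟩ := hL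
  obtain ⟨hrL, hL8⟩ := ge_div hr k4 (by linarith)
  have hL0 : 0 < L := by omega
  have hLr : (0 : ℝ) < L := by exact_mod_cast hL0
  -- the ordered pair
  have key : ∀ x y y' : ℤ, y < y' → ¬ L ∣ y → ¬ L ∣ y' → |(y : ℝ) / L - q / 2| ≤ h →
      |(y' : ℝ) / L - q / 2| ≤ h → ball (mpos L x y) r0 ⊆ P.Om → ball (mpos L x y') r0 ⊆ P.Om →
      ‖P.HD L x y - P.HD L x y'‖ ≤ ε := by
    intro x y y' hlt n0 n1 c0 c1 b0 b1
    obtain ⟨c, hc⟩ : ∃ c, c = x / L := ⟨_, rfl⟩
    obtain ⟨j, hj⟩ : ∃ j, j = y / L := ⟨_, rfl⟩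
    obtain ⟨j', hj'⟩ : ∃ j', j' = y' / L := ⟨_, rfl⟩
    have gc := (div_iff hL0 _ _).1 hc.symm
    obtain ⟨gj, gj1⟩ := not_dvd_row hL0 n0
    obtain ⟨gj', gj1'⟩ := not_dvd_row hL0 n1
    rw [← hj] at gj gj1
    rw [← hj'] at gj' gj1'
    have om0 : mpos L x y ∈ P.Om := b0 (mem_ball_self hr0)
    have om1 : mpos L x y' ∈ P.Om := b1 (mem_ball_self hr0)
    have cF0 : (c, j) ∈ P.F := cell_of_om hL0 om0 gc.1 gc.2 gj.le gj1
    have cF1 : (c, j') ∈ P.F := cell_of_om hL0 om1 gc.1 gc.2 gj'.le gj1'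
    obtain ⟨a, b, hac, hcb, hrun⟩ := exists_run P.F cF0
    obtain ⟨a', b', hac', hcb', hrun'⟩ := exists_run P.F cF1
    simp only at hac hcb hrun hac' hcb' hrun'
    obtain ⟨m0, m1⟩ := margins hL0 hrun b0 gc.1 gc.2 hac hcb gj.le gj1
    obtain ⟨m0', m1'⟩ := margins hL0 hrun' b1 gc.1 gc.2 hac' hcb' gj'.le gj1'
    have hr0L : r * L ≤ r0 * L := by nlinarith
    have aC : a ∈ C := Finset.mem_image_of_mem Prod.fst (hrun.mem a le_rfl hrun.le)
    have bC : b ∈ C := Finset.mem_image_of_mem Prod.fst (hrun.mem b hrun.le le_rfl)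
    have aC' : a' ∈ C := Finset.mem_image_of_mem Prod.fst (hrun'.mem a' le_rfl hrun'.le)
    have bC' : b' ∈ C := Finset.mem_image_of_mem Prod.fst (hrun'.mem b' hrun'.le le_rfl)
    have jR : j ∈ R := Finset.mem_image_of_mem Prod.snd cF0
    have jR' : j' ∈ R := Finset.mem_image_of_mem Prod.snd cF1
    -- positions of the slits
    have sl0 : Sl L a b j x y := by
      refine ⟨?_, ?_, gj, gj1⟩
      · have : ((a * L + 1 : ℤ) : ℝ) ≤ x := by push_cast; linarith
        exact_mod_cast this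
      · have : ((x + 2 : ℤ) : ℝ) ≤ ((b * L + L - 1 : ℤ) : ℝ) := by push_cast; linarith
        exact_mod_cast this
    have sl1 : Sl L a' b' j' x y' := by
      refine ⟨?_, ?_, gj', gj1'⟩
      · have : ((a' * L + 1 : ℤ) : ℝ) ≤ x := by push_cast; linarith
        exact_mod_cast this
      · have : ((x + 2 : ℤ) : ℝ) ≤ ((b' * L + L - 1 : ℤ) : ℝ) := by push_cast; linarith
        exact_mod_cast this
    have ok0 := g3 (a, b, j) (by simp [aC, bC, jR]) L k3 hev hrun x y sl0
    have ok1 := g3 (a', b', j') (by simp [aC', bC', jR']) L k3 hev hrun' x y' sl1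
    have hrD := hrun.scale hL0 (y := y) gj.le gj1
    have hrD' := hrun'.scale hL0 (y := y') gj'.le gj1'
    have e0 : P.HD L x y = GH (D P.F L) x y (b * L + L - 1) (mt P L) := by
      refine HD_run hrD ?_ ?_
      · have := sl0.hx; omega
      · have := sl0.hx'; omega
    have e1 : P.HD L x y' = GH (D P.F L) x y' (b' * L + L - 1) (mt P L) := by
      refine HD_run hrD' ?_ ?_
      · have := sl1.hx; omega
      · have := sl1.hx'; omega
    rw [e0, e1]
    have c0' : |(y : ℝ) - q * L / 2| ≤ h * L := by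
      have : (y : ℝ) - q * L / 2 = ((y : ℝ) / L - q / 2) * L := by field_simp
      rw [this, abs_mul, abs_of_pos hLr]
      exact mul_le_mul_of_nonneg_right c0 hLr.le
    have c1' : |(y' : ℝ) - q * L / 2| ≤ h * L := by
      have : (y' : ℝ) - q * L / 2 = ((y' : ℝ) / L - q / 2) * L := by field_simp
      rw [this, abs_mul, abs_of_pos hLr]
      exact mul_le_mul_of_nonneg_right c1 hLr.le
    rcases eq_or_ne j j' with ejj | njj
    · -- the same macroscopic row
      subst ejj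
      have ebb : b' = b := by
        have q1 : b' ≤ b := by
          by_contra hcon
          push Not at hcon
          exact hrun.right (hrun'.mem (b + 1) (by omega) (by omega))
        have q2 : b ≤ b' := by
          by_contra hcon
          push Not at hcon
          exact hrun'.right (hrun.mem (b' + 1) (by omega) (by omega))
        omega
      subst ebb
      refine g1 b' bC L k1 hL0 hev x y y' ⟨hlt, n0, n1, ?_, ?_, ?_, ?_, ?_, ?_⟩ ok0 ok1
      · exact c0'.trans (mul_le_mul_of_nonneg_right hle1 hLr.le)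
      · exact c1'.trans (mul_le_mul_of_nonneg_right hle1 hLr.le)
      · intro x1 y1 f1 f2 f3 f4
        have f5 : (a : ℝ) * L ≤ x1 := by linarith
        have f6 : a * L ≤ x1 := by exact_mod_cast f5
        obtain ⟨u, hu⟩ : ∃ u, u = x1 / L := ⟨_, rfl⟩
        have gu := (div_iff hL0 _ _).1 hu.symm
        have f7 : u < b' + 1 := by
          apply mul_lt_of hL0
          have : (b' + 1) * L = b' * L + L := by ring
          omega
        have f8 : a < u + 1 := by
          apply mul_lt_of hL0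
          have : (u + 1) * L = u * L + L := by ring
          omega
        exact (memD hL0 gu.1 gu.2 (by omega) (by omega)).2 (hrun.mem u (by omega) (by omega))
      · intro x1 y1 f1 f2
        exact box_of hL0 b0 hrr f1 f2
      · intro y1 f1 f2
        rw [memD hL0 (a := b' + 1) (b := j) (by linarith) (by linarith) (by omega) (by omega)]
        exact hrun.right
      · linarith
    · -- across the line `j + 1`
      have hjj : j < j' := by
        refine lt_of_le_of_ne ?_ njj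
        rw [hj, hj']
        exact Int.ediv_le_ediv hL0 hlt.le
      have hm1 : y < (j + 1) * L := by linarith
      have hm2 : (j + 1) * L < y' := by
        have : (j + 1) * L ≤ j' * L := Int.mul_le_mul_of_nonneg_right (by omega) hL0.le
        omega
      have hm1r : (y : ℝ) < (j + 1) * L := by exact_mod_cast hm1
      have hm2r : ((j : ℝ) + 1) * L < y' := by exact_mod_cast hm2
      have hq : 2 * (j + 1) = q := by
        rw [abs_le] at c0' c1'
        have t1 : ((j : ℝ) + 1 - q / 2) * L ≤ h * L := by linarith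
        have t2 : -(h * L) ≤ ((j : ℝ) + 1 - q / 2) * L := by linarith
        have t3 : (j : ℝ) + 1 - q / 2 ≤ 1 / 8 := by nlinarith
        have t4 : -(1 / 8 : ℝ) ≤ (j : ℝ) + 1 - q / 2 := by nlinarith
        have t5 : ((2 * (j + 1) - q : ℤ) : ℝ) < 1 := by push_cast; linarith
        have t6 : (-1 : ℝ) < ((2 * (j + 1) - q : ℤ) : ℝ) := by push_cast; linarith
        have t7 : 2 * (j + 1) - q < 1 := by exact_mod_cast t5
        have t8 : -1 < 2 * (j + 1) - q := by exact_mod_cast t6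
        omega
      have hqr : (q : ℝ) = 2 * ((j : ℝ) + 1) := by rw [← hq]; push_cast; ring
      have hj1 : j' = j + 1 := by
        have t1 : (y' : ℝ) < (j + 2) * L := by
          rw [abs_le] at c1'
          rw [hqr] at c1'
          have : h * L ≤ L / 8 := by nlinarith
          linarith [c1'.2]
        have t2 : j' * L < (j + 2) * L := by
          have : y' < (j + 2) * L := by exact_mod_cast t1
          omega
        have := mul_lt_of hL0 t2
        omega
      subst hj1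
      have hcr : Cr L (j + 1) a b a' b' r h2 x y y' := by
        have hh2L : h * L ≤ h2 * L := mul_le_mul_of_nonneg_right hle2 hLr.le
        rw [abs_le] at c0' c1'
        rw [hqr] at c0' c1'
        refine ⟨hm1, hm2, ?_, ?_, ?_, ?_, ?_, ?_⟩
        · push_cast; linarith [c0'.1]
        · push_cast; linarith [c1'.2]
        · linarith
        · linarith
        · linarith
        · linarith
      exact g2 (a, b, a', b') (by simp [aC, bC, aC', bC']) L k2 hL0 hev (j + 1) hq
        (by simpa using hrun) hrun' (by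
          simp only [max_le_iff, le_min_iff]
          omega) x y y' hcr
  intro x y y' n0 n1 c0 c1 b0 b1
  rcases lt_trichotomy y y' with hlt | rfl | hlt
  · exact key x y y' hlt n0 n1 c0 c1 b0 b1
  · simpa using hε.le
  · rw [norm_sub_rev]
    exact key x y' y hlt n1 n0 c1 c0 b1 b0

end Crest.Agent.R158.Hb656
end
end

-- ▼ part R158/Hw3_949
section

/-!
# Row 158 (helper949), BLOCK BL: words and marks of a polygon, 3

* adapters to `Hb656.mt`
* **`cyc_D`** : clockwise order of the three marks in the word of `D^(z)`; **`mk_D`** : `MK`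
-/

set_option autoImplicit false
set_option linter.unusedVariables false

noncomputable section

namespace Crest.Agent.R158.Hw949

open Crest.Agent.R158.Sw300 (Port Wd Ok pos cyc)
open Crest.Agent.R158.Env664
open Crest.Agent.R158.Ob664 (Gl GW HW HG cyc_idL)
open Crest.Agent.R158.Sp896 (V Adj Cyc Con lc rc)
open Crest.Agent.R158.Tj656
open Crest.Agent.R158.Al194 (idL)
open Crest.Agent.R158.Mg949
open Crest.Agent.R158.Wd377 (MK)



section WD

variable {P : P4} {k : ℕ} {x y xr : ℤ} {q : ℕ} {w : Wd V}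

theorem mt0 (P : P4) {k : ℕ} (hk : 0 < k) : some (mt P (Lz k) 0) = sU P k (nn P k - 1) := by
  rw [← mark0 P hk, mark_snd]; rfl

theorem mt1 (P : P4) {k : ℕ} (hk : 0 < k) :
    some (mt P (Lz k) 1) = sU P k (P.md * (2 * k) - 1) := by
  rw [← markD P hk, mark_snd]; rfl

theorem mt2 (P : P4) {k : ℕ} (hk : 0 < k) :
    some (mt P (Lz k) 2) = sU P k (P.mc * (2 * k) - 1) := by
  rw [← markC P hk, mark_snd]; rfl

theorem mul_lt {a b k : ℕ} (hk : 0 < k) (h : a < b) : a * (2 * k) < b * (2 * k) :=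
  Nat.mul_lt_mul_of_pos_right h (by omega)

/-- **clockwise order of the three marks** -/
theorem cyc_D (h : WD P k x y xr q w) : cyc (pos w (some (mt P (Lz k) 0)))
    (pos w (some (mt P (Lz k) 1))) (pos w (some (mt P (Lz k) 2))) := by
  have hk := h.hk
  rw [mt0 P hk, mt1 P hk, mt2 P hk]
  have q1 := P.h1; have q2 := P.h2; have q3 := P.h3; have q4 := P.h4
  have e1 := mul_lt hk (a := 0) (b := P.mc) (by omega)
  have e2 := mul_lt hk q3
  have e3 : P.md * (2 * k) < nn P k := mul_lt hk q4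
  have m1 := m1_mem h.ok h.hL h.hq
  have m2 : sU P k (P.md * (2 * k) - 1) ∈ Sw300.L w :=
    (mem_L h.ok h.hL h.hq).2 ⟨_, by omega, Or.inl rfl⟩
  have m3 : sU P k (P.mc * (2 * k) - 1) ∈ Sw300.L w :=
    (mem_L h.ok h.hL h.hq).2 ⟨_, by omega, Or.inl rfl⟩
  rw [cyc_idL h.ok m1 m1 m2 m3, idL_m1 h.ok h.hL h.hq,
    idL_step h.ok h.hL h.hq (by omega : P.md * (2 * k) - 1 < nn P k),
    idL_step h.ok h.hL h.hq (by omega : P.mc * (2 * k) - 1 < nn P k)]
  have hq := h.hq
  unfold cyc pu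
  split_ifs <;> omega

theorem WD.mt_mem (h : WD P k x y xr q w) (i : Fin 3) : some (mt P (Lz k) i) ∈ Sw300.L w := by
  have hk := h.hk
  have q1 := P.h1; have q2 := P.h2; have q3 := P.h3; have q4 := P.h4
  have e1 := mul_lt hk (a := 0) (b := P.mc) (by omega)
  have e2 := mul_lt hk q3
  have e3 : P.md * (2 * k) < nn P k := mul_lt hk q4
  fin_cases i
  · show some (mt P (Lz k) 0) ∈ Sw300.L w
    rw [mt0 P hk]
    exact m1_mem h.ok h.hL h.hq
  · show some (mt P (Lz k) 1) ∈ Sw300.L w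
    rw [mt1 P hk]
    exact (mem_L h.ok h.hL h.hq).2 ⟨_, by omega, Or.inl rfl⟩
  · show some (mt P (Lz k) 2) ∈ Sw300.L w
    rw [mt2 P hk]
    exact (mem_L h.ok h.hL h.hq).2 ⟨_, by omega, Or.inl rfl⟩

theorem WD.mk (h : WD P k x y xr q w) : MK (D P.F (Lz k)) (beD (D P.F (Lz k)) x y xr)
    (some (mt P (Lz k) 0)) (some (mt P (Lz k) 1)) (some (mt P (Lz k) 2)) :=
  ⟨w, h.gw, WD.mt_mem h 0, WD.mt_mem h 1, WD.mt_mem h 2, cyc_D h⟩

end WD

/-- **clockwise order of the marks in `D^(z)`**, tile form -/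
theorem mk_run (P : P4) {L : ℤ} (hL : 0 < L) (hev : Even L) {x y xl xr : ℤ}
    (r0 : Run (D P.F L) xl xr y) (r1 : Run (D P.F L) xl xr (y - 1)) (h1 : xl < x) (h2 : x ≤ xr) :
    MK (D P.F L) (beD (D P.F L) x y xr) (some (Hb656.mt P L 0)) (some (Hb656.mt P L 1))
      (some (Hb656.mt P L 2)) := by
  obtain ⟨m, hm⟩ := hev
  obtain ⟨k, rfl⟩ : ∃ k : ℕ, m = k := ⟨m.toNat, by omega⟩
  have e : L = Lz k := by rw [hm]; unfold Lz; push_cast; ring
  subst e
  have hk : 0 < k := by unfold Lz at hL; omega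
  obtain ⟨q, w, hw⟩ := exists_word P hk r0 r1 h1 h2
  exact WD.mk hw

/-- **clockwise order of the marks in `D^(z)`**, macroscopic form -/
theorem mk_D (P : P4) {L : ℤ} (hL : 0 < L) (hev : Even L) {a b j x y : ℤ} (hr : Run P.F a b j)
    (h1 : a * L + 1 ≤ x) (h2 : x ≤ b * L + L - 1) (h3 : j * L < y) (h4 : y < j * L + L) :
    MK (D P.F L) (beD (D P.F L) x y (b * L + L - 1)) (some (Hb656.mt P L 0))
      (some (Hb656.mt P L 1)) (some (Hb656.mt P L 2)) :=
  mk_run P hL hev (hr.scale hL (by omega) h4) (hr.scale (y := y - 1) hL (by omega) (by omega))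
    (by omega) h2


/-! ### adapters -/

section P

open Crest.Agent.R158.Hb656 (shD RL LL mkS)

variable {P : P4} {H : Finset V} {L δ : ℤ} {S A : Finset V} {x y xr : ℤ} {w : Wd V}







end P

end Crest.Agent.R158.Hw949
end
end

-- ▼ part R158/Sh5_279

/-!
R158, S0237, BLOCK BL, leaf (B2), file 5 (helper279): 656's Prop `WordsEx`

* `nop` : 679's `NP` gives `NoPinch`
* `rows_of` : the two rows of the slit are not moved
* **`wordsEx : WordsEx`**
-/

set_option autoImplicit false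

noncomputable section

namespace Crest.Agent.R158.Sh279

open Crest.Agent.R158.Sp896 (V)
open Crest.Agent.R158.Env664 (D Run Adj4 Mac mem_D div_iff beD)
open Crest.Agent.R158.Ob664 (GW rgt)
open Crest.Agent.R158.Bh679 (NP Words)
open Crest.Agent.R158.Tj656 (P4)
open Crest.Agent.R158.Hb656

theorem nop {F : Finset V} (np : NP F) : NoPinch F where
  ne a b h1 h2 := by
    by_contra h3
    rw [not_or] at h3
    exact (np a b).1 ⟨h1, h2, h3.1, h3.2⟩
  nw a b h1 h2 := by
    by_contra h3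
    rw [not_or] at h3
    exact (np a b).2 ⟨h1, h2, h3.1, h3.2⟩

theorem not_DH_of_far {H : Finset V} {L : ℤ} (hL : 0 < L) {x y : ℤ}
    (h : (x / L, y / L) ∉ H) : (x, y) ∉ D H L := fun h1 => h ((mem_D hL _).1 h1)

/-- the two rows of the slit in a run none of whose cells is moved -/
theorem rows_of {F H : Finset V} {a b j L x y : ℤ} (hL : 8 ≤ L) (hr : Run F a b j)
    (hn : ∀ i, a ≤ i → i ≤ b → (i, j) ∉ H) (hs : Sl L a b j x y) :
    ∀ y', y - 1 ≤ y' → y' ≤ y → ∀ x', x ≤ x' → x' ≤ b * L + L - 1 →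
      (x', y') ∈ D F L ∧ (x', y') ∉ D H L := by
  intro y' h1 h2 x' h3 h4
  obtain ⟨e1, e2, e3, e4⟩ := hs
  have hL' : 0 < L := by omega
  have hj : y' / L = j := (div_iff hL' _ _).2 ⟨by linarith, by linarith⟩
  have hi1 : a ≤ x' / L := by
    rw [Int.le_ediv_iff_mul_le hL']
    linarith
  have hi2 : x' / L ≤ b := by
    have : x' / L < b + 1 := by
      rw [Int.ediv_lt_iff_lt_mul hL']
      linarith [mul_comm b L, add_mul b 1 L]
    omega
  constructor
  · rw [mem_D hL']
    simp only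
    rw [hj]
    exact hr.mem _ hi1 hi2
  · apply not_DH_of_far hL'
    rw [hj]
    exact hn _ hi1 hi2

theorem not_moved {F H : Finset V} {k i0 i1 : ℤ} {up : Bool} {a b j : ℤ}
    (c : Cfg F H k i0 i1 up a b j) : ∀ i, a ≤ i → i ≤ b → (i, j) ∉ H := by
  intro i h1 h2 h3
  have := c.far i h1 h2 _ h3
  simp at this

theorem right_of {F : Finset V} {a b j L x y : ℤ} (hL : 8 ≤ L) (hr : Run F a b j)
    (hs : Sl L a b j x y) : (b * L + L - 1 + 1, y) ∉ D F L := by
  have hL' : 0 < L := by omega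
  obtain ⟨e1, e2, e3, e4⟩ := hs
  rw [mem_D hL']
  simp only
  have h1 : (b * L + L - 1 + 1) / L = b + 1 := (div_iff hL' _ _).2
    ⟨by linarith [add_mul b 1 L], by linarith [add_mul b 1 L]⟩
  have h2 : y / L = j := (div_iff hL' _ _).2 ⟨by linarith, by linarith⟩
  rw [h1, h2]
  exact hr.right

/-- **656's leaf (B2)** -/
theorem wordsEx : WordsEx := by
  intro P H k i0 i1 up a b j c
  refine ⟨8, fun L hL _ x y hs => ?_⟩
  have key : ∀ δ : ℤ, (δ = 0 ∨ δ = 1 ∨ δ = -1) → ∀ S : Finset V,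
      (S ⊆ RL P.F H L δ ∨ S ⊆ LL P.F H L δ) →
      ∃ w, GW (shD P.F H L δ ∪ S) (beD (shD P.F H L δ ∪ S) x y (b * L + L - 1)) w := by
    intro δ hδ S hS
    have hrow := rows_of hL c.run (not_moved c) hs
    exact (lay_GW (M := Mg949.mac P) c.hang (nop c.np) hL hδ hS
      (by have := hs.hx'; omega) (fun x' h1 h2 => hrow _ (le_refl _) (by omega) x' h1 h2)
      (fun x' h1 h2 => hrow _ (by omega) (le_refl _) x' h1 h2) (right_of hL c.run hs)).2
  refine ⟨fun δ hδ S hS => key δ ?_ S (Or.inl hS), fun δ hδ S hS => key δ ?_ S (Or.inr hS)⟩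
  · rcases hδ with ⟨-, h⟩ | ⟨-, h⟩ <;> omega
  · rcases hδ with ⟨-, h⟩ | ⟨-, h⟩ <;> omega

end Crest.Agent.R158.Sh279
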