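import Crest.Agent.R158.Hc6_854
import Crest.Agent.R158.Mb4_331
import Crest.Agent.R158.Dr9_945
import Crest.Agent.R158.Hb0_656
import Crest.Agent.R158.Hs2_689
import Crest.Agent.R158.Hb2_656
import Crest.Agent.R158.Cn1_161
import Crest.Agent.R158.Sh4_279
import Crest.Agent.R158.Sh5_279_Mg
import Crest.Agent.R158.Nb5_771_Mg
import Crest.Agent.R158.Q3a_331
import Crest.Agent.R158.Cb7_771
import Crest.Agent.R158.Mg2_949
import Crest.Agent.R158.Mg1_949

-- ▼ part R158/Hc7_854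
section

/-!
# R158, block BL (helper854), file Hc7: the chain of the left walls

* **`ll_chain : Bh679.LLchain`**
-/

set_option autoImplicit false
set_option linter.unusedSectionVars false

noncomputable section

namespace Crest.Agent.R158.Hc854

open Crest.Agent.R158.Bh679 (Gr mem_Gr NP Away Words mq MKs HGs)
open Crest.Agent.R158.Sp896 (V)
open Crest.Agent.R158.Sw300 (Port Wd)
open Crest.Agent.R158.Env664
open Crest.Agent.R158.Ob664 (GW HG)
open Crest.Agent.R158.Hb656 (Hang shD RL LL mkS mem_shD mem_RL mem_LL mk2)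
open Crest.Agent.R158.Wd377 (MK)
open Crest.Agent.R158.Vw802 (NoPinch)

theorem mq_eq (H : Finset V) (L δ : ℤ) (S : Finset V) (c : V × ZMod 4) :
    mq H L δ S c = mq' H L δ S c := by
  unfold mq
  rw [Hb656.mark_eq]
  rfl

theorem MKs_eq (F H : Finset V) (L δ p y0 xr : ℤ) (e : Fin 3 → V × ZMod 4) (S : Finset V) :
    MKs F H L δ p y0 xr e S = PS F H L δ p y0 xr e S := by
  unfold MKs PS
  simp only [mq_eq]

theorem HGs_eq (F H : Finset V) (L δ p y0 xr : ℤ) (e : Fin 3 → V × ZMod 4) (S : Finset V) :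
    HGs F H L δ p y0 xr e S = GS F H L δ p y0 xr e S := by
  unfold HGs GS
  simp only [mq_eq]

theorem noPinch_of {F : Finset V} (h : NP F) : NoPinch F where
  ne a b h1 h2 := by
    have := (h a b).1
    tauto
  se a b h1 h2 := by
    have := (h a b).2
    tauto

/-- **(B7), left walls** -/
theorem ll_chain : Bh679.LLchain := by
  obtain ⟨C1, c, hC1, hc, hthin⟩ := thinL
  obtain ⟨C2, a, hC2, ha, hthick⟩ := thickL
  have hC10 : 0 < C1 := by linarith
  have p1 : (0 : ℝ) < C1 * 2 ^ (1 + c) := by positivity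
  have p2 : (0 : ℝ) < C2 * 32 ^ a := by positivity
  refine ⟨C1 * 2 ^ (1 + c) + C2 * 32 ^ a, a, c, by positivity, ha, hc, ?_⟩
  intro F hF
  obtain ⟨k0, K, hext⟩ := ext_LL F
  refine ⟨(K + 1) * F.card, ?_⟩
  intro H k i0 i1 up hH L δ p y0 xr g hev hδ hg hgL hp haw hwd m hinj hm
  have ctx : Ctx F H L δ p y0 xr g :=
    ⟨⟨k, i0, i1, up, hH⟩, noPinch_of hF, hev, hδ, hg, by omega, by omega, haw, hwd⟩
  have hs := hH.sub
  have hL0 : 0 < L := by omega
  have hgR : (8 : ℝ) ≤ g := by exact_mod_cast hg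
  have hLR : (64 : ℝ) * g ≤ L := by exact_mod_cast hgL
  have hg0 : (0 : ℝ) < g := by linarith
  have hLR0 : (0 : ℝ) < L := by linarith
  set ε1 : ℝ := C1 * (1 / ((g - 1 : ℕ) : ℝ)) ^ (1 + c) with hε1
  set ε2 : ℝ := C2 * (((g + 2 : ℕ) : ℝ) / ((L / 8).toNat : ℕ)) ^ a with hε2
  have e0 : 0 ≤ ε1 := by rw [hε1]; positivity
  have e0' : 0 ≤ ε2 := by rw [hε2]; positivity
  have key := chainDP (LL := LL F H L δ) (PS F H L δ p y0 xr m) (GS F H L δ p y0 xr m)
    (L2 := L / 2) (δ := g) (k0 := k0) (K := K) (by omega) (by omega)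
    (fun t ht => (hext H L δ g hL0 hs (by omega) (by omega) hev t ht).1)
    (fun t ht => (hext H L δ g hL0 hs (by omega) (by omega) hev t ht).2) e0 e0'
    (fun k y X h1 h2 h3 => hthin ctx m k y X h1 h2 h3)
    (fun k X h1 => hthick ctx m hinj (fun i => (hm i).1) k X h1)
  simp only [MKs_eq, HGs_eq]
  refine ⟨key.1, fun h => (key.2 h).trans ?_⟩
  -- the constants
  have b1 : ε1 ≤ (C1 * 2 ^ (1 + c)) * (1 / (g : ℝ)) ^ (1 + c) := by
    have h1 : ((g - 1 : ℕ) : ℝ) = g - 1 := by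
      rw [Nat.cast_sub (by omega)]; simp
    have h2 : 1 / ((g - 1 : ℕ) : ℝ) ≤ 2 * (1 / (g : ℝ)) := by
      rw [h1, mul_one_div, div_le_div_iff₀ (by linarith) hg0]
      linarith
    have h3 : (1 / ((g - 1 : ℕ) : ℝ)) ^ (1 + c) ≤ (2 * (1 / (g : ℝ))) ^ (1 + c) :=
      Real.rpow_le_rpow (by positivity) h2 (by linarith)
    rw [Real.mul_rpow (by norm_num) (by positivity)] at h3
    rw [hε1, mul_assoc]
    exact mul_le_mul_of_nonneg_left h3 hC10.le
  have b2 : ε2 ≤ (C2 * 32 ^ a) * ((g : ℝ) / L) ^ a := by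
    have h0 : (((L / 8).toNat : ℕ) : ℤ) = L / 8 := Int.toNat_of_nonneg (by omega)
    have h1 : (L : ℝ) / 16 ≤ (((L / 8).toNat : ℕ) : ℝ) := by
      have h2 : L ≤ 16 * (((L / 8).toNat : ℕ) : ℤ) := by rw [h0]; omega
      have h3 : (L : ℝ) ≤ 16 * (((L / 8).toNat : ℕ) : ℝ) := by exact_mod_cast h2
      linarith
    have h2 : ((g + 2 : ℕ) : ℝ) / ((L / 8).toNat : ℕ) ≤ 32 * ((g : ℝ) / L) := by
      have h3 : (0 : ℝ) < (((L / 8).toNat : ℕ) : ℝ) := by linarith [div_pos hLR0 (by norm_num : (0:ℝ) < 16)]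
      rw [← mul_div_assoc, div_le_div_iff₀ h3 hLR0]
      push_cast
      nlinarith
    have h3 := Real.rpow_le_rpow (by positivity) h2 ha.le
    rw [Real.mul_rpow (by norm_num) (by positivity)] at h3
    rw [hε2, mul_assoc]
    exact mul_le_mul_of_nonneg_left h3 hC2.le
  have q1 : (0 : ℝ) ≤ (1 / (g : ℝ)) ^ (1 + c) := by positivity
  have q2 : (0 : ℝ) ≤ ((g : ℝ) / L) ^ a := by positivity
  have b1' : ε1 ≤ (C1 * 2 ^ (1 + c) + C2 * 32 ^ a) * (1 / (g : ℝ)) ^ (1 + c) :=
    b1.trans (mul_le_mul_of_nonneg_right (by linarith) q1)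
  have b2' : ε2 ≤ (C1 * 2 ^ (1 + c) + C2 * 32 ^ a) * ((g : ℝ) / L) ^ a :=
    b2.trans (mul_le_mul_of_nonneg_right (by linarith) q2)
  have c1 := card_LL_le (δ := δ) hL0 hs
  have c2 : (((LL F H L δ).image Prod.fst).card : ℝ) ≤ F.card := by
    exact_mod_cast cols_LL_le (δ := δ) hL0 hs
  have hK : (0 : ℝ) ≤ K := Nat.cast_nonneg K
  have hFc : (0 : ℝ) ≤ F.card := Nat.cast_nonneg _
  calc ((LL F H L δ).card : ℝ) * ε1 + (K + 1) * ((LL F H L δ).image Prod.fst).card * ε2
      ≤ (F.card * L) * ε1 + (K + 1) * F.card * ε2 := by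
        refine add_le_add (mul_le_mul_of_nonneg_right c1 e0) (mul_le_mul_of_nonneg_right ?_ e0')
        exact mul_le_mul_of_nonneg_left c2 (by linarith)
    _ ≤ ((K + 1) * F.card) * (L * ε1) + (K + 1) * F.card * ε2 := by
        refine add_le_add ?_ (le_refl _)
        have h1 : 0 ≤ L * ε1 := by positivity
        have h2 : (F.card : ℝ) * L * ε1 = 1 * F.card * (L * ε1) := by ring
        rw [h2]
        exact mul_le_mul_of_nonneg_right (mul_le_mul_of_nonneg_right (by linarith) hFc) h1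
    _ = ((K + 1) * F.card) * (L * ε1 + ε2) := by ring
    _ ≤ _ := by
        push_cast
        refine mul_le_mul_of_nonneg_left (add_le_add ?_ b2') (by positivity)
        exact mul_le_mul_of_nonneg_left b1' hLR0.le

end Crest.Agent.R158.Hc854
end
end

-- ▼ part R158/Mb5_331
section

/-!
# R158, block BL (helper331): the leaves `MBup`, `MBdn` of `Hb2_656`
-/

set_option autoImplicit false

noncomputable section

namespace Crest.Agent.R158.Mb331

open Crest.Agent.R158.Hb656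

/-- **mark balls, UP** -/
theorem mBup : MBup := by
  intro P H k i0 i1 a b j cfg ε hε
  obtain ⟨L0, h⟩ := mb_up P H k i0 i1 a b j cfg ε hε
  refine ⟨L0, fun L hL hev x y hs hok => ?_⟩
  obtain ⟨h1, -, h3⟩ := h L hL hev x y hs _ rfl (Or.inr hok)
  refine ⟨h1, ?_⟩
  rw [norm_sub_rev]
  exact h3

/-- **mark balls, DN** -/
theorem mBdn : MBdn := by
  intro P H k i0 i1 a b j cfg ε hε
  obtain ⟨L0, h⟩ := mb_dn P H k i0 i1 a b j cfg ε hε
  refine ⟨L0, fun L hL hev x y hs hok => ?_⟩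
  obtain ⟨-, h2, h3⟩ := h L hL hev x y hs _ rfl (Or.inl hok)
  exact ⟨h2, h3⟩

end Crest.Agent.R158.Mb331
end
end

-- ▼ part R158/Dr10_945
section

/-!
# Row 158, BLOCK DR (helper945), part 10: the plugs UP, DN, SR of the block BL (blueprint of 656, B8)

* `mkE`, `dr_HG` : `dr_vert` for `HG` and marks of the first region
* `ntc`, `Sb` : notches and slab
* `dr_up`, `dr_dn`, `dr_sr`
-/

set_option autoImplicit false
set_option linter.unusedSectionVars false
set_option linter.unusedSimpArgs false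

noncomputable section

namespace Crest.Agent.R158.Dr945

open MeasureTheory ProbabilityTheory unitInterval
open Crest.Agent.R161.Geo729
open Crest.Agent.R158.Sw300 (Port Wd thru tls)
open Crest.Agent.R158.Ob664 (HV HW HG GW Gl)
open Env664 (beD nbD portOf_some portOf_none D Run mem_D div_iff)
open Hb656 (Hang shD mem_shD)

/-! ### `dr_vert` for `HG` -/

/-- the mark moved with its tile -/
def mkE (E : Finset P2) (m : P2 × ZMod 4) : P2 × ZMod 4 :=
  if m.1 ∈ E then ((m.1.1 - 1, m.1.2), m.2) else m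

section HG

variable {A E A' : Finset P2} {p y0 k xr xr' : ℤ} {R : ℕ}

/-- ports of the interior of the box are glued -/
theorem box_glued (hB : Bxz A p y0 xr R) {v : P2} (hv : v ∈ Bx R) {d : ZMod 4} {r : ℕ}
    (hn : Near r (pd v d)) (hr : r < R) :
    beD A p y0 xr (some (ch p y0 v, d)) ≠ some (ch p y0 v, d) := by
  have hr' : (r : ℤ) < R := by exact_mod_cast hr
  rcases be_box hB hv d with h | ⟨h, -⟩ | ⟨v', -, d', h, -, h2⟩
  · unfold Far at h
    unfold Near at hn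
    omega
  · rw [h]; simp
  · rw [h]
    simp only [ne_eq, Option.some.injEq, Prod.mk.injEq, not_and]
    exact fun _ e => h2 e.symm

theorem mark_data (h : Slab A E A' p y0 k xr xr') (hB : BoxV A p y0 k xr xr' R)
    {m : P2 × ZMod 4} (h1 : m.1 ∈ A) (h2 : beD A p y0 xr (some m) = some m) :
    fp (gE E) (some (mkE E m)) = some m ∧ (mkE E m).1 ∈ A' ∧
      beD A' p (y0 + k) xr' (some (mkE E m)) = some (mkE E m) := by
  obtain ⟨⟨x, y⟩, d⟩ := m
  have hC := h.cmp hB
  have kpos := h.kpos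
  have kR := hB.kR
  have hk : k.toNat < R := by omega
  have hxr := hB.box.xr
  -- not on the column
  have hK : ¬ (x = p ∧ y0 ≤ y ∧ y < y0 + k) := by
    rintro ⟨rfl, e1, e2⟩
    have hv : (((0 : ℤ), y - y0 + 1) : P2) ∈ Bx (R : ℤ) := by
      simp only [Bx, Set.mem_ofPred_eq]; omega
    have e3 : ch x y0 (0, y - y0 + 1) = (x, y) := by
      unfold ch; simp only [Prod.mk.injEq]; omega
    have := box_glued hB.box hv (d := d) (r := k.toNat) (by
      unfold Near
      rcases Env664.z4 d with rfl | rfl | rfl | rfl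
      · simp only [pd0, eW]; omega
      · simp only [pd1, eN]; rw [if_neg (by omega)]; dsimp only; omega
      · simp only [pd2, eE]; omega
      · simp only [pd3, eS]; omega) hk
    rw [e3] at this
    exact this h2
  have hx : fp (gE E) (some (mkE E ((x, y), d))) = some ((x, y), d) ∧
      (mkE E ((x, y), d)).1 ∈ A' := by
    unfold mkE
    dsimp only
    by_cases hE : (x, y) ∈ E
    · rw [if_pos hE, fp_some, gE_pos (by rw [sub_add_cancel]; exact hE), sub_add_cancel]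
      exact ⟨rfl, (h.mem' _ _).2 (Or.inr (by rw [sub_add_cancel]; exact hE))⟩
    · rw [if_neg hE, fp_some]
      have : (x + 1, y) ∉ E := by
        intro h3
        rcases h.left _ _ h3 (by rw [add_sub_cancel_right]; exact h1) with h4 | ⟨h4, h5, h6⟩
        · rw [add_sub_cancel_right] at h4; exact hE h4
        · exact hK ⟨by omega, h5, h6⟩
      rw [gE_neg this]
      exact ⟨rfl, (h.mem' _ _).2 (Or.inl ⟨h1, hE, hK⟩)⟩
  obtain ⟨hx1, hx2⟩ := hx
  refine ⟨hx1, hx2, ?_⟩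
  set x' : P2 × ZMod 4 := mkE E ((x, y), d) with hx'
  have hT : TP A' (some x' : Port P2) := ⟨x'.1, hx2, x'.2, rfl⟩
  have hJ : (some x' : Port P2) ∉ Jv p y0 k := by
    intro hJ
    obtain ⟨v, hv, hv1, hv2⟩ := hC.near x'.1 x'.2 hJ hx2
    have h3 := box_glued hB.box hv hv2 hk
    rw [← hv1] at h3
    have h4 : (some (gE E x'.1, x'.2) : Port P2) = some ((x, y), d) := hx1
    rw [h4] at h3
    exact h3 h2
  obtain ⟨h3, h4⟩ := h.agr (by omega) (by have := hB.xr'; omega) _ hT hJ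
  rw [hx1, h2, ← hx1] at h4
  exact fp_inj h.inj h3 hT h4

/-- **`dr_vert` for `HG`** -/
theorem dr_HG : ∃ C a : ℝ, 0 < C ∧ 0 < a ∧ ∀ {A E A' : Finset P2} {p y0 k xr xr' : ℤ} {R : ℕ},
    Slab A E A' p y0 k xr xr' → BoxV A p y0 k xr xr' R →
    (∃ w, GW A (beD A p y0 xr) w) → (∃ w, GW A' (beD A' p (y0 + k) xr') w) →
    ∀ m : Fin 3 → P2 × ZMod 4, Function.Injective m →
      (∀ i, (m i).1 ∈ A ∧ beD A p y0 xr (some (m i)) = some (m i)) →
      ‖HG A (beD A p y0 xr) (some (m 0)) (some (m 1)) (some (m 2)) -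
        HG A' (beD A' p (y0 + k) xr') (some (mkE E (m 0))) (some (mkE E (m 1)))
          (some (mkE E (m 2)))‖ ≤ C * ((k : ℝ) / R) ^ a := by
  obtain ⟨C, a, hC, ha, h⟩ := dr_vert
  refine ⟨C, a, hC, ha, ?_⟩
  rintro A E A' p y0 k xr xr' R hS hB ⟨w, hw⟩ ⟨w', hw'⟩ m hm hf
  have hd := fun i => mark_data hS hB (hf i).1 (hf i).2
  have hL : ∀ i, some (m i) ∈ Sw300.L w := fun i => (gw_mem_iff hw (m i).1 (m i).2).2 (hf i)
  have hL' : ∀ i, some (mkE E (m i)) ∈ Sw300.L w' := fun i =>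
    (gw_mem_iff hw' _ _).2 (hd i).2
  have hne : ∀ i j, i ≠ j → mkE E (m i) ≠ mkE E (m j) := by
    intro i j hij e
    have e1 := (hd i).1
    rw [e, (hd j).1] at e1
    exact hij (hm (by simpa using e1.symm))
  have hne' : ∀ i j, i ≠ j → m i ≠ m j := fun i j hij e => hij (hm e)
  rw [HG_eq hw (hL 0) (hL 1) (hL 2) (hne' 0 1 (by decide)) (hne' 0 2 (by decide))
      (hne' 1 2 (by decide)),
    HG_eq hw' (hL' 0) (hL' 1) (hL' 2) (hne 0 1 (by decide)) (hne 0 2 (by decide))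
      (hne 1 2 (by decide))]
  have hn2 : ∀ i j, i ≠ j → (some (mkE E (m i)) : Port P2) ≠ some (mkE E (m j)) := by
    intro i j hij e
    exact hne i j hij (by simpa using e)
  have := h hS hB hw hw' (hL' 0) (hL' 1) (hL' 2) (hn2 0 1 (by decide)) (hn2 0 2 (by decide))
    (hn2 1 2 (by decide)) (by rw [(hd 0).1]; exact hL 0)
  rw [(hd 0).1, (hd 1).1, (hd 2).1] at this
  exact this

end HG

end Crest.Agent.R158.Dr945
end
end

-- ▼ part R158/Hs4_689
section

/-!
R158, S0237, block BL, leaf (B8) (helper689), part 4: **the plugs `DRup` and `DRdn`**.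
-/

set_option autoImplicit false

noncomputable section

namespace Crest.Agent.R158.Hs689

open Crest.Agent.R158.Sp896 (V)
open Crest.Agent.R158.Sw300 (Port)
open Crest.Agent.R158.Env664 (D Run Mac mark mem_D beD div_iff)
open Crest.Agent.R158.Hb656 (Hang shD mkS Two Cr Sm Nk Rg mt)
open Crest.Agent.R158.Bh679 (NP)
open Crest.Agent.R158.Tj656 (P4)
open Crest.Agent.R158.Dr945 (Slab gE BoxV Bxz dr_vert dr_HG fp)
open Crest.Agent.R158.Wd377 (MK)

/-- the integer data of a pair -/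
structure Nums (L k a b a' b' x y0 y1 : ℤ) (R : ℕ) : Prop where
  L2 : 2 ≤ L
  R1 : 1 ≤ R
  kR : y1 - y0 + 1 ≤ R
  lo : y0 < k * L
  hi : k * L < y1
  hi' : y1 < k * L + L
  y0R : (k - 1) * L ≤ y0 - 1 - R
  y1R : y0 + R < k * L + L
  l0 : a * L ≤ x - R
  l1 : a' * L ≤ x - R
  r0 : x + R + 1 < b * L + L
  r1 : x + R + 1 < b' * L + L

/-- the numbers from the position, and the small quantity -/
theorem nums_of {C α r ε : ℝ} (hC : 0 < C) (hα : 0 < α) (hr : 0 < r) (hr' : r ≤ 1 / 2)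
    (hε : 0 < ε) : ∃ h : ℝ, 0 < h ∧ ∃ L0 : ℤ, ∀ L : ℤ, L0 ≤ L → ∀ {k a b a' b' x y0 y1 : ℤ},
    Cr L k a b a' b' r h x y0 y1 → ∃ R : ℕ, Nums L k a b a' b' x y0 y1 R ∧
      C * ((((y1 - y0 : ℤ) : ℝ)) / R) ^ α ≤ ε := by
  obtain ⟨h, hh⟩ : ∃ h : ℝ, h = min (r / 8) (r / 4 * (ε / C) ^ (1 / α)) := ⟨_, rfl⟩
  have hpos : 0 < h := by
    rw [hh]
    exact lt_min (by positivity) (by positivity)
  have h8 : h ≤ r / 8 := by rw [hh]; exact min_le_left _ _
  have h4 : h ≤ r / 4 * (ε / C) ^ (1 / α) := by rw [hh]; exact min_le_right _ _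
  refine ⟨h, hpos, ⌈8 / r⌉ + 2, ?_⟩
  intro L hL k a b a' b' x y0 y1 hc
  have hL8 : 8 / r ≤ L := by
    have h1 : (8 / r : ℝ) ≤ ⌈8 / r⌉ := Int.le_ceil _
    have h2 : ((⌈8 / r⌉ : ℤ) : ℝ) ≤ (L : ℝ) := by exact_mod_cast (by linarith : ⌈8 / r⌉ ≤ L)
    linarith
  have hrL : 8 ≤ r * L := by
    rw [div_le_iff₀ hr] at hL8
    linarith
  have hL2 : 2 ≤ L := by
    have : (0 : ℤ) ≤ ⌈8 / r⌉ := Int.ceil_nonneg (by positivity)
    omega
  have hLr : (2 : ℝ) ≤ L := by exact_mod_cast hL2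
  obtain ⟨R, hR⟩ : ∃ R : ℕ, R = ⌊r * L⌋₊ - 2 := ⟨_, rfl⟩
  have hfl : (⌊r * L⌋₊ : ℝ) ≤ r * L := Nat.floor_le (by linarith)
  have hfl' : r * L < ⌊r * L⌋₊ + 1 := Nat.lt_floor_add_one _
  have h8' : 8 ≤ ⌊r * L⌋₊ := Nat.le_floor (by exact_mod_cast hrL)
  have hRr : (R : ℝ) = ⌊r * L⌋₊ - 2 := by
    rw [hR, Nat.cast_sub (by omega)]; norm_num
  have hR1 : (R : ℝ) ≤ r * L - 2 := by linarith
  have hR2 : r * L / 2 ≤ R := by linarith
  have hhL : h * L ≤ r * L / 8 := by nlinarith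
  have hrL2 : r * L ≤ L / 2 := by nlinarith
  have c1 := hc.lo'
  have c2 := hc.hi'
  have c3 := hc.l0
  have c4 := hc.l1
  have c5 := hc.r0
  have c6 := hc.r1
  refine ⟨R, ⟨hL2, by omega, ?_, hc.lo, hc.hi, ?_, ?_, ?_, ?_, ?_, ?_, ?_⟩, ?_⟩
  · have : ((y1 - y0 + 1 : ℤ) : ℝ) ≤ ((R : ℤ) : ℝ) := by push_cast; linarith
    exact_mod_cast this
  · have : ((y1 : ℤ) : ℝ) < ((k * L + L : ℤ) : ℝ) := by push_cast; linarith
    exact_mod_cast this
  · have : (((k - 1) * L : ℤ) : ℝ) ≤ ((y0 - 1 - R : ℤ) : ℝ) := by push_cast; linarith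
    exact_mod_cast this
  · have : ((y0 + R : ℤ) : ℝ) < ((k * L + L : ℤ) : ℝ) := by
      have : (y0 : ℝ) < (k : ℝ) * L := by exact_mod_cast hc.lo
      push_cast; linarith
    exact_mod_cast this
  · have : ((a * L : ℤ) : ℝ) ≤ ((x - R : ℤ) : ℝ) := by push_cast; linarith
    exact_mod_cast this
  · have : ((a' * L : ℤ) : ℝ) ≤ ((x - R : ℤ) : ℝ) := by push_cast; linarith
    exact_mod_cast this
  · have : ((x + R + 1 : ℤ) : ℝ) < ((b * L + L : ℤ) : ℝ) := by push_cast; linarith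
    exact_mod_cast this
  · have : ((x + R + 1 : ℤ) : ℝ) < ((b' * L + L : ℤ) : ℝ) := by push_cast; linarith
    exact_mod_cast this
  · have hRpos : (0 : ℝ) < R := by linarith
    have hy : (0 : ℝ) ≤ ((y1 - y0 : ℤ) : ℝ) := by
      have := hc.lo
      have := hc.hi
      exact_mod_cast (by omega : (0 : ℤ) ≤ y1 - y0)
    have hq : ((y1 - y0 : ℤ) : ℝ) / R ≤ 4 * h / r := by
      rw [div_le_div_iff₀ hRpos hr]
      have h5 : ((y1 - y0 : ℤ) : ℝ) ≤ 2 * (h * L) := by push_cast; linarith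
      calc ((y1 - y0 : ℤ) : ℝ) * r ≤ 2 * (h * L) * r := mul_le_mul_of_nonneg_right h5 hr.le
        _ = 4 * h * (r * L / 2) := by ring
        _ ≤ 4 * h * R := by
          refine mul_le_mul_of_nonneg_left hR2 (by positivity)
    have hq2 : 4 * h / r ≤ (ε / C) ^ (1 / α) := by
      rw [div_le_iff₀ hr]
      linarith
    calc C * (((y1 - y0 : ℤ) : ℝ) / R) ^ α ≤ C * ((ε / C) ^ (1 / α)) ^ α := by
          refine mul_le_mul_of_nonneg_left ?_ hC.le
          exact Real.rpow_le_rpow (by positivity) (hq.trans hq2) hα.le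
      _ = C * (ε / C) := by
          rw [← Real.rpow_mul (by positivity), one_div, inv_mul_cancel₀ hα.ne', Real.rpow_one]
      _ = ε := by field_simp

variable {F H : Finset V} {k L a b a' b' x y0 y1 : ℤ} {R : ℕ}

/-- the box at `z` is in `D F L` and off `D H L` -/
theorem box_mem (n : Nums L k a b a' b' x y0 y1 R) (t : Two F H k a b a' b') {u v : ℤ}
    (hu : x - R ≤ u) (hu' : u ≤ x + R) (hv : y0 - 1 - R ≤ v) (hv' : v ≤ y0 - 1 + R) :
    (u, v) ∈ D F L ∧ (u, v) ∉ D H L := by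
  have hL0 : 0 < L := by have := n.L2; omega
  have h1 := n.y0R
  have h2 := n.y1R
  have h3 := n.l0
  have h4 := n.l1
  have h5 := n.r0
  have h6 := n.r1
  rw [mem_D hL0, mem_D hL0]
  dsimp only
  rcases lt_or_ge v (k * L) with hv1 | hv1
  · have e : v / L = k - 1 := (div_iff hL0 _ _).2 ⟨by linarith, by linarith⟩
    rw [e]
    exact ⟨t.lo.mem _ (le_div hL0 (by linarith)) (lt_div hL0 (by linarith)),
      t.nlo _ (le_div hL0 (by linarith)) (lt_div hL0 (by linarith))⟩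
  · have e : v / L = k := (div_iff hL0 _ _).2 ⟨hv1, by linarith⟩
    rw [e]
    exact ⟨t.up.mem _ (le_div hL0 (by linarith)) (lt_div hL0 (by linarith)),
      t.nup _ (le_div hL0 (by linarith)) (lt_div hL0 (by linarith))⟩

theorem boxV_D (n : Nums L k a b a' b' x y0 y1 R) (t : Two F H k a b a' b') :
    BoxV (D F L) x y0 (y1 - y0) (b * L + L - 1) (b' * L + L - 1) R := by
  have h5 := n.r0
  have h6 := n.r1
  have h7 := n.kR
  have h8 := n.R1
  refine ⟨⟨n.R1, ?_, by linarith⟩, h7, by omega⟩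
  rintro ⟨i, j⟩ hv
  simp only [Dr945.Bx, Set.mem_ofPred_eq] at hv
  exact (box_mem n t (by linarith) (by linarith) (by linarith) (by linarith)).1

theorem boxV_sh (n : Nums L k a b a' b' x y0 y1 R) (t : Two F H k a b a' b') (δ : ℤ) :
    BoxV (shD F H L δ) x y0 (y1 - y0) (b * L + L - 1) (b' * L + L - 1) R := by
  have h5 := n.r0
  have h6 := n.r1
  have h7 := n.kR
  have h8 := n.R1
  refine ⟨⟨n.R1, ?_, by linarith⟩, h7, by omega⟩
  rintro ⟨i, j⟩ hv
  simp only [Dr945.Bx, Set.mem_ofPred_eq] at hv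
  unfold Dr945.ch
  rw [Hb656.mem_shD]
  exact Or.inl (box_mem n t (by linarith) (by linarith) (by linarith) (by linarith))

theorem mkE_eq (E : Finset V) (m : V × ZMod 4) : Hb656.mkE E m = Dr945.mkE E m := by
  unfold Hb656.mkE Dr945.mkE
  by_cases h : m.1 ∈ E
  · rw [if_pos h]
  · rw [if_neg h]

/-- the data of a good region -/
theorem ok_data {Q : Rg} (h : Q.ok) : ∃ w, Ob664.GW Q.A (beD Q.A Q.x Q.y Q.xr) w ∧
    (∀ i, some (Q.m i) ∈ Sw300.L w) ∧ Q.m 0 ≠ Q.m 1 ∧ Q.m 0 ≠ Q.m 2 ∧ Q.m 1 ≠ Q.m 2 ∧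
    Q.val = Ob664.HW w (some (Q.m 0)) (some (Q.m 1)) (some (Q.m 2)) := by
  obtain ⟨w, h0, h1, h2, h3, h4, h5⟩ := Wd377.MK.spec h
  obtain ⟨n1, n2, n3⟩ := Wd377.cyc_ne h4
  refine ⟨w, h0, ?_, fun e => n1 (by rw [e]), fun e => n3 (by rw [e]), fun e => n2 (by rw [e]), h5⟩
  intro i
  fin_cases i
  · exact h1
  · exact h2
  · exact h3

/-- **(B8, UP)** -/
theorem drup : Hb656.DRup := by
  obtain ⟨C, α, hC, hα, hX⟩ := dr_HG
  intro P H k a b a' b' np hb hH ht r hr hr' ε hε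
  obtain ⟨h, hh, L0, hN⟩ := nums_of hC hα hr hr' hε
  refine ⟨h, hh, L0, ?_⟩
  intro L hL _ x y0 y1 hc
  obtain ⟨R, n, hsm⟩ := hN L hL hc
  intro h1 h2
  have hS := slab_up (p := x) n.L2 np hb.le hH ht (by have := n.y0R; linarith) n.lo n.hi n.hi'
    (by have := n.l0; have := n.R1; linarith) (by have := n.l1; have := n.R1; linarith)
    (by have := n.r0; have := n.R1; linarith) (by have := n.r1; have := n.R1; linarith)
  have hB := boxV_D n ht
  have e1 : y0 + (y1 - y0) = y1 := by ring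
  obtain ⟨w, hw, m1, n1, n2, n3, v1⟩ := ok_data h1
  obtain ⟨w', hw', m2, -, -, -, v2⟩ := ok_data h2
  dsimp only at hw m1 n1 n2 n3 hw' m2
  have key := hX hS hB ⟨w, hw⟩ ⟨w', by rw [e1]; exact hw'⟩ (mt P L) (by
    intro i j e
    fin_cases i <;> fin_cases j <;> first | rfl | (exfalso; revert e; simp only; tauto))
    (fun i => (Dr945.gw_mem_iff hw (mt P L i).1 (mt P L i).2).1 (m1 i))
  rw [e1] at key
  refine le_trans (le_of_eq ?_) (key.trans hsm)
  unfold Rg.val Hb656.GH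
  simp only [mkE_eq]

/-- **(B8, DN)** -/
theorem drdn : Hb656.DRdn := by
  obtain ⟨C, α, hC, hα, hX⟩ := dr_vert
  intro P H k a b a' b' np hb hH ht r hr hr' ε hε
  obtain ⟨h, hh, L0, hN⟩ := nums_of hC hα hr hr' hε
  refine ⟨h, hh, L0, ?_⟩
  intro L hL _ x y0 y1 hc
  obtain ⟨R, n, hsm⟩ := hN L hL hc
  intro h1 h2
  have hS := slab_dn (p := x) n.L2 np hb.le hH ht (by have := n.y0R; linarith) n.lo n.hi n.hi'
    (by have := n.l0; have := n.R1; linarith) (by have := n.l1; have := n.R1; linarith)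
    (by have := n.r0; have := n.R1; linarith) (by have := n.r1; have := n.R1; linarith)
  have hB := boxV_sh n ht 1
  have e1 : y0 + (y1 - y0) = y1 := by ring
  obtain ⟨w, hw, m1, -, -, -, v1⟩ := ok_data h1
  obtain ⟨w', hw', m2, n1, n2, n3, v2⟩ := ok_data h2
  dsimp only at hw m1 hw' m2 n1 n2 n3
  have hf : ∀ i, fp (gE (Hb656.Sx L k b b' x y0 y1 ∪ (D H L).image fun t => (t.1 + 1, t.2)))
      (some (mt P L i)) = some (Hb656.pkE
        (Hb656.Sx L k b b' x y0 y1 ∪ (D H L).image fun t => (t.1 + 1, t.2)) (mt P L i)) := by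
    intro i
    rw [Dr945.fp_some]
    unfold gE Hb656.pkE
    split_ifs <;> rfl
  have key := hX hS hB hw (by rw [e1]; exact hw') (m2 0) (m2 1) (m2 2) (by simpa using n1)
    (by simpa using n2) (by simpa using n3) (by rw [hf]; exact m1 0)
  rw [hf, hf, hf] at key
  rw [v1, v2]
  exact key.trans hsm

end Crest.Agent.R158.Hs689
end
end

-- ▼ part R158/Dr11_945
section

/-!
# Row 158, BLOCK DR (helper945), part 11: the leaf `DRone` of the block BL (blueprint of 656, B8)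

* `slab_rect` : `Slab` for a rectangle whose left sides are free
* `mark_E` : a free port of a tile of the rectangle sits on its last column
* `dr_Nk` : `dr_HG` for two regions with marks (`Hb656.Rg`, `Nk`)
* **`dRone : DRone`**
-/

set_option autoImplicit false
set_option linter.unusedSectionVars false
set_option linter.unusedSimpArgs false

noncomputable section

namespace Crest.Agent.R158.Dr945

open MeasureTheory ProbabilityTheory unitInterval
open Crest.Agent.R161.Geo729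
open Crest.Agent.R158.Sw300 (Port Wd thru tls)
open Crest.Agent.R158.Ob664 (HV HW HG GW Gl)
open Env664 (beD nbD portOf_some portOf_none nbD_leg nbD_W nbD_E nbD_N1 nbD_N nbD_Sleg nbD_S1
  nbD_S D Run mem_D div_iff)
open Hb656 (Hang shD mem_shD GH mt N1 nmk mem_N1 DRone Sm1 Cr1 Rg Nk)
open Tj656 (P4)

variable {A : Finset P2} {p y0 k xr : ℤ} {R : ℕ}

theorem slab_rect (hk : 0 < k) (hp' : p < xr)
    (hr : ∀ x y : ℤ, p ≤ x → x ≤ xr → y0 ≤ y → y ≤ y0 + k → (x, y) ∈ A)
    (ho : ∀ y : ℤ, y0 ≤ y → y ≤ y0 + k → (xr + 1, y) ∉ A) :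
    Slab A (slabE p y0 k xr) (notch A xr y0 k) p y0 k xr xr where
  kpos := hk
  sub x y h := by
    rw [mem_slabE] at h
    exact hr x y (by omega) (by omega) (by omega) (by omega)
  colE y h1 h2 := by rw [mem_slabE]; omega
  start y h1 h2 := by rw [mem_slabE]; omega
  right x y h h' := by
    rw [mem_slabE] at h ⊢
    by_contra hc
    have : x = xr := by omega
    rw [this] at h'
    exact ho y h.2.1 (by omega) h'
  left x y h _ := by rw [mem_slabE] at h ⊢; omega
  up x y h _ := by rw [mem_slabE] at h ⊢; omega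
  down x y h _ := by rw [mem_slabE] at h ⊢; omega
  low x h1 h2 := by rw [mem_slabE]; omega
  low1 x h1 h2 := by rw [mem_slabE]; omega
  lowr := ho y0 le_rfl (by omega)
  hi x h1 h2 := ⟨hr x (y0 + k) (by omega) (by omega) (by omega) le_rfl, by rw [mem_slabE]; omega⟩
  hi1 x h1 h2 _ := by rw [mem_slabE]; omega
  hir := ho (y0 + k) (by omega) le_rfl
  gap x y h h' := by
    rw [mem_slabE] at h
    exact absurd (hr (x - 1) y (by omega) (by omega) (by omega) (by omega)) h'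
  pinch1 x y h _ := by
    rw [mem_slabE] at h
    exact Or.inl (hr (x - 1) y (by omega) (by omega) (by omega) (by omega))
  pinch2 x y h _ := by
    rw [mem_slabE] at h
    exact Or.inl (hr (x - 1) y (by omega) (by omega) (by omega) (by omega))
  mem' x y := by
    rw [mem_notch, mem_slabE, mem_slabE]
    by_cases hy : y0 ≤ y ∧ y < y0 + k
    · constructor
      · rintro ⟨h1, h2⟩
        by_cases h3 : p ≤ x ∧ x < xr
        · right; omega
        · left
          exact ⟨h1, by omega, by omega⟩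
      · rintro (⟨h1, h2, h3⟩ | h1)
        · exact ⟨h1, by omega⟩
        · exact ⟨hr x y (by omega) (by omega) (by omega) (by omega), by omega⟩
    · constructor
      · rintro ⟨h1, h2⟩
        exact Or.inl ⟨h1, by omega, by omega⟩
      · rintro (⟨h1, h2, h3⟩ | h1)
        · exact ⟨h1, by omega⟩
        · omega

/-- a free port of a tile of the rectangle sits on its last column -/
theorem mark_E
    (hr : ∀ x y : ℤ, p ≤ x → x ≤ xr → y0 - 1 ≤ y → y ≤ y0 + k → (x, y) ∈ A)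
    {m : P2 × ZMod 4} (hm : m.1 ∈ slabE p y0 k xr) (hf : beD A p y0 xr (some m) = some m) :
    m.1.1 = xr := by
  obtain ⟨⟨x, y⟩, d⟩ := m
  rw [mem_slabE] at hm
  obtain ⟨⟨h1, h2⟩, h3, h4⟩ := hm
  dsimp only
  by_contra hx
  have hA := hr x y (by omega) (by omega) (by omega) (by omega)
  have key : ∀ (n : P2) (c : ZMod 4), nbD p y0 xr (some ((x, y), d)) = some (n, c) → n ∈ A →
      n ≠ (x, y) → False := by
    intro n c e hn hne
    have := be_of (portOf_some.2 hA) (portOf_some.2 hn) e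
    rw [hf] at this
    simp only [Option.some.injEq, Prod.mk.injEq] at this
    exact hne this.1.symm
  rcases Env664.z4 d with rfl | rfl | rfl | rfl
  · refine key _ _ nbD_W (hr _ _ (by omega) (by omega) (by omega) (by omega)) ?_
    simp only [ne_eq, Prod.mk.injEq]; omega
  · refine key _ _ (nbD_N (by omega)) (hr _ _ (by omega) (by omega) (by omega) (by omega)) ?_
    simp only [ne_eq, Prod.mk.injEq]; omega
  · refine key _ _ nbD_E (hr _ _ (by omega) (by omega) (by omega) (by omega)) ?_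
    simp only [ne_eq, Prod.mk.injEq]; omega
  · by_cases hy : y = y0
    · refine key _ _ (nbD_S1 ⟨hy, by omega, by omega⟩)
        (hr _ _ (by omega) (by omega) (by omega) (by omega)) ?_
      simp only [ne_eq, Prod.mk.injEq]; omega
    · refine key _ _ (nbD_S ⟨by omega, by omega⟩)
        (hr _ _ (by omega) (by omega) (by omega) (by omega)) ?_
      simp only [ne_eq, Prod.mk.injEq]; omega

/-- the marks: `mkE` of the rectangle is `nmk` on free ports -/
theorem mkE_nmk {L b y1 : ℤ} (hx : xr = b * L + L - 1) (hy : y1 = y0 + k) (hp' : p < xr)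
    (hr : ∀ x y : ℤ, p ≤ x → x ≤ xr → y0 - 1 ≤ y → y ≤ y0 + k → (x, y) ∈ A)
    {m : P2 × ZMod 4} (hf : beD A p y0 xr (some m) = some m) :
    mkE (slabE p y0 k xr) m = nmk L b y0 y1 m := by
  unfold mkE nmk
  have : m.1 ∈ slabE p y0 k xr ↔ m.1 ∈ N1 L b y0 y1 := by
    rw [mem_N1, ← hx]
    constructor
    · intro h
      have h1 := mark_E hr h hf
      obtain ⟨⟨x, y⟩, d⟩ := m
      rw [mem_slabE] at h
      exact ⟨h1, h.2.1, by dsimp only; omega⟩
    · obtain ⟨⟨x, y⟩, d⟩ := m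
      rw [mem_slabE]
      rintro ⟨h1, h2, h3⟩
      dsimp only at h1 h2 h3
      exact ⟨⟨by omega, by omega⟩, h2, by omega⟩
  by_cases h : m.1 ∈ slabE p y0 k xr
  · rw [if_pos h, if_pos (this.1 h)]
  · rw [if_neg h, if_neg fun g => h (this.2 g)]

theorem notch_N1 {L b y1 : ℤ} (hx : xr = b * L + L - 1) (hy : y1 = y0 + k) :
    notch A xr y0 k = A \ N1 L b y0 y1 := by
  ext ⟨x, y⟩
  rw [mem_notch, Finset.mem_sdiff, mem_N1, ← hx, ← hy]

/-- **`dr_HG` for regions with marks** -/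
theorem dr_Nk : ∃ C a : ℝ, 0 < C ∧ 0 < a ∧ ∀ {A E A' : Finset P2} {p y0 k xr xr' : ℤ} {R : ℕ},
    Slab A E A' p y0 k xr xr' → BoxV A p y0 k xr xr' R → ∀ m m' : Fin 3 → P2 × ZMod 4,
      ((∀ i, (m i).1 ∈ A → beD A p y0 xr (some (m i)) = some (m i) → m' i = mkE E (m i))) →
      Nk ⟨A, p, y0, xr, m⟩ ⟨A', p, y0 + k, xr', m'⟩ (C * ((k : ℝ) / R) ^ a) := by
  obtain ⟨C, a, hC, ha, hH⟩ := dr_HG
  refine ⟨C, a, hC, ha, ?_⟩
  intro A E A' p y0 k xr xr' R hS hB m m' hm h1 h2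
  unfold Rg.ok at h1 h2
  dsimp only at h1 h2
  obtain ⟨w, hw, l0, l1, l2, hc⟩ := h1
  obtain ⟨w', hw', -⟩ := h2
  have hf : ∀ i, (m i).1 ∈ A ∧ beD A p y0 xr (some (m i)) = some (m i) := by
    intro i
    fin_cases i
    · exact (gw_mem_iff hw (m 0).1 (m 0).2).1 l0
    · exact (gw_mem_iff hw (m 1).1 (m 1).2).1 l1
    · exact (gw_mem_iff hw (m 2).1 (m 2).2).1 l2
  have hinj : Function.Injective m := by
    have n01 : m 0 ≠ m 1 := fun e => by
      rw [e] at hc; unfold Sw300.cyc at hc; omega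
    have n12 : m 1 ≠ m 2 := fun e => by
      rw [e] at hc; unfold Sw300.cyc at hc; omega
    have n02 : m 0 ≠ m 2 := fun e => by
      rw [e] at hc; unfold Sw300.cyc at hc; omega
    intro i j hij
    by_contra hne
    fin_cases i <;> fin_cases j
    exacts [hne rfl, n01 hij, n02 hij, n01 hij.symm, hne rfl, n12 hij, n02 hij.symm, n12 hij.symm,
      hne rfl]
  have := hH hS hB ⟨w, hw⟩ ⟨w', hw'⟩ m hinj hf
  unfold Rg.val GH
  dsimp only
  rw [hm 0 (hf 0).1 (hf 0).2, hm 1 (hf 1).1 (hf 1).2, hm 2 (hf 2).1 (hf 2).2]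
  exact this

/-- the choice of `h` and `L0` -/
theorem dr_num {C a r ε : ℝ} (hC : 0 < C) (ha : 0 < a) (hr : 0 < r) (hε : 0 < ε) :
    ∃ h : ℝ, 0 < h ∧ h ≤ r / 16 ∧ ∃ L0 : ℤ, 8 ≤ L0 ∧ ∀ L : ℤ, L0 ≤ L → ∃ R : ℕ, 14 ≤ R ∧ (R : ℝ) ≤ r * L - 2 ∧
      ∀ k : ℤ, 0 < k → (k : ℝ) ≤ 2 * h * L → k + 1 ≤ R ∧ C * ((k : ℝ) / R) ^ a ≤ ε := by
  obtain ⟨h1, h10, h1s⟩ : ∃ h1 : ℝ, 0 < h1 ∧ C * h1 ^ a ≤ ε := by
    refine ⟨(ε / C) ^ (1 / a), by positivity, ?_⟩
    rw [← Real.rpow_mul (by positivity), one_div_mul_cancel ha.ne', Real.rpow_one]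
    rw [mul_div_cancel₀ _ hC.ne']
  refine ⟨min (r / 16) (r * h1 / 4), by positivity, min_le_left _ _, max 8 ⌈16 / r⌉, le_max_left _ _, ?_⟩
  intro L hL
  have hL8 : 8 ≤ L := le_trans (le_max_left _ _) hL
  have hLr : 16 ≤ r * L := by
    have h2 : 16 / r ≤ L := by
      have := Int.le_ceil (16 / r : ℝ)
      have h3 : ((⌈16 / r⌉ : ℤ) : ℝ) ≤ L := by exact_mod_cast le_trans (le_max_right _ _) hL
      linarith
    rw [div_le_iff₀ hr] at h2
    linarith
  have hL0 : (0 : ℝ) < L := by exact_mod_cast (by omega : (0 : ℤ) < L)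
  have hR1 : (⌊r * L⌋₊ : ℝ) ≤ r * L := Nat.floor_le (by positivity)
  have hR2 : r * L < ⌊r * L⌋₊ + 1 := Nat.lt_floor_add_one _
  have hfl : 16 ≤ ⌊r * L⌋₊ := Nat.le_floor (by exact_mod_cast hLr)
  obtain ⟨R, hRd⟩ : ∃ R : ℕ, R = ⌊r * L⌋₊ - 2 := ⟨_, rfl⟩
  have hRr : (R : ℝ) = (⌊r * L⌋₊ : ℝ) - 2 := by
    rw [hRd, Nat.cast_sub (by omega)]; norm_num
  have hRle : (R : ℝ) ≤ r * L - 2 := by rw [hRr]; linarith
  have hRge : r * L / 2 ≤ R := by rw [hRr]; linarith
  refine ⟨R, by omega, hRle, ?_⟩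
  intro k hk0 hkr
  have hk1 : (k : ℝ) ≤ r * L / 8 := by
    have := min_le_left (r / 16) (r * h1 / 4)
    nlinarith
  have hk2 : (k : ℝ) ≤ h1 * (r * L / 2) := by
    have := min_le_right (r / 16) (r * h1 / 4)
    nlinarith
  have hRpos : (0 : ℝ) < R := by
    have : 14 ≤ R := by omega
    exact_mod_cast (by omega : 0 < R)
  refine ⟨by exact_mod_cast (by linarith : (k : ℝ) + 1 ≤ R), le_trans ?_ h1s⟩
  refine mul_le_mul_of_nonneg_left (Real.rpow_le_rpow (by positivity) ?_ ha.le) hC.le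
  rw [div_le_iff₀ hRpos]
  nlinarith

/-- the box of `dr_vert` -/
theorem boxV_of {r L : ℝ} {xr' : ℤ} (hR : 1 ≤ R) (hRL : (R : ℝ) ≤ r * L - 2)
    (hb : ∀ x1 y : ℤ, |(x1 : ℝ) - p| ≤ r * L → |(y : ℝ) - y0| ≤ r * L → (x1, y) ∈ A)
    (hk : k + 1 ≤ R) (hx : p + R ≤ xr) (hx' : p + 1 < xr') : BoxV A p y0 k xr xr' R := by
  refine ⟨⟨hR, ?_, hx⟩, hk, hx'⟩
  rintro ⟨v1, v2⟩ hv
  simp only [Bx, Set.mem_ofPred_eq] at hv
  unfold ch
  dsimp only
  refine hb _ _ ?_ ?_
  · have h3 : |v1| ≤ (R : ℤ) := by rw [abs_le]; omega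
    have h4 : |(v1 : ℝ)| ≤ R := by exact_mod_cast h3
    push_cast
    rw [show (p : ℝ) + v1 - p = v1 by ring]
    linarith
  · have h3 : |v2 - 1| ≤ (R : ℤ) + 1 := by
      rw [abs_le]; omega
    have h4 : |(v2 : ℝ) - 1| ≤ R + 1 := by exact_mod_cast h3
    push_cast
    rw [show (y0 : ℝ) - 1 + v2 - y0 = v2 - 1 by ring]
    linarith

/-- **The leaf `DRone`** -/
theorem dRone : DRone := by
  obtain ⟨C, a, hC, ha, hH⟩ := dr_Nk
  intro P q b r hr hr2 ε hε
  obtain ⟨h, h0, hr16, L0, hL0, hN⟩ := dr_num hC ha hr hε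
  refine ⟨h, h0, L0, ?_⟩
  intro L hL hev x y0 y1 hc
  obtain ⟨R, hR14, hRL, hk⟩ := hN L hL
  have hlt := hc.lt
  obtain ⟨k, hkd⟩ : ∃ k, k = y1 - y0 := ⟨_, rfl⟩
  have hk0 : 0 < k := by omega
  have hkr : (k : ℝ) ≤ 2 * h * L := by
    have e0 := abs_le.1 hc.c0
    have e1 := abs_le.1 hc.c1
    rw [hkd]; push_cast
    linarith [e0.1, e1.2]
  obtain ⟨hkR, hkε⟩ := hk k hk0 hkr
  obtain ⟨xr, hxr⟩ : ∃ xr, xr = b * L + L - 1 := ⟨_, rfl⟩
  have hxR : x + R ≤ xr := by
    have := hc.xr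
    have h3 : (x : ℝ) + R ≤ xr := by
      rw [hxr]; push_cast; linarith
    exact_mod_cast h3
  have hy1 : y1 = y0 + k := by omega
  have hrow : ∀ x1 y : ℤ, x ≤ x1 → x1 ≤ xr → y0 - 1 ≤ y → y ≤ y0 + k →
      (x1, y) ∈ D P.F L := by
    intro x1 y g1 g2 g3 g4
    refine hc.row x1 y ?_ (by omega) g3 (by omega)
    have h1 : (x : ℝ) ≤ x1 := by exact_mod_cast g1
    have h2 : (0 : ℝ) ≤ (R : ℝ) := by positivity
    linarith
  have hout : ∀ y : ℤ, y0 ≤ y → y ≤ y0 + k → (xr + 1, y) ∉ D P.F L := by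
    intro y g1 g2
    rw [hxr, sub_add_cancel]
    exact hc.out y (by omega) (by omega)
  have hS := slab_rect (A := D P.F L) (p := x) (y0 := y0) hk0 (by omega : x < xr)
    (fun x1 y g1 g2 g3 g4 => hrow x1 y g1 g2 (by omega) g4) hout
  have hB : BoxV (D P.F L) x y0 k xr xr R :=
    boxV_of (by omega) hRL hc.box (by exact_mod_cast hkR) hxR (by omega)
  have := hH hS hB (mt P L) (fun i => nmk L b y0 y1 (mt P L i)) fun i _ hf =>
    (mkE_nmk hxr hy1 (by omega) hrow hf).symm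
  rw [notch_N1 hxr hy1, ← hy1, hxr] at this
  intro h1 h2
  exact le_trans (this h1 h2) hkε

end Crest.Agent.R158.Dr945
end
end

-- ▼ part R158/Cn2_161
section

/-!
# R158, BLOCK BL, leaf (B9, UP) (helper161), file Cn2

* `pat_l` : the pattern of `shD F H L (-1)` at the right end of the lower run
* **`nBup : NBup`**
-/

set_option autoImplicit false
set_option linter.unusedVariables false
set_option linter.unusedSimpArgs false

noncomputable section

namespace Crest.Agent.R158.Cn161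

open Crest.Agent.R158.Sp896 (V)
open Crest.Agent.R158.Sw300 (Port Wd)
open Crest.Agent.R158.Ob664 (GW HG)
open Crest.Agent.R158.Env664 (D Run mem_D beD div_iff)
open Crest.Agent.R158.Wd377 (MK)
open Crest.Agent.R158.Tj656 (P4)
open Crest.Agent.R158.Cw161 (Bx Sh pat shr shr_lt shr_ge rk FarC MkP nb_shr nb_plain)
open Crest.Agent.R158.Hb656 (Hang shD mem_shD Two Nt mem_Nt N1 mem_N1 mU mkS mk2 Cr Sm NBup Lk1 GH Rg)
open Crest.Agent.R158.Bh679 (NP)

variable {F H : Finset V} {L k a b a' b' : ℤ}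

/-- the pattern at the right end of the lower run (with the hanging part moved) -/
theorem pat_l (np : NP F) (hb : b' < b) (hH : Hang F H k (b' + 1) b true)
    (ht : Two F H k a b a' b') (hL : 4 ≤ L) : ∃ (sh : Sh) (kk : ZMod 4) (X : ℤ),
      (X = b * L + L - 1 ∨ X = b * L + L - 2) ∧ ∀ x y : ℤ, b * L + 2 ≤ x → x + 2 < b * L + L + L →
        k * L - L ≤ y → y < k * L + L →
          ((x, y) ∈ shD F H L (-1) ↔ pat X (k * L - 1) sh kk (x, y)) := by
  have hab := ht.lo.le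
  have f1 : (b, k - 1) ∈ F := ht.lo.mem b hab le_rfl
  have f2 : (b, k - 1) ∉ H := ht.nlo b hab le_rfl
  have f3 : (b + 1, k - 1) ∉ F := ht.lo.right
  have f4 : (b + 1, k - 1) ∉ H := fun h => f3 (hH.sub h)
  have f5 : (b, k) ∈ F → (b, k) ∈ H := by
    have := hH.cut b (by omega) le_rfl
    simp only [if_true] at this
    exact this.2.2
  have f6 : (b, k) ∈ H → (b + 1, k) ∈ F → (b + 1, k) ∈ H := fun h h' =>
    (hH.hor b k (Or.inl ⟨h, h'⟩)).2
  have key := fun (x y : ℤ) (h1 : b * L + 2 ≤ x) (h2 : x + 2 < b * L + L + L)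
    (h3 : k * L - L ≤ y) (h4 : y < k * L + L) => sh_vert (F := F) (H := H) (i := b + 1) (j := k)
      (x := x) (y := y) (by omega : 0 < L) (by linarith [add_mul b 1 L, one_mul L])
      (by linarith [add_mul b 1 L, one_mul L]) h3 h4
  have eX : (b + 1) * L = b * L + L := by ring
  simp only [add_sub_cancel_right, eX] at key
  by_cases g1 : (b, k) ∈ F
  · have g2 := f5 g1
    by_cases g3 : (b + 1, k) ∈ F
    · have g4 := f6 g2 g3
      refine ⟨.t, 3, b * L + L - 1, Or.inl rfl, fun x y h1 h2 h3 h4 => ?_⟩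
      rw [key x y h1 h2 h3 h4, Cw161.pat_t3]
      simp only [f1, f2, f3, f4, g1, g2, g3, g4, and_true, and_false, or_false, false_or]
      omega
    · have g4 : (b + 1, k) ∉ H := fun h => g3 (hH.sub h)
      refine ⟨.h1, 0, b * L + L - 2, Or.inr rfl, fun x y h1 h2 h3 h4 => ?_⟩
      rw [key x y h1 h2 h3 h4, Cw161.pat_s0]
      simp only [f1, f2, f3, f4, g1, g2, g3, g4, and_true, and_false, or_false, false_or]
      omega
  · have g2 : (b, k) ∉ H := fun h => g1 (hH.sub h)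
    have g3 : (b + 1, k) ∉ F := fun h => by
      have := (np b (k - 1)).1
      rw [sub_add_cancel] at this
      exact this ⟨f1, h, f3, g1⟩
    have g4 : (b + 1, k) ∉ H := fun h => g3 (hH.sub h)
    refine ⟨.q, 2, b * L + L - 1, Or.inl rfl, fun x y h1 h2 h3 h4 => ?_⟩
    rw [key x y h1 h2 h3 h4, Cw161.pat_q2]
    simp only [f1, f2, f3, f4, g1, g2, g3, g4, and_true, and_false, or_false, false_or,
      not_false_eq_true]
    omega

/-- the pattern at the right end of the upper run -/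
theorem pat_u (hb : b' < b) (hH : Hang F H k (b' + 1) b true) (ht : Two F H k a b a' b')
    (hL : 4 ≤ L) {x y : ℤ} (h1 : b' * L + 2 ≤ x) (h2 : x + 2 < b' * L + L + L)
    (h3 : k * L - L ≤ y) (h4 : y < k * L + L) :
    (x, y) ∈ shD F H L (-1) ↔ x < b' * L + L ∨ y < k * L := by
  have hc := ht.com
  rw [max_le_iff, le_min_iff, le_min_iff] at hc
  have hab' := ht.up.le
  have f1 : (b', k - 1) ∈ F := ht.lo.mem _ (by omega) (by omega)
  have f2 : (b', k - 1) ∉ H := ht.nlo _ (by omega) (by omega)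
  have f3 : (b' + 1, k - 1) ∈ F := ht.lo.mem _ (by omega) (by omega)
  have f4 : (b' + 1, k - 1) ∉ H := ht.nlo _ (by omega) (by omega)
  have f5 : (b', k) ∈ F := ht.up.mem _ hab' le_rfl
  have f6 : (b', k) ∉ H := ht.nup _ hab' le_rfl
  have f7 : (b' + 1, k) ∉ F := ht.up.right
  have f8 : (b' + 1, k) ∉ H := fun h => f7 (hH.sub h)
  have eX : (b' + 1) * L = b' * L + L := by ring
  have key := sh_vert (F := F) (H := H) (i := b' + 1) (j := k)
      (x := x) (y := y) (by omega : 0 < L) (by omega) (by omega) h3 h4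
  simp only [add_sub_cancel_right, eX] at key
  rw [key]
  simp only [f1, f2, f3, f4, f5, f6, f7, f8, and_true, and_false, or_false, false_or, not_false_eq_true]
  omega

/-- **(B9, UP)** -/
theorem nBup : NBup := by
  obtain ⟨C1, a1, hC1, ha1, hX1⟩ := nb_plain
  obtain ⟨C2, a2, hC2, ha2, hX2⟩ := nb_shr
  intro P H k a b a' b' np hb hH ht r hr hr2 ε hε
  obtain ⟨h1, p1, q1, M1, t1, z1⟩ := pick hC1 ha1 hr hr2 (half_pos hε)
  obtain ⟨h2, p2, q2, M2, t2, z2⟩ := pick hC2 ha2 hr hr2 (half_pos hε)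
  refine ⟨min h1 h2, lt_min p1 p2, max M1 M2, ?_⟩
  intro L hL hev x y0 y1 hc hok
  have hL1 : M1 ≤ L := (le_max_left _ _).trans hL
  have hL2 : M2 ≤ L := (le_max_right _ _).trans hL
  obtain ⟨n1, u1, v1, w1, s1⟩ := z1 L hL1
  obtain ⟨n2, u2, v2, w2, s2⟩ := z2 L hL2
  have L64 : 64 ≤ L := t1.trans hL1
  have LR : (64 : ℝ) ≤ L := by exact_mod_cast L64
  have L0 : (0 : ℝ) < L := by linarith
  -- the position
  have c1 := hc.lo
  have c2 := hc.hi
  have hh1 : min h1 h2 * L ≤ h1 * L := mul_le_mul_of_nonneg_right (min_le_left _ _) L0.le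
  have hh2 : min h1 h2 * L ≤ h2 * L := mul_le_mul_of_nonneg_right (min_le_right _ _) L0.le
  have hq : h1 * L ≤ L / 64 := by
    have := mul_le_mul_of_nonneg_right q1 L0.le
    linarith
  have c3 : k * L - L + 2 ≤ y0 := by
    have h := hc.lo'
    have : ((k * L - L + 2 : ℤ) : ℝ) ≤ y0 := by push_cast; linarith
    exact_mod_cast this
  have c4 : y1 + 2 ≤ k * L + L := by
    have h := hc.hi'
    have : ((y1 + 2 : ℤ) : ℝ) ≤ ((k * L + L : ℤ) : ℝ) := by push_cast; linarith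
    exact_mod_cast this
  have c5 : a' * L + 1 ≤ x := by
    have h := hc.l1
    have : ((a' * L + 1 : ℤ) : ℝ) ≤ x := by push_cast; linarith
    exact_mod_cast this
  have c6 : x + n2 ≤ b' * L + L - 2 := by
    have h := hc.r1
    have : ((x + n2 : ℤ) : ℝ) ≤ ((b' * L + L - 2 : ℤ) : ℝ) := by push_cast; linarith
    exact_mod_cast this
  obtain ⟨ρ, hρ⟩ : ∃ ρ : ℕ, (ρ : ℤ) = y1 - y0 + 4 := ⟨(y1 - y0 + 4).toNat, by omega⟩
  have hρR : (ρ : ℝ) = y1 - y0 + 4 := by exact_mod_cast hρ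
  have hρ1 : (ρ : ℝ) ≤ 2 * h1 * L + 10 := by
    have h := hc.lo'
    have h' := hc.hi'
    linarith
  have hρ2 : (ρ : ℝ) ≤ 2 * h2 * L + 10 := by
    have h := hc.lo'
    have h' := hc.hi'
    linarith
  obtain ⟨r1, e1⟩ := s1 ρ hρ1
  obtain ⟨r2, e2⟩ := s2 ρ hρ2
  have hbL : b' * L + L ≤ b * L := by
    have : (b' + 1) * L ≤ b * L := mul_le_mul_of_nonneg_right (by omega) (by omega)
    linarith [add_mul b' 1 L, one_mul L]
  -- macroscopic cells
  have hcom := ht.com
  rw [max_le_iff, le_min_iff, le_min_iff] at hcom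
  have hab := ht.lo.le
  have hab' := ht.up.le
  have ek : (k - 1) * L = k * L - L := by ring
  have hrow : ∀ x', x ≤ x' → x' ≤ b' * L + L - 1 → ∀ y, k * L ≤ y → y < k * L + L →
      (x', y) ∈ D P.F L ∧ (x', y) ∉ D H L := by
    intro x' g1 g2 y g3 g4
    have hy : y / L = k := (div_iff (by omega) _ _).2 ⟨g3, g4⟩
    have hx1 : a' ≤ x' / L := by
      rw [Int.le_ediv_iff_mul_le (by omega)]; omega
    have hx2 : x' / L ≤ b' := by
      have : x' / L < b' + 1 := by
        rw [Int.ediv_lt_iff_lt_mul (by omega)]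
        linarith [add_mul b' 1 L, one_mul L]
      omega
    rw [mem_D (by omega), mem_D (by omega)]
    simp only [hy]
    exact ⟨ht.up.mem _ hx1 hx2, ht.nup _ hx1 hx2⟩
  have hright : ∀ y, k * L ≤ y → y < k * L + L → (b' * L + L - 1 + 1, y) ∉ D P.F L := by
    intro y g3 g4
    have hy : y / L = k := (div_iff (by omega) _ _).2 ⟨g3, g4⟩
    rw [mem_D (by omega)]
    simp only [hy]
    rw [(div_iff (by omega) _ (b' + 1)).2 ⟨by linarith [add_mul b' 1 L, one_mul L],
      by linarith [add_mul b' 1 L, one_mul L]⟩]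
    exact ht.up.right
  have hlow : ∀ y, k * L - L ≤ y → y < k * L → (b * L + L - 1, y) ∈ D P.F L ∧
      (b * L + L - 1, y) ∉ D H L ∧ (b * L + L - 1 + 1, y) ∉ D P.F L := by
    intro y g3 g4
    have hy : y / L = k - 1 := (div_iff (by omega) _ _).2 ⟨by omega, by omega⟩
    rw [mem_D (by omega), mem_D (by omega), mem_D (by omega)]
    simp only [hy]
    rw [(div_iff (by omega) (b * L + L - 1) b).2 ⟨by omega, by omega⟩,
      (div_iff (by omega) (b * L + L - 1 + 1) (b + 1)).2 ⟨by linarith [add_mul b 1 L, one_mul L],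
      by linarith [add_mul b 1 L, one_mul L]⟩]
    exact ⟨ht.lo.mem _ hab le_rfl, ht.nlo _ hab le_rfl, ht.lo.right⟩
  have npN : Sh279.NoPinch (Mg949.mac P).F := by
    constructor
    · intro a b g1 g2
      have := (np a b).1
      by_contra g3
      rw [not_or] at g3
      exact this ⟨g1, g2, g3.1, g3.2⟩
    · intro a b g1 g2
      have := (np a b).2
      by_contra g3
      rw [not_or] at g3
      exact this ⟨g1, g2, g3.1, g3.2⟩
  have hHM : Hang (Mg949.mac P).F H k (b' + 1) b true := hH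
  set A2 := shD P.F H L (-1) with hA2
  set A1 := A2 \ N1 L b y0 (k * L) with hA1
  set A0 := A2 \ Nt L k b b' y0 y1 with hA0
  -- words
  have W1 : ∃ w, GW A1 (beD A1 x y1 (b' * L + L - 1)) w := by
    refine (Sh279.notch_GW (M := Mg949.mac P) (δ := -1) hHM npN (by omega) (Or.inr (Or.inr rfl))
      ?_ (by omega) ?_ ?_ (hright y1 (by omega) (by omega))).2
    · rintro ⟨t1, t2⟩ g
      rw [mem_N1] at g
      simp only at g
      obtain ⟨rfl, g1, g2⟩ := g
      exact hlow t2 (by omega) g2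
    · intro x' g1 g2
      obtain ⟨g3, g4⟩ := hrow x' g1 g2 (y1 - 1) (by omega) (by omega)
      refine ⟨g3, g4, fun g => ?_⟩
      rw [mem_N1] at g; simp only at g; omega
    · intro x' g1 g2
      obtain ⟨g3, g4⟩ := hrow x' g1 g2 y1 (by omega) (by omega)
      refine ⟨g3, g4, fun g => ?_⟩
      rw [mem_N1] at g; simp only at g; omega
  have W0 : ∃ w, GW A0 (beD A0 x y1 (b' * L + L - 1)) w := by
    refine (Sh279.notch_GW' (M := Mg949.mac P) (δ := -1) hHM npN (by omega) (Or.inr (Or.inr rfl))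
      ?_ (by omega) ?_ ?_ ?_ (hright y1 (by omega) (by omega))).2
    · rintro ⟨t1, t2⟩ g
      rw [mem_Nt] at g
      simp only at g
      rcases g with ⟨rfl, g1, g2⟩ | ⟨rfl, g1, g2⟩
      · exact hlow t2 (by omega) g2
      · obtain ⟨g3, g4⟩ := hrow (b' * L + L - 1) (by omega) le_rfl t2 g1 (by omega)
        exact ⟨g3, g4, hright t2 g1 (by omega)⟩
    · intro x' g1 g2
      obtain ⟨g3, g4⟩ := hrow x' g1 (by omega) (y1 - 1) (by omega) (by omega)
      refine ⟨g3, g4, fun g => ?_⟩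
      rw [mem_Nt] at g; simp only at g; omega
    · intro x' g1 g2
      obtain ⟨g3, g4⟩ := hrow x' g1 g2 y1 (by omega) (by omega)
      refine ⟨g3, g4, fun g => ?_⟩
      rw [mem_Nt] at g; simp only at g; omega
    · rw [mem_Nt]; exact Or.inr ⟨rfl, by omega, by omega⟩
  -- marks
  set m : Fin 3 → V × ZMod 4 := fun i => mU H L k b b' (Hb656.mt P L i) with hm
  have far1 : ∀ X : ℤ, (X = b * L + L - 1 ∨ X = b * L + L - 2) → ∀ i,
      FarC X (k * L - 1) n1 (fun t => t) (some (m i)) := by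
    intro X hX i t d e hB
    have e' : (m i).1 = t := by
      have := Option.some.inj e
      rw [this]
    have h5 := mt_far (i := b + 1) (j := k) (N := n1 + 4) (by omega) (by omega) i
      (mU_tile H L k b b' (Hb656.mt P L i))
    change ¬ ((b + 1) * L - _ ≤ (m i).1.1 ∧ (m i).1.1 < _ ∧ _ ≤ (m i).1.2 ∧ (m i).1.2 < _) at h5
    rw [e'] at h5
    unfold Bx at hB
    simp only at hB
    have eX : (b + 1) * L = b * L + L := by ring
    rw [eX] at h5
    omega
  have far2 : ∀ i, FarC (b' * L + L - 2) (k * L - 1) n2 (shr y1 (-1)) (some (m i)) := by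
    intro i t d e hB
    have e' : (m i).1 = t := by
      have := Option.some.inj e
      rw [this]
    have h5 := mt_far (i := b' + 1) (j := k) (N := n2 + 4) (by omega) (by omega) i
      (mU_tile H L k b b' (Hb656.mt P L i))
    change ¬ ((b' + 1) * L - _ ≤ (m i).1.1 ∧ (m i).1.1 < _ ∧ _ ≤ (m i).1.2 ∧ (m i).1.2 < _) at h5
    rw [e'] at h5
    have eX : (b' + 1) * L = b' * L + L := by ring
    rw [eX] at h5
    rcases lt_or_ge t.2 y1 with g | g
    · rw [shr_lt g] at hB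
      unfold Bx at hB
      omega
    · rw [shr_ge g] at hB
      unfold Bx at hB
      simp only at hB
      omega
  -- the ball at the end of the lower run
  have B1 : MK A1 (beD A1 x y1 (b' * L + L - 1)) (some (m 0)) (some (m 1)) (some (m 2)) ∧
      ‖HG A2 (beD A2 x y1 (b' * L + L - 1)) (some (m 0)) (some (m 1)) (some (m 2)) -
        HG A1 (beD A1 x y1 (b' * L + L - 1)) (some (m 0)) (some (m 1)) (some (m 2))‖ ≤
          ε / 2 := by
    obtain ⟨sh, kk, X, hX, hp⟩ := pat_l np hb hH ht (by omega : 4 ≤ L)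
    have := hX1 sh kk X (k * L - 1) ρ n1 x y1 (b' * L + L - 1) (by omega) r1 (by omega) ?_
      (A := A2) (A' := A1) W1 ?_ ?_ (MkP.far (by omega) (far1 X hX 0))
      (MkP.far (by omega) (far1 X hX 1)) (MkP.far (by omega) (far1 X hX 2))
      (Or.inl (far1 X hX 0)) (Or.inl (far1 X hX 1)) (Or.inl (far1 X hX 2)) hok
    · exact ⟨this.1, this.2.trans e1⟩
    · intro t g
      unfold Bx at g
      right; left
      omega
    · rintro ⟨t1, t2⟩ g1 g2
      unfold Bx at g1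
      push_cast at g1
      exact hp t1 t2 (by omega) (by omega) (by omega) (by omega)
    · rintro ⟨t1, t2⟩ g
      rw [hA1, Finset.mem_sdiff, mem_N1]
      simp only
      constructor
      · exact fun g => g.1
      · refine fun g' => ⟨g', fun g'' => g ?_⟩
        unfold Bx
        simp only
        have : ((ρ - 1 : ℕ) : ℤ) = ρ - 1 := by omega
        omega
  -- the ball at the end of the upper run
  have B2 : MK A0 (beD A0 x y1 (b' * L + L - 1)) (some (m 0)) (some (m 1)) (some (m 2)) ∧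
      ‖HG A1 (beD A1 x y1 (b' * L + L - 1)) (some (m 0)) (some (m 1)) (some (m 2)) -
        HG A0 (beD A0 x y1 (b' * L + L - 1)) (some (m 0)) (some (m 1)) (some (m 2))‖ ≤
          ε / 2 := by
    have mem1 : ∀ x y : ℤ, b' * L + 2 ≤ x → x + 2 < b' * L + L + L → x < b * L + L - 1 →
        k * L - L ≤ y → y < k * L + L → ((x, y) ∈ A1 ↔ x < b' * L + L ∨ y < k * L) := by
      intro x y g1 g2 g3 g4 g5
      rw [hA1, Finset.mem_sdiff, mem_N1, pat_u hb hH ht (by omega) g1 g2 g4 g5]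
      simp only
      omega
    have := hX2 .t 0 (b' * L + L - 2) (k * L - 1) ρ n2 x y1 (b' * L + L - 1) (by omega) r2
      (by omega) (A := A1) (A' := A0) W0 ?_ ?_ ?_ (MkP.far (by omega) (far2 0))
      (MkP.far (by omega) (far2 1)) (MkP.far (by omega) (far2 2))
      (Or.inl (far2 0)) (Or.inl (far2 1)) (Or.inl (far2 2)) B1.1
    · exact ⟨this.1, this.2.trans e2⟩
    · rintro ⟨c1, c2⟩ g1 g2
      rw [Cw161.pat_t0]
      have : ((ρ - 1 : ℕ) : ℤ) = ρ - 1 := by omega
      unfold Bx at g1 g2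
      rw [this] at g2
      push_cast at g1
      simp only at g1 g2 ⊢
      rcases lt_or_ge c2 y1 with g | g
      · rw [shr_lt (t := (c1, c2)) g, mem1 c1 c2 (by omega) (by omega) (by omega) (by omega)
          (by omega)]
        omega
      · rw [shr_ge (t := (c1, c2)) g]
        simp only
        rw [mem1 (c1 + 1) c2 (by omega) (by omega) (by omega) (by omega) (by omega)]
        omega
    · rintro ⟨t1, t2⟩ g
      rw [hA0, hA1, Finset.mem_sdiff, Finset.mem_sdiff, mem_N1, mem_Nt]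
      simp only
      constructor
      · exact fun g => ⟨g.1, fun g' => g.2 (Or.inl g')⟩
      · rintro ⟨g1, g2⟩
        refine ⟨g1, ?_⟩
        rintro (g3 | g3)
        · exact g2 g3
        · apply g
          rw [shr_lt (t := (t1, t2)) (by omega)]
          unfold Bx
          simp only
          have : ((ρ - 1 : ℕ) : ℤ) = ρ - 1 := by omega
          omega
    · intro x' g1 g2
      have h3 : (x', y1) ∉ A1 := by
        rw [mem1 x' y1 (by omega) (by omega) (by omega) (by omega) (by omega)]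
        omega
      refine ⟨h3, fun g => h3 ?_⟩
      rw [hA0, Finset.mem_sdiff, mem_Nt] at g
      rw [hA1, Finset.mem_sdiff, mem_N1]
      exact ⟨g.1, fun g' => g.2 (Or.inl g')⟩
  refine ⟨B2.1, ?_⟩
  change ‖HG A2 (beD A2 x y1 (b' * L + L - 1)) (some (m 0)) (some (m 1)) (some (m 2)) -
        HG A0 (beD A0 x y1 (b' * L + L - 1)) (some (m 0)) (some (m 1)) (some (m 2))‖ ≤ ε
  have := norm_sub_le_norm_sub_add_norm_sub
    (HG A2 (beD A2 x y1 (b' * L + L - 1)) (some (m 0)) (some (m 1)) (some (m 2)))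
    (HG A1 (beD A1 x y1 (b' * L + L - 1)) (some (m 0)) (some (m 1)) (some (m 2)))
    (HG A0 (beD A0 x y1 (b' * L + L - 1)) (some (m 0)) (some (m 1)) (some (m 2)))
  linarith [B1.2, B2.2]

end Crest.Agent.R158.Cn161
end
end

-- ▼ part R158/Cn3_161
section

/-!
# R158, BLOCK BL, leaf (B9, DN) (helper161), file Cn3: **`nBdn : NBdn`**
-/

set_option autoImplicit false
set_option linter.unusedVariables false
set_option linter.unusedSimpArgs false

noncomputable section

namespace Crest.Agent.R158.Cn161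

open Crest.Agent.R158.Sp896 (V)
open Crest.Agent.R158.Sw300 (Port Wd)
open Crest.Agent.R158.Ob664 (GW HG)
open Crest.Agent.R158.Env664 (D Run mem_D beD div_iff)
open Crest.Agent.R158.Wd377 (MK)
open Crest.Agent.R158.Tj656 (P4)
open Crest.Agent.R158.Cw161 (Bx Sh pat shr shr_lt shr_ge rk FarC MkP nb_shr nb_plain)
open Crest.Agent.R158.Hb656 (Hang Two Nt mem_Nt N1 mem_N1 Cr Sm NBdn Lk1 GH Rg)
open Crest.Agent.R158.Bh679 (NP)

variable {F H : Finset V} {L k a b a' b' : ℤ}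

/-- the tiles at the right end of the lower run, DN -/
theorem dn_l (hb : b < b') (ht : Two F H k a b a' b') (hL : 4 ≤ L) {x y : ℤ}
    (h1 : b * L + 2 ≤ x) (h2 : x + 2 < b * L + L + L)
    (h3 : k * L - L ≤ y) (h4 : y < k * L + L) :
    (x, y) ∈ D F L ↔ x < b * L + L ∨ k * L ≤ y := by
  have hc := ht.com
  rw [max_le_iff, le_min_iff, le_min_iff] at hc
  have hab := ht.lo.le
  have f1 : (b, k - 1) ∈ F := ht.lo.mem _ hab le_rfl
  have f3 : (b + 1, k - 1) ∉ F := ht.lo.right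
  have f5 : (b, k) ∈ F := ht.up.mem _ (by omega) (by omega)
  have f7 : (b + 1, k) ∈ F := ht.up.mem _ (by omega) (by omega)
  have eX : (b + 1) * L = b * L + L := by ring
  have key := mem_vert (F := F) (i := b + 1) (j := k)
      (x := x) (y := y) (by omega : 0 < L) (by omega) (by omega) h3 h4
  simp only [add_sub_cancel_right, eX] at key
  rw [key]
  simp only [f1, f3, f5, f7, and_true, and_false, or_false, false_or]
  omega

/-- the tiles at the right end of the upper run, DN -/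
theorem dn_u (np : NP F) (hb : b < b') (ht : Two F H k a b a' b') (hL : 4 ≤ L) :
    ∃ (sh : Sh) (kk : ZMod 4), ∀ x y : ℤ, b' * L + 2 ≤ x → x + 2 < b' * L + L + L →
        k * L - L ≤ y → y < k * L + L →
          ((x, y) ∈ D F L ↔ (k * L ≤ y ∧ x < b' * L + L) ∨
            (y < k * L ∧ pat (b' * L + L - 2) (k * L - 1) sh kk (x, y))) ∧
          (k * L ≤ y → (pat (b' * L + L - 2) (k * L - 1) sh kk (x, y) ↔ x < b' * L + L - 1)) := by
  have hab' := ht.up.le
  have f5 : (b', k) ∈ F := ht.up.mem _ hab' le_rfl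
  have f7 : (b' + 1, k) ∉ F := ht.up.right
  have key := fun (x y : ℤ) (h1 : b' * L + 2 ≤ x) (h2 : x + 2 < b' * L + L + L)
    (h3 : k * L - L ≤ y) (h4 : y < k * L + L) => mem_vert (F := F) (i := b' + 1) (j := k)
      (x := x) (y := y) (by omega : 0 < L) (by linarith [add_mul b' 1 L, one_mul L])
      (by linarith [add_mul b' 1 L, one_mul L]) h3 h4
  have eX : (b' + 1) * L = b' * L + L := by ring
  simp only [add_sub_cancel_right, eX] at key
  by_cases g1 : (b', k - 1) ∈ F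
  · by_cases g3 : (b' + 1, k - 1) ∈ F
    · refine ⟨.t, 0, fun x y h1 h2 h3 h4 => ?_⟩
      rw [key x y h1 h2 h3 h4, Cw161.pat_t0]
      simp only [f5, f7, g1, g3, and_true, and_false, or_false, false_or]
      constructor <;> omega
    · refine ⟨.h1, 0, fun x y h1 h2 h3 h4 => ?_⟩
      rw [key x y h1 h2 h3 h4, Cw161.pat_s0]
      simp only [f5, f7, g1, g3, and_true, and_false, or_false, false_or]
      constructor <;> omega
  · have g3 : (b' + 1, k - 1) ∉ F := fun h => by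
      have := (np b' (k - 1)).2
      rw [sub_add_cancel] at this
      exact this ⟨h, f5, g1, f7⟩
    refine ⟨.q, 1, fun x y h1 h2 h3 h4 => ?_⟩
    rw [key x y h1 h2 h3 h4, Cw161.pat_q1]
    simp only [f5, f7, g1, g3, and_true, and_false, or_false, false_or]
    constructor <;> omega

/-- **(B9, DN)** -/
theorem nBdn : NBdn := by
  obtain ⟨C2, a2, hC2, ha2, hX2⟩ := nb_shr
  intro P H k a b a' b' np hb hH ht r hr hr2 ε hε
  obtain ⟨h2, p2, q2, M2, t2, z2⟩ := pick hC2 ha2 hr hr2 (half_pos hε)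
  refine ⟨h2, p2, M2, ?_⟩
  intro L hL2 hev x y0 y1 hc hok
  obtain ⟨n2, u2, v2, w2, s2⟩ := z2 L hL2
  have L64 : 64 ≤ L := t2.trans hL2
  have LR : (64 : ℝ) ≤ L := by exact_mod_cast L64
  have L0 : (0 : ℝ) < L := by linarith
  -- the position
  have c1 := hc.lo
  have c2 := hc.hi
  have hq : h2 * L ≤ L / 64 := by
    have := mul_le_mul_of_nonneg_right q2 L0.le
    linarith
  have c3 : k * L - L + 2 ≤ y0 := by
    have h := hc.lo'
    have : ((k * L - L + 2 : ℤ) : ℝ) ≤ y0 := by push_cast; linarith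
    exact_mod_cast this
  have c4 : y1 + 2 ≤ k * L + L := by
    have h := hc.hi'
    have : ((y1 + 2 : ℤ) : ℝ) ≤ ((k * L + L : ℤ) : ℝ) := by push_cast; linarith
    exact_mod_cast this
  have c5 : a' * L + 1 ≤ x := by
    have h := hc.l1
    have : ((a' * L + 1 : ℤ) : ℝ) ≤ x := by push_cast; linarith
    exact_mod_cast this
  have c6 : x + n2 ≤ b' * L + L - 2 := by
    have h := hc.r1
    have : ((x + n2 : ℤ) : ℝ) ≤ ((b' * L + L - 2 : ℤ) : ℝ) := by push_cast; linarith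
    exact_mod_cast this
  have c7 : x + n2 ≤ b * L + L - 2 := by
    have h := hc.r0
    have : ((x + n2 : ℤ) : ℝ) ≤ ((b * L + L - 2 : ℤ) : ℝ) := by push_cast; linarith
    exact_mod_cast this
  obtain ⟨ρ, hρ⟩ : ∃ ρ : ℕ, (ρ : ℤ) = y1 - y0 + 4 := ⟨(y1 - y0 + 4).toNat, by omega⟩
  have hρR : (ρ : ℝ) = y1 - y0 + 4 := by exact_mod_cast hρ
  have hρ2 : (ρ : ℝ) ≤ 2 * h2 * L + 10 := by
    have h := hc.lo'
    have h' := hc.hi'
    linarith
  obtain ⟨r2, e2⟩ := s2 ρ hρ2
  have hbL : b * L + L ≤ b' * L := by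
    have : (b + 1) * L ≤ b' * L := mul_le_mul_of_nonneg_right (by omega) (by omega)
    linarith [add_mul b 1 L, one_mul L]
  -- macroscopic cells
  have hcom := ht.com
  rw [max_le_iff, le_min_iff, le_min_iff] at hcom
  have hab := ht.lo.le
  have hab' := ht.up.le
  have hrow : ∀ x', x ≤ x' → x' ≤ b' * L + L - 1 → ∀ y, k * L ≤ y → y < k * L + L →
      (x', y) ∈ D P.F L := by
    intro x' g1 g2 y g3 g4
    have hy : y / L = k := (div_iff (by omega) _ _).2 ⟨g3, g4⟩
    have hx1 : a' ≤ x' / L := by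
      rw [Int.le_ediv_iff_mul_le (by omega)]; omega
    have hx2 : x' / L ≤ b' := by
      have : x' / L < b' + 1 := by
        rw [Int.ediv_lt_iff_lt_mul (by omega)]
        linarith [add_mul b' 1 L, one_mul L]
      omega
    rw [mem_D (by omega)]
    simp only [hy]
    exact ht.up.mem _ hx1 hx2
  have hright : ∀ y, k * L ≤ y → y < k * L + L → (b' * L + L - 1 + 1, y) ∉ D P.F L := by
    intro y g3 g4
    have hy : y / L = k := (div_iff (by omega) _ _).2 ⟨g3, g4⟩
    rw [mem_D (by omega)]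
    simp only [hy]
    rw [(div_iff (by omega) _ (b' + 1)).2 ⟨by linarith [add_mul b' 1 L, one_mul L],
      by linarith [add_mul b' 1 L, one_mul L]⟩]
    exact ht.up.right
  have ek : (k - 1) * L = k * L - L := by ring
  have hlow : ∀ y, k * L - L ≤ y → y < k * L → (b * L + L - 1, y) ∈ D P.F L ∧
      (b * L + L - 1 + 1, y) ∉ D P.F L := by
    intro y g3 g4
    have hy : y / L = k - 1 := (div_iff (by omega) _ _).2 ⟨by omega, by omega⟩
    rw [mem_D (by omega), mem_D (by omega)]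
    simp only [hy]
    rw [(div_iff (by omega) (b * L + L - 1) b).2 ⟨by omega, by omega⟩,
      (div_iff (by omega) (b * L + L - 1 + 1) (b + 1)).2 ⟨by linarith [add_mul b 1 L, one_mul L],
      by linarith [add_mul b 1 L, one_mul L]⟩]
    exact ⟨ht.lo.mem _ hab le_rfl, ht.lo.right⟩
  have npN : Sh279.NoPinch (Mg949.mac P).F := by
    constructor
    · intro a b g1 g2
      have := (np a b).1
      by_contra g3
      rw [not_or] at g3
      exact this ⟨g1, g2, g3.1, g3.2⟩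
    · intro a b g1 g2
      have := (np a b).2
      by_contra g3
      rw [not_or] at g3
      exact this ⟨g1, g2, g3.1, g3.2⟩
  set A2 := D P.F L with hA2
  set A1 := A2 \ N1 L b y0 (k * L) with hA1
  set A0 := A2 \ Nt L k b b' y0 y1 with hA0
  -- words
  have W1 : ∃ w, GW A1 (beD A1 x y1 (b' * L + L - 1)) w := by
    refine (Sh279.D_notch_GW (M := Mg949.mac P) npN (by omega)
      ?_ (by omega) ?_ ?_ (hright y1 (by omega) (by omega))).2
    · rintro ⟨t1, t2⟩ g
      rw [mem_N1] at g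
      simp only at g
      obtain ⟨rfl, g1, g2⟩ := g
      exact hlow t2 (by omega) g2
    · intro x' g1 g2
      refine ⟨hrow x' g1 g2 (y1 - 1) (by omega) (by omega), fun g => ?_⟩
      rw [mem_N1] at g; simp only at g; omega
    · intro x' g1 g2
      refine ⟨hrow x' g1 g2 y1 (by omega) (by omega), fun g => ?_⟩
      rw [mem_N1] at g; simp only at g; omega
  have W0 : ∃ w, GW A0 (beD A0 x y1 (b' * L + L - 1)) w := by
    refine (Sh279.D_notch_GW' (M := Mg949.mac P) npN (by omega)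
      ?_ (by omega) ?_ ?_ ?_ (hright y1 (by omega) (by omega))).2
    · rintro ⟨t1, t2⟩ g
      rw [mem_Nt] at g
      simp only at g
      rcases g with ⟨rfl, g1, g2⟩ | ⟨rfl, g1, g2⟩
      · exact hlow t2 (by omega) g2
      · exact ⟨hrow (b' * L + L - 1) (by omega) le_rfl t2 g1 (by omega), hright t2 g1 (by omega)⟩
    · intro x' g1 g2
      refine ⟨hrow x' g1 (by omega) (y1 - 1) (by omega) (by omega), fun g => ?_⟩
      rw [mem_Nt] at g; simp only at g; omega
    · intro x' g1 g2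
      refine ⟨hrow x' g1 g2 y1 (by omega) (by omega), fun g => ?_⟩
      rw [mem_Nt] at g; simp only at g; omega
    · rw [mem_Nt]; exact Or.inr ⟨rfl, by omega, by omega⟩
  -- marks
  set m : Fin 3 → V × ZMod 4 := fun i => Hb656.mt P L i with hm
  have far : ∀ c : ℤ, ∀ X : ℤ, (X = c * L + L - 1 ∨ X = c * L + L - 2) → ∀ i,
      FarC X (k * L - 1) n2 (shr y1 (-1)) (some (m i)) := by
    intro c X hX i t d e hB
    have e' : (m i).1 = t := by
      have := Option.some.inj e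
      rw [this]
    have h5 := mt_far (i := c + 1) (j := k) (N := n2 + 4) (by omega) (by omega) i
      (s := (m i).1) (Or.inl rfl)
    rw [e'] at h5
    have eX : (c + 1) * L = c * L + L := by ring
    rw [eX] at h5
    rcases lt_or_ge t.2 y1 with g | g
    · rw [shr_lt g] at hB
      unfold Bx at hB
      omega
    · rw [shr_ge g] at hB
      unfold Bx at hB
      simp only at hB
      omega
  have hρ' : ((ρ - 1 : ℕ) : ℤ) = ρ - 1 := by omega
  -- the ball at the end of the lower run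
  have B1 : MK A1 (beD A1 x y1 (b' * L + L - 1)) (some (m 0)) (some (m 1)) (some (m 2)) ∧
      ‖HG A2 (beD A2 x y1 (b' * L + L - 1)) (some (m 0)) (some (m 1)) (some (m 2)) -
        HG A1 (beD A1 x y1 (b' * L + L - 1)) (some (m 0)) (some (m 1)) (some (m 2))‖ ≤
          ε / 2 := by
    have fr := far b (b * L + L - 1) (Or.inl rfl)
    have := hX2 .t 3 (b * L + L - 1) (k * L - 1) ρ n2 x y1 (b' * L + L - 1) (by omega) r2
      (by omega) (A := A2) (A' := A1) W1 ?_ ?_ ?_ (MkP.far (by omega) (fr 0))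
      (MkP.far (by omega) (fr 1)) (MkP.far (by omega) (fr 2))
      (Or.inl (fr 0)) (Or.inl (fr 1)) (Or.inl (fr 2)) hok
    · exact ⟨this.1, this.2.trans e2⟩
    · rintro ⟨c1, c2⟩ g1 g2
      rw [Cw161.pat_t3]
      unfold Bx at g1 g2
      rw [hρ'] at g2
      push_cast at g1
      simp only at g1 g2 ⊢
      rcases lt_or_ge c2 y1 with g | g
      · rw [shr_lt (t := (c1, c2)) g, dn_l hb ht (by omega) (by omega) (by omega) (by omega)
          (by omega)]
        omega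
      · rw [shr_ge (t := (c1, c2)) g]
        simp only
        rw [dn_l hb ht (by omega) (by omega) (by omega) (by omega) (by omega)]
        omega
    · rintro ⟨t1, t2⟩ g
      rw [hA1, Finset.mem_sdiff, mem_N1]
      simp only
      constructor
      · exact fun g => g.1
      · refine fun g' => ⟨g', fun g'' => g ?_⟩
        rw [shr_lt (t := (t1, t2)) (by omega)]
        unfold Bx
        simp only
        omega
    · intro x' g1 g2
      omega
  -- the ball at the end of the upper run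
  have B2 : MK A0 (beD A0 x y1 (b' * L + L - 1)) (some (m 0)) (some (m 1)) (some (m 2)) ∧
      ‖HG A1 (beD A1 x y1 (b' * L + L - 1)) (some (m 0)) (some (m 1)) (some (m 2)) -
        HG A0 (beD A0 x y1 (b' * L + L - 1)) (some (m 0)) (some (m 1)) (some (m 2))‖ ≤
          ε / 2 := by
    obtain ⟨sh, kk, hp⟩ := dn_u np hb ht (by omega : 4 ≤ L)
    have fr := far b' (b' * L + L - 2) (Or.inr rfl)
    have := hX2 sh kk (b' * L + L - 2) (k * L - 1) ρ n2 x y1 (b' * L + L - 1) (by omega) r2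
      (by omega) (A := A1) (A' := A0) W0 ?_ ?_ ?_ (MkP.far (by omega) (fr 0))
      (MkP.far (by omega) (fr 1)) (MkP.far (by omega) (fr 2))
      (Or.inl (fr 0)) (Or.inl (fr 1)) (Or.inl (fr 2)) B1.1
    · exact ⟨this.1, this.2.trans e2⟩
    · rintro ⟨c1, c2⟩ g1 g2
      unfold Bx at g1 g2
      rw [hρ'] at g2
      push_cast at g1
      simp only at g1 g2 ⊢
      obtain ⟨p1, p2⟩ := hp c1 c2 (by omega) (by omega) (by omega) (by omega)
      rcases lt_or_ge c2 y1 with g | g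
      · rw [shr_lt (t := (c1, c2)) g, hA1, Finset.mem_sdiff, mem_N1, p1]
        simp only
        rcases lt_or_ge c2 (k * L) with g3 | g3
        · constructor
          · rintro ⟨(⟨g4, -⟩ | ⟨-, g4⟩), -⟩
            · omega
            · exact g4
          · exact fun g4 => ⟨Or.inr ⟨g3, g4⟩, by omega⟩
        · rw [p2 g3]
          omega
      · rw [shr_ge (t := (c1, c2)) g, hA1, Finset.mem_sdiff, mem_N1]
        simp only
        obtain ⟨p3, -⟩ := hp (c1 + 1) c2 (by omega) (by omega) (by omega) (by omega)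
        rw [p3, p2 (by omega)]
        have n1 : ¬ c2 < k * L := by omega
        simp only [n1, false_and, or_false, and_false, not_false_eq_true, and_true]
        omega
    · rintro ⟨t1, t2⟩ g
      rw [hA0, hA1, Finset.mem_sdiff, Finset.mem_sdiff, mem_N1, mem_Nt]
      simp only
      constructor
      · exact fun g => ⟨g.1, fun g' => g.2 (Or.inl g')⟩
      · rintro ⟨g1, g2⟩
        refine ⟨g1, ?_⟩
        rintro (g3 | g3)
        · exact g2 g3
        · apply g
          rw [shr_lt (t := (t1, t2)) (by omega)]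
          unfold Bx
          simp only
          omega
    · intro x' g1 g2
      have h3 : (x', y1) ∉ A2 := by
        obtain ⟨p3, -⟩ := hp x' y1 (by omega) (by omega) (by omega) (by omega)
        rw [hA2, p3]
        omega
      exact ⟨fun g => h3 (Finset.mem_sdiff.1 g).1, fun g => h3 (Finset.mem_sdiff.1 g).1⟩
  refine ⟨B2.1, ?_⟩
  change ‖HG A2 (beD A2 x y1 (b' * L + L - 1)) (some (m 0)) (some (m 1)) (some (m 2)) -
        HG A0 (beD A0 x y1 (b' * L + L - 1)) (some (m 0)) (some (m 1)) (some (m 2))‖ ≤ ε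
  have := norm_sub_le_norm_sub_add_norm_sub
    (HG A2 (beD A2 x y1 (b' * L + L - 1)) (some (m 0)) (some (m 1)) (some (m 2)))
    (HG A1 (beD A1 x y1 (b' * L + L - 1)) (some (m 0)) (some (m 1)) (some (m 2)))
    (HG A0 (beD A0 x y1 (b' * L + L - 1)) (some (m 0)) (some (m 1)) (some (m 2)))
  linarith [B1.2, B2.2]

end Crest.Agent.R158.Cn161
end
end

-- ▼ part R158/Hb7_656
section

/-!
R158, S0237, BLOCK BL, file 7 (helper656): all leaves plugged.
**`oscM : ∀ P, OscM P`**.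
-/

set_option autoImplicit false

noncomputable section

namespace Crest.Agent.R158.Hb656

open Crest.Agent.R158.Tj656 (P4)
open Crest.Agent.R158.Cs410 (OscM)

theorem mk0 : MK0 := by
  intro P a b j hr
  refine ⟨1, fun L hL hev x y hs => ?_⟩
  have h1 := hs.hx
  have h2 := hs.hx'
  have h3 : x ≤ b * L + L - 1 := by omega
  have h4 : 0 < L := by omega
  exact Hw949.mk_D P h4 hev hr h1 h3 hs.hy hs.hy'

theorem leaves : Leaves where
  hang := Hg896.hangEx
  mk0 := mk0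
  words := Sh279.wordsEx
  rl := Bh679.rlchain
  ll := Hc854.ll_chain
  mbup := Mb331.mBup
  mbdn := Mb331.mBdn
  mbup' := Mp896.mbup'
  mbdn' := Mp896.mbdn'
  nbup := Cn161.nBup
  nbdn := Cn161.nBdn
  nbone := Nb771.nbOne
  drup := Hs689.drup
  drdn := Hs689.drdn
  drone := Dr945.dRone

/-- **BLOCK BL** -/
theorem oscM (P : P4) : OscM P := oscM_of leaves P

end Crest.Agent.R158.Hb656
end
end

-- ▼ part R158/Wq1_290
section

/-!
R158, (Q2) of the frozen interface (helper290), part 1: **`q2_of : Geo2 → Q2`** (over 771's core2).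

* `Sec j` : the end lies in the sector of the arc `j`
* `Geo2` : the macroscopic input: near a flat boundary point of the arc `j` every free end within
  `ρ L` lies in the sector `j` (same shape as 331's `Geo3m`, `Geo3p`)
-/

set_option autoImplicit false

namespace Crest.Agent.R158.Wq290

open Filter Topology Set Metric MeasureTheory
open Complex (I)
open Crest.Agent.R158.Tj656
open Crest.Agent.R158.Cd83 (om om_eq)
open Crest.Agent.R158.Env664 (D beD mark)
open Crest.Agent.R158.Ob664 (GW HW HV Sect VO)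
open Crest.Agent.R158.Cb771 (LegBox core2)
open Crest.Agent.R158.Sw300 (Port Wd)
open Crest.Agent.R158.Al194 (Tri)
open Crest.Agent.R158.Q331 (nearE mk eps_scale)

noncomputable section

/-- the end `q` lies in the sector of the arc `j` -/
def Sec (j : Fin 4) (pos : Port (ℤ × ℤ) → ℤ) (m1 m2 m3 q : Port (ℤ × ℤ)) : Prop :=
  if j = 0 ∨ j = 1 then Sect pos m3 m1 q
  else if j = 2 then ¬ Sect pos m3 m1 q ∧ ¬ Sect pos m1 m2 q
  else ¬ Sect pos m3 m1 q ∧ Sect pos m1 m2 q

/-- macroscopic input of `(Q2)` -/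
def Geo2 : Prop := ∀ (P : P4) (jj : Fin 4), ∀ b ∈ P.hA jj, ∃ ρ : ℝ, 0 < ρ ∧ ∃ L0 : ℤ, ∀ Ln : ℤ,
  L0 ≤ Ln → Even Ln → ∀ i j : ℤ, mpos Ln (2 * i) (2 * j) ∈ P.Om →
  ‖mpos Ln (2 * i) (2 * j) - b‖ < ρ →
  ∃ (xr : ℤ) (w : Wd (ℤ × ℤ)), GW (D P.F Ln) (beD (D P.F Ln) (2 * i) (2 * j) xr) w ∧
    P.HD Ln (2 * i) (2 * j) = HW w (mk P Ln 0) (mk P Ln 1) (mk P Ln 2) ∧
    (∀ s : ℕ, Ln * ‖mpos Ln (2 * i) (2 * j) - b‖ + 2 ≤ s →
      LegBox (D P.F Ln) (2 * i) (2 * j) xr s) ∧
    ∀ Rd : ℕ, (Rd : ℝ) ≤ ρ * Ln → ∀ q ∈ Sw300.L w, nearE (2 * i) (2 * j) Rd q →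
      Sec jj (Sw300.pos w) (mk P Ln 0) (mk P Ln 1) (mk P Ln 2) q

/-! ### values on the segments -/

theorem im_nonpos_seg {a b z : ℂ} {u v : ℂ} (hz : z ∈ segment ℝ a b) (ha : (u * a + v).im ≤ 0)
    (hb : (u * b + v).im ≤ 0) : (u * z + v).im ≤ 0 := by
  obtain ⟨s, t, hs, ht, hst, rfl⟩ := hz
  have e : u * (s • a + t • b) + v = (s : ℂ) * (u * a + v) + (t : ℂ) * (u * b + v) := by
    rw [Complex.real_smul, Complex.real_smul]
    have : (s : ℂ) + (t : ℂ) = 1 := by exact_mod_cast hst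
    calc _ = (s : ℂ) * (u * a) + (t : ℂ) * (u * b) + v * ((s : ℂ) + t) := by rw [this]; ring
      _ = _ := by ring
  rw [e, Complex.add_im, Complex.im_ofReal_mul, Complex.im_ofReal_mul]
  nlinarith

theorem v2_eq' : Vt300.v2 = 1 + om := by
  rw [Vt300.v2_eq, om_eq]
  apply Complex.ext <;> simp
  norm_num


/-- affine form of the arc `j` -/
def al (j : Fin 4) : ℂ := if j = 0 ∨ j = 1 then 1 else if j = 2 then om ^ 2 else om

/-- affine form of the arc `j` -/
def be (j : Fin 4) : ℂ := if j = 0 ∨ j = 1 then 0 else if j = 2 then -om ^ 2 else -om * (1 + om)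

theorem om_v2 : om * (1 + om) = -1 := by
  have := Cd83.om_sum
  linear_combination this

theorem seg_val {j : Fin 4} {A : Port (ℤ × ℤ) → Prop} {pos : Port (ℤ × ℤ) → ℤ}
    {M : Port (ℤ × ℤ) → Port (ℤ × ℤ)} {S : Port (ℤ × ℤ) → Bool} {q m1 m2 m3 : Port (ℤ × ℤ)}
    (h : Sec j pos m1 m2 m3 q) : (al j * VO A pos M S q m1 m2 m3 + be j).im ≤ 0 := by
  unfold Sec at h
  unfold al be
  split_ifs at h ⊢ with h1 h2
  · refine im_nonpos_seg (Ob664.VO_31 h) ?_ ?_ <;> simp
  · refine im_nonpos_seg (Ob664.VO_23 h.1 h.2) ?_ ?_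
    · rw [v2_eq']
      have : om ^ 2 * (1 + om) + -om ^ 2 = 1 := by linear_combination Cd83.om_cube
      rw [this]; simp
    · simp
  · refine im_nonpos_seg (Ob664.VO_12 h.1 h.2) ?_ ?_
    · rw [mul_zero, zero_add, neg_mul, om_v2]; simp
    · rw [v2_eq']
      have : om * (1 + om) + -om * (1 + om) = 0 := by ring
      rw [this]; simp

theorem norm_om : ‖om‖ = 1 := by
  unfold om
  exact Complex.norm_exp_ofReal_mul_I _

theorem norm_al (j : Fin 4) : ‖al j‖ = 1 := by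
  unfold al
  split_ifs
  · simp
  · rw [norm_pow, norm_om, one_pow]
  · exact norm_om

theorem norm_be (j : Fin 4) : ‖be j‖ ≤ 1 := by
  unfold be
  split_ifs
  · simp
  · rw [norm_neg, norm_pow, norm_om, one_pow]
  · rw [neg_mul, om_v2]; simp

theorem im_le_two (j : Fin 4) {z : ℂ} (hz : z ∈ Tri) : (al j * z + be j).im ≤ 2 := by
  have h1 : (al j * z + be j).im ≤ ‖al j * z + be j‖ :=
    (le_abs_self _).trans (Complex.abs_im_le_norm _)
  have h2 : ‖al j * z + be j‖ ≤ ‖al j‖ * ‖z‖ + ‖be j‖ := by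
    rw [← norm_mul]; exact norm_add_le _ _
  have h3 := Ob664.norm_le_of_Tri hz
  have h4 := norm_al j
  have h5 := norm_be j
  rw [h4, one_mul] at h2
  linarith

/-- the leg end is a free end -/
theorem u_mem {A : Finset (ℤ × ℤ)} {b : Port (ℤ × ℤ) → Port (ℤ × ℤ)} {w : Wd (ℤ × ℤ)}
    (h : GW A b w) (ξ : ℤ × ℤ → Bool) : Sw300.u ξ w ∈ Sw300.L w :=
  (Sw300.Ok.inv ξ w h.word.1).um

/-- **the one-sided bound on the arc `j`** -/
theorem nb_of (hg : Geo2) (P : P4) (jj : Fin 4) (b : ℂ) (hb : b ∈ P.hA jj) :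
    NB P b fun _ w => (al jj * w + be jj).im := by
  obtain ⟨C, a, hC, ha, hcore⟩ := core2
  obtain ⟨ρ, hρ, L1, hgeo⟩ := hg P jj b hb
  intro ε hε
  obtain ⟨r, hr, hrρ, L2, hsc⟩ := eps_scale hC ha hρ hε
  refine ⟨r, hr, max (max L1 L2) 1, fun Ln hLn hev i j hOm hnear => ?_⟩
  obtain ⟨xr, w, hGW, hHD, hLB, hH⟩ := hgeo Ln (by omega) hev i j hOm (hnear.trans_le hrρ)
  obtain ⟨s, Rd, h1, h2, h3, h4⟩ := hsc Ln (by omega)
  have hLp : (0 : ℝ) < Ln := by
    have : 0 < Ln := by omega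
    exact_mod_cast this
  have hbox := hLB s (by nlinarith)
  have hfin := hcore (D P.F Ln) (2 * i) (2 * j) xr s w Rd (mk P Ln 0) (mk P Ln 1) (mk P Ln 2)
    (al jj) (be jj) 2 hbox hGW h3 (by norm_num) (fun z hz => im_le_two jj hz)
    (fun ξ hξ => seg_val (hH Rd h2 _ (u_mem hGW ξ) hξ))
  rw [← hHD] at hfin
  exact hfin.trans h4

/-- **`(Q2)`** from the core estimate and the macroscopic geometry -/
theorem q2_of (hg : Geo2) : Q2 := by
  intro P
  refine ⟨fun b hb => ?_, fun b hb => ?_, fun b hb => ?_, fun b hb => ?_⟩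
  · have := nb_of hg P 0 b hb
    simpa [al, be] using this
  · have := nb_of hg P 1 b hb
    simpa [al, be] using this
  · have := nb_of hg P 2 b hb
    have e : (fun (_ : ℤ) (w : ℂ) => (al 2 * w + be 2).im) =
        fun (_ : ℤ) (w : ℂ) => (om ^ 2 * (w - 1)).im := by
      funext _ w
      have e1 : al 2 = om ^ 2 := by simp [al]
      have e2 : be 2 = -om ^ 2 := by simp [be]
      rw [e1, e2]; congr 1; ring
    rw [e] at this
    exact this
  · have := nb_of hg P 3 b hb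
    have e : (fun (_ : ℤ) (w : ℂ) => (al 3 * w + be 3).im) =
        fun (_ : ℤ) (w : ℂ) => (om * (w - (1 + om))).im := by
      funext _ w
      have e1 : al 3 = om := by simp [al]
      have e2 : be 3 = -om * (1 + om) := by simp [be]
      rw [e1, e2]; congr 1; ring
    rw [e] at this
    exact this

end

end Crest.Agent.R158.Wq290
end

-- ▼ part R158/Mg3_949
section

/-!
# Row 158 (helper949): macro geometry of `D^(z)`, 3: boundary points near a flat point

* `ja P j`, `jb P j` : first and last marked edge of the arc `j`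
* `edge_close` : a boundary point at sup distance `< min t (1 - t)` from the point `t` of an edge lies
  on this edge
* **`near_arc`**, **`near_idx`** : walk vertices near a flat point of the arc `j` have indices strictly
  inside `[ja L, jb L]`
* **`wU_arcT`** : indices in `[a L, b L]` give lattice points of the edges `a, ..., b`
* `pt_tile`, `WD.at_tile`, `WD.gap_tile` : tiles and faces of the free ends and gaps
-/

set_option autoImplicit false
set_option linter.unusedVariables false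

noncomputable section

namespace Crest.Agent.R158.Mg949

open Crest.Agent.R158.Sw300 (Port Wd L Ok)
open Crest.Agent.R158.Env664
open Crest.Agent.R158.Sp896 (V Adj Cyc Con lc rc)
open Crest.Agent.R158.Bl802 (sv sv_mk nN)
open Crest.Agent.R158.Tj656
open Crest.Agent.R158.Cb771 (off)

/-! ### distances of lattice edges -/

theorem near_int {a c : ℤ} {r : ℝ} (hr : r ≤ 1) (h : |(c : ℝ) - a| < r) : c = a := by
  rw [abs_lt] at h
  have h1 : (c : ℝ) < a + 1 := by linarith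
  have h2 : (a : ℝ) < c + 1 := by linarith
  have h3 : c < a + 1 := by exact_mod_cast h1
  have h4 : a < c + 1 := by exact_mod_cast h2
  omega

theorem near_0d {a c s : ℤ} (hs : s = 1 ∨ s = -1) {t : ℝ}
    (h : |(c : ℝ) - (a + t * s)| < min t (1 - t)) : False := by
  have m1 := min_le_left t (1 - t)
  have m2 := min_le_right t (1 - t)
  rw [abs_lt] at h
  rcases hs with rfl | rfl
  · push_cast at h
    have h1 : (a : ℝ) < c := by linarith
    have h2 : (c : ℝ) < a + 1 := by linarith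
    have h3 : a < c := by exact_mod_cast h1
    have h4 : c < a + 1 := by exact_mod_cast h2
    omega
  · push_cast at h
    have h1 : (c : ℝ) < a := by linarith
    have h2 : (a : ℝ) < c + 1 := by linarith
    have h3 : c < a := by exact_mod_cast h1
    have h4 : a < c + 1 := by exact_mod_cast h2
    omega

theorem near_1d {a c s s' : ℤ} (hs : s = 1 ∨ s = -1) (hs' : s' = 1 ∨ s' = -1) {t τ : ℝ}
    (g0 : 0 ≤ τ) (g1 : τ ≤ 1) (h : |((c : ℝ) + τ * s') - (a + t * s)| < min t (1 - t)) :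
    (s' = s ∧ c = a) ∨ (s' = -s ∧ c = a + s) := by
  have m1 := min_le_left t (1 - t)
  have m2 := min_le_right t (1 - t)
  rw [abs_lt] at h
  rcases hs with rfl | rfl <;> rcases hs' with rfl | rfl <;> push_cast at h
  · have h1 : (a : ℝ) < c + 1 := by linarith
    have h2 : (c : ℝ) < a + 1 := by linarith
    have h3 : a < c + 1 := by exact_mod_cast h1
    have h4 : c < a + 1 := by exact_mod_cast h2
    left; omega
  · have h1 : (a : ℝ) < c := by linarith
    have h2 : (c : ℝ) < a + 2 := by linarith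
    have h3 : a < c := by exact_mod_cast h1
    have h4 : c < a + 2 := by exact_mod_cast h2
    right; omega
  · have h1 : (c : ℝ) < a := by linarith
    have h2 : (a : ℝ) < c + 2 := by linarith
    have h3 : c < a := by exact_mod_cast h1
    have h4 : a < c + 2 := by exact_mod_cast h2
    right; omega
  · have h1 : (a : ℝ) < c + 1 := by linarith
    have h2 : (c : ℝ) < a + 1 := by linarith
    have h3 : a < c + 1 := by exact_mod_cast h1
    have h4 : c < a + 1 := by exact_mod_cast h2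
    left; omega

theorem ept_re (v : ℕ → V) (m : ℕ) (t : ℝ) :
    (ept v m t).re = (v m).1 + t * ((v (m + 1)).1 - (v m).1) := by
  unfold ept
  rw [Complex.add_re, Complex.re_ofReal_mul, Complex.sub_re, pt_re, pt_re]
  ring

theorem ept_im (v : ℕ → V) (m : ℕ) (t : ℝ) :
    (ept v m t).im = (v m).2 + t * ((v (m + 1)).2 - (v m).2) := by
  unfold ept
  rw [Complex.add_im, Complex.im_ofReal_mul, Complex.sub_im, pt_im, pt_im]
  ring

/-- step vectors -/
theorem adj_vec {a b : V} (h : Adj a b) : ∃ s : ℤ, (s = 1 ∨ s = -1) ∧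
    ((b = (a.1 + s, a.2)) ∨ (b = (a.1, a.2 + s))) := by
  obtain ⟨b1, b2⟩ := b
  rcases h with ⟨h1, h2⟩ | ⟨h1, h2⟩ | ⟨h1, h2⟩ | ⟨h1, h2⟩
  · exact ⟨1, Or.inl rfl, Or.inl (Prod.ext h1 h2)⟩
  · exact ⟨-1, Or.inr rfl, Or.inl (Prod.ext h1 h2)⟩
  · exact ⟨1, Or.inl rfl, Or.inr (Prod.ext h1 h2)⟩
  · exact ⟨-1, Or.inr rfl, Or.inr (Prod.ext h1 h2)⟩

/-- **a boundary point close to an inner point of an edge lies on this edge** -/
theorem edge_close {N : ℕ} {F : Set V} {v : ℕ → V} (h : Cyc F N v) {k m : ℕ} {t τ : ℝ} (h0 : 0 < t)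
    (h1 : t < 1) (g0 : 0 ≤ τ) (g1 : τ ≤ 1) {r : ℝ} (hr : r ≤ min t (1 - t))
    (hre : |(ept v k τ).re - (ept v m t).re| < r) (him : |(ept v k τ).im - (ept v m t).im| < r) :
    v k = v m ∧ |τ - t| < r := by
  have m1 := min_le_left t (1 - t)
  have hrev : ¬ (v k = v (m + 1) ∧ v (k + 1) = v m) := by
    rintro ⟨e1, e2⟩
    have h2 := h.left k
    rw [e1, e2, (Bl802.adj_rev (h.step m)).1] at h2
    exact h.right m h2
  obtain ⟨s, hs, hB⟩ := adj_vec (h.step m)
  obtain ⟨s', hs', hE⟩ := adj_vec (h.step k)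
  rw [ept_re, ept_re] at hre
  rw [ept_im, ept_im] at him
  have fin : ∀ {d : ℝ}, (s : ℝ) = d ∨ (s : ℝ) = -d → (d = 1) → ∀ x : ℝ, |x * s| < r → |x| < r := by
    rintro d (e | e) rfl x hx
    · rwa [e, mul_one] at hx
    · rwa [e, mul_neg, mul_one, abs_neg] at hx
  have hsr : (s : ℝ) = 1 ∨ (s : ℝ) = -1 := by
    rcases hs with rfl | rfl
    · left; norm_num
    · right; norm_num
  rcases hB with hB | hB <;> rcases hE with hE | hE
  · -- both horizontal
    have e1 : (((v (m + 1)).1 : ℝ) - (v m).1) = s := by rw [hB]; push_cast; ring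
    have e2 : (((v (m + 1)).2 : ℝ) - (v m).2) = 0 := by rw [hB]; ring
    have e3 : (((v (k + 1)).1 : ℝ) - (v k).1) = s' := by rw [hE]; push_cast; ring
    have e4 : (((v (k + 1)).2 : ℝ) - (v k).2) = 0 := by rw [hE]; ring
    rw [e1, e3] at hre
    rw [e2, e4, mul_zero, mul_zero, add_zero, add_zero] at him
    have i2 := near_int (by linarith : r ≤ 1) him
    rcases near_1d hs hs' g0 g1 (hre.trans_le hr) with ⟨i0, i1⟩ | ⟨i0, i1⟩
    · refine ⟨Prod.ext i1 i2, ?_⟩
      refine fin hsr rfl (τ - t) ?_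
      rw [i1, i0] at hre
      convert hre using 2; ring
    · exfalso
      apply hrev
      rw [hB, hE]
      refine ⟨Prod.ext i1 i2, Prod.ext ?_ i2⟩
      simp only; omega
  · exfalso
    have e1 : (((v (m + 1)).1 : ℝ) - (v m).1) = s := by rw [hB]; push_cast; ring
    have e3 : (((v (k + 1)).1 : ℝ) - (v k).1) = 0 := by rw [hE]; ring
    rw [e1, e3, mul_zero, add_zero] at hre
    exact near_0d hs (hre.trans_le hr)
  · exfalso
    have e1 : (((v (m + 1)).2 : ℝ) - (v m).2) = s := by rw [hB]; push_cast; ring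
    have e3 : (((v (k + 1)).2 : ℝ) - (v k).2) = 0 := by rw [hE]; ring
    rw [e1, e3, mul_zero, add_zero] at him
    exact near_0d hs (him.trans_le hr)
  · have e1 : (((v (m + 1)).2 : ℝ) - (v m).2) = s := by rw [hB]; push_cast; ring
    have e2 : (((v (m + 1)).1 : ℝ) - (v m).1) = 0 := by rw [hB]; ring
    have e3 : (((v (k + 1)).2 : ℝ) - (v k).2) = s' := by rw [hE]; push_cast; ring
    have e4 : (((v (k + 1)).1 : ℝ) - (v k).1) = 0 := by rw [hE]; ring
    rw [e1, e3] at him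
    rw [e2, e4, mul_zero, mul_zero, add_zero, add_zero] at hre
    have i2 := near_int (by linarith : r ≤ 1) hre
    rcases near_1d hs hs' g0 g1 (him.trans_le hr) with ⟨i0, i1⟩ | ⟨i0, i1⟩
    · refine ⟨Prod.ext i2 i1, ?_⟩
      refine fin hsr rfl (τ - t) ?_
      rw [i1, i0] at him
      convert him using 2; ring
    · exfalso
      apply hrev
      rw [hB, hE]
      refine ⟨Prod.ext i2 i1, Prod.ext i2 ?_⟩
      simp only; omega

/-! ### arcs -/

/-- first marked edge of the arc `j` -/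
def ja (P : P4) (j : Fin 4) : ℕ := ![0, P.mb, P.mc, P.md] j

/-- last marked edge of the arc `j` -/
def jb (P : P4) (j : Fin 4) : ℕ := ![P.mb, P.mc, P.md, P.N] j

@[simp] theorem ja_0 (P : P4) : ja P 0 = 0 := rfl
@[simp] theorem ja_1 (P : P4) : ja P 1 = P.mb := rfl
@[simp] theorem ja_2 (P : P4) : ja P 2 = P.mc := rfl
@[simp] theorem ja_3 (P : P4) : ja P 3 = P.md := rfl
@[simp] theorem jb_0 (P : P4) : jb P 0 = P.mb := rfl
@[simp] theorem jb_1 (P : P4) : jb P 1 = P.mc := rfl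
@[simp] theorem jb_2 (P : P4) : jb P 2 = P.md := rfl
@[simp] theorem jb_3 (P : P4) : jb P 3 = P.N := rfl

theorem jb_le (P : P4) (j : Fin 4) : jb P j ≤ P.N := by
  have := P.h1; have := P.h2; have := P.h3; have := P.h4
  fin_cases j
  · show P.mb ≤ P.N; omega
  · show P.mc ≤ P.N; omega
  · show P.md ≤ P.N; omega
  · show P.N ≤ P.N; omega

theorem v_N (P : P4) : P.v P.N = P.v 0 := by
  have := P.cyc.per 0; rwa [zero_add] at this

theorem v_N1 (P : P4) : P.v (P.N + 1) = P.v 1 := by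
  have := P.cyc.per 1; rwa [add_comm] at this

/-- normal form of a flat point -/
theorem hA_norm {P : P4} {j : Fin 4} {b : ℂ} (hb : b ∈ P.hA j) : ∃ (m : ℕ) (t : ℝ), 0 < t ∧ t < 1 ∧
    m ≤ P.N ∧ b = ept P.v m t ∧ (ja P j : ℝ) + 1 / 2 < m + t ∧ (m : ℝ) + t < jb P j + 1 / 2 := by
  obtain ⟨m, t, h0, h1, hon, rfl⟩ := hb
  have q1 := P.h1; have q2 := P.h2; have q3 := P.h3; have q4 := P.h4
  have gen : ∀ a c : ℕ, c ≤ P.N → a < c →
      ((a < m ∧ m < c) ∨ (m = a ∧ 1 / 2 < t) ∨ (m = c ∧ t < 1 / 2)) →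
      m ≤ P.N ∧ (a : ℝ) + 1 / 2 < m + t ∧ (m : ℝ) + t < c + 1 / 2 := by
    rintro a c hc hac (⟨e1, e2⟩ | ⟨e1, e2⟩ | ⟨e1, e2⟩)
    · have f1 : (a : ℝ) + 1 ≤ m := by exact_mod_cast e1
      have f2 : (m : ℝ) + 1 ≤ c := by exact_mod_cast e2
      exact ⟨by omega, by linarith, by linarith⟩
    · have f2 : (a : ℝ) + 1 ≤ c := by exact_mod_cast hac
      rw [e1]
      exact ⟨by omega, by linarith, by linarith⟩
    · have f2 : (a : ℝ) + 1 ≤ c := by exact_mod_cast hac
      rw [e1]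
      exact ⟨by omega, by linarith, by linarith⟩
  unfold P4.on at hon
  by_cases j0 : j = 0
  · subst j0
    rw [if_pos rfl] at hon
    obtain ⟨a1, a2, a3⟩ := gen 0 P.mb (by omega) (by omega) hon
    exact ⟨m, t, h0, h1, a1, rfl, a2, a3⟩
  rw [if_neg j0] at hon
  by_cases j1 : j = 1
  · subst j1
    rw [if_pos rfl] at hon
    obtain ⟨a1, a2, a3⟩ := gen P.mb P.mc (by omega) (by omega) hon
    exact ⟨m, t, h0, h1, a1, rfl, a2, a3⟩
  rw [if_neg j1] at hon
  by_cases j2 : j = 2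
  · subst j2
    rw [if_pos rfl] at hon
    obtain ⟨a1, a2, a3⟩ := gen P.mc P.md (by omega) (by omega) hon
    exact ⟨m, t, h0, h1, a1, rfl, a2, a3⟩
  rw [if_neg j2] at hon
  have j3 : j = 3 := by
    revert j0 j1 j2; revert j; decide
  subst j3
  rcases hon with e | e | ⟨e1, e2⟩
  · obtain ⟨a1, a2, a3⟩ := gen P.md P.N (by omega) (by omega) (Or.inl e)
    exact ⟨m, t, h0, h1, a1, rfl, a2, a3⟩
  · obtain ⟨a1, a2, a3⟩ := gen P.md P.N (by omega) (by omega) (Or.inr (Or.inl e))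
    exact ⟨m, t, h0, h1, a1, rfl, a2, a3⟩
  · refine ⟨P.N, t, h0, h1, le_rfl, ?_, ?_, ?_⟩
    · unfold ept
      rw [v_N, v_N1, e1]
    · have : (P.md : ℝ) + 1 ≤ P.N := by exact_mod_cast q4
      show (P.md : ℝ) + 1 / 2 < P.N + t
      linarith
    · show (P.N : ℝ) + t < P.N + 1 / 2
      linarith

/-! ### the walk near a flat point -/

theorem wU_mk {P : P4} {k : ℕ} {i κ r : ℕ} (hr : r < 2 * k) (h : i + k = κ * (2 * k) + r) :
    ((wU P k i).1 : ℝ) = Lz k * (ept P.v κ (r / Lz k)).re ∧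
      ((wU P k i).2 : ℝ) = Lz k * (ept P.v κ (r / Lz k)).im := by
  have hL : (Lz k : ℝ) ≠ 0 := by
    have : 0 < Lz k := by unfold Lz; omega
    exact_mod_cast this.ne'
  have key : ∀ A B : ℝ, (Lz k : ℝ) * (A + (r : ℝ) / Lz k * (B - A)) = Lz k * A + r * (B - A) := by
    intro A B
    field_simp
  rw [ept_re, ept_im, key, key]
  unfold wU
  rw [h, sv_mk hr]
  constructor
  · rw [Int.cast_add, Int.cast_mul, Int.cast_mul, Int.cast_sub]
    norm_cast
  · rw [Int.cast_add, Int.cast_mul, Int.cast_mul, Int.cast_sub]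
    norm_cast

/-- **vertices of the walk close to a flat point** (sup distance `< ρ L`) -/
theorem near_arc (P : P4) {j : Fin 4} {b : ℂ} (hb : b ∈ P.hA j) : ∃ ρ : ℝ, 0 < ρ ∧
    ∀ k : ℕ, 0 < k → ∀ i : ℕ, i ≤ nn P k → |((wU P k i).1 : ℝ) - Lz k * b.re| < ρ * Lz k →
      |((wU P k i).2 : ℝ) - Lz k * b.im| < ρ * Lz k →
      (ja P j : ℝ) * Lz k + ρ * Lz k < i ∧ (i : ℝ) + ρ * Lz k < jb P j * Lz k := by
  obtain ⟨m, t, h0, h1, hm, rfl, ha, hb⟩ := hA_norm hb
  obtain ⟨ρ, hρ⟩ : ∃ ρ, ρ = min (min t (1 - t))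
    (min (((m : ℝ) + t - ja P j - 1 / 2) / 2) ((jb P j + 1 / 2 - m - t) / 2)) := ⟨_, rfl⟩
  have p0 : 0 < ρ := by
    rw [hρ]
    refine lt_min (lt_min h0 (by linarith)) (lt_min ?_ ?_) <;> linarith
  have p1 : ρ ≤ min t (1 - t) := by rw [hρ]; exact min_le_left _ _
  have p2 : ρ ≤ ((m : ℝ) + t - ja P j - 1 / 2) / 2 := by
    rw [hρ]; exact (min_le_right _ _).trans (min_le_left _ _)
  have p3 : ρ ≤ (jb P j + 1 / 2 - m - t) / 2 := by
    rw [hρ]; exact (min_le_right _ _).trans (min_le_right _ _)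
  refine ⟨ρ, p0, fun k hk => ?_⟩
  have hL : (0 : ℝ) < (Lz k : ℝ) := by exact_mod_cast Lz_pos hk
  have hLk : (Lz k : ℝ) = 2 * (k : ℝ) := by simp [Lz]
  have hjb : (jb P j : ℝ) ≤ P.N := by exact_mod_cast jb_le P j
  have hja : (0 : ℝ) ≤ ja P j := Nat.cast_nonneg _
  -- indices smaller than the period
  have key : ∀ i : ℕ, i < nn P k → |((wU P k i).1 : ℝ) - Lz k * (ept P.v m t).re| < ρ * Lz k →
      |((wU P k i).2 : ℝ) - Lz k * (ept P.v m t).im| < ρ * Lz k →
      (ja P j : ℝ) * Lz k + ρ * Lz k < i ∧ (i : ℝ) + ρ * Lz k < jb P j * Lz k := by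
    intro i hi e1 e2
    obtain ⟨κ, r, hr, hκ⟩ := Bl802.idx (L := 2 * k) (by omega) (i + k)
    obtain ⟨w1, w2⟩ := wU_mk (P := P) hr hκ
    obtain ⟨τ, hτ⟩ : ∃ τ : ℝ, τ = r / Lz k := ⟨_, rfl⟩
    rw [← hτ] at w1 w2
    have hrL : (r : ℝ) = τ * Lz k := by rw [hτ]; field_simp
    have g0 : 0 ≤ τ := by rw [hτ]; positivity
    have g1 : τ ≤ 1 := by
      rw [hτ, div_le_one hL, hLk]
      exact_mod_cast hr.le
    have e1' : |(ept P.v κ τ).re - (ept P.v m t).re| < ρ := by
      rw [w1, ← mul_sub, abs_mul, abs_of_pos hL, mul_comm ρ] at e1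
      exact lt_of_mul_lt_mul_left e1 hL.le
    have e2' : |(ept P.v κ τ).im - (ept P.v m t).im| < ρ := by
      rw [w2, ← mul_sub, abs_mul, abs_of_pos hL, mul_comm ρ] at e2
      exact lt_of_mul_lt_mul_left e2 hL.le
    obtain ⟨c1, c2⟩ := edge_close P.cyc h0 h1 g0 g1 p1 e1' e2'
    rw [abs_lt] at c2
    have hκN : κ ≤ P.N := by
      by_contra hc
      push Not at hc
      have h3 : (P.N + 1) * (2 * k) ≤ κ * (2 * k) := Nat.mul_le_mul_right _ hc
      have h4 : (P.N + 1) * (2 * k) = P.N * (2 * k) + 2 * k := by ring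
      unfold nn at hi
      omega
    have hir : (i : ℝ) + k = κ * (2 * k) + r := by exact_mod_cast hκ
    have hi' : (i : ℝ) = (κ + τ - 1 / 2) * Lz k := by
      have h5 : (i : ℝ) = κ * (2 * k) + r - k := by linarith
      rw [h5, hrL, hLk]
      ring
    -- the edge
    have hκm : κ = m := by
      have hper : ∀ a : ℕ, a ≤ P.N → ∃ a' < P.N, P.v a = P.v a' ∧ (a = a' ∨ (a = P.N ∧ a' = 0)) := by
        intro a ha
        rcases Nat.lt_or_ge a P.N with h5 | h5
        · exact ⟨a, h5, rfl, Or.inl rfl⟩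
        · have : a = P.N := by omega
          subst this
          exact ⟨0, by have := P.cyc.four_le; omega, v_N P, Or.inr ⟨rfl, rfl⟩⟩
      obtain ⟨κ', k1, k2, k3⟩ := hper κ hκN
      obtain ⟨m', m1, m2, m3⟩ := hper m hm
      have h6 : κ' = m' := P.cyc.inj κ' k1 m' m1 (by rw [← k2, ← m2, c1])
      rcases k3 with k3 | ⟨k3, k4⟩ <;> rcases m3 with m3 | ⟨m3, m4⟩
      · omega
      · -- κ = 0, m = N
        exfalso
        have hκ0 : κ = 0 := by omega
        subst hκ0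
        have hge : (k : ℝ) ≤ r := by
          have : k ≤ r := by omega
          exact_mod_cast this
        have h7 : 1 / 2 ≤ τ := by
          rw [hτ, le_div_iff₀ hL, hLk]; linarith
        rw [m3] at p3
        linarith
      · exfalso
        have hm0 : m = 0 := by omega
        have hlt : (r : ℝ) < k := by
          have : r < k := by
            unfold nn at hi
            rw [k3] at hκ
            omega
          exact_mod_cast this
        have h7 : τ < 1 / 2 := by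
          rw [hτ, div_lt_iff₀ hL, hLk]; linarith
        rw [hm0] at p2
        push_cast at p2
        linarith
      · omega
    rw [hκm] at hi'
    rw [hi']
    constructor
    · rw [← add_mul]
      apply mul_lt_mul_of_pos_right _ hL
      linarith
    · rw [← add_mul]
      apply mul_lt_mul_of_pos_right _ hL
      linarith
  intro i hi e1 e2
  rcases Nat.lt_or_ge i (nn P k) with h5 | h5
  · exact key i h5 e1 e2
  · exfalso
    have h6 : i = 0 + nn P k := by omega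
    rw [h6, wU_per P hk] at e1 e2
    have := (key 0 (nn_pos P hk) e1 e2).1
    have h7 : 0 < ρ * Lz k := by positivity
    have h8 : 0 ≤ (ja P j : ℝ) * Lz k := by positivity
    rw [Nat.cast_zero] at this
    linarith

/-- **(G4')** walk vertices near `z`, `z` near a flat point of the arc `j` -/
theorem near_idx (P : P4) {j : Fin 4} {b : ℂ} (hb : b ∈ P.hA j) : ∃ ρ : ℝ, 0 < ρ ∧ ∃ k0 : ℕ,
    ∀ k : ℕ, 0 < k → k0 ≤ k → ∀ x y : ℤ, ‖mpos (Lz k) x y - b‖ < ρ → ∀ Rd : ℕ,
      (Rd : ℝ) ≤ ρ * Lz k → ∀ i ≤ nn P k, |(wU P k i).1 - x| ≤ (Rd : ℤ) + 8 →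
        |(wU P k i).2 - y| ≤ (Rd : ℤ) + 8 →
        ja P j * (2 * k) + 8 ≤ i ∧ i + 8 ≤ jb P j * (2 * k) := by
  obtain ⟨ρ, hρ, h⟩ := near_arc P hb
  refine ⟨ρ / 4, by positivity, ⌈16 / ρ⌉₊ + 1, fun k hk hk0 x y hz Rd hRd i hi e1 e2 => ?_⟩
  have hL : (0 : ℝ) < (Lz k : ℝ) := by exact_mod_cast Lz_pos hk
  have hLk : (Lz k : ℝ) = 2 * (k : ℝ) := by simp [Lz]
  have hbig : 32 < ρ * Lz k := by
    have h1 : 16 / ρ ≤ ⌈16 / ρ⌉₊ := Nat.le_ceil _
    have h2 : ((⌈16 / ρ⌉₊ + 1 : ℕ) : ℝ) ≤ k := by exact_mod_cast hk0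
    push_cast at h2
    have h3 : 16 / ρ < k := by linarith
    rw [div_lt_iff₀ hρ] at h3
    rw [hLk]; nlinarith
  have n1 := (Complex.abs_re_le_norm (mpos (Lz k) x y - b)).trans_lt hz
  have n2 := (Complex.abs_im_le_norm (mpos (Lz k) x y - b)).trans_lt hz
  rw [Complex.sub_re] at n1
  rw [Complex.sub_im] at n2
  have q1 : |(x : ℝ) - Lz k * b.re| < ρ / 4 * Lz k := by
    have : (x : ℝ) - Lz k * b.re = Lz k * ((mpos (Lz k) x y).re - b.re) := by
      simp only [mpos]; field_simp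
    rw [this, abs_mul, abs_of_pos hL, mul_comm]
    exact mul_lt_mul_of_pos_right n1 hL
  have q2 : |(y : ℝ) - Lz k * b.im| < ρ / 4 * Lz k := by
    have : (y : ℝ) - Lz k * b.im = Lz k * ((mpos (Lz k) x y).im - b.im) := by
      simp only [mpos]; field_simp
    rw [this, abs_mul, abs_of_pos hL, mul_comm]
    exact mul_lt_mul_of_pos_right n2 hL
  have f1 : |((wU P k i).1 : ℝ) - x| ≤ Rd + 8 := by
    have : ((|(wU P k i).1 - x| : ℤ) : ℝ) ≤ (((Rd : ℤ) + 8 : ℤ) : ℝ) := by exact_mod_cast e1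
    push_cast at this
    exact this
  have f2 : |((wU P k i).2 : ℝ) - y| ≤ Rd + 8 := by
    have : ((|(wU P k i).2 - y| : ℤ) : ℝ) ≤ (((Rd : ℤ) + 8 : ℤ) : ℝ) := by exact_mod_cast e2
    push_cast at this
    exact this
  have g1 : |((wU P k i).1 : ℝ) - Lz k * b.re| < ρ * Lz k := by
    have := abs_sub_le ((wU P k i).1 : ℝ) x (Lz k * b.re)
    linarith
  have g2 : |((wU P k i).2 : ℝ) - Lz k * b.im| < ρ * Lz k := by
    have := abs_sub_le ((wU P k i).2 : ℝ) y (Lz k * b.im)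
    linarith
  obtain ⟨r1, r2⟩ := h k hk i hi g1 g2
  rw [hLk] at r1 r2 hbig
  constructor
  · have : ((ja P j * (2 * k) + 8 : ℕ) : ℝ) ≤ i := by push_cast; linarith
    exact_mod_cast this
  · have : ((i + 8 : ℕ) : ℝ) ≤ ((jb P j * (2 * k) : ℕ) : ℝ) := by push_cast; linarith
    exact_mod_cast this


/-! ### tiles of the free ends -/

/-- position of the face of the corner `(t, d)`, shifted by `e` -/
def fp (e : ℤ) (t : V) (d : ZMod 4) : V := (t.1 - e, t.2) + off d

/-- tile `t` near the vertex `c`, faces of its corner `d` near the vertex `c` -/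
def Nr (x : Port V) (c : V) : Prop := ∃ t d, x = some (t, d) ∧ |t.1 - c.1| ≤ 1 ∧ |t.2 - c.2| ≤ 1 ∧
  ∀ e : ℤ, e = 0 ∨ e = 1 → |(fp e t d).1 - c.1| ≤ 3 ∧ |(fp e t d).2 - c.2| ≤ 3

theorem off_w : off 0 = (-1, -1) := rfl
theorem off_n : off 1 = (-1, 0) := rfl
theorem off_e : off 2 = (0, 0) := rfl
theorem off_s : off 3 = (0, -1) := rfl

/-- tile and corner face of a step -/
theorem pt_tile {a b : V} (h : Adj a b) : ∃ t d, Bl802.pt a b = some (t, d) ∧ |t.1 - a.1| ≤ 1 ∧
    |t.2 - a.2| ≤ 1 ∧ |t.1 - b.1| ≤ 1 ∧ |t.2 - b.2| ≤ 1 ∧ fp 0 t d = (b.1 - 1, b.2 - 1) := by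
  obtain ⟨a1, a2⟩ := a
  obtain ⟨b1, b2⟩ := b
  unfold Adj at h
  simp only at h
  rcases h with ⟨h1, h2⟩ | ⟨h1, h2⟩ | ⟨h1, h2⟩ | ⟨h1, h2⟩
  · subst h1 h2
    refine ⟨_, _, Bl802.pt_E a1 b2, ?_, ?_, ?_, ?_, ?_⟩
    · rw [abs_le]; constructor <;> simp only <;> omega
    · rw [abs_le]; constructor <;> simp only <;> omega
    · rw [abs_le]; constructor <;> simp only <;> omega
    · rw [abs_le]; constructor <;> simp only <;> omega
    · unfold fp
      rw [off_s]
      ext <;> simp only [Prod.fst_add, Prod.snd_add] <;> omega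
  · subst h1 h2
    refine ⟨_, _, Bl802.pt_W a1 b2, ?_, ?_, ?_, ?_, ?_⟩
    · rw [abs_le]; constructor <;> simp only <;> omega
    · rw [abs_le]; constructor <;> simp only <;> omega
    · rw [abs_le]; constructor <;> simp only <;> omega
    · rw [abs_le]; constructor <;> simp only <;> omega
    · unfold fp
      rw [off_n]
      ext <;> simp only [Prod.fst_add, Prod.snd_add] <;> omega
  · subst h1 h2
    refine ⟨_, _, Bl802.pt_N b1 a2, ?_, ?_, ?_, ?_, ?_⟩
    · rw [abs_le]; constructor <;> simp only <;> omega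
    · rw [abs_le]; constructor <;> simp only <;> omega
    · rw [abs_le]; constructor <;> simp only <;> omega
    · rw [abs_le]; constructor <;> simp only <;> omega
    · unfold fp
      rw [off_e]
      ext <;> simp only [Prod.fst_add, Prod.snd_add] <;> omega
  · subst h1 h2
    refine ⟨_, _, Bl802.pt_S b1 a2, ?_, ?_, ?_, ?_, ?_⟩
    · rw [abs_le]; constructor <;> simp only <;> omega
    · rw [abs_le]; constructor <;> simp only <;> omega
    · rw [abs_le]; constructor <;> simp only <;> omega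
    · rw [abs_le]; constructor <;> simp only <;> omega
    · unfold fp
      rw [off_w]
      ext <;> simp only [Prod.fst_add, Prod.snd_add] <;> omega

theorem fp_e (e : ℤ) (t : V) (d : ZMod 4) : fp e t d = ((fp 0 t d).1 - e, (fp 0 t d).2) := by
  unfold fp
  ext <;> simp only [Prod.fst_add, Prod.snd_add] <;> ring

section

variable {P : P4} {k : ℕ} {x y xr : ℤ} {q : ℕ} {w : Wd V}

theorem step_Nr (hk : 0 < k) (i : ℕ) : Nr (sU P k i) (wU P k (i + 1)) ∧
    Nr (sU P k i) (wU P k i) := by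
  have hadj := (cycU P hk).step i
  obtain ⟨t, d, h1, h2, h3, h4, h5, h6⟩ := pt_tile hadj
  have h1' : sU P k i = some (t, d) := h1
  have hA : |(wU P k (i + 1)).1 - (wU P k i).1| ≤ 1 ∧ |(wU P k (i + 1)).2 - (wU P k i).2| ≤ 1 := by
    unfold Adj at hadj
    rw [abs_le, abs_le]; omega
  constructor
  · refine ⟨t, d, h1', h4, h5, fun e he => ?_⟩
    rw [fp_e, h6, abs_le, abs_le]
    simp only
    omega
  · refine ⟨t, d, h1', h2, h3, fun e he => ?_⟩
    rw [fp_e, h6]
    rw [abs_le, abs_le] at hA ⊢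
    simp only
    omega

theorem WD.N_Nr (h : WD P k x y xr q w) : Nr (nN xr y) (wU P k q) := by
  rw [h.e0]
  refine ⟨_, _, rfl, ?_, ?_, fun e he => ?_⟩
  · rw [abs_le]; simp only; omega
  · rw [abs_le]; simp only; omega
  · unfold fp
    rw [off_n, abs_le, abs_le]
    simp only [Prod.fst_add, Prod.snd_add]
    omega

/-- the tile of a free end at the step `i` is near the vertex `i` -/
theorem WD.at_Nr (h : WD P k x y xr q w) {u : Port V} {i : ℕ}
    (hu : AtE (sU P k) (nn P k) q (nN xr y) u i) : Nr u (wU P k i) := by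
  obtain ⟨hi, rfl | ⟨rfl, rfl⟩⟩ := hu
  · exact (step_Nr h.hk i).2
  · exact h.N_Nr



end

end Crest.Agent.R158.Mg949
end
end

-- ▼ part R158/Wq2_290
section

/-!
R158, (Q2) of the frozen interface (helper290), part 2: **`geo2 : Geo2`** and **`q2 : Q2`** (no open
input), over 949's `exists_WD`, `near_idx`, `sect31`, `sect12`.
-/

set_option autoImplicit false

namespace Crest.Agent.R158.Wq290

open Crest.Agent.R158.Tj656
open Crest.Agent.R158.Env664 (D beD mark)
open Crest.Agent.R158.Ob664 (GW HW HV Sect VO)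
open Crest.Agent.R158.Cb771 (LegBox)
open Crest.Agent.R158.Sw300 (Port Wd L Ok)
open Crest.Agent.R158.Q331 (nearE mk)
open Crest.Agent.R158.Sp896 (V)
open Crest.Agent.R158.Bl802 (nN)
open Crest.Agent.R158.Mg949

/-- the sector of an end from its index -/
theorem sec_of {P : P4} {k : ℕ} {x y xr : ℤ} {q : ℕ} {w : Wd V} (h : WD P k x y xr q w) (jj : Fin 4)
    {u : Port V} {i : ℕ} (hu : AtE (sU P k) (nn P k) q (nN xr y) u i)
    (h1 : ja P jj * (2 * k) + 8 ≤ i) (h2 : i + 8 ≤ jb P jj * (2 * k)) :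
    Sec jj (Sw300.pos w) (sU P k (nn P k - 1)) (sU P k (P.md * (2 * k) - 1))
      (sU P k (P.mc * (2 * k) - 1)) u := by
  have hk := h.hk
  have c1 : 1 * (2 * k) ≤ P.mc * (2 * k) :=
    Nat.mul_le_mul_right _ (by have := P.h1; have := P.h2; omega)
  have c2 : P.mb * (2 * k) ≤ P.mc * (2 * k) :=
    Nat.mul_le_mul_right _ (by have := P.h1; have := P.h2; omega)
  have c3 : (P.mc + 1) * (2 * k) ≤ P.md * (2 * k) :=
    Nat.mul_le_mul_right _ (by have := P.h3; omega)
  have c4 : (P.md + 1) * (2 * k) ≤ nn P k := Nat.mul_le_mul_right _ (by have := P.h4; omega)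
  have e3 : (P.mc + 1) * (2 * k) = P.mc * (2 * k) + 2 * k := by ring
  have e4 : (P.md + 1) * (2 * k) = P.md * (2 * k) + 2 * k := by ring
  have s31 := sect31 h.ok h.hL h.hq hu (e := P.mc * (2 * k) - 1) (by omega)
  have s12 := sect12 h.ok h.hL h.hq hu (e := P.md * (2 * k) - 1) (by omega)
  unfold Sec
  rw [s31, s12]
  have key : jj = 0 ∨ jj = 1 ∨ jj = 2 ∨ jj = 3 := by
    fin_cases jj <;> decide
  rcases key with rfl | rfl | rfl | rfl
  · rw [ja_0] at h1
    rw [jb_0] at h2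
    rw [if_pos (Or.inl rfl)]
    omega
  · rw [ja_1] at h1
    rw [jb_1] at h2
    rw [if_pos (Or.inr rfl)]
    omega
  · rw [ja_2] at h1
    rw [jb_2] at h2
    rw [if_neg (by decide), if_pos rfl]
    omega
  · rw [ja_3] at h1
    rw [jb_3] at h2
    rw [if_neg (by decide), if_neg (by decide)]
    omega

/-- **the macroscopic input of `(Q2)`** -/
theorem geo2 : Geo2 := by
  intro P jj b hb
  obtain ⟨ρ1, hρ1, hWD⟩ := exists_WD P hb
  obtain ⟨ρ2, hρ2, k0, hidx⟩ := near_idx P hb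
  refine ⟨min ρ1 ρ2, lt_min hρ1 hρ2, 2 * (k0 : ℤ) + 2, fun Ln hLn hev i j hOm hnear => ?_⟩
  obtain ⟨c, hc⟩ := hev
  obtain ⟨k, hk⟩ : ∃ k : ℕ, (k : ℤ) = c := ⟨c.toNat, Int.toNat_of_nonneg (by omega)⟩
  have hLk : Ln = Lz k := by unfold Lz; push_cast; omega
  subst hLk
  have hk0 : 0 < k := by omega
  have hkk : k0 ≤ k := by omega
  obtain ⟨xr, q, w, hw, hbox⟩ := hWD k hk0 (2 * i) (2 * j) hOm (hnear.trans_le (min_le_left _ _))
  have hLr : (0 : ℝ) < (Lz k : ℝ) := by exact_mod_cast Lz_pos hk0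
  have m0 : mk P (Lz k) 0 = sU P k (nn P k - 1) := mark0 P hk0
  have m1 : mk P (Lz k) 1 = sU P k (P.md * (2 * k) - 1) := markD P hk0
  have m2 : mk P (Lz k) 2 = sU P k (P.mc * (2 * k) - 1) := markC P hk0
  rw [m0, m1, m2]
  refine ⟨xr, w, hw.gw, hw.hd, hbox, fun Rd hRd u hu hun => ?_⟩
  obtain ⟨e, he⟩ := (mem_L hw.ok hw.hL hw.hq).1 hu
  obtain ⟨t, d, hut, g1, g2⟩ := hun
  obtain ⟨t', d', hut', g3, g4, -⟩ := hw.at_Nr he
  rw [hut, Option.some.injEq, Prod.mk.injEq] at hut'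
  obtain ⟨rfl, -⟩ := hut'
  rw [abs_le] at g1 g2 g3 g4
  have hRd2 : (Rd : ℝ) ≤ ρ2 * Lz k :=
    hRd.trans (mul_le_mul_of_nonneg_right (min_le_right _ _) hLr.le)
  obtain ⟨h1, h2⟩ := hidx k hk0 hkk (2 * i) (2 * j) (hnear.trans_le (min_le_right _ _)) Rd hRd2 e
    he.1.le (by rw [abs_le]; omega) (by rw [abs_le]; omega)
  exact sec_of hw jj he h1 h2

/-- **`(Q2)` of the frozen interface** -/
theorem q2 : Q2 := q2_of geo2

end Crest.Agent.R158.Wq290
end

-- ▼ part R158/Q3b_331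
section

/-!
# R158 (helper331), Q3m / Q3p, part 2: hypotheses of the cores from index data

Over helper949's positions (Mg1): `U` boundary walk, base at the middle of the edge `0`.

* `pt_face`, `nN_face`, `gap_face` : the face of the gap `g` is near the vertex `U (vx g)`
* `near_step` : a near end is at a step near `z`
* **`H3m_of`, `H3p_of`** : hypotheses of the cores of block CB
* `M3_of` : the marks are distinct
-/

set_option autoImplicit false

noncomputable section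

namespace Crest.Agent.R158.Q331

open Crest.Agent.R161.Geo729 (P2)
open Crest.Agent.R158.Cb771 (off gc NearZ FarT InS)
open Crest.Agent.R158.Env664
open Crest.Agent.R158.Tj656 (Nk)
open Crest.Agent.R158.Sw300 (Port Wd L)
open Crest.Agent.R158.Al194 (rotl idL mem_rotl rotl_length)
open Crest.Agent.R158.Bl802 (pt nN)
open Crest.Agent.R158.Mg949 (LG pu vx AtE st LG_length LG_step LG_N pos_cases rotl_LG idL_step le_idL)
open Crest.Agent.R158.Sp896 (V Adj)

/-- face and tile of a step -/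
theorem pt_face {a b : V} (h : Adj a b) : ∃ t d, pt a b = some (t, d) ∧
    t + off d = (b.1 - 1, b.2 - 1) ∧ (a.1 - 1 ≤ t.1 ∧ t.1 ≤ a.1 + 1) ∧
      (a.2 - 1 ≤ t.2 ∧ t.2 ≤ a.2 + 1) := by
  obtain ⟨a1, a2⟩ := a
  obtain ⟨b1, b2⟩ := b
  unfold Adj at h
  simp only at h
  rcases h with ⟨h1, h2⟩ | ⟨h1, h2⟩ | ⟨h1, h2⟩ | ⟨h1, h2⟩
  · subst h1 h2
    refine ⟨_, _, Bl802.pt_E a1 b2, ?_, by simp only; omega, by simp only; omega⟩
    have : off (3 : ZMod 4) = (0, -1) := by decide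
    rw [this]; ext <;> simp only [Prod.fst_add, Prod.snd_add] <;> omega
  · subst h1 h2
    refine ⟨_, _, Bl802.pt_W a1 b2, ?_, by simp only; omega, by simp only; omega⟩
    have : off (1 : ZMod 4) = (-1, 0) := by decide
    rw [this]; ext <;> simp only [Prod.fst_add, Prod.snd_add] <;> omega
  · subst h1 h2
    refine ⟨_, _, Bl802.pt_N b1 a2, ?_, by simp only; omega, by simp only; omega⟩
    have : off (2 : ZMod 4) = (0, 0) := by decide
    rw [this]; ext <;> simp only [Prod.fst_add, Prod.snd_add] <;> omega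
  · subst h1 h2
    refine ⟨_, _, Bl802.pt_S b1 a2, ?_, by simp only; omega, by simp only; omega⟩
    have : off (0 : ZMod 4) = (-1, -1) := by decide
    rw [this]; ext <;> simp only [Prod.fst_add, Prod.snd_add] <;> omega

/-- face and tile of the extra end -/
theorem nN_face (xr y0 : ℤ) : ∃ t d, nN xr y0 = some (t, d) ∧ t + off d = (xr - 1, y0 - 1) ∧
    t = (xr, y0 - 1) := by
  refine ⟨_, _, rfl, ?_, rfl⟩
  have : off (1 : ZMod 4) = (-1, 0) := by decide
  rw [this]; ext <;> simp only [Prod.fst_add, Prod.snd_add] <;> omega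

/-- the walk with the list of the free ends of a region with leg -/
structure WL (n q : ℕ) (U : ℕ → V) (xr y0 : ℤ) (w : Wd V) : Prop where
  ok : Sw300.Ok w
  rot : L w ~r LG (st U) n q (nN xr y0)
  hq : q < n
  per : ∀ i, U (i + n) = U i
  step : ∀ i, Adj (U i) (U (i + 1))
  vq : U q = (xr + 1, y0)

section

variable {n q : ℕ} {U : ℕ → V} {xr y0 : ℤ} {w : Wd V}

/-- indices with the instance of `ℤ × ℤ` -/
theorem idx_eq (w : Wd (ℤ × ℤ)) (m x : Port (ℤ × ℤ)) :
    (Al194.rotl (L w) m).idxOf x = idL (L w) m x := by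
  unfold idL
  congr!

/-- the list read from the first mark -/
theorem WL.rotl (H : WL n q U xr y0 w) :
    Al194.rotl (L w) (st U (n - 1)) = LG (st U) n q (nN xr y0) := by
  have h := rotl_LG H.ok H.rot H.hq
  rw [← h]
  congr!

/-- an end at a gap: tile near its vertex, face near the vertex of the gap -/
theorem WL.end_at (H : WL n q U xr y0 w) {g : ℕ} (hg : g < n + 1) :
    ∃ t d, (LG (st U) n q (nN xr y0)).getD g none = some (t, d) ∧
      (∃ i < n, (i = vx n q g ∨ i + 1 = vx n q g) ∧ ((U i).1 - 1 ≤ t.1 ∧ t.1 ≤ (U i).1 + 1 ∧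
        (U i).2 - 1 ≤ t.2 ∧ t.2 ≤ (U i).2 + 1)) ∧
      ((U (vx n q g)).1 - 2 ≤ (t + off d).1 ∧ (t + off d).1 ≤ (U (vx n q g)).1 ∧
        (U (vx n q g)).2 - 2 ≤ (t + off d).2 ∧ (t + off d).2 ≤ (U (vx n q g)).2) := by
  rcases pos_cases H.hq hg with ⟨i, hi, e1, e2⟩ | ⟨e1, e2⟩
  · obtain ⟨t, d, h1, h2, h3, h4⟩ := pt_face (H.step i)
    refine ⟨t, d, ?_, ⟨i, hi, Or.inr e2.symm, by omega⟩, ?_⟩
    · rw [e1, LG_step H.hq hi]; exact h1
    · rw [e2, h2]; simp only; omega
  · obtain ⟨t, d, h1, h2, h3⟩ := nN_face xr y0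
    refine ⟨t, d, ?_, ⟨q, H.hq, Or.inl e2.symm, ?_⟩, ?_⟩
    · rw [e1, LG_N]; exact h1
    · rw [H.vq, h3]; simp only; omega
    · rw [e2, h2, H.vq]; simp only; omega

/-- the face of a gap -/
theorem WL.gap_face (H : WL n q U xr y0 w) {g : ℕ} (hg : g ≤ n + 1) {t : ℤ × ℤ} {d : ZMod 4}
    (h : gc (LG (st U) n q (nN xr y0)) g = some (t, d)) :
    (U (vx n q g)).1 - 2 ≤ (t + off d).1 ∧ (t + off d).1 ≤ (U (vx n q g)).1 ∧
      (U (vx n q g)).2 - 2 ≤ (t + off d).2 ∧ (t + off d).2 ≤ (U (vx n q g)).2 := by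
  unfold gc at h
  rw [LG_length H.hq] at h
  rcases Nat.lt_or_ge g (n + 1) with h1 | h1
  · rw [Nat.mod_eq_of_lt h1] at h
    obtain ⟨t', d', e1, -, e2⟩ := H.end_at h1
    rw [e1, Gc748.lc_some] at h
    simp only [Option.some.injEq, Prod.mk.injEq] at h
    obtain ⟨rfl, rfl⟩ := h
    exact e2
  · have hg1 : g = n + 1 := by omega
    subst hg1
    rw [Nat.mod_self] at h
    obtain ⟨t', d', e1, -, e2⟩ := H.end_at (g := 0) (by omega)
    rw [e1, Gc748.lc_some] at h
    simp only [Option.some.injEq, Prod.mk.injEq] at h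
    obtain ⟨rfl, rfl⟩ := h
    have hq := H.hq
    have v0 : vx n q 0 = n := by unfold vx; split_ifs <;> omega
    have v1 : vx n q (n + 1) = 0 := by unfold vx; split_ifs <;> omega
    rw [v0] at e2
    rw [v1]
    have := H.per 0
    rw [zero_add] at this
    rwa [this] at e2

/-- the face of an end at a gap -/
theorem WL.get_face (H : WL n q U xr y0 w) {g : ℕ} (hg : g < n + 1) {t : ℤ × ℤ} {d : ZMod 4}
    (h : (LG (st U) n q (nN xr y0)).getD g none = some (t, d)) :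
    (U (vx n q g)).1 - 2 ≤ (t + off d).1 ∧ (t + off d).1 ≤ (U (vx n q g)).1 ∧
      (U (vx n q g)).2 - 2 ≤ (t + off d).2 ∧ (t + off d).2 ≤ (U (vx n q g)).2 := by
  obtain ⟨t', d', e1, -, e2⟩ := H.end_at hg
  rw [e1] at h
  simp only [Option.some.injEq, Prod.mk.injEq] at h
  obtain ⟨rfl, rfl⟩ := h
  exact e2

/-- an end of the list is at a step next to its tile -/
theorem WL.at_step (H : WL n q U xr y0 w) {x : Port V} (hx : x ∈ L w) :
    ∃ i t d, AtE (st U) n q (nN xr y0) x i ∧ x = some (t, d) ∧ ((U i).1 - 1 ≤ t.1 ∧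
      t.1 ≤ (U i).1 + 1 ∧ (U i).2 - 1 ≤ t.2 ∧ t.2 ≤ (U i).2 + 1) := by
  obtain ⟨i, hi⟩ := (Mg949.mem_L H.ok H.rot H.hq).1 hx
  obtain ⟨hin, rfl | ⟨rfl, rfl⟩⟩ := id hi
  · obtain ⟨t, d, h1, h2, h3, h4⟩ := pt_face (H.step i)
    exact ⟨i, t, d, hi, h1, by omega⟩
  · obtain ⟨t, d, h1, h2, h3⟩ := nN_face xr y0
    refine ⟨i, t, d, hi, h1, ?_⟩
    rw [H.vq, h3]; simp only; omega

/-- a near end is at a near step -/
theorem WL.near_step (H : WL n q U xr y0 w) {x : Port V} (hx : x ∈ L w) {p y : ℤ} {Rd : ℕ}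
    (hn : NearZ p y Rd x) : ∃ i, AtE (st U) n q (nN xr y0) x i ∧
      |(U i).1 - p| ≤ (Rd : ℤ) + 8 ∧ |(U i).2 - y| ≤ (Rd : ℤ) + 8 := by
  obtain ⟨i, t, d, h1, rfl, h2⟩ := H.at_step hx
  obtain ⟨t', d', e, h3, h4⟩ := hn
  simp only [Option.some.injEq, Prod.mk.injEq] at e
  obtain ⟨rfl, rfl⟩ := e
  refine ⟨i, h1, ?_, ?_⟩
  · rw [abs_le] at h3 ⊢; omega
  · rw [abs_le] at h4 ⊢; omega

theorem WL.marks (H : WL n q U xr y0 w) {e2 e3 : ℕ} (h32 : e3 < e2) (h2 : e2 + 1 < n) :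
    M3 w (st U (n - 1)) (st U e2) (st U e3) := by
  have m : ∀ e < n, st U e ∈ L w := fun e he =>
    (Mg949.mem_L H.ok H.rot H.hq).2 ⟨e, he, Or.inl rfl⟩
  have hq := H.hq
  have ne : ∀ e < n, ∀ e' < n, e < e' → st U e ≠ st U e' := by
    intro e he e' he' hlt heq
    have h3 := idL_step H.ok H.rot H.hq he
    have h4 := idL_step H.ok H.rot H.hq he'
    rw [heq, h4] at h3
    unfold pu at h3
    split_ifs at h3 <;> omega
  exact ⟨m _ (by omega), m _ (by omega), m _ (by omega), (ne _ (by omega) _ (by omega) (by omega)).symm,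
    (ne _ (by omega) _ (by omega) (by omega)).symm, (ne _ (by omega) _ (by omega) (by omega)).symm⟩

/-- a face near a point of `S` -/
theorem fpos_mem {S : Set P2} {v : V} (hv : v ∈ S) {t : ℤ × ℤ} {d : ZMod 4}
    (h : v.1 - 2 ≤ (t + off d).1 ∧ (t + off d).1 ≤ v.1 ∧ v.2 - 2 ≤ (t + off d).2 ∧
      (t + off d).2 ≤ v.2) {e : ℤ} (he : e = 0 ∨ e = 1) :
    ((t.1 - e, t.2) + off d : P2) ∈ Nk 3 S := by
  simp only [Prod.fst_add, Prod.snd_add] at h
  refine ⟨v, hv, ?_, ?_⟩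
  · simp only [Prod.fst_add, abs_le]
    omega
  · simp only [Prod.snd_add, abs_le]
    omega

theorem tile_mem {D : Finset (ℤ × ℤ)} {S : Set P2} (hD : ∀ t ∈ D, t ∈ S) {t : ℤ × ℤ} (ht : t ∈ D)
    {e : ℤ} (he : e = 0 ∨ e = 1) : ((t.1 - e, t.2) : P2) ∈ Nk 3 S := by
  refine ⟨t, hD t ht, ?_, ?_⟩
  · simp only [abs_le]; omega
  · simp

/-- **hypotheses of the core of `Q3m`** : marks `n - 1`, `a2 - 1`, `a3 - 1`; leg end near the arc
`[0, a1]` -/
theorem H3m_of (H : WL n q U xr y0 w) {D : Finset (ℤ × ℤ)} {p y : ℤ} {Rd a1 a3 a2 : ℕ}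
    {F A0 A2 : Set P2} (h13 : a1 < a3) (h32 : a3 < a2) (h2n : a2 < n)
    (g4 : ∀ i < n, |(U i).1 - p| ≤ (Rd : ℤ) + 8 → |(U i).2 - y| ≤ (Rd : ℤ) + 8 → i + 2 ≤ a1)
    (hD : ∀ t ∈ D, t ∈ F) (s0 : ∀ i ≤ a1, U i ∈ A0) (s1 : ∀ i, a3 ≤ i → i ≤ a2 → U i ∈ A2) :
    H3m D p y (rotl (L w) (st U (n - 1))) ((rotl (L w) (st U (n - 1))).idxOf (st U (a2 - 1)))
      ((rotl (L w) (st U (n - 1))).idxOf (st U (a3 - 1))) Rd (fun t => t ∈ Nk 3 F) (Nk 3 A0)
      (Nk 3 A2) := by
  have hq := H.hq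
  have i2 := idL_step H.ok H.rot hq (i := a2 - 1) (by omega)
  have i3 := idL_step H.ok H.rot hq (i := a3 - 1) (by omega)
  have hlen : (Al194.rotl (L w) (st U (n - 1))).length = n + 1 := by rw [H.rotl, LG_length hq]
  have l2 : (Al194.rotl (L w) (st U (n - 1))).idxOf (st U (a2 - 1)) = pu n q (a2 - 1) := by
    rw [idx_eq]; exact i2
  have l3 : (Al194.rotl (L w) (st U (n - 1))).idxOf (st U (a3 - 1)) = pu n q (a3 - 1) := by
    rw [idx_eq]; exact i3
  have hv : ∀ h, pu n q (a2 - 1) ≤ h → h ≤ pu n q (a3 - 1) →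
      h < n + 1 ∧ a3 ≤ vx n q h ∧ vx n q h ≤ a2 := by
    intro h h1 h2
    have h3 := Mg949.vx_ge H.ok H.rot hq (e := a3 - 1) (g := h) (by omega) (by rw [i3]; exact h2)
    have h4 := Mg949.vx_le H.ok H.rot hq (e := a2 - 1) (g := h) (by omega) (by rw [i2]; exact h1)
    have h5 := Mg949.pu_lt hq (i := a3 - 1) (n := n) (by omega)
    omega
  rw [l2, l3]
  refine ⟨?_, ?_, ?_, ?_, ?_, ?_⟩
  · unfold pu; split_ifs <;> omega
  · intro u hu hn
    obtain ⟨i, h1, h2, h3⟩ := H.near_step (mem_rotl.1 hu) hn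
    have h4 := g4 i h1.1 h2 h3
    have h5 := (le_idL H.ok H.rot hq h1 (e := a3 - 1) (by omega)).2 (by omega)
    rw [i3] at h5
    rw [idx_eq]
    exact h5
  · intro h h1 h2
    obtain ⟨k1, k2, k3⟩ := hv h h1 h2
    obtain ⟨t, d, e1, ⟨i, e2, e3, e4⟩, -⟩ := H.end_at k1
    refine ⟨t, d, by rw [H.rotl]; exact e1, ?_⟩
    by_contra hc
    unfold FarT at hc
    push Not at hc
    rw [abs_le, abs_le] at hc
    have := g4 i e2 (by rw [abs_le]; omega) (by rw [abs_le]; omega)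
    omega
  · intro u hu hn g h1 h2 t d h3 e he
    rw [hlen] at h2
    rw [idx_eq] at h1
    obtain ⟨i, k1, k2, k3⟩ := H.near_step (mem_rotl.1 hu) hn
    have h4 := g4 i k1.1 k2 k3
    have h5 := Mg949.vx_le_of_lt H.ok H.rot hq k1 h1 h2
    rw [H.rotl] at h3
    exact fpos_mem (s0 _ (by omega)) (H.gap_face h2 h3) he
  · intro h h1 h2 t d h3 e he
    obtain ⟨k1, k2, k3⟩ := hv h h1 h2
    rw [H.rotl] at h3
    exact fpos_mem (s1 _ k2 k3) (H.get_face k1 h3) he
  · intro t ht e he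
    exact tile_mem hD ht he

/-- **hypotheses of the core of `Q3p`** : marks `n - 1`, `a2 - 1`, `a3 - 1`; leg end near the arc
`[a1, a3]` -/
theorem H3p_of (H : WL n q U xr y0 w) {D : Finset (ℤ × ℤ)} {p y : ℤ} {Rd a1 a3 a2 : ℕ}
    {F A1 A3 : Set P2} (h13 : a1 < a3) (h32 : a3 < a2) (h2n : a2 < n)
    (g4 : ∀ i < n, |(U i).1 - p| ≤ (Rd : ℤ) + 8 → |(U i).2 - y| ≤ (Rd : ℤ) + 8 →
      a1 ≤ i ∧ i + 2 ≤ a3)
    (hD : ∀ t ∈ D, t ∈ F) (s0 : ∀ i, a1 ≤ i → i ≤ a3 → U i ∈ A1) (s1 : ∀ i, a2 ≤ i → i ≤ n → U i ∈ A3) :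
    H3p D p y (rotl (L w) (st U (n - 1))) ((rotl (L w) (st U (n - 1))).idxOf (st U (a2 - 1)))
      ((rotl (L w) (st U (n - 1))).idxOf (st U (a3 - 1))) Rd (fun t => t ∈ Nk 3 F) (Nk 3 A1)
      (Nk 3 A3) := by
  have hq := H.hq
  have i2 := idL_step H.ok H.rot hq (i := a2 - 1) (by omega)
  have i3 := idL_step H.ok H.rot hq (i := a3 - 1) (by omega)
  have hlen : (Al194.rotl (L w) (st U (n - 1))).length = n + 1 := by rw [H.rotl, LG_length hq]
  have l2 : (Al194.rotl (L w) (st U (n - 1))).idxOf (st U (a2 - 1)) = pu n q (a2 - 1) := by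
    rw [idx_eq]; exact i2
  have l3 : (Al194.rotl (L w) (st U (n - 1))).idxOf (st U (a3 - 1)) = pu n q (a3 - 1) := by
    rw [idx_eq]; exact i3
  have hv : ∀ h, h ≤ pu n q (a2 - 1) → h < n + 1 ∧ a2 ≤ vx n q h ∧ vx n q h ≤ n := by
    intro h h2
    have h3 := Mg949.vx_ge H.ok H.rot hq (e := a2 - 1) (g := h) (by omega) (by rw [i2]; exact h2)
    have h5 := Mg949.pu_lt hq (i := a2 - 1) (n := n) (by omega)
    refine ⟨by omega, by omega, ?_⟩
    unfold vx; split_ifs <;> omega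
  rw [l2, l3]
  refine ⟨?_, ?_, ?_, ?_, ?_, ?_⟩
  · unfold pu; split_ifs <;> omega
  · intro u hu hn
    obtain ⟨i, h1, h2, h3⟩ := H.near_step (mem_rotl.1 hu) hn
    have h4 := g4 i h1.1 h2 h3
    have h5 := (le_idL H.ok H.rot hq h1 (e := a3 - 1) (by omega)).2 (by omega)
    rw [i3] at h5
    rw [idx_eq]
    exact h5
  · intro h h2
    obtain ⟨k1, k2, k3⟩ := hv h h2
    obtain ⟨t, d, e1, ⟨i, e2, e3, e4⟩, -⟩ := H.end_at k1
    refine ⟨t, d, by rw [H.rotl]; exact e1, ?_⟩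
    by_contra hc
    unfold FarT at hc
    push Not at hc
    rw [abs_le, abs_le] at hc
    have := g4 i e2 (by rw [abs_le]; omega) (by rw [abs_le]; omega)
    omega
  · intro u hu hn h h1 h2 t d h3 e he
    rw [idx_eq] at h2
    obtain ⟨i, k1, k2, k3⟩ := H.near_step (mem_rotl.1 hu) hn
    have h4 := g4 i k1.1 k2 k3
    have h5 := Mg949.vx_ge_of_le H.ok H.rot hq k1 h2
    have h6 := Mg949.vx_le H.ok H.rot hq (e := a3 - 1) (g := h) (by omega) (by rw [i3]; exact h1)
    have h7 : idL (L w) (st U (n - 1)) u < (L w).length := Al194.idL_lt (mem_rotl.1 hu)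
    rw [Mg949.length_L H.ok H.rot hq] at h7
    rw [H.rotl] at h3
    exact fpos_mem (s0 _ (by omega) (by omega)) (H.get_face (by omega) h3) he
  · intro h h2 t d h3 e he
    obtain ⟨k1, k2, k3⟩ := hv h h2
    rw [H.rotl] at h3
    exact fpos_mem (s1 _ k2 k3) (H.get_face k1 h3) he
  · intro t ht e he
    exact tile_mem hD ht he

end

end Crest.Agent.R158.Q331
end
end

-- ▼ part R158/Q3c_331
section

/-!
# R158 (helper331), Q3m / Q3p, part 3: final assembly over helper949's `WD`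

* `av` : the marked edges; `wU_arc` : the vertices with index in `[m0 L, m1 L]` lie on the boundary
  edges `m0 ≤ m ≤ m1`
* `G4 j` : near a flat point of the arc `j` all vertices of the walk have indices of the arc `j`
* `wl_of` : `WD` gives `WL`
* **`geo3m`**, **`geo3p`**, **`q3m_of_g4`**, **`q3p_of_g4`**
-/

set_option autoImplicit false

noncomputable section

namespace Crest.Agent.R158.Q331

open Crest.Agent.R161.Geo729 (P2)
open Crest.Agent.R158.Env664
open Crest.Agent.R158.Tj656 (P4 DT Nk arcT mpos Q3m Q3p)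
open Crest.Agent.R158.Sw300 (Port Wd L)
open Crest.Agent.R158.Bl802 (pt nN sv sv_mk)
open Crest.Agent.R158.Mg949 (LG st nn Lz wU cycU sU WD exists_WD mark0 markD markC Lz_pos)
open Crest.Agent.R158.Sp896 (V Adj Cyc)

/-- the marked edges and the number of edges -/
def av (P : P4) (j : Fin 5) : ℕ := ![0, P.mb, P.mc, P.md, P.N] j

theorem wU_arc (P : P4) {k : ℕ} (hk : 0 < k) {m0 m1 i : ℕ} (h0 : m0 * (2 * k) ≤ i)
    (h1 : i ≤ m1 * (2 * k)) : wU P k i ∈ arcT (Lz k) P.v m0 m1 := by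
  obtain ⟨e, r, hr, hi⟩ := Bl802.idx (by omega : 0 < 2 * k) (i + k)
  have hk0 : m0 ≤ e := by
    by_contra hc
    have : (e + 1) * (2 * k) ≤ m0 * (2 * k) := Nat.mul_le_mul_right _ (by omega)
    have e : (e + 1) * (2 * k) = e * (2 * k) + 2 * k := by ring
    omega
  have hk1 : e ≤ m1 := by
    by_contra hc
    have : (m1 + 1) * (2 * k) ≤ e * (2 * k) := Nat.mul_le_mul_right _ (by omega)
    have e : (m1 + 1) * (2 * k) = m1 * (2 * k) + 2 * k := by ring
    omega
  refine ⟨e, r, hk0, hk1, by omega, by unfold Lz; omega, ?_⟩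
  unfold wU
  rw [hi, sv_mk hr]

theorem D_sub (P : P4) {k : ℕ} (hk : 0 < k) : ∀ t ∈ D P.F (Lz k), t ∈ DT (↑P.F) (Lz k) := by
  intro t ht
  rw [mem_D (Lz_pos hk)] at ht
  exact ht

/-- **(G4)** near a flat point of the arc `j` the vertices of the boundary walk have indices of the
arc `j` -/
def G4 (j : Fin 4) : Prop := ∀ P : P4, ∀ b ∈ P.hA j, ∃ ρ : ℝ, 0 < ρ ∧ ∃ K0 : ℕ, ∀ k : ℕ, K0 ≤ k →
  ∀ x y : ℤ, ‖mpos (Lz k) x y - b‖ < ρ → ∀ Rd : ℕ, (Rd : ℝ) ≤ ρ * Lz k → ∀ i < nn P k,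
    |(wU P k i).1 - x| ≤ (Rd : ℤ) + 8 → |(wU P k i).2 - y| ≤ (Rd : ℤ) + 8 →
      av P j.castSucc * (2 * k) + 8 ≤ i ∧ i + 8 ≤ av P j.succ * (2 * k)

/-- the list of a good word -/
theorem wl_of {P : P4} {k : ℕ} {x y xr : ℤ} {q : ℕ} {w : Wd V} (h : WD P k x y xr q w) :
    WL (nn P k) q (wU P k) xr y w :=
  ⟨h.ok, h.hL, h.hq, (cycU P h.hk).per, (cycU P h.hk).step, h.e0⟩

/-- macro geometry near the arc `0` -/
theorem geo3m (g4 : G4 0) : Geo3m 3 := by
  intro P b hb
  obtain ⟨ρ1, hρ1, hW⟩ := exists_WD P hb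
  obtain ⟨ρ2, hρ2, K0, hG⟩ := g4 P b hb
  refine ⟨min ρ1 ρ2, lt_min hρ1 hρ2, 2 * K0 + 2, fun Ln hLn hev i j hOm hnear => ?_⟩
  obtain ⟨k, rfl⟩ : ∃ k : ℕ, Ln = Lz k := by
    obtain ⟨c, hc⟩ := hev
    exact ⟨c.toNat, by unfold Lz; omega⟩
  have hk : 0 < k := by unfold Lz at hLn; omega
  have hkK : K0 ≤ k := by unfold Lz at hLn; omega
  obtain ⟨xr, q, w, hw, hLB⟩ := hW k hk (2 * i) (2 * j) hOm (hnear.trans_le (min_le_left _ _))
  have hwl := wl_of hw
  have e0 : mk P (Lz k) 0 = sU P k (nn P k - 1) := mark0 P hk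
  have e1 : mk P (Lz k) 1 = sU P k (P.md * (2 * k) - 1) := markD P hk
  have e2 : mk P (Lz k) 2 = sU P k (P.mc * (2 * k) - 1) := markC P hk
  have h1 := P.h1
  have h2 : P.mb * (2 * k) + 2 * k ≤ P.mc * (2 * k) := by
    have := Nat.mul_le_mul_right (2 * k) (show P.mb + 1 ≤ P.mc from P.h2)
    rwa [add_mul, one_mul] at this
  have h3 : P.mc * (2 * k) + 2 * k ≤ P.md * (2 * k) := by
    have := Nat.mul_le_mul_right (2 * k) (show P.mc + 1 ≤ P.md from P.h3)
    rwa [add_mul, one_mul] at this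
  have h4 : P.md * (2 * k) + 2 * k ≤ nn P k := by
    have := Nat.mul_le_mul_right (2 * k) (show P.md + 1 ≤ P.N from P.h4)
    rwa [add_mul, one_mul] at this
  have h5 : 2 * k ≤ P.mc * (2 * k) := Nat.le_mul_of_pos_left _ (by have := P.h2; omega)
  refine ⟨xr, w, hw.gw, ?_, ?_, hLB, ?_⟩
  · rw [e0, e1, e2]; exact hw.hd
  · rw [e0, e1, e2]
    exact hwl.marks (by omega) (by omega)
  · intro Rd hRd
    rw [e0, e1, e2]
    have hLp : (0 : ℝ) < ((Lz k : ℤ) : ℝ) := by exact_mod_cast Lz_pos hk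
    refine H3m_of hwl (a1 := P.mb * (2 * k)) (a3 := P.mc * (2 * k)) (a2 := P.md * (2 * k))
      (by omega) (by omega) (by omega) (fun i' hi' a1 a2 => ?_) (D_sub P hk)
      (fun i' hi' => wU_arc P hk (by omega) hi') (fun i' hi' hi'' => wU_arc P hk hi' hi'')
    have := hG k hkK (2 * i) (2 * j) (hnear.trans_le (min_le_right _ _)) Rd
      (hRd.trans (mul_le_mul_of_nonneg_right (min_le_right _ _) hLp.le)) i' hi' a1 a2
    have h6 : av P (Fin.succ (0 : Fin 4)) = P.mb := rfl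
    rw [h6] at this
    omega

/-- macro geometry near the arc `1` -/
theorem geo3p (g4 : G4 1) : Geo3p 3 := by
  intro P b hb
  obtain ⟨ρ1, hρ1, hW⟩ := exists_WD P hb
  obtain ⟨ρ2, hρ2, K0, hG⟩ := g4 P b hb
  refine ⟨min ρ1 ρ2, lt_min hρ1 hρ2, 2 * K0 + 2, fun Ln hLn hev i j hOm hnear => ?_⟩
  obtain ⟨k, rfl⟩ : ∃ k : ℕ, Ln = Lz k := by
    obtain ⟨c, hc⟩ := hev
    exact ⟨c.toNat, by unfold Lz; omega⟩
  have hk : 0 < k := by unfold Lz at hLn; omega
  have hkK : K0 ≤ k := by unfold Lz at hLn; omega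
  obtain ⟨xr, q, w, hw, hLB⟩ := hW k hk (2 * i) (2 * j) hOm (hnear.trans_le (min_le_left _ _))
  have hwl := wl_of hw
  have e0 : mk P (Lz k) 0 = sU P k (nn P k - 1) := mark0 P hk
  have e1 : mk P (Lz k) 1 = sU P k (P.md * (2 * k) - 1) := markD P hk
  have e2 : mk P (Lz k) 2 = sU P k (P.mc * (2 * k) - 1) := markC P hk
  have h1 := P.h1
  have h2 : P.mb * (2 * k) + 2 * k ≤ P.mc * (2 * k) := by
    have := Nat.mul_le_mul_right (2 * k) (show P.mb + 1 ≤ P.mc from P.h2)
    rwa [add_mul, one_mul] at this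
  have h3 : P.mc * (2 * k) + 2 * k ≤ P.md * (2 * k) := by
    have := Nat.mul_le_mul_right (2 * k) (show P.mc + 1 ≤ P.md from P.h3)
    rwa [add_mul, one_mul] at this
  have h4 : P.md * (2 * k) + 2 * k ≤ nn P k := by
    have := Nat.mul_le_mul_right (2 * k) (show P.md + 1 ≤ P.N from P.h4)
    rwa [add_mul, one_mul] at this
  have h5 : 2 * k ≤ P.mc * (2 * k) := Nat.le_mul_of_pos_left _ (by have := P.h2; omega)
  refine ⟨xr, w, hw.gw, ?_, ?_, hLB, ?_⟩
  · rw [e0, e1, e2]; exact hw.hd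
  · rw [e0, e1, e2]
    exact hwl.marks (by omega) (by omega)
  · intro Rd hRd
    rw [e0, e1, e2]
    have hLp : (0 : ℝ) < ((Lz k : ℤ) : ℝ) := by exact_mod_cast Lz_pos hk
    refine H3p_of hwl (a1 := P.mb * (2 * k)) (a3 := P.mc * (2 * k)) (a2 := P.md * (2 * k))
      (by omega) (by omega) (by omega) (fun i' hi' a1 a2 => ?_) (D_sub P hk)
      (fun i' hi' hi'' => wU_arc P hk hi' hi'') (fun i' hi' hi'' => wU_arc P hk hi' hi'')
    have := hG k hkK (2 * i) (2 * j) (hnear.trans_le (min_le_right _ _)) Rd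
      (hRd.trans (mul_le_mul_of_nonneg_right (min_le_right _ _) hLp.le)) i' hi' a1 a2
    have h6 : av P (Fin.succ (1 : Fin 4)) = P.mc := rfl
    have h7 : av P (Fin.castSucc (1 : Fin 4)) = P.mb := rfl
    rw [h6, h7] at this
    omega

/-- **`Q3m` from (G4)** -/
theorem q3m_of_g4 (g4 : G4 0) : Q3m := q3m_of (geo3m g4)

/-- **`Q3p` from (G4)** -/
theorem q3p_of_g4 (g4 : G4 1) : Q3p := q3p_of (geo3p g4)

end Crest.Agent.R158.Q331
end
end

-- ▼ part R158/Q3e_331

/-!
# R158 (helper331): **`Q3m`** and **`Q3p`** of the frozen interface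

Inputs: cores of block CB (helper771), macro geometry (helper949), boundary list (helper802).
-/

set_option autoImplicit false

namespace Crest.Agent.R158.Q331

open Crest.Agent.R158.Tj656 (P4 mpos Q3m Q3p)
open Crest.Agent.R158.Mg949 (nn Lz wU near_idx ja jb)

/-- **(G4)** for every arc -/
theorem g4 (j : Fin 4) : G4 j := by
  intro P b hb
  obtain ⟨ρ, hρ, k0, h⟩ := near_idx P hb
  refine ⟨ρ, hρ, k0 + 1, fun k hk x y hn Rd hRd i hi h1 h2 => ?_⟩
  have h3 := h k (by omega) (by omega) x y hn Rd hRd i hi.le h1 h2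
  have e1 : ja P j = av P j.castSucc := by
    fin_cases j <;> simp [av] <;> rfl
  have e2 : jb P j = av P j.succ := by
    fin_cases j <;> simp [av] <;> rfl
  rwa [e1, e2] at h3

/-- **(Q3-)** -/
theorem q3m : Q3m := q3m_of_g4 (g4 0)

/-- **(Q3+)** -/
theorem q3p : Q3p := q3p_of_g4 (g4 1)

end Crest.Agent.R158.Q331
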