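import Crest.Agent.R158.Dp3_109_Mg
import Crest.Agent.R158.Cw4_161
import Crest.Agent.R158.Mg1_949
import Crest.Agent.R158.Xr14_249
import Crest.Agent.R158.Oc5_194_Mg
import Crest.Agent.R158.Fm3_857
import Crest.Agent.R158.Cq1_410
import Crest.Agent.R158.Hw1_949
import Crest.Agent.R158.Cn1_161
import Crest.Agent.R158.Qf1_405

-- ▼ part R158/Dp4_440
section

/-!
# R158 (helper440), dropped part of the mark sum, 4: the blocks of a window

* `win_dec` : the free ends of a region with a window: far part, wall, inner part, wall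
* `Sm_zero_dec` : an arc between the two walls kills the middle phases of the inner part
* `not_mid` : the inner part of a window round `m1` has no end between `m2` and `m3`
-/

set_option autoImplicit false

namespace Crest.Agent.R158.Dp440

open Crest.Agent.R158.Sw300 (Port Wd L M u Ok tls nodup)
open Crest.Agent.R158.Al194 Crest.Agent.R158.Cw161
open Crest.Agent.R158.Sl434 (Pair Loc ChA pm Fp Ap some_Fp some_Ap)
open Crest.Agent.R158.Ob664 (GW HW Gl)
open Crest.Agent.R158.Xr249 (Nx Reg)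

/-! ### blocks -/

section blocks

variable {α : Type*} [BEq α] [LawfulBEq α]

lemma idx_app_lt {P Q : List α} (h : (P ++ Q).Nodup) {x y : α} (hx : x ∈ P) (hy : y ∈ Q) :
    (P ++ Q).idxOf x < (P ++ Q).idxOf y := by
  have hyP : y ∉ P := fun h' => (List.nodup_append.1 h).2.2 y h' y hy rfl
  rw [List.idxOf_append_of_mem hx, List.idxOf_append_of_notMem hyP]
  have := List.idxOf_lt_length_of_mem hx
  omega

end blocks

/-! ### blocks of the list of ends (any tiles) -/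

section generic

variable {T : Type*} [DecidableEq T] {w : Wd T} {s : T → Bool} {A' Z1 D Z2 : List (Port T)}

/-- the list read from an element of the first block -/
theorem rotl_first (ok : Ok w) (h : L w ~r A' ++ Z1 ++ D ++ Z2) {m : Port T} (hm : m ∈ A') :
    ∃ Q P, A' = P ++ m :: Q ∧ rotl (L w) m = (m :: Q) ++ (Z1 ++ (D ++ (Z2 ++ P))) := by
  obtain ⟨P, Q, e⟩ := List.append_of_mem hm
  refine ⟨Q, P, e, ?_⟩
  refine Mg949.rotl_of (l' := (m :: Q) ++ (Z1 ++ (D ++ (Z2 ++ P)))) ?_ (nodup ok) rfl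
  refine h.trans ?_
  rw [e]
  have e1 : P ++ m :: Q ++ Z1 ++ D ++ Z2 = P ++ ((m :: Q) ++ (Z1 ++ (D ++ Z2))) := by simp
  have e2 : (m :: Q) ++ (Z1 ++ (D ++ (Z2 ++ P))) = ((m :: Q) ++ (Z1 ++ (D ++ Z2))) ++ P := by simp
  rw [e1, e2]
  exact List.isRotated_append

/-- **an arc between the walls kills the middle phases of the inner part** -/
theorem Sm_zero_blocks (ok : Ok w) (h : L w ~r A' ++ Z1 ++ D ++ Z2) {m1 m2 : Port T}
    (h1 : m1 ∈ A') (h2 : m2 ∈ L w) {x : Port T} (hx : x ∈ Z1) (hy : M s w x ∈ Z2)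
    (hu : u s w ∉ Z1 ++ D ++ Z2) {e : ℕ} (he : e < (L w).length) (heD : enL (L w) m1 e ∈ D) :
    Sm (piL (L w) (M s w) m1) (L w).length (idL (L w) m1 (u s w)) 0
      (idL (L w) m1 m2) e = 0 := by
  obtain ⟨Q, P, e1, e2⟩ := rotl_first ok h h1
  have hm1 : m1 ∈ L w := h.mem_iff.2 (by simp [h1])
  have hN := nckL s ok hm1
  have hnd : ((m1 :: Q) ++ (Z1 ++ (D ++ (Z2 ++ P)))).Nodup := by
    rw [← e2]; exact rotl_nodup (nodup ok)
  have hxL : x ∈ L w := h.mem_iff.2 (by simp [hx])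
  have hyL : M s w x ∈ L w := h.mem_iff.2 (by simp [hy])
  have hi : (rotl (L w) m1).idxOf x < (L w).length := idL_lt (m1 := m1) hxL
  have hj : (rotl (L w) m1).idxOf (M s w x) < (L w).length := idL_lt (m1 := m1) hyL
  have hpi : piL (L w) (M s w) m1 ((rotl (L w) m1).idxOf x) = (rotl (L w) m1).idxOf (M s w x) := by
    unfold piL
    congr 2
    exact enL_idL (m1 := m1) hxL
  have hei : (rotl (L w) m1).idxOf (enL (L w) m1 e) = e := idL_enL ok he
  -- order of the indices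
  have n1 := (List.nodup_append.1 hnd).2.1
  have n2 := (List.nodup_append.1 n1).2.1
  have n3 := (List.nodup_append.1 n2).2.1
  have hsh : ∀ (B C : List (Port T)) (x y : Port T), (B ++ C).Nodup → x ∈ C → y ∈ C →
      C.idxOf x < C.idxOf y → (B ++ C).idxOf x < (B ++ C).idxOf y := by
    intro B C x y hn hx hy hxy
    have hxB : x ∉ B := fun h' => (List.nodup_append.1 hn).2.2 x h' x hx rfl
    have hyB : y ∉ B := fun h' => (List.nodup_append.1 hn).2.2 y h' y hy rfl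
    rw [List.idxOf_append_of_notMem hxB, List.idxOf_append_of_notMem hyB]
    omega
  have o1 : (rotl (L w) m1).idxOf x < e := by
    conv_rhs => rw [← hei]
    rw [e2]
    exact hsh _ _ _ _ hnd (by simp [hx]) (by simp [heD]) (idx_app_lt n1 hx (by simp [heD]))
  have o2 : e < (rotl (L w) m1).idxOf (M s w x) := by
    conv_lhs => rw [← hei]
    rw [e2]
    exact hsh _ _ _ _ hnd (by simp [heD]) (by simp [hy]) (hsh _ _ _ _ n1 (by simp [heD])
      (by simp [hy]) (idx_app_lt n2 heD (by simp [hy])))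
  have o3 : (rotl (L w) m1).idxOf (u s w) < (rotl (L w) m1).idxOf x ∨
      (rotl (L w) m1).idxOf (M s w x) < (rotl (L w) m1).idxOf (u s w) := by
    have huL : u s w ∈ L w := (Sw300.Ok.inv s w ok).um
    have : u s w ∈ rotl (L w) m1 := mem_rotl.2 huL
    rw [e2] at this
    rw [List.mem_append, List.mem_append, List.mem_append, List.mem_append] at this
    rw [List.mem_append, List.mem_append] at hu
    rcases this with h3 | h3 | h3 | h3 | h3
    · left
      rw [e2]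
      exact idx_app_lt hnd h3 (by simp [hx])
    · exact absurd (Or.inl (Or.inl h3)) hu
    · exact absurd (Or.inl (Or.inr h3)) hu
    · exact absurd (Or.inr h3) hu
    · right
      rw [e2]
      exact hsh _ _ _ _ hnd (by simp [hy]) (by simp [h3]) (hsh _ _ _ _ n1 (by simp [hy])
        (by simp [h3]) (hsh _ _ _ _ n2 (by simp [hy]) (by simp [h3]) (idx_app_lt n3 hy h3)))
  refine hN.Sm_zero_of_over (Nat.zero_le _) (idL_lt (m1 := m1) h2).le he hi ?_ ?_ ?_ ?_
  · unfold st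
    rw [hpi]
    omega
  · unfold ing
    rw [hpi, if_pos (by omega)]
    omega
  · unfold ing
    rw [hpi, if_pos (by omega)]
    omega
  · unfold ing
    rw [hpi, if_pos (by omega)]
    omega

/-- **blocks round `m1` have no end between `m2` and `m3`** -/
theorem not_mid (ok : Ok w) (h : L w ~r A' ++ Z1 ++ D ++ Z2) {m1 m2 m3 : Port T}
    (h1 : m1 ∈ Z1 ++ D ++ Z2) (h2 : m2 ∈ A') (h3 : m3 ∈ A') {e : ℕ}
    (he : idL (L w) m1 m2 ≤ e) (he' : e < idL (L w) m1 m3) :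
    enL (L w) m1 e ∉ Z1 ++ D ++ Z2 := by
  intro hc
  obtain ⟨P, Q, e1⟩ := List.append_of_mem h1
  have e2 : rotl (L w) m1 = (m1 :: Q) ++ (A' ++ P) := by
    refine Mg949.rotl_of (l' := (m1 :: Q) ++ (A' ++ P)) ?_ (nodup ok) rfl
    refine h.trans ?_
    have e3 : A' ++ Z1 ++ D ++ Z2 = (A' ++ P) ++ (m1 :: Q) := by
      have e4 : A' ++ Z1 ++ D ++ Z2 = A' ++ (Z1 ++ D ++ Z2) := by simp
      rw [e4, e1]; simp
    rw [e3]
    exact List.isRotated_append
  have hnd : ((m1 :: Q) ++ (A' ++ P)).Nodup := by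
    rw [← e2]; exact rotl_nodup (nodup ok)
  have n1 := (List.nodup_append.1 hnd).2.1
  have hm3 : m3 ∈ L w := h.mem_iff.2 (by simp [h3])
  have hlt : e < (L w).length := he'.trans (idL_lt (m1 := m1) hm3)
  have hei : (rotl (L w) m1).idxOf (enL (L w) m1 e) = e := idL_enL ok hlt
  unfold idL at he he'
  rw [e1] at hc
  rcases List.mem_append.1 hc with hc | hc
  · -- after `m3`
    have h4 : (A' ++ P).idxOf m3 < (A' ++ P).idxOf (enL (L w) m1 e) := idx_app_lt n1 h3 hc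
    have k1 : m3 ∉ (m1 :: Q) := fun h' =>
      (List.nodup_append.1 hnd).2.2 m3 h' m3 (by simp [h3]) rfl
    have k2 : enL (L w) m1 e ∉ (m1 :: Q) := fun h' =>
      (List.nodup_append.1 hnd).2.2 _ h' _ (by simp [hc]) rfl
    have h5 : (rotl (L w) m1).idxOf m3 < (rotl (L w) m1).idxOf (enL (L w) m1 e) := by
      rw [e2, List.idxOf_append_of_notMem k1, List.idxOf_append_of_notMem k2]
      omega
    omega
  · have h4 : (rotl (L w) m1).idxOf (enL (L w) m1 e) < (rotl (L w) m1).idxOf m2 := by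
      rw [e2]
      exact idx_app_lt hnd hc (by simp [h2])
    omega

end generic

/-- the decomposition of a window -/
structure Dec (w : Wd (ℤ × ℤ)) (X Y : ℤ) (r n : ℕ) (A' Z1 D Z2 : List (Port (ℤ × ℤ))) : Prop where
  rot : L w ~r A' ++ Z1 ++ D ++ Z2
  far : ∀ x ∈ A', FarM X Y n x
  wall : ∀ x ∈ Z1 ++ Z2, ∃ t d, x = some (t, d) ∧ Bx X Y n t ∧ ¬ Bx X Y r t
  inn : ∀ x ∈ D, ∃ t d, x = some (t, d) ∧ Bx X Y r t

theorem win_dec {sh : Sh} {k : ZMod 4} {X Y : ℤ} {r n : ℕ} (hr : 1 ≤ r) (hn : r + 1 ≤ n)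
    {A : Finset (ℤ × ℤ)} {b : Port (ℤ × ℤ) → Port (ℤ × ℤ)} {w : Wd (ℤ × ℤ)} (hw : GW A b w)
    (h : Win sh k X Y r n A b)
    (hnp : ∀ t, Bx X Y n t → ¬ Bx X Y r t → t ∈ A → pat X Y sh k t) :
    ∃ A' Z1 D Z2, Dec w X Y r n A' Z1 D Z2 := by
  obtain ⟨K, w0, N1, Jl, N2, Jo, Ob, a0, b0, hD⟩ := annD_exists sh X Y hr hn
  have hP := pair_of_win hD (by omega) hw hw h h (fun _ _ => rfl)
  obtain ⟨A', Di, Gi, k1, -, k3⟩ := hP.two (hth_k k) (fun _ => false)
  refine ⟨A', _, Di, _, k1, ?_, ?_, ?_⟩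
  · intro x hx
    exact farM_iff.2 (k3.AF x hx)
  · intro x hx
    have : ∃ p ∈ N1 ++ N2, Sl434.pm (rk X Y (-k)) (-k) p = x := by
      rw [← List.map_append] at hx
      exact List.mem_map.1 hx
    obtain ⟨p, hp, rfl⟩ := this
    have hp' : p ∈ N1 ++ Jl ++ N2 ++ Jo := by
      simp only [List.mem_append] at hp ⊢; tauto
    obtain ⟨⟨t, d⟩, e, ht⟩ := (hP.lc.pf (hP.ch.port hp')).1
    exact ⟨t, d, e, ht.2.1, ht.2.2⟩
  · intro x hx
    have h1 := k3.Do x hx
    have hxL : x ∈ L w := k1.mem_iff.2 (by simp [hx])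
    rcases x with _ | ⟨t, d⟩
    · exact absurd (Or.inl (Sl434.none_Fp _)) h1
    · refine ⟨t, d, rfl, ?_⟩
      have hn' : Bx X Y n t := by
        by_contra hc
        exact h1 (Or.inl (some_Fp.2 hc))
      by_contra hc
      apply h1
      right
      have ht : t ∈ A := (hw.word.2.2.1 t).1 (Gc748.mem_L_tls hw.word.1 hxL)
      exact some_Ap.2 ⟨hnp t hn' hc ht, hn', hc⟩

section dec

variable {w : Wd (ℤ × ℤ)} {X Y : ℤ} {r n : ℕ} {A' Z1 D Z2 : List (Port (ℤ × ℤ))}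

lemma bx_mono {X Y : ℤ} {r n : ℕ} (h : r ≤ n) {t : ℤ × ℤ} (ht : Bx X Y r t) : Bx X Y n t := by
  unfold Bx at *; omega


/-- inner ends -/
theorem Dec.mem_inn (h : Dec w X Y r n A' Z1 D Z2) (hrn : r ≤ n) {t : ℤ × ℤ} {d : ZMod 4}
    (hx : some (t, d) ∈ L w) (ht : Bx X Y r t) : some (t, d) ∈ D := by
  have := h.rot.mem_iff.1 hx
  simp only [List.mem_append] at this
  rcases this with ((h1 | h1) | h1) | h1
  · exact absurd (bx_mono hrn ht) (h.far _ h1 t d rfl)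
  · obtain ⟨t', d', e, -, h3⟩ := h.wall _ (List.mem_append_left _ h1)
    obtain ⟨rfl, rfl⟩ := Gc748.pt_inj.1 e
    exact absurd ht h3
  · exact h1
  · obtain ⟨t', d', e, -, h3⟩ := h.wall _ (List.mem_append_right _ h1)
    obtain ⟨rfl, rfl⟩ := Gc748.pt_inj.1 e
    exact absurd ht h3

/-- ends of the window -/
theorem Dec.near (h : Dec w X Y r n A' Z1 D Z2) (hrn : r ≤ n) {x : Port (ℤ × ℤ)}
    (hx : x ∈ Z1 ++ D ++ Z2) : ∃ t d, x = some (t, d) ∧ Bx X Y n t := by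
  simp only [List.mem_append] at hx
  rcases hx with (h1 | h1) | h1
  · obtain ⟨t', d', e, h2, -⟩ := h.wall _ (List.mem_append_left _ h1)
    exact ⟨t', d', e, h2⟩
  · obtain ⟨t', d', e, h2⟩ := h.inn _ h1
    exact ⟨t', d', e, bx_mono hrn h2⟩
  · obtain ⟨t', d', e, h2, -⟩ := h.wall _ (List.mem_append_right _ h1)
    exact ⟨t', d', e, h2⟩

theorem Dec.mem_far (h : Dec w X Y r n A' Z1 D Z2) (hrn : r ≤ n) {m : Port (ℤ × ℤ)}
    (hm : m ∈ L w) (hf : FarM X Y n m) : m ∈ A' := by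
  have := h.rot.mem_iff.1 hm
  rw [List.append_assoc, List.append_assoc] at this
  rcases List.mem_append.1 this with h1 | h1
  · exact h1
  · obtain ⟨t, d, rfl, h2⟩ := h.near hrn (by rwa [← List.append_assoc] at h1)
    exact absurd h2 (hf t d rfl)

end dec

end Crest.Agent.R158.Dp440
end

-- ▼ part R158/Dp5_440
section

/-!
# R158 (helper440), dropped part of the mark sum, 5: one window

**`ball_drop`** : off an event of probability `≤ C ((r / R1) ^ a + (R1 / R2) ^ a)` no end of the inner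
part of a window between `m2` and `m3` carries a middle phase.
-/

set_option autoImplicit false

namespace Crest.Agent.R158.Dp440

open MeasureTheory
open Crest.Agent.R158.Sw300 (Port Wd L M u Ok tls nodup)
open Crest.Agent.R158.Al194 Crest.Agent.R158.Cw161
open Crest.Agent.R158.Ob664 (GW HW Gl)
open Crest.Agent.R158.Dp109
open Crest.Agent.R158.Rs689 (PB hf)
open Crest.Agent.R158.Env664 (beD)

/-- no end of `[m2, m3)` with tile in the box of radius `r` carries a middle phase -/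
def Quiet (w : Wd (ℤ × ℤ)) (m1 m2 m3 : Port (ℤ × ℤ)) (P : ℤ × ℤ → Prop) (s : ℤ × ℤ → Bool) : Prop :=
  ∀ e, idL (L w) m1 m2 ≤ e → e < idL (L w) m1 m3 →
    (∃ t d, enL (L w) m1 e = some (t, d) ∧ P t) →
    Sm (piL (L w) (M s w) m1) (L w).length (idL (L w) m1 (u s w)) 0 (idL (L w) m1 m2) e = 0

lemma bx_abs {X Y : ℤ} {n : ℕ} {t : ℤ × ℤ} (h : Bx X Y n t) : |t.1 - X| ≤ n ∧ |t.2 - Y| ≤ n := by
  unfold Bx at h
  rw [abs_le, abs_le]
  omega

lemma not_hm_far {A : Set (ℤ × ℤ)} {X Y : ℤ} {n : ℕ} {x : Port (ℤ × ℤ)} (h : FarM X Y n x) :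
    ¬ Hm A (fun t => t) (X, Y) n x := by
  rintro ⟨t, d, rfl, -, h1, h2⟩
  apply h t d rfl
  unfold Bx
  rw [abs_lt] at h1 h2
  simp only at h1 h2
  omega

/-- **one window** -/
theorem ball_drop : ∃ C a : ℝ, 0 < C ∧ 0 < a ∧ ∀ {A : Finset (ℤ × ℤ)} {p y0 xr : ℤ}
    {w : Wd (ℤ × ℤ)}, p ≤ xr → (xr + 1, y0) ∉ A → GW A (beD A p y0 xr) w →
    ∀ {sh : Sh} {k : ZMod 4} {X Y : ℤ} {r R1 R2 : ℕ}, 1 ≤ r → r + 1 ≤ R1 → R1 ≤ R2 →
    (R2 : ℤ) + 1 < |Y - y0| → Win sh k X Y r R1 A (beD A p y0 xr) →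
    (∀ t, Bx X Y R1 t → ¬ Bx X Y r t → t ∈ A → pat X Y sh k t) →
    ∀ {m1 m2 m3 : Port (ℤ × ℤ)}, m1 ∈ L w → m2 ∈ L w → m3 ∈ L w →
    (FarM X Y R1 m1 ∨ (FarM X Y R1 m2 ∧ FarM X Y R1 m3)) →
    ∃ Bad : Set (ℤ × ℤ → Bool), (PB fun _ : ℤ × ℤ => hf).real Bad ≤
        C * (((r : ℝ) / R1) ^ a + ((R1 : ℝ) / R2) ^ a) ∧
      ∀ s ∉ Bad, Quiet w m1 m2 m3 (Bx X Y r) s := by
  obtain ⟨C1, a1, hC1, ha1, h1⟩ := gap_far
  obtain ⟨C2, a2, hC2, ha2, h2⟩ := end_far
  refine ⟨max C1 C2, min a1 a2, lt_max_of_lt_left hC1, lt_min ha1 ha2, ?_⟩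
  intro A p y0 xr w hp hxr hw sh k X Y r R1 R2 hr hrR hR hsl hwin hnp m1 m2 m3 k1 k2 k3 hfar
  obtain ⟨A', Z1, D, Z2, hD⟩ := win_dec hr hrR hw hwin hnp
  have ok := hw.word.1
  have hrR' : r ≤ R1 := by omega
  have r0 : (0 : ℝ) < r := by exact_mod_cast hr
  have r1 : (0 : ℝ) < R1 := by exact_mod_cast (by omega : 0 < R1)
  have r2 : (0 : ℝ) < R2 := by exact_mod_cast (by omega : 0 < R2)
  have q1 : (r : ℝ) / R1 ≤ 1 := by rw [div_le_one r1]; exact_mod_cast hrR'
  have q2 : (R1 : ℝ) / R2 ≤ 1 := by rw [div_le_one r2]; exact_mod_cast hR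
  have hpw : ∀ {q : ℝ} {C0 a0 : ℝ}, 0 < q → q ≤ 1 → C0 ≤ max C1 C2 → min a1 a2 ≤ a0 → 0 < C0 →
      C0 * q ^ a0 ≤ max C1 C2 * q ^ (min a1 a2) := by
    intro q C0 a0 hq hq1 hC0 ha0 hC0'
    exact mul_le_mul hC0 (Real.rpow_le_rpow_of_exponent_ge hq hq1 ha0) (by positivity)
      (hC0'.le.trans hC0)
  by_cases hD0 : D = []
  · -- no inner ends
    refine ⟨∅, ?_, ?_⟩
    · rw [measureReal_empty]
      have : 0 < max C1 C2 := lt_max_of_lt_left hC1
      positivity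
    · intro s _ e he he' ⟨t, d, he2, ht⟩
      exfalso
      have hlt : e < (L w).length := he'.trans (idL_lt (m1 := m1) k3)
      have h3 := hD.mem_inn hrR' (by rw [← he2]; exact enL_mem hlt) ht
      rw [hD0] at h3
      simp at h3
  -- a far mark
  have hA0 : A' ≠ [] := by
    rcases hfar with h3 | ⟨h3, -⟩
    · exact List.ne_nil_of_mem (hD.mem_far hrR' k1 h3)
    · exact List.ne_nil_of_mem (hD.mem_far hrR' k2 h3)
  have hbs : Gc748.bs w = none := by rw [Xr249.bs_bas]; exact hw.leg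
  have hrot : L w ~r Z1 ++ (D ++ (Z2 ++ A')) := by
    refine hD.rot.trans ?_
    have e1 : A' ++ Z1 ++ D ++ Z2 = A' ++ (Z1 ++ (D ++ Z2)) := by simp
    have e2 : Z1 ++ (D ++ (Z2 ++ A')) = (Z1 ++ (D ++ Z2)) ++ A' := by simp
    rw [e1, e2]
    exact List.isRotated_append
  have hmemA : ∀ {t : ℤ × ℤ} {d : ZMod 4}, some (t, d) ∈ L w → t ∈ A := fun h3 =>
    (hw.word.2.2.1 _).1 (Gc748.mem_L_tls ok h3)
  have sl1 : (R1 : ℤ) + 1 < |Y - y0| := by
    have : (R1 : ℤ) ≤ R2 := by exact_mod_cast hR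
    omega
  set B1 : Set (ℤ × ℤ → Bool) := {s | ∀ y ∈ Z1, M s w y ∉ Z2} with hB1
  set B2 : Set (ℤ × ℤ → Bool) := Far1 w (bxA A (X, Y) R2) (fun t => t) (X, Y) R1 R2 with hB2
  refine ⟨B1 ∪ B2, ?_, ?_⟩
  · have g1 : (PB fun _ : ℤ × ℤ => hf).real B1 ≤ C1 * ((r : ℝ) / R1) ^ a1 := by
      refine h1 w (beD A p y0 xr) (bxA A (X, Y) R1) (fun t => t) (X, Y) r R1 Z1 D Z2 A' ok hbs
        hw.word.2.2.2 (ball_beD hp hxr (X, Y) R1 sl1) hr hrR' hrot hD0 hA0 ?_ ?_
      · intro y hy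
        obtain ⟨t, d, rfl, ht⟩ := hD.inn y hy
        have hyL : some (t, d) ∈ L w := hD.rot.mem_iff.2 (by simp [hy])
        have hb := bx_abs ht
        have hb' := bx_abs (bx_mono hrR' ht)
        exact ⟨⟨hmemA hyL, hb'.1, hb'.2⟩, t, d, rfl, hb.1, hb.2⟩
      · intro y hy
        exact not_hm_far (hD.far y hy)
    have g2 : (PB fun _ : ℤ × ℤ => hf).real B2 ≤ C2 * ((R1 : ℝ) / R2) ^ a2 :=
      h2 w (beD A p y0 xr) (bxA A (X, Y) R2) (fun t => t) (X, Y) R1 R2 ok hbs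
        hw.word.2.2.2 (ball_beD hp hxr (X, Y) R2 hsl) (by omega) hR
    have g3 := measureReal_union_le (μ := PB fun _ : ℤ × ℤ => hf) B1 B2
    have g4 := hpw (q := (r : ℝ) / R1) (by positivity) q1 (le_max_left C1 C2) (min_le_left a1 a2) hC1
    have g5 := hpw (q := (R1 : ℝ) / R2) (by positivity) q2 (le_max_right C1 C2) (min_le_right a1 a2)
      hC2
    rw [mul_add]
    linarith
  · intro s hs e he he' ⟨t, d, he2, ht⟩
    have hlt : e < (L w).length := he'.trans (idL_lt (m1 := m1) k3)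
    have heD : enL (L w) m1 e ∈ D := by
      rw [he2]
      exact hD.mem_inn hrR' (by rw [← he2]; exact enL_mem hlt) ht
    rw [Set.mem_union, not_or] at hs
    obtain ⟨hs1, hs2⟩ := hs
    have huL : u s w ∈ L w := (Sw300.Ok.inv s w ok).um
    have hu : u s w ∉ Z1 ++ D ++ Z2 := by
      intro hc
      obtain ⟨t', d', e1, e2⟩ := hD.near hrR' hc
      apply hs2
      have hb := bx_abs e2
      have hb' := bx_abs (bx_mono hR e2)
      refine ⟨u s w, huL, ?_, ⟨t', d', e1, hb.1, hb.2⟩, Or.inl (Sw300.Ok.inv s w ok).uf⟩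
      rw [e1]
      exact ⟨hmemA (by rw [← e1]; exact huL), hb'.1, hb'.2⟩
    have hx : ∃ x ∈ Z1, M s w x ∈ Z2 := by
      by_contra hc
      apply hs1
      intro y hy hy2
      exact hc ⟨y, hy, hy2⟩
    obtain ⟨x, hx1, hx2⟩ := hx
    have hcase : m1 ∈ A' ∨ (m1 ∈ Z1 ++ D ++ Z2 ∧ m2 ∈ A' ∧ m3 ∈ A') := by
      rcases hfar with h3 | ⟨h3, h4⟩
      · exact Or.inl (hD.mem_far hrR' k1 h3)
      · have := hD.rot.mem_iff.1 k1
        rw [List.append_assoc, List.append_assoc] at this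
        rcases List.mem_append.1 this with h5 | h5
        · exact Or.inl h5
        · exact Or.inr ⟨by rwa [← List.append_assoc] at h5, hD.mem_far hrR' k2 h3,
            hD.mem_far hrR' k3 h4⟩
    rcases hcase with h3 | ⟨h3, h4, h5⟩
    · exact Sm_zero_blocks ok hD.rot h3 k2 hx1 hx2 hu hlt heD
    · exfalso
      have h6 := not_mid ok hD.rot h3 h4 h5 he he'
      apply h6
      simp [heD]

end Crest.Agent.R158.Dp440
end

-- ▼ part R158/Dp6_440
section

/-!
# R158 (helper440), dropped part of the mark sum, 6: windows from four quadrants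

* `Quad A X Y n f00 f10 f01 f11` : in the box of radius `n` round the face `(X, Y)` the region `A`
  is the union of the quadrants `f..`
* **`quad_drop`** : `ball_drop` for every non-diagonal pattern
-/

set_option autoImplicit false

namespace Crest.Agent.R158.Dp440

open MeasureTheory
open Crest.Agent.R158.Sw300 (Port Wd L M u Ok tls nodup)
open Crest.Agent.R158.Al194 Crest.Agent.R158.Cw161
open Crest.Agent.R158.Ob664 (GW HW Gl)
open Crest.Agent.R158.Rs689 (PB hf)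
open Crest.Agent.R158.Env664 (beD nbD nbP beP res PortOf nbD_W nbD_N nbD_E nbD_S nbP_W nbP_N nbP_E
  nbP_S z4)
open Crest.Agent.R158.Cb771 (dir)

/-- in the box of radius `n` round the face `(X, Y)` the region is a union of quadrants -/
def Quad (A : Finset (ℤ × ℤ)) (X Y : ℤ) (n : ℕ) (f00 f10 f01 f11 : Prop) : Prop :=
  ∀ t, Bx X Y n t → (t ∈ A ↔ (t.1 ≤ X ∧ t.2 ≤ Y ∧ f00) ∨ (X < t.1 ∧ t.2 ≤ Y ∧ f10) ∨
    (t.1 ≤ X ∧ Y < t.2 ∧ f01) ∨ (X < t.1 ∧ Y < t.2 ∧ f11))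

theorem quad_cases {A : Finset (ℤ × ℤ)} {X Y : ℤ} {n : ℕ} {f00 f10 f01 f11 : Prop}
    (h : Quad A X Y n f00 f10 f01 f11) (h1 : ¬ (f00 ∧ f11 ∧ ¬ f10 ∧ ¬ f01))
    (h2 : ¬ (f10 ∧ f01 ∧ ¬ f00 ∧ ¬ f11)) :
    (∀ t, Bx X Y n t → t ∈ A) ∨ (∀ t, Bx X Y n t → t ∉ A) ∨
      ∃ sh k, ∀ t, Bx X Y n t → (t ∈ A ↔ pat X Y sh k t) := by
  have key : ∀ (sh : Sh) (k : ZMod 4), (∀ t : ℤ × ℤ, ((t.1 ≤ X ∧ t.2 ≤ Y ∧ f00) ∨
      (X < t.1 ∧ t.2 ≤ Y ∧ f10) ∨ (t.1 ≤ X ∧ Y < t.2 ∧ f01) ∨ (X < t.1 ∧ Y < t.2 ∧ f11)) ↔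
      pat X Y sh k t) → (∀ t, Bx X Y n t → t ∈ A) ∨ (∀ t, Bx X Y n t → t ∉ A) ∨
      ∃ sh k, ∀ t, Bx X Y n t → (t ∈ A ↔ pat X Y sh k t) := fun sh k hk =>
    Or.inr (Or.inr ⟨sh, k, fun t ht => (h t ht).trans (hk t)⟩)
  by_cases a : f00 <;> by_cases b : f10 <;> by_cases c : f01 <;> by_cases d : f11 <;>
    simp only [a, b, c, d, and_true, and_false, or_false, false_or, not_true_eq_false,
      not_false_eq_true, and_self] at h h1 h2 key
  · left; intro t ht; rw [h t ht]; simp only [and_true]; omega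
  · refine key .t 0 fun t => ?_
    rw [pat_t0]; omega
  · refine key .t 1 fun t => ?_
    rw [pat_t1]; omega
  · refine key .h0 1 fun t => ?_
    rw [pat_h1]; omega
  · refine key .t 3 fun t => ?_
    rw [pat_t3]; omega
  · refine key .h0 0 fun t => ?_
    rw [pat_h0]; omega
  · refine key .q 2 fun t => ?_
    rw [pat_q2]
  · refine key .t 2 fun t => ?_
    rw [pat_t2]; omega
  · refine key .h0 2 fun t => ?_
    rw [pat_h2]; omega
  · refine key .q 3 fun t => ?_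
    rw [pat_q3]
  · refine key .h0 3 fun t => ?_
    rw [pat_h3]; omega
  · refine key .q 1 fun t => ?_
    rw [pat_q1]
  · refine key .q 0 fun t => ?_
    rw [pat_q0]
  · right; left; intro t ht; rw [h t ht]; simp

/-- off the rows `y0 - 1`, `y0` the glueing is plain -/
theorem beD_plain {A : Finset (ℤ × ℤ)} {p y0 xr : ℤ} {t : ℤ × ℤ} (h0 : t.2 ≠ y0)
    (h1 : t.2 ≠ y0 - 1) (d : ZMod 4) : beD A p y0 xr (some (t, d)) = beP A (some (t, d)) := by
  obtain ⟨x, y⟩ := t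
  simp only at h0 h1
  have e : nbD p y0 xr (some ((x, y), d)) = nbP (some ((x, y), d)) := by
    rcases z4 d with rfl | rfl | rfl | rfl
    · rw [nbD_W, nbP_W]
    · rw [nbD_N (by omega), nbP_N]
    · rw [nbD_E, nbP_E]
    · rw [nbD_S (by omega), nbP_S]
  unfold beD beP res
  rw [e]

/-- a free end in a completely filled box does not exist -/
theorem no_end_full {A : Finset (ℤ × ℤ)} {p y0 xr : ℤ} {w : Wd (ℤ × ℤ)}
    (hw : GW A (beD A p y0 xr) w) {X Y : ℤ} {n : ℕ} (h : ∀ t, Bx X Y (n + 1) t → t ∈ A)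
    (hy : ∀ t, Bx X Y n t → t.2 ≠ y0 ∧ t.2 ≠ y0 - 1) {t : ℤ × ℤ} {d : ZMod 4}
    (ht : Bx X Y n t) : some (t, d) ∉ L w := by
  intro hL
  have hf := (Gc748.be_state hw.word.1).free _ hL
  rw [hw.word.2.2.2, beD_plain (hy t ht).1 (hy t ht).2,
    beP_in (h t (bx_mono (by omega) ht)) (h _ (bx_dir d ht))] at hf
  have key : ∀ d : ZMod 4, d + 2 ≠ d := by decide
  exact key d (Gc748.pt_inj.1 hf).2

/-- **windows from quadrants** -/
theorem quad_drop : ∃ C a : ℝ, 0 < C ∧ 0 < a ∧ ∀ {A : Finset (ℤ × ℤ)} {p y0 xr : ℤ}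
    {w : Wd (ℤ × ℤ)}, p ≤ xr → (xr + 1, y0) ∉ A → GW A (beD A p y0 xr) w →
    ∀ {X Y : ℤ} {r R1 R2 : ℕ}, 1 ≤ r → r + 1 ≤ R1 → R1 ≤ R2 →
    (R2 : ℤ) + 1 < |Y - y0| → ∀ {f00 f10 f01 f11 : Prop}, Quad A X Y (R1 + 1) f00 f10 f01 f11 →
    ¬ (f00 ∧ f11 ∧ ¬ f10 ∧ ¬ f01) → ¬ (f10 ∧ f01 ∧ ¬ f00 ∧ ¬ f11) →
    ∀ {m1 m2 m3 : Port (ℤ × ℤ)}, m1 ∈ L w → m2 ∈ L w → m3 ∈ L w →
    (FarM X Y R1 m1 ∨ (FarM X Y R1 m2 ∧ FarM X Y R1 m3)) →
    ∃ Bad : Set (ℤ × ℤ → Bool), (PB fun _ : ℤ × ℤ => hf).real Bad ≤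
        C * (((r : ℝ) / R1) ^ a + ((R1 : ℝ) / R2) ^ a) ∧
      ∀ s ∉ Bad, Quiet w m1 m2 m3 (Bx X Y r) s := by
  obtain ⟨C, a, hC, ha, hB⟩ := ball_drop
  refine ⟨C, a, hC, ha, ?_⟩
  intro A p y0 xr w hp hxr hw X Y r R1 R2 hr hrR hR hsl f00 f10 f01 f11 hq d1 d2 m1 m2 m3 k1 k2 k3
    hfar
  have hRR : (R1 : ℤ) ≤ R2 := by exact_mod_cast hR
  have hy : ∀ t, Bx X Y R1 t → t.2 ≠ y0 ∧ t.2 ≠ y0 - 1 := by
    intro t ht
    unfold Bx at ht
    rcases lt_abs.1 hsl with h1 | h1 <;> constructor <;> omega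
  have triv : (∀ t d, Bx X Y r t → some (t, d) ∉ L w) → ∃ Bad : Set (ℤ × ℤ → Bool),
      (PB fun _ : ℤ × ℤ => hf).real Bad ≤ C * (((r : ℝ) / R1) ^ a + ((R1 : ℝ) / R2) ^ a) ∧
      ∀ s ∉ Bad, Quiet w m1 m2 m3 (Bx X Y r) s := by
    intro hno
    refine ⟨∅, ?_, ?_⟩
    · rw [measureReal_empty]; positivity
    · intro s _ e he he' ⟨t, d, he2, ht⟩
      exfalso
      have hlt : e < (L w).length := he'.trans (idL_lt (m1 := m1) k3)
      exact hno t d ht (by rw [← he2]; exact enL_mem hlt)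
  rcases quad_cases hq d1 d2 with h1 | h1 | ⟨sh, k, h1⟩
  · refine triv fun t d ht => ?_
    exact no_end_full hw h1 hy (bx_mono (by omega) ht)
  · refine triv fun t d ht hL => ?_
    exact h1 t (bx_mono (by omega) ht) ((hw.word.2.2.1 t).1 (Gc748.mem_L_tls hw.word.1 hL))
  · have hA : ∀ t, Bx X Y (R1 + 1) t → ¬ Bx X Y (r - 1) t → (t ∈ A ↔ pat X Y sh k t) :=
      fun t ht _ => h1 t ht
    exact hB hp hxr hw hr hrR hR hsl (win_plain hr hrR hA fun t d ht =>
      beD_plain (hy t ht).1 (hy t ht).2 d) (np_plain hA) k1 k2 k3 hfar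

end Crest.Agent.R158.Dp440
end

-- ▼ part R158/Qg1_300
section

/-!
# R158, evaluation: the dropped part of the mark sum (helper300)

* `cls_drop` : an end of the word outside the family `Jd` is in a window (face of `W`) or deep
* **`bad_main`** : the event `Bad` of `Oc194.HW_valD`, `P(Bad) ≤ #W η + P(gates open)`, from `Quiet`
  windows
-/

set_option autoImplicit false
set_option linter.unusedVariables false
set_option linter.unusedSectionVars false

noncomputable section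

namespace Crest.Agent.R158.Qg300

open Finset MeasureTheory
open Crest.Agent.R158.Sw300 (Port Wd L M u Ok tls)
open Crest.Agent.R158.Al194
open Crest.Agent.R158.Ob664 (GW HW HV norm_HW_le HV_mem norm_le_of_Tri)
open Crest.Agent.R158.Rs689 (PB)
open Crest.Agent.R158.Qe249 (VJ SmP SmP_hL measurable_VJ integrable_VJ norm_HV_sub_VJ gateD gateD_zero
  Pm Deep deepR deepL deepR_iff deepL_iff not_deep)
open Crest.Agent.R158.Env664 (TG Band beD)
open Crest.Agent.R158.Xr249 (Dp mem_Dp Free pm pm_some eD)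
open Crest.Agent.R158.Qc405 (TabH)
open Crest.Agent.R158.Oc194
open Crest.Agent.R158.Fm857 (Jd mem_Jd inI far freeG)
open Crest.Agent.R158.Dp440 (Quiet)
open Crest.Agent.R158.Cw161 (Bx)

variable {A : Finset (ℤ × ℤ)} {B : Band A} {k p y0 b : ℤ} {ψ : (ℤ × ℤ) × ZMod 4 → ℤ}
  {w : Wd (ℤ × ℤ)}

/-- the faces of the windows: all special tiles and the four mouth corners -/
structure Faces (B : Band A) (Sp W : Finset (ℤ × ℤ)) : Prop where
  sp : ∀ v ∈ Sp, ∃ f ∈ W, (f.1 = v.1 ∨ f.1 = v.1 - 1) ∧ (f.2 = v.2 ∨ f.2 = v.2 - 1)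
  r1 : (B.xr, B.y1 - 1) ∈ W
  r2 : (B.xr, B.y2 - 1) ∈ W
  l1 : (B.xl - 1, B.y1 - 1) ∈ W
  l2 : (B.xl - 1, B.y2 - 1) ∈ W

/-- **the ends outside the family** -/
theorem cls_drop (H : TabH A B.xl B.xr B.y1 B.y2 k p y0 ψ)
    (hw : GW (Dp A B.xl B.xr B.y1 B.y2 k) (beD (Dp A B.xl B.xr B.y1 B.y2 k) p y0 (B.xr + k)) w)
    (hR : 2 * k < B.R) (hz : B.At p y0) (hb : k ≤ b) (hb' : b + k ≤ B.R) {b0 : Port (ℤ × ℤ)}
    (O : Ord w (KD B) b0) {m1 m2 m3 : Port (ℤ × ℤ)} (hM : Mk w m1 m2 m3)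
    (h2 : NatD B m2 ∨ NatS B k m2) (h3 : NatD B m3 ∨ NatS B k m3)
    {Sp W : Finset (ℤ × ℤ)} {Δ a0 c0 : ℤ} (hW : Faces B Sp W) (hΔ : 0 < Δ) (hΔa : Δ ≤ a0 + 1)
    (ha : a0 + 2 < k) (hc : B.R - k ≤ c0) (hΔc : c0 + Δ < B.R) {j : ℕ}
    (hj1 : idL (L w) m1 m2 ≤ j) (hj2 : j < idL (L w) m1 m3)
    (hJ : pm (eD B y0 k) (enL (L w) m1 j) ∉
      Jd B b Sp Δ a0 c0 (pm (eD B y0 k) m2) (pm (eD B y0 k) m3)) :
    Deep B y0 k a0 c0 (enL (L w) m1 j) ∨
      ∃ f ∈ W, ∃ t d, enL (L w) m1 j = some (t, d) ∧ Bx f.1 f.2 (Δ.toNat + 1) t := by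
  have hk := H.hk
  have hy1 := H.hy1
  have hy2 := H.hy2
  have hle := H.hf.le
  have l3 : idL (L w) m1 m3 < (L w).length := idL_lt (m1 := m1) hM.2.2.1
  have hjl : j < (L w).length := hj2.trans l3
  have hx := enL_mem (w := w) (m1 := m1) hjl
  have hid : idL (L w) m1 (enL (L w) m1 j) = j := idL_enL hw.word.1 hjl
  have hΔn : ((Δ.toNat : ℕ) : ℤ) = Δ := Int.toNat_of_nonneg hΔ.le
  generalize enL (L w) m1 j = x at hx hid hJ ⊢
  rcases fc_of H hw hx with hN | hN | hN | hN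
  · -- an end of the region
    right
    have hI := (inI_iff H hw hR hb hb' O hM h2 h3 hx (Or.inl hN)).1
      (by rw [hid, mem_Ico]; exact ⟨hj1, hj2⟩)
    have hG := nat_free H hR (Or.inl hN : NatD B x ∨ NatS B k x)
    obtain ⟨t, d, rfl, ht⟩ := natD_some hN
    have hfar : ¬ far B Sp Δ a0 c0 (pm (eD B y0 k) (some (t, d))) := fun h =>
      hJ ((mem_Jd B).2 ⟨hG, hI, h⟩)
    rw [pm_A H.hf ht] at hfar
    have hfar' : ¬ ∀ v ∈ Sp, Δ ≤ |t.1 - v.1| ∨ Δ ≤ |t.2 - v.2| := hfar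
    push Not at hfar'
    obtain ⟨v, hv, hv1, hv2⟩ := hfar'
    rw [abs_lt] at hv1 hv2
    obtain ⟨f, hf, hf1, hf2⟩ := hW.sp v hv
    refine ⟨f, hf, t, d, rfl, ?_⟩
    unfold Bx
    push_cast
    omega
  · -- an end of a stub
    have hI := (inI_iff H hw hR hb hb' O hM h2 h3 hx (Or.inr hN)).1
      (by rw [hid, mem_Ico]; exact ⟨hj1, hj2⟩)
    have hG := nat_free H hR (Or.inr hN : NatD B x ∨ NatS B k x)
    have hfar : ¬ far B Sp Δ a0 c0 (pm (eD B y0 k) x) := fun h => hJ ((mem_Jd B).2 ⟨hG, hI, h⟩)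
    rcases hN with ⟨u, hu, rfl⟩ | ⟨u, hu, rfl⟩ | ⟨u, hu, rfl⟩ | ⟨u, hu, rfl⟩
    · rw [pm_r H hu ⟨le_rfl, by omega⟩] at hfar
      simp only [far] at hfar
      rw [if_pos trivial] at hfar
      by_cases hd : a0 < u - B.xr - 1
      · left; left
        rw [deepR_iff]
        refine ⟨hu.1, hu.2, le_rfl, by omega, ?_⟩
        rw [Zg180.uc_lt hy1]
        exact hd
      · right
        refine ⟨_, hW.r1, _, _, rfl, ?_⟩
        unfold Bx
        push_cast
        omega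
    · rw [pm_r H hu ⟨by omega, by omega⟩] at hfar
      simp only [far] at hfar
      rw [if_neg z13] at hfar
      by_cases hd : a0 < u - B.xr - 1 - 1
      · left; left
        rw [deepR_iff]
        refine ⟨hu.1, hu.2, by omega, by omega, ?_⟩
        rw [Zg180.uc_ge (by omega)]
        exact hd
      · right
        refine ⟨_, hW.r2, _, _, rfl, ?_⟩
        unfold Bx
        push_cast
        omega
    · rw [pm_l H hu ⟨le_rfl, by omega⟩, wd1 H] at hfar
      simp only [far] at hfar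
      rw [if_pos trivial] at hfar
      by_cases hd : B.R - (B.xl - u) ≤ c0
      · left; right
        rw [deepL_iff]
        exact ⟨hu.1, hu.2, le_rfl, by omega, hd⟩
      · right
        refine ⟨_, hW.l1, _, _, rfl, ?_⟩
        unfold Bx
        push_cast
        omega
    · rw [pm_l H hu ⟨by omega, by omega⟩, wd2 H] at hfar
      simp only [far] at hfar
      rw [if_neg z13] at hfar
      by_cases hd : B.R - (B.xl - u) ≤ c0
      · left; right
        rw [deepL_iff]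
        exact ⟨hu.1, hu.2, by omega, by omega, hd⟩
      · right
        refine ⟨_, hW.l2, _, _, rfl, ?_⟩
        unfold Bx
        push_cast
        omega
  · left; left
    rcases hN with ⟨v, hv, rfl⟩ | rfl
    · rw [deepR_iff]
      refine ⟨by omega, le_rfl, hv.1, hv.2, ?_⟩
      rcases lt_or_ge v y0 with h | h
      · rw [Zg180.uc_lt h]; omega
      · rw [Zg180.uc_ge (by omega)]; omega
    · rw [deepR_iff]
      refine ⟨by omega, le_rfl, by omega, by omega, ?_⟩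
      rw [Zg180.uc_lt (by omega)]; omega
  · left; right
    obtain ⟨v, hv, rfl⟩ := hN
    rw [deepL_iff]
    exact ⟨le_rfl, by omega, hv.1, hv.2, by omega⟩

/-- **the event of the dropped part** -/
theorem bad_main (H : TabH A B.xl B.xr B.y1 B.y2 k p y0 ψ)
    (hw : GW (Dp A B.xl B.xr B.y1 B.y2 k) (beD (Dp A B.xl B.xr B.y1 B.y2 k) p y0 (B.xr + k)) w)
    (hz : B.At p y0) (hb : k ≤ b) (hb' : b + k ≤ B.R) {b0 : Port (ℤ × ℤ)}
    (O : Ord w (KD B) b0) {m1 m2 m3 : Port (ℤ × ℤ)} (hM : Mk w m1 m2 m3)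
    (hA : ∀ m, m = m1 ∨ m = m2 ∨ m = m3 → ∃ t d, m = some (t, d) ∧ t ∈ A)
    {Sp W : Finset (ℤ × ℤ)} {Δ a' a0 c0 c' : ℤ} (hW : Faces B Sp W) (hΔ : 0 < Δ) (hΔa : Δ ≤ a0 + 1)
    (hΔc : c0 + Δ < B.R) (P : Pm B k a' a0 c0 c') {η : ℝ}
    (hQ : ∀ f ∈ W, ∃ Bad : Set (ℤ × ℤ → Bool), (PB fun _ : ℤ × ℤ => Rs689.hf).real Bad ≤ η ∧
      ∀ s ∉ Bad, Quiet w m1 m2 m3 (Bx f.1 f.2 (Δ.toNat + 1)) s) :
    ∃ Bad : Set (ℤ × ℤ → Bool), (PB fun _ : ℤ × ℤ => Rs689.hf).real Bad ≤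
      W.card * η + (PB fun _ : ℤ × ℤ => Rs689.hf).real (gateD hz P)ᶜ ∧
      ∀ s ∉ Bad, ∀ j ∈ Ico (idL (L w) m1 m2) (idL (L w) m1 m3),
        pm (eD B y0 k) (enL (L w) m1 j) ∉
          Jd B b Sp Δ a0 c0 (pm (eD B y0 k) m2) (pm (eD B y0 k) m3) → SmP w s m1 m2 j = 0 := by
  classical
  choose! Bd hB1 hB2 using hQ
  have nat : ∀ m, m = m1 ∨ m = m2 ∨ m = m3 → m ∈ L w → NatD B m ∨ NatS B k m := by
    intro m hm hmL
    obtain ⟨t, d, e, ht⟩ := hA m hm
    exact Or.inl (natD_of_mem H hw hmL e ht)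
  have n2 := nat m2 (Or.inr (Or.inl rfl)) hM.2.1
  have n3 := nat m3 (Or.inr (Or.inr rfl)) hM.2.2.1
  obtain ⟨t1, d1, e1, ht1⟩ := hA m1 (Or.inl rfl)
  obtain ⟨t2, d2, e2, ht2⟩ := hA m2 (Or.inr (Or.inl rfl))
  have nd1 : ¬ Deep B y0 k a' c' m1 := by rw [e1]; exact not_deep H.hf ht1 _
  have nd2 : ¬ Deep B y0 k a' c' m2 := by rw [e2]; exact not_deep H.hf ht2 _
  refine ⟨(⋃ f ∈ W, Bd f) ∪ (gateD hz P)ᶜ, ?_, ?_⟩
  · have h1 := measureReal_union_le (μ := PB fun _ : ℤ × ℤ => Rs689.hf) (⋃ f ∈ W, Bd f)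
      (gateD hz P)ᶜ
    have h2 : (PB fun _ : ℤ × ℤ => Rs689.hf).real (⋃ f ∈ W, Bd f) ≤ W.card * η := by
      refine (measureReal_biUnion_finset_le W Bd).trans ?_
      refine (Finset.sum_le_sum fun f hf => hB1 f hf).trans ?_
      rw [Finset.sum_const, nsmul_eq_mul]
    linarith
  · intro s hs j hj hJ
    obtain ⟨hj1, hj2⟩ := mem_Ico.1 hj
    rw [Set.mem_union, not_or, Set.mem_compl_iff, not_not, Set.mem_iUnion₂] at hs
    obtain ⟨hs1, hs2⟩ := hs
    have l3 : idL (L w) m1 m3 < (L w).length := idL_lt (m1 := m1) hM.2.2.1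
    have hjl : j < (L w).length := hj2.trans l3
    rcases cls_drop H hw P.kR hz hb hb' O hM n2 n3 hW hΔ hΔa P.h2 P.h3 hΔc hj1 hj2 hJ with h | h
    · exact gateD_zero H.hf hw hs2 hM.1 hM.2.1 nd1 nd2 hjl h
    · obtain ⟨f, hf, t, d, e, ht⟩ := h
      exact hB2 f hf s (fun h => hs1 ⟨f, hf, h⟩) j hj1 hj2 ⟨t, d, e, ht⟩

end Crest.Agent.R158.Qg300
end
end

-- ▼ part R158/Qg2_300
section

/-!
# R158, evaluation: the windows at the special tiles of a marked polygon (helper300)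

* `WinOk` : hypotheses of `Dp440.quad_drop` at a face
* `NumW` : numerical hypotheses
* `win_vert`, `win_mark`, `win_mouth` : the three kinds of faces
* `FW P L B` : the faces; **`faces_FW : Faces B (SpP P L B) (FW P L B)`**, **`win_FW`**, `card_FW`
-/

set_option autoImplicit false
set_option linter.unusedVariables false
set_option linter.unusedSectionVars false
set_option linter.unusedSimpArgs false

noncomputable section

namespace Crest.Agent.R158.Qg300

open Finset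
open Crest.Agent.R158.Sw300 (Port)
open Crest.Agent.R158.Env664 (TG Band Run D mark nbc mem_D div_iff)
open Crest.Agent.R158.Xr249 (Dp mem_Dp Free)
open Crest.Agent.R158.Dp440 (Quad)
open Crest.Agent.R158.Cw161 (Bx FarM)
open Crest.Agent.R158.Tj656 (P4)
open Crest.Agent.R158.Fm857 (SpP mem_SpP vertP mem_vertP mouthC mem_mouthC mkP tlP)
open Crest.Agent.R158.Cs410 (mk)

/-- hypotheses of `quad_drop` at the face `f` -/
def WinOk (A : Finset (ℤ × ℤ)) (y0 : ℤ) (R1 R2 : ℕ) (m1 m2 m3 : Port (ℤ × ℤ)) (f : ℤ × ℤ) : Prop :=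
  ∃ f00 f10 f01 f11 : Prop, Quad A f.1 f.2 (R1 + 1) f00 f10 f01 f11 ∧
    ¬ (f00 ∧ f11 ∧ ¬ f10 ∧ ¬ f01) ∧ ¬ (f10 ∧ f01 ∧ ¬ f00 ∧ ¬ f11) ∧ (R2 : ℤ) + 1 < |f.2 - y0| ∧
    (FarM f.1 f.2 R1 m1 ∨ (FarM f.1 f.2 R1 m2 ∧ FarM f.1 f.2 R1 m3))

/-- numerical hypotheses of the windows -/
structure NumW (P : P4) (a b r L k y0 : ℤ) (B : Band (D P.F L)) (s m R1 R2 : ℕ) : Prop where
  run : Run P.F a b r
  hL : 64 ≤ L
  hev : Even L
  xl : B.xl = a * L
  xr : B.xr = b * L + L - 1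
  a1 : y0 - s ≤ B.y1
  a4 : B.y2 ≤ y0 + s
  row : (r * L < y0 - m ∧ y0 + m ≤ r * L + L / 2 - 1) ∨
    (r * L + L / 2 < y0 - m ∧ y0 + m ≤ r * L + L - 1)
  hm : R2 + s + 4 ≤ m
  R12 : R1 ≤ R2
  Rk : (R1 : ℤ) + 1 ≤ k
  kL : k ≤ L
  q1 : (R2 : ℤ) + 2 ≤ y0 - B.y1
  q2 : (R2 : ℤ) + 3 ≤ B.y2 - y0
  RL : 4 * (R1 : ℤ) + 16 ≤ L

section

variable {P : P4} {a b r L k y0 : ℤ} {B : Band (D P.F L)} {s m R1 R2 : ℕ}

lemma mk_mt (i : Fin 3) : mk P L i = some (Hb656.mt P L i) := Hb656.mark_eq L _ _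

lemma out_Dp {A : Finset (ℤ × ℤ)} {xl xr y1 y2 : ℤ} {t : ℤ × ℤ} (h : t.2 < y1 ∨ y2 ≤ t.2) :
    t ∈ Dp A xl xr y1 y2 k ↔ t ∈ A := by
  obtain ⟨x, y⟩ := t
  rw [mem_Dp]
  simp only at h
  constructor
  · rintro (h1 | h1 | h1)
    · exact h1
    · omega
    · omega
  · exact Or.inl

variable (N : NumW P a b r L k y0 B s m R1 R2)

include N

lemma NumW.row' : r * L < y0 - m ∧ y0 + m ≤ r * L + L - 1 := by
  have := N.hL
  rcases N.row with h | h <;> omega

/-- rows of the marks -/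
lemma NumW.mrow (i : Fin 3) : (Hb656.mt P L i).1.2 < y0 - m ∨ y0 + m ≤ (Hb656.mt P L i).1.2 :=
  Cs410.mark_row (by have := N.hL; omega) N.hev (P.cc i).1 (P.cc i).2 N.row _
    (by rw [Hb656.mark_eq]; rfl)

/-- **windows at the vertices** -/
theorem win_vert (i j : ℤ) : WinOk (Dp (D P.F L) B.xl B.xr B.y1 B.y2 k) y0 R1 R2
    (mk P L 0) (mk P L 1) (mk P L 2) (i * L - 1, j * L - 1) := by
  have hL := N.hL
  have h1 := N.row'
  have h2 := N.a1
  have h3 := N.a4
  have h4 := N.hm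
  have h5 := N.R12
  have h6 := N.RL
  have hj : j * L ≤ r * L ∨ r * L + L ≤ j * L := by
    rcases lt_or_ge r j with g | g
    · right
      have : (r + 1) * L ≤ j * L := mul_le_mul_of_nonneg_right (by omega) (by omega)
      have e : (r + 1) * L = r * L + L := by ring
      omega
    · left
      exact mul_le_mul_of_nonneg_right g (by omega)
  obtain ⟨g1, g2⟩ := Hb656.np_P4 P (i - 1) (j - 1)
  rw [sub_add_cancel, sub_add_cancel] at g1 g2
  refine ⟨(i - 1, j - 1) ∈ P.F, (i, j - 1) ∈ P.F, (i - 1, j) ∈ P.F, (i, j) ∈ P.F, ?_, g1, g2, ?_,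
    Or.inl ?_⟩
  · intro t ht
    unfold Bx at ht
    push_cast at ht
    rw [out_Dp (by omega)]
    obtain ⟨x, y⟩ := t
    simp only at ht ⊢
    rw [Cn161.mem_vert (F := P.F) (i := i) (j := j) (by omega) (by omega) (by omega) (by omega)
      (by omega)]
    constructor
    · rintro (h | h | h | h)
      · exact Or.inl ⟨by omega, by omega, h.2.2⟩
      · exact Or.inr (Or.inr (Or.inl ⟨by omega, by omega, h.2.2⟩))
      · exact Or.inr (Or.inl ⟨by omega, by omega, h.2.2⟩)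
      · exact Or.inr (Or.inr (Or.inr ⟨by omega, by omega, h.2.2⟩))
    · rintro (h | h | h | h)
      · exact Or.inl ⟨by omega, by omega, h.2.2⟩
      · exact Or.inr (Or.inr (Or.inl ⟨by omega, by omega, h.2.2⟩))
      · exact Or.inr (Or.inl ⟨by omega, by omega, h.2.2⟩)
      · exact Or.inr (Or.inr (Or.inr ⟨by omega, by omega, h.2.2⟩))
  · rw [lt_abs]
    simp only
    rcases hj with h | h
    · right; omega
    · left; omega
  · intro t d e ht
    rw [mk_mt] at e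
    have e' : Hb656.mt P L 0 = (t, d) := Option.some.inj e
    have := Cn161.mt_far (P := P) (i := i) (j := j) (by omega) h6 0 (s := t)
      (Or.inl (by rw [e']))
    apply this
    unfold Bx at ht
    simp only at ht
    omega

/-- face of a mark -/
def mkF (P : P4) (L : ℤ) (i : Fin 3) : ℤ × ℤ :=
  (if (P.cc i).2 = 0 then (Hb656.mt P L i).1.1 - 1 else (Hb656.mt P L i).1.1,
    if (P.cc i).2 = 3 then (Hb656.mt P L i).1.2 - 1 else (Hb656.mt P L i).1.2)

omit N in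
lemma mkF_cases (i : Fin 3) : ((mkF P L i).1 = (Hb656.mt P L i).1.1 ∨
    (mkF P L i).1 = (Hb656.mt P L i).1.1 - 1) ∧ ((mkF P L i).2 = (Hb656.mt P L i).1.2 ∨
    (mkF P L i).2 = (Hb656.mt P L i).1.2 - 1) := by
  unfold mkF
  constructor <;> simp only <;> split_ifs <;> simp

omit N in
/-- membership from the cell -/
lemma mem_cell {F : Finset (ℤ × ℤ)} (hL : 0 < L) {x y c d : ℤ} (h1 : c * L ≤ x)
    (h2 : x < c * L + L) (h3 : d * L ≤ y) (h4 : y < d * L + L) : (x, y) ∈ D F L ↔ (c, d) ∈ F := by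
  rw [mem_D hL]
  simp only
  rw [(div_iff hL x c).2 ⟨h1, h2⟩, (div_iff hL y d).2 ⟨h3, h4⟩]

/-- **windows at the marks** -/
theorem win_mark (i : Fin 3) : WinOk (Dp (D P.F L) B.xl B.xr B.y1 B.y2 k) y0 R1 R2
    (mk P L 0) (mk P L 1) (mk P L 2) (mkF P L i) := by
  have hL := N.hL
  have h1 := N.row'
  have h2 := N.a1
  have h3 := N.a4
  have h4 := N.hm
  have h5 := N.R12
  have h6 := N.RL
  have hm := N.mrow i
  have hc := mkF_cases (P := P) (L := L) i
  have hout : ∀ t, Bx (mkF P L i).1 (mkF P L i).2 (R1 + 1) t →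
      (t ∈ Dp (D P.F L) B.xl B.xr B.y1 B.y2 k ↔ t ∈ D P.F L) := by
    intro t ht
    unfold Bx at ht
    push_cast at ht
    exact out_Dp (by omega)
  have hfar : FarM (mkF P L i).1 (mkF P L i).2 R1 (mk P L 0) ∨
      (FarM (mkF P L i).1 (mkF P L i).2 R1 (mk P L 1) ∧
        FarM (mkF P L i).1 (mkF P L i).2 R1 (mk P L 2)) := by
    have key : ∀ j, i ≠ j → FarM (mkF P L i).1 (mkF P L i).2 R1 (mk P L j) := by
      intro j hj t d e ht
      rw [mk_mt] at e
      have e' : Hb656.mt P L j = (t, d) := Option.some.inj e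
      have hd : L / 2 ≤ |(Hb656.mt P L i).1.1 - (Hb656.mt P L j).1.1| ∨
          L / 2 ≤ |(Hb656.mt P L i).1.2 - (Hb656.mt P L j).1.2| :=
        Hw949.mt_dist P (by omega) N.hev hj
      rw [e', le_abs, le_abs] at hd
      unfold Bx at ht
      simp only at hd
      omega
    by_cases hi : i = 0
    · subst hi
      exact Or.inr ⟨key 1 (by decide), key 2 (by decide)⟩
    · exact Or.inl (key 0 hi)
  have hrow : (R2 : ℤ) + 1 < |(mkF P L i).2 - y0| := by
    rw [lt_abs]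
    omega
  obtain ⟨c1, c2⟩ := Hw949.ci_spec P i
  obtain ⟨l, hl⟩ := id N.hev
  have hl2 : L / 2 = l := by omega
  revert hout hfar hrow
  unfold mkF Hb656.mt
  obtain ⟨⟨c, d⟩, hcd⟩ : ∃ z, z = P.cc i := ⟨_, rfl⟩
  rw [← hcd] at c1 c2 ⊢
  obtain ⟨u, v⟩ := c
  simp only at c1 c2 ⊢
  have eu1 : (u - 1) * L = u * L - L := by ring
  have eu2 : (u + 1) * L = u * L + L := by ring
  have ev1 : (v - 1) * L = v * L - L := by ring
  have ev2 : (v + 1) * L = v * L + L := by ring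
  rcases Env664.z4 d with rfl | rfl | rfl | rfl
  · -- west
    have en : nbc (u, v) 0 = (u - 1, v) := rfl
    rw [en] at c2
    have em : Hb656.mk2 L (u, v) 0 = ((u * L, v * L + L / 2), 0) := rfl
    rw [em, if_pos rfl, if_neg (by decide)]
    intro hout hfar hrow
    refine ⟨False, True, False, True, ?_, by simp, by simp, hrow, hfar⟩
    intro t ht
    rw [hout t ht]
    unfold Bx at ht
    push_cast at ht
    obtain ⟨x, y⟩ := t
    simp only [and_true, and_false, or_false, false_or] at ht ⊢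
    rcases lt_or_ge x (u * L) with g | g
    · rw [mem_cell (c := u - 1) (d := v) (by omega) (by omega) (by omega) (by omega) (by omega)]
      exact iff_of_false c2 (by omega)
    · rw [mem_cell (c := u) (d := v) (by omega) (by omega) (by omega) (by omega) (by omega)]
      exact iff_of_true c1 (by omega)
  · -- north
    have n10 : (1 : ZMod 4) ≠ 0 := by decide
    have en : nbc (u, v) 1 = (u, v + 1) := by unfold nbc; rw [if_neg n10, if_pos rfl]
    rw [en] at c2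
    have em : Hb656.mk2 L (u, v) 1 = ((u * L + L / 2, v * L + L - 1), 1) := Hw949.mtl_1 _ _
    rw [em, if_neg n10, if_neg (by decide)]
    intro hout hfar hrow
    refine ⟨True, True, False, False, ?_, by simp, by simp, hrow, hfar⟩
    intro t ht
    rw [hout t ht]
    unfold Bx at ht
    push_cast at ht
    obtain ⟨x, y⟩ := t
    simp only [and_true, and_false, or_false, false_or] at ht ⊢
    rcases lt_or_ge y (v * L + L) with g | g
    · rw [mem_cell (c := u) (d := v) (by omega) (by omega) (by omega) (by omega) (by omega)]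
      exact iff_of_true c1 (by omega)
    · rw [mem_cell (c := u) (d := v + 1) (by omega) (by omega) (by omega) (by omega) (by omega)]
      exact iff_of_false c2 (by omega)
  · -- east
    have n20 : (2 : ZMod 4) ≠ 0 := by decide
    have n21 : (2 : ZMod 4) ≠ 1 := by decide
    have en : nbc (u, v) 2 = (u + 1, v) := by
      unfold nbc; rw [if_neg n20, if_neg n21, if_pos rfl]
    rw [en] at c2
    have em : Hb656.mk2 L (u, v) 2 = ((u * L + L - 1, v * L + L / 2 - 1), 2) := Hw949.mtl_2 _ _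
    rw [em, if_neg n20, if_neg (by decide)]
    intro hout hfar hrow
    refine ⟨True, False, True, False, ?_, by simp, by simp, hrow, hfar⟩
    intro t ht
    rw [hout t ht]
    unfold Bx at ht
    push_cast at ht
    obtain ⟨x, y⟩ := t
    simp only [and_true, and_false, or_false, false_or] at ht ⊢
    rcases lt_or_ge x (u * L + L) with g | g
    · rw [mem_cell (c := u) (d := v) (by omega) (by omega) (by omega) (by omega) (by omega)]
      exact iff_of_true c1 (by omega)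
    · rw [mem_cell (c := u + 1) (d := v) (by omega) (by omega) (by omega) (by omega) (by omega)]
      exact iff_of_false c2 (by omega)
  · -- south
    have n30 : (3 : ZMod 4) ≠ 0 := by decide
    have n31 : (3 : ZMod 4) ≠ 1 := by decide
    have n32 : (3 : ZMod 4) ≠ 2 := by decide
    have en : nbc (u, v) 3 = (u, v - 1) := by
      unfold nbc; rw [if_neg n30, if_neg n31, if_neg n32]
    rw [en] at c2
    have em : Hb656.mk2 L (u, v) 3 = ((u * L + L / 2 - 1, v * L), 3) := Hw949.mtl_3 _ _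
    rw [em, if_neg n30, if_pos rfl]
    intro hout hfar hrow
    refine ⟨False, False, True, True, ?_, by simp, by simp, hrow, hfar⟩
    intro t ht
    rw [hout t ht]
    unfold Bx at ht
    push_cast at ht
    obtain ⟨x, y⟩ := t
    simp only [and_true, and_false, or_false, false_or] at ht ⊢
    rcases lt_or_ge y (v * L) with g | g
    · rw [mem_cell (c := u) (d := v - 1) (by omega) (by omega) (by omega) (by omega) (by omega)]
      exact iff_of_false c2 (by omega)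
    · rw [mem_cell (c := u) (d := v) (by omega) (by omega) (by omega) (by omega) (by omega)]
      exact iff_of_true c1 (by omega)

/-- tiles of the run and beyond it -/
lemma NumW.run_in {x y : ℤ} (h1 : B.xl ≤ x) (h2 : x ≤ B.xr) (h3 : r * L ≤ y)
    (h4 : y < r * L + L) : (x, y) ∈ D P.F L := by
  rw [N.xl] at h1
  rw [N.xr] at h2
  exact (N.run.scale (by have := N.hL; omega) (by omega) (by omega)).mem x h1 h2

lemma NumW.run_r {x y : ℤ} (h1 : B.xr < x) (h2 : x ≤ B.xr + L) (h3 : r * L ≤ y)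
    (h4 : y < r * L + L) : (x, y) ∉ D P.F L := by
  rw [N.xr] at h1 h2
  have e : (b + 1) * L = b * L + L := by ring
  rw [mem_cell (c := b + 1) (d := r) (by have := N.hL; omega) (by omega) (by omega) h3 h4]
  exact N.run.right

lemma NumW.run_l {x y : ℤ} (h1 : x < B.xl) (h2 : B.xl - L ≤ x) (h3 : r * L ≤ y)
    (h4 : y < r * L + L) : (x, y) ∉ D P.F L := by
  rw [N.xl] at h1 h2
  have e : (a - 1) * L = a * L - L := by ring
  rw [mem_cell (c := a - 1) (d := r) (by have := N.hL; omega) (by omega) (by omega) h3 h4]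
  exact N.run.left

lemma NumW.len : B.xl + L - 1 ≤ B.xr := by
  rw [N.xl, N.xr]
  have := mul_le_mul_of_nonneg_right N.run.le (by have := N.hL; omega : 0 ≤ L)
  omega

/-- **windows at the mouths** -/
theorem win_mouth {X Y : ℤ} (hX : X = B.xr ∨ X = B.xl - 1) (hY : Y = B.y1 - 1 ∨ Y = B.y2 - 1) :
    WinOk (Dp (D P.F L) B.xl B.xr B.y1 B.y2 k) y0 R1 R2
    (mk P L 0) (mk P L 1) (mk P L 2) (X, Y) := by
  have hL := N.hL
  have h1 := N.row'
  have h2 := N.a1
  have h3 := N.a4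
  have h4 := N.hm
  have h5 := N.R12
  have h6 := N.RL
  have h7 := N.Rk
  have h8 := N.q1
  have h9 := N.q2
  have h10 := N.kL
  have hlen := N.len
  have hm : ∀ i, (Hb656.mt P L i).1.2 < y0 - m ∨ y0 + m ≤ (Hb656.mt P L i).1.2 := N.mrow
  have hfar : FarM X Y R1 (mk P L 0) := by
    intro t d e ht
    rw [mk_mt] at e
    have e' : Hb656.mt P L 0 = (t, d) := Option.some.inj e
    have := hm 0
    rw [e'] at this
    unfold Bx at ht
    simp only at this
    omega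
  have hrow : (R2 : ℤ) + 1 < |Y - y0| := by
    rw [lt_abs]
    rcases hY with rfl | rfl
    · right; omega
    · left; omega
  have hin : ∀ {x y : ℤ}, B.xl ≤ x → x ≤ B.xr → r * L ≤ y → y < r * L + L → (x, y) ∈ D P.F L :=
    fun g1 g2 g3 g4 => N.run_in g1 g2 g3 g4
  have hr : ∀ {x y : ℤ}, B.xr < x → x ≤ B.xr + L → r * L ≤ y → y < r * L + L →
      (x, y) ∉ D P.F L := fun g1 g2 g3 g4 => N.run_r g1 g2 g3 g4
  have hl : ∀ {x y : ℤ}, x < B.xl → B.xl - L ≤ x → r * L ≤ y → y < r * L + L →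
      (x, y) ∉ D P.F L := fun g1 g2 g3 g4 => N.run_l g1 g2 g3 g4
  rcases hX with rfl | rfl <;> rcases hY with rfl | rfl
  · refine ⟨True, False, True, True, ?_, by simp, by simp, hrow, Or.inl hfar⟩
    rintro ⟨x, y⟩ ht
    unfold Bx at ht
    push_cast at ht
    simp only [and_true, and_false, or_false, false_or] at ht ⊢
    rw [mem_Dp]
    rcases le_or_gt x B.xr with g | g
    · exact iff_of_true (Or.inl (hin (by omega) g (by omega) (by omega))) (by omega)
    · have hn := hr (x := x) (y := y) g (by omega) (by omega) (by omega)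
      simp only [hn, false_or]
      constructor <;> intro h <;> omega
  · refine ⟨True, True, True, False, ?_, by simp, by simp, hrow, Or.inl hfar⟩
    rintro ⟨x, y⟩ ht
    unfold Bx at ht
    push_cast at ht
    simp only [and_true, and_false, or_false, false_or] at ht ⊢
    rw [mem_Dp]
    rcases le_or_gt x B.xr with g | g
    · exact iff_of_true (Or.inl (hin (by omega) g (by omega) (by omega))) (by omega)
    · have hn := hr (x := x) (y := y) g (by omega) (by omega) (by omega)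
      simp only [hn, false_or]
      constructor <;> intro h <;> omega
  · refine ⟨False, True, True, True, ?_, by simp, by simp, hrow, Or.inl hfar⟩
    rintro ⟨x, y⟩ ht
    unfold Bx at ht
    push_cast at ht
    simp only [and_true, and_false, or_false, false_or] at ht ⊢
    rw [mem_Dp]
    rcases le_or_gt B.xl x with g | g
    · exact iff_of_true (Or.inl (hin g (by omega) (by omega) (by omega))) (by omega)
    · have hn := hl (x := x) (y := y) g (by omega) (by omega) (by omega)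
      simp only [hn, false_or]
      constructor <;> intro h <;> omega
  · refine ⟨True, True, False, True, ?_, by simp, by simp, hrow, Or.inl hfar⟩
    rintro ⟨x, y⟩ ht
    unfold Bx at ht
    push_cast at ht
    simp only [and_true, and_false, or_false, false_or] at ht ⊢
    rw [mem_Dp]
    rcases le_or_gt B.xl x with g | g
    · exact iff_of_true (Or.inl (hin g (by omega) (by omega) (by omega))) (by omega)
    · have hn := hl (x := x) (y := y) g (by omega) (by omega) (by omega)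
      simp only [hn, false_or]
      constructor <;> intro h <;> omega

end

/-! ### the faces -/

/-- the faces of the windows -/
def FW (P : P4) (L : ℤ) (B : Band (D P.F L)) : Finset (ℤ × ℤ) :=
  (vertP P.F L).image (fun v => (v.1 - 1, v.2 - 1)) ∪ univ.image (fun i => mkF P L i) ∪
    {(B.xr, B.y1 - 1), (B.xr, B.y2 - 1), (B.xl - 1, B.y1 - 1), (B.xl - 1, B.y2 - 1)}

variable {P : P4} {a b r L k y0 : ℤ} {B : Band (D P.F L)} {s m R1 R2 : ℕ}

lemma mem_FW {f : ℤ × ℤ} : f ∈ FW P L B ↔ (∃ v ∈ vertP P.F L, (v.1 - 1, v.2 - 1) = f) ∨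
    (∃ i, mkF P L i = f) ∨ f = (B.xr, B.y1 - 1) ∨ f = (B.xr, B.y2 - 1) ∨
      f = (B.xl - 1, B.y1 - 1) ∨ f = (B.xl - 1, B.y2 - 1) := by
  unfold FW
  rw [mem_union, mem_union, mem_image, mem_image]
  simp only [mem_univ, true_and, mem_insert, mem_singleton, or_assoc]

lemma tlP_mk (i : Fin 3) : tlP (mkP P L i) = (Hb656.mt P L i).1 := by
  have : mkP P L i = some (Hb656.mt P L i) := Hb656.mark_eq L _ _
  rw [this]
  rfl

/-- **the special tiles have faces** -/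
theorem faces_FW : Faces B (SpP P L B) (FW P L B) where
  sp := by
    intro v hv
    rw [mem_SpP] at hv
    rcases hv with hv | ⟨j, rfl⟩ | hv
    · exact ⟨_, mem_FW.2 (Or.inl ⟨v, hv, rfl⟩), Or.inr rfl, Or.inr rfl⟩
    · refine ⟨_, mem_FW.2 (Or.inr (Or.inl ⟨j, rfl⟩)), ?_⟩
      rw [tlP_mk]
      exact mkF_cases j
    · rw [mem_mouthC] at hv
      rcases hv with rfl | rfl | rfl | rfl
      · exact ⟨(B.xl - 1, B.y1 - 1), mem_FW.2 (by simp), Or.inr rfl, Or.inr rfl⟩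
      · exact ⟨(B.xl - 1, B.y2 - 1), mem_FW.2 (by simp), Or.inr rfl, Or.inl rfl⟩
      · exact ⟨(B.xr, B.y1 - 1), mem_FW.2 (by simp), Or.inl rfl, Or.inr rfl⟩
      · exact ⟨(B.xr, B.y2 - 1), mem_FW.2 (by simp), Or.inl rfl, Or.inl rfl⟩
  r1 := mem_FW.2 (by simp)
  r2 := mem_FW.2 (by simp)
  l1 := mem_FW.2 (by simp)
  l2 := mem_FW.2 (by simp)

/-- **all windows satisfy the hypotheses** -/
theorem win_FW (N : NumW P a b r L k y0 B s m R1 R2) : ∀ f ∈ FW P L B,
    WinOk (Dp (D P.F L) B.xl B.xr B.y1 B.y2 k) y0 R1 R2 (mk P L 0) (mk P L 1) (mk P L 2) f := by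
  intro f hf
  rcases mem_FW.1 hf with ⟨v, hv, rfl⟩ | ⟨i, rfl⟩ | rfl | rfl | rfl | rfl
  · obtain ⟨c, -, h⟩ := mem_vertP.1 hv
    rcases h with rfl | rfl | rfl | rfl
    · exact win_vert N _ _
    · exact win_vert N _ _
    · exact win_vert N _ _
    · exact win_vert N _ _
  · exact win_mark N i
  · exact win_mouth N (Or.inl rfl) (Or.inl rfl)
  · exact win_mouth N (Or.inl rfl) (Or.inr rfl)
  · exact win_mouth N (Or.inr rfl) (Or.inl rfl)
  · exact win_mouth N (Or.inr rfl) (Or.inr rfl)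

/-- number of faces -/
theorem card_FW : (FW P L B).card ≤ 4 * P.F.card + 7 := by
  have h1 : (vertP P.F L).card ≤ 4 * P.F.card := by
    unfold vertP
    refine (card_biUnion_le).trans ?_
    rw [mul_comm, ← smul_eq_mul]
    refine sum_le_card_nsmul _ _ _ fun c _ => ?_
    refine (card_insert_le _ _).trans ?_
    have := card_le_three (a := ((c.1 + 1) * L, c.2 * L)) (b := (c.1 * L, (c.2 + 1) * L))
      (c := ((c.1 + 1) * L, (c.2 + 1) * L))
    omega
  have h0 := card_image_le (s := vertP P.F L) (f := fun v : ℤ × ℤ => (v.1 - 1, v.2 - 1))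
  have h2 : (univ.image (fun i => mkF P L i) : Finset (ℤ × ℤ)).card ≤ 3 :=
    card_image_le.trans (by simp)
  have h3 : ({(B.xr, B.y1 - 1), (B.xr, B.y2 - 1), (B.xl - 1, B.y1 - 1),
      (B.xl - 1, B.y2 - 1)} : Finset (ℤ × ℤ)).card ≤ 4 := by
    refine (card_insert_le _ _).trans ?_
    have := card_le_three (a := (B.xr, B.y2 - 1)) (b := (B.xl - 1, B.y1 - 1))
      (c := (B.xl - 1, B.y2 - 1))
    omega
  unfold FW
  refine (card_union_le _ _).trans ?_
  have := card_union_le ((vertP P.F L).image (fun v => (v.1 - 1, v.2 - 1)))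
    (univ.image (fun i => mkF P L i))
  omega

end Crest.Agent.R158.Qg300
end
end

-- ▼ part R158/Qg3_300
section

/-!
# R158, evaluation: the dropped part for a marked polygon (helper300)

* `qpow2` : `q ^ N ≤ C h ^ 2` for `N ≥ c / h`
* **`drop_point`** : `‖HW - ∫ valD‖` for one point of the band
* **`drop_all`** : `≤ C h ^ 2` for a suitable cut `δ(h)`
-/

set_option autoImplicit false
set_option linter.unusedVariables false
set_option linter.unusedSectionVars false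

noncomputable section

namespace Crest.Agent.R158.Qg300

open Finset MeasureTheory Filter Topology
open Crest.Agent.R158.Sw300 (Port Wd L)
open Crest.Agent.R158.Al194
open Crest.Agent.R158.Ob664 (GW HW)
open Crest.Agent.R158.Rs689 (PB)
open Crest.Agent.R158.Env664 (TG Band Run D beD)
open Crest.Agent.R158.Xr249 (Dp full pm eD)
open Crest.Agent.R158.Qc405 (TabH)
open Crest.Agent.R158.Oc194
open Crest.Agent.R158.Qe249 (Pm gateD)
open Crest.Agent.R158.Ad350 (valD)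
open Crest.Agent.R158.Dp440 (Quad)
open Crest.Agent.R158.Cw161 (Bx FarM)
open Crest.Agent.R158.Tj656 (P4)
open Crest.Agent.R158.Fm857 (SpP JP DelP mkP mkG)
open Crest.Agent.R158.Cs410 (mk OnB InHalf)

/-- powers of `q` -/
theorem qpow2 {q : ℝ} (h0 : 0 < q) (h1 : q < 1) : ∃ C : ℝ, 0 ≤ C ∧ ∀ (h : ℝ) (N : ℕ), 0 < h →
    1 ≤ 250 * h * (N + 1) → q ^ N ≤ C * h ^ 2 := by
  have ht := tendsto_pow_const_mul_const_pow_of_lt_one 2 h0.le h1
  obtain ⟨M, hM⟩ := ht.bddAbove_range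
  have hM' : ∀ n : ℕ, (n : ℝ) ^ 2 * q ^ n ≤ M := fun n => hM (Set.mem_range_self n)
  have hM0 : 0 ≤ M := by have := hM' 0; simpa using this
  refine ⟨M / q * 62500, by positivity, fun h N hh hN => ?_⟩
  have h2 := hM' (N + 1)
  have h3 : (0 : ℝ) < N + 1 := by positivity
  push_cast at h2
  rw [pow_succ q N] at h2
  have h4 : 1 ≤ (250 * h * (N + 1)) ^ 2 := one_le_pow₀ hN
  have h5 : q ^ N * q ≤ M * (250 * h) ^ 2 := by
    have h6 : 0 < q ^ N * q := by positivity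
    calc q ^ N * q ≤ (q ^ N * q) * (250 * h * (N + 1)) ^ 2 := le_mul_of_one_le_right h6.le h4
      _ = ((N + 1 : ℝ) ^ 2 * (q ^ N * q)) * (250 * h) ^ 2 := by ring
      _ ≤ M * (250 * h) ^ 2 := mul_le_mul_of_nonneg_right h2 (by positivity)
  have e : M / q * 62500 * h ^ 2 = (M * (250 * h) ^ 2) / q := by ring
  rw [e, le_div_iff₀ h0]
  exact h5

/-- **the dropped part at one point** -/
theorem drop_point : ∃ C α q : ℝ, 0 < C ∧ 0 < α ∧ 0 < q ∧ q < 1 ∧
    ∀ (P : P4) (a b r l : ℤ) (h y δ : ℝ) (B : Band (D P.F l)) (p y0 : ℤ) (s m R1 R2 N : ℕ),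
    OnB a b l h y B → NumW P a b r l (l / 8) y0 B s m R1 R2 → B.At p y0 →
    0 < DelP l δ → DelP l δ + 2 ≤ R1 → DelP l δ ≤ l / 16 → (N : ℤ) * (B.y2 - B.y1) + 1 ≤ l / 32 →
    ∀ w : Wd (ℤ × ℤ), GW (Dp (D P.F l) B.xl B.xr B.y1 B.y2 (l / 8))
      (beD (Dp (D P.F l) B.xl B.xr B.y1 B.y2 (l / 8)) p y0 (B.xr + l / 8)) w →
    Mk w (mk P l 0) (mk P l 1) (mk P l 2) →
    ‖HW w (mk P l 0) (mk P l 1) (mk P l 2) - ∫ s : TG → Bool,
      valD B p y0 (l / 8) (l / 2) (mkG P l 0) (mkG P l 1) (JP P l δ B) w (s ∘ eD B y0 (l / 8))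
        ∂(PB fun _ : TG => Rs689.hf)‖ ≤
      7 / 2 * ((4 * P.F.card + 7 : ℕ) * (C * (((DelP l δ + 1 : ℝ) / R1) ^ α + ((R1 : ℝ) / R2) ^ α)) +
        4 * q ^ N) := by
  obtain ⟨C, α, hC, hα, hQ⟩ := Dp440.quad_drop
  obtain ⟨q, hq, hq1, hG⟩ := Qe249.gateD_prob
  refine ⟨C, α, q, hC, hα, hq, hq1, ?_⟩
  intro P a b r l h y δ B p y0 s m R1 R2 N hB Nw hz hΔ hΔR hΔL hN w hw hM
  have hL := Nw.hL
  have hR : B.R = l := hB.R
  have hrow := Nw.row'
  have ha1 := Nw.a1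
  have ha4 := Nw.a4
  have hm := Nw.hm
  have hR12 := Nw.R12
  have hRk := Nw.Rk
  have z1 := hz.hy1
  have z2 := hz.hy2
  have z3 := hz.hp1
  have z4 := hz.hp2
  have H : TabH (D P.F l) B.xl B.xr B.y1 B.y2 (l / 8) p y0
      (Psi664.psi (full (D P.F l)) (a * l) B.y1) := by
    have e1 := Nw.xl
    have e2 := Nw.xr
    have := Qc405.tabH_mac (Mg949.mac P) Nw.run (L := l) (y1 := B.y1) (y2 := B.y2) (k := l / 8)
      (p := p) (y0 := y0) (by omega) (by omega) (by omega) (by omega) z1 z2 (by omega) (by omega)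
    rw [← e1, ← e2] at this
    rw [← e1]
    exact this
  obtain ⟨w0, l0, -, -, hBW⟩ := Xr249.exists_BW (Xr249.D_SC (Mg949.mac P) (by omega : 0 < l))
    (Xr249.D_Conn (Mg949.mac P) (by omega : 0 < l)) (a0 := B.xl) (t0 := B.y1)
    (Nw.run_in le_rfl H.hf.le (by omega) (by omega))
    (Nw.run_l (by omega) (by omega) (by omega) (by omega))
  have O := ord_D H (by omega : 2 * (l / 8) < B.R) hBW hw
  have Pg : Pm B (l / 8) (l / 32) (l / 16) (l - 1 - l / 16) (l - 2 - l / 32) :=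
    ⟨by omega, by omega, by omega, by omega, by omega, by omega, by omega⟩
  have hgate := (hG (D P.F l) B p y0 (l / 8) (l / 32) (l / 16) (l - 1 - l / 16) (l - 2 - l / 32)
    H.hf hz Pg (B.y2 - B.y1).toNat N (by omega) (by omega)
    (by rw [Int.toNat_of_nonneg (by omega)]; omega)
    (by rw [Int.toNat_of_nonneg (by omega)]; omega)
    (by rw [Int.toNat_of_nonneg (by omega)]; omega)
    (by rw [Int.toNat_of_nonneg (by omega), hR]; omega)).2
  have hΔn : (((DelP l δ).toNat : ℕ) : ℤ) = DelP l δ := Int.toNat_of_nonneg hΔ.le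
  have hΔr : (((DelP l δ).toNat + 1 : ℕ) : ℝ) = (DelP l δ : ℝ) + 1 := by
    push_cast
    have : (((DelP l δ).toNat : ℕ) : ℝ) = (DelP l δ : ℝ) := by exact_mod_cast hΔn
    rw [this]
  have hev := Nw.hev
  have hA : ∀ m, m = mk P l 0 ∨ m = mk P l 1 ∨ m = mk P l 2 → ∃ t d, m = some (t, d) ∧
      t ∈ D P.F l := by
    rintro m (rfl | rfl | rfl)
    · exact mkP_A (by omega) hev 0
    · exact mkP_A (by omega) hev 1
    · exact mkP_A (by omega) hev 2
  obtain ⟨Bad, hBad1, hBad2⟩ := bad_main (b := l / 2) (Sp := SpP P l B) (W := FW P l B)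
    (Δ := DelP l δ) (a0 := l / 16) (c0 := l - 1 - l / 16)
    (η := C * (((DelP l δ + 1 : ℝ) / R1) ^ α + ((R1 : ℝ) / R2) ^ α)) H hw hz (by omega) (by omega) O hM hA
    faces_FW hΔ (by omega) (by rw [hR]; omega) Pg (by
      intro f hf
      obtain ⟨f00, f10, f01, f11, k1, k2, k3, k4, k5⟩ := win_FW Nw f hf
      have hx : (B.xr + l / 8 + 1, y0) ∉ Dp (D P.F l) B.xl B.xr B.y1 B.y2 (l / 8) :=
        H.out (H.nr (by omega) (by omega) (by omega) (by omega)) (by omega)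
      obtain ⟨Bd, b1, b2⟩ := hQ (by omega : p ≤ B.xr + l / 8) hx hw (X := f.1) (Y := f.2)
        (r := (DelP l δ).toNat + 1) (R1 := R1) (R2 := R2) (by omega) (by omega) hR12 k4 k1 k2 k3
        hM.1 hM.2.1 hM.2.2.1 k5
      rw [hΔr] at b1
      exact ⟨Bd, b1, b2⟩)
  have e1 : pm (eD B y0 (l / 8)) (mk P l 1) = mkG P l 1 := pm_mkP H.hf (by omega) hev 1
  have e2 : pm (eD B y0 (l / 8)) (mk P l 2) = mkG P l 2 := pm_mkP H.hf (by omega) hev 2
  rw [e1, e2] at hBad2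
  refine (HW_JP H hw hR hL hev hz hBW hM Bad hBad2).trans ?_
  have hη : 0 ≤ C * (((DelP l δ + 1 : ℝ) / R1) ^ α + ((R1 : ℝ) / R2) ^ α) := by
    have : (0 : ℝ) < DelP l δ := by exact_mod_cast hΔ
    positivity
  have hc : ((FW P l B).card : ℝ) * (C * (((DelP l δ + 1 : ℝ) / R1) ^ α + ((R1 : ℝ) / R2) ^ α)) ≤
      ((4 * P.F.card + 7 : ℕ) : ℝ) * (C * (((DelP l δ + 1 : ℝ) / R1) ^ α + ((R1 : ℝ) / R2) ^ α)) :=
    mul_le_mul_of_nonneg_right (by exact_mod_cast card_FW) hη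
  linarith

/-- number of gates -/
theorem gate_num {h y l : ℝ} {L y1 y2 : ℤ} (hl : l = L) (hh : 0 < h) (hhL : 4 ≤ h * l)
    (hL : 1000 ≤ L) (hy1 : y1 = ⌊(y - 3 * h) * l⌋) (hy2 : y2 = ⌊(y + 3 * h) * l⌋) :
    ∃ N : ℕ, (N : ℤ) * (y2 - y1) + 1 ≤ L / 32 ∧ 1 ≤ 250 * h * (N + 1) := by
  have f5 : (y1 : ℝ) ≤ (y - 3 * h) * l := by rw [hy1]; exact Int.floor_le _
  have f6 : (y - 3 * h) * l < y1 + 1 := by rw [hy1]; exact Int.lt_floor_add_one _
  have f7 : (y2 : ℝ) ≤ (y + 3 * h) * l := by rw [hy2]; exact Int.floor_le _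
  have f8 : (y + 3 * h) * l < y2 + 1 := by rw [hy2]; exact Int.lt_floor_add_one _
  have g1 : ((y2 - y1 : ℤ) : ℝ) ≤ 7 * (h * l) := by push_cast; linarith
  have g2 : (0 : ℝ) < ((y2 - y1 : ℤ) : ℝ) := by push_cast; linarith
  have g3 : 0 < y2 - y1 := by exact_mod_cast g2
  set H : ℤ := y2 - y1 with hH
  set M : ℤ := L / 32 - 1 with hM
  have hM0 : 0 ≤ M := by omega
  obtain ⟨N, hN⟩ : ∃ N : ℕ, (N : ℤ) = M / H := ⟨(M / H).toNat, Int.toNat_of_nonneg
    (Int.ediv_nonneg hM0 g3.le)⟩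
  refine ⟨N, ?_, ?_⟩
  · have := Int.ediv_mul_le M g3.ne'
    rw [hN]
    omega
  · have h1 : M < (M / H + 1) * H := Int.lt_ediv_add_one_mul_self M g3
    rw [← hN] at h1
    have h2 : (M : ℝ) < ((N : ℝ) + 1) * H := by exact_mod_cast h1
    have h3 : (L : ℝ) / 32 - 2 ≤ M := by
      have : L ≤ 32 * M + 64 := by omega
      have : (L : ℝ) ≤ 32 * M + 64 := by exact_mod_cast this
      linarith
    have h4 : (1000 : ℝ) ≤ L := by exact_mod_cast hL
    have h5 : ((N : ℝ) + 1) * H ≤ ((N : ℝ) + 1) * (7 * (h * l)) :=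
      mul_le_mul_of_nonneg_left g1 (by positivity)
    rw [hl] at h5
    have h6 : (L : ℝ) / 32 - 2 < (h * ((N : ℝ) + 1)) * (7 * L) := by
      calc (L : ℝ) / 32 - 2 ≤ M := h3
        _ < ((N : ℝ) + 1) * H := h2
        _ ≤ ((N : ℝ) + 1) * (7 * (h * L)) := h5
        _ = (h * ((N : ℝ) + 1)) * (7 * L) := by ring
    by_contra hc
    push Not at hc
    have h7 : h * ((N : ℝ) + 1) ≤ 1 / 250 := by linarith
    have h8 : (h * ((N : ℝ) + 1)) * (7 * L) ≤ 1 / 250 * (7 * L) :=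
      mul_le_mul_of_nonneg_right h7 (by linarith)
    linarith

/-- **the dropped part is `O(h ^ 2)`** -/
theorem drop_all (P : P4) : ∀ A' B' r : ℤ, Run P.F A' B' r → ∀ a b c e : ℝ, (A' : ℝ) < a → a ≤ b →
    b < B' + 1 → c ≤ e → InHalf r c e → ∃ h0 C : ℝ, 0 < h0 ∧ 0 ≤ C ∧
      ∀ h y : ℝ, 0 < h → h < h0 → c ≤ y → y ≤ e → ∃ δ : ℝ, 0 < δ ∧ δ ≤ h / 100 ∧
        ∃ L0 : ℤ, ∀ l : ℤ, L0 ≤ l → Even l → ∀ B : Band (D P.F l), OnB A' B' l h y B →
          ∀ p y0 : ℤ, a * l ≤ p → (p : ℝ) ≤ b * l → (y - h) * l ≤ y0 → (y0 : ℝ) ≤ (y + h) * l →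
            ∀ w : Wd (ℤ × ℤ), GW (Dp (D P.F l) B.xl B.xr B.y1 B.y2 (l / 8))
              (beD (Dp (D P.F l) B.xl B.xr B.y1 B.y2 (l / 8)) p y0 (B.xr + l / 8)) w →
            Mk w (mk P l 0) (mk P l 1) (mk P l 2) →
            ‖(∫ s : TG → Bool, valD B p y0 (l / 8) (l / 2) (mkG P l 0) (mkG P l 1) (JP P l δ B) w
              (s ∘ eD B y0 (l / 8)) ∂(PB fun _ : TG => Rs689.hf)) -
                HW w (mk P l 0) (mk P l 1) (mk P l 2)‖ ≤ C * h ^ 2 := by
  obtain ⟨C, α, q, hC, hα, hq, hq1, hP⟩ := drop_point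
  obtain ⟨Cq, hCq, hqp⟩ := qpow2 hq hq1
  intro A' B' r hrun a b c1 e1 hA hab hB hce hhalf
  obtain ⟨m, hm0, hm, -, -⟩ := hhalf.margin hce
  set ρ : ℝ := min (m / 2) (min ((a - A') / 2) ((B' + 1 - b) / 2)) with hρ
  have hρ0 : 0 < ρ := lt_min (by linarith) (lt_min (by linarith) (by linarith))
  have ρ1 : ρ ≤ m / 2 := min_le_left _ _
  set K : ℝ := 2 / α with hK
  have hK0 : 0 < K := by positivity
  have hKα : K * α = 2 := by rw [hK]; field_simp
  set Fc : ℝ := ((4 * P.F.card + 7 : ℕ) : ℝ) with hFc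
  have hFc0 : 0 ≤ Fc := Nat.cast_nonneg _
  refine ⟨min (ρ / 14) (1 / 100), 7 / 2 * (Fc * (C * (1 + 2 ^ α)) + 4 * Cq),
    lt_min (by positivity) (by norm_num), by positivity, ?_⟩
  intro h y hh hlt hy1 hy2
  have hh1 : h < ρ / 14 := hlt.trans_le (min_le_left _ _)
  have hh2 : h < 1 / 100 := hlt.trans_le (min_le_right _ _)
  set t : ℝ := h * h ^ K with ht
  set δ : ℝ := h * (h ^ K * h ^ K) / 100 with hδ
  have hK1 : 0 < h ^ K := Real.rpow_pos_of_pos hh K
  have hK2 : h ^ K ≤ 1 := Real.rpow_le_one hh.le (by linarith) hK0.le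
  have hKK : h ^ K * h ^ K ≤ 1 := mul_le_one₀ hK2 hK1.le hK2
  have ht0 : 0 < t := by positivity
  have hth : t ≤ h := by rw [ht]; exact mul_le_of_le_one_right hh.le hK2
  have hδ0 : 0 < δ := by positivity
  have hδt : δ ≤ t / 100 := by
    rw [hδ, ht]
    have : h * (h ^ K * h ^ K) ≤ h * h ^ K :=
      mul_le_mul_of_nonneg_left (mul_le_of_le_one_right hK1.le hK2) hh.le
    linarith
  refine ⟨δ, hδ0, by linarith, ⌈1000 / h⌉ + ⌈100 / ρ⌉ + ⌈1 / δ⌉ + 1000, ?_⟩
  intro l hl hev B hB0 p y0 i1 i2 i3 i4 w hw hM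
  have k1 := Int.le_ceil (1000 / h)
  have k2 := Int.le_ceil (100 / ρ)
  have k2' := Int.le_ceil (1 / δ)
  have k3 : (0 : ℝ) < 1000 / h := by positivity
  have k4 : (0 : ℝ) < 100 / ρ := by positivity
  have k4' : (0 : ℝ) < 1 / δ := by positivity
  have hL' : ((⌈1000 / h⌉ + ⌈100 / ρ⌉ + ⌈1 / δ⌉ + 1000 : ℤ) : ℝ) ≤ l := by exact_mod_cast hl
  push_cast at hL'
  have hLr : (0 : ℝ) < l := by linarith
  have hL8 : 1000 ≤ l := by
    have : ((1000 : ℤ) : ℝ) ≤ l := by push_cast; linarith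
    exact_mod_cast this
  have hhL : 1000 ≤ h * l := by
    have : 1000 / h ≤ l := by linarith
    rw [div_le_iff₀ hh] at this; linarith
  have hρL : 100 ≤ ρ * l := by
    have : 100 / ρ ≤ l := by linarith
    rw [div_le_iff₀ hρ0] at this; linarith
  have hδL : 1 ≤ δ * l := by
    have : 1 / δ ≤ l := by linarith
    rw [div_le_iff₀ hδ0] at this; linarith
  have htL : 100 ≤ t * l := by
    have : δ * l ≤ t / 100 * l := mul_le_mul_of_nonneg_right hδt hLr.le
    linarith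
  obtain ⟨n1, n2, n3, n4, n5, n6, n7, n8⟩ := Cs410.comp_num (y := y) (ρ := ρ) (y0 := y0) hh
    (by linarith) (by linarith) rfl rfl rfl rfl hLr i3 i4
  set s := ⌊5 * h * l⌋₊ with hs
  set n := ⌊ρ * l⌋₊ with hn
  have s1 : (s : ℝ) ≤ 5 * h * l := Nat.floor_le (by positivity)
  have n9 : ρ * l < n + 1 := Nat.lt_floor_add_one _
  obtain ⟨R2, hR2⟩ : ∃ R2, R2 = ⌊h * l⌋₊ := ⟨_, rfl⟩
  have r1 : (R2 : ℝ) ≤ h * l := by rw [hR2]; exact Nat.floor_le (by positivity)
  have r2 : h * l < R2 + 1 := by rw [hR2]; exact Nat.lt_floor_add_one _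
  obtain ⟨R1, hR1⟩ : ∃ R1, R1 = ⌊t * l⌋₊ := ⟨_, rfl⟩
  have r3 : (R1 : ℝ) ≤ t * l := by rw [hR1]; exact Nat.floor_le (by positivity)
  have r4 : t * l < R1 + 1 := by rw [hR1]; exact Nat.lt_floor_add_one _
  have hthl : t * l ≤ h * l := mul_le_mul_of_nonneg_right hth hLr.le
  have hhl2 : h * l ≤ 1 / 100 * l := mul_le_mul_of_nonneg_right hh2.le hLr.le
  have hρh : 7 * (h * l) ≤ ρ * l / 2 := by
    have := mul_le_mul_of_nonneg_right hh1.le hLr.le
    linarith
  obtain ⟨u, hu⟩ := id hev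
  have hl2 : l / 2 = u := by omega
  have hlr : (l : ℝ) = u + u := by rw [hu]; push_cast; ring
  have hrow : (r * l < y0 - n ∧ y0 + n ≤ r * l + l / 2 - 1) ∨
      (r * l + l / 2 < y0 - n ∧ y0 + n ≤ r * l + l - 1) := by
    rw [hl2]
    have u1 : (c1 - m) * l ≤ (y - h - ρ) * l :=
      mul_le_mul_of_nonneg_right (by linarith) hLr.le
    have u2 : (y + h + ρ) * l + 3 ≤ (e1 + m) * l := by
      have : (y + h + ρ + h) * l ≤ (e1 + m) * l :=
        mul_le_mul_of_nonneg_right (by linarith) hLr.le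
      linarith
    rcases hm with ⟨q1, q2⟩ | ⟨q1, q2⟩
    · left
      have v1 : (r : ℝ) * l < (c1 - m) * l := mul_lt_mul_of_pos_right q1 hLr
      have v2 : (e1 + m) * l < ((r : ℝ) + 1 / 2) * l := mul_lt_mul_of_pos_right q2 hLr
      constructor
      · have : ((r * l : ℤ) : ℝ) < ((y0 - n : ℤ) : ℝ) := by push_cast; linarith
        exact_mod_cast this
      · have : ((y0 + n : ℤ) : ℝ) ≤ ((r * l + u - 1 : ℤ) : ℝ) := by push_cast; linarith
        exact_mod_cast this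
    · right
      have v1 : ((r : ℝ) + 1 / 2) * l < (c1 - m) * l := mul_lt_mul_of_pos_right q1 hLr
      have v2 : (e1 + m) * l < ((r : ℝ) + 1) * l := mul_lt_mul_of_pos_right q2 hLr
      constructor
      · have : ((r * l + u : ℤ) : ℝ) < ((y0 - n : ℤ) : ℝ) := by push_cast; linarith
        exact_mod_cast this
      · have : ((y0 + n : ℤ) : ℝ) ≤ ((r * l + l - 1 : ℤ) : ℝ) := by push_cast; linarith
        exact_mod_cast this
  have f5 : (B.y1 : ℝ) ≤ (y - 3 * h) * l := by rw [hB0.y1]; exact Int.floor_le _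
  have f8 : (y + 3 * h) * l < B.y2 + 1 := by rw [hB0.y2]; exact Int.lt_floor_add_one _
  have Nw : NumW P A' B' r l (l / 8) y0 B s n R1 R2 :=
    { run := hrun
      hL := by omega
      hev := hev
      xl := hB0.xl
      xr := hB0.xr
      a1 := by rw [hB0.y1]; exact n3
      a4 := by rw [hB0.y2]; exact n6
      row := hrow
      hm := by
        have : ((R2 + s + 4 : ℕ) : ℝ) ≤ n := by push_cast; linarith
        exact_mod_cast this
      R12 := by rw [hR1, hR2]; exact Nat.floor_le_floor hthl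
      Rk := by
        have : 8 * ((R1 : ℝ) + 1) + 8 ≤ l := by linarith
        have : 8 * ((R1 : ℤ) + 1) + 8 ≤ l := by exact_mod_cast this
        omega
      kL := by omega
      q1 := by
        have : (((R2 : ℤ) + 2 : ℤ) : ℝ) ≤ ((y0 - B.y1 : ℤ) : ℝ) := by push_cast; linarith
        exact_mod_cast this
      q2 := by
        have : (((R2 : ℤ) + 3 : ℤ) : ℝ) ≤ ((B.y2 - y0 : ℤ) : ℝ) := by push_cast; linarith
        exact_mod_cast this
      RL := by
        have : 4 * (R1 : ℝ) + 16 ≤ l := by linarith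
        exact_mod_cast this }
  have hz : B.At p y0 := by
    refine ⟨by rw [hB0.y1]; exact n4, by rw [hB0.y2]; exact n5, ?_, ?_⟩
    · rw [hB0.xl]
      have v1 : (A' : ℝ) * l < a * l := mul_lt_mul_of_pos_right hA hLr
      have : ((A' * l : ℤ) : ℝ) < p := by push_cast; linarith
      exact_mod_cast this
    · rw [hB0.xr]
      have v1 : b * l < (B' + 1) * l := mul_lt_mul_of_pos_right hB hLr
      have : (p : ℝ) < ((B' * l + l : ℤ) : ℝ) := by push_cast; linarith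
      have : p < B' * l + l := by exact_mod_cast this
      omega
  have hΔ1 : (DelP l δ : ℝ) < δ * l + 1 := Int.ceil_lt_add_one _
  have hΔ2 : δ * l ≤ (DelP l δ : ℝ) := Int.le_ceil _
  have hΔ0 : 0 < DelP l δ := by
    have : (0 : ℝ) < DelP l δ := by linarith
    exact_mod_cast this
  have hδtl : δ * l ≤ t * l / 100 := by
    have := mul_le_mul_of_nonneg_right hδt hLr.le
    linarith
  have hΔR : DelP l δ + 2 ≤ R1 := by
    have : ((DelP l δ + 2 : ℤ) : ℝ) ≤ ((R1 : ℤ) : ℝ) := by push_cast; linarith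
    exact_mod_cast this
  have hΔL : DelP l δ ≤ l / 16 := by
    have : 16 * (DelP l δ : ℝ) ≤ l := by linarith
    have : 16 * DelP l δ ≤ l := by exact_mod_cast this
    omega
  obtain ⟨N, hN1, hN2⟩ := gate_num (y := y) rfl hh (by linarith) hL8 rfl rfl
  have hmain := hP P A' B' r l h y δ B p y0 s n R1 R2 N hB0 Nw hz hΔ0 hΔR hΔL
    (by rw [hB0.y1, hB0.y2]; exact hN1) w hw hM
  rw [norm_sub_rev]
  refine hmain.trans ?_
  have R1pos : (0 : ℝ) < R1 := by linarith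
  have R2pos : (0 : ℝ) < R2 := by linarith
  have e1' : (DelP l δ + 1 : ℝ) / R1 ≤ h ^ K := by
    rw [div_le_iff₀ R1pos]
    have e : δ * l = h ^ K * (t * l) / 100 := by rw [hδ, ht]; ring
    have e2 : h ^ K * (t * l) ≤ h ^ K * (R1 + 1) := mul_le_mul_of_nonneg_left r4.le hK1.le
    have e3 : h ^ K * (R1 + 1) ≤ h ^ K * (2 * R1) :=
      mul_le_mul_of_nonneg_left (by linarith) hK1.le
    have e4 : (DelP l δ : ℝ) + 1 ≤ 3 * (δ * l) := by linarith
    rw [e] at e4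
    have e5 : 0 < h ^ K * (R1 : ℝ) := by positivity
    linarith
  have e2' : (R1 : ℝ) / R2 ≤ 2 * h ^ K := by
    rw [div_le_iff₀ R2pos]
    have e : t * l = h ^ K * (h * l) := by rw [ht]; ring
    have e2 : h ^ K * (h * l) ≤ h ^ K * (2 * R2) :=
      mul_le_mul_of_nonneg_left (by linarith) hK1.le
    rw [e] at r3
    linarith
  have hpw : (h ^ K) ^ α = h ^ (2 : ℕ) := by
    rw [← Real.rpow_mul hh.le, hKα, Real.rpow_two]
  have p1 : ((DelP l δ + 1 : ℝ) / R1) ^ α ≤ h ^ 2 := by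
    rw [← hpw]
    exact Real.rpow_le_rpow (by positivity) e1' hα.le
  have p2 : ((R1 : ℝ) / R2) ^ α ≤ 2 ^ α * h ^ 2 := by
    rw [← hpw, ← Real.mul_rpow (by norm_num) hK1.le]
    exact Real.rpow_le_rpow (by positivity) e2' hα.le
  have p3 := hqp h N hh hN2
  have p4 : C * (((DelP l δ + 1 : ℝ) / R1) ^ α + ((R1 : ℝ) / R2) ^ α) ≤
      C * (h ^ 2 + 2 ^ α * h ^ 2) := mul_le_mul_of_nonneg_left (add_le_add p1 p2) hC.le
  have p5 := mul_le_mul_of_nonneg_left p4 hFc0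
  calc 7 / 2 * (Fc * (C * (((DelP l δ + 1 : ℝ) / R1) ^ α + ((R1 : ℝ) / R2) ^ α)) + 4 * q ^ N)
      ≤ 7 / 2 * (Fc * (C * (h ^ 2 + 2 ^ α * h ^ 2)) + 4 * (Cq * h ^ 2)) := by linarith
    _ = 7 / 2 * (Fc * (C * (1 + 2 ^ α)) + 4 * Cq) * h ^ 2 := by ring

end Crest.Agent.R158.Qg300
end
end

-- ▼ part R158/Qg4_300
section

/-!
# R158, evaluation: the second half of `EvalP` (helper300)

* `VI` : mean value of the family on the word
* **`evB : EvB VI P`**
-/

set_option autoImplicit false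

noncomputable section

namespace Crest.Agent.R158.Qg300

open Finset MeasureTheory
open Crest.Agent.R158.Rs689 (PB)
open Crest.Agent.R158.Env664 (TG)
open Crest.Agent.R158.Xr249 (eD)
open Crest.Agent.R158.Ad350 (valD)
open Crest.Agent.R158.Tj656 (P4)
open Crest.Agent.R158.Fm857 (JP mkG)
open Crest.Agent.R158.Qf405

/-- mean value of the family on the word -/
def VI : VT := fun P L δ B p y0 w =>
  ∫ s : TG → Bool, valD B p y0 (L / 8) (L / 2) (mkG P L 0) (mkG P L 1) (JP P L δ B) w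
    (s ∘ eD B y0 (L / 8)) ∂(PB fun _ : TG => Rs689.hf)

/-- **the second half: value of the family on the word = observable** -/
theorem evB (P : P4) : EvB VI P := by
  intro A' B' r hrun a b c e hAa hab hbB hce hc
  obtain ⟨h0, C, hh0, hC, H⟩ := drop_all P A' B' r hrun a b c e hAa hab hbB hce hc
  refine ⟨h0, C, hh0, hC, fun h y hh hlt hy1 hy2 => ?_⟩
  obtain ⟨δ, hδ, hδ1, L0, H⟩ := H h y hh hlt hy1 hy2
  exact ⟨δ, hδ, hδ1, L0, fun L hL B p y0 S i1 i2 w hw hM =>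
    H L hL S.ev B S.onB p y0 i1 i2 S.z1 S.z2 w hw hM⟩

end Crest.Agent.R158.Qg300
end
end

-- ▼ part R158/Qf5_405

/-!
# R158, Q1c = evaluation (helper405): `EvalP` is a theorem
-/

set_option autoImplicit false

noncomputable section

namespace Crest.Agent.R158.Qf405

open Crest.Agent.R158.Tj656 (P4)

theorem mkP (P : P4) : MkP P := by
  intro A' B' r hrun a b c e hA hab hB hce hh
  obtain ⟨h0, hh0, H⟩ := Cs410.mkDp P A' B' r hrun a b c e hA hab hB hce hh
  refine ⟨h0, hh0, fun h y h1 h2 h3 h4 => ?_⟩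
  obtain ⟨L0, H⟩ := H h y h1 h2 h3 h4
  exact ⟨L0, fun L hL B p y0 S i1 i2 w hw =>
    (H L hL S.ev B S.onB p y0 i1 i2 S.z1 S.z2).word hw⟩

theorem evalP (P : P4) : Cs410.EvalP Fm857.fz P :=
  evalP_of (VI := VIf) (mkP P) (evA P) (Qg300.evB P)

end Crest.Agent.R158.Qf405
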