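import Crest.Agent.R158.Sp0_580

/-!
# Row 158, Block SEP, leaf L6 (helper158): gluing of arms through tubes, generic layer

* `land3` : landing of an arm from the block of radius 1 on the ring of radius 3
* `TkH`, `TkV` : a set of cells containing the landing ring and a row (column) crossing a gate
* `arm_glueH`, `arm_glueV` : inner arm + gate + tube + outer arm
* `LocD D A` : the event depends on finitely many edges with source in `D`
* `glue_prob` : independence + generalised FKG for inner arms, outer arms, primal and dual tubes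
-/

set_option autoImplicit false

noncomputable section

namespace Crest.Agent.R158.Sg158

open MeasureTheory ProbabilityTheory unitInterval
open Crest.Agent.R161.Geo729 Crest.Agent.R161.Topo374 Crest.Agent.R161.Dual374
open Crest.Agent.R161.Tas682 Crest.Agent.R158.Rs689 Crest.Agent.R158.Ru874

/-! ### landing -/

/-- **Landing** from the block of radius 1 on the ring of radius 3. -/
theorem land3 {z : Cfz} {n : ℕ} {K : Finset P2} (hz : z ∈ tubeX n K) {κ : P2}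
    (hK : ringC κ 3 ⊆ K) {k k' u : P2} (hk : k ∈ K) (hk' : k' ∈ ringC κ 3)
    (hkc : CConn (K : Set P2) k k') (hu : hubH z n k u) {S : Set P2} {a b : P2} (h : OC z S a b)
    (ha : a ∈ Rect ((κ.1 - 1) * n) ((κ.1 + 2) * n) ((κ.2 - 1) * n) ((κ.2 + 2) * n))
    (hb : b.1 ≤ (κ.1 - 4) * n ∨ (κ.1 + 5) * n ≤ b.1 ∨ b.2 ≤ (κ.2 - 4) * n ∨
      (κ.2 + 5) * n ≤ b.2) :
    ∃ w, OC z S a w ∧ OC z (tubeR n K) u w := by
  rw [mem_rect] at ha
  refine frame_catch hz (by omega) (by omega) hK hk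
    (hkc.trans ((frame_conn hk').mono fun x hx => hK hx).symm) hu h ?_ ?_
  · obtain ⟨h1, h2, h3, h4⟩ := ha
    refine ⟨?_, ?_, ?_, ?_⟩ <;> linarith
  · rcases hb with h1 | h1 | h1 | h1
    · left; linarith
    · right; left; linarith
    · right; right; left; linarith
    · right; right; right; linarith

/-- `K` contains the ring of radius 3 around `κ` and a row crossing `[x0,x1] × [y0,y1]` -/
def TkH (n : ℕ) (K : Finset P2) (κ : P2) (x0 x1 y0 y1 : ℤ) : Prop :=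
  ringC κ 3 ⊆ K ∧ ∃ i0 i1 j : ℤ, i0 ≤ i1 ∧ rowC i0 i1 j ⊆ K ∧
    (∃ k' ∈ ringC κ 3, CConn (K : Set P2) (i0, j) k') ∧
    i0 * n - n ≤ x0 ∧ x1 ≤ i1 * n + 2 * n ∧ y0 ≤ j * n - n ∧ j * n + 2 * n ≤ y1

/-- `K` contains the ring of radius 3 around `κ` and a column crossing `[x0,x1] × [y0,y1]` -/
def TkV (n : ℕ) (K : Finset P2) (κ : P2) (x0 x1 y0 y1 : ℤ) : Prop :=
  ringC κ 3 ⊆ K ∧ ∃ i j0 j1 : ℤ, j0 ≤ j1 ∧ colC i j0 j1 ⊆ K ∧
    (∃ k' ∈ ringC κ 3, CConn (K : Set P2) (i, j0) k') ∧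
    j0 * n - n ≤ y0 ∧ y1 ≤ j1 * n + 2 * n ∧ x0 ≤ i * n - n ∧ i * n + 2 * n ≤ x1

/-- inner arm ending on a vertical path of the gate, row of the tube, outer arm -/
theorem arm_glueH {z : Cfz} {n : ℕ} {K : Finset P2} (hz : z ∈ tubeX n K) {κ : P2}
    {x0 x1 y0 y1 : ℤ} (T : TkH n K κ x0 x1 y0 y1) {D G S L : Set P2} {u g g1 g2 a b : P2}
    (hin : OC z D u g) (h1 : OC z G g g1) (h2 : OC z G g g2)
    (hG : ∀ w ∈ G, x0 ≤ w.1 ∧ w.1 ≤ x1) (hg1 : g1.2 ≤ y0) (hg2 : y1 ≤ g2.2)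
    (hout : OC z S a b)
    (ha : a ∈ Rect ((κ.1 - 1) * n) ((κ.1 + 2) * n) ((κ.2 - 1) * n) ((κ.2 + 2) * n))
    (hb : b.1 ≤ (κ.1 - 4) * n ∨ (κ.1 + 5) * n ≤ b.1 ∨ b.2 ≤ (κ.2 - 4) * n ∨
      (κ.2 + 5) * n ≤ b.2)
    (hD : D ⊆ L) (hGL : G ⊆ L) (hK : tubeR n K ⊆ L) (hS : S ⊆ L) : OC z L u b := by
  obtain ⟨hr, i0, i1, j, h01, hrow, ⟨k', hk', hc⟩, e1, e2, e3, e4⟩ := T
  obtain ⟨A, B, v, hA, hB, hv, h3, h4⟩ := row_path hz h01 hrow
  have m0 : ((i0, j) : P2) ∈ K := hrow (mem_rowC.2 ⟨le_rfl, h01, rfl⟩)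
  obtain ⟨w, hw1, hw2⟩ := land3 hz hr m0 hk' hc hv hout ha hb
  obtain ⟨w', hw3, hw4⟩ := glue h3 (h1.symm.trans h2)
    (fun w hw => by have := mem_tubeR_row hw; omega)
    (fun w hw => by have := hG w hw; omega)
  have hrL : tubeR n (rowC i0 i1 j) ⊆ L := (tubeR_mono n hrow).trans hK
  have s1 : OC z L u g1 := (hin.monoS hD).trans (h1.monoS hGL)
  have s2 : OC z L g1 w' := hw4.monoS hGL
  have s3 : OC z L w' A := (hw3.symm).monoS hrL
  have s4 : OC z L A v := (h4.symm).monoS hrL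
  have s5 : OC z L v w := hw2.monoS hK
  have s6 : OC z L w b := ((hw1.symm).trans hout).monoS hS
  exact ((((s1.trans s2).trans s3).trans s4).trans s5).trans s6

/-- inner arm ending on a horizontal path of the gate, column of the tube, outer arm -/
theorem arm_glueV {z : Cfz} {n : ℕ} {K : Finset P2} (hz : z ∈ tubeX n K) {κ : P2}
    {x0 x1 y0 y1 : ℤ} (T : TkV n K κ x0 x1 y0 y1) {D G S L : Set P2} {u g g1 g2 a b : P2}
    (hin : OC z D u g) (h1 : OC z G g g1) (h2 : OC z G g g2)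
    (hG : ∀ w ∈ G, y0 ≤ w.2 ∧ w.2 ≤ y1) (hg1 : g1.1 ≤ x0) (hg2 : x1 ≤ g2.1)
    (hout : OC z S a b)
    (ha : a ∈ Rect ((κ.1 - 1) * n) ((κ.1 + 2) * n) ((κ.2 - 1) * n) ((κ.2 + 2) * n))
    (hb : b.1 ≤ (κ.1 - 4) * n ∨ (κ.1 + 5) * n ≤ b.1 ∨ b.2 ≤ (κ.2 - 4) * n ∨
      (κ.2 + 5) * n ≤ b.2)
    (hD : D ⊆ L) (hGL : G ⊆ L) (hK : tubeR n K ⊆ L) (hS : S ⊆ L) : OC z L u b := by
  obtain ⟨hr, i, j0, j1, h01, hcol, ⟨k', hk', hc⟩, e1, e2, e3, e4⟩ := T
  obtain ⟨A, B, v, hA, hB, hv, h3, h4⟩ := col_path hz h01 hcol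
  have m0 : ((i, j0) : P2) ∈ K := hcol (mem_colC.2 ⟨rfl, le_rfl, h01⟩)
  obtain ⟨w, hw1, hw2⟩ := land3 hz hr m0 hk' hc hv hout ha hb
  obtain ⟨w', hw4, hw3⟩ := glue (h1.symm.trans h2) h3
    (fun w hw => by have := hG w hw; omega)
    (fun w hw => by have := mem_tubeR_col hw; omega)
  have hrL : tubeR n (colC i j0 j1) ⊆ L := (tubeR_mono n hcol).trans hK
  have s1 : OC z L u g1 := (hin.monoS hD).trans (h1.monoS hGL)
  have s2 : OC z L g1 w' := hw4.monoS hGL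
  have s3 : OC z L w' A := (hw3.symm).monoS hrL
  have s4 : OC z L A v := (h4.symm).monoS hrL
  have s5 : OC z L v w := hw2.monoS hK
  have s6 : OC z L w b := ((hw1.symm).trans hout).monoS hS
  exact ((((s1.trans s2).trans s3).trans s4).trans s5).trans s6

/-! ### localisation by sources -/

/-- the event depends on finitely many edges with source in `D` -/
def LocD (D : Set P2) (A : Set Cfz) : Prop := ∃ T : Finset Edge, Dep T A ∧ ∀ e ∈ T, src e ∈ D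

theorem LocD.mono {D D' : Set P2} (h : D ⊆ D') {A : Set Cfz} (hA : LocD D A) : LocD D' A := by
  obtain ⟨T, h1, h2⟩ := hA
  exact ⟨T, h1, fun e he => h (h2 e he)⟩

theorem LocD.inter {D D' : Set P2} {A B : Set Cfz} (hA : LocD D A) (hB : LocD D' B) :
    LocD (D ∪ D') (A ∩ B) := by
  classical
  obtain ⟨T, h1, h2⟩ := hA
  obtain ⟨T', h1', h2'⟩ := hB
  refine ⟨T ∪ T', (h1.mono Finset.subset_union_left).inter (h1'.mono Finset.subset_union_right), ?_⟩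
  intro e he
  rw [Finset.mem_union] at he
  exact he.imp (h2 e) (h2' e)





/-- dual preimages: sources are kept (`fA e = src e`) -/
theorem locD_dual {D : Set P2} {A : Set Cfz} (T : Finset Edge) (h1 : Dep T A)
    (h2 : ∀ e ∈ T, tgt e ∈ D) : LocD D (dual ⁻¹' A) := by
  refine ⟨T.map dE.symm.toEmbedding, h1.dual, ?_⟩
  intro e he
  rw [Finset.mem_map] at he
  obtain ⟨e', he', rfl⟩ := he
  have h3 : tgt (dE (dE.symm e')) = fA (dE.symm e') := tgt_dE _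
  rw [Equiv.apply_symm_apply] at h3
  have h4 : fA (dE.symm e') = src (dE.symm e') := rfl
  show src (dE.symm e') ∈ D
  rw [← h4, ← h3]
  exact h2 e' he'




/-- forcing an edge does not change events located elsewhere -/
theorem LocD.frc_iff {D : Set P2} {A : Set Cfz} (hA : LocD D A) {e : Edge} (he : src e ∉ D)
    (b : Bool) (z : Cfz) : frc e b z ∈ A ↔ z ∈ A := by
  obtain ⟨T, h1, h2⟩ := hA
  have h3 : e ∉ T := fun h => he (h2 e h)
  exact Set.ext_iff.1 (sec_eq_of_notMem h1 h3 b) z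

/-! ### tubes -/

/-- the boxes of a set of cells -/
def tubeB (n : ℕ) (K : Finset P2) : Set P2 :=
  {x | ∃ k ∈ K, k.1 * n - n ≤ x.1 ∧ x.1 ≤ k.1 * n + 2 * n ∧ k.2 * n - n ≤ x.2 ∧
    x.2 ≤ k.2 * n + 2 * n}


theorem tubeB_union (n : ℕ) (K K' : Finset P2) [DecidableEq P2] :
    tubeB n (K ∪ K') = tubeB n K ∪ tubeB n K' := by
  ext x
  simp only [tubeB, Set.mem_ofPred_eq, Set.mem_union, Finset.mem_union]
  constructor
  · rintro ⟨k, hk | hk, hx⟩
    · exact Or.inl ⟨k, hk, hx⟩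
    · exact Or.inr ⟨k, hk, hx⟩
  · rintro (⟨k, hk, hx⟩ | ⟨k, hk, hx⟩)
    · exact ⟨k, Or.inl hk, hx⟩
    · exact ⟨k, Or.inr hk, hx⟩

theorem tubeR_sub (n : ℕ) (K : Finset P2) : tubeR n K ⊆ tubeB n K := by
  intro x hx
  simp only [tubeR, Set.mem_iUnion] at hx
  obtain ⟨k, hk, hx⟩ := hx
  exact ⟨k, hk, mem_plusR hx⟩

theorem mem_tubeE {n : ℕ} {K : Finset P2} {e : Edge} (he : e ∈ tubeE n K) :
    src e ∈ tubeB n K ∧ tgt e ∈ tubeB n K := by
  classical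
  unfold tubeE at he
  rw [Finset.mem_biUnion] at he
  obtain ⟨k, hk, he⟩ := he
  have h1 := mem_cellE he
  exact ⟨⟨k, hk, h1.1⟩, ⟨k, hk, h1.2⟩⟩

theorem locD_tube (n : ℕ) (K : Finset P2) : LocD (tubeB n K) (tubeX n K) :=
  ⟨tubeE n K, tubeX_dep n K, fun _ he => (mem_tubeE he).1⟩

theorem locD_tubed (n : ℕ) (K : Finset P2) : LocD (tubeB n K) (dual ⁻¹' tubeX n K) :=
  locD_dual (tubeE n K) (tubeX_dep n K) fun _ he => (mem_tubeE he).2


/-- cells at distance `≥ 4` have disjoint boxes -/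
theorem tubeB_disj {n : ℕ} (hn : 1 ≤ n) {K K' : Finset P2}
    (h : ∀ k ∈ K, ∀ k' ∈ K', 4 ≤ |k.1 - k'.1| ∨ 4 ≤ |k.2 - k'.2|) :
    Disjoint (tubeB n K) (tubeB n K') := by
  rw [Set.disjoint_left]
  rintro x ⟨k, hk, hx⟩ ⟨k', hk', hx'⟩
  have hn' : (1 : ℤ) ≤ n := by exact_mod_cast hn
  rcases h k hk k' hk' with h3 | h3 <;> rw [le_abs] at h3 <;> rcases h3 with h3 | h3
  · have h4 : 4 * (n : ℤ) ≤ (k.1 - k'.1) * n := mul_le_mul_of_nonneg_right h3 (by omega)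
    have h5 : (k.1 - k'.1) * (n : ℤ) = k.1 * n - k'.1 * n := by ring
    omega
  · have h4 : 4 * (n : ℤ) ≤ -(k.1 - k'.1) * n := mul_le_mul_of_nonneg_right h3 (by omega)
    have h5 : -(k.1 - k'.1) * (n : ℤ) = k'.1 * n - k.1 * n := by ring
    omega
  · have h4 : 4 * (n : ℤ) ≤ (k.2 - k'.2) * n := mul_le_mul_of_nonneg_right h3 (by omega)
    have h5 : (k.2 - k'.2) * (n : ℤ) = k.2 * n - k'.2 * n := by ring
    omega
  · have h4 : 4 * (n : ℤ) ≤ -(k.2 - k'.2) * n := mul_le_mul_of_nonneg_right h3 (by omega)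
    have h5 : -(k.2 - k'.2) * (n : ℤ) = k'.2 * n - k.2 * n := by ring
    omega

/-! ### probability -/

theorem LocD.disj {D D' : Set P2} (h : Disjoint D D') {T T' : Finset Edge}
    (hT : ∀ e ∈ T, src e ∈ D) (hT' : ∀ e ∈ T', src e ∈ D') : Disjoint T T' := by
  rw [Finset.disjoint_left]
  intro e he he'
  exact Set.disjoint_left.1 h (hT e he) (hT' e he')

theorem LocD.indep (p : I) {D D' : Set P2} (h : Disjoint D D') {A B : Set Cfz} (hA : LocD D A)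
    (hB : LocD D' B) : (nu p).real (A ∩ B) = (nu p).real A * (nu p).real B := by
  obtain ⟨T, h1, h2⟩ := hA
  obtain ⟨T', h1', h2'⟩ := hB
  exact PB_indep_real _ (LocD.disj h h2 h2') h1 h1'

/-- **Gluing, probability**: inner arms `A1` (primal), `B1` (dual), outer arms `A2`, `B2`, a primal
tube `K` and a dual tube `K'`. -/
theorem glue_prob (p : I) {D1 F1 D2 F2 : Set P2} {A1 B1 A2 B2 : Set Cfz} {n : ℕ}
    {K K' : Finset P2} (hA1 : LocD D1 A1) (hB1 : LocD F1 B1) (hA2 : LocD D2 A2)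
    (hB2 : LocD F2 B2) (iA1 : Inc A1) (iB1 : Decr B1) (iA2 : Inc A2) (iB2 : Decr B2)
    (d0 : Disjoint (D1 ∪ F1) (D2 ∪ F2)) (d1 : Disjoint (D1 ∪ D2) (tubeB n K'))
    (d2 : Disjoint (F1 ∪ F2) (tubeB n K)) (d3 : Disjoint (tubeB n K) (tubeB n K')) :
    (nu p).real (A1 ∩ B1) * (nu p).real (A2 ∩ B2) *
        (xpr p (3 * n) n ^ (2 * K.card) * xpr (σ p) (3 * n) n ^ (2 * K'.card)) ≤
      (nu p).real (((A1 ∩ A2) ∩ (B1 ∩ B2)) ∩ (tubeX n K ∩ dual ⁻¹' tubeX n K')) := by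
  obtain ⟨Tp, hTp1, hTp2⟩ := hA1.inter hA2
  obtain ⟨Tm, hTm1, hTm2⟩ := hB1.inter hB2
  have e1 : (nu p).real (A1 ∩ B1) * (nu p).real (A2 ∩ B2) =
      (nu p).real ((A1 ∩ A2) ∩ (B1 ∩ B2)) := by
    rw [← LocD.indep p d0 (hA1.inter hB1) (hA2.inter hB2), Set.inter_inter_inter_comm]
  have hm : ∀ e ∈ (tubeE n K').map dE.symm.toEmbedding, src e ∈ tubeB n K' := by
    intro e he
    rw [Finset.mem_map] at he
    obtain ⟨e', he', rfl⟩ := he
    have h3 : tgt (dE (dE.symm e')) = fA (dE.symm e') := tgt_dE _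
    rw [Equiv.apply_symm_apply] at h3
    have h4 : fA (dE.symm e') = src (dE.symm e') := rfl
    show src (dE.symm e') ∈ _
    rw [← h4, ← h3]
    exact (mem_tubeE he').2
  have h := gen_fkg_dual p hTp1 hTm1 (tubeX_dep n K) (tubeX_dep n K')
    (LocD.disj d1 hTp2 hm) (LocD.disj d2 hTm2 fun e he => (mem_tubeE he).1)
    (LocD.disj d3 (fun e he => (mem_tubeE he).1) hm)
    (iA1.inter iA2) (iB1.inter iB2) (tubeX_inc n K) (tubeX_inc n K')
  rw [e1]
  refine le_trans (mul_le_mul_of_nonneg_left ?_ measureReal_nonneg) h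
  exact mul_le_mul (tube_prob p n K) (tube_prob (σ p) n K')
    (pow_nonneg (xpr_nonneg _ _ _) _) measureReal_nonneg

end Crest.Agent.R158.Sg158
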