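import Crest.Agent.R158.Rs8_689

/-!
# Row 158, Block R / SEP (helper689): frames of cells, landing hubs

* `exit_box` : first exit of a connection from a rectangle
* `rowC`, `colC`, `frameC i0 i1 j0 j1` : rows, columns, rectangular frames of cells
* `row_path`, `col_path` : long crossings carried by the tube events of rows / columns
* `frame_catch` : every open path from inside the frame to the outside is connected to the tube (`land`)
* `tubeE_disj`, `tubeE_disj_dual` : disjointness of the supports of primal / dual tubes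
-/

set_option autoImplicit false

noncomputable section

namespace Crest.Agent.R158.Rs689

open MeasureTheory ProbabilityTheory unitInterval
open Crest.Agent.R161.Geo729 Crest.Agent.R161.Topo374 Crest.Agent.R161.Dual374
open Crest.Agent.R161.Tas682 Crest.Agent.R161.Ring421 Crest.Agent.R161.Sym597
open Crest.Agent.R161.Ifc372 Crest.Agent.R161.Hull374 Crest.Agent.R161.Ann374

/-! ### first exit -/

/-- first exit of a connection from a rectangle -/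
theorem exit_box {z : Cfz} {S : Set P2} {a b : P2} (h : OC z S a b) {x0 x1 y0 y1 : ℤ}
    (ha : x0 ≤ a.1 ∧ a.1 ≤ x1 ∧ y0 ≤ a.2 ∧ a.2 ≤ y1)
    (hb : b.1 ≤ x0 ∨ x1 ≤ b.1 ∨ b.2 ≤ y0 ∨ y1 ≤ b.2) :
    ∃ c : P2, OC z (S ∩ Rect x0 x1 y0 y1) a c ∧
      (c.1 = x0 ∨ c.1 = x1 ∨ c.2 = y0 ∨ c.2 = y1) := by
  have key : OC z (S ∩ Rect x0 x1 y0 y1) a b ∨ ∃ c : P2, OC z (S ∩ Rect x0 x1 y0 y1) a c ∧
      (c.1 = x0 ∨ c.1 = x1 ∨ c.2 = y0 ∨ c.2 = y1) := by
    obtain ⟨haS, h⟩ := h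
    clear hb
    induction h with
    | refl => exact Or.inl (OC.refl ⟨haS, mem_rect.2 ha⟩)
    | @tail c d h1 h2 ih =>
      rcases ih with h3 | h3
      · have hc := h3.right.2
        rw [mem_rect] at hc
        by_cases hbd : c.1 = x0 ∨ c.1 = x1 ∨ c.2 = y0 ∨ c.2 = y1
        · exact Or.inr ⟨c, h3, hbd⟩
        · left
          have hn := Crest.Agent.R161.Tas682.pstep_nbr h2.1
          have hd : d ∈ Rect x0 x1 y0 y1 := by
            rw [mem_rect]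
            unfold Nbr at hn
            omega
          exact ⟨h3.1, h3.2.tail ⟨h2.1, h3.right, ⟨h2.2.2, hd⟩⟩⟩
      · exact Or.inr h3
  rcases key with h1 | h1
  · refine ⟨b, h1, ?_⟩
    have hc := h1.right.2
    rw [mem_rect] at hc
    omega
  · exact h1

/-! ### rows and columns -/

/-- row of cells -/
def rowC (i0 i1 j : ℤ) : Finset P2 := Finset.Icc i0 i1 ×ˢ {j}

/-- column of cells -/
def colC (i j0 j1 : ℤ) : Finset P2 := {i} ×ˢ Finset.Icc j0 j1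

theorem mem_rowC {i0 i1 j : ℤ} {k : P2} : k ∈ rowC i0 i1 j ↔ i0 ≤ k.1 ∧ k.1 ≤ i1 ∧ k.2 = j := by
  rw [rowC, Finset.mem_product, Finset.mem_Icc, Finset.mem_singleton, and_assoc]

theorem mem_colC {i j0 j1 : ℤ} {k : P2} : k ∈ colC i j0 j1 ↔ k.1 = i ∧ j0 ≤ k.2 ∧ k.2 ≤ j1 := by
  rw [colC, Finset.mem_product, Finset.mem_Icc, Finset.mem_singleton]

theorem CConn.mono {K K' : Set P2} (h : K ⊆ K') {k k' : P2} (hk : CConn K k k') :
    CConn K' k k' :=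
  Relation.ReflTransGen.mono (fun _ _ hab => ⟨hab.1, h hab.2.1, h hab.2.2⟩) _ _ hk

theorem CConn.symm {K : Set P2} {k k' : P2} (hk : CConn K k k') : CConn K k' k := by
  induction hk with
  | refl => exact .refl
  | tail _ h2 ih => exact Relation.ReflTransGen.head ⟨h2.1.symm, h2.2.2, h2.2.1⟩ ih

theorem CConn.trans {K : Set P2} {k k' k'' : P2} (h : CConn K k k') (h' : CConn K k' k'') :
    CConn K k k'' := Relation.ReflTransGen.trans h h'

theorem row_conn {K : Set P2} {j : ℤ} {i0 : ℤ} (d : ℕ)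
    (hK : ∀ i : ℤ, i0 ≤ i → i ≤ i0 + d → ((i, j) : P2) ∈ K) : CConn K (i0, j) (i0 + d, j) := by
  induction d with
  | zero =>
    rw [Nat.cast_zero, add_zero]
    exact .refl
  | succ d ih =>
    refine (ih fun i h1 h2 => hK i h1 (by push_cast; omega)).tail ⟨?_, ?_, ?_⟩
    · left
      refine ⟨rfl, Or.inl ?_⟩
      push_cast
      ring
    · exact hK _ (by omega) (by push_cast; omega)
    · exact hK _ (by push_cast; omega) (by push_cast; omega)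

theorem row_conn' {K : Set P2} {j i0 i1 : ℤ} (h01 : i0 ≤ i1)
    (hK : ∀ i : ℤ, i0 ≤ i → i ≤ i1 → ((i, j) : P2) ∈ K) : CConn K (i0, j) (i1, j) := by
  obtain ⟨d, rfl⟩ : ∃ d : ℕ, i1 = i0 + d := ⟨(i1 - i0).toNat, by omega⟩
  exact row_conn d hK

theorem col_conn {K : Set P2} {i : ℤ} {j0 : ℤ} (d : ℕ)
    (hK : ∀ j : ℤ, j0 ≤ j → j ≤ j0 + d → ((i, j) : P2) ∈ K) : CConn K (i, j0) (i, j0 + d) := by
  induction d with
  | zero =>
    rw [Nat.cast_zero, add_zero]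
    exact .refl
  | succ d ih =>
    refine (ih fun j h1 h2 => hK j h1 (by push_cast; omega)).tail ⟨?_, ?_, ?_⟩
    · right
      refine ⟨rfl, Or.inl ?_⟩
      push_cast
      ring
    · exact hK _ (by omega) (by push_cast; omega)
    · exact hK _ (by push_cast; omega) (by push_cast; omega)

theorem col_conn' {K : Set P2} {i j0 j1 : ℤ} (h01 : j0 ≤ j1)
    (hK : ∀ j : ℤ, j0 ≤ j → j ≤ j1 → ((i, j) : P2) ∈ K) : CConn K (i, j0) (i, j1) := by
  obtain ⟨d, rfl⟩ : ∃ d : ℕ, j1 = j0 + d := ⟨(j1 - j0).toNat, by omega⟩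
  exact col_conn d hK

theorem tubeX_mono {n : ℕ} {K K' : Finset P2} (h : K' ⊆ K) : tubeX n K ⊆ tubeX n K' := by
  intro z hz
  simp only [tubeX, Set.mem_iInter] at hz ⊢
  exact fun k hk => hz k (h hk)

theorem tubeR_mono (n : ℕ) {K K' : Finset P2} (h : K' ⊆ K) : tubeR n K' ⊆ tubeR n K := by
  intro x hx
  simp only [tubeR, Set.mem_iUnion] at hx ⊢
  obtain ⟨k, hk, hx⟩ := hx
  exact ⟨k, h hk, hx⟩

theorem mem_cellX {n : ℕ} {K : Finset P2} {z : Cfz} (hz : z ∈ tubeX n K) {k : P2} (hk : k ∈ K) :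
    z ∈ cellX n k := by
  simp only [tubeX, Set.mem_iInter] at hz
  exact hz k hk

theorem plusR_sub {n : ℕ} {K : Finset P2} {k : P2} (hk : k ∈ K) : plusR n k ⊆ tubeR n K := by
  intro x hx
  simp only [tubeR, Set.mem_iUnion]
  exact ⟨k, hk, hx⟩

theorem mem_plusR {n : ℕ} {k x : P2} (h : x ∈ plusR n k) :
    k.1 * n - n ≤ x.1 ∧ x.1 ≤ k.1 * n + 2 * n ∧ k.2 * n - n ≤ x.2 ∧ x.2 ≤ k.2 * n + 2 * n := by
  rcases h with h | h
  · have h1 := mem_rect.1 h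
    omega
  · have h1 := mem_rect.1 h
    omega

/-- long horizontal crossing carried by a row -/
theorem row_path {z : Cfz} {n : ℕ} {K : Finset P2} (hz : z ∈ tubeX n K) {i0 i1 j : ℤ}
    (h01 : i0 ≤ i1) (hK : rowC i0 i1 j ⊆ K) :
    ∃ A B u : P2, A.1 = i0 * n - n ∧ B.1 = i1 * n + 2 * n ∧ hubH z n (i0, j) u ∧
      OC z (tubeR n (rowC i0 i1 j)) A B ∧ OC z (tubeR n (rowC i0 i1 j)) u A := by
  have hz' := tubeX_mono hK hz
  have m0 : ((i0, j) : P2) ∈ rowC i0 i1 j := mem_rowC.2 ⟨le_rfl, h01, rfl⟩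
  have m1 : ((i1, j) : P2) ∈ rowC i0 i1 j := mem_rowC.2 ⟨h01, le_rfl, rfl⟩
  obtain ⟨u, hu⟩ := exists_hubH (mem_cellX hz' m0)
  obtain ⟨v, hv⟩ := exists_hubH (mem_cellX hz' m1)
  have hc : CConn ((rowC i0 i1 j : Finset P2) : Set P2) (i0, j) (i1, j) :=
    row_conn' h01 fun i h1 h2 => by
      show ((i, j) : P2) ∈ rowC i0 i1 j
      exact mem_rowC.2 ⟨h1, h2, rfl⟩
  have ht := tube hz' m0 hc hu hv
  have hu0 := hu
  obtain ⟨A, A', hA, _, h1, _⟩ := hu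
  obtain ⟨B', B, _, hB, _, h2⟩ := hv
  have s0 : hR n (i0, j) ⊆ tubeR n (rowC i0 i1 j) := Set.subset_union_left.trans (plusR_sub m0)
  have s1 : hR n (i1, j) ⊆ tubeR n (rowC i0 i1 j) := Set.subset_union_left.trans (plusR_sub m1)
  exact ⟨A, B, u, hA, hB, hu0, ((h1.monoS s0).symm.trans ht).trans (h2.monoS s1), h1.monoS s0⟩

/-- long vertical crossing carried by a column -/
theorem col_path {z : Cfz} {n : ℕ} {K : Finset P2} (hz : z ∈ tubeX n K) {i j0 j1 : ℤ}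
    (h01 : j0 ≤ j1) (hK : colC i j0 j1 ⊆ K) :
    ∃ A B u : P2, A.2 = j0 * n - n ∧ B.2 = j1 * n + 2 * n ∧ hubH z n (i, j0) u ∧
      OC z (tubeR n (colC i j0 j1)) A B ∧ OC z (tubeR n (colC i j0 j1)) u A := by
  have hz' := tubeX_mono hK hz
  have m0 : ((i, j0) : P2) ∈ colC i j0 j1 := mem_colC.2 ⟨rfl, le_rfl, h01⟩
  have m1 : ((i, j1) : P2) ∈ colC i j0 j1 := mem_colC.2 ⟨rfl, h01, le_rfl⟩
  obtain ⟨u, hu⟩ := exists_hubH (mem_cellX hz' m0)
  obtain ⟨v, hv⟩ := exists_hubH (mem_cellX hz' m1)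
  obtain ⟨u', hu'⟩ := exists_hubV (mem_cellX hz' m0)
  obtain ⟨v', hv'⟩ := exists_hubV (mem_cellX hz' m1)
  have hc : CConn ((colC i j0 j1 : Finset P2) : Set P2) (i, j0) (i, j1) :=
    col_conn' h01 fun j h1 h2 => by
      show ((i, j) : P2) ∈ colC i j0 j1
      exact mem_colC.2 ⟨rfl, h1, h2⟩
  have ht := tube hz' m0 hc hu hv
  have e0 := (hub_hub hu hu').monoS (plusR_sub m0)
  have e1 := (hub_hub hv hv').monoS (plusR_sub m1)
  obtain ⟨A, A', hA, _, h1, _⟩ := hu'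
  obtain ⟨B', B, _, hB, _, h2⟩ := hv'
  have s0 : vR n (i, j0) ⊆ tubeR n (colC i j0 j1) := Set.subset_union_right.trans (plusR_sub m0)
  have s1 : vR n (i, j1) ⊆ tubeR n (colC i j0 j1) := Set.subset_union_right.trans (plusR_sub m1)
  exact ⟨A, B, u, hA, hB, hu, (((h1.monoS s0).symm.trans e0.symm).trans ht).trans
    (e1.trans (h2.monoS s1)), e0.trans (h1.monoS s0)⟩

theorem mem_tubeR_row {n : ℕ} {i0 i1 j : ℤ} {x : P2} (h : x ∈ tubeR n (rowC i0 i1 j)) :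
    j * n - n ≤ x.2 ∧ x.2 ≤ j * n + 2 * n ∧ i0 * n - n ≤ x.1 ∧ x.1 ≤ i1 * n + 2 * n := by
  simp only [tubeR, Set.mem_iUnion] at h
  obtain ⟨k, hk, hx⟩ := h
  have h1 := mem_plusR hx
  rw [mem_rowC] at hk
  obtain ⟨h2, h3, rfl⟩ := hk
  have h4 : i0 * (n : ℤ) ≤ k.1 * n := mul_le_mul_of_nonneg_right h2 (by positivity)
  have h5 : k.1 * (n : ℤ) ≤ i1 * n := mul_le_mul_of_nonneg_right h3 (by positivity)
  omega

theorem mem_tubeR_col {n : ℕ} {i j0 j1 : ℤ} {x : P2} (h : x ∈ tubeR n (colC i j0 j1)) :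
    i * n - n ≤ x.1 ∧ x.1 ≤ i * n + 2 * n ∧ j0 * n - n ≤ x.2 ∧ x.2 ≤ j1 * n + 2 * n := by
  simp only [tubeR, Set.mem_iUnion] at h
  obtain ⟨k, hk, hx⟩ := h
  have h1 := mem_plusR hx
  rw [mem_colC] at hk
  obtain ⟨rfl, h2, h3⟩ := hk
  have h4 : j0 * (n : ℤ) ≤ k.2 * n := mul_le_mul_of_nonneg_right h2 (by positivity)
  have h5 : k.2 * (n : ℤ) ≤ j1 * n := mul_le_mul_of_nonneg_right h3 (by positivity)
  omega

/-! ### frames -/

/-- rectangular frame of cells -/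
def frameC (i0 i1 j0 j1 : ℤ) : Finset P2 :=
  (Finset.Icc i0 i1 ×ˢ Finset.Icc j0 j1).filter
    fun k => k.1 = i0 ∨ k.1 = i1 ∨ k.2 = j0 ∨ k.2 = j1

theorem mem_frameC {i0 i1 j0 j1 : ℤ} {k : P2} : k ∈ frameC i0 i1 j0 j1 ↔
    (i0 ≤ k.1 ∧ k.1 ≤ i1 ∧ j0 ≤ k.2 ∧ k.2 ≤ j1) ∧
      (k.1 = i0 ∨ k.1 = i1 ∨ k.2 = j0 ∨ k.2 = j1) := by
  simp [frameC, Finset.mem_filter, Finset.mem_product, and_assoc]

theorem frame_conn {i0 i1 j0 j1 : ℤ} {k : P2} (hk : k ∈ frameC i0 i1 j0 j1) :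
    CConn ((frameC i0 i1 j0 j1 : Finset P2) : Set P2) (i0, j0) k := by
  have mem : ∀ i j : ℤ, i0 ≤ i → i ≤ i1 → j0 ≤ j → j ≤ j1 →
      (i = i0 ∨ i = i1 ∨ j = j0 ∨ j = j1) →
      ((i, j) : P2) ∈ ((frameC i0 i1 j0 j1 : Finset P2) : Set P2) := by
    intro i j h1 h2 h3 h4 h5
    show ((i, j) : P2) ∈ frameC i0 i1 j0 j1
    exact mem_frameC.2 ⟨⟨h1, h2, h3, h4⟩, h5⟩
  obtain ⟨⟨h1, h2, h3, h4⟩, h5⟩ := mem_frameC.1 hk
  obtain ⟨a, b⟩ := k
  simp only at h1 h2 h3 h4 h5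
  have hi : i0 ≤ i1 := h1.trans h2
  have hj : j0 ≤ j1 := h3.trans h4
  rcases h5 with rfl | rfl | rfl | rfl
  · exact col_conn' h3 fun j h6 h7 => mem _ _ le_rfl hi h6 (h7.trans h4) (Or.inl rfl)
  · exact (row_conn' hi fun i h6 h7 => mem _ _ h6 h7 le_rfl hj (Or.inr (Or.inr (Or.inl rfl)))).trans
      (col_conn' h3 fun j h6 h7 => mem _ _ hi le_rfl h6 (h7.trans h4) (Or.inr (Or.inl rfl)))
  · exact row_conn' h1 fun i h6 h7 =>
      mem _ _ h6 (h7.trans h2) le_rfl hj (Or.inr (Or.inr (Or.inl rfl)))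
  · exact (col_conn' hj fun j h6 h7 => mem _ _ le_rfl hi h6 h7 (Or.inl rfl)).trans
      (row_conn' h1 fun i h6 h7 => mem _ _ h6 (h7.trans h2) hj le_rfl (Or.inr (Or.inr (Or.inr rfl))))

theorem row_sub_frame {i0 i1 j0 j1 j : ℤ} (h : j = j0 ∨ j = j1) (hj : j0 ≤ j1) :
    rowC i0 i1 j ⊆ frameC i0 i1 j0 j1 := by
  intro k hk
  rw [mem_rowC] at hk
  rw [mem_frameC]
  omega

theorem col_sub_frame {i0 i1 j0 j1 i : ℤ} (h : i = i0 ∨ i = i1) (hi : i0 ≤ i1) :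
    colC i j0 j1 ⊆ frameC i0 i1 j0 j1 := by
  intro k hk
  rw [mem_colC] at hk
  rw [mem_frameC]
  omega

/-- **Frames catch paths.** -/
theorem frame_catch {z : Cfz} {n : ℕ} {K : Finset P2} (hz : z ∈ tubeX n K) {i0 i1 j0 j1 : ℤ}
    (hi : i0 ≤ i1) (hj : j0 ≤ j1) (hK : frameC i0 i1 j0 j1 ⊆ K) {k u : P2} (hk : k ∈ K)
    (hkc : CConn (K : Set P2) k (i0, j0)) (hu : hubH z n k u) {S : Set P2} {a b : P2}
    (h : OC z S a b)
    (ha : i0 * n + 2 * n ≤ a.1 ∧ a.1 ≤ i1 * n - n ∧ j0 * n + 2 * n ≤ a.2 ∧ a.2 ≤ j1 * n - n)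
    (hb : b.1 ≤ i0 * n - n ∨ i1 * n + 2 * n ≤ b.1 ∨ b.2 ≤ j0 * n - n ∨ j1 * n + 2 * n ≤ b.2) :
    ∃ w, OC z S a w ∧ OC z (tubeR n K) u w := by
  have hn : (0 : ℤ) ≤ n := by positivity
  obtain ⟨c, hc, hc'⟩ := exit_box h (x0 := i0 * n - n) (x1 := i1 * n + 2 * n) (y0 := j0 * n - n)
    (y1 := j1 * n + 2 * n) ⟨by omega, by omega, by omega, by omega⟩ hb
  have m00 : ((i0, j0) : P2) ∈ frameC i0 i1 j0 j1 :=
    mem_frameC.2 ⟨⟨le_rfl, hi, le_rfl, hj⟩, Or.inl rfl⟩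
  -- connection of `u` with any hub of the frame
  have hub : ∀ {k' : P2}, k' ∈ frameC i0 i1 j0 j1 → ∀ {v : P2}, hubH z n k' v →
      OC z (tubeR n K) u v := by
    intro k' hk' v hv
    refine tube hz hk (hkc.trans ((frame_conn hk').mono ?_)) hu hv
    exact fun x hx => hK hx
  have hrect : ∀ w ∈ S ∩ Rect (i0 * n - n) (i1 * n + 2 * n) (j0 * n - n) (j1 * n + 2 * n),
      (i0 * n - n ≤ w.1 ∧ w.1 ≤ i1 * n + 2 * n) ∧ (j0 * n - n ≤ w.2 ∧ w.2 ≤ j1 * n + 2 * n) := by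
    intro w hw
    have := mem_rect.1 hw.2
    omega
  rcases hc' with hc' | hc' | hc' | hc'
  · -- left
    have hs : colC i0 j0 j1 ⊆ K := (col_sub_frame (Or.inl rfl) hi).trans hK
    obtain ⟨A, B, v, hA, hB, hv, h1, h2⟩ := col_path hz hj hs
    obtain ⟨w, hw1, hw2⟩ := glue (hc.symm) h1
      (fun w hw => by have := hrect w hw; omega) (fun w hw => by have := mem_tubeR_col hw; omega)
    refine ⟨w, ((hc.trans hw1).monoS Set.inter_subset_left), ?_⟩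
    exact (hub m00 hv).trans ((h2.trans hw2).monoS (tubeR_mono n hs))
  · -- right
    have hs : colC i1 j0 j1 ⊆ K := (col_sub_frame (Or.inr rfl) hi).trans hK
    obtain ⟨A, B, v, hA, hB, hv, h1, h2⟩ := col_path hz hj hs
    obtain ⟨w, hw1, hw2⟩ := glue hc h1
      (fun w hw => by have := hrect w hw; omega) (fun w hw => by have := mem_tubeR_col hw; omega)
    refine ⟨w, (hw1.monoS Set.inter_subset_left), ?_⟩
    exact (hub (mem_frameC.2 ⟨⟨hi, le_rfl, le_rfl, hj⟩, Or.inr (Or.inl rfl)⟩) hv).trans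
      ((h2.trans hw2).monoS (tubeR_mono n hs))
  · -- bottom
    have hs : rowC i0 i1 j0 ⊆ K := (row_sub_frame (Or.inl rfl) hj).trans hK
    obtain ⟨A, B, v, hA, hB, hv, h1, h2⟩ := row_path hz hi hs
    obtain ⟨w, hw1, hw2⟩ := glue h1 (hc.symm)
      (fun w hw => by have := mem_tubeR_row hw; omega) (fun w hw => by have := hrect w hw; omega)
    refine ⟨w, ((hc.trans hw2).monoS Set.inter_subset_left), ?_⟩
    exact (hub m00 hv).trans ((h2.trans hw1).monoS (tubeR_mono n hs))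
  · -- top
    have hs : rowC i0 i1 j1 ⊆ K := (row_sub_frame (Or.inr rfl) hj).trans hK
    obtain ⟨A, B, v, hA, hB, hv, h1, h2⟩ := row_path hz hi hs
    obtain ⟨w, hw1, hw2⟩ := glue h1 hc
      (fun w hw => by have := mem_tubeR_row hw; omega) (fun w hw => by have := hrect w hw; omega)
    refine ⟨w, (hw2.monoS Set.inter_subset_left), ?_⟩
    exact (hub (mem_frameC.2 ⟨⟨le_rfl, hi, hj, le_rfl⟩, Or.inl rfl⟩) hv).trans
      ((h2.trans hw1).monoS (tubeR_mono n hs))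

/-- square ring of cells around `κ` -/
def ringC (κ : P2) (r : ℤ) : Finset P2 := frameC (κ.1 - r) (κ.1 + r) (κ.2 - r) (κ.2 + r)


theorem ringC_conn {κ : P2} {r : ℤ} {k k' : P2} (hk : k ∈ ringC κ r) (hk' : k' ∈ ringC κ r) :
    CConn ((ringC κ r : Finset P2) : Set P2) k k' := (frame_conn hk).symm.trans (frame_conn hk')

/-! ### disjoint supports -/

theorem mem_cellE {n : ℕ} {k : P2} {e : Edge} (h : e ∈ cellE n k) :
    (k.1 * n - n ≤ (src e).1 ∧ (src e).1 ≤ k.1 * n + 2 * n ∧ k.2 * n - n ≤ (src e).2 ∧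
      (src e).2 ≤ k.2 * n + 2 * n) ∧
    (k.1 * n - n ≤ (tgt e).1 ∧ (tgt e).1 ≤ k.1 * n + 2 * n ∧ k.2 * n - n ≤ (tgt e).2 ∧
      (tgt e).2 ≤ k.2 * n + 2 * n) := by
  unfold cellE at h
  rw [mem_rectE, mem_rect, mem_rect] at h
  exact h


/-- supports of a primal and of a dual tube at distance `≥ 5` cells are disjoint -/
theorem tubeE_disj_dual {n : ℕ} (hn : 1 ≤ n) {K K' : Finset P2}
    (h : ∀ k ∈ K, ∀ k' ∈ K', 5 ≤ |k.1 - k'.1| ∨ 5 ≤ |k.2 - k'.2|) :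
    Disjoint (tubeE n K) ((tubeE n K').map dE.symm.toEmbedding) := by
  classical
  rw [Finset.disjoint_left]
  intro e he he'
  rw [Finset.mem_map] at he'
  obtain ⟨e', he', rfl⟩ := he'
  unfold tubeE at he he'
  rw [Finset.mem_biUnion] at he he'
  obtain ⟨k, hk, he⟩ := he
  obtain ⟨k', hk', he'⟩ := he'
  have h1 := mem_cellE he
  have h2 := mem_cellE he'
  have hn' : (1 : ℤ) ≤ n := by exact_mod_cast hn
  have h6 : (src e').1 ≤ (src (dE.symm.toEmbedding e')).1 ∧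
      (src (dE.symm.toEmbedding e')).1 ≤ (src e').1 + 1 ∧
      (src e').2 ≤ (src (dE.symm.toEmbedding e')).2 ∧
      (src (dE.symm.toEmbedding e')).2 ≤ (src e').2 + 1 := by
    obtain ⟨⟨i, j⟩, b⟩ := e'
    cases b <;> simp
  rcases h k hk k' hk' with h3 | h3 <;> rw [le_abs] at h3 <;> rcases h3 with h3 | h3
  · have h4 : 5 * (n : ℤ) ≤ (k.1 - k'.1) * n := mul_le_mul_of_nonneg_right h3 (by omega)
    have h5 : (k.1 - k'.1) * (n : ℤ) = k.1 * n - k'.1 * n := by ring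
    omega
  · have h4 : 5 * (n : ℤ) ≤ -(k.1 - k'.1) * n := mul_le_mul_of_nonneg_right h3 (by omega)
    have h5 : -(k.1 - k'.1) * (n : ℤ) = k'.1 * n - k.1 * n := by ring
    omega
  · have h4 : 5 * (n : ℤ) ≤ (k.2 - k'.2) * n := mul_le_mul_of_nonneg_right h3 (by omega)
    have h5 : (k.2 - k'.2) * (n : ℤ) = k.2 * n - k'.2 * n := by ring
    omega
  · have h4 : 5 * (n : ℤ) ≤ -(k.2 - k'.2) * n := mul_le_mul_of_nonneg_right h3 (by omega)
    have h5 : -(k.2 - k'.2) * (n : ℤ) = k'.2 * n - k.2 * n := by ring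
    omega

end Crest.Agent.R158.Rs689
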