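import Crest.Agent.R158.Rs6_689
import Crest.Agent.R158.Rs9_689

-- ▼ part R158/Sp4a_874
section

/-!
# Row 158, Block SEP, S4 (helper874), file a: rings of cells, rays and arcs

Cells are given by their lower left corner (689's `Rs6_689`).  Everything here is `omega`.

* `rt q c`     : rotation of the cell `c` by `q` quarter turns about the origin
* `Far c c'`   : coarse sup distance at least `9`
* `nr c`       : the index of the ring of `c`
* `cl j w`     : the `w`-th cell of the ring `j` (period `4(2j+1)`)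
* `ry a j x`   : the cell of ring `j ≥ a` on the straight ray starting at `cl a x`
* `rc a j x`   : its coordinate on the ring `j`
-/

set_option autoImplicit false

namespace Crest.Agent.R158.Sp874

open Crest.Agent.R158.Rs689 Crest.Agent.R161.Geo729

/-- rotation of the cell grid by `q` quarter turns -/
def rt (q : ℤ) (c : P2) : P2 :=
  if q % 4 = 0 then c else if q % 4 = 1 then (-1 - c.2, c.1)
  else if q % 4 = 2 then (-1 - c.1, -1 - c.2) else (c.2, -1 - c.1)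

/-- coarse sup distance at least `9` -/
def Far (c c' : P2) : Prop :=
  c.1 + 9 ≤ c'.1 ∨ c'.1 + 9 ≤ c.1 ∨ c.2 + 9 ≤ c'.2 ∨ c'.2 + 9 ≤ c.2

theorem Far.symm {c c' : P2} (h : Far c c') : Far c' c := by
  unfold Far at *; tauto

theorem rt_cases (q : ℤ) (c : P2) :
    (q % 4 = 0 ∧ rt q c = c) ∨ (q % 4 = 1 ∧ rt q c = (-1 - c.2, c.1)) ∨
      (q % 4 = 2 ∧ rt q c = (-1 - c.1, -1 - c.2)) ∨ (q % 4 = 3 ∧ rt q c = (c.2, -1 - c.1)) := by
  have h : q % 4 = 0 ∨ q % 4 = 1 ∨ q % 4 = 2 ∨ q % 4 = 3 := by omega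
  rcases h with h | h | h | h <;> simp [rt, h]

theorem rt_zero (c : P2) : rt 0 c = c := by simp [rt]

theorem rt_one (c : P2) : rt 1 c = (-1 - c.2, c.1) := by simp [rt]

theorem rt_two (c : P2) : rt 2 c = (-1 - c.1, -1 - c.2) := by simp [rt]

theorem rt_three (c : P2) : rt 3 c = (c.2, -1 - c.1) := by simp [rt]

theorem rt_four (c : P2) : rt 4 c = c := by simp [rt]

theorem rt_mod {q r : ℤ} (h : q % 4 = r % 4) (c : P2) : rt q c = rt r c := by
  unfold rt
  rw [h]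

theorem rt_add4 (q : ℤ) (c : P2) : rt (q + 4) c = rt q c := rt_mod (by omega) c

theorem rt_add (q r : ℤ) (c : P2) : rt (q + r) c = rt q (rt r c) := by
  rcases rt_cases r c with ⟨h1, h2⟩ | ⟨h1, h2⟩ | ⟨h1, h2⟩ | ⟨h1, h2⟩ <;> rw [h2]
  · exact rt_mod (by omega) c
  · rcases rt_cases q (-1 - c.2, c.1) with ⟨h3, h4⟩ | ⟨h3, h4⟩ | ⟨h3, h4⟩ | ⟨h3, h4⟩ <;> rw [h4]
    · rw [rt_mod (r := 1) (by omega), rt_one]
    · rw [rt_mod (r := 2) (by omega), rt_two]
    · rw [rt_mod (r := 3) (by omega), rt_three]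
      ext <;> simp
    · rw [rt_mod (r := 0) (by omega), rt_zero]
      ext <;> simp
  · rcases rt_cases q (-1 - c.1, -1 - c.2) with ⟨h3, h4⟩ | ⟨h3, h4⟩ | ⟨h3, h4⟩ | ⟨h3, h4⟩ <;> rw [h4]
    · rw [rt_mod (r := 2) (by omega), rt_two]
    · rw [rt_mod (r := 3) (by omega), rt_three]
      ext <;> simp
    · rw [rt_mod (r := 0) (by omega), rt_zero]
      ext <;> simp
    · rw [rt_mod (r := 1) (by omega), rt_one]
      ext <;> simp
  · rcases rt_cases q (c.2, -1 - c.1) with ⟨h3, h4⟩ | ⟨h3, h4⟩ | ⟨h3, h4⟩ | ⟨h3, h4⟩ <;> rw [h4]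
    · rw [rt_mod (r := 3) (by omega), rt_three]
    · rw [rt_mod (r := 0) (by omega), rt_zero]
      ext <;> simp
    · rw [rt_mod (r := 1) (by omega), rt_one]
      ext <;> simp
    · rw [rt_mod (r := 2) (by omega), rt_two]

theorem far_rt (q : ℤ) (c c' : P2) : Far (rt q c) (rt q c') ↔ Far c c' := by
  unfold Far
  rcases rt_cases q c with ⟨h1, h2⟩ | ⟨h1, h2⟩ | ⟨h1, h2⟩ | ⟨h1, h2⟩ <;>
    rcases rt_cases q c' with ⟨h3, h4⟩ | ⟨h3, h4⟩ | ⟨h3, h4⟩ | ⟨h3, h4⟩ <;>
    first | omega | (rw [h2, h4]; done) | (rw [h2, h4]; omega)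

theorem cadj_rt (q : ℤ) {c c' : P2} (h : CAdj c c') : CAdj (rt q c) (rt q c') := by
  unfold CAdj at *
  rcases rt_cases q c with ⟨h1, h2⟩ | ⟨h1, h2⟩ | ⟨h1, h2⟩ | ⟨h1, h2⟩ <;>
    rcases rt_cases q c' with ⟨h3, h4⟩ | ⟨h3, h4⟩ | ⟨h3, h4⟩ | ⟨h3, h4⟩ <;>
    first | omega | (rw [h2, h4]; done) | (rw [h2, h4]; omega)

/-- index of the ring of a cell -/
def nr (c : P2) : ℤ := max (max c.1 (-1 - c.1)) (max c.2 (-1 - c.2))

theorem nr_rt (q : ℤ) (c : P2) : nr (rt q c) = nr c := by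
  unfold nr
  rcases rt_cases q c with ⟨h1, h2⟩ | ⟨h1, h2⟩ | ⟨h1, h2⟩ | ⟨h1, h2⟩
  · rw [h2]
  · rw [h2]; simp only; omega
  · rw [h2]; simp only; omega
  · rw [h2]; simp only; omega

theorem far_of_nr {c c' : P2} (h : nr c + 9 ≤ nr c') : Far c c' := by
  have h1 : max (max c.1 (-1 - c.1)) (max c.2 (-1 - c.2)) + 9 ≤
    max (max c'.1 (-1 - c'.1)) (max c'.2 (-1 - c'.2)) := h
  unfold Far
  omega

theorem nr_nonneg (c : P2) : 0 ≤ nr c := by
  unfold nr; omega

/-- coordinates with respect to the side length `2j+1` -/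
theorem exists_coord {j : ℤ} (hj : 0 ≤ j) (w : ℤ) :
    ∃ q t : ℤ, -j ≤ t ∧ t ≤ j ∧ w = q * (2 * j + 1) + t ∧ (w + j) / (2 * j + 1) = q := by
  have h0 : 0 < 2 * j + 1 := by omega
  refine ⟨(w + j) / (2 * j + 1), w - (w + j) / (2 * j + 1) * (2 * j + 1), ?_, ?_, by ring, rfl⟩
  · have := Int.ediv_mul_le (w + j) h0.ne'
    omega
  · have := Int.lt_ediv_add_one_mul_self (w + j) h0
    rw [add_mul, one_mul] at this
    omega

theorem coord_unique {j q t w : ℤ} (hj : 0 ≤ j) (h1 : -j ≤ t) (h2 : t ≤ j)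
    (h : w = q * (2 * j + 1) + t) : (w + j) / (2 * j + 1) = q := by
  have h0 : 0 < 2 * j + 1 := by omega
  rw [h, show q * (2 * j + 1) + t + j = (t + j) + q * (2 * j + 1) by ring,
    Int.add_mul_ediv_right _ _ h0.ne', Int.ediv_eq_zero_of_lt (by omega) (by omega), zero_add]

/-- the `w`-th cell of the ring `j` -/
def cl (j w : ℤ) : P2 :=
  rt ((w + j) / (2 * j + 1)) (j, w - (w + j) / (2 * j + 1) * (2 * j + 1))

/-- the cell of ring `j` on the ray which starts at `cl a x` -/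
def ry (a j x : ℤ) : P2 :=
  rt ((x + a) / (2 * a + 1)) (j, x - (x + a) / (2 * a + 1) * (2 * a + 1))

/-- the coordinate on ring `j` of the ray `x` -/
def rc (a j x : ℤ) : ℤ := x + 2 * (j - a) * ((x + a) / (2 * a + 1))

theorem cl_eq {j q t : ℤ} (hj : 0 ≤ j) (h1 : -j ≤ t) (h2 : t ≤ j) :
    cl j (q * (2 * j + 1) + t) = rt q (j, t) := by
  unfold cl
  rw [coord_unique hj h1 h2 rfl]
  congr 2
  ring

theorem ry_eq {a q t : ℤ} (ha : 0 ≤ a) (h1 : -a ≤ t) (h2 : t ≤ a) (j : ℤ) :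
    ry a j (q * (2 * a + 1) + t) = rt q (j, t) := by
  unfold ry
  rw [coord_unique ha h1 h2 rfl]
  congr 2
  ring

theorem rc_eq {a q t : ℤ} (ha : 0 ≤ a) (h1 : -a ≤ t) (h2 : t ≤ a) (j : ℤ) :
    rc a j (q * (2 * a + 1) + t) = q * (2 * j + 1) + t := by
  unfold rc
  rw [coord_unique ha h1 h2 rfl]
  ring

theorem ry_self (a x : ℤ) : ry a a x = cl a x := rfl


theorem cl_rc {a j : ℤ} (ha : 0 ≤ a) (haj : a ≤ j) (x : ℤ) : cl j (rc a j x) = ry a j x := by
  obtain ⟨q, t, h1, h2, rfl, -⟩ := exists_coord ha x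
  rw [rc_eq ha h1 h2, ry_eq ha h1 h2, cl_eq (by omega) (by omega) (by omega)]

theorem rc_add_le {a j : ℤ} (ha : 0 ≤ a) (haj : a ≤ j) {x y d : ℤ} (h : x + d ≤ y) (hd : 0 ≤ d) :
    rc a j x + d ≤ rc a j y := by
  unfold rc
  have h0 : (0 : ℤ) < 2 * a + 1 := by omega
  have h1 : (x + a) / (2 * a + 1) ≤ (y + a) / (2 * a + 1) :=
    Int.ediv_le_ediv h0 (by omega)
  have h2 : 2 * (j - a) * ((x + a) / (2 * a + 1)) ≤ 2 * (j - a) * ((y + a) / (2 * a + 1)) :=
    mul_le_mul_of_nonneg_left h1 (by omega)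
  omega

theorem rc_period {a j : ℤ} (_ : 0 ≤ a) (x : ℤ) :
    rc a j (x + 4 * (2 * a + 1)) = rc a j x + 4 * (2 * j + 1) := by
  unfold rc
  have h0 : (2 * a + 1 : ℤ) ≠ 0 := by omega
  have h1 : (x + 4 * (2 * a + 1) + a) / (2 * a + 1) = (x + a) / (2 * a + 1) + 4 := by
    rw [show x + 4 * (2 * a + 1) + a = (x + a) + 4 * (2 * a + 1) by ring,
      Int.add_mul_ediv_right _ _ h0]
  rw [h1]
  ring

theorem ry_period {a : ℤ} (ha : 0 ≤ a) (j x : ℤ) : ry a j (x + 4 * (2 * a + 1)) = ry a j x := by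
  obtain ⟨q, t, h1, h2, rfl, -⟩ := exists_coord ha x
  rw [ry_eq ha h1 h2, show q * (2 * a + 1) + t + 4 * (2 * a + 1) = (q + 4) * (2 * a + 1) + t by ring,
    ry_eq ha h1 h2, rt_add4]

theorem ry_periods {a : ℤ} (ha : 0 ≤ a) (j x n : ℤ) :
    ry a j (x + n * (4 * (2 * a + 1))) = ry a j x := by
  obtain ⟨q, t, h1, h2, rfl, -⟩ := exists_coord ha x
  rw [ry_eq ha h1 h2, show q * (2 * a + 1) + t + n * (4 * (2 * a + 1)) =
    (q + 4 * n) * (2 * a + 1) + t by ring, ry_eq ha h1 h2]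
  exact rt_mod (by omega) _

theorem cl_period {j : ℤ} (hj : 0 ≤ j) (w : ℤ) : cl j (w + 4 * (2 * j + 1)) = cl j w := by
  rw [← ry_self, ← ry_self]
  exact ry_period hj j w

theorem nr_cl {j : ℤ} (hj : 0 ≤ j) (w : ℤ) : nr (cl j w) = j := by
  obtain ⟨q, t, h1, h2, rfl, -⟩ := exists_coord hj w
  rw [cl_eq hj h1 h2, nr_rt]
  unfold nr
  simp only
  omega

theorem nr_ry {a j : ℤ} (ha : 0 ≤ a) (haj : a ≤ j) (x : ℤ) : nr (ry a j x) = j := by
  rw [← cl_rc ha haj, nr_cl (by omega)]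

/-- every cell is on its ring -/
theorem exists_cl (c : P2) : ∃ w, -(nr c) ≤ w ∧ w < -(nr c) + 4 * (2 * nr c + 1) ∧
    c = cl (nr c) w := by
  obtain ⟨x, y⟩ := c
  set j := nr (x, y) with hj
  have hj' : j = max (max x (-1 - x)) (max y (-1 - y)) := hj
  have hj0 : 0 ≤ j := nr_nonneg _
  have h1 : (x = j ∧ -j ≤ y ∧ y ≤ j) ∨ (y = j ∧ -1 - j ≤ x ∧ x ≤ j - 1) ∨
      (x = -1 - j ∧ -1 - j ≤ y ∧ y ≤ j - 1) ∨ (y = -1 - j ∧ -j ≤ x ∧ x ≤ j) := by omega
  rcases h1 with ⟨h1, h2, h3⟩ | ⟨h1, h2, h3⟩ | ⟨h1, h2, h3⟩ | ⟨h1, h2, h3⟩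
  · refine ⟨0 * (2 * j + 1) + y, by omega, by omega, ?_⟩
    rw [cl_eq hj0 h2 h3, rt_zero, h1]
  · refine ⟨1 * (2 * j + 1) + (-1 - x), by omega, by omega, ?_⟩
    rw [cl_eq hj0 (by omega) (by omega), rt_one]
    ext <;> simp [h1]
  · refine ⟨2 * (2 * j + 1) + (-1 - y), by omega, by omega, ?_⟩
    rw [cl_eq hj0 (by omega) (by omega), rt_two]
    ext <;> simp [h1]
  · refine ⟨3 * (2 * j + 1) + x, by omega, by omega, ?_⟩
    rw [cl_eq hj0 (by omega) (by omega), rt_three]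
    ext <;> simp [h1]

/-! ### adjacency -/

theorem adj_cl {j : ℤ} (hj : 0 ≤ j) (w : ℤ) : CAdj (cl j w) (cl j (w + 1)) := by
  obtain ⟨q, t, h1, h2, rfl, -⟩ := exists_coord hj w
  rcases eq_or_lt_of_le h2 with rfl | h3
  · rw [cl_eq hj h1 h2, show q * (2 * t + 1) + t + 1 = (q + 1) * (2 * t + 1) + (-t) by ring,
      cl_eq hj (by omega) (by omega), rt_add, rt_one]
    refine cadj_rt _ ?_
    unfold CAdj
    dsimp only
    omega
  · rw [cl_eq hj h1 h2, add_assoc, cl_eq hj (by omega) (by omega)]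
    refine cadj_rt _ ?_
    unfold CAdj
    dsimp only
    omega

theorem adj_ry {a : ℤ} (ha : 0 ≤ a) (j x : ℤ) : CAdj (ry a j x) (ry a (j + 1) x) := by
  obtain ⟨q, t, h1, h2, rfl, -⟩ := exists_coord ha x
  rw [ry_eq ha h1 h2, ry_eq ha h1 h2]
  refine cadj_rt _ ?_
  unfold CAdj
  dsimp only
  omega

theorem CConn.symm {K : Set P2} {k k' : P2} (h : CConn K k k') : CConn K k' k := by
  unfold CConn at *
  induction h with
  | refl => exact .refl
  | tail _ h2 ih => exact Relation.ReflTransGen.head ⟨h2.1.symm, h2.2.2, h2.2.1⟩ ih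

theorem CConn.trans {K : Set P2} {k k' k'' : P2} (h : CConn K k k') (h' : CConn K k' k'') :
    CConn K k k'' := Relation.ReflTransGen.trans h h'

theorem CConn.mono {K K' : Set P2} (hK : K ⊆ K') {k k' : P2} (h : CConn K k k') :
    CConn K' k k' :=
  Relation.ReflTransGen.mono (fun _ _ h => ⟨h.1, hK h.2.1, hK h.2.2⟩) _ _ h

theorem conn_seq {K : Set P2} (f : ℤ → P2) (hf : ∀ i, CAdj (f i) (f (i + 1))) {i j : ℤ}
    (hij : i ≤ j) (h : ∀ k, i ≤ k → k ≤ j → f k ∈ K) : CConn K (f i) (f j) := by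
  obtain ⟨n, rfl⟩ : ∃ n : ℕ, j = i + n := ⟨(j - i).toNat, by omega⟩
  clear hij
  induction n with
  | zero => simp only [Nat.cast_zero, add_zero]; exact .refl
  | succ n ih =>
    have h1 := ih fun k hk1 hk2 => h k hk1 (by push_cast; omega)
    refine Relation.ReflTransGen.tail h1 ⟨?_, h _ (by omega) (by push_cast; omega),
      h _ (by push_cast; omega) (by push_cast; omega)⟩
    have h2 := hf (i + n)
    push_cast
    rwa [add_assoc] at h2

theorem conn_arc {K : Set P2} {j : ℤ} (hj : 0 ≤ j) {w w' : ℤ}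
    (h : ∀ v, min w w' ≤ v → v ≤ max w w' → cl j v ∈ K) : CConn K (cl j w) (cl j w') := by
  rcases le_total w w' with hw | hw
  · exact conn_seq (cl j) (adj_cl hj) hw fun k h1 h2 => h k (by omega) (by omega)
  · exact CConn.symm (conn_seq (cl j) (adj_cl hj) hw fun k h1 h2 => h k (by omega) (by omega))

theorem conn_ray {K : Set P2} {a : ℤ} (ha : 0 ≤ a) (x : ℤ) {j j' : ℤ} (hj : j ≤ j')
    (h : ∀ i, j ≤ i → i ≤ j' → ry a i x ∈ K) : CConn K (ry a j x) (ry a j' x) :=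
  conn_seq (fun i => ry a i x) (fun i => adj_ry ha i x) hj h

/-! ### distances -/

/-- number of sides between two positions -/
theorem side_diff {J q q' t t' : ℤ} (hJ : 0 ≤ J) (h1 : -J ≤ t) (h2 : t ≤ J) (h1' : -J ≤ t')
    (h2' : t' ≤ J) {w w' : ℤ} (hw : w = q * (2 * J + 1) + t) (hw' : w' = q' * (2 * J + 1) + t')
    (h3 : w < w') (h4 : w' < w + 4 * (2 * J + 1)) :
    0 ≤ q' - q ∧ q' - q ≤ 4 ∧ w' - w = (q' - q) * (2 * J + 1) + t' - t := by
  have e : w' - w = (q' - q) * (2 * J + 1) + t' - t := by rw [hw, hw']; ring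
  refine ⟨?_, ?_, e⟩
  · by_contra h
    have h5 : (q' - q) * (2 * J + 1) ≤ (-1) * (2 * J + 1) :=
      mul_le_mul_of_nonneg_right (by omega) (by omega)
    omega
  · by_contra h
    have h5 : 5 * (2 * J + 1) ≤ (q' - q) * (2 * J + 1) :=
      mul_le_mul_of_nonneg_right (by omega) (by omega)
    omega

/-- two rays -/
theorem far_ry_ry {a : ℤ} (ha : 4 ≤ a) {j j' x y : ℤ} (hj : a ≤ j) (hj' : a ≤ j')
    (h1 : x + 18 ≤ y) (h2 : y + 18 ≤ x + 4 * (2 * a + 1)) : Far (ry a j x) (ry a j' y) := by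
  obtain ⟨q, t, ht1, ht2, hx, -⟩ := exists_coord (by omega : 0 ≤ a) x
  obtain ⟨q', t', ht1', ht2', hy, -⟩ := exists_coord (by omega : 0 ≤ a) y
  obtain ⟨hd0, hd4, hd⟩ := side_diff (by omega) ht1 ht2 ht1' ht2' hx hy (by omega) (by omega)
  rw [hx, hy, ry_eq (by omega) ht1 ht2, ry_eq (by omega) ht1' ht2',
    show q' = q + (q' - q) by ring, rt_add, far_rt]
  generalize q' - q = d at *
  interval_cases d
  · rw [rt_zero]; unfold Far; simp only; omega
  · rw [rt_one]; unfold Far; simp only; omega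
  · rw [rt_two]; unfold Far; simp only; omega
  · rw [rt_three]; unfold Far; simp only; omega
  · rw [rt_four]; unfold Far; simp only; omega


/-- a cell of a ring and a ray, the ray being after the cell -/
theorem far_cl_ry {a : ℤ} (ha : 0 ≤ a) {J j w y : ℤ} (hJ : a + 9 ≤ J) (hj : a ≤ j)
    (h1 : w + 9 ≤ rc a J y) (h2 : rc a J y + 9 ≤ w + 4 * (2 * J + 1)) :
    Far (cl J w) (ry a j y) := by
  obtain ⟨q, t, ht1, ht2, hw, -⟩ := exists_coord (by omega : 0 ≤ J) w
  obtain ⟨q', t', ht1', ht2', hy, -⟩ := exists_coord ha y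
  have e := rc_eq (q := q') ha ht1' ht2' J
  rw [← hy] at e
  obtain ⟨hd0, hd4, hd⟩ := side_diff (J := J) (by omega) ht1 ht2 (by omega) (by omega) hw e
    (by omega) (by omega)
  rw [hw, hy, cl_eq (by omega) ht1 ht2, ry_eq ha ht1' ht2',
    show q' = q + (q' - q) by ring, rt_add, far_rt]
  generalize q' - q = d at *
  interval_cases d
  · rw [rt_zero]; unfold Far; simp only; omega
  · rw [rt_one]; unfold Far; simp only; omega
  · rw [rt_two]; unfold Far; simp only; omega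
  · rw [rt_three]; unfold Far; simp only; omega
  · rw [rt_four]; unfold Far; simp only; omega

/-- a ray and a cell of a ring, the cell being after the ray -/
theorem far_ry_cl {a : ℤ} (ha : 0 ≤ a) {J j w y : ℤ} (hJ : a + 9 ≤ J) (hj : a ≤ j)
    (h1 : rc a J y + 9 ≤ w) (h2 : w + 9 ≤ rc a J y + 4 * (2 * J + 1)) :
    Far (ry a j y) (cl J w) := by
  have h := far_cl_ry ha hJ hj (w := w) (y := y + 4 * (2 * a + 1))
    (by rw [rc_period ha]; omega) (by rw [rc_period ha]; omega)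
  rw [ry_period ha] at h
  exact h.symm

/-- coarse sup distance at least `F` -/
def FarN (F : ℤ) (c c' : P2) : Prop :=
  c.1 + F ≤ c'.1 ∨ c'.1 + F ≤ c.1 ∨ c.2 + F ≤ c'.2 ∨ c'.2 + F ≤ c.2

theorem farN_rt (F q : ℤ) (c c' : P2) : FarN F (rt q c) (rt q c') ↔ FarN F c c' := by
  unfold FarN
  rcases rt_cases q c with ⟨h1, h2⟩ | ⟨h1, h2⟩ | ⟨h1, h2⟩ | ⟨h1, h2⟩ <;>
    rcases rt_cases q c' with ⟨h3, h4⟩ | ⟨h3, h4⟩ | ⟨h3, h4⟩ | ⟨h3, h4⟩ <;>
    first | omega | (rw [h2, h4]; done) | (rw [h2, h4]; omega)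

/-- two cells of the same ring, quantitative -/
theorem farN_cl_cl {J F : ℤ} (hJ : 0 ≤ J) (hF0 : 1 ≤ F) (hF : F ≤ 2 * J + 1) {w w' : ℤ}
    (h1 : w + 2 * F ≤ w') (h2 : w' + 2 * F ≤ w + 4 * (2 * J + 1)) :
    FarN F (cl J w) (cl J w') := by
  obtain ⟨q, t, ht1, ht2, hx, -⟩ := exists_coord hJ w
  obtain ⟨q', t', ht1', ht2', hy, -⟩ := exists_coord hJ w'
  obtain ⟨hd0, hd4, hd⟩ := side_diff hJ ht1 ht2 ht1' ht2' hx hy (by omega) (by omega)
  rw [hx, hy, cl_eq hJ ht1 ht2, cl_eq hJ ht1' ht2',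
    show q' = q + (q' - q) by ring, rt_add, farN_rt]
  generalize q' - q = d at *
  interval_cases d
  · rw [rt_zero]; unfold FarN; simp only; omega
  · rw [rt_one]; unfold FarN; simp only; omega
  · rw [rt_two]; unfold FarN; simp only; omega
  · rw [rt_three]; unfold FarN; simp only; omega
  · rw [rt_four]; unfold FarN; simp only; omega

end Crest.Agent.R158.Sp874
end

-- ▼ part R158/Sp4b_874
section

/-!
# Row 158, Block SEP, S4 (helper874), file b: one sliding token at a time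

* `PS a m B x` : the cells visited by a token whose angular position is `x b` around the ring `a + 18 b`,
  `b ≤ m`, sliding from `x b` to `x (b+1)` on the ring `a + 18 b + 9`, straight up to the ring `B`
* `conn_PS`, `far_PS`, `nr_PS`, `PS_start`, `PS_end`
-/

set_option autoImplicit false

namespace Crest.Agent.R158.Sp874

open Crest.Agent.R158.Rs689 Crest.Agent.R161.Geo729

/-- the path of a token -/
def PS (a : ℤ) (m : ℕ) (B : ℤ) (x : ℕ → ℤ) : Set P2 :=
  {c | (∃ b : ℕ, b ≤ m ∧ ∃ j : ℤ, a ≤ j ∧ j ≤ B ∧ a + 18 * b - 9 ≤ j ∧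
      (b < m → j ≤ a + 18 * b + 9) ∧ c = ry a j (x b)) ∨
    ∃ b : ℕ, b < m ∧ ∃ w : ℤ, min (rc a (a + 18 * b + 9) (x b)) (rc a (a + 18 * b + 9) (x (b + 1))) ≤ w ∧
      w ≤ max (rc a (a + 18 * b + 9) (x b)) (rc a (a + 18 * b + 9) (x (b + 1))) ∧
      c = cl (a + 18 * b + 9) w}

variable {a B : ℤ} {m : ℕ} {x y : ℕ → ℤ}

theorem nr_PS (ha : 0 ≤ a) (hB : a + 18 * m ≤ B) {c : P2} (hc : c ∈ PS a m B x) :
    a ≤ nr c ∧ nr c ≤ B := by
  rcases hc with ⟨b, hb, j, h1, h2, -, -, rfl⟩ | ⟨b, hb, w, -, -, rfl⟩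
  · rw [nr_ry ha h1]
    exact ⟨h1, h2⟩
  · rw [nr_cl (by omega)]
    omega

theorem PS_start (ha : 0 ≤ a) (_ : 1 ≤ m) {c : P2} (hc : c ∈ PS a m B x) (h : nr c < a + 9) :
    c = ry a (nr c) (x 0) := by
  rcases hc with ⟨b, hb, j, h1, h2, h3, -, rfl⟩ | ⟨b, hb, w, -, -, rfl⟩
  · rw [nr_ry ha h1] at h ⊢
    have : b = 0 := by omega
    rw [this]
  · rw [nr_cl (by omega)] at h
    omega

theorem PS_end (ha : 0 ≤ a) {c : P2} (hc : c ∈ PS a m B x) (h : a + 18 * m - 9 < nr c) :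
    c = ry a (nr c) (x m) := by
  rcases hc with ⟨b, hb, j, h1, h2, h3, h4, rfl⟩ | ⟨b, hb, w, -, -, rfl⟩
  · rw [nr_ry ha h1] at h ⊢
    have : b = m := by
      by_contra hne
      have := h4 (by omega)
      omega
    rw [this]
  · rw [nr_cl (by omega)] at h
    omega

theorem start_mem (hB : a + 18 * m ≤ B) : ry a a (x 0) ∈ PS a m B x :=
  Or.inl ⟨0, Nat.zero_le _, a, le_rfl, by omega, by push_cast; omega, fun _ => by push_cast; omega, rfl⟩

theorem end_mem (hB : a + 18 * m ≤ B) : ry a B (x m) ∈ PS a m B x :=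
  Or.inl ⟨m, le_rfl, B, by omega, le_rfl, by omega, fun h => absurd h (lt_irrefl _), rfl⟩

theorem conn_PS (ha : 0 ≤ a) (hB : a + 18 * m ≤ B) :
    CConn (PS a m B x) (ry a a (x 0)) (ry a B (x m)) := by
  have key : ∀ b : ℕ, b ≤ m → CConn (PS a m B x) (ry a a (x 0)) (ry a (a + 18 * b) (x b)) := by
    intro b
    induction b with
    | zero =>
      intro _
      simp only [Nat.cast_zero, mul_zero, add_zero]
      exact .refl
    | succ b ih =>
      intro hb
      refine (ih (by omega)).trans ?_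
      have e1 : CConn (PS a m B x) (ry a (a + 18 * b) (x b)) (ry a (a + 18 * b + 9) (x b)) := by
        refine conn_ray ha _ (by omega) fun i h1 h2 => ?_
        exact Or.inl ⟨b, by omega, i, by omega, by omega, by omega, fun _ => h2, rfl⟩
      have e2 : CConn (PS a m B x) (ry a (a + 18 * b + 9) (x b)) (ry a (a + 18 * b + 9) (x (b + 1))) := by
        rw [← cl_rc ha (by omega), ← cl_rc ha (by omega)]
        refine conn_arc (by omega) fun v h1 h2 => ?_
        exact Or.inr ⟨b, by omega, v, h1, h2, rfl⟩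
      have e3 : CConn (PS a m B x) (ry a (a + 18 * b + 9) (x (b + 1)))
          (ry a (a + 18 * (b + 1 : ℕ)) (x (b + 1))) := by
        refine conn_ray ha _ (by push_cast; omega) fun i h1 h2 => ?_
        push_cast at h2
        exact Or.inl ⟨b + 1, by omega, i, by omega, by omega, by push_cast; omega,
          fun _ => by push_cast; omega, rfl⟩
      exact (e1.trans e2).trans e3
  refine (key m le_rfl).trans ?_
  refine conn_ray ha _ hB fun i h1 h2 => ?_
  exact Or.inl ⟨m, le_rfl, i, by omega, h2, by omega, fun h => absurd h (lt_irrefl _), rfl⟩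

/-- the two positions are separated by at least `18`, cyclically -/
def Sp (a x y : ℤ) : Prop := x + 18 ≤ y ∧ y + 18 ≤ x + 4 * (2 * a + 1)

theorem far_arc_ray (ha : 0 ≤ a) {J j x1 x2 w y : ℤ} (hJ : a + 9 ≤ J) (hj : a ≤ j)
    (h1 : Sp a x1 y) (h2 : Sp a x2 y) (h3 : min (rc a J x1) (rc a J x2) ≤ w)
    (h4 : w ≤ max (rc a J x1) (rc a J x2)) : Far (cl J w) (ry a j y) := by
  have e1 := rc_add_le ha (by omega : a ≤ J) h1.1 (by omega)
  have e2 := rc_add_le ha (by omega : a ≤ J) h2.1 (by omega)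
  have e3 := rc_add_le ha (by omega : a ≤ J) h1.2 (by omega)
  have e4 := rc_add_le ha (by omega : a ≤ J) h2.2 (by omega)
  rw [rc_period ha] at e3 e4
  exact far_cl_ry ha hJ hj (by omega) (by omega)

theorem far_ray_arc (ha : 0 ≤ a) {J j y1 y2 w x : ℤ} (hJ : a + 9 ≤ J) (hj : a ≤ j)
    (h1 : Sp a x y1) (h2 : Sp a x y2) (h3 : min (rc a J y1) (rc a J y2) ≤ w)
    (h4 : w ≤ max (rc a J y1) (rc a J y2)) : Far (ry a j x) (cl J w) := by
  have e1 := rc_add_le ha (by omega : a ≤ J) h1.1 (by omega)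
  have e2 := rc_add_le ha (by omega : a ≤ J) h2.1 (by omega)
  have e3 := rc_add_le ha (by omega : a ≤ J) h1.2 (by omega)
  have e4 := rc_add_le ha (by omega : a ≤ J) h2.2 (by omega)
  rw [rc_period ha] at e3 e4
  exact far_ry_cl ha hJ hj (by omega) (by omega)

/-- **two tokens which move one at a time and stay separated have far paths** -/
theorem far_PS (ha : 4 ≤ a) (hsep : ∀ b ≤ m, Sp a (x b) (y b))
    (hone : ∀ b < m, x b = x (b + 1) ∨ y b = y (b + 1)) {c c' : P2} (hc : c ∈ PS a m B x)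
    (hc' : c' ∈ PS a m B y) : Far c c' := by
  have ha0 : 0 ≤ a := by omega
  by_cases hn1 : nr c + 9 ≤ nr c'
  · exact far_of_nr hn1
  by_cases hn2 : nr c' + 9 ≤ nr c
  · exact (far_of_nr hn2).symm
  rcases hc with ⟨b, hb, j, h1, h2, h3, h4, rfl⟩ | ⟨b, hb, w, hw1, hw2, rfl⟩ <;>
    rcases hc' with ⟨b', hb', j', h1', h2', h3', h4', rfl⟩ | ⟨b', hb', w', hw1', hw2', rfl⟩
  · rw [nr_ry ha0 h1, nr_ry ha0 h1'] at hn1 hn2
    have key : ∀ b b' : ℕ, b ≤ m → b' ≤ m → b' = b + 1 → Sp a (x b) (y b') ∧ Sp a (x b') (y b) := by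
      rintro b _ hb hb' rfl
      have e1 := hsep b hb
      have e2 := hsep (b + 1) hb'
      rcases hone b (by omega) with h | h
      · rw [h] at e1 ⊢
        exact ⟨e2, e1⟩
      · rw [h] at e1 ⊢
        exact ⟨e1, e2⟩
    rcases lt_trichotomy b b' with h | h | h
    · have e : b' = b + 1 := by
        have := h4 (by omega)
        by_contra hne
        omega
      obtain ⟨s1, s2⟩ := (key b b' hb hb' e).1
      exact far_ry_ry ha h1 h1' s1 s2
    · subst h
      obtain ⟨s1, s2⟩ := hsep b hb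
      exact far_ry_ry ha h1 h1' s1 s2
    · have e : b = b' + 1 := by
        have := h4' (by omega)
        by_contra hne
        omega
      obtain ⟨s1, s2⟩ := (key b' b hb' hb e).2
      exact far_ry_ry ha h1 h1' s1 s2
  · rw [nr_ry ha0 h1, nr_cl (by omega)] at hn1 hn2
    have e : b = b' ∨ b = b' + 1 := by
      by_contra hne
      rw [not_or] at hne
      have h5 : b < b' ∨ b' + 2 ≤ b := by omega
      rcases h5 with h5 | h5
      · have := h4 (by omega)
        omega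
      · omega
    have e1 := hsep b' (by omega)
    have e2 := hsep (b' + 1) (by omega)
    rcases hone b' hb' with h | h
    · have e3 : x b = x b' := by
        rcases e with rfl | rfl
        · rfl
        · exact h.symm
      rw [e3]
      rw [← h] at e2
      exact far_ray_arc ha0 (by omega) h1 e1 e2 hw1' hw2'
    · rw [← h, max_self] at hw2'
      rw [← h, min_self] at hw1'
      have e3 : w' = rc a (a + 18 * b' + 9) (y b') := le_antisymm hw2' hw1'
      rw [e3, cl_rc ha0 (by omega)]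
      rcases e with rfl | rfl
      · exact far_ry_ry ha h1 (by omega) e1.1 e1.2
      · rw [h]
        exact far_ry_ry ha h1 (by omega) e2.1 e2.2
  · rw [nr_ry ha0 h1', nr_cl (by omega)] at hn1 hn2
    have e : b' = b ∨ b' = b + 1 := by
      by_contra hne
      rw [not_or] at hne
      have h5 : b' < b ∨ b + 2 ≤ b' := by omega
      rcases h5 with h5 | h5
      · have := h4' (by omega)
        omega
      · omega
    have e1 := hsep b (by omega)
    have e2 := hsep (b + 1) (by omega)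
    rcases hone b hb with h | h
    · rw [← h, max_self] at hw2
      rw [← h, min_self] at hw1
      have e3 : w = rc a (a + 18 * b + 9) (x b) := le_antisymm hw2 hw1
      rw [e3, cl_rc ha0 (by omega)]
      rcases e with rfl | rfl
      · exact far_ry_ry ha (by omega) h1' e1.1 e1.2
      · rw [h]
        exact far_ry_ry ha (by omega) h1' e2.1 e2.2
    · have e3 : y b' = y b := by
        rcases e with rfl | rfl
        · rfl
        · exact h.symm
      rw [e3]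
      rw [← h] at e2
      exact far_arc_ray ha0 (by omega) h1' e1 e2 hw1 hw2
  · rw [nr_cl (by omega), nr_cl (by omega)] at hn1 hn2
    have e : b = b' := by omega
    subst e
    have e1 := hsep b (by omega)
    have e2 := hsep (b + 1) (by omega)
    rcases hone b hb with h | h
    · rw [← h, max_self] at hw2
      rw [← h, min_self] at hw1
      have e3 : w = rc a (a + 18 * b + 9) (x b) := le_antisymm hw2 hw1
      rw [e3, cl_rc ha0 (by omega)]
      rw [← h] at e2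
      exact far_ray_arc ha0 (by omega) (by omega) e1 e2 hw1' hw2'
    · rw [← h, max_self] at hw2'
      rw [← h, min_self] at hw1'
      have e3 : w' = rc a (a + 18 * b + 9) (y b) := le_antisymm hw2' hw1'
      rw [e3, cl_rc ha0 (by omega)]
      rw [← h] at e2
      exact far_arc_ray ha0 (by omega) (by omega) e1 e2 hw1 hw2

end Crest.Agent.R158.Sp874
end

-- ▼ part R158/Sp4c_874

/-!
# Row 158, Block SEP, S4 (helper874), file c: the chain of ten slides, outward tokens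

* `Gd a X`   : four cyclically ordered, `18`-separated angular positions
* `chain`    : from `X` to `Y` in ten slides
* `tok_out`  : **outward tokens**: four cells of the ring `N - 1` (gaps `≥ 26`) are joined to the four
  standard cells `rt i (M, 0)` (E, N, W, S) of the ring `M` by pairwise far tubes
* `tok_out'` : the same for the clockwise order
-/

set_option autoImplicit false

namespace Crest.Agent.R158.Sp874

open Crest.Agent.R158.Rs689 Crest.Agent.R161.Geo729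

/-- four positions in cyclic order, `g`-separated -/
def Gd (a g : ℤ) (X : Fin 4 → ℤ) : Prop :=
  X 0 + g ≤ X 1 ∧ X 1 + g ≤ X 2 ∧ X 2 + g ≤ X 3 ∧ X 3 + g ≤ X 0 + 4 * (2 * a + 1)

theorem Gd.mono {a g g' : ℤ} (h : g' ≤ g) {X : Fin 4 → ℤ} (hX : Gd a g X) : Gd a g' X := by
  obtain ⟨h1, h2, h3, h4⟩ := hX
  exact ⟨by omega, by omega, by omega, by omega⟩

theorem Gd.pair {a g : ℤ} (hg : 0 ≤ g) {X : Fin 4 → ℤ} (hX : Gd a g X) {i j : Fin 4}
    (hij : i < j) : X i + g ≤ X j ∧ X j + g ≤ X i + 4 * (2 * a + 1) := by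
  obtain ⟨h1, h2, h3, h4⟩ := hX
  fin_cases i <;> fin_cases j <;> first | (exact absurd hij (by decide)) | skip
  all_goals (simp only [Fin.zero_eta, Fin.mk_one, Fin.reduceFinMk]; omega)

theorem Gd.shift {a g : ℤ} {X : Fin 4 → ℤ} (hX : Gd a g X) (n : ℤ) :
    Gd a g fun i => X i + n := by
  obtain ⟨h1, h2, h3, h4⟩ := hX
  refine ⟨?_, ?_, ?_, ?_⟩ <;> dsimp only <;> omega

/-- **ten slides** -/
theorem chain {a : ℤ} {X Y : Fin 4 → ℤ} (hX : Gd a 18 X) (hY : Gd a 18 Y)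
    (h1 : Y 0 + 72 ≤ X 0 + 4 * (2 * a + 1)) (h2 : X 0 + 72 ≤ Y 0 + 4 * (2 * a + 1)) :
    ∃ x : Fin 4 → ℕ → ℤ, (∀ i, x i 0 = X i) ∧ (∀ i, x i 10 = Y i) ∧
      (∀ b ≤ 10, Gd a 18 fun i => x i b) ∧
      ∀ b < 10, ∀ i j, i < j → x i b = x i (b + 1) ∨ x j b = x j (b + 1) := by
  obtain ⟨a1, a2, a3, a4⟩ := hX
  obtain ⟨b1, b2, b3, b4⟩ := hY
  rcases le_total (X 0) (Y 0) with h | h
  · refine ⟨![fun b => if b < 7 then X 0 else Y 0,
      fun b => if b < 1 then X 1 else if b < 6 then X 0 + 18 else if b < 10 then Y 0 + 18 else Y 1,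
      fun b => if b < 2 then X 2 else if b < 5 then X 0 + 36 else if b < 9 then Y 0 + 36 else Y 2,
      fun b => if b < 3 then X 3 else if b < 4 then X 0 + 54 else if b < 8 then Y 0 + 54 else Y 3],
      ?_, ?_, ?_, ?_⟩
    · intro i; fin_cases i <;> simp
    · intro i; fin_cases i <;> simp
    · intro b hb
      unfold Gd
      simp only [Matrix.cons_val_zero, Matrix.cons_val_one, Matrix.cons_val]
      interval_cases b <;> simp <;> omega
    · intro b hb i j hij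
      fin_cases i <;> fin_cases j <;> first | (exact absurd hij (by decide)) | skip
      all_goals
        simp only [Fin.zero_eta, Fin.mk_one, Fin.reduceFinMk, Matrix.cons_val_zero,
          Matrix.cons_val_one, Matrix.cons_val]
        interval_cases b <;> simp
  · refine ⟨![fun b => if b < 4 then X 0 else Y 0,
      fun b => if b < 1 then X 1 else if b < 5 then X 0 + 18 else if b < 10 then Y 0 + 18 else Y 1,
      fun b => if b < 2 then X 2 else if b < 6 then X 0 + 36 else if b < 9 then Y 0 + 36 else Y 2,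
      fun b => if b < 3 then X 3 else if b < 7 then X 0 + 54 else if b < 8 then Y 0 + 54 else Y 3],
      ?_, ?_, ?_, ?_⟩
    · intro i; fin_cases i <;> simp
    · intro i; fin_cases i <;> simp
    · intro b hb
      unfold Gd
      simp only [Matrix.cons_val_zero, Matrix.cons_val_one, Matrix.cons_val]
      interval_cases b <;> simp <;> omega
    · intro b hb i j hij
      fin_cases i <;> fin_cases j <;> first | (exact absurd hij (by decide)) | skip
      all_goals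
        simp only [Fin.zero_eta, Fin.mk_one, Fin.reduceFinMk, Matrix.cons_val_zero,
          Matrix.cons_val_one, Matrix.cons_val]
        interval_cases b <;> simp

theorem far_chain {a B : ℤ} (ha : 4 ≤ a) {x : Fin 4 → ℕ → ℤ}
    (h1 : ∀ b ≤ 10, Gd a 18 fun i => x i b)
    (h2 : ∀ b < 10, ∀ i j, i < j → x i b = x i (b + 1) ∨ x j b = x j (b + 1)) {i j : Fin 4}
    (hij : i ≠ j) {c c' : P2} (hc : c ∈ PS a 10 B (x i)) (hc' : c' ∈ PS a 10 B (x j)) :
    Far c c' := by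
  have key : ∀ i j : Fin 4, i < j → ∀ c ∈ PS a 10 B (x i), ∀ c' ∈ PS a 10 B (x j), Far c c' := by
    intro i j hij c hc c' hc'
    exact far_PS ha (fun b hb => (h1 b hb).pair (by norm_num) hij) (fun b hb => h2 b hb i j hij)
      hc hc'
  rcases lt_or_gt_of_ne hij with h | h
  · exact key i j h c hc c' hc'
  · exact (key j i h c' hc' c hc).symm

/-- the connection stays in the rings `≥ a + s` -/
theorem conn_PS' {a B : ℤ} {m : ℕ} {x : ℕ → ℤ} (ha : 0 ≤ a) {s : ℤ} (hs0 : 0 ≤ s) (hs : s ≤ 9)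
    (hm : 1 ≤ m) (hB : a + 18 * m ≤ B) :
    CConn (PS a m B x ∩ {c | a + s ≤ nr c}) (ry a (a + s) (x 0)) (ry a B (x m)) := by
  have mr : ∀ b : ℕ, b ≤ m → ∀ j : ℤ, a + s ≤ j → j ≤ B → a + 18 * b - 9 ≤ j →
      (b < m → j ≤ a + 18 * b + 9) → ry a j (x b) ∈ PS a m B x ∩ {c | a + s ≤ nr c} := by
    intro b hb j h1 h2 h3 h4
    refine ⟨Or.inl ⟨b, hb, j, by omega, h2, h3, h4, rfl⟩, ?_⟩
    show a + s ≤ nr (ry a j (x b))
    rw [nr_ry ha (by omega)]
    exact h1
  have ma : ∀ b : ℕ, b < m → CConn (PS a m B x ∩ {c | a + s ≤ nr c})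
      (ry a (a + 18 * b + 9) (x b)) (ry a (a + 18 * b + 9) (x (b + 1))) := by
    intro b hb
    rw [← cl_rc ha (by omega), ← cl_rc ha (by omega)]
    refine conn_arc (by omega) fun v h1 h2 => ⟨Or.inr ⟨b, hb, v, h1, h2, rfl⟩, ?_⟩
    show a + s ≤ nr (cl (a + 18 * b + 9) v)
    rw [nr_cl (by omega)]
    omega
  have key : ∀ b : ℕ, b < m → CConn (PS a m B x ∩ {c | a + s ≤ nr c}) (ry a (a + s) (x 0))
      (ry a (a + 18 * b + 9) (x b)) := by
    intro b
    induction b with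
    | zero =>
      intro _
      refine conn_ray ha _ (by push_cast; omega) fun i h1 h2 => ?_
      push_cast at h2
      exact mr 0 (by omega) i h1 (by omega) (by push_cast; omega) fun _ => by push_cast; omega
    | succ b ih =>
      intro hb
      refine (ih (by omega)).trans ((ma b (by omega)).trans ?_)
      refine conn_ray ha _ (by push_cast; omega) fun i h1 h2 => ?_
      push_cast at h2
      exact mr (b + 1) (by omega) i (by omega) (by omega) (by push_cast; omega)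
        fun _ => by push_cast; omega
  obtain ⟨m', rfl⟩ : ∃ m' : ℕ, m = m' + 1 := ⟨m - 1, by omega⟩
  refine (key m' (by omega)).trans ((ma m' (by omega)).trans ?_)
  push_cast at hB
  refine conn_ray ha _ (by omega) fun i h1 h2 => ?_
  exact mr (m' + 1) le_rfl i (by omega) h2 (by push_cast; omega) fun h => absurd h (lt_irrefl _)

/-! ### cells and hubs -/

/-- the cells of the rings `≤ M` -/
noncomputable def ballC (M : ℤ) : Finset P2 := Finset.Icc (-1 - M) M ×ˢ Finset.Icc (-1 - M) M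

theorem mem_ballC {M : ℤ} {c : P2} : c ∈ ballC M ↔ nr c ≤ M := by
  unfold ballC nr
  simp only [Finset.mem_product, Finset.mem_Icc]
  omega

theorem card_ballC (M : ℤ) : (ballC M).card = (2 * M + 2).toNat ^ 2 := by
  unfold ballC
  rw [Finset.card_product, Int.card_Icc, sq]
  congr 2 <;> ring

theorem ringC_dist {κ c : P2} {r : ℤ} (h : c ∈ ringC κ r) :
    κ.1 - r ≤ c.1 ∧ c.1 ≤ κ.1 + r ∧ κ.2 - r ≤ c.2 ∧ c.2 ≤ κ.2 + r := (mem_frameC.1 h).1

theorem nr_ringC {κ c : P2} {r : ℤ} (h : c ∈ ringC κ r) : nr c ≤ nr κ + r ∧ nr κ ≤ nr c + r := by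
  have := ringC_dist h
  unfold nr
  omega

/-- the ray leaves the hub through its ring of radius `3` -/
theorem ray_mem_ringC {a w : ℤ} (ha : 0 ≤ a) : ry a (a + 3) w ∈ ringC (cl a w) 3 := by
  obtain ⟨q, t, h1, h2, rfl, -⟩ := exists_coord ha w
  rw [ry_eq ha h1 h2, cl_eq ha h1 h2]
  unfold ringC
  rw [mem_frameC]
  rcases rt_cases q (a + 3, t) with ⟨h3, h4⟩ | ⟨h3, h4⟩ | ⟨h3, h4⟩ | ⟨h3, h4⟩ <;>
    rcases rt_cases q (a, t) with ⟨h5, h6⟩ | ⟨h5, h6⟩ | ⟨h5, h6⟩ | ⟨h5, h6⟩ <;>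
    first | omega | (rw [h4, h6]; dsimp only; omega)

/-- standard rays -/
theorem ry_std {a : ℤ} (ha : 0 ≤ a) (j i n : ℤ) :
    ry a j (i * (2 * a + 1) + n * (4 * (2 * a + 1))) = rt i (j, 0) := by
  rw [ry_periods ha]
  have := ry_eq (q := i) (t := 0) ha (by omega) (by omega) j
  rwa [add_zero] at this

/-- the standard configuration close to a given position -/
theorem exists_std {a : ℤ} (ha : 20 ≤ a) (X0 : ℤ) : ∃ Y : Fin 4 → ℤ, Gd a 18 Y ∧
    Y 0 + 72 ≤ X0 + 4 * (2 * a + 1) ∧ X0 + 72 ≤ Y 0 + 4 * (2 * a + 1) ∧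
    ∀ (i : Fin 4) (j : ℤ), ry a j (Y i) = rt ((i : ℕ) : ℤ) (j, 0) := by
  have h0 : (0 : ℤ) < 4 * (2 * a + 1) := by omega
  set n : ℤ := (X0 + 2 * (2 * a + 1)) / (4 * (2 * a + 1)) with hn
  have h1 := Int.ediv_mul_le (X0 + 2 * (2 * a + 1)) h0.ne'
  have h2 := Int.lt_ediv_add_one_mul_self (X0 + 2 * (2 * a + 1)) h0
  rw [← hn] at h1 h2
  rw [add_mul, one_mul] at h2
  refine ⟨fun i => ((i : ℕ) : ℤ) * (2 * a + 1) + n * (4 * (2 * a + 1)), ?_, ?_, ?_, ?_⟩
  · refine ⟨?_, ?_, ?_, ?_⟩ <;> simp <;> omega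
  · simp; omega
  · simp; omega
  · intro i j
    exact ry_std (by omega) j _ n

theorem five_of_far {c c' : P2} (h : Far c c') : 5 ≤ |c.1 - c'.1| ∨ 5 ≤ |c.2 - c'.2| := by
  unfold Far at h
  rw [le_abs, le_abs]
  omega

theorem five_of_far_ring {κ c c' : P2} {r : ℤ} (hr : r ≤ 4) (hc : c ∈ ringC κ r)
    (h : Far κ c') : 5 ≤ |c.1 - c'.1| ∨ 5 ≤ |c.2 - c'.2| := by
  have := ringC_dist hc
  unfold Far at h
  rw [le_abs, le_abs]
  omega

theorem five_of_rings {κ κ' c c' : P2} {r r' : ℤ} (hr : r ≤ 4) (hr' : r' ≤ 4) (hc : c ∈ ringC κ r)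
    (hc' : c' ∈ ringC κ' r') (h : FarN 13 κ κ') : 5 ≤ |c.1 - c'.1| ∨ 5 ≤ |c.2 - c'.2| := by
  have := ringC_dist hc
  have := ringC_dist hc'
  unfold FarN at h
  rw [le_abs, le_abs]
  omega

theorem five_symm {c c' : P2} (h : 5 ≤ |c.1 - c'.1| ∨ 5 ≤ |c.2 - c'.2|) :
    5 ≤ |c'.1 - c.1| ∨ 5 ≤ |c'.2 - c.2| := by
  rwa [abs_sub_comm, abs_sub_comm c'.2]

theorem farN_pair {N : ℤ} (hN : 8 ≤ N) {w : Fin 4 → ℤ} {g : ℤ} (hg : 26 ≤ g)
    (hw : Gd (N - 1) g w) {i j : Fin 4} (hij : i ≠ j) :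
    FarN 13 (cl (N - 1) (w i)) (cl (N - 1) (w j)) := by
  have key : ∀ i j : Fin 4, i < j → FarN 13 (cl (N - 1) (w i)) (cl (N - 1) (w j)) := by
    intro i j hij
    obtain ⟨h1, h2⟩ := hw.pair (by omega) hij
    exact farN_cl_cl (by omega) (by norm_num) (by omega) (by omega) (by omega)
  rcases lt_or_gt_of_ne hij with h | h
  · exact key i j h
  · have := key j i h
    unfold FarN at *
    omega

/-! ### outward tokens -/

open Classical in
/-- **Outward tokens**, with the straight part made explicit. -/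
theorem tok_outS {N M : ℤ} (hN : 21 ≤ N) (hM : N + 200 ≤ M) {w : Fin 4 → ℤ}
    (hw : Gd (N - 1) 26 w) :
    ∃ K : Fin 4 → Finset P2,
      (∀ i, ringC (cl (N - 1) (w i)) 3 ⊆ K i) ∧
      (∀ i, ∀ c ∈ K i, (|c.1 - (cl (N - 1) (w i)).1| ≤ 4 ∧ |c.2 - (cl (N - 1) (w i)).2| ≤ 4) ∨
        N + 2 ≤ nr c) ∧
      (∀ i, ∀ c ∈ K i, N - 4 ≤ nr c ∧ nr c ≤ M) ∧
      (∀ i, rt ((i : ℕ) : ℤ) (M, 0) ∈ K i) ∧
      (∀ i, ∀ k ∈ ringC (cl (N - 1) (w i)) 3,
        CConn ((K i : Finset P2) : Set P2) k (rt ((i : ℕ) : ℤ) (M, 0))) ∧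
      (∀ i j, i ≠ j → ∀ c ∈ K i, ∀ c' ∈ K j, 5 ≤ |c.1 - c'.1| ∨ 5 ≤ |c.2 - c'.2|) ∧
      (∀ i, ∀ c ∈ K i, N + 171 ≤ nr c → c = rt ((i : ℕ) : ℤ) (nr c, 0)) ∧
      (∀ i, (K i).card ≤ (2 * M + 2).toNat ^ 2) ∧
      (∀ i, ∀ j, N + 171 ≤ j → j ≤ M → rt ((i : ℕ) : ℤ) (j, 0) ∈ K i) := by
  set a : ℤ := N - 1 with ha
  have ha0 : 0 ≤ a := by omega
  obtain ⟨Y, hY, hY1, hY2, hY3⟩ := exists_std (a := a) (by omega) (w 0)
  obtain ⟨x, hx0, hx1, hx2, hx3⟩ := chain (hw.mono (by norm_num)) hY hY1 hY2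
  have hfar : ∀ i j, i ≠ j → ∀ c ∈ PS a 10 M (x i), ∀ c' ∈ PS a 10 M (x j), Far c c' :=
    fun i j hij c hc c' hc' => far_chain (by omega) hx2 hx3 hij hc hc'
  have hB : a + 18 * ((10 : ℕ) : ℤ) ≤ M := by push_cast; omega
  have hstart : ∀ i, cl a (w i) ∈ PS a 10 M (x i) := by
    intro i
    have := start_mem (a := a) (m := 10) (B := M) (x := x i) hB
    rwa [hx0, ry_self] at this
  refine ⟨fun i => ringC (cl a (w i)) 3 ∪
    (ballC M).filter fun c => c ∈ PS a 10 M (x i) ∧ N + 2 ≤ nr c, ?_, ?_, ?_, ?_, ?_, ?_, ?_, ?_, ?_⟩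
  · intro i
    exact Finset.subset_union_left
  · intro i c hc
    rcases Finset.mem_union.1 hc with h | h
    · have := ringC_dist h
      left
      rw [abs_le, abs_le]
      omega
    · exact Or.inr (Finset.mem_filter.1 h).2.2
  · intro i c hc
    rcases Finset.mem_union.1 hc with h | h
    · have h1 := nr_ringC h
      rw [nr_cl ha0] at h1
      omega
    · have h1 := (Finset.mem_filter.1 h).2.2
      exact ⟨by omega, mem_ballC.1 (Finset.mem_filter.1 h).1⟩
  · intro i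
    refine Finset.mem_union_right _ (Finset.mem_filter.2 ⟨mem_ballC.2 ?_, ?_, ?_⟩)
    · rw [nr_rt]
      unfold nr
      dsimp only
      omega
    · have := end_mem (a := a) (m := 10) (B := M) (x := x i) hB
      rwa [hx1, hY3] at this
    · rw [nr_rt]
      unfold nr
      dsimp only
      omega
  · intro i k hk
    have h1 := conn_PS' (a := a) (B := M) (m := 10) (x := x i) ha0 (s := 3) (by norm_num)
      (by norm_num) (by norm_num) hB
    rw [hx0, hx1, hY3] at h1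
    refine CConn.trans (CConn.mono ?_ (ringC_conn hk (ray_mem_ringC ha0)))
      (CConn.mono ?_ h1)
    · intro c hc
      exact Finset.mem_union_left _ hc
    · rintro c ⟨hc1, hc2⟩
      have hc3 : a + 3 ≤ nr c := hc2
      exact Finset.mem_union_right _ (Finset.mem_filter.2 ⟨mem_ballC.2 (nr_PS ha0 hB hc1).2, hc1,
        by omega⟩)
  · intro i j hij c hc c' hc'
    rcases Finset.mem_union.1 hc with h | h <;> rcases Finset.mem_union.1 hc' with h' | h'
    · exact five_of_rings (by norm_num) (by norm_num) h h' (farN_pair (by omega) le_rfl hw hij)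
    · exact five_of_far_ring (by norm_num) h (hfar i j hij _ (hstart i) _
        (Finset.mem_filter.1 h').2.1)
    · exact five_symm (five_of_far_ring (by norm_num) h' (hfar j i hij.symm _ (hstart j) _
        (Finset.mem_filter.1 h).2.1))
    · exact five_of_far (hfar i j hij _ (Finset.mem_filter.1 h).2.1 _
        (Finset.mem_filter.1 h').2.1)
  · intro i c hc h1
    rcases Finset.mem_union.1 hc with h | h
    · have h2 := nr_ringC h
      rw [nr_cl ha0] at h2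
      omega
    · have h2 := PS_end ha0 (Finset.mem_filter.1 h).2.1 (by push_cast; omega)
      rwa [hx1, hY3] at h2
  · intro i
    rw [← card_ballC]
    refine Finset.card_le_card ?_
    intro c hc
    rcases Finset.mem_union.1 hc with h | h
    · have h1 := nr_ringC h
      rw [nr_cl ha0] at h1
      exact mem_ballC.2 (by omega)
    · exact (Finset.mem_filter.1 h).1
  · intro i j h1 h2
    have hj : nr (rt ((i : ℕ) : ℤ) (j, 0)) = j := by
      rw [nr_rt]
      unfold nr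
      dsimp only
      omega
    refine Finset.mem_union_right _ (Finset.mem_filter.2 ⟨mem_ballC.2 ?_, ?_, ?_⟩)
    · rw [hj]
      exact h2
    · left
      refine ⟨10, le_rfl, j, by omega, h2, by push_cast; omega, fun h => absurd h (lt_irrefl _), ?_⟩
      rw [hx1, hY3]
    · rw [hj]
      omega

open Classical in
/-- **Outward tokens.** -/
theorem tok_out {N M : ℤ} (hN : 21 ≤ N) (hM : N + 200 ≤ M) {w : Fin 4 → ℤ}
    (hw : Gd (N - 1) 26 w) :
    ∃ K : Fin 4 → Finset P2,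
      (∀ i, ringC (cl (N - 1) (w i)) 3 ⊆ K i) ∧
      (∀ i, ∀ c ∈ K i, (|c.1 - (cl (N - 1) (w i)).1| ≤ 4 ∧ |c.2 - (cl (N - 1) (w i)).2| ≤ 4) ∨
        N + 2 ≤ nr c) ∧
      (∀ i, ∀ c ∈ K i, N - 4 ≤ nr c ∧ nr c ≤ M) ∧
      (∀ i, rt ((i : ℕ) : ℤ) (M, 0) ∈ K i) ∧
      (∀ i, ∀ k ∈ ringC (cl (N - 1) (w i)) 3,
        CConn ((K i : Finset P2) : Set P2) k (rt ((i : ℕ) : ℤ) (M, 0))) ∧
      (∀ i j, i ≠ j → ∀ c ∈ K i, ∀ c' ∈ K j, 5 ≤ |c.1 - c'.1| ∨ 5 ≤ |c.2 - c'.2|) ∧
      (∀ i, ∀ c ∈ K i, N + 171 ≤ nr c → c = rt ((i : ℕ) : ℤ) (nr c, 0)) ∧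
      (∀ i, (K i).card ≤ (2 * M + 2).toNat ^ 2) := by
  obtain ⟨K, h1, h2, h3, h4, h5, h6, h7, h8, -⟩ := tok_outS hN hM hw
  exact ⟨K, h1, h2, h3, h4, h5, h6, h7, h8⟩

/-- relabelling for the clockwise order: `1` and `3` are exchanged -/
def sw13 : Fin 4 → Fin 4 := ![0, 3, 2, 1]

theorem sw13_sw13 (i : Fin 4) : sw13 (sw13 i) = i := by
  fin_cases i <;> rfl

theorem sw13_ne {i j : Fin 4} (h : i ≠ j) : sw13 i ≠ sw13 j := fun h' => h (by
  rw [← sw13_sw13 i, h', sw13_sw13])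

/-- cyclic order, clockwise -/
def Gd' (a g : ℤ) (X : Fin 4 → ℤ) : Prop :=
  X 1 + g ≤ X 0 ∧ X 2 + g ≤ X 1 ∧ X 3 + g ≤ X 2 ∧ X 0 + g ≤ X 3 + 4 * (2 * a + 1)

theorem Gd'.gd {a g : ℤ} {X : Fin 4 → ℤ} (h : Gd' a g X) :
    Gd a g fun i => if i = 0 then X 0 else X (sw13 i) + 4 * (2 * a + 1) := by
  obtain ⟨h1, h2, h3, h4⟩ := h
  refine ⟨?_, ?_, ?_, ?_⟩ <;> simp [sw13] <;> omega



end Crest.Agent.R158.Sp874
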