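import Crest.Agent.R158.Sg1_158
import Crest.Agent.R158.Sp4c_874
import Crest.Agent.R158.Sp4d_874

-- ▼ part R158/Sg2_158
section

/-!
# Row 158, Block SEP, leaf L6 (helper158): gluing of nice arms and outer arms through tokens

* `TkD d m n K κ` : the set of cells `K` contains the landing ring of `κ` and crosses the gate `d` of
  scale `m`
* `garm_glue` : nice arm + tube + outer arm
* `Tok` : hypotheses on the four sets of cells
* `glue_out_tok` : `P(Nice) P(Uout) c^(4M) ≤ P(Glued)`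
* `glued_piv` : glued arms make `e` pivotal for the crossing of a rectangle
-/

set_option autoImplicit false

noncomputable section

namespace Crest.Agent.R158.Sg158

open MeasureTheory ProbabilityTheory unitInterval
open Crest.Agent.R161.Geo729 Crest.Agent.R161.Topo374 Crest.Agent.R161.Dual374
open Crest.Agent.R161.Tas682 hiding Sq
open Crest.Agent.R158.Rs689 Crest.Agent.R158.Ru874 Crest.Agent.R158.Sp580

/-- the set of cells `K` contains the landing ring of `κ` and crosses the gate `d` of scale `m` -/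
def TkD (d : Fin 4) (m n : ℕ) (K : Finset P2) (κ : P2) : Prop :=
  match d with
  | 0 => TkH n K κ (20 * m) (32 * m) (-(4 * m)) (4 * m)
  | 1 => TkV n K κ (-(4 * m)) (4 * m) (20 * m) (32 * m)
  | 2 => TkH n K κ (-(32 * m)) (-(20 * m)) (-(4 * m)) (4 * m)
  | 3 => TkV n K κ (-(4 * m)) (4 * m) (-(32 * m)) (-(20 * m))

/-- the target set `P` is outside the block of radius 4 around `κ` -/
def FarP (n : ℕ) (κ : P2) (P : Set P2) : Prop :=
  ∀ b ∈ P, b.1 ≤ (κ.1 - 4) * n ∨ (κ.1 + 5) * n ≤ b.1 ∨ b.2 ≤ (κ.2 - 4) * n ∨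
    (κ.2 + 5) * n ≤ b.2

/-- nice arm + tube + outer arm -/
theorem garm_glue {z : Cfz} {n m : ℕ} {d : Fin 4} {K : Finset P2} (hz : z ∈ tubeX n K) {κ : P2}
    (T : TkD d m n K κ) {u : P2} (hu : GArm z d m u) {S P L : Set P2} {a : P2}
    (ha : a ∈ Bk n κ 1) (hout : Arm z S P a) (hP : FarP n κ P)
    (h1 : Sq (16 * m) ∪ Corr d m ⊆ L) (h2 : tubeR n K ⊆ L) (h3 : S ⊆ L) : Arm z L P u := by
  obtain ⟨A, B, hA, hB, hAB, huA⟩ := hu
  obtain ⟨b, hb, hab⟩ := hout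
  have hG : Gate d m ⊆ L := ((Gate_sub d m).trans Set.subset_union_right).trans h1
  have ha' : a ∈ Rect ((κ.1 - 1) * n) ((κ.1 + 2) * n) ((κ.2 - 1) * n) ((κ.2 + 2) * n) := by
    rw [mem_Bk] at ha
    rw [mem_rect]
    obtain ⟨e1, e2, e3, e4⟩ := ha
    refine ⟨e1, ?_, e3, ?_⟩
    · linarith
    · linarith
  refine ⟨b, hb, ?_⟩
  fin_cases d
  · simp only [co, Fin.zero_eta] at hA hB hAB huA T h1 hG
    exact arm_glueH hz T huA (OC.refl hAB.1) hAB (fun w hw => ⟨hw.1, hw.2.1⟩) hA hB hab ha'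
      (hP b hb) h1 hG h2 h3
  · simp only [co, Fin.mk_one] at hA hB hAB huA T h1 hG
    exact arm_glueV hz T huA hAB (OC.refl hAB.1) (fun w hw => ⟨hw.1, hw.2.1⟩) (by omega)
      (by omega) hab ha' (hP b hb) h1 hG h2 h3
  · simp only [co, Fin.reduceFinMk] at hA hB hAB huA T h1 hG
    refine arm_glueH hz T huA hAB (OC.refl hAB.1) (fun w hw => ?_) (by omega) (by omega) hab ha'
      (hP b hb) h1 hG h2 h3
    have h5 := hw.1
    have h6 := hw.2.1
    simp only [co] at h5 h6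
    omega
  · simp only [co, Fin.reduceFinMk] at hA hB hAB huA T h1 hG
    refine arm_glueV hz T huA (OC.refl hAB.1) hAB (fun w hw => ?_) (by omega) (by omega) hab ha'
      (hP b hb) h1 hG h2 h3
    have h5 := hw.1
    have h6 := hw.2.1
    simp only [co] at h5 h6
    omega

/-- hypotheses on a set of cells: landing at `κ`, gate `d` of scale `m`, away from the inner support
`N`, inside `Bk n κ 8 ∪ Sq (ρ - 1)`, inside `L` -/
structure Tok (d : Fin 4) (m n : ℕ) (ρ : ℤ) (N L : Set P2) (K : Finset P2) (κ : P2) : Prop where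
  tk : TkD d m n K κ
  loc : tubeB n K ⊆ Bk n κ 8 ∪ Sq (ρ - 1)
  inn : Disjoint N (tubeB n K)
  sub : tubeB n K ⊆ L

theorem OutV_not {L : Set P2} {ρ : ℤ} {x : P2} (h : x ∈ OutV L ρ) (hx : x ∈ Sq (ρ - 1)) : False := by
  have h1 := h.2
  rw [mem_Sq] at hx
  have h2 : ρ ≤ sd (0, 0) x := h1
  unfold sd at h2
  simp only [sub_zero] at h2
  rcases abs_cases x.1 with h3 | h3 <;> rcases abs_cases x.2 with h4 | h4 <;> omega

theorem OutF_not {L : Set P2} {ρ : ℤ} {x : P2} (h : x ∈ OutF L ρ) (hx : x ∈ Sq (ρ - 1)) : False := by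
  have h1 := h.2
  rw [mem_Sq] at hx
  apply h1
  omega

theorem garm_if {z : Cfz} {m : ℕ} {u v : P2} {s : Bool} {a b : Fin 4}
    (h : GArm z (if s then a else b) m u ∧ GArm z (if s then b else a) m v) :
    (GArm z a m u ∧ GArm z b m v) ∨ (GArm z b m u ∧ GArm z a m v) := by
  cases s
  · exact Or.inr h
  · exact Or.inl h

/-- the deterministic core: one colour -/
theorem pair_glue {z : Cfz} {n m : ℕ} {d d' : Fin 4} {K K' : Finset P2} {κ κ' : P2}
    (hz : z ∈ tubeX n K) (hz' : z ∈ tubeX n K') (T : TkD d m n K κ) (T' : TkD d' m n K' κ')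
    {u v : P2} (hn : (GArm z d m u ∧ GArm z d' m v) ∨ (GArm z d' m u ∧ GArm z d m v))
    {S P P' L : Set P2} (ha : ∃ a ∈ Bk n κ 1, Arm z S P a) (ha' : ∃ a ∈ Bk n κ' 1, Arm z S P' a)
    (hP : FarP n κ P) (hP' : FarP n κ' P') (h1 : Sq (16 * m) ∪ Corr d m ⊆ L)
    (h1' : Sq (16 * m) ∪ Corr d' m ⊆ L) (h2 : tubeR n K ⊆ L) (h2' : tubeR n K' ⊆ L)
    (h3 : S ⊆ L) : (Arm z L P u ∧ Arm z L P' v) ∨ (Arm z L P' u ∧ Arm z L P v) := by
  obtain ⟨a, ha, ho⟩ := ha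
  obtain ⟨a', ha', ho'⟩ := ha'
  rcases hn with ⟨hu, hv⟩ | ⟨hu, hv⟩
  · exact Or.inl ⟨garm_glue hz T hu ha ho hP h1 h2 h3, garm_glue hz' T' hv ha' ho' hP' h1' h2' h3⟩
  · exact Or.inr ⟨garm_glue hz' T' hu ha' ho' hP' h1' h2' h3, garm_glue hz T hv ha ho hP h1 h2 h3⟩

/-- **L6 with given tokens.** Primal tokens `K1` (direction `d1`), `K3` (`d3`), dual tokens `K2`,
`K4`. -/
theorem glue_out_tok {p : I} {c : ℝ} {n m : ℕ} {ρ : ℤ} (hn : 1 ≤ n) (hc : RSp c p n) {e : Edge}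
    (he : src e = (0, 0)) (s t : Bool) (hm : 32 * (m : ℤ) < ρ) {L FL : Set P2} (hL : L.Finite)
    (hFL : FL.Finite) (hLm : Sq (32 * m) ⊆ L) (hFLm : Sq (32 * m) ⊆ FL) {k1 k2 k3 k4 : P2}
    {P1 P3 Q2 Q4 : Set P2} (f1 : FarP n k1 P1) (f3 : FarP n k3 P3) (f2 : FarP n k2 Q2)
    (f4 : FarP n k4 Q4) {K1 K2 K3 K4 : Finset P2} {d1 d2 d3 d4 : Fin 4}
    (hd : (d1 = 0 ∧ d3 = 2) ∨ (d1 = 2 ∧ d3 = 0)) (hd' : (d2 = 1 ∧ d4 = 3) ∨ (d2 = 3 ∧ d4 = 1))
    (T1 : Tok d1 m n ρ (NVD m) L K1 k1) (T3 : Tok d3 m n ρ (NVD m) L K3 k3)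
    (T2 : Tok d2 m n ρ (NVP m) FL K2 k2) (T4 : Tok d4 m n ρ (NVP m) FL K4 k4)
    (d12 : Disjoint (tubeB n K1) (tubeB n K2)) (d14 : Disjoint (tubeB n K1) (tubeB n K4))
    (d32 : Disjoint (tubeB n K3) (tubeB n K2)) (d34 : Disjoint (tubeB n K3) (tubeB n K4))
    {M : ℕ} (c1 : K1.card ≤ M) (c2 : K2.card ≤ M) (c3 : K3.card ≤ M) (c4 : K4.card ≤ M) :
    c ^ (8 * M) * ((nu p).real (Nice e m s t) *
      (nu p).real (Uout L FL ρ n k1 k2 k3 k4 P1 P3 Q2 Q4)) ≤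
      (nu p).real (Glued e L FL P1 P3 Q2 Q4) := by
  classical
  have hm0 : (0 : ℤ) ≤ m := by positivity
  have z16 : ∀ x : P2, x = (0, 0) → x ∈ Sq (16 * m) := by
    rintro x rfl
    rw [mem_Sq]
    simp only
    omega
  -- supports
  have l1 : LocD (NVP m) (NiceP e m s) := ⟨_, dep_NiceP e m s, fun i hi => (of_mem_edF hi).1⟩
  have mapsrc : ∀ {D : Set P2} {i : Edge}, i ∈ (edF D).map dE.symm.toEmbedding → src i ∈ D := by
    intro D i hi
    rw [Finset.mem_map] at hi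
    obtain ⟨i', hi', rfl⟩ := hi
    have h3 : tgt (dE (dE.symm i')) = fA (dE.symm i') := tgt_dE _
    rw [Equiv.apply_symm_apply] at h3
    have h4 : fA (dE.symm i') = src (dE.symm i') := rfl
    show src (dE.symm i') ∈ D
    rw [← h4, ← h3]
    exact (of_mem_edF hi').2
  have l2 : LocD (NVD m) (NiceD e m t) := ⟨_, dep_NiceD e m t, fun i hi => mapsrc hi⟩
  have l3 : LocD (OutV L ρ \ Bk2 n k2 k4 8) (UoutP L ρ n k1 k2 k3 k4 P1 P3) :=
    ⟨_, dep_UoutP hL ρ n k1 k2 k3 k4 P1 P3, fun i hi => (of_mem_edF hi).1⟩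
  have l4 : LocD (OutF FL ρ \ Bk2 n k1 k3 8) (UoutD FL ρ n k1 k2 k3 k4 Q2 Q4) :=
    ⟨_, dep_UoutD hFL ρ n k1 k2 k3 k4 Q2 Q4, fun i hi => mapsrc hi⟩
  have inS : NVP m ∪ NVD m ⊆ Sq (ρ - 1) := by
    refine Set.union_subset ((NVP_sub m).trans (Sq_sub (by omega)))
      ((NVD_sub m).trans (Sq_sub (by omega)))
  have g0 : Disjoint (NVP m ∪ NVD m) ((OutV L ρ \ Bk2 n k2 k4 8) ∪ (OutF FL ρ \ Bk2 n k1 k3 8)) := by
    rw [Set.disjoint_left]
    rintro x hx (h | h)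
    · exact OutV_not h.1 (inS hx)
    · exact OutF_not h.1 (inS hx)
  have g1 : Disjoint (NVP m ∪ (OutV L ρ \ Bk2 n k2 k4 8)) (tubeB n (K2 ∪ K4)) := by
    rw [Set.disjoint_left, tubeB_union]
    rintro x (hx | hx) (h | h)
    · exact Set.disjoint_left.1 T2.inn hx h
    · exact Set.disjoint_left.1 T4.inn hx h
    · rcases T2.loc h with h' | h'
      · exact hx.2 (Or.inl h')
      · exact OutV_not hx.1 h'
    · rcases T4.loc h with h' | h'
      · exact hx.2 (Or.inr h')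
      · exact OutV_not hx.1 h'
  have g2 : Disjoint (NVD m ∪ (OutF FL ρ \ Bk2 n k1 k3 8)) (tubeB n (K1 ∪ K3)) := by
    rw [Set.disjoint_left, tubeB_union]
    rintro x (hx | hx) (h | h)
    · exact Set.disjoint_left.1 T1.inn hx h
    · exact Set.disjoint_left.1 T3.inn hx h
    · rcases T1.loc h with h' | h'
      · exact hx.2 (Or.inl h')
      · exact OutF_not hx.1 h'
    · rcases T3.loc h with h' | h'
      · exact hx.2 (Or.inr h')
      · exact OutF_not hx.1 h'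
  have g3 : Disjoint (tubeB n (K1 ∪ K3)) (tubeB n (K2 ∪ K4)) := by
    rw [tubeB_union, tubeB_union, Set.disjoint_union_left, Set.disjoint_union_right,
      Set.disjoint_union_right]
    exact ⟨⟨d12, d14⟩, ⟨d32, d34⟩⟩
  have key := glue_prob p (n := n) (K := K1 ∪ K3) (K' := K2 ∪ K4) l1 l2 l3 l4 (inc_NiceP e m s)
    (decr_NiceD e m t) (inc_UoutP L ρ n k1 k2 k3 k4 P1 P3) (decr_UoutD FL ρ n k1 k2 k3 k4 Q2 Q4)
    g0 g1 g2 g3
  -- price
  have hc0 := hc.1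
  have hc1 := hc.le_one hn
  have pr : c ^ (8 * M) ≤ xpr p (3 * n) n ^ (2 * (K1 ∪ K3).card) *
      xpr (σ p) (3 * n) n ^ (2 * (K2 ∪ K4).card) := by
    obtain ⟨h4, h5⟩ := hc.2 n hn le_rfl
    have q1 : (K1 ∪ K3).card ≤ 2 * M := (Finset.card_union_le _ _).trans (by omega)
    have q2 : (K2 ∪ K4).card ≤ 2 * M := (Finset.card_union_le _ _).trans (by omega)
    have r1 : c ^ (4 * M) ≤ xpr p (3 * n) n ^ (2 * (K1 ∪ K3).card) :=
      (pow_le_pow_of_le_one hc0.le hc1 (by omega)).trans (pow_le_pow_left₀ hc0.le h4 _)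
    have r2 : c ^ (4 * M) ≤ xpr (σ p) (3 * n) n ^ (2 * (K2 ∪ K4).card) :=
      (pow_le_pow_of_le_one hc0.le hc1 (by omega)).trans (pow_le_pow_left₀ hc0.le h5 _)
    have r3 : c ^ (8 * M) = c ^ (4 * M) * c ^ (4 * M) := by
      rw [← pow_add]
      congr 1
      ring
    rw [r3]
    exact mul_le_mul r1 r2 (pow_nonneg hc0.le _) ((pow_nonneg hc0.le _).trans r1)
  have st : c ^ (8 * M) * ((nu p).real (Nice e m s t) *
      (nu p).real (Uout L FL ρ n k1 k2 k3 k4 P1 P3 Q2 Q4)) ≤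
      (nu p).real (NiceP e m s ∩ NiceD e m t) *
        (nu p).real (UoutP L ρ n k1 k2 k3 k4 P1 P3 ∩ UoutD FL ρ n k1 k2 k3 k4 Q2 Q4) *
        (xpr p (3 * n) n ^ (2 * (K1 ∪ K3).card) *
          xpr (σ p) (3 * n) n ^ (2 * (K2 ∪ K4).card)) := by
    rw [mul_comm]
    exact mul_le_mul_of_nonneg_left pr (mul_nonneg measureReal_nonneg measureReal_nonneg)
  refine (st.trans key).trans (measureReal_mono ?_)
  -- the deterministic part
  rintro z ⟨⟨⟨hP, hOP⟩, ⟨hD, hOD⟩⟩, hK, hK'⟩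
  have e13 : tubeB n (K1 ∪ K3) = tubeB n K1 ∪ tubeB n K3 := tubeB_union _ _ _
  have e24 : tubeB n (K2 ∪ K4) = tubeB n K2 ∪ tubeB n K4 := tubeB_union _ _ _
  have zD : src e ∈ NVD m := Or.inl (z16 _ he)
  have zP : src e ∈ NVP m := Or.inl (z16 _ he)
  have n1 : src e ∉ tubeB n (K1 ∪ K3) := fun h =>
    Set.disjoint_left.1 g2 (Or.inl zD) h
  have n2 : src e ∉ tubeB n (K2 ∪ K4) := fun h =>
    Set.disjoint_left.1 g1 (Or.inl zP) h
  have n3 : src e ∉ OutV L ρ \ Bk2 n k2 k4 8 := fun h =>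
    Set.disjoint_left.1 g0 (Or.inl zP) (Or.inl h)
  have n4 : src e ∉ OutF FL ρ \ Bk2 n k1 k3 8 := fun h =>
    Set.disjoint_left.1 g0 (Or.inl zP) (Or.inr h)
  have t1 : frc e false z ∈ tubeX n (K1 ∪ K3) := ((locD_tube n (K1 ∪ K3)).frc_iff n1 false z).2 hK
  have t2 : frc e true z ∈ dual ⁻¹' tubeX n (K2 ∪ K4) :=
    ((locD_tubed n (K2 ∪ K4)).frc_iff n2 true z).2 hK'
  have o1 : frc e false z ∈ UoutP L ρ n k1 k2 k3 k4 P1 P3 := (l3.frc_iff n3 false z).2 hOP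
  have o2 : frc e true z ∈ UoutD FL ρ n k1 k2 k3 k4 Q2 Q4 := (l4.frc_iff n4 true z).2 hOD
  have sL : OutV L ρ \ Bk2 n k2 k4 8 ⊆ L := fun x hx => hx.1.1
  have sF : OutF FL ρ \ Bk2 n k1 k3 8 ⊆ FL := fun x hx => hx.1.1
  have cL : ∀ d : Fin 4, Sq (16 * m) ∪ Corr d m ⊆ L := fun d =>
    Set.union_subset ((Sq_sub (by omega)).trans hLm) ((Corr_sub d m).trans hLm)
  have cF : ∀ d : Fin 4, Sq (16 * m) ∪ Corr d m ⊆ FL := fun d =>
    Set.union_subset ((Sq_sub (by omega)).trans hFLm) ((Corr_sub d m).trans hFLm)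
  have np : (GArm (frc e false z) d1 m (src e) ∧ GArm (frc e false z) d3 m (tgt e)) ∨
      (GArm (frc e false z) d3 m (src e) ∧ GArm (frc e false z) d1 m (tgt e)) := by
    have h := garm_if hP
    rcases hd with ⟨rfl, rfl⟩ | ⟨rfl, rfl⟩
    · exact h
    · exact h.symm
  have nd : (GArm (dual (frc e true z)) d2 m (fA e) ∧ GArm (dual (frc e true z)) d4 m (fB e)) ∨
      (GArm (dual (frc e true z)) d4 m (fA e) ∧ GArm (dual (frc e true z)) d2 m (fB e)) := by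
    have h := garm_if hD
    rcases hd' with ⟨rfl, rfl⟩ | ⟨rfl, rfl⟩
    · exact h
    · exact h.symm
  refine ⟨?_, ?_⟩
  · exact pair_glue (tubeX_mono Finset.subset_union_left t1) (tubeX_mono Finset.subset_union_right t1)
      T1.tk T3.tk np o1.1 o1.2 f1 f3 (cL _) (cL _) ((tubeR_sub n K1).trans T1.sub)
      ((tubeR_sub n K3).trans T3.sub) sL
  · have t2' : dual (frc e true z) ∈ tubeX n (K2 ∪ K4) := t2
    exact pair_glue (tubeX_mono Finset.subset_union_left t2')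
      (tubeX_mono Finset.subset_union_right t2')
      T2.tk T4.tk nd o2.1 o2.2 f2 f4 (cF _) (cF _) ((tubeR_sub n K2).trans T2.sub)
      ((tubeR_sub n K4).trans T4.sub) sF

/-! ### glued arms and pivotality -/

/-- **Glued arms make `e` pivotal** for the left-right crossing of `[x0,x1] × [y0,y1]`. -/
theorem glued_piv {e : Edge} {x0 x1 y0 y1 : ℤ} :
    Glued e (Rect x0 x1 y0 y1) (Rect x0 (x1 - 1) (y0 - 1) y1) {v | v.1 = x0} {v | v.1 = x1}
      {f | f.2 = y0 - 1} {f | f.2 = y1} ⊆ Piv e {z | LRc z x0 x1 y0 y1} := by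
  rintro z ⟨hp, hd⟩
  rw [piv_inc (lr_inc _ _ _ _)]
  have m01 : ∀ i, frc e false z i = true → frc e true z i = true := by
    intro i hi
    by_cases h1 : i = e
    · subst h1
      rw [frc_self]
    · rw [frc_ne h1] at hi ⊢
      exact hi
  constructor
  · -- left - src - tgt - right
    have key : ∀ u v : P2, (u = src e ∧ v = tgt e) ∨ (u = tgt e ∧ v = src e) →
        Arm (frc e false z) (Rect x0 x1 y0 y1) {v | v.1 = x0} u →
        Arm (frc e false z) (Rect x0 x1 y0 y1) {v | v.1 = x1} v →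
        LRc (frc e true z) x0 x1 y0 y1 := by
      rintro u v huv ⟨a, ha, h1⟩ ⟨b, hb, h2⟩
      have h1' := oc_mono m01 subset_rfl h1
      have h2' := oc_mono m01 subset_rfl h2
      refine ⟨a, b, ha, hb, h1'.symm.trans (OC.trans ⟨h1'.left, ?_⟩ h2')⟩
      refine Relation.ReflTransGen.single ⟨⟨e, frc_self e true z, ?_⟩, h1'.left, h2'.left⟩
      rcases huv with ⟨rfl, rfl⟩ | ⟨rfl, rfl⟩
      · exact Or.inl ⟨rfl, rfl⟩
      · exact Or.inr ⟨rfl, rfl⟩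
    rcases hp with ⟨h1, h2⟩ | ⟨h1, h2⟩
    · exact key _ _ (Or.inl ⟨rfl, rfl⟩) h1 h2
    · exact key _ _ (Or.inr ⟨rfl, rfl⟩) h2 h1
  · intro hlr
    refine not_both hlr ?_
    have m10 := dual_anti m01
    have key : ∀ u v : P2, (u = fA e ∧ v = fB e) ∨ (u = fB e ∧ v = fA e) →
        Arm (dual (frc e true z)) (Rect x0 (x1 - 1) (y0 - 1) y1) {f | f.2 = y0 - 1} u →
        Arm (dual (frc e true z)) (Rect x0 (x1 - 1) (y0 - 1) y1) {f | f.2 = y1} v →
        BTc (dual (frc e false z)) x0 (x1 - 1) (y0 - 1) y1 := by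
      rintro u v huv ⟨a, ha, h1⟩ ⟨b, hb, h2⟩
      have h1' := oc_mono m10 subset_rfl h1
      have h2' := oc_mono m10 subset_rfl h2
      refine ⟨a, b, ha, hb, h1'.symm.trans (OC.trans ⟨h1'.left, ?_⟩ h2')⟩
      have hde : dual (frc e false z) (dE e) = true := by
        rw [dual_dE, frc_self]
        simp
      refine Relation.ReflTransGen.single ⟨⟨dE e, hde, ?_⟩, h1'.left, h2'.left⟩
      rw [src_dE, tgt_dE]
      rcases huv with ⟨rfl, rfl⟩ | ⟨rfl, rfl⟩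
      · exact Or.inr ⟨rfl, rfl⟩
      · exact Or.inl ⟨rfl, rfl⟩
    rcases hd with ⟨h1, h2⟩ | ⟨h1, h2⟩
    · exact key _ _ (Or.inl ⟨rfl, rfl⟩) h1 h2
    · exact key _ _ (Or.inr ⟨rfl, rfl⟩) h2 h1

end Crest.Agent.R158.Sg158
end
end

-- ▼ part R158/Sg3_158
section

/-!
# Row 158, Block SEP, leaf L6 (helper158): from the tokens of 874 to the hypotheses of `glue_out_tok`

* `InT i N M0 K κ` : the inward token of direction `i`, landing at `κ`, as produced by 874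
* `InT.tok` : it satisfies `Tok`
* `glue_out_of` : `glue_out` from four inward tokens
-/

set_option autoImplicit false
set_option linter.unusedSimpArgs false

noncomputable section

namespace Crest.Agent.R158.Sg158

open MeasureTheory ProbabilityTheory unitInterval
open Crest.Agent.R161.Geo729 Crest.Agent.R161.Topo374 Crest.Agent.R161.Dual374
open Crest.Agent.R161.Tas682 hiding Sq
open Crest.Agent.R158.Rs689 Crest.Agent.R158.Ru874 Crest.Agent.R158.Sp580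
open Crest.Agent.R158.Sp874 (rt nr cl Gd Gd')

/-- inward token of direction `i` landing at `κ` (ring `N - 1`), straight in the rings `≤ J` -/
structure InT (i : Fin 4) (N M0 J : ℤ) (K : Finset P2) (κ : P2) : Prop where
  nrk : nr κ = N - 1
  ring : ringC κ 3 ⊆ K
  loc : ∀ c ∈ K, (|c.1 - κ.1| ≤ 4 ∧ |c.2 - κ.2| ≤ 4) ∨ nr c ≤ N - 5
  low : ∀ c ∈ K, M0 ≤ nr c
  conn : ∀ k ∈ ringC κ 3, CConn ((K : Finset P2) : Set P2) k (rt ((i : ℕ) : ℤ) (M0, 0))
  str : ∀ c ∈ K, nr c ≤ J → c = rt ((i : ℕ) : ℤ) (nr c, 0)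
  ray : ∀ j : ℤ, M0 ≤ j → j ≤ J → rt ((i : ℕ) : ℤ) (j, 0) ∈ K

theorem mem_of_nr {n : ℕ} {c x : P2} {N : ℤ} (h : nr c ≤ N)
    (hx : c.1 * n - n ≤ x.1 ∧ x.1 ≤ c.1 * n + 2 * n ∧ c.2 * n - n ≤ x.2 ∧
      x.2 ≤ c.2 * n + 2 * n) : x ∈ Sq ((N + 2) * n) := by
  have hn : (0 : ℤ) ≤ n := by positivity
  unfold nr at h
  rw [mem_Sq]
  have h1 : c.1 * (n : ℤ) ≤ N * n := mul_le_mul_of_nonneg_right (by omega) hn
  have h2 : c.2 * (n : ℤ) ≤ N * n := mul_le_mul_of_nonneg_right (by omega) hn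
  have h3 : (-1 - N) * (n : ℤ) ≤ c.1 * n := mul_le_mul_of_nonneg_right (by omega) hn
  have h4 : (-1 - N) * (n : ℤ) ≤ c.2 * n := mul_le_mul_of_nonneg_right (by omega) hn
  have e1 : (-1 - N) * (n : ℤ) = -n - N * n := by ring
  have e2 : (N + 2) * (n : ℤ) = N * n + 2 * n := by ring
  rw [e2]
  rw [e1] at h3 h4
  omega

theorem notMem_of_nr {n : ℕ} {c x : P2} {N R : ℤ} (h : N ≤ nr c)
    (hx : c.1 * n - n ≤ x.1 ∧ x.1 ≤ c.1 * n + 2 * n ∧ c.2 * n - n ≤ x.2 ∧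
      x.2 ≤ c.2 * n + 2 * n) (hR : R < (N - 1) * n) : x ∉ Sq R := by
  have hn : (0 : ℤ) ≤ n := by positivity
  unfold nr at h
  rw [mem_Sq]
  have e2 : (N - 1) * (n : ℤ) = N * n - n := by ring
  rw [e2] at hR
  intro h0
  have h1 : N ≤ c.1 ∨ N ≤ -1 - c.1 ∨ N ≤ c.2 ∨ N ≤ -1 - c.2 := by omega
  rcases h1 with h1 | h1 | h1 | h1
  · have h2 : N * (n : ℤ) ≤ c.1 * n := mul_le_mul_of_nonneg_right h1 hn
    omega
  · have h2 : N * (n : ℤ) ≤ (-1 - c.1) * n := mul_le_mul_of_nonneg_right h1 hn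
    have e3 : (-1 - c.1) * (n : ℤ) = -n - c.1 * n := by ring
    rw [e3] at h2
    omega
  · have h2 : N * (n : ℤ) ≤ c.2 * n := mul_le_mul_of_nonneg_right h1 hn
    omega
  · have h2 : N * (n : ℤ) ≤ (-1 - c.2) * n := mul_le_mul_of_nonneg_right h1 hn
    have e3 : (-1 - c.2) * (n : ℤ) = -n - c.2 * n := by ring
    rw [e3] at h2
    omega

theorem FarP.of_out {n : ℕ} (hn : 1 ≤ n) {κ : P2} {N R : ℤ} (hκ : nr κ = N - 1) {P : Set P2}
    (hR : (N + 4) * n ≤ R) (h : ∀ b ∈ P, b ∉ Sq R) : FarP n κ P := by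
  intro b hb
  have h1 := h b hb
  rw [mem_Sq] at h1
  unfold nr at hκ
  have hn0 : (0 : ℤ) ≤ n := by positivity
  have h2 : (κ.1 + 5) * (n : ℤ) ≤ (N + 4) * n := mul_le_mul_of_nonneg_right (by omega) hn0
  have h3 : (κ.2 + 5) * (n : ℤ) ≤ (N + 4) * n := mul_le_mul_of_nonneg_right (by omega) hn0
  have h4 : -(N + 4) * (n : ℤ) ≤ (κ.1 - 4) * n := mul_le_mul_of_nonneg_right (by omega) hn0
  have h5 : -(N + 4) * (n : ℤ) ≤ (κ.2 - 4) * n := mul_le_mul_of_nonneg_right (by omega) hn0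
  have e1 : -(N + 4) * (n : ℤ) = -((N + 4) * n) := by ring
  rw [e1] at h4 h5
  omega

/-- the inner support avoided by the token of direction `i` -/
def NVo (i : Fin 4) (m : ℕ) : Set P2 :=
  match i with
  | 0 => NVD m
  | 1 => NVP m
  | 2 => NVD m
  | 3 => NVP m

theorem NVo_sub (i : Fin 4) (m : ℕ) : NVo i m ⊆ Sq (32 * m) := by
  fin_cases i
  · exact NVD_sub m
  · exact NVP_sub m
  · exact NVD_sub m
  · exact NVP_sub m

theorem InT.tkd {i : Fin 4} {N M0 J : ℤ} {K : Finset P2} {κ : P2} (h : InT i N M0 J K κ)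
    {n m : ℕ} (hJ : M0 ≤ J) (h1 : (M0 - 1) * n ≤ 20 * m) (h2 : 32 * (m : ℤ) ≤ J * n)
    (h3 : (n : ℤ) ≤ m) : TkD i m n K κ := by
  have hn : (0 : ℤ) ≤ n := by positivity
  have r0 := h.ray
  have c0 := h.conn
  have hk : ((κ.1 - 3, κ.2 - 3) : P2) ∈ ringC κ 3 := by
    unfold ringC
    rw [mem_frameC]
    refine ⟨⟨?_, ?_, ?_, ?_⟩, Or.inl rfl⟩ <;> simp only <;> omega
  have e1 : (M0 - 1) * (n : ℤ) = M0 * n - n := by ring
  rw [e1] at h1
  fin_cases i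
  · refine ⟨h.ring, M0, J, 0, hJ, ?_, ⟨_, hk, ?_⟩, ?_, ?_, ?_, ?_⟩
    · intro c hc
      rw [mem_rowC] at hc
      have := r0 c.1 hc.1 hc.2.1
      simp only [Fin.zero_eta, Fin.val_zero, Nat.cast_zero, Sp874.rt_zero] at this
      rw [show c = (c.1, 0) from Prod.ext rfl hc.2.2]
      exact this
    · have := c0 _ hk
      simp only [Fin.zero_eta, Fin.val_zero, Nat.cast_zero, Sp874.rt_zero] at this
      exact this.symm
    · omega
    · omega
    · omega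
    · omega
  · refine ⟨h.ring, -1, M0, J, hJ, ?_, ⟨_, hk, ?_⟩, ?_, ?_, ?_, ?_⟩
    · intro c hc
      rw [mem_colC] at hc
      have := r0 c.2 hc.2.1 hc.2.2
      simp only [Fin.mk_one, Fin.val_one, Nat.cast_one, Sp874.rt_one, sub_zero] at this
      rw [show c = (-1, c.2) from Prod.ext hc.1 rfl]
      exact this
    · have := c0 _ hk
      simp only [Fin.mk_one, Fin.val_one, Nat.cast_one, Sp874.rt_one, sub_zero] at this
      exact this.symm
    · omega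
    · omega
    · omega
    · omega
  · refine ⟨h.ring, -1 - J, -1 - M0, -1, by omega, ?_, ⟨_, hk, ?_⟩, ?_, ?_, ?_, ?_⟩
    · intro c hc
      rw [mem_rowC] at hc
      have := r0 (-1 - c.1) (by omega) (by omega)
      simp only [Fin.reduceFinMk, Fin.val_two, Nat.cast_ofNat, Sp874.rt_two, sub_zero] at this
      rw [show c = (-1 - (-1 - c.1), -1) from Prod.ext (by simp) hc.2.2]
      exact this
    · have h5 := c0 _ hk
      simp only [Fin.reduceFinMk, Fin.val_two, Nat.cast_ofNat, Sp874.rt_two, sub_zero] at h5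
      refine CConn.trans ?_ h5.symm
      refine row_conn' (by omega) fun a ha1 ha2 => ?_
      have := r0 (-1 - a) (by omega) (by omega)
      simp only [Fin.reduceFinMk, Fin.val_two, Nat.cast_ofNat, Sp874.rt_two, sub_zero,
        sub_sub_cancel] at this
      exact this
    · have : (-1 - J) * (n : ℤ) = -n - J * n := by ring
      rw [this]
      omega
    · have : (-1 - M0) * (n : ℤ) = -n - M0 * n := by ring
      rw [this]
      omega
    · omega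
    · omega
  · refine ⟨h.ring, 0, -1 - J, -1 - M0, by omega, ?_, ⟨_, hk, ?_⟩, ?_, ?_, ?_, ?_⟩
    · intro c hc
      rw [mem_colC] at hc
      have := r0 (-1 - c.2) (by omega) (by omega)
      have e3 : (((⟨3, by decide⟩ : Fin 4) : ℕ) : ℤ) = 3 := rfl
      rw [e3, Sp874.rt_three] at this
      rw [show c = (0, -1 - (-1 - c.2)) from Prod.ext hc.1 (by simp)]
      exact this
    · have h5 := c0 _ hk
      have e3 : (((⟨3, by decide⟩ : Fin 4) : ℕ) : ℤ) = 3 := rfl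
      rw [e3, Sp874.rt_three] at h5
      refine CConn.trans ?_ h5.symm
      refine col_conn' (by omega) fun a ha1 ha2 => ?_
      have := r0 (-1 - a) (by omega) (by omega)
      rw [e3, Sp874.rt_three] at this
      simp only [sub_sub_cancel] at this
      exact this
    · have : (-1 - J) * (n : ℤ) = -n - J * n := by ring
      rw [this]
      omega
    · have : (-1 - M0) * (n : ℤ) = -n - M0 * n := by ring
      rw [this]
      omega
    · omega
    · omega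

theorem InT.loc' {i : Fin 4} {N M0 J : ℤ} {K : Finset P2} {κ : P2} (h : InT i N M0 J K κ)
    {n : ℕ} (hn : 1 ≤ n) : tubeB n K ⊆ Bk n κ 8 ∪ Sq (N * n - 1) := by
  rintro x ⟨c, hc, hx⟩
  have hn' : (1 : ℤ) ≤ n := by exact_mod_cast hn
  rcases h.loc c hc with ⟨h1, h2⟩ | h1
  · left
    rw [mem_Bk]
    rw [abs_le] at h1 h2
    have a1 : (κ.1 - 4) * (n : ℤ) ≤ c.1 * n := mul_le_mul_of_nonneg_right (by omega) (by omega)
    have a2 : c.1 * (n : ℤ) ≤ (κ.1 + 4) * n := mul_le_mul_of_nonneg_right (by omega) (by omega)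
    have a3 : (κ.2 - 4) * (n : ℤ) ≤ c.2 * n := mul_le_mul_of_nonneg_right (by omega) (by omega)
    have a4 : c.2 * (n : ℤ) ≤ (κ.2 + 4) * n := mul_le_mul_of_nonneg_right (by omega) (by omega)
    refine ⟨?_, ?_, ?_, ?_⟩ <;> linarith
  · right
    have h2 := mem_of_nr h1 hx
    refine Sq_sub ?_ h2
    have : (N - 5 + 2) * (n : ℤ) = N * n - 3 * n := by ring
    rw [this]
    omega

theorem InT.sub' {i : Fin 4} {N M0 J : ℤ} {K : Finset P2} {κ : P2} (h : InT i N M0 J K κ)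
    {n : ℕ} {L : Set P2} (hL : Sq ((N + 20) * n) ⊆ L) : tubeB n K ⊆ L := by
  rintro x ⟨c, hc, hx⟩
  have hn : (0 : ℤ) ≤ n := by positivity
  have h0 : nr c ≤ N + 3 := by
    rcases h.loc c hc with ⟨h1, h2⟩ | h1
    · have := h.nrk
      rw [abs_le] at h1 h2
      unfold nr at this ⊢
      omega
    · omega
  have h2 := mem_of_nr h0 hx
  refine hL (Sq_sub ?_ h2)
  exact mul_le_mul_of_nonneg_right (by omega) hn

theorem InT.inn' {i : Fin 4} {N M0 J : ℤ} {K : Finset P2} {κ : P2} (h : InT i N M0 J K κ)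
    {n m : ℕ} (h1 : 16 * (m : ℤ) < (M0 - 1) * n) (h2 : 32 * (m : ℤ) < J * n)
    (h3 : (n : ℤ) ≤ m) (hn : 1 ≤ n) : Disjoint (NVo i m) (tubeB n K) := by
  rw [Set.disjoint_left]
  rintro x hx ⟨c, hc, hxc⟩
  have hn' : (1 : ℤ) ≤ n := by exact_mod_cast hn
  by_cases hJ : nr c ≤ J
  · have h5 := h.str c hc hJ
    have h6 := h.low c hc
    have h7 : x ∉ Sq (16 * m) := notMem_of_nr h6 hxc h1
    generalize nr c = j at h5 h6
    fin_cases i
    · simp only [Fin.zero_eta, Fin.val_zero, Nat.cast_zero, Sp874.rt_zero] at h5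
      rw [h5] at hxc
      simp only [zero_mul] at hxc
      rcases hx with h8 | h8 | h8
      · exact h7 h8
      · have := h8.1
        simp only [co] at this
        omega
      · have := h8.1
        simp only [co] at this
        omega
    · simp only [Fin.mk_one, Fin.val_one, Nat.cast_one, Sp874.rt_one, sub_zero] at h5
      rw [h5] at hxc
      simp only at hxc
      rcases hx with h8 | h8 | h8
      · exact h7 h8
      · have := h8.1
        simp only [co] at this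
        omega
      · have := h8.1
        simp only [co] at this
        omega
    · simp only [Fin.reduceFinMk, Fin.val_two, Nat.cast_ofNat, Sp874.rt_two, sub_zero] at h5
      rw [h5] at hxc
      simp only at hxc
      rcases hx with h8 | h8 | h8
      · exact h7 h8
      · have := h8.1
        simp only [co] at this
        omega
      · have := h8.1
        simp only [co] at this
        omega
    · have e3 : (((⟨3, by decide⟩ : Fin 4) : ℕ) : ℤ) = 3 := rfl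
      rw [e3, Sp874.rt_three] at h5
      rw [h5] at hxc
      simp only [zero_mul] at hxc
      rcases hx with h8 | h8 | h8
      · exact h7 h8
      · have := h8.1
        simp only [co] at this
        omega
      · have := h8.1
        simp only [co] at this
        omega
  · have h5 : J + 1 ≤ nr c := by omega
    refine notMem_of_nr h5 hxc (R := 32 * m) ?_ (NVo_sub i m hx)
    rw [add_sub_cancel_right]
    exact h2

theorem InT.tok {i : Fin 4} {N M0 J : ℤ} {K : Finset P2} {κ : P2} (h : InT i N M0 J K κ)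
    {n m : ℕ} (hn : 1 ≤ n) (hJ : M0 ≤ J) (h1 : 16 * (m : ℤ) < (M0 - 1) * n)
    (h1' : (M0 - 1) * n ≤ 20 * m) (h2 : 32 * (m : ℤ) < J * n) (h3 : (n : ℤ) ≤ m) {L : Set P2}
    (hL : Sq ((N + 20) * n) ⊆ L) : Tok i m n (N * n) (NVo i m) L K κ where
  tk := h.tkd hJ h1' h2.le h3
  loc := h.loc' hn
  inn := h.inn' h1 h2 h3 hn
  sub := h.sub' hL

/-- **L6 from four inward tokens.** -/
theorem glue_out_of {p : I} {c : ℝ} {n q : ℕ} {N : ℤ} (hn : 1 ≤ n) (hq : 1 ≤ q)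
    (hc : RSp c p n) {e : Edge} (he : src e = (0, 0)) (s t : Bool) {J : ℤ}
    (hJ : 32 * (q : ℤ) < J) (hJN : J ≤ N) {L FL : Set P2} (hL : L.Finite)
    (hFL : FL.Finite) (hLN : Sq ((N + 20) * n) ⊆ L) (hFLN : Sq ((N + 20) * n) ⊆ FL)
    {k1 k2 k3 k4 : P2} {P1 P3 Q2 Q4 : Set P2} (f1 : ∀ b ∈ P1, b ∉ Sq ((N + 10) * n))
    (f3 : ∀ b ∈ P3, b ∉ Sq ((N + 10) * n)) (f2 : ∀ b ∈ Q2, b ∉ Sq ((N + 10) * n))
    (f4 : ∀ b ∈ Q4, b ∉ Sq ((N + 10) * n)) {K1 K2 K3 K4 : Finset P2} {d1 d2 d3 d4 : Fin 4}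
    (hd : (d1 = 0 ∧ d3 = 2) ∨ (d1 = 2 ∧ d3 = 0)) (hd' : (d2 = 1 ∧ d4 = 3) ∨ (d2 = 3 ∧ d4 = 1))
    (T1 : InT d1 N (18 * q + 1) J K1 k1) (T3 : InT d3 N (18 * q + 1) J K3 k3)
    (T2 : InT d2 N (18 * q + 1) J K2 k2) (T4 : InT d4 N (18 * q + 1) J K4 k4)
    (d12 : ∀ k ∈ K1, ∀ k' ∈ K2, 5 ≤ |k.1 - k'.1| ∨ 5 ≤ |k.2 - k'.2|)
    (d14 : ∀ k ∈ K1, ∀ k' ∈ K4, 5 ≤ |k.1 - k'.1| ∨ 5 ≤ |k.2 - k'.2|)
    (d32 : ∀ k ∈ K3, ∀ k' ∈ K2, 5 ≤ |k.1 - k'.1| ∨ 5 ≤ |k.2 - k'.2|)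
    (d34 : ∀ k ∈ K3, ∀ k' ∈ K4, 5 ≤ |k.1 - k'.1| ∨ 5 ≤ |k.2 - k'.2|)
    {M : ℕ} (c1 : K1.card ≤ M) (c2 : K2.card ≤ M) (c3 : K3.card ≤ M) (c4 : K4.card ≤ M) :
    c ^ (8 * M) * ((nu p).real (Nice e (q * n) s t) *
      (nu p).real (Uout L FL (N * n) n k1 k2 k3 k4 P1 P3 Q2 Q4)) ≤
      (nu p).real (Glued e L FL P1 P3 Q2 Q4) := by
  have hn' : (1 : ℤ) ≤ n := by exact_mod_cast hn
  have hq' : (1 : ℤ) ≤ q := by exact_mod_cast hq
  have hqn : (1 : ℤ) ≤ (q : ℤ) * n := by nlinarith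
  have h1 : 16 * (((q * n : ℕ) : ℤ)) < ((18 * (q : ℤ) + 1) - 1) * n := by
    push_cast
    have : ((18 * (q : ℤ) + 1) - 1) * n = 18 * (q * n) := by ring
    rw [this]
    omega
  have h1' : ((18 * (q : ℤ) + 1) - 1) * n ≤ 20 * (((q * n : ℕ) : ℤ)) := by
    push_cast
    have : ((18 * (q : ℤ) + 1) - 1) * n = 18 * (q * n) := by ring
    rw [this]
    omega
  have h2 : 32 * (((q * n : ℕ) : ℤ)) < J * n := by
    push_cast
    have : 32 * ((q : ℤ) * n) = (32 * q) * n := by ring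
    rw [this]
    exact mul_lt_mul_of_pos_right hJ (by omega)
  have h3 : (n : ℤ) ≤ ((q * n : ℕ) : ℤ) := by
    push_cast
    nlinarith
  have hMJ : 18 * (q : ℤ) + 1 ≤ J := by omega
  have hNn : J * (n : ℤ) ≤ N * n := mul_le_mul_of_nonneg_right hJN (by omega)
  have hN0 : (0 : ℤ) ≤ (N + 20) * n := by nlinarith
  have m32 : Sq (32 * ((q * n : ℕ) : ℤ)) ⊆ Sq ((N + 20) * n) := Sq_sub (by nlinarith)
  have far : ∀ {κ : P2} {P : Set P2}, nr κ = N - 1 → (∀ b ∈ P, b ∉ Sq ((N + 10) * n)) →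
      FarP n κ P := fun hκ h => FarP.of_out hn hκ (mul_le_mul_of_nonneg_right (by omega)
        (by omega)) h
  have four : ∀ {K K' : Finset P2}, (∀ k ∈ K, ∀ k' ∈ K', 5 ≤ |k.1 - k'.1| ∨ 5 ≤ |k.2 - k'.2|) →
      Disjoint (tubeB n K) (tubeB n K') := by
    intro K K' h
    refine tubeB_disj hn fun k hk k' hk' => ?_
    rcases h k hk k' hk' with h | h
    · left; omega
    · right; omega
  have o1 : NVo d1 (q * n) = NVD (q * n) := by
    rcases hd with ⟨rfl, rfl⟩ | ⟨rfl, rfl⟩ <;> rfl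
  have o3 : NVo d3 (q * n) = NVD (q * n) := by
    rcases hd with ⟨rfl, rfl⟩ | ⟨rfl, rfl⟩ <;> rfl
  have o2 : NVo d2 (q * n) = NVP (q * n) := by
    rcases hd' with ⟨rfl, rfl⟩ | ⟨rfl, rfl⟩ <;> rfl
  have o4 : NVo d4 (q * n) = NVP (q * n) := by
    rcases hd' with ⟨rfl, rfl⟩ | ⟨rfl, rfl⟩ <;> rfl
  have t1 := T1.tok hn hMJ h1 h1' h2 h3 hLN
  have t3 := T3.tok hn hMJ h1 h1' h2 h3 hLN
  have t2 := T2.tok hn hMJ h1 h1' h2 h3 hFLN
  have t4 := T4.tok hn hMJ h1 h1' h2 h3 hFLN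
  rw [o1] at t1
  rw [o2] at t2
  rw [o3] at t3
  rw [o4] at t4
  exact glue_out_tok hn hc he s t (h2.trans_le hNn) hL hFL (m32.trans hLN) (m32.trans hFLN)
    (far T1.nrk f1) (far T3.nrk f3) (far T2.nrk f2) (far T4.nrk f4) hd hd' t1 t3 t2 t4
    (four d12) (four d14) (four d32) (four d34) c1 c2 c3 c4

end Crest.Agent.R158.Sg158
end
end

-- ▼ part R158/Sg4_158

/-!
# Row 158, Block SEP, leaf L6 (helper158): `glue_out`

* `glue_out` : `c^B P(Nice e (q n) s t) P(Uout L FL (N n) n k1 .. k4 P1 P3 Q2 Q4) ≤ P(Glued ..)` for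
  `32 q + 200 ≤ N`, `k i = cl (N - 1) (w i)` in (either) cyclic order with gaps `≥ 420`
* `glue_piv` : the same with the pivotal event of a rectangle crossing
-/

set_option autoImplicit false

noncomputable section

namespace Crest.Agent.R158.Sg158

open MeasureTheory ProbabilityTheory unitInterval
open Crest.Agent.R161.Geo729 Crest.Agent.R161.Topo374 Crest.Agent.R161.Dual374
open Crest.Agent.R161.Tas682 hiding Sq
open Crest.Agent.R158.Rs689 Crest.Agent.R158.Ru874 Crest.Agent.R158.Sp580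
open Crest.Agent.R158.Sp874 (rt nr cl Gd Gd' sw13)

theorem nr_adj {c c' : P2} (h : CAdj c c') : nr c ≤ nr c' + 1 ∧ nr c' ≤ nr c + 1 := by
  unfold CAdj at h
  unfold nr
  omega

/-- a coarse path visits all intermediate rings -/
theorem level_of_conn {K : Finset P2} {a b : P2} (ha : a ∈ K)
    (h : CConn ((K : Finset P2) : Set P2) a b) {j : ℤ} (h1 : nr b ≤ j) (h2 : j ≤ nr a) :
    ∃ c ∈ K, nr c = j := by
  induction h with
  | refl => exact ⟨a, ha, by omega⟩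
  | @tail b c h3 h4 ih =>
    by_cases hb : nr b ≤ j
    · exact ih hb
    · have h5 := nr_adj h4.1
      exact ⟨c, h4.2.2, by omega⟩

/-- the token of 874 as `InT` -/
theorem inT_of {i : Fin 4} {N M : ℤ} {K : Finset P2} {κ : P2} (hk : nr κ = N - 1)
    (h1 : ringC κ 3 ⊆ K)
    (h2 : ∀ c ∈ K, (|c.1 - κ.1| ≤ 4 ∧ |c.2 - κ.2| ≤ 4) ∨ nr c ≤ N - 5)
    (h3 : ∀ c ∈ K, M ≤ nr c ∧ nr c ≤ N + 3)
    (h5 : ∀ k ∈ ringC κ 3, CConn ((K : Finset P2) : Set P2) k (rt ((i : ℕ) : ℤ) (M, 0)))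
    (h7 : ∀ c ∈ K, nr c ≤ N - 177 → c = rt ((i : ℕ) : ℤ) (nr c, 0)) (hM : 0 ≤ M) :
    InT i N M (N - 177) K κ where
  nrk := hk
  ring := h1
  loc := h2
  low := fun c hc => (h3 c hc).1
  conn := h5
  str := h7
  ray := by
    intro j hj hj'
    have hr : ((κ.1 - 3, κ.2 - 3) : P2) ∈ ringC κ 3 := by
      unfold ringC
      rw [mem_frameC]
      refine ⟨⟨?_, ?_, ?_, ?_⟩, Or.inl rfl⟩ <;> simp only <;> omega
    have h8 : nr κ ≤ nr ((κ.1 - 3, κ.2 - 3) : P2) + 3 := (Sp874.nr_ringC hr).2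
    have h9 : nr (rt ((i : ℕ) : ℤ) (M, 0)) = M := by
      rw [Sp874.nr_rt]
      unfold nr
      simp only
      omega
    obtain ⟨c, hc, hcj⟩ := level_of_conn (h1 hr) (h5 _ hr) (j := j) (by omega) (by omega)
    have h10 := h7 c hc (by omega)
    rw [hcj] at h10
    rw [← h10]
    exact hc

/-- **L6.** -/
theorem glue_out {q N : ℕ} (hq : 1 ≤ q) (hN : 32 * q + 200 ≤ N) {c : ℝ} {p : I} {n : ℕ}
    (hn : 1 ≤ n) (hc : RSp c p n) {e : Edge} (he : src e = (0, 0)) (s t : Bool)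
    {w : Fin 4 → ℤ} (hw : Gd (N - 1) 420 w ∨ Gd' (N - 1) 420 w) {L FL : Set P2} (hL : L.Finite)
    (hFL : FL.Finite) (hLN : Sq (((N : ℤ) + 20) * n) ⊆ L) (hFLN : Sq (((N : ℤ) + 20) * n) ⊆ FL)
    {P1 P3 Q2 Q4 : Set P2} (f1 : ∀ b ∈ P1, b ∉ Sq (((N : ℤ) + 10) * n))
    (f3 : ∀ b ∈ P3, b ∉ Sq (((N : ℤ) + 10) * n)) (f2 : ∀ b ∈ Q2, b ∉ Sq (((N : ℤ) + 10) * n))
    (f4 : ∀ b ∈ Q4, b ∉ Sq (((N : ℤ) + 10) * n)) :
    c ^ (8 * (2 * N + 8) ^ 2) * ((nu p).real (Nice e (q * n) s t) *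
      (nu p).real (Uout L FL (N * n) n (cl (N - 1) (w 0)) (cl (N - 1) (w 1)) (cl (N - 1) (w 2))
        (cl (N - 1) (w 3)) P1 P3 Q2 Q4)) ≤ (nu p).real (Glued e L FL P1 P3 Q2 Q4) := by
  have hM : (2 * (N : ℤ) + 8).toNat ^ 2 = (2 * N + 8) ^ 2 := by
    congr 1
  have hnr : ∀ i, nr (cl ((N : ℤ) - 1) (w i)) = N - 1 := fun i => Sp874.nr_cl (by omega) _
  rcases hw with hw | hw
  · obtain ⟨K, h1, h2, h3, h4, h5, h6, h7, h8⟩ := Sp874.tok_in (N := N) (M := 18 * q + 1)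
      (by omega) (by omega) (by omega) hw
    have T : ∀ i, InT i N (18 * q + 1) (N - 177) (K i) (cl (N - 1) (w i)) := fun i =>
      inT_of (hnr i) (h1 i) (h2 i) (h3 i) (h5 i) (h7 i) (by omega)
    have hK : ∀ i, (K i).card ≤ (2 * N + 8) ^ 2 := fun i => by
      rw [← hM]
      exact h8 i
    exact glue_out_of hn hq hc he s t (by omega) (by omega) hL hFL hLN hFLN f1 f3 f2 f4
      (Or.inl ⟨rfl, rfl⟩) (Or.inl ⟨rfl, rfl⟩) (T 0) (T 2) (T 1) (T 3)
      (h6 0 1 (by decide)) (h6 0 3 (by decide)) (h6 2 1 (by decide)) (h6 2 3 (by decide))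
      (hK 0) (hK 1) (hK 2) (hK 3)
  · obtain ⟨K, h1, h2, h3, h4, h5, h6, h7, h8⟩ := Sp874.tok_in' (N := N) (M := 18 * q + 1)
      (by omega) (by omega) (by omega) hw
    have T : ∀ i, InT (sw13 i) N (18 * q + 1) (N - 177) (K i) (cl (N - 1) (w i)) := fun i =>
      inT_of (hnr i) (h1 i) (h2 i) (h3 i) (h5 i) (h7 i) (by omega)
    have hK : ∀ i, (K i).card ≤ (2 * N + 8) ^ 2 := fun i => by
      rw [← hM]
      exact h8 i
    exact glue_out_of hn hq hc he s t (by omega) (by omega) hL hFL hLN hFLN f1 f3 f2 f4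
      (Or.inl ⟨rfl, rfl⟩) (Or.inr ⟨rfl, rfl⟩) (T 0) (T 2) (T 1) (T 3)
      (h6 0 1 (by decide)) (h6 0 3 (by decide)) (h6 2 1 (by decide)) (h6 2 3 (by decide))
      (hK 0) (hK 1) (hK 2) (hK 3)

/-- **L6 for the crossing of a rectangle.** -/
theorem glue_piv {q N : ℕ} (hq : 1 ≤ q) (hN : 32 * q + 200 ≤ N) {c : ℝ} {p : I} {n : ℕ}
    (hn : 1 ≤ n) (hc : RSp c p n) {e : Edge} (he : src e = (0, 0)) (s t : Bool)
    {w : Fin 4 → ℤ} (hw : Gd (N - 1) 420 w ∨ Gd' (N - 1) 420 w) {x0 x1 y0 y1 : ℤ}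
    (hx0 : x0 ≤ -(((N : ℤ) + 20) * n)) (hx1 : ((N : ℤ) + 20) * n + 1 ≤ x1)
    (hy0 : y0 ≤ -(((N : ℤ) + 20) * n)) (hy1 : ((N : ℤ) + 20) * n ≤ y1) :
    c ^ (8 * (2 * N + 8) ^ 2) * ((nu p).real (Nice e (q * n) s t) *
      (nu p).real (Uout (Rect x0 x1 y0 y1) (Rect x0 (x1 - 1) (y0 - 1) y1) (N * n) n
        (cl (N - 1) (w 0)) (cl (N - 1) (w 1)) (cl (N - 1) (w 2)) (cl (N - 1) (w 3))
        {v | v.1 = x0} {v | v.1 = x1} {f | f.2 = y0 - 1} {f | f.2 = y1})) ≤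
      (nu p).real (Piv e {z | LRc z x0 x1 y0 y1}) := by
  have hn' : (1 : ℤ) ≤ n := by exact_mod_cast hn
  have e1 : ((N : ℤ) + 20) * n = (N + 10) * n + 10 * n := by ring
  have h0 : (0 : ℤ) ≤ ((N : ℤ) + 10) * n := by positivity
  refine (glue_out hq hN hn hc he s t hw (rect_finite _ _ _ _) (rect_finite _ _ _ _) ?_ ?_ ?_ ?_
    ?_ ?_).trans (measureReal_mono glued_piv)
  · intro v hv
    rw [mem_Sq] at hv
    rw [mem_rect]
    omega
  · intro v hv
    rw [mem_Sq] at hv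
    rw [mem_rect]
    omega
  · intro b hb hb'
    rw [mem_Sq] at hb'
    have hb1 : b.1 = x0 := hb
    omega
  · intro b hb hb'
    rw [mem_Sq] at hb'
    have hb1 : b.1 = x1 := hb
    omega
  · intro b hb hb'
    rw [mem_Sq] at hb'
    have hb1 : b.2 = y0 - 1 := hb
    omega
  · intro b hb hb'
    rw [mem_Sq] at hb'
    have hb1 : b.2 = y1 := hb
    omega

end Crest.Agent.R158.Sg158
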