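import Mathlib
import Crest.Agent.R158.Qf3_808
import Crest.Agent.R158.Qf5_808
import Crest.Agent.R158.Sg4_158
import Crest.Agent.R158.Ax2_107

-- ▼ part R158/Qf1_808
section

/-!
# Row 158 (helper808), QM4, part 1: from the point bounds and quasi-multiplicativity to the annulus form

`annulus_of_point` : if `P n = n^(-a + o(1))`, `T` is decreasing in the inner radius, and
`P k * T k l ≤ n^ε P l` for `k0(ε) ≤ k`, `A(ε) k ≤ l ≤ n`, then `T k l ≤ n^{o(1)} (k/l)^a` for all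
`1 ≤ k ≤ l ≤ n`.
-/

set_option autoImplicit false

noncomputable section

namespace Crest.Agent.R158.Qf808

open Filter MeasureTheory

theorem annulus_of_point {P : ℕ → ℝ} {T : ℕ → ℕ → ℝ} {a : ℝ} (ha : 0 < a)
    (hT1 : ∀ k l, T k l ≤ 1)
    (hTm : ∀ k k' l, 1 ≤ k → k ≤ k' → k' ≤ l → T k l ≤ T k' l)
    (up : ∀ ε : ℝ, 0 < ε → ∀ᶠ n : ℕ in atTop, P n ≤ (n : ℝ) ^ (-a + ε))
    (lo : ∀ ε : ℝ, 0 < ε → ∀ᶠ n : ℕ in atTop, (n : ℝ) ^ (-a - ε) ≤ P n)
    (qm : ∀ ε : ℝ, 0 < ε → ∃ k0 A : ℕ, ∀ᶠ n : ℕ in atTop, ∀ k l : ℕ, k0 ≤ k → A * k ≤ l → l ≤ n →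
      P k * T k l ≤ (n : ℝ) ^ ε * P l) :
    ∀ ε : ℝ, 0 < ε → ∀ᶠ n : ℕ in atTop, ∀ k l : ℕ, 1 ≤ k → k ≤ l → l ≤ n →
      T k l ≤ (n : ℝ) ^ ε * ((k : ℝ) / l) ^ a := by
  intro ε hε
  obtain ⟨n1, hn1⟩ := eventually_atTop.1 (up (ε / 8) (by positivity))
  obtain ⟨n2, hn2⟩ := eventually_atTop.1 (lo (ε / 8) (by positivity))
  obtain ⟨k0, A, hqm⟩ := qm (ε / 8) (by positivity)
  set k1 : ℕ := max (max n1 n2) (max k0 1) with hk1
  have hk1' : 1 ≤ k1 := (le_max_right k0 1).trans (le_max_right _ _)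
  -- `n^(ε/4)` dominates constants
  have hconst : ∀ᶠ n : ℕ in atTop, ((max A 1 * k1 : ℕ) : ℝ) ^ a ≤ (n : ℝ) ^ (ε / 4) := by
    have h1 : Tendsto (fun n : ℕ => (n : ℝ) ^ (ε / 4)) atTop atTop :=
      (tendsto_rpow_atTop (by positivity)).comp tendsto_natCast_atTop_atTop
    exact h1.eventually_ge_atTop _
  filter_upwards [hconst, hqm, eventually_ge_atTop 1] with n h1 h2 hn
  have hN : (1 : ℝ) ≤ n := by exact_mod_cast hn
  have hN0 : (0 : ℝ) < n := by linarith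
  -- large `k`
  have hlarge : ∀ k l : ℕ, k1 ≤ k → k ≤ l → l ≤ n →
      T k l ≤ (n : ℝ) ^ (ε / 2) * ((k : ℝ) / l) ^ a := by
    intro k l hk hkl hl
    have hk0 : (1 : ℝ) ≤ k := by exact_mod_cast hk1'.trans hk
    have hk00 : (0 : ℝ) < k := by linarith
    have hl0 : (0 : ℝ) < l := lt_of_lt_of_le hk00 (by exact_mod_cast hkl)
    have hl1 : (1 : ℝ) ≤ l := hk0.trans (by exact_mod_cast hkl)
    have hln : (l : ℝ) ≤ n := by exact_mod_cast hl
    have hkn : (k : ℝ) ≤ n := by exact_mod_cast hkl.trans hl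
    rcases lt_or_ge l (A * k) with hA | hA
    · -- comparable radii
      have h3 : 1 ≤ (n : ℝ) ^ (ε / 2) * ((k : ℝ) / l) ^ a := by
        have h4 : (l : ℝ) ≤ (max A 1 * k1 : ℕ) * k := by
          have h5 : l ≤ (max A 1 * k1) * k := by
            calc l ≤ A * k := hA.le
              _ ≤ (max A 1 * k1) * k := by
                  refine Nat.mul_le_mul_right _ ?_
                  calc A ≤ max A 1 * 1 := by simp
                    _ ≤ max A 1 * k1 := Nat.mul_le_mul_left _ hk1'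
          exact_mod_cast h5
        have h6 : (1 : ℝ) ≤ ((max A 1 * k1 : ℕ) : ℝ) * ((k : ℝ) / l) := by
          rw [← mul_div_assoc, le_div_iff₀ hl0, one_mul]
          exact h4
        have h7 : (1 : ℝ) ≤ ((max A 1 * k1 : ℕ) : ℝ) ^ a * ((k : ℝ) / l) ^ a := by
          rw [← Real.mul_rpow (Nat.cast_nonneg _) (div_pos hk00 hl0).le]
          exact Real.one_le_rpow h6 ha.le
        refine h7.trans (mul_le_mul_of_nonneg_right (h1.trans ?_)
          (Real.rpow_nonneg (div_pos hk00 hl0).le _))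
        exact Real.rpow_le_rpow_of_exponent_le hN (by linarith)
      exact (hT1 k l).trans h3
    · have h3 := h2 k l (((le_max_left k0 1).trans (le_max_right _ _)).trans hk) hA hl
      have h4 : (k : ℝ) ^ (-a - ε / 8) ≤ P k :=
        hn2 k (((le_max_right n1 n2).trans (le_max_left _ _)).trans hk)
      have h5 : P l ≤ (l : ℝ) ^ (-a + ε / 8) :=
        hn1 l ((((le_max_left n1 n2).trans (le_max_left _ _)).trans hk).trans hkl)
      have hPk : 0 < P k := lt_of_lt_of_le (Real.rpow_pos_of_pos hk00 _) h4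
      have h6 : T k l ≤ (n : ℝ) ^ (ε / 8) * P l / P k := by
        rw [le_div_iff₀ hPk]; linarith [mul_comm (P k) (T k l)]
      refine h6.trans ?_
      have hn8 : 0 ≤ (n : ℝ) ^ (ε / 8) := Real.rpow_nonneg hN0.le _
      have h7 : (n : ℝ) ^ (ε / 8) * P l / P k ≤
          (n : ℝ) ^ (ε / 8) * (l : ℝ) ^ (-a + ε / 8) / (k : ℝ) ^ (-a - ε / 8) := by
        have hP : 0 ≤ (l : ℝ) ^ (-a + ε / 8) := Real.rpow_nonneg hl0.le _
        refine div_le_div₀ (mul_nonneg hn8 hP) (mul_le_mul_of_nonneg_left h5 hn8)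
          (Real.rpow_pos_of_pos hk00 _) h4
      refine h7.trans ?_
      have e1 : (n : ℝ) ^ (ε / 8) * (l : ℝ) ^ (-a + ε / 8) / (k : ℝ) ^ (-a - ε / 8) =
          (n : ℝ) ^ (ε / 8) * (l : ℝ) ^ (ε / 8) * (k : ℝ) ^ (ε / 8) * ((k : ℝ) / l) ^ a := by
        rw [Real.div_rpow hk00.le hl0.le, Real.rpow_add hl0, sub_eq_add_neg, Real.rpow_add hk00,
          Real.rpow_neg hl0.le, Real.rpow_neg hk00.le, Real.rpow_neg hk00.le]
        have p1 := Real.rpow_pos_of_pos hk00 a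
        have p2 := Real.rpow_pos_of_pos hl0 a
        have p3 := Real.rpow_pos_of_pos hk00 (ε / 8)
        field_simp
      rw [e1]
      refine mul_le_mul_of_nonneg_right ?_ (Real.rpow_nonneg (div_pos hk00 hl0).le _)
      have h8 : (l : ℝ) ^ (ε / 8) ≤ (n : ℝ) ^ (ε / 8) :=
        Real.rpow_le_rpow hl0.le hln (by positivity)
      have h9 : (k : ℝ) ^ (ε / 8) ≤ (n : ℝ) ^ (ε / 8) :=
        Real.rpow_le_rpow hk00.le hkn (by positivity)
      have h10 : (n : ℝ) ^ (ε / 8) * (n : ℝ) ^ (ε / 8) * (n : ℝ) ^ (ε / 8) ≤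
          (n : ℝ) ^ (ε / 2) := by
        rw [← Real.rpow_add hN0, ← Real.rpow_add hN0]
        exact Real.rpow_le_rpow_of_exponent_le hN (by linarith)
      refine le_trans ?_ h10
      have q1 : 0 ≤ (l : ℝ) ^ (ε / 8) := Real.rpow_nonneg hl0.le _
      have q2 : 0 ≤ (k : ℝ) ^ (ε / 8) := Real.rpow_nonneg hk00.le _
      exact mul_le_mul (mul_le_mul_of_nonneg_left h8 hn8) h9 q2 (mul_nonneg hn8 hn8)
  intro k l hk hkl hl
  have hk0 : (1 : ℝ) ≤ k := by exact_mod_cast hk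
  have hk00 : (0 : ℝ) < k := by linarith
  have hl0 : (0 : ℝ) < l := lt_of_lt_of_le hk00 (by exact_mod_cast hkl)
  have hR : 0 ≤ ((k : ℝ) / l) ^ a := Real.rpow_nonneg (div_pos hk00 hl0).le _
  rcases le_or_gt k1 k with hk' | hk'
  · refine (hlarge k l hk' hkl hl).trans (mul_le_mul_of_nonneg_right ?_ hR)
    exact Real.rpow_le_rpow_of_exponent_le hN (by linarith)
  · -- small `k`
    have key : ∀ x : ℝ, 0 < x → x ≤ (k1 : ℝ) * k →
        (x / l) ^ a ≤ (n : ℝ) ^ (ε / 4) * ((k : ℝ) / l) ^ a := by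
      intro x hx hxk
      have h3 : (x / l) ^ a ≤ ((k1 : ℝ) ^ a) * ((k : ℝ) / l) ^ a := by
        rw [← Real.mul_rpow (Nat.cast_nonneg _) (div_pos hk00 hl0).le]
        refine Real.rpow_le_rpow (div_pos hx hl0).le ?_ ha.le
        rw [← mul_div_assoc]
        exact div_le_div_of_nonneg_right hxk hl0.le
      refine h3.trans (mul_le_mul_of_nonneg_right (le_trans ?_ h1) hR)
      refine Real.rpow_le_rpow (Nat.cast_nonneg _) ?_ ha.le
      have : k1 ≤ max A 1 * k1 := Nat.le_mul_of_pos_left _ (by positivity)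
      exact_mod_cast this
    rcases le_or_gt k1 l with hkl' | hkl'
    · have h3 := (hTm k k1 l hk hk'.le hkl').trans (hlarge k1 l le_rfl hkl' hl)
      have hk10 : (0 : ℝ) < k1 := by exact_mod_cast hk1'
      have h4 := key k1 hk10 (by nlinarith)
      have h5 : (n : ℝ) ^ (ε / 2) * ((k1 : ℝ) / l) ^ a ≤
          (n : ℝ) ^ (ε / 2) * ((n : ℝ) ^ (ε / 4) * ((k : ℝ) / l) ^ a) :=
        mul_le_mul_of_nonneg_left h4 (Real.rpow_nonneg hN0.le _)
      refine h3.trans (h5.trans ?_)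
      rw [← mul_assoc, ← Real.rpow_add hN0]
      refine mul_le_mul_of_nonneg_right ?_ hR
      exact Real.rpow_le_rpow_of_exponent_le hN (by linarith)
    · -- `l < k1`
      have h4 := key l hl0 (by
        have : (l : ℝ) ≤ k1 := by exact_mod_cast hkl'.le
        have hk10 : (0 : ℝ) ≤ k1 := Nat.cast_nonneg _
        nlinarith)
      rw [div_self hl0.ne', Real.one_rpow] at h4
      refine (hT1 k l).trans (h4.trans (mul_le_mul_of_nonneg_right ?_ hR))
      exact Real.rpow_le_rpow_of_exponent_le hN (by linarith)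

/-- **quasi-multiplicativity with losses from one-scale landing**: `G η r` (good scale) has bad
probability `≤ η`, independently at the scales `B^j k`; `P(T r l ∩ G η r) P r ≤ K(η) P l`. -/
theorem qm_of_one_scale {Ω : Type*} [MeasurableSpace Ω] {μ : Measure Ω} [IsProbabilityMeasure μ]
    {P : ℕ → ℝ} {T : ℕ → ℕ → Set Ω} {a : ℝ} (ha2 : a ≤ 3 / 2) (hP1 : ∀ n, P n ≤ 1)
    (hTm : ∀ k k' l, 1 ≤ k → k ≤ k' → k' ≤ l → T k l ⊆ T k' l)
    (up : ∀ ε : ℝ, 0 < ε → ∀ᶠ n : ℕ in atTop, P n ≤ (n : ℝ) ^ (-a + ε))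
    (lo : ∀ ε : ℝ, 0 < ε → ∀ᶠ n : ℕ in atTop, (n : ℝ) ^ (-a - ε) ≤ P n)
    {B : ℕ} (hB : 2 ≤ B) (G : ℝ → ℕ → Set Ω)
    (hG : ∀ η : ℝ, 0 < η → ∃ r0 : ℕ, ∀ k J : ℕ, r0 ≤ k →
      μ.real (⋂ j ∈ Finset.range J, (G η (B ^ j * k))ᶜ) ≤ η ^ J)
    (one : ∀ η : ℝ, 0 < η → ∃ (K : ℝ) (r0 : ℕ), 0 ≤ K ∧ ∀ r l : ℕ, r0 ≤ r → B * r ≤ l →
      μ.real (T r l ∩ G η r) * P r ≤ K * P l) :
    ∀ ε : ℝ, 0 < ε → ∃ k0 A : ℕ, ∀ᶠ n : ℕ in atTop, ∀ k l : ℕ, k0 ≤ k → A * k ≤ l → l ≤ n →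
      P k * μ.real (T k l) ≤ (n : ℝ) ^ ε * P l := by
  intro ε hε
  have hB1 : (1 : ℝ) < B := by exact_mod_cast (by omega : 1 < B)
  have hB0 : (0 : ℝ) < B := by linarith
  have hb : 0 < Real.log B := Real.log_pos hB1
  set b := Real.log B with hbdef
  set θ := ε / (16 * b) with hθ
  have hθ0 : 0 < θ := by positivity
  have hbθ : b * θ = ε / 16 := by rw [hθ]; field_simp
  set η := Real.exp (-(2 / θ)) with hη
  have hη0 : 0 < η := Real.exp_pos _
  set ε' := min (ε / 16) (1 / 4) with hε'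
  have hε'0 : 0 < ε' := by rw [hε']; positivity
  have hε'1 : ε' ≤ ε / 16 := min_le_left _ _
  have hε'2 : ε' ≤ 1 / 4 := min_le_right _ _
  obtain ⟨n1, hn1⟩ := eventually_atTop.1 (up ε' hε'0)
  obtain ⟨n2, hn2⟩ := eventually_atTop.1 (lo ε' hε'0)
  obtain ⟨r0, hr0⟩ := hG η hη0
  obtain ⟨K, r1, hK, hr1⟩ := one η hη0
  refine ⟨max (max n1 n2) (max (max r0 r1) 1), B, ?_⟩
  have htend : Tendsto (fun n : ℕ => (n : ℝ) ^ (ε / 4)) atTop atTop :=
    (tendsto_rpow_atTop (by positivity)).comp tendsto_natCast_atTop_atTop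
  have hlogt : ∀ᶠ n : ℕ in atTop, Real.log n ≤ (n : ℝ) ^ (ε / 4) := by
    have h := isLittleO_log_rpow_atTop (show 0 < ε / 4 by positivity)
    have h2 := (h.comp_tendsto tendsto_natCast_atTop_atTop).bound (c := 1) one_pos
    filter_upwards [h2, eventually_ge_atTop 1] with n hn hn1
    simp only [Function.comp_apply, Real.norm_eq_abs, one_mul] at hn
    have hN0 : (0 : ℝ) ≤ n := Nat.cast_nonneg _
    rw [abs_of_nonneg (Real.rpow_nonneg hN0 _)] at hn
    exact (le_abs_self _).trans hn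
  have hexp : ∀ᶠ n : ℕ in atTop, Real.exp (2 / θ) ≤ (n : ℝ) ^ (1 / 4 : ℝ) :=
    ((tendsto_rpow_atTop (by norm_num)).comp tendsto_natCast_atTop_atTop).eventually_ge_atTop _
  filter_upwards [hlogt, htend.eventually_ge_atTop ((B : ℝ) ^ 2), hexp,
    htend.eventually_ge_atTop (θ * K + 1), eventually_ge_atTop 1] with n h1 h2 h3 h4 hn k l hk hA hl
  have hN : (1 : ℝ) ≤ n := by exact_mod_cast hn
  have hN0 : (0 : ℝ) < n := by linarith
  have hL0 : 0 ≤ Real.log n := Real.log_nonneg hN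
  have hkn1 : n1 ≤ k := ((le_max_left n1 n2).trans (le_max_left _ _)).trans hk
  have hkn2 : n2 ≤ k := ((le_max_right n1 n2).trans (le_max_left _ _)).trans hk
  have hkr0 : r0 ≤ k :=
    (((le_max_left r0 r1).trans (le_max_left _ _)).trans (le_max_right _ _)).trans hk
  have hkr1 : r1 ≤ k :=
    (((le_max_right r0 r1).trans (le_max_left _ _)).trans (le_max_right _ _)).trans hk
  have hk1 : 1 ≤ k := ((le_max_right (max r0 r1) 1).trans (le_max_right _ _)).trans hk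
  have hkl : k ≤ l := le_trans (Nat.le_mul_of_pos_left _ (by omega)) hA
  have hkR : (1 : ℝ) ≤ k := by exact_mod_cast hk1
  have hk0 : (0 : ℝ) < k := by linarith
  have hlR : (1 : ℝ) ≤ l := hkR.trans (by exact_mod_cast hkl)
  have hl0 : (0 : ℝ) < l := by linarith
  have hln : (l : ℝ) ≤ n := by exact_mod_cast hl
  have hkn : (k : ℝ) ≤ n := by exact_mod_cast hkl.trans hl
  have upk : P k ≤ (k : ℝ) ^ (-a + ε') := hn1 k hkn1
  have lol : (l : ℝ) ^ (-a - ε') ≤ P l := hn2 l (hkn2.trans hkl)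
  have hPl : 0 < P l := lt_of_lt_of_le (Real.rpow_pos_of_pos hl0 _) lol
  have hPk0 : 0 < P k := lt_of_lt_of_le (Real.rpow_pos_of_pos hk0 _) (hn2 k hkn2)
  set J := ⌊θ * Real.log n⌋₊ with hJ
  have hJle : (J : ℝ) ≤ θ * Real.log n := Nat.floor_le (by positivity)
  have hJge : θ * Real.log n - 1 ≤ J := by
    have := Nat.lt_floor_add_one (θ * Real.log n)
    linarith
  have hBJ : (B : ℝ) ^ J ≤ (n : ℝ) ^ (ε / 16) := by
    rw [← Real.rpow_natCast]
    refine (Real.rpow_le_rpow_of_exponent_le hB1.le hJle).trans (le_of_eq ?_)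
    rw [Real.rpow_def_of_pos hB0, Real.rpow_def_of_pos hN0, ← hbdef]
    congr 1
    rw [show b * (θ * Real.log n) = (b * θ) * Real.log n by ring, hbθ]
    ring
  have hBJ2 : ((B : ℝ) ^ J) ^ 2 ≤ (n : ℝ) ^ (ε / 8) := by
    have h5 : ((n : ℝ) ^ (ε / 16)) ^ 2 = (n : ℝ) ^ (ε / 8) := by
      rw [← Real.rpow_natCast, ← Real.rpow_mul hN0.le]
      congr 1
      push_cast
      ring
    rw [← h5]
    exact pow_le_pow_left₀ (by positivity) hBJ 2
  have hηJ : η ^ J ≤ (n : ℝ) ^ (-(7 / 4) : ℝ) := by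
    rw [hη, ← Real.exp_nat_mul]
    have h5 : (J : ℝ) * (-(2 / θ)) ≤ 2 / θ - 2 * Real.log n := by
      have h6 : (θ * Real.log n - 1) * (2 / θ) ≤ J * (2 / θ) :=
        mul_le_mul_of_nonneg_right hJge (by positivity)
      have h7 : (θ * Real.log n - 1) * (2 / θ) = 2 * Real.log n - 2 / θ := by
        field_simp
      linarith
    refine (Real.exp_le_exp.2 h5).trans ?_
    rw [Real.exp_sub]
    have h6 : Real.exp (2 * Real.log n) = (n : ℝ) ^ (2 : ℝ) := by
      rw [Real.rpow_def_of_pos hN0]; ring_nf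
    rw [h6, div_le_iff₀ (Real.rpow_pos_of_pos hN0 _), ← Real.rpow_add hN0]
    refine h3.trans (Real.rpow_le_rpow_of_exponent_le hN (by norm_num))
  -- ratio bound
  have ratio : ∀ m : ℕ, (k : ℕ) ≤ m → (m : ℝ) ≤ (B : ℝ) ^ (J + 1) * k → m ≤ n →
      (k : ℝ) ^ (-a + ε') * (m : ℝ) ^ (a + ε') ≤ (n : ℝ) ^ (ε / 2) := by
    intro m hkm hm hmn
    have hm0 : (0 : ℝ) < m := lt_of_lt_of_le hk0 (by exact_mod_cast hkm)
    have hmn' : (m : ℝ) ≤ n := by exact_mod_cast hmn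
    have e1 : (k : ℝ) ^ (-a + ε') * (m : ℝ) ^ (a + ε') =
        ((m : ℝ) / k) ^ a * ((k : ℝ) ^ ε' * (m : ℝ) ^ ε') := by
      rw [Real.div_rpow hm0.le hk0.le, Real.rpow_add hk0, Real.rpow_add hm0, Real.rpow_neg hk0.le]
      have p1 := Real.rpow_pos_of_pos hk0 a
      field_simp
    rw [e1]
    have hmk : 1 ≤ (m : ℝ) / k := by
      rw [le_div_iff₀ hk0, one_mul]; exact_mod_cast hkm
    have h5 : ((m : ℝ) / k) ^ a ≤ ((B : ℝ) ^ (J + 1)) ^ 2 := by
      calc ((m : ℝ) / k) ^ a ≤ ((m : ℝ) / k) ^ (2 : ℝ) :=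
            Real.rpow_le_rpow_of_exponent_le hmk (by linarith)
        _ = ((m : ℝ) / k) ^ 2 := by norm_cast
        _ ≤ ((B : ℝ) ^ (J + 1)) ^ 2 := by
            refine pow_le_pow_left₀ (by positivity) ?_ 2
            rw [div_le_iff₀ hk0]; exact hm
    have h6 : ((B : ℝ) ^ (J + 1)) ^ 2 ≤ (n : ℝ) ^ (ε / 4) * (n : ℝ) ^ (ε / 8) := by
      have : ((B : ℝ) ^ (J + 1)) ^ 2 = (B : ℝ) ^ 2 * ((B : ℝ) ^ J) ^ 2 := by ring
      rw [this]
      exact mul_le_mul h2 hBJ2 (by positivity) (Real.rpow_nonneg hN0.le _)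
    have h7 : (k : ℝ) ^ ε' * (m : ℝ) ^ ε' ≤ (n : ℝ) ^ (ε / 16) * (n : ℝ) ^ (ε / 16) := by
      have q1 : (k : ℝ) ^ ε' ≤ (n : ℝ) ^ (ε / 16) :=
        (Real.rpow_le_rpow hk0.le hkn hε'0.le).trans
          (Real.rpow_le_rpow_of_exponent_le hN hε'1)
      have q2 : (m : ℝ) ^ ε' ≤ (n : ℝ) ^ (ε / 16) :=
        (Real.rpow_le_rpow hm0.le hmn' hε'0.le).trans
          (Real.rpow_le_rpow_of_exponent_le hN hε'1)
      exact mul_le_mul q1 q2 (Real.rpow_nonneg hm0.le _) (Real.rpow_nonneg hN0.le _)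
    calc ((m : ℝ) / k) ^ a * ((k : ℝ) ^ ε' * (m : ℝ) ^ ε')
        ≤ ((n : ℝ) ^ (ε / 4) * (n : ℝ) ^ (ε / 8)) * ((n : ℝ) ^ (ε / 16) * (n : ℝ) ^ (ε / 16)) :=
          mul_le_mul (h5.trans h6) h7 (by positivity) (by positivity)
      _ = (n : ℝ) ^ (ε / 2) := by
          rw [← Real.rpow_add hN0, ← Real.rpow_add hN0, ← Real.rpow_add hN0]
          congr 1
          ring
  have hεn : (n : ℝ) ^ (ε / 2) ≤ (n : ℝ) ^ ε := Real.rpow_le_rpow_of_exponent_le hN (by linarith)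
  have hT1 : μ.real (T k l) ≤ 1 := measureReal_le_one
  rcases lt_or_ge (l : ℝ) ((B : ℝ) ^ (J + 1) * k) with hcase | hcase
  · -- few scales
    have h5 := ratio l hkl hcase.le hl
    have h6 : P k ≤ (n : ℝ) ^ (ε / 2) * P l := by
      have h7 : (l : ℝ) ^ (a + ε') * (l : ℝ) ^ (-a - ε') = 1 := by
        rw [← Real.rpow_add hl0]; simp
      have h8 : (k : ℝ) ^ (-a + ε') =
          ((k : ℝ) ^ (-a + ε') * (l : ℝ) ^ (a + ε')) * (l : ℝ) ^ (-a - ε') := by
        rw [mul_assoc, h7, mul_one]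
      refine upk.trans ?_
      rw [h8]
      exact mul_le_mul h5 lol (Real.rpow_nonneg hl0.le _) (Real.rpow_nonneg hN0.le _)
    calc P k * μ.real (T k l) ≤ P k * 1 := mul_le_mul_of_nonneg_left hT1 hPk0.le
      _ = P k := mul_one _
      _ ≤ (n : ℝ) ^ (ε / 2) * P l := h6
      _ ≤ (n : ℝ) ^ ε * P l := mul_le_mul_of_nonneg_right hεn hPl.le
  · have hcaseN : B ^ (J + 1) * k ≤ l := by exact_mod_cast hcase
    -- union over scales
    have hsub : T k l ⊆ (⋃ j ∈ Finset.range J, (T (B ^ j * k) l ∩ G η (B ^ j * k))) ∪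
        (⋂ j ∈ Finset.range J, (G η (B ^ j * k))ᶜ) := by
      intro z hz
      by_cases hbad : z ∈ ⋂ j ∈ Finset.range J, (G η (B ^ j * k))ᶜ
      · exact Or.inr hbad
      · left
        simp only [Set.mem_iInter, not_forall, Set.mem_compl_iff, not_not] at hbad
        obtain ⟨j, hj, hjG⟩ := hbad
        refine Set.mem_iUnion₂.2 ⟨j, hj, ?_, hjG⟩
        refine hTm k (B ^ j * k) l hk1 (Nat.le_mul_of_pos_left _ (by positivity)) ?_ hz
        refine le_trans (Nat.mul_le_mul_right _ (Nat.pow_le_pow_right (by omega) ?_)) hcaseN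
        have := Finset.mem_range.1 hj
        omega
    have hstep : ∀ j ∈ Finset.range J,
        P k * μ.real (T (B ^ j * k) l ∩ G η (B ^ j * k)) ≤ (n : ℝ) ^ (ε / 2) * (K * P l) := by
      intro j hj
      have hjJ := Finset.mem_range.1 hj
      have hjk : k ≤ B ^ j * k := Nat.le_mul_of_pos_left _ (by positivity)
      have hjl : B * (B ^ j * k) ≤ l := by
        refine le_trans (le_of_eq (by ring : B * (B ^ j * k) = B ^ (j + 1) * k)) (le_trans
          (Nat.mul_le_mul_right _ (Nat.pow_le_pow_right (by omega) (by omega))) hcaseN)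
      have hjn : B ^ j * k ≤ n := by
        have : B ^ j * k ≤ B * (B ^ j * k) := Nat.le_mul_of_pos_left _ (by omega)
        omega
      have h5 := hr1 (B ^ j * k) l (hkr1.trans hjk) hjl
      have hr0' : (0 : ℝ) < ((B ^ j * k : ℕ) : ℝ) := by
        exact_mod_cast (by positivity : 0 < B ^ j * k)
      have lor : ((B ^ j * k : ℕ) : ℝ) ^ (-a - ε') ≤ P (B ^ j * k) :=
        hn2 _ (hkn2.trans hjk)
      have hPr : 0 < P (B ^ j * k) := lt_of_lt_of_le (Real.rpow_pos_of_pos hr0' _) lor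
      have h6 : P k ≤ (n : ℝ) ^ (ε / 2) * P (B ^ j * k) := by
        have h7 : ((B ^ j * k : ℕ) : ℝ) ^ (a + ε') * ((B ^ j * k : ℕ) : ℝ) ^ (-a - ε') = 1 := by
          rw [← Real.rpow_add hr0']; simp
        have h8 : (k : ℝ) ^ (-a + ε') =
            ((k : ℝ) ^ (-a + ε') * ((B ^ j * k : ℕ) : ℝ) ^ (a + ε')) *
              ((B ^ j * k : ℕ) : ℝ) ^ (-a - ε') := by
          rw [mul_assoc, h7, mul_one]
        refine upk.trans ?_
        rw [h8]
        refine mul_le_mul (ratio _ hjk ?_ hjn) lor (Real.rpow_nonneg hr0'.le _)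
          (Real.rpow_nonneg hN0.le _)
        push_cast
        refine mul_le_mul_of_nonneg_right ?_ hk0.le
        exact pow_le_pow_right₀ hB1.le (by omega)
      have hμ0 : 0 ≤ μ.real (T (B ^ j * k) l ∩ G η (B ^ j * k)) := measureReal_nonneg
      calc P k * μ.real (T (B ^ j * k) l ∩ G η (B ^ j * k))
          ≤ ((n : ℝ) ^ (ε / 2) * P (B ^ j * k)) * μ.real (T (B ^ j * k) l ∩ G η (B ^ j * k)) :=
            mul_le_mul_of_nonneg_right h6 hμ0
        _ = (n : ℝ) ^ (ε / 2) * (μ.real (T (B ^ j * k) l ∩ G η (B ^ j * k)) * P (B ^ j * k)) := by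
            ring
        _ ≤ (n : ℝ) ^ (ε / 2) * (K * P l) :=
            mul_le_mul_of_nonneg_left h5 (Real.rpow_nonneg hN0.le _)
    have hμle : μ.real (T k l) ≤
        ∑ j ∈ Finset.range J, μ.real (T (B ^ j * k) l ∩ G η (B ^ j * k)) + η ^ J := by
      refine (measureReal_mono hsub).trans ((measureReal_union_le _ _).trans ?_)
      exact add_le_add (measureReal_biUnion_finset_le _ _) (hr0 k J hkr0)
    have hηl : P k * η ^ J ≤ P l := by
      have h5 : (n : ℝ) ^ (-(7 / 4) : ℝ) ≤ P l := by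
        refine le_trans ?_ lol
        have h6 : (n : ℝ) ^ (-(7 / 4) : ℝ) ≤ (l : ℝ) ^ (-(7 / 4) : ℝ) := by
          rw [Real.rpow_neg hN0.le, Real.rpow_neg hl0.le]
          refine inv_anti₀ (Real.rpow_pos_of_pos hl0 _) ?_
          exact Real.rpow_le_rpow hl0.le hln (by norm_num)
        exact h6.trans (Real.rpow_le_rpow_of_exponent_le hlR (by linarith))
      calc P k * η ^ J ≤ 1 * η ^ J := mul_le_mul_of_nonneg_right (hP1 k) (by positivity)
        _ = η ^ J := one_mul _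
        _ ≤ P l := hηJ.trans h5
    calc P k * μ.real (T k l)
        ≤ P k * (∑ j ∈ Finset.range J, μ.real (T (B ^ j * k) l ∩ G η (B ^ j * k)) + η ^ J) :=
          mul_le_mul_of_nonneg_left hμle hPk0.le
      _ = ∑ j ∈ Finset.range J, P k * μ.real (T (B ^ j * k) l ∩ G η (B ^ j * k)) +
            P k * η ^ J := by rw [mul_add, Finset.mul_sum]
      _ ≤ ∑ _j ∈ Finset.range J, (n : ℝ) ^ (ε / 2) * (K * P l) + P l :=
          add_le_add (Finset.sum_le_sum hstep) hηl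
      _ = (J * K) * (n : ℝ) ^ (ε / 2) * P l + P l := by
          rw [Finset.sum_const, Finset.card_range, nsmul_eq_mul]; ring
      _ ≤ (n : ℝ) ^ ε * P l := by
          have h5 : (1 : ℝ) ≤ (n : ℝ) ^ (ε / 2) := Real.one_le_rpow hN (by positivity)
          have h6 : (J * K : ℝ) + 1 ≤ (n : ℝ) ^ (ε / 2) := by
            have h7 : (J * K : ℝ) ≤ θ * K * (n : ℝ) ^ (ε / 4) := by
              calc (J * K : ℝ) ≤ (θ * Real.log n) * K := mul_le_mul_of_nonneg_right hJle hK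
                _ = θ * K * Real.log n := by ring
                _ ≤ θ * K * (n : ℝ) ^ (ε / 4) := mul_le_mul_of_nonneg_left h1 (by positivity)
            have h8 : (1 : ℝ) ≤ (n : ℝ) ^ (ε / 4) := Real.one_le_rpow hN (by positivity)
            have h9 : (n : ℝ) ^ (ε / 2) = (n : ℝ) ^ (ε / 4) * (n : ℝ) ^ (ε / 4) := by
              rw [← Real.rpow_add hN0]; congr 1; ring
            rw [h9]
            have h12 : (θ * K + 1) * (n : ℝ) ^ (ε / 4) ≤
                (n : ℝ) ^ (ε / 4) * (n : ℝ) ^ (ε / 4) :=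
              mul_le_mul_of_nonneg_right h4 (by linarith)
            linarith
          have h10 : (n : ℝ) ^ ε = (n : ℝ) ^ (ε / 2) * (n : ℝ) ^ (ε / 2) := by
            rw [← Real.rpow_add hN0]; congr 1; ring
          have h11 : (J * K) * (n : ℝ) ^ (ε / 2) + 1 ≤ (n : ℝ) ^ ε := by
            rw [h10]
            have h12 := mul_le_mul_of_nonneg_right h6 (by linarith : (0 : ℝ) ≤ (n : ℝ) ^ (ε / 2))
            linarith
          have h13 := mul_le_mul_of_nonneg_right h11 hPl.le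
          linarith

end Crest.Agent.R158.Qf808
end
end

-- ▼ part R158/Qf6_808

/-!
# Row 158 (helper808), QM4 and `HypU4`

* `rsp_half` : `RSp c hf N` for all `N`
* `A4_anti`
* `step_out` : `P(T2 0 r l ∩ GO) P(NiceU e n) ≤ K P(A4 e l)`
* `hypU4_of` : `CovT2 T0 → SepIn → L4 → P4U → HypU4`
-/

set_option autoImplicit false

noncomputable section

namespace Crest.Agent.R158.Qf808

open MeasureTheory ProbabilityTheory unitInterval Filter
open Crest.Agent.R161.Geo729 Crest.Agent.R161.Topo374 Crest.Agent.R161.Dual374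
open Crest.Agent.R161.Tas682 hiding Sq
open Crest.Agent.R158.Rs689 Crest.Agent.R158.Ru874 Crest.Agent.R158.Sp580
open Crest.Agent.R158.Sp874 (rt nr cl)
open Crest.Agent.R158.Cpl963 (T2 T2_shrink HypU4)

/-! ### RSW at `p = 1/2` -/

theorem rsp_half : ∃ c : ℝ, 0 < c ∧ c ≤ 1 ∧ ∀ N : ℕ, RSp c hf N := by
  obtain ⟨c, hc, h⟩ := rsw_long 3
  have hc1 : c ≤ 1 := (h 1 le_rfl).trans (Sp580.xpr_le_one _ _ _)
  refine ⟨c, hc, hc1, fun N => ⟨hc, fun n h1 _ => ?_⟩⟩
  have h2 := h n h1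
  push_cast at h2
  rw [sigma_hf]
  exact ⟨h2, h2⟩

/-! ### monotonicity of the four-arm event -/

theorem A4_anti {e : Edge} {R R' : ℤ} (hR : 1 ≤ R) (h : R ≤ R') : Sp580.A4 e R' ⊆ Sp580.A4 e R := by
  have hsub : {v : P2 | sd (src e) v ≤ R} ⊆ {v | sd (src e) v ≤ R'} := fun v hv => le_trans hv h
  have hst := Cpl963.sd_src_tgt e
  have key : ∀ z u, sd (src e) u ≤ R → Arm z {v | sd (src e) v ≤ R'} {v | sd (src e) v = R'} u →
      Arm z {v | sd (src e) v ≤ R} {v | sd (src e) v = R} u := by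
    rintro z u hu ⟨a, ha, hua⟩
    have ha' : sd (src e) a = R' := ha
    obtain ⟨w, hw, hw2⟩ := first_hit (sd (src e)) (sd_nbr (src e)) R hua hu (by omega)
    exact ⟨w, hw, hw2.monoS fun v hv => hv.2⟩
  rintro z ⟨h1, h2, h3⟩
  refine ⟨key _ _ ?_ h1, key _ _ ?_ h2, fun hc => h3 (hc.monoS hsub)⟩
  · have := Cpl963.sd_self (src e); omega
  · omega

/-! ### one scale -/

/-- cells of the box of radius `N` -/
def boxC (N : ℕ) : Finset P2 := Finset.Icc (-(N : ℤ)) N ×ˢ Finset.Icc (-(N : ℤ)) N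

theorem mem_boxC {N : ℕ} {k : P2} (h : nr k ≤ N - 1) : k ∈ boxC N := by
  unfold nr at h
  unfold boxC
  rw [Finset.mem_product, Finset.mem_Icc, Finset.mem_Icc]
  omega

theorem card_boxC (N : ℕ) : (boxC N).card = (2 * N + 1) ^ 2 := by
  unfold boxC
  rw [Finset.card_product, Int.card_Icc]
  have : ((N : ℤ) + 1 - -(N : ℤ)).toNat = 2 * N + 1 := by omega
  rw [this]
  ring

/-- **(cover)** two crossing clusters outside a good circle land in alternating cells -/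
def CovT2 (T0 : ℕ) : Prop :=
  ∀ D1 D2 D3 : ℕ, 2 ≤ D1 → 2 ≤ D2 → 2 ≤ D3 → ∀ N : ℕ, N = 32 * D1 * D2 * D3 * T0 →
    ∀ n : ℕ, 2 ≤ n → ∀ k l : ℤ, 1 ≤ k → k < N * n → 2 * ((N : ℤ) * n) ≤ l → ∀ z : Cf,
      z ∈ T2 (0, 0) k l → z ∈ GO (0, 0) D1 D2 D3 (T0 * n) →
      ∃ w : Fin 4 → ℤ, (Sp874.Gd (N - 1) 420 w ∨ Sp874.Gd' (N - 1) 420 w) ∧
        z ∈ Uout (Sq l) (FSq l) (N * n) n (cl (N - 1) (w 0)) (cl (N - 1) (w 1)) (cl (N - 1) (w 2))
          (cl (N - 1) (w 3)) (Sph l) (Sph l) (RF l) (RF l)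

/-- **(SEP, inner)** -/
def SepIn : Prop :=
  ∀ c : ℝ, 0 < c → ∃ K : ℝ, ∀ (p : I) (j : ℕ), RSp c p (2 ^ (j + 5)) → ∀ e : Edge, src e = (0, 0) →
    (nu p).real (Sp580.A4 e ((2 : ℤ) ^ (j + 2))) ≤ K * (nu p).real (NiceU e (2 ^ j))

/-- **outer landing and gluing at one scale** -/
theorem step_out {T0 : ℕ} (hcov : CovT2 T0) {D1 D2 D3 : ℕ} (h1 : 2 ≤ D1) (h2 : 2 ≤ D2) (h3 : 2 ≤ D3)
    (hT0 : 1 ≤ T0) {c : ℝ} {p : I} {n : ℕ} (hn : 2 ≤ n) (hc : RSp c p n) {e : Edge} (he : src e = (0, 0))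
    {N : ℕ} (hN : N = 32 * D1 * D2 * D3 * T0) {k l : ℤ} (hk : 1 ≤ k) (hkN : k < N * n)
    (hl : 2 * ((N : ℤ) * n) ≤ l) :
    (nu p).real (T2 (0, 0) k l ∩ GO (0, 0) D1 D2 D3 (T0 * n)) * (nu p).real (NiceU e n) ≤
      (4 * ((2 * N + 1) ^ 8 : ℕ) * (c ^ (8 * (2 * N + 8) ^ 2))⁻¹) * (nu p).real (Sp580.A4 e l) := by
  classical
  have hN232 : 232 ≤ N := by
    have : 2 * 2 * 2 * 1 ≤ D1 * D2 * D3 * T0 := by gcongr
    have e0 : N = 32 * (D1 * D2 * D3 * T0) := by rw [hN]; ring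
    omega
  obtain ⟨s, t, hst⟩ := nice_choice p e n
  set E : (P2 × P2) × (P2 × P2) → Set Cf := fun κ =>
    {z | (∃ w : Fin 4 → ℤ, (Sp874.Gd (N - 1) 420 w ∨ Sp874.Gd' (N - 1) 420 w) ∧
      κ.1.1 = cl (N - 1) (w 0) ∧ κ.1.2 = cl (N - 1) (w 1) ∧ κ.2.1 = cl (N - 1) (w 2) ∧
      κ.2.2 = cl (N - 1) (w 3)) ∧
      z ∈ Uout (Sq l) (FSq l) (N * n) n κ.1.1 κ.1.2 κ.2.1 κ.2.2 (Sph l) (Sph l) (RF l) (RF l)} with hE
  set F := (boxC N ×ˢ boxC N) ×ˢ (boxC N ×ˢ boxC N) with hF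
  have hcl : ∀ x : ℤ, cl ((N : ℤ) - 1) x ∈ boxC N := by
    intro x
    apply mem_boxC
    rw [Sp874.nr_cl (by omega)]
  have hsub : T2 (0, 0) k l ∩ GO (0, 0) D1 D2 D3 (T0 * n) ⊆ ⋃ κ ∈ F, E κ := by
    rintro z ⟨hz, hg⟩
    obtain ⟨w, hw, hU⟩ := hcov D1 D2 D3 h1 h2 h3 N hN n hn k l hk hkN hl z hz hg
    simp only [Set.mem_iUnion]
    refine ⟨((cl (N - 1) (w 0), cl (N - 1) (w 1)), (cl (N - 1) (w 2), cl (N - 1) (w 3))), ?_, ?_⟩
    · simp only [hF, Finset.mem_product]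
      exact ⟨⟨hcl _, hcl _⟩, hcl _, hcl _⟩
    · exact ⟨⟨w, hw, rfl, rfl, rfl, rfl⟩, hU⟩
  have hcard : F.card = (2 * N + 1) ^ 8 := by
    rw [hF, Finset.card_product, Finset.card_product, card_boxC]
    ring
  have hc0 : 0 < c := hc.1
  set B := 8 * (2 * N + 8) ^ 2 with hB
  have hcB : 0 < c ^ B := pow_pos hc0 B
  -- one 4-tuple
  have hone : ∀ κ, (nu p).real (E κ) * (nu p).real (Nice e n s t) ≤
      (c ^ B)⁻¹ * (nu p).real (Sp580.A4 e l) := by
    intro κ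
    by_cases hw : ∃ w : Fin 4 → ℤ, (Sp874.Gd (N - 1) 420 w ∨ Sp874.Gd' (N - 1) 420 w) ∧
      κ.1.1 = cl (N - 1) (w 0) ∧ κ.1.2 = cl (N - 1) (w 1) ∧ κ.2.1 = cl (N - 1) (w 2) ∧
      κ.2.2 = cl (N - 1) (w 3)
    · obtain ⟨w, hw1, e1, e2, e3, e4⟩ := hw
      have hn0 : (1 : ℤ) ≤ n := by exact_mod_cast (by omega : 1 ≤ n)
      have hn1 : (N : ℤ) * n + 20 * n ≤ 2 * (N * n) - 2 := by nlinarith
      have hS : ∀ v ∈ Sq (((N : ℤ) + 20) * n), -((N : ℤ) * n + 20 * n) ≤ v.1 ∧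
          v.1 ≤ (N : ℤ) * n + 20 * n ∧ -((N : ℤ) * n + 20 * n) ≤ v.2 ∧ v.2 ≤ (N : ℤ) * n + 20 * n := by
        intro v hv
        rw [mem_Sq] at hv
        have : ((N : ℤ) + 20) * n = (N : ℤ) * n + 20 * n := by ring
        omega
      have hS' : ∀ v ∈ Sq (((N : ℤ) + 10) * n), -((N : ℤ) * n + 20 * n) ≤ v.1 ∧
          v.1 ≤ (N : ℤ) * n + 20 * n ∧ -((N : ℤ) * n + 20 * n) ≤ v.2 ∧ v.2 ≤ (N : ℤ) * n + 20 * n := by
        intro v hv
        rw [mem_Sq] at hv
        have : ((N : ℤ) + 10) * n = (N : ℤ) * n + 10 * n := by ring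
        omega
      have hP : ∀ b ∈ Sph l, b ∉ Sq (((N : ℤ) + 10) * n) := by
        intro b hb hb'
        have h4 := hS' b hb'
        have h5 : sd (0, 0) b = l := hb
        have h6 : sd (0, 0) b ≤ (N : ℤ) * n + 20 * n := by rw [sd_le]; simp only; omega
        omega
      have hQ : ∀ b ∈ RF l, b ∉ Sq (((N : ℤ) + 10) * n) := by
        intro b hb hb'
        have h4 := hS' b hb'
        apply hb.2
        rw [mem_rect]
        omega
      have hg := Sg158.glue_out (q := 1) (N := N) le_rfl (by omega) (by omega) hc he s t hw1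
        (L := Sq l) (FL := FSq l) (Sq_finite l) (FSq_finite l)
        (fun v hv => by rw [mem_Sq]; have := hS v hv; omega)
        (fun v hv => by rw [mem_FSq]; have := hS v hv; omega)
        (P1 := Sph l) (P3 := Sph l) (Q2 := RF l) (Q4 := RF l) hP hP hQ hQ
      rw [one_mul] at hg
      have hsub2 : E κ ⊆ Uout (Sq l) (FSq l) (N * n) n (cl (N - 1) (w 0)) (cl (N - 1) (w 1))
          (cl (N - 1) (w 2)) (cl (N - 1) (w 3)) (Sph l) (Sph l) (RF l) (RF l) := by
        rintro z ⟨_, hz⟩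
        rwa [e1, e2, e3, e4] at hz
      have h5 : (nu p).real (E κ) ≤ _ := measureReal_mono hsub2
      have h6 : (nu p).real (Glued e (Sq l) (FSq l) (Sph l) (Sph l) (RF l) (RF l)) ≤
          (nu p).real (Sp580.A4 e l) := measureReal_mono (glued_sub_A4 he (by omega))
      rw [inv_mul_eq_div, le_div_iff₀ hcB]
      calc (nu p).real (E κ) * (nu p).real (Nice e n s t) * c ^ B
          = c ^ B * ((nu p).real (Nice e n s t) * (nu p).real (E κ)) := by ring
        _ ≤ c ^ B * ((nu p).real (Nice e n s t) * (nu p).real (Uout (Sq l) (FSq l) (N * n) n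
              (cl (N - 1) (w 0)) (cl (N - 1) (w 1)) (cl (N - 1) (w 2)) (cl (N - 1) (w 3)) (Sph l)
              (Sph l) (RF l) (RF l))) :=
            mul_le_mul_of_nonneg_left (mul_le_mul_of_nonneg_left h5 measureReal_nonneg) hcB.le
        _ ≤ _ := hg.trans h6
    · have : E κ = ∅ := by
        ext z
        simp only [Set.mem_empty_iff_false, iff_false]
        exact fun hz => hw hz.1
      rw [this]
      simp only [measureReal_empty, zero_mul]
      positivity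
  have hsum : (nu p).real (T2 (0, 0) k l ∩ GO (0, 0) D1 D2 D3 (T0 * n)) ≤ ∑ κ ∈ F, (nu p).real (E κ) :=
    (measureReal_mono hsub (measure_ne_top _ _)).trans (measureReal_biUnion_finset_le _ _)
  calc (nu p).real (T2 (0, 0) k l ∩ GO (0, 0) D1 D2 D3 (T0 * n)) * (nu p).real (NiceU e n)
      ≤ (∑ κ ∈ F, (nu p).real (E κ)) * (4 * (nu p).real (Nice e n s t)) :=
        mul_le_mul hsum hst measureReal_nonneg (Finset.sum_nonneg fun _ _ => measureReal_nonneg)
    _ = 4 * ∑ κ ∈ F, (nu p).real (E κ) * (nu p).real (Nice e n s t) := by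
        rw [← Finset.sum_mul]; ring
    _ ≤ 4 * ∑ _κ ∈ F, (c ^ B)⁻¹ * (nu p).real (Sp580.A4 e l) :=
        mul_le_mul_of_nonneg_left (Finset.sum_le_sum fun κ _ => hone κ) (by norm_num)
    _ = _ := by
        rw [Finset.sum_const, hcard, nsmul_eq_mul]
        ring

/-! ### the scale -/

/-- least power of two with `N 2^i ≥ r + 1` -/
theorem exists_scale (N r : ℕ) (hN : 1 ≤ N) : ∃ i : ℕ, r + 1 ≤ N * 2 ^ i :=
  ⟨r + 1, by
    have h := (Nat.lt_two_pow_self (n := r + 1)).le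
    nlinarith⟩

open Classical in
/-- the exponent of the scale of `r` -/
def sci (N r : ℕ) : ℕ := if h : ∃ i : ℕ, r + 1 ≤ N * 2 ^ i then Nat.find h else 0

theorem sci_ge {N r : ℕ} (hN : 1 ≤ N) : r + 1 ≤ N * 2 ^ sci N r := by
  classical
  unfold sci
  rw [dif_pos (exists_scale N r hN)]
  exact Nat.find_spec (exists_scale N r hN)

theorem sci_lt {N r : ℕ} (hN : 1 ≤ N) (hr : N ≤ r) : N * 2 ^ sci N r < 2 * (r + 1) ∧ 1 ≤ sci N r := by
  classical
  unfold sci
  rw [dif_pos (exists_scale N r hN)]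
  set i := Nat.find (exists_scale N r hN) with hi
  have h1 : 1 ≤ i := by
    by_contra h
    have h0 : i = 0 := by omega
    have h2 := Nat.find_spec (exists_scale N r hN)
    rw [← hi, h0] at h2
    simp at h2
    omega
  refine ⟨?_, h1⟩
  have h2 := Nat.find_min (exists_scale N r hN) (m := i - 1) (by omega)
  push Not at h2
  have h3 : 2 ^ i = 2 * 2 ^ (i - 1) := by
    rw [← pow_succ']
    congr 1
    omega
  rw [h3]
  calc N * (2 * 2 ^ (i - 1)) = 2 * (N * 2 ^ (i - 1)) := by ring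
    _ < 2 * (r + 1) := by omega

/-! ### `HypU4` -/

/-- **QM4 and the annulus form of the four-arm bound.** -/
theorem hypU4_of {T0 : ℕ} (hT0 : 1 ≤ T0) (hcov : CovT2 T0) (hsep : SepIn) (hL : Cpl963.L4)
    (hU : Ax107.P4U) : HypU4 := by
  classical
  obtain ⟨c, hc0, hc1, hRS⟩ := rsp_half
  set e : Edge := ((0, 0), false) with he0
  have he : src e = (0, 0) := rfl
  -- the parameters
  have hgp := fun η : ℝ => fun hη : 0 < η => good_params hc0 hc1 hη
  choose! D1 D2 D3 hD1 hD2 hD3 hD using hgp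
  set Nf : ℝ → ℕ := fun η => 32 * D1 η * D2 η * D3 η * T0 with hNf
  set G : ℝ → ℕ → Set Cf := fun η r =>
    GO (0, 0) (D1 η) (D2 η) (D3 η) (T0 * (2 ^ sci (Nf η) r : ℕ)) with hG
  have hNpos : ∀ η, 0 < η → 256 ≤ Nf η := by
    intro η hη
    have h1 := hD1 η hη
    have h2 := hD2 η hη
    have h3 := hD3 η hη
    have : 2 * 2 * 2 * 1 ≤ D1 η * D2 η * D3 η * T0 := by gcongr
    have e0 : Nf η = 32 * (D1 η * D2 η * D3 η * T0) := by simp only [hNf]; ring
    omega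
  have hρ : ∀ η, ∀ r : ℕ, 32 * (D1 η : ℤ) * D2 η * D3 η * (T0 * (2 ^ sci (Nf η) r : ℕ)) =
      ((Nf η * 2 ^ sci (Nf η) r : ℕ) : ℤ) := by
    intro η r
    simp only [hNf]
    push_cast
    ring
  have hqm := qm_of_one_scale (μ := nu hf) (P := fun n : ℕ => (nu hf).real (Sp580.A4 e n))
    (T := fun k l : ℕ => T2 (0, 0) (k : ℤ) (l : ℤ)) (a := 5 / 4) (by norm_num)
    (fun n => measureReal_le_one) (fun k k' l h1 h2 h3 =>
      T2_shrink (by exact_mod_cast h2) (by exact_mod_cast h3) le_rfl)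
    (fun ε hε => by
      filter_upwards [hU ε hε] with r hr
      exact hr e)
    (fun ε hε => by
      filter_upwards [hL ε hε] with r hr
      exact hr e)
    (B := 8) (by norm_num) G
    (by
      intro η hη
      refine ⟨Nf η, fun k J hk => ?_⟩
      have hN := hNpos η hη
      have hkj : ∀ j : ℕ, k ≤ 8 ^ j * k := fun j => Nat.le_mul_of_pos_left k (by positivity)
      refine inter_pow hf (D := fun j => {v | ((Nf η * 2 ^ sci (Nf η) (8 ^ j * k) : ℕ) : ℤ) ≤ sd (0, 0) v ∧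
        sd (0, 0) v ≤ 2 * ((Nf η * 2 ^ sci (Nf η) (8 ^ j * k) : ℕ) : ℤ)}) J ?_ ?_ ?_
      · intro j _
        refine LocD.compl' ?_
        have h4 := locD_GO (0, 0) (hD1 η hη) (hD2 η hη) (hD3 η hη)
          (u := (T0 : ℤ) * (2 ^ sci (Nf η) (8 ^ j * k) : ℕ)) (by
            have : 1 ≤ T0 * 2 ^ sci (Nf η) (8 ^ j * k) := Nat.mul_pos hT0 (by positivity)
            exact_mod_cast this)
        rw [hρ η] at h4
        exact h4
      · have key : ∀ i j : ℕ, i < j → Disjoint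
            {v : P2 | ((Nf η * 2 ^ sci (Nf η) (8 ^ i * k) : ℕ) : ℤ) ≤ sd (0, 0) v ∧
              sd (0, 0) v ≤ 2 * ((Nf η * 2 ^ sci (Nf η) (8 ^ i * k) : ℕ) : ℤ)}
            {v : P2 | ((Nf η * 2 ^ sci (Nf η) (8 ^ j * k) : ℕ) : ℤ) ≤ sd (0, 0) v ∧
              sd (0, 0) v ≤ 2 * ((Nf η * 2 ^ sci (Nf η) (8 ^ j * k) : ℕ) : ℤ)} := by
          intro i j hij
          rw [Set.disjoint_left]
          rintro v ⟨_, h5⟩ ⟨h6, _⟩
          have h7 := (sci_lt (N := Nf η) (r := 8 ^ i * k) (by omega) (hk.trans (hkj i))).1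
          have h8 := sci_ge (N := Nf η) (r := 8 ^ j * k) (by omega)
          have h9 : 8 * (8 ^ i * k) ≤ 8 ^ j * k := by
            have : 8 ^ (i + 1) ≤ 8 ^ j := Nat.pow_le_pow_right (by norm_num) hij
            calc 8 * (8 ^ i * k) = 8 ^ (i + 1) * k := by ring
              _ ≤ _ := Nat.mul_le_mul_right k this
          have h10 := hkj i
          have h11 : ((Nf η * 2 ^ sci (Nf η) (8 ^ j * k) : ℕ) : ℤ) ≤
            2 * ((Nf η * 2 ^ sci (Nf η) (8 ^ i * k) : ℕ) : ℤ) := h6.trans h5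
          have h12 : Nf η * 2 ^ sci (Nf η) (8 ^ j * k) ≤ 2 * (Nf η * 2 ^ sci (Nf η) (8 ^ i * k)) := by
            exact_mod_cast h11
          omega
        intro i _ j _ hij
        rcases lt_or_gt_of_ne hij with h | h
        · exact key i j h
        · exact (key j i h).symm
      · intro j _
        exact (hD η hη hf _ _ (0, 0) (hRS (2 * (Nf η * 2 ^ sci (Nf η) (8 ^ j * k)) + 1)) (by
          have : 1 ≤ T0 * 2 ^ sci (Nf η) (8 ^ j * k) := Nat.mul_pos hT0 (by positivity)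
          exact_mod_cast this) (by rw [hρ η]; push_cast; exact le_rfl)).1)
    (by
      intro η hη
      obtain ⟨K, hK⟩ := hsep c hc0
      have hN := hNpos η hη
      set N := Nf η with hNdef
      set C : ℝ := 4 * ((2 * N + 1) ^ 8 : ℕ) * (c ^ (8 * (2 * N + 8) ^ 2))⁻¹ with hC
      have hC0 : 0 ≤ C := by positivity
      refine ⟨max K 0 * C, N, by positivity, fun r l hr hl => ?_⟩
      set i := sci N r with hi
      have h1 := sci_ge (N := N) (r := r) (by omega)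
      obtain ⟨h2, h3⟩ := sci_lt (N := N) (r := r) (by omega) hr
      rw [← hi] at h1 h2 h3
      have h4 : 2 ≤ 2 ^ i := by
        calc 2 = 2 ^ 1 := by norm_num
          _ ≤ 2 ^ i := Nat.pow_le_pow_right (by norm_num) h3
      have hstep := step_out hcov (hD1 η hη) (hD2 η hη) (hD3 η hη) hT0 (p := hf) h4 (hRS _) he
        (N := N) rfl (k := r) (l := l) (by omega) (by
          have : r < N * 2 ^ i := by omega
          exact_mod_cast this) (by
          have : 2 * (N * 2 ^ i) ≤ l := by omega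
          exact_mod_cast this)
      have h5 : (nu hf).real (Sp580.A4 e r) ≤ K * (nu hf).real (NiceU e (2 ^ i)) := by
        refine le_trans (measureReal_mono (A4_anti (R := 2 ^ (i + 2)) ?_ ?_)) (hK hf i (hRS _) e he)
        · exact one_le_pow₀ (by norm_num)
        · have h6 : 256 * 2 ^ i ≤ N * 2 ^ i := Nat.mul_le_mul_right _ hN
          have h7 : 2 ^ (i + 2) = 4 * 2 ^ i := by ring
          have h8 : 2 ^ (i + 2) ≤ r := by omega
          exact_mod_cast h8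
      have h6 : (nu hf).real (Sp580.A4 e r) ≤ max K 0 * (nu hf).real (NiceU e (2 ^ i)) :=
        h5.trans (mul_le_mul_of_nonneg_right (le_max_left _ _) measureReal_nonneg)
      calc (nu hf).real (T2 (0, 0) (r : ℤ) (l : ℤ) ∩ G η r) * (nu hf).real (Sp580.A4 e r)
          ≤ (nu hf).real (T2 (0, 0) (r : ℤ) (l : ℤ) ∩ G η r) *
              (max K 0 * (nu hf).real (NiceU e (2 ^ i))) :=
            mul_le_mul_of_nonneg_left h6 measureReal_nonneg
        _ = max K 0 * ((nu hf).real (T2 (0, 0) (r : ℤ) (l : ℤ) ∩ G η r) *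
              (nu hf).real (NiceU e (2 ^ i))) := by ring
        _ ≤ max K 0 * (C * (nu hf).real (Sp580.A4 e l)) :=
            mul_le_mul_of_nonneg_left hstep (le_max_right _ _)
        _ = _ := by ring)
  exact annulus_of_point (P := fun n : ℕ => (nu hf).real (Sp580.A4 e n))
    (T := fun k l : ℕ => (nu hf).real (T2 (0, 0) (k : ℤ) (l : ℤ))) (a := 5 / 4) (by norm_num)
    (fun k l => measureReal_le_one) (fun k k' l h1 h2 h3 =>
      measureReal_mono (T2_shrink (by exact_mod_cast h2) (by exact_mod_cast h3) le_rfl))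
    (fun ε hε => by
      filter_upwards [hU ε hε] with r hr
      exact hr e)
    (fun ε hε => by
      filter_upwards [hL ε hε] with r hr
      exact hr e) hqm

end Crest.Agent.R158.Qf808
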