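import Crest.Agent.R158.Kd2_458
import Crest.Agent.R158.Rs2_689
import Crest.Agent.R158.Sp4c_874
import Crest.Agent.R158.Sp0_580

-- ▼ part R158/Sq3_200
section

/-!
# Row 158, SEP leaf L2 (helper200): ring coordinates

* `rq q j t` : rotation number `q` of the cell `(j,t)`; `cel j w` : the cell number `w` of the ring `j`
  (ring `j` = boundary cells of `[-(j+1), j]²`), period `4 (2 j + 1)`
* `lv R w`, `le R w` : vertex and leaving edge of `[-R,R]²` between the ring faces `cel R (w-1)`, `cel R w`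
* `ce R w` : the edge of the circle below the ring face `cel R w` (not at the corners)
* `col_ring` : 458's colourings in ring coordinates
* `Wc` : the coarse coordinate; `near_coarse`, `order4`
-/

set_option autoImplicit false

noncomputable section

namespace Crest.Agent.R158.Sr200

open Crest.Agent.R161.Geo729 Crest.Agent.R161.Topo374 Crest.Agent.R161.Dual374
open Crest.Agent.R158.Kd458 Finset

/-- the cell `(j,t)` rotated `q` times -/
def rq (q j t : ℤ) : P2 :=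
  if q % 4 = 0 then (j, t) else if q % 4 = 1 then (-1 - t, j)
  else if q % 4 = 2 then (-1 - j, -1 - t) else (t, -1 - j)

/-- cell number `w` of the ring `j` -/
def cel (j w : ℤ) : P2 := rq ((w + j) / (2 * j + 1)) j (w - (w + j) / (2 * j + 1) * (2 * j + 1))

/-- boundary vertex of `[-R,R]²` -/
def lvq (q R t : ℤ) : P2 :=
  if q % 4 = 0 then (R, t) else if q % 4 = 1 then (-t, R)
  else if q % 4 = 2 then (-R, -t) else (t, -R)

/-- leaving edge -/
def leq (q R t : ℤ) : Edge :=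
  if q % 4 = 0 then ((R, t), false) else if q % 4 = 1 then ((-t, R), true)
  else if q % 4 = 2 then ((-R - 1, -t), false) else ((t, -R - 1), true)

/-- circle edge -/
def ceq (q R t : ℤ) : Edge :=
  if q % 4 = 0 then ((R, t), true) else if q % 4 = 1 then ((-t - 1, R), false)
  else if q % 4 = 2 then ((-R, -t - 1), true) else ((t, -R), false)

def lv (R w : ℤ) : P2 := lvq ((w + R) / (2 * R + 1)) R (w - (w + R) / (2 * R + 1) * (2 * R + 1))
def le (R w : ℤ) : Edge := leq ((w + R) / (2 * R + 1)) R (w - (w + R) / (2 * R + 1) * (2 * R + 1))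
def ce (R w : ℤ) : Edge := ceq ((w + R) / (2 * R + 1)) R (w - (w + R) / (2 * R + 1) * (2 * R + 1))

theorem div_mk {j q t : ℤ} (h1 : -j ≤ t) (h2 : t ≤ j) : (q * (2 * j + 1) + t + j) / (2 * j + 1) = q := by
  have h3 : (0 : ℤ) < 2 * j + 1 := by omega
  rw [show q * (2 * j + 1) + t + j = (t + j) + (2 * j + 1) * q by ring,
    Int.add_mul_ediv_left _ _ h3.ne', Int.ediv_eq_zero_of_lt (by omega) (by omega), zero_add]

theorem cel_mk {j q t : ℤ} (h1 : -j ≤ t) (h2 : t ≤ j) : cel j (q * (2 * j + 1) + t) = rq q j t := by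
  unfold cel
  rw [div_mk h1 h2]
  congr 1
  ring

theorem lv_mk {j q t : ℤ} (h1 : -j ≤ t) (h2 : t ≤ j) : lv j (q * (2 * j + 1) + t) = lvq q j t := by
  unfold lv
  rw [div_mk h1 h2]
  congr 1
  ring

theorem le_mk {j q t : ℤ} (h1 : -j ≤ t) (h2 : t ≤ j) : le j (q * (2 * j + 1) + t) = leq q j t := by
  unfold le
  rw [div_mk h1 h2]
  congr 1
  ring

theorem ce_mk {j q t : ℤ} (h1 : -j ≤ t) (h2 : t ≤ j) : ce j (q * (2 * j + 1) + t) = ceq q j t := by
  unfold ce
  rw [div_mk h1 h2]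
  congr 1
  ring

theorem split {j : ℤ} (hj : 0 ≤ j) (w : ℤ) : ∃ q t, -j ≤ t ∧ t ≤ j ∧ w = q * (2 * j + 1) + t := by
  have h3 : (0 : ℤ) < 2 * j + 1 := by omega
  have h4 := Int.emod_nonneg (w + j) h3.ne'
  have h5 := Int.emod_lt_of_pos (w + j) h3
  have h6 := Int.emod_add_mul_ediv (w + j) (2 * j + 1)
  refine ⟨(w + j) / (2 * j + 1), (w + j) % (2 * j + 1) - j, by omega, by omega, ?_⟩
  linarith

theorem q4 (q : ℤ) : q % 4 = 0 ∨ q % 4 = 1 ∨ q % 4 = 2 ∨ q % 4 = 3 := by omega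

theorem rq_congr {q q' : ℤ} (h : q % 4 = q' % 4) (j t : ℤ) : rq q j t = rq q' j t := by
  unfold rq; rw [h]

theorem lvq_congr {q q' : ℤ} (h : q % 4 = q' % 4) (j t : ℤ) : lvq q j t = lvq q' j t := by
  unfold lvq; rw [h]

theorem leq_congr {q q' : ℤ} (h : q % 4 = q' % 4) (j t : ℤ) : leq q j t = leq q' j t := by
  unfold leq; rw [h]


/-- shift by periods -/
theorem cel_add {j : ℤ} (hj : 0 ≤ j) (w m : ℤ) : cel j (w + 4 * (2 * j + 1) * m) = cel j w := by
  obtain ⟨q, t, h1, h2, rfl⟩ := split hj w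
  rw [show q * (2 * j + 1) + t + 4 * (2 * j + 1) * m = (q + 4 * m) * (2 * j + 1) + t by ring,
    cel_mk h1 h2, cel_mk h1 h2]
  exact rq_congr (by omega) _ _

theorem lv_add {j : ℤ} (hj : 0 ≤ j) (w m : ℤ) : lv j (w + 4 * (2 * j + 1) * m) = lv j w := by
  obtain ⟨q, t, h1, h2, rfl⟩ := split hj w
  rw [show q * (2 * j + 1) + t + 4 * (2 * j + 1) * m = (q + 4 * m) * (2 * j + 1) + t by ring,
    lv_mk h1 h2, lv_mk h1 h2]
  exact lvq_congr (by omega) _ _



/-- the ring `j` of cells -/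
def Rg (j : ℤ) (k : P2) : Prop :=
  (-1 - j ≤ k.1 ∧ k.1 ≤ j ∧ -1 - j ≤ k.2 ∧ k.2 ≤ j) ∧ (k.1 = j ∨ k.1 = -1 - j ∨ k.2 = j ∨ k.2 = -1 - j)

theorem rg_rq {q j t : ℤ} (h1 : -j ≤ t) (h2 : t ≤ j) : Rg j (rq q j t) := by
  unfold Rg rq
  split_ifs
  · exact ⟨⟨by simp only; omega, le_rfl, by simp only; omega, h2⟩, Or.inl rfl⟩
  · exact ⟨⟨by simp only; omega, by simp only; omega, by simp only; omega, le_rfl⟩,
      Or.inr (Or.inr (Or.inl rfl))⟩
  · exact ⟨⟨le_rfl, by simp only; omega, by simp only; omega, by simp only; omega⟩, Or.inr (Or.inl rfl)⟩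
  · exact ⟨⟨by simp only; omega, h2, le_rfl, by simp only; omega⟩, Or.inr (Or.inr (Or.inr rfl))⟩

theorem rg_cel {j : ℤ} (hj : 0 ≤ j) (w : ℤ) : Rg j (cel j w) := by
  obtain ⟨q, t, h1, h2, rfl⟩ := split hj w
  rw [cel_mk h1 h2]
  exact rg_rq h1 h2

theorem exists_rq {j : ℤ} {k : P2} (h : Rg j k) : ∃ q t, -j ≤ t ∧ t ≤ j ∧ rq q j t = k := by
  obtain ⟨x, y⟩ := k
  obtain ⟨⟨h1, h2, h3, h4⟩, h5⟩ := h
  simp only at h1 h2 h3 h4 h5
  by_cases a1 : x = j ∧ -j ≤ y
  · exact ⟨0, y, by omega, by omega, by unfold rq; rw [if_pos (by norm_num), a1.1]⟩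
  · by_cases a2 : y = j ∧ x ≤ j - 1
    · refine ⟨1, -1 - x, by omega, by omega, ?_⟩
      unfold rq
      rw [if_neg (by norm_num), if_pos (by norm_num), a2.1]
      ext <;> simp
    · by_cases a3 : x = -1 - j ∧ y ≤ j - 1
      · refine ⟨2, -1 - y, by omega, by omega, ?_⟩
        unfold rq
        rw [if_neg (by norm_num), if_neg (by norm_num), if_pos (by norm_num), a3.1]
        ext <;> simp
      · refine ⟨3, x, by omega, by omega, ?_⟩
        unfold rq
        rw [if_neg (by norm_num), if_neg (by norm_num), if_neg (by norm_num)]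
        ext <;> simp <;> omega

/-- translate a coordinate into a given period -/
theorem into_period {j : ℤ} (hj : 0 ≤ j) (B w : ℤ) :
    ∃ m, B ≤ w + 4 * (2 * j + 1) * m ∧ w + 4 * (2 * j + 1) * m < B + 4 * (2 * j + 1) := by
  have h3 : (0 : ℤ) < 4 * (2 * j + 1) := by omega
  have h4 := Int.emod_nonneg (w - B) h3.ne'
  have h5 := Int.emod_lt_of_pos (w - B) h3
  have h6 := Int.emod_add_mul_ediv (w - B) (4 * (2 * j + 1))
  refine ⟨-((w - B) / (4 * (2 * j + 1))), ?_, ?_⟩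
  · rw [mul_neg]; linarith
  · rw [mul_neg]; linarith

theorem exists_cel {j : ℤ} (hj : 0 ≤ j) {k : P2} (h : Rg j k) (B : ℤ) :
    ∃ w, B ≤ w ∧ w < B + 4 * (2 * j + 1) ∧ cel j w = k := by
  obtain ⟨q, t, h1, h2, h3⟩ := exists_rq h
  obtain ⟨m, hm1, hm2⟩ := into_period hj B (q * (2 * j + 1) + t)
  exact ⟨_, hm1, hm2, by rw [cel_add hj, cel_mk h1 h2, h3]⟩

theorem exists_lv {R : ℤ} (hR : 0 ≤ R) {v : P2} (hv : -R ≤ v.1 ∧ v.1 ≤ R ∧ -R ≤ v.2 ∧ v.2 ≤ R)
    (hb : v.1 = R ∨ v.1 = -R ∨ v.2 = R ∨ v.2 = -R) (B : ℤ) :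
    ∃ w, B ≤ w ∧ w < B + 4 * (2 * R + 1) ∧ lv R w = v := by
  have key : ∃ q t, -R ≤ t ∧ t ≤ R ∧ lvq q R t = v := by
    obtain ⟨x, y⟩ := v
    simp only at hv hb
    rcases hb with rfl | rfl | rfl | rfl
    · exact ⟨0, y, by omega, by omega, by unfold lvq; rw [if_pos (by norm_num)]⟩
    · exact ⟨2, -y, by omega, by omega, by
        unfold lvq; rw [if_neg (by norm_num), if_neg (by norm_num), if_pos (by norm_num)]
        ext <;> simp⟩
    · exact ⟨1, -x, by omega, by omega, by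
        unfold lvq; rw [if_neg (by norm_num), if_pos (by norm_num)]
        ext <;> simp⟩
    · exact ⟨3, x, by omega, by omega, by
        unfold lvq; rw [if_neg (by norm_num), if_neg (by norm_num), if_neg (by norm_num)]⟩
  obtain ⟨q, t, h1, h2, h3⟩ := key
  obtain ⟨m, hm1, hm2⟩ := into_period hR B (q * (2 * R + 1) + t)
  exact ⟨_, hm1, hm2, by rw [lv_add hR, lv_mk h1 h2, h3]⟩

/-- `le R w` leaves the box at `lv R w` -/
theorem out_le {R : ℤ} (hR : 0 ≤ R) (w : ℤ) : Out (-R) R (-R) R (le R w) (lv R w) := by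
  obtain ⟨q, t, h1, h2, rfl⟩ := split hR w
  rw [le_mk h1 h2, lv_mk h1 h2]
  unfold Out leq lvq
  split_ifs
  · exact Or.inl ⟨h1, h2, Or.inr ⟨rfl, rfl⟩⟩
  · exact Or.inr ⟨by simp only; omega, by simp only; omega, Or.inr ⟨rfl, rfl⟩⟩
  · exact Or.inl ⟨by simp only; omega, by simp only; omega, Or.inl ⟨rfl, rfl⟩⟩
  · exact Or.inr ⟨h1, h2, Or.inl ⟨rfl, rfl⟩⟩

/-- the faces of the leaving edge -/
theorem le_faces {R : ℤ} (hR : 0 ≤ R) (w : ℤ) :
    (fA (le R w) = cel R w ∧ fB (le R w) = cel R (w - 1)) ∨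
      (fA (le R w) = cel R (w - 1) ∧ fB (le R w) = cel R w) := by
  obtain ⟨q, t, h1, h2, rfl⟩ := split hR w
  rw [le_mk h1 h2, cel_mk h1 h2]
  by_cases ht : t = -R
  · rw [show q * (2 * R + 1) + t - 1 = (q - 1) * (2 * R + 1) + R by rw [ht]; ring,
      cel_mk (by omega) le_rfl]
    subst ht
    rcases q4 q with h | h | h | h
    · rw [rq_congr (q' := 0) (by omega), rq_congr (q := q - 1) (q' := 3) (by omega),
        leq_congr (q' := 0) (by omega)]
      simp [rq, leq]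
      omega
    · rw [rq_congr (q' := 1) (by omega), rq_congr (q := q - 1) (q' := 0) (by omega),
        leq_congr (q' := 1) (by omega)]
      simp [rq, leq]
      omega
    · rw [rq_congr (q' := 2) (by omega), rq_congr (q := q - 1) (q' := 1) (by omega),
        leq_congr (q' := 2) (by omega)]
      simp [rq, leq]
      omega
    · rw [rq_congr (q' := 3) (by omega), rq_congr (q := q - 1) (q' := 2) (by omega),
        leq_congr (q' := 3) (by omega)]
      simp [rq, leq]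
      omega
  · rw [show q * (2 * R + 1) + t - 1 = q * (2 * R + 1) + (t - 1) by ring,
      cel_mk (by omega) (by omega)]
    rcases q4 q with h | h | h | h
    · rw [rq_congr (q' := 0) (by omega), rq_congr (q := q) (q' := 0) (by omega),
        leq_congr (q' := 0) (by omega)]
      simp [rq, leq]
    · rw [rq_congr (q' := 1) (by omega), rq_congr (q := q) (q' := 1) (by omega),
        leq_congr (q' := 1) (by omega)]
      simp [rq, leq]
      omega
    · rw [rq_congr (q' := 2) (by omega), rq_congr (q := q) (q' := 2) (by omega),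
        leq_congr (q' := 2) (by omega)]
      simp [rq, leq]
      omega
    · rw [rq_congr (q' := 3) (by omega), rq_congr (q := q) (q' := 3) (by omega),
        leq_congr (q' := 3) (by omega)]
      simp [rq, leq]
      omega

theorem leq_inj {R q q' t t' : ℤ} (h1 : -R ≤ t) (h2 : t ≤ R) (h1' : -R ≤ t') (h2' : t' ≤ R)
    (h : leq q R t = leq q' R t') : q % 4 = q' % 4 ∧ t = t' := by
  unfold leq at h
  have hq := q4 q
  have hq' := q4 q'
  split_ifs at h <;> simp only [Prod.mk.injEq, Bool.false_eq_true, Bool.true_eq_false, and_false,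
    and_true] at h <;> omega

theorem ceq_inj {R q q' t t' : ℤ} (hR : 1 ≤ R) (h1 : -R ≤ t) (h2 : t < R) (h1' : -R ≤ t') (h2' : t' < R)
    (h : ceq q R t = ceq q' R t') : q % 4 = q' % 4 ∧ t = t' := by
  unfold ceq at h
  have hq := q4 q
  have hq' := q4 q'
  split_ifs at h <;> simp only [Prod.mk.injEq, Bool.false_eq_true, Bool.true_eq_false, and_false,
    and_true] at h <;> omega


/-- from residues to equality inside one period -/
theorem eq_of_period {j q q' t : ℤ} (hj : 0 ≤ j) (h : q % 4 = q' % 4)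
    (h1 : q * (2 * j + 1) + t < q' * (2 * j + 1) + t + 4 * (2 * j + 1))
    (h2 : q' * (2 * j + 1) + t < q * (2 * j + 1) + t + 4 * (2 * j + 1)) : q = q' := by
  have h3 : (0 : ℤ) < 2 * j + 1 := by omega
  have h4 : q < q' + 4 := by
    by_contra hc
    have : (q' + 4) * (2 * j + 1) ≤ q * (2 * j + 1) := by
      exact mul_le_mul_of_nonneg_right (by omega) h3.le
    linarith
  have h5 : q' < q + 4 := by
    by_contra hc
    have : (q + 4) * (2 * j + 1) ≤ q' * (2 * j + 1) := by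
      exact mul_le_mul_of_nonneg_right (by omega) h3.le
    linarith
  omega

theorem le_inj {R w w' : ℤ} (hR : 0 ≤ R) (h : le R w = le R w') (h1 : w < w' + 4 * (2 * R + 1))
    (h2 : w' < w + 4 * (2 * R + 1)) : w = w' := by
  obtain ⟨q, t, a1, a2, rfl⟩ := split hR w
  obtain ⟨q', t', b1, b2, rfl⟩ := split hR w'
  rw [le_mk a1 a2, le_mk b1 b2] at h
  obtain ⟨h3, rfl⟩ := leq_inj a1 a2 b1 b2 h
  rw [eq_of_period hR h3 h1 h2]


/-- **colourings in ring coordinates** -/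
theorem col_ring {R a b : ℤ} (hR : 0 ≤ R) (hab : a < b) (hb : b < a + 4 * (2 * R + 1)) {F : P2 → ZMod 2}
    (hF : IsCol (-R) R (-R) R (le R a) (le R b) F) {c : ℤ} (h1 : a ≤ c) (h2 : c < a + 4 * (2 * R + 1)) :
    F (cel R c) = F (cel R a) + (if c < b then 0 else 1) := by
  obtain ⟨n, rfl⟩ : ∃ n : ℕ, c = a + n := ⟨(c - a).toNat, by omega⟩
  clear h1
  induction n with
  | zero => rw [if_pos (by push_cast; omega)]; simp
  | succ n ih =>
      push_cast at h2 ⊢
      have ih := ih (by omega)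
      have hs := hF (le R (a + n + 1)) (lv R (a + n + 1)) (out_le hR _)
      have e1 : dl (le R a) (le R (a + n + 1)) = 0 := by
        apply ind_false
        intro h
        have := le_inj hR h (by omega) (by omega)
        omega
      have e2 : dl (le R b) (le R (a + n + 1)) = if a + (n : ℤ) + 1 = b then 1 else 0 := by
        by_cases h : a + (n : ℤ) + 1 = b
        · rw [if_pos h, h]; exact ind_true rfl
        · rw [if_neg h]
          apply ind_false
          intro h'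
          exact h (le_inj hR h' (by omega) (by omega))
      rw [e1, e2, zero_add] at hs
      have e3 : F (cel R (a + n + 1)) = F (cel R (a + n)) + if a + (n : ℤ) + 1 = b then 1 else 0 := by
        have z := zmod2_add_self (F (cel R (a + n)))
        rcases le_faces hR (a + n + 1) with ⟨p1, p2⟩ | ⟨p1, p2⟩
        · rw [p1, p2, show a + (n : ℤ) + 1 - 1 = a + n by ring] at hs
          linear_combination hs - z
        · rw [p1, p2, show a + (n : ℤ) + 1 - 1 = a + n by ring] at hs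
          linear_combination hs - z
      rw [show a + ((n : ℤ) + 1) = a + n + 1 by ring, e3, ih]
      by_cases h3 : a + (n : ℤ) < b
      · by_cases h4 : a + (n : ℤ) + 1 < b
        · rw [if_pos h3, if_neg (by omega), if_pos h4]; ring
        · rw [if_pos h3, if_pos (by omega), if_neg h4]; ring
      · rw [if_neg h3, if_neg (by omega), if_neg (by omega)]; ring

/-- two ring faces of different colours: exactly one lies in the arc -/
theorem col_sep {R a b : ℤ} (hR : 0 ≤ R) (hab : a < b) (hb : b < a + 4 * (2 * R + 1)) {F : P2 → ZMod 2}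
    (hF : IsCol (-R) R (-R) R (le R a) (le R b) F) {c d : ℤ} (h1 : a ≤ c) (h2 : c < a + 4 * (2 * R + 1))
    (h3 : a ≤ d) (h4 : d < a + 4 * (2 * R + 1)) (hne : F (cel R c) ≠ F (cel R d)) :
    (c < b ∧ b ≤ d) ∨ (d < b ∧ b ≤ c) := by
  rw [col_ring hR hab hb hF h1 h2, col_ring hR hab hb hF h3 h4] at hne
  by_cases hc : c < b <;> by_cases hd : d < b
  · rw [if_pos hc, if_pos hd] at hne; exact absurd rfl hne
  · exact Or.inl ⟨hc, by omega⟩
  · exact Or.inr ⟨hd, by omega⟩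
  · rw [if_neg hc, if_neg hd] at hne; exact absurd rfl hne

end Crest.Agent.R158.Sr200
end
end

-- ▼ part R158/Sq4_200

/-!
# Row 158, SEP leaf L2 (helper200): from points of the circle to cells

* `cel_eq` : `cel` is 874's `cl`
* `Wc` : the coarse coordinate of a position on the fine ring (monotone, compatible with the periods)
* `near_W` : a cell `k` of the ring `N-1` near the ring face `cel R w` has a coordinate close to `Wc w`
* `order4` : cyclic order of the points gives the cyclic order of the cells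
-/

set_option autoImplicit false

noncomputable section

namespace Crest.Agent.R158.Sr200

open Crest.Agent.R161.Geo729 Crest.Agent.R161.Topo374 Crest.Agent.R161.Dual374
open Crest.Agent.R158.Sp874 (FarN nr Gd Gd')

theorem cel_eq (j w : ℤ) : cel j w = Sp874.cl j w := by
  unfold cel Sp874.cl rq Sp874.rt
  rfl

theorem rg_iff {j : ℤ} (_ : 0 ≤ j) {k : P2} : Rg j k ↔ nr k = j := by
  unfold Rg nr
  omega

theorem not_farN {F : ℤ} {c c' : P2} : ¬ FarN F c c' ↔
    (c'.1 - c.1 < F ∧ c.1 - c'.1 < F ∧ c'.2 - c.2 < F ∧ c.2 - c'.2 < F) := by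
  unfold FarN
  omega

/-- the sup distance is at most the ring distance -/
theorem dist_cl {j : ℤ} (hj : 0 ≤ j) (w : ℤ) (n : ℕ) {F : ℤ} (hF : n < F) :
    ¬ FarN F (Sp874.cl j w) (Sp874.cl j (w + n)) := by
  have key : ∀ n : ℕ, |(Sp874.cl j (w + n)).1 - (Sp874.cl j w).1| ≤ n ∧
      |(Sp874.cl j (w + n)).2 - (Sp874.cl j w).2| ≤ n := by
    intro n
    induction n with
    | zero => simp
    | succ n ih =>
        have h := Sp874.adj_cl hj (w + n)
        rw [show w + ((n + 1 : ℕ) : ℤ) = w + n + 1 by push_cast; ring]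
        unfold Rs689.CAdj at h
        rw [abs_le, abs_le] at *
        push_cast
        omega
  have h := key n
  rw [abs_le, abs_le] at h
  rw [not_farN]
  omega

theorem far_dist {j : ℤ} (hj : 0 ≤ j) {w w' F : ℤ} (h : FarN F (Sp874.cl j w) (Sp874.cl j w')) :
    w + F ≤ w' ∨ w' + F ≤ w := by
  by_contra hc
  rcases le_total w w' with h1 | h1
  · have := dist_cl hj w (w' - w).toNat (F := F) (by omega)
    rw [show w + ((w' - w).toNat : ℤ) = w' by omega] at this
    exact this h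
  · have := dist_cl hj w' (w - w').toNat (F := F) (by omega)
    rw [show w' + ((w - w').toNat : ℤ) = w by omega] at this
    apply this
    unfold FarN at h ⊢
    omega

/-- near cells have near coordinates -/
theorem near_coord {j F : ℤ} (hj : 0 ≤ j) (hF0 : 1 ≤ F) (hF : F ≤ 2 * j + 1) {k : P2} (hk : nr k = j) {w : ℤ}
    (h : ¬ FarN F (Sp874.cl j w) k) :
    ∃ W, Sp874.cl j W = k ∧ W - w < 2 * F ∧ w - W < 2 * F := by
  obtain ⟨W, h1, h2, h3⟩ := exists_cel hj ((rg_iff hj).2 hk) w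
  rw [cel_eq] at h3
  by_cases h4 : W - w < 2 * F
  · exact ⟨W, h3, h4, by omega⟩
  · by_cases h5 : w + 4 * (2 * j + 1) - W < 2 * F
    · refine ⟨W - 4 * (2 * j + 1), ?_, by omega, by omega⟩
      rw [← h3, ← Sp874.cl_period hj (W - 4 * (2 * j + 1))]
      congr 1
      ring
    · exfalso
      apply h
      rw [← h3]
      exact Sp874.farN_cl_cl hj hF0 hF (by omega) (by omega)

/-- coarse coordinate -/
def Wc (n N w : ℤ) : ℤ :=
  (w + N * n) / (2 * (N * n) + 1) * (2 * (N - 1) + 1) +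
    max (-(N - 1)) (min (N - 1) ((w - (w + N * n) / (2 * (N * n) + 1) * (2 * (N * n) + 1)) / n))

theorem Wc_mk {n N q t : ℤ} (h1 : -(N * n) ≤ t) (h2 : t ≤ N * n) :
    Wc n N (q * (2 * (N * n) + 1) + t) = q * (2 * (N - 1) + 1) + max (-(N - 1)) (min (N - 1) (t / n)) := by
  unfold Wc
  rw [div_mk h1 h2]
  congr 3
  ring_nf

theorem Wc_mono {n N : ℤ} (hn : 1 ≤ n) (hN : 1 ≤ N) {w w' : ℤ} (h : w ≤ w') : Wc n N w ≤ Wc n N w' := by
  have hR : 0 ≤ N * n := by positivity
  obtain ⟨q, t, a1, a2, rfl⟩ := split hR w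
  obtain ⟨q', t', b1, b2, rfl⟩ := split hR w'
  rw [Wc_mk a1 a2, Wc_mk b1 b2]
  rcases lt_trichotomy q q' with hq | hq | hq
  · have h3 : (q + 1) * (2 * (N - 1) + 1) ≤ q' * (2 * (N - 1) + 1) :=
      mul_le_mul_of_nonneg_right (by omega) (by omega)
    have h4 : (q + 1) * (2 * (N - 1) + 1) = q * (2 * (N - 1) + 1) + (2 * (N - 1) + 1) := by ring
    omega
  · subst hq
    have h3 : t ≤ t' := by linarith
    have h4 : t / n ≤ t' / n := Int.ediv_le_ediv (by omega) h3
    omega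
  · exfalso
    have h3 : (q' + 1) * (2 * (N * n) + 1) ≤ q * (2 * (N * n) + 1) :=
      mul_le_mul_of_nonneg_right (by omega) (by omega)
    have h4 : (q' + 1) * (2 * (N * n) + 1) = q' * (2 * (N * n) + 1) + (2 * (N * n) + 1) := by ring
    linarith

theorem Wc_add {n N : ℤ} (hn : 1 ≤ n) (hN : 1 ≤ N) (w : ℤ) :
    Wc n N (w + 4 * (2 * (N * n) + 1)) = Wc n N w + 4 * (2 * (N - 1) + 1) := by
  have hR : 0 ≤ N * n := by positivity
  obtain ⟨q, t, a1, a2, rfl⟩ := split hR w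
  rw [show q * (2 * (N * n) + 1) + t + 4 * (2 * (N * n) + 1) = (q + 4) * (2 * (N * n) + 1) + t by ring,
    Wc_mk a1 a2, Wc_mk a1 a2]
  ring

/-- the coarse cell of a point -/
def fl (n : ℤ) (p : P2) : P2 := (p.1 / n, p.2 / n)

theorem neg_div' {n : ℤ} (hn : 1 ≤ n) (t : ℤ) : (-1 - t) / n = -1 - t / n := by
  have h1 := Int.emod_nonneg t (by omega : n ≠ 0)
  have h2 := Int.emod_lt_of_pos t (by omega : 0 < n)
  have h3 := Int.emod_add_mul_ediv t n
  rw [show -1 - t = (n - 1 - t % n) + n * (-1 - t / n) by linarith,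
    Int.add_mul_ediv_left _ _ (by omega : n ≠ 0), Int.ediv_eq_zero_of_lt (by omega) (by omega), zero_add]

theorem fl_rq {n N : ℤ} (hn : 1 ≤ n) (q t : ℤ) : fl n (rq q (N * n) t) = rq q N (t / n) := by
  have h1 : N * n / n = N := Int.mul_ediv_cancel _ (by omega)
  unfold fl rq
  split_ifs
  · simp only [h1]
  · simp only [h1, neg_div' hn]
  · simp only [h1, neg_div' hn]
  · simp only [h1, neg_div' hn]

theorem fl_cel {n N : ℤ} (hn : 1 ≤ n) (hN : 1 ≤ N) (w : ℤ) :
    ¬ FarN 2 (Sp874.cl (N - 1) (Wc n N w)) (fl n (cel (N * n) w)) := by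
  have hR : 0 ≤ N * n := by positivity
  obtain ⟨q, t, a1, a2, rfl⟩ := split hR w
  rw [Wc_mk a1 a2, cel_mk a1 a2, fl_rq hn, ← cel_eq]
  have hτ1 : -N ≤ t / n := by
    rw [Int.le_ediv_iff_mul_le (by omega)]
    linarith
  have hτ2 : t / n ≤ N := by
    have : t / n ≤ N * n / n := Int.ediv_le_ediv (by omega) a2
    rwa [Int.mul_ediv_cancel _ (by omega)] at this
  rw [cel_mk (by omega) (by omega), not_farN]
  unfold rq
  split_ifs <;> simp only <;> omega

/-- **near cells** : a cell near a ring face -/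
theorem near_W {n N : ℤ} (hn : 1 ≤ n) (hN : 4 ≤ N) {k : P2} (hk : nr k = N - 1) {w : ℤ}
    (h : ¬ FarN 3 k (fl n (cel (N * n) w))) :
    ∃ W, Sp874.cl (N - 1) W = k ∧ W - Wc n N w < 8 ∧ Wc n N w - W < 8 := by
  have h1 := fl_cel hn (by omega : 1 ≤ N) w
  have h2 : ¬ FarN 4 (Sp874.cl (N - 1) (Wc n N w)) k := by
    rw [not_farN] at *
    omega
  obtain ⟨W, h3, h4, h5⟩ := near_coord (by omega) (by omega) (by omega) hk h2
  exact ⟨W, h3, by omega, by omega⟩

/-- **order of the cells** -/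
theorem order4 {n N g : ℤ} (hn : 1 ≤ n) (hN : 4 ≤ N) (hg : 15 ≤ g) {k1 k2 k3 k4 : P2}
    (h1 : nr k1 = N - 1) (h2 : nr k2 = N - 1) (h3 : nr k3 = N - 1) (h4 : nr k4 = N - 1)
    (f12 : FarN g k1 k2) (f23 : FarN g k2 k3) (f34 : FarN g k3 k4) (f41 : FarN g k4 k1)
    {a b c d : ℤ} (hac : a ≤ c) (hcb : c ≤ b) (hbd : b ≤ d) (hda : d ≤ a + 4 * (2 * (N * n) + 1))
    (n1 : ¬ FarN 3 k1 (fl n (cel (N * n) a))) (n2 : ¬ FarN 3 k2 (fl n (cel (N * n) c)))
    (n3 : ¬ FarN 3 k3 (fl n (cel (N * n) b))) (n4 : ¬ FarN 3 k4 (fl n (cel (N * n) d))) :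
    ∃ w : Fin 4 → ℤ, Sp874.cl (N - 1) (w 0) = k1 ∧ Sp874.cl (N - 1) (w 1) = k2 ∧
      Sp874.cl (N - 1) (w 2) = k3 ∧ Sp874.cl (N - 1) (w 3) = k4 ∧ Gd (N - 1) g w := by
  obtain ⟨W1, p1, q1, r1⟩ := near_W hn hN h1 n1
  obtain ⟨W2, p2, q2, r2⟩ := near_W hn hN h2 n2
  obtain ⟨W3, p3, q3, r3⟩ := near_W hn hN h3 n3
  obtain ⟨W4, p4, q4, r4⟩ := near_W hn hN h4 n4
  have m1 := Wc_mono hn (by omega : 1 ≤ N) hac
  have m2 := Wc_mono hn (by omega : 1 ≤ N) hcb
  have m3 := Wc_mono hn (by omega : 1 ≤ N) hbd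
  have m4 := Wc_mono hn (by omega : 1 ≤ N) hda
  rw [Wc_add hn (by omega)] at m4
  refine ⟨![W1, W2, W3, W4], p1, p2, p3, p4, ?_⟩
  have e1 := far_dist (by omega : 0 ≤ N - 1) (w := W1) (w' := W2) (F := g) (by rw [p1, p2]; exact f12)
  have e2 := far_dist (by omega : 0 ≤ N - 1) (w := W2) (w' := W3) (F := g) (by rw [p2, p3]; exact f23)
  have e3 := far_dist (by omega : 0 ≤ N - 1) (w := W3) (w' := W4) (F := g) (by rw [p3, p4]; exact f34)
  have e4 := far_dist (by omega : 0 ≤ N - 1) (w := W4) (w' := W1 + 4 * (2 * (N - 1) + 1)) (F := g) (by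
    rw [p4, Sp874.cl_period (by omega : 0 ≤ N - 1), p1]; exact f41)
  refine ⟨?_, ?_, ?_, ?_⟩
  · show W1 + g ≤ W2
    omega
  · show W2 + g ≤ W3
    omega
  · show W3 + g ≤ W4
    omega
  · show W4 + g ≤ W1 + 4 * (2 * (N - 1) + 1)
    omega

/-- both cyclic orders -/
theorem order_both {n N g : ℤ} (hn : 1 ≤ n) (hN : 4 ≤ N) (hg : 15 ≤ g) {k1 k2 k3 k4 : P2}
    (h1 : nr k1 = N - 1) (h2 : nr k2 = N - 1) (h3 : nr k3 = N - 1) (h4 : nr k4 = N - 1)
    (f12 : FarN g k1 k2) (f23 : FarN g k2 k3) (f34 : FarN g k3 k4) (f41 : FarN g k4 k1)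
    {a b c d : ℤ} (hac : a ≤ c) (hca : c < a + 4 * (2 * (N * n) + 1)) (had : a ≤ d)
    (hda : d < a + 4 * (2 * (N * n) + 1)) (hs : (c < b ∧ b ≤ d) ∨ (d < b ∧ b ≤ c))
    (n1 : ¬ FarN 3 k1 (fl n (cel (N * n) a))) (n2 : ¬ FarN 3 k2 (fl n (cel (N * n) c)))
    (n3 : ¬ FarN 3 k3 (fl n (cel (N * n) b))) (n4 : ¬ FarN 3 k4 (fl n (cel (N * n) d))) :
    ∃ w : Fin 4 → ℤ, Sp874.cl (N - 1) (w 0) = k1 ∧ Sp874.cl (N - 1) (w 1) = k2 ∧
      Sp874.cl (N - 1) (w 2) = k3 ∧ Sp874.cl (N - 1) (w 3) = k4 ∧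
      (Gd (N - 1) g w ∨ Gd' (N - 1) g w) := by
  have hsym : ∀ {k k' : P2}, FarN g k k' → FarN g k' k := fun h => by unfold FarN at *; omega
  rcases hs with ⟨s1, s2⟩ | ⟨s1, s2⟩
  · obtain ⟨w, w1, w2, w3, w4, hw⟩ := order4 hn hN hg h1 h2 h3 h4 f12 f23 f34 f41 hac s1.le s2 hda.le
      n1 n2 n3 n4
    exact ⟨w, w1, w2, w3, w4, Or.inl hw⟩
  · obtain ⟨w, w1, w2, w3, w4, hw⟩ := order4 hn hN hg h1 h4 h3 h2 (hsym f41) (hsym f34) (hsym f23)
      (hsym f12) had s1.le s2 hca.le n1 n4 n3 n2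
    refine ⟨![w 0 + 4 * (2 * (N - 1) + 1), w 3, w 2, w 1], ?_, w4, w3, w2, Or.inr ?_⟩
    · show Sp874.cl (N - 1) (w 0 + 4 * (2 * (N - 1) + 1)) = k1
      rw [Sp874.cl_period (by omega : 0 ≤ N - 1), w1]
    · obtain ⟨g1, g2, g3, g4⟩ := hw
      refine ⟨?_, ?_, ?_, ?_⟩
      · show w 3 + g ≤ w 0 + 4 * (2 * (N - 1) + 1)
        omega
      · show w 2 + g ≤ w 3
        omega
      · show w 1 + g ≤ w 2
        omega
      · show w 0 + 4 * (2 * (N - 1) + 1) + g ≤ w 1 + 4 * (2 * (N - 1) + 1)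
        omega

end Crest.Agent.R158.Sr200
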