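import Crest.Agent.R158.Kd4_458
import Crest.Agent.R158.Ld2_570
import Crest.Agent.R158.Sq4_200
import Crest.Agent.R158.Qf5_808

-- ▼ part R158/Kd5_458
section

/-!
# Row 158 (helper458), SEP: the deterministic core, hole version

`L = Rect x0 x1 y0 y1`, hole `{v | sd c0 v < ρ}`, `So` = vertices of `L` outside the hole, `Fo` = inner faces of
`L` outside `Fi = [-ρ,ρ-1]² + c0`.

`core_hole` : `x`, `x'` on the circle `sd c0 · = ρ` (with a neighbour in the hole), joined in `So` to the boundary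
vertices `p`, `p'` of `L`, `p` not joined to `p'` in `So`.  On "good circle" the two open arms and two dual arms
can be chosen with separated landing points, each colour off the boxes around the landing points of the other.
-/

set_option autoImplicit false

noncomputable section

namespace Crest.Agent.R158.Kd458

open Crest.Agent.R161.Geo729 Crest.Agent.R161.Topo374 Crest.Agent.R161.Dual374
open Crest.Agent.R161.Tas682
open Crest.Agent.R158.Rs689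
open Crest.Agent.R158.Ru874 hiding An
open Crest.Agent.R158.Cpl963 Crest.Agent.R158.Sq200

/-- vertices of the rectangle outside the hole -/
def So (x0 x1 y0 y1 : ℤ) (c0 : P2) (ρ : ℤ) : Set P2 := Rect x0 x1 y0 y1 ∩ {v | ρ ≤ sd c0 v}

/-- faces inside the circle -/
def Fi (c0 : P2) (ρ : ℤ) : Set P2 := Rect (c0.1 - ρ) (c0.1 + ρ - 1) (c0.2 - ρ) (c0.2 + ρ - 1)

/-- inner faces of the rectangle outside the circle -/
def Fo (x0 x1 y0 y1 : ℤ) (c0 : P2) (ρ : ℤ) : Set P2 := Rect x0 (x1 - 1) y0 (y1 - 1) ∩ (Fi c0 ρ)ᶜ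

/-- faces next to the circle -/
def NearC (c0 : P2) (ρ : ℤ) (f : P2) : Prop := ∃ w, sd c0 w = ρ ∧ sd f w ≤ 1

theorem nbr_edge {a b : P2} (h : Nbr a b) : ∃ e : Edge, (a = src e ∧ b = tgt e) ∨ (a = tgt e ∧ b = src e) := by
  obtain ⟨i, j⟩ := a
  obtain ⟨k, l⟩ := b
  unfold Nbr at h
  simp only at h
  rcases h with ⟨h1, h2 | h2⟩ | ⟨h1, h2 | h2⟩
  · exact ⟨((i, j), false), Or.inl ⟨rfl, by simp [h1, h2]⟩⟩
  · exact ⟨((k, l), false), Or.inr ⟨by simp [h1, h2], rfl⟩⟩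
  · exact ⟨((i, j), true), Or.inl ⟨rfl, by simp [h1, h2]⟩⟩
  · exact ⟨((k, l), true), Or.inr ⟨by simp [h1, h2], rfl⟩⟩

theorem ball_conn (c0 : P2) (k : ℤ) : ∀ (n : ℕ) (v : P2), (v.1 - c0.1).natAbs + (v.2 - c0.2).natAbs = n →
    sd c0 v ≤ k → Relation.ReflTransGen (fun a b => Nbr a b ∧ sd c0 a ≤ k ∧ sd c0 b ≤ k) c0 v := by
  intro n
  induction n with
  | zero =>
      intro v h _
      have : v = c0 := by
        ext <;> omega
      rw [this]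
  | succ n ih =>
      intro v h hv
      rw [sd_le] at hv
      rcases lt_trichotomy v.1 c0.1 with h1 | h1 | h1
      · have h2 : sd c0 (v.1 + 1, v.2) ≤ k := by rw [sd_le]; simp only; omega
        exact (ih (v.1 + 1, v.2) (by simp only; omega) h2).tail
          ⟨by unfold Nbr; simp, h2, by rw [sd_le]; omega⟩
      · rcases lt_trichotomy v.2 c0.2 with h3 | h3 | h3
        · have h2 : sd c0 (v.1, v.2 + 1) ≤ k := by rw [sd_le]; simp only; omega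
          exact (ih (v.1, v.2 + 1) (by simp only; omega) h2).tail
            ⟨by unfold Nbr; simp, h2, by rw [sd_le]; omega⟩
        · omega
        · have h2 : sd c0 (v.1, v.2 - 1) ≤ k := by rw [sd_le]; simp only; omega
          exact (ih (v.1, v.2 - 1) (by simp only; omega) h2).tail
            ⟨by unfold Nbr; simp, h2, by rw [sd_le]; omega⟩
      · have h2 : sd c0 (v.1 - 1, v.2) ≤ k := by rw [sd_le]; simp only; omega
        exact (ih (v.1 - 1, v.2) (by simp only; omega) h2).tail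
          ⟨by unfold Nbr; simp, h2, by rw [sd_le]; omega⟩

theorem hole_faces {c0 : P2} {ρ : ℤ} {e : Edge} (h : sd c0 (src e) < ρ ∨ sd c0 (tgt e) < ρ) :
    fA e ∈ Fi c0 ρ ∧ fB e ∈ Fi c0 ρ := by
  obtain ⟨⟨i, j⟩, b⟩ := e
  have h' : sd c0 (src ((i, j), b)) ≤ ρ - 1 ∨ sd c0 (tgt ((i, j), b)) ≤ ρ - 1 := by omega
  rw [sd_le, sd_le] at h'
  cases b <;> simp only [Fi, mem_rect, src_mk, tgt_h, tgt_v, fA_mk, fB_h, fB_v] at * <;> omega

theorem corner_le {c0 : P2} {ρ : ℤ} {e : Edge} {g : P2} (hg : g ∈ Fi c0 ρ) (h : g = fA e ∨ g = fB e) :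
    sd c0 (src e) ≤ ρ ∧ sd c0 (tgt e) ≤ ρ := by
  obtain ⟨⟨i, j⟩, b⟩ := e
  rw [sd_le, sd_le]
  cases b <;> rcases h with rfl | rfl <;>
    simp only [Fi, mem_rect, src_mk, tgt_h, tgt_v, fA_mk, fB_h, fB_v] at * <;> omega

theorem corner_near {e : Edge} {g : P2} (h : g = fA e ∨ g = fB e) : sd g (src e) ≤ 1 := by
  obtain ⟨⟨i, j⟩, b⟩ := e
  rw [sd_le]
  cases b <;> rcases h with rfl | rfl <;>
    simp only [src_mk, fA_mk, fB_h, fB_v] at * <;> omega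

section rect

variable {x0 x1 y0 y1 : ℤ}

theorem in_rect {c0 : P2} {k : ℤ} (h1 : x0 + k ≤ c0.1) (h2 : c0.1 + k ≤ x1) (h3 : y0 + k ≤ c0.2)
    (h4 : c0.2 + k ≤ y1) {v : P2} (hv : sd c0 v ≤ k) : v ∈ Rect x0 x1 y0 y1 := by
  rw [sd_le] at hv
  rw [mem_rect]; omega

/-- joining two points of the circle through the hole -/
theorem through_hole {c0 : P2} {ρ : ℤ} (h1 : x0 + ρ ≤ c0.1) (h2 : c0.1 + ρ ≤ x1) (h3 : y0 + ρ ≤ c0.2)
    (h4 : c0.2 + ρ ≤ y1) {x : P2} (hx : sd c0 x = ρ) {q : P2} (hq : Nbr q x) (hq' : sd c0 q < ρ) :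
    Relation.ReflTransGen (PStep (fun e => IB x0 x1 y0 y1 e ∧ ¬ InE (So x0 x1 y0 y1 c0 ρ) e)) c0 x := by
  have hmem : ∀ {v : P2}, sd c0 v ≤ ρ → v ∈ Rect x0 x1 y0 y1 := fun hv => in_rect h1 h2 h3 h4 hv
  have hst : ∀ {a b : P2}, Nbr a b → sd c0 a < ρ → sd c0 b ≤ ρ →
      PStep (fun e => IB x0 x1 y0 y1 e ∧ ¬ InE (So x0 x1 y0 y1 c0 ρ) e) a b := by
    intro a b hab ha hb
    obtain ⟨e, he⟩ := nbr_edge hab
    refine ⟨e, ⟨?_, ?_⟩, he⟩
    · have ha' := hmem (show sd c0 a ≤ ρ by omega)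
      have hb' := hmem hb
      rcases he with ⟨rfl, rfl⟩ | ⟨rfl, rfl⟩
      · exact ⟨ha', hb'⟩
      · exact ⟨hb', ha'⟩
    · rintro ⟨h5, h6⟩
      have h5' : ρ ≤ sd c0 (src e) := h5.2
      have h6' : ρ ≤ sd c0 (tgt e) := h6.2
      rcases he with ⟨rfl, rfl⟩ | ⟨rfl, rfl⟩ <;> omega
  have hc := ball_conn c0 (ρ - 1) _ q rfl (by omega)
  refine (rtg_congr ?_ hc).tail (hst hq hq' (by omega))
  rintro a b ⟨hab, ha, hb⟩
  exact hst hab (by omega) (by omega)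

/-- the circle is good: primal at the scales `(s1,b)`, `(s,c)`, `(t,r)`, dual at `(t1,b)` -/
structure GoodH (z : Cf) (x0 x1 y0 y1 : ℤ) (c0 : P2) (ρ t r t1 s c s1 b : ℤ) : Prop where
  g1 : ∀ w, sd c0 w = ρ → Gd z (So x0 x1 y0 y1 c0 ρ) w s1 b
  g2 : ∀ w, sd c0 w = ρ → Gd z (So x0 x1 y0 y1 c0 ρ) w s c
  g3 : ∀ w, sd c0 w = ρ → Gd z (So x0 x1 y0 y1 c0 ρ) w t r
  g4 : ∀ f ∈ Fo x0 x1 y0 y1 c0 ρ, NearC c0 ρ f → Gd (dual z) (Fo x0 x1 y0 y1 c0 ρ) f t1 b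

/-- one dual arm of the hole, in the inner faces outside the circle -/
theorem hole_arm {z z' : Cf} {c0 : P2} {ρ s : ℤ} {x x' : P2}
    (hz' : ∀ e', z' e' = false → z e' = false ∧ ¬ NB x s e' ∧ ¬ NB x' s e')
    {f f0 : P2} (hf : f ∉ Rect x0 (x1 - 1) y0 (y1 - 1)) (hfi : f ∉ Fi c0 ρ) (hf0 : f0 ∈ Fi c0 ρ)
    (hsub : ∀ v, v ∈ Fi c0 (ρ + 1) → v ∈ Rect x0 (x1 - 1) y0 (y1 - 1))
    (h : Relation.ReflTransGen (DStep (fun e => z' e = false ∧ InE (So x0 x1 y0 y1 c0 ρ) e)) f f0) :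
    ∃ w y g f', sd c0 w = ρ ∧ sd y w ≤ 1 ∧ y ∈ Fo x0 x1 y0 y1 c0 ρ ∧ y ∈ Fi c0 (ρ + 1) ∧
      g ∈ Rect x0 (x1 - 1) y0 (y1 - 1) ∧ BdV x0 (x1 - 1) y0 (y1 - 1) g ∧
      RingF x0 x1 y0 y1 f' ∧
      OC (dual z) (Fo x0 x1 y0 y1 c0 ρ ∩ {v | s ≤ sd x v} ∩ {v | s ≤ sd x' v}) y g ∧
      DStep (fun e => z e = false ∧ InE (So x0 x1 y0 y1 c0 ρ) e) g f' ∧
      Relation.ReflTransGen (DStep (fun e => z e = false ∧ InE (So x0 x1 y0 y1 c0 ρ) e)) f f' := by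
  -- first entrance into the circle
  obtain ⟨y, y', h1, hy, hy', hst⟩ := first_exit (D := fun v => v ∉ Fi c0 ρ) h hfi (by simpa using hf0)
  have hy'' : y' ∈ Fi c0 ρ := by simpa using hy'
  obtain ⟨e3, ⟨h3a, h3b⟩, h3c⟩ := hst
  have hyf : y = fA e3 ∨ y = fB e3 := by rcases h3c with ⟨h4, _⟩ | ⟨h4, _⟩ <;> simp [h4]
  have hyf' : y' = fA e3 ∨ y' = fB e3 := by rcases h3c with ⟨_, h4⟩ | ⟨_, h4⟩ <;> simp [h4]
  have hc1 := corner_le hy'' hyf'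
  have hw : sd c0 (src e3) = ρ := le_antisymm hc1.1 h3b.1.2
  have hn := corner_near hyf
  have hyF : y ∈ Fi c0 (ρ + 1) := by
    have h5 : sd c0 (src e3) ≤ ρ := hw.le
    rw [sd_le] at h5 hn
    simp only [Fi, mem_rect]
    have h6 : y'.1 = y.1 ∧ (y'.2 = y.2 + 1 ∨ y'.2 = y.2 - 1) ∨ y'.2 = y.2 ∧ (y'.1 = y.1 + 1 ∨ y'.1 = y.1 - 1) := by
      obtain ⟨⟨i, j⟩, b⟩ := e3
      cases b <;> rcases h3c with ⟨rfl, rfl⟩ | ⟨rfl, rfl⟩ <;> simp
    simp only [Fi, mem_rect] at hy''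
    omega
  have hyR : y ∈ Rect x0 (x1 - 1) y0 (y1 - 1) := hsub y hyF
  -- from `y` back to `f` : first exit from the inner faces outside the circle
  have hrev : Relation.ReflTransGen (fun u v => DStep (fun e => z' e = false ∧ InE (So x0 x1 y0 y1 c0 ρ) e) u v ∧
      u ∉ Fi c0 ρ ∧ v ∉ Fi c0 ρ) y f := by
    clear hyR hyF hn hw hc1 hyf hyf' h3c h3a h3b hy''
    induction h1 with
    | refl => exact .refl
    | @tail a b hh hs ih => exact Relation.ReflTransGen.head ⟨hs.1.symm, hs.2.2, hs.2.1⟩ (ih hs.2.1)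
  obtain ⟨g, f', h5, hg, hf', hgf⟩ := first_exit (D := fun v => v ∈ Rect x0 (x1 - 1) y0 (y1 - 1)) hrev hyR hf
  obtain ⟨⟨e4, ⟨h6a, h6b⟩, h6c⟩, hgF, hfF⟩ := hgf
  have hcl : ∀ {u v : P2}, DStep (fun e => z' e = false ∧ InE (So x0 x1 y0 y1 c0 ρ) e) u v →
      DStep (fun e => z e = false ∧ InE (So x0 x1 y0 y1 c0 ρ) e) u v := by
    rintro u v ⟨e5, ⟨h7, h8⟩, h9⟩
    exact ⟨e5, ⟨(hz' e5 h7).1, h8⟩, h9⟩
  have hfar : ∀ {u v : P2}, DStep (fun e => z' e = false ∧ InE (So x0 x1 y0 y1 c0 ρ) e) u v →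
      (s ≤ sd x u ∧ s ≤ sd x' u) ∧ (s ≤ sd x v ∧ s ≤ sd x' v) := by
    rintro u v ⟨e5, ⟨h7, _⟩, h9⟩
    have h10 := hz' e5 h7
    have a1 := face_far h10.2.1
    have a2 := face_far h10.2.2
    rcases h9 with ⟨rfl, rfl⟩ | ⟨rfl, rfl⟩
    · exact ⟨⟨a1.1, a2.1⟩, a1.2, a2.2⟩
    · exact ⟨⟨a1.2, a2.2⟩, a1.1, a2.1⟩
  have hyfar := (hfar ⟨e3, ⟨h3a, h3b⟩, h3c⟩).1
  refine ⟨src e3, y, g, f', hw, hn, ⟨hyR, hy⟩, hyF, hg, bd_face h6c hg hf', ?_, ?_, hcl ⟨e4, ⟨h6a, h6b⟩, h6c⟩, ?_⟩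
  · -- ring face
    have hI : IB x0 x1 y0 y1 e4 := ⟨h6b.1.1, h6b.2.1⟩
    obtain ⟨⟨i, j⟩, b⟩ := e4
    rw [mem_rect] at hg hf'
    cases b <;> rcases h6c with ⟨rfl, rfl⟩ | ⟨rfl, rfl⟩ <;>
      simp only [IB, RingF, src_mk, tgt_h, tgt_v, fA_mk, fB_h, fB_v] at * <;> omega
  · refine ⟨⟨⟨⟨hyR, hy⟩, hyfar.1⟩, hyfar.2⟩, rtg_congr ?_ h5⟩
    rintro a b ⟨⟨hs, haF, hbF⟩, haR, hbR⟩
    have hff := hfar hs
    obtain ⟨e5, ⟨h7, _⟩, h9⟩ := hs
    refine ⟨dstep_dual.1 ⟨e5, ?_, h9⟩, ⟨⟨⟨haR, haF⟩, hff.1.1⟩, hff.1.2⟩, ⟨⟨⟨hbR, hbF⟩, hff.2.1⟩, hff.2.2⟩⟩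
    show ¬ z e5 = true
    rw [(hz' e5 h7).1]; simp
  · have h8 : Relation.ReflTransGen (DStep (fun e => z e = false ∧ InE (So x0 x1 y0 y1 c0 ρ) e)) f y :=
      rtg_congr (fun a b hh => hcl hh.1) h1
    have h9 : Relation.ReflTransGen (DStep (fun e => z e = false ∧ InE (So x0 x1 y0 y1 c0 ρ) e)) y g :=
      rtg_congr (fun a b hh => hcl hh.1.1) h5
    exact (h8.trans h9).tail (hcl ⟨e4, ⟨h6a, h6b⟩, h6c⟩)

/-- a dual step between inner faces outside the circle crosses an edge outside the hole -/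
theorem fo_step {z : Cf} {c0 : P2} {ρ : ℤ} {a b : P2} (h : OStep (dual z) (Fo x0 x1 y0 y1 c0 ρ) a b) :
    DStep (fun e => z e = false ∧ InE (So x0 x1 y0 y1 c0 ρ) e) a b := by
  obtain ⟨h1, ha, hb⟩ := h
  obtain ⟨e, he, h2⟩ := dstep_dual.2 h1
  refine ⟨e, ⟨by simpa using he, ?_⟩, h2⟩
  have h3 : ¬ (sd c0 (src e) < ρ ∨ sd c0 (tgt e) < ρ) := by
    intro h4
    have h5 := hole_faces h4
    rcases h2 with ⟨rfl, rfl⟩ | ⟨rfl, rfl⟩
    · exact ha.2 h5.1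
    · exact ha.2 h5.2
  push Not at h3
  have hR : src e ∈ Rect x0 x1 y0 y1 ∧ tgt e ∈ Rect x0 x1 y0 y1 := by
    have ha' := ha.1
    have hb' := hb.1
    rw [mem_rect] at ha' hb'
    rw [mem_rect, mem_rect]
    obtain ⟨⟨i, j⟩, c⟩ := e
    cases c <;> rcases h2 with ⟨rfl, rfl⟩ | ⟨rfl, rfl⟩ <;>
      simp only [src_mk, tgt_h, tgt_v, fA_mk, fB_h, fB_v] at * <;> omega
  exact ⟨⟨hR.1, h3.1⟩, ⟨hR.2, h3.2⟩⟩

/-- an open path of `So` as a path of primal steps of the rectangle -/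
theorem oc_step {z : Cf} {c0 : P2} {ρ : ℤ} {a b : P2} (h : OC z (So x0 x1 y0 y1 c0 ρ) a b) :
    Relation.ReflTransGen (PStep (fun e => z e = true ∧ InE (So x0 x1 y0 y1 c0 ρ) e)) a b := by
  refine rtg_congr ?_ h.2
  rintro u v ⟨⟨e, h1, h2⟩, hu, hv⟩
  refine ⟨e, ⟨h1, ?_⟩, h2⟩
  rcases h2 with ⟨rfl, rfl⟩ | ⟨rfl, rfl⟩
  · exact ⟨hu, hv⟩
  · exact ⟨hv, hu⟩

theorem step_oc {z : Cf} {c0 : P2} {ρ : ℤ} {a b : P2} (ha : a ∈ So x0 x1 y0 y1 c0 ρ)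
    (h : Relation.ReflTransGen (PStep (fun e => z e = true ∧ InE (So x0 x1 y0 y1 c0 ρ) e)) a b) :
    OC z (So x0 x1 y0 y1 c0 ρ) a b := by
  refine ⟨ha, rtg_congr ?_ h⟩
  rintro u v ⟨e, ⟨h1, h3⟩, h2⟩
  refine ⟨⟨e, h1, h2⟩, ?_⟩
  rcases h2 with ⟨rfl, rfl⟩ | ⟨rfl, rfl⟩
  · exact ⟨h3.1, h3.2⟩
  · exact ⟨h3.2, h3.1⟩

/-- **Deterministic core of the separation of arms (hole version).** -/
theorem core_hole {z : Cf} {c0 : P2} {ρ : ℤ} {t r t1 s c s1 b : ℤ}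
    (m1 : x0 + ρ + b + 2 ≤ c0.1) (m2 : c0.1 + ρ + b + 2 ≤ x1) (m3 : y0 + ρ + b + 2 ≤ c0.2)
    (m4 : c0.2 + ρ + b + 2 ≤ y1)
    (ht : 0 ≤ t) (htr : t ≤ r) (hrt : t + r + 1 ≤ t1) (ht1b : t1 ≤ b) (hrs : r + 1 ≤ s)
    (hsc : s ≤ c) (hcs : s + c ≤ s1) (hs1b : s1 ≤ b)
    {x x' : P2} (hx : sd c0 x = ρ) (hx' : sd c0 x' = ρ)
    {q q' : P2} (hq : Nbr q x) (hqh : sd c0 q < ρ) (hq' : Nbr q' x') (hqh' : sd c0 q' < ρ)
    {p p' : P2} {e e' : Edge} (hp : Out x0 x1 y0 y1 e p) (hp' : Out x0 x1 y0 y1 e' p')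
    {F : P2 → ZMod 2} (hF : IsCol x0 x1 y0 y1 e e' F)
    (h1 : OC z (So x0 x1 y0 y1 c0 ρ) x p) (h2 : OC z (So x0 x1 y0 y1 c0 ρ) x' p')
    (hn : ¬ OC z (So x0 x1 y0 y1 c0 ρ) p p')
    (hG : GoodH z x0 x1 y0 y1 c0 ρ t r t1 s c s1 b) :
    s1 < sd x x' ∧ ∃ y y' w w' g g' f f', sd c0 w = ρ ∧ sd y w ≤ 1 ∧ sd c0 w' = ρ ∧ sd y' w' ≤ 1 ∧
      y ∈ Fo x0 x1 y0 y1 c0 ρ ∧ y ∈ Fi c0 (ρ + 1) ∧ y' ∈ Fo x0 x1 y0 y1 c0 ρ ∧ y' ∈ Fi c0 (ρ + 1) ∧
      g ∈ Rect x0 (x1 - 1) y0 (y1 - 1) ∧ BdV x0 (x1 - 1) y0 (y1 - 1) g ∧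
      g' ∈ Rect x0 (x1 - 1) y0 (y1 - 1) ∧ BdV x0 (x1 - 1) y0 (y1 - 1) g' ∧
      RingF x0 x1 y0 y1 f ∧ RingF x0 x1 y0 y1 f' ∧ F f = 1 ∧ F f' = 0 ∧ t1 < sd y y' ∧
      DStep (fun e => z e = false ∧ InE (So x0 x1 y0 y1 c0 ρ) e) g f ∧
      DStep (fun e => z e = false ∧ InE (So x0 x1 y0 y1 c0 ρ) e) g' f' ∧
      OC (dual z) (Fo x0 x1 y0 y1 c0 ρ ∩ {v | s ≤ sd x v} ∩ {v | s ≤ sd x' v}) y g ∧
      OC (dual z) (Fo x0 x1 y0 y1 c0 ρ ∩ {v | s ≤ sd x v} ∩ {v | s ≤ sd x' v}) y' g' ∧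
      OC z (So x0 x1 y0 y1 c0 ρ ∩ {v | t ≤ sd w v} ∩ {v | t ≤ sd w' v}) x p ∧
      OC z (So x0 x1 y0 y1 c0 ρ ∩ {v | t ≤ sd w v} ∩ {v | t ≤ sd w' v}) x' p' := by
  classical
  have hρ : 0 ≤ ρ := by rw [← hx]; exact sd_nonneg _ _
  have hxx : x0 ≤ x1 := by omega
  have hyy : y0 ≤ y1 := by omega
  have hb0 : 0 ≤ b := by omega
  have hs0 : 0 ≤ s := by omega
  -- the boundary is far
  have far : ∀ {v : P2}, BdV x0 x1 y0 y1 v → ρ + b + 2 ≤ sd c0 v := by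
    intro v hv
    by_contra h3
    have h4 : sd c0 v ≤ ρ + b + 1 := by omega
    rw [sd_le] at h4
    rcases hv with h | h | h | h <;> omega
  have farf : ∀ {v : P2}, BdV x0 (x1 - 1) y0 (y1 - 1) v → ρ + b + 1 ≤ sd c0 v := by
    intro v hv
    by_contra h3
    have h4 : sd c0 v ≤ ρ + b := by omega
    rw [sd_le] at h4
    rcases hv with h | h | h | h <;> omega
  have outbd : ∀ {e v}, Out x0 x1 y0 y1 e v → BdV x0 x1 y0 y1 v := by
    intro e v h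
    unfold BdV
    rcases h with ⟨_, _, ⟨_, h⟩ | ⟨_, h⟩⟩ | ⟨_, _, ⟨_, h⟩ | ⟨_, h⟩⟩ <;> simp [h]
  have hbp := far (outbd hp)
  have hbp' := far (outbd hp')
  have dist : ∀ {u v : P2}, sd c0 v - sd c0 u ≤ sd u v := by
    intro u v
    have := sd_tri c0 u v
    omega
  have xp := dist (u := x) (v := p)
  have xp' := dist (u := x) (v := p')
  have x'p := dist (u := x') (v := p)
  have x'p' := dist (u := x') (v := p')
  -- (1)
  have hsep : s1 < sd x x' := sepA1 h1 h2 hn (by omega) hs1b (by omega) (by omega) (hG.g1 x hx)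
  -- (2)
  set z' : Cf := fun e' => decide (z e' = true ∨ NB x s e' ∨ NB x' s e') with hz'
  have hz't : ∀ e', z' e' = true ↔ (z e' = true ∨ NB x s e' ∨ NB x' s e') := by
    intro e'; simp [hz']
  have hn' : ¬ OC z' (So x0 x1 y0 y1 c0 ρ) p p' := by
    apply sepA2 (z := z) (s := s) (c := c) h1 h2 hn hs0 hsc (by omega) (by omega) (by omega)
      (by omega) (by omega) (hG.g2 x hx) (hG.g2 x' hx')
    intro e' h
    exact (hz't e').1 h
  have hz'f : ∀ e', z' e' = false → z e' = false ∧ ¬ NB x s e' ∧ ¬ NB x' s e' := by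
    intro e' h
    have h3 : ¬ (z e' = true ∨ NB x s e' ∨ NB x' s e') := by
      intro h4
      rw [(hz't e').2 h4] at h
      exact absurd h (by simp)
    push Not at h3
    exact ⟨by simpa using h3.1, h3.2⟩
  -- (3)
  have inS : ∀ {e}, InE (So x0 x1 y0 y1 c0 ρ) e → IB x0 x1 y0 y1 e := fun h => ⟨h.1.1, h.2.1⟩
  have th1 := through_hole (x0 := x0) (x1 := x1) (y0 := y0) (y1 := y1) (by omega) (by omega) (by omega) (by omega)
    hx hq hqh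
  have th2 := through_hole (x0 := x0) (x1 := x1) (y0 := y0) (y1 := y1) (by omega) (by omega) (by omega) (by omega)
    hx' hq' hqh'
  have hP : Relation.ReflTransGen (PStep (fun e => (z' e = true ∨
      (IB x0 x1 y0 y1 e ∧ ¬ InE (So x0 x1 y0 y1 c0 ρ) e)) ∧ IB x0 x1 y0 y1 e)) p p' := by
    refine ((pstep_mono' ?_ (oc_step h1.symm)).trans ((pstep_mono' ?_ (rtg_pstep_symm th1)).trans
      (pstep_mono' ?_ th2))).trans (pstep_mono' ?_ (oc_step h2))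
    · rintro e ⟨h3, h4⟩
      exact ⟨Or.inl ((hz't e).2 (Or.inl h3)), inS h4⟩
    · rintro e h3
      exact ⟨Or.inr h3, h3.1⟩
    · rintro e h3
      exact ⟨Or.inr h3, h3.1⟩
    · rintro e ⟨h3, h4⟩
      exact ⟨Or.inl ((hz't e).2 (Or.inl h3)), inS h4⟩
  have hne : ¬ Relation.ReflTransGen (PStep (fun e => (z' e = true ∧
      ¬ (IB x0 x1 y0 y1 e ∧ ¬ InE (So x0 x1 y0 y1 c0 ρ) e)) ∧ IB x0 x1 y0 y1 e)) p p' := by
    intro h
    apply hn'
    apply step_oc h1.right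
    refine pstep_mono' ?_ h
    rintro e ⟨⟨h3, h4⟩, h5⟩
    refine ⟨h3, ?_⟩
    by_contra h6
    exact h4 ⟨h5, h6⟩
  obtain ⟨f, g, e1, e2, f0, g0, hf, hg, hf1, hg0, he1, he2, hf0, hg0', hDf, hDg⟩ :=
    hole4 hxx hyy hp hp' hF (fun e h => h.1) hP hne
  have conv : ∀ {u v : P2}, Relation.ReflTransGen (DStep (fun e => (¬ z' e = true ∧
      ¬ (IB x0 x1 y0 y1 e ∧ ¬ InE (So x0 x1 y0 y1 c0 ρ) e)) ∧ IB x0 x1 y0 y1 e)) u v →
      Relation.ReflTransGen (DStep (fun e => z' e = false ∧ InE (So x0 x1 y0 y1 c0 ρ) e)) u v := by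
    intro u v h
    refine dstep_mono' ?_ h
    rintro e ⟨⟨h3, h4⟩, h5⟩
    refine ⟨by simpa using h3, ?_⟩
    by_contra h6
    exact h4 ⟨h5, h6⟩
  have inFi : ∀ {e : Edge} {g : P2}, (IB x0 x1 y0 y1 e ∧ ¬ InE (So x0 x1 y0 y1 c0 ρ) e) →
      (g = fA e ∨ g = fB e) → g ∈ Fi c0 ρ := by
    rintro e g ⟨h3, h4⟩ h5
    have h6 : sd c0 (src e) < ρ ∨ sd c0 (tgt e) < ρ := by
      by_contra h7
      push Not at h7
      exact h4 ⟨⟨h3.1, h7.1⟩, ⟨h3.2, h7.2⟩⟩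
    have h7 := hole_faces h6
    rcases h5 with rfl | rfl
    · exact h7.1
    · exact h7.2
  have ringR : ∀ {f : P2}, RingF x0 x1 y0 y1 f → f ∉ Rect x0 (x1 - 1) y0 (y1 - 1) := by
    intro f hf h3
    rw [mem_rect] at h3
    rcases hf.2 with h4 | h4 | h4 | h4 <;> omega
  have ringF : ∀ {f : P2}, RingF x0 x1 y0 y1 f → f ∉ Fi c0 ρ := by
    intro f hf h3
    simp only [Fi, mem_rect] at h3
    rcases hf.2 with h4 | h4 | h4 | h4 <;> omega
  have hsubF : ∀ v, v ∈ Fi c0 (ρ + 1) → v ∈ Rect x0 (x1 - 1) y0 (y1 - 1) := by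
    intro v hv
    simp only [Fi, mem_rect] at *
    omega
  obtain ⟨w, y, gg, ff, a1, a2, a3, a4, a5, a6, a7, a8, a9, a10⟩ := hole_arm hz'f (ringR hf) (ringF hf)
    (inFi he1 hf0) hsubF (conv hDf)
  obtain ⟨w', y', gg', ff', b1, b2, b3, b4, b5, b6, b7, b8, b9, b10⟩ := hole_arm hz'f (ringR hg) (ringF hg)
    (inFi he2 hg0') hsubF (conv (rtg_dstep_symm hDg))
  -- primal connection through the hole and dual paths outside
  have hPz : Relation.ReflTransGen (PStep (fun e => (z e = true ∨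
      (IB x0 x1 y0 y1 e ∧ ¬ InE (So x0 x1 y0 y1 c0 ρ) e)) ∧ IB x0 x1 y0 y1 e)) p p' := by
    refine ((pstep_mono' ?_ (oc_step h1.symm)).trans ((pstep_mono' ?_ (rtg_pstep_symm th1)).trans
      (pstep_mono' ?_ th2))).trans (pstep_mono' ?_ (oc_step h2))
    · rintro e ⟨h3, h4⟩
      exact ⟨Or.inl h3, inS h4⟩
    · rintro e h3
      exact ⟨Or.inr h3, h3.1⟩
    · rintro e h3
      exact ⟨Or.inr h3, h3.1⟩
    · rintro e ⟨h3, h4⟩
      exact ⟨Or.inl h3, inS h4⟩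
  have nob : ∀ {u v : P2}, RingF x0 x1 y0 y1 u → RingF x0 x1 y0 y1 v →
      Relation.ReflTransGen (DStep (fun e => z e = false ∧ InE (So x0 x1 y0 y1 c0 ρ) e)) u v → F u = F v := by
    intro u v hu hv h
    refine no_both hxx hyy hp hp' hF (O := fun e => z e = true ∨
      (IB x0 x1 y0 y1 e ∧ ¬ InE (So x0 x1 y0 y1 c0 ρ) e))
      (C := fun e => z e = false ∧ InE (So x0 x1 y0 y1 c0 ρ) e) ?_ hPz hu hv (dstep_mono' ?_ h)
    · rintro e _ (h3 | h3) ⟨h4, h5⟩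
      · rw [h4] at h3; exact absurd h3 (by simp)
      · exact h3.2 h5
    · rintro e h3
      exact ⟨h3, inS h3.2⟩
  have hff1 : F ff = 1 := by rw [← nob hf a7 a10]; exact hf1
  have hff0 : F ff' = 0 := by rw [← nob hg b7 b10]; exact hg0
  have cvt : ∀ {u v : P2}, OC (dual z) (Fo x0 x1 y0 y1 c0 ρ) u v →
      Relation.ReflTransGen (DStep (fun e => z e = false ∧ InE (So x0 x1 y0 y1 c0 ρ) e)) u v :=
    fun h => rtg_congr (fun a b hh => fo_step hh) h.2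
  have hsub : Fo x0 x1 y0 y1 c0 ρ ∩ {v | s ≤ sd x v} ∩ {v | s ≤ sd x' v} ⊆ Fo x0 x1 y0 y1 c0 ρ :=
    fun v hv => hv.1.1
  have hnd : ¬ OC (dual z) (Fo x0 x1 y0 y1 c0 ρ) gg gg' := by
    intro h
    have h3 := nob a7 b7 (Relation.ReflTransGen.head a9.symm ((cvt h).tail b9))
    rw [hff1, hff0] at h3
    exact absurd h3 (by decide)
  -- distances
  have hy1 : sd c0 y ≤ ρ + 1 := by
    have h3 := sd_tri c0 w y
    rw [sd_symm w y] at h3
    omega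
  have hy1' : sd c0 y' ≤ ρ + 1 := by
    have h3 := sd_tri c0 w' y'
    rw [sd_symm w' y'] at h3
    omega
  have dg := farf a6
  have dg' := farf b6
  have d1 := dist (u := y) (v := gg)
  have d2 := dist (u := y) (v := gg')
  have htt : t1 < sd y y' := sepA1 (a8.monoS hsub) (b8.monoS hsub) hnd (by omega) ht1b (by omega) (by omega)
    (hG.g4 y a3 ⟨w, a1, a2⟩)
  have hxy : s ≤ sd x y := a8.left.1.2
  have hx'y : s ≤ sd x' y := a8.left.2
  have hxy' : s ≤ sd x y' := b8.left.1.2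
  have hx'y' : s ≤ sd x' y' := b8.left.2
  have q1 : r ≤ sd w x := by
    have h3 := sd_tri x w y
    rw [sd_symm x w, sd_symm w y] at h3
    omega
  have q2 : r ≤ sd w x' := by
    have h3 := sd_tri x' w y
    rw [sd_symm x' w, sd_symm w y] at h3
    omega
  have q3 : r ≤ sd w' x := by
    have h3 := sd_tri x w' y'
    rw [sd_symm x w', sd_symm w' y'] at h3
    omega
  have q4 : r ≤ sd w' x' := by
    have h3 := sd_tri x' w' y'
    rw [sd_symm x' w', sd_symm w' y'] at h3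
    omega
  have q5 : t + r ≤ sd w w' := by
    have h3 := sd_tri y w y'
    have h4 := sd_tri w w' y'
    rw [sd_symm w' y'] at h4
    omega
  have p1 := dist (u := w) (v := p)
  have p2 := dist (u := w) (v := p')
  have p3 := dist (u := w') (v := p)
  have p4 := dist (u := w') (v := p')
  refine ⟨hsep, y, y', w, w', gg, gg', ff, ff', a1, a2, b1, b2, a3, a4, b3, b4, a5, a6, b5, b6, a7, b7, hff1, hff0,
    htt, a9, b9, a8, b8, ?_, ?_⟩
  · exact reroute2 htr q5 (hG.g3 w a1) (hG.g3 w' b1) h1 q1 (by omega) q3 (by omega)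
  · exact reroute2 htr q5 (hG.g3 w a1) (hG.g3 w' b1) h2 q2 (by omega) q4 (by omega)

end rect

end Crest.Agent.R158.Kd458
end
end

-- ▼ part R158/Kd6_458
section

/-!
# Row 158 (helper458), SEP: the two instances of `core_hole`

* `core_T2`  : two distinct open clusters cross the annulus `An c0 k l` (`ρ = k + 1`, `L` = ball of radius `l`)
* `core_piv` : the block of the edges in `B(c0, r0)` is pivotal for the left-right crossing of
  `Rect x0 x1 y0 y1` (`ρ = r0 + 1`)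
-/

set_option autoImplicit false

noncomputable section

namespace Crest.Agent.R158.Kd458

open Crest.Agent.R161.Geo729 Crest.Agent.R161.Topo374 Crest.Agent.R161.Dual374
open Crest.Agent.R161.Tas682
open Crest.Agent.R158.Rs689
open Crest.Agent.R158.Ru874 hiding An
open Crest.Agent.R158.Cpl963 Crest.Agent.R158.Sq200

theorem nbr_far {c a b : P2} {ρ : ℤ} (h : Nbr a b) (ha : sd c a < ρ) (hb : ρ ≤ sd c b) : sd c b = ρ := by
  have := sd_nbr c a b h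
  omega

/-- change of configuration in `Gd` -/
theorem gd_of_far {z z' : Cf} {S : Set P2} {x : P2} {a b : ℤ}
    (h : ∀ e, sd x (src e) ≤ b → sd x (tgt e) ≤ b → z e = z' e) (hG : Gd z S x a b) : Gd z' S x a b :=
  gd_congr (fun e h1 h2 => h e h1.2.2 h2.2.2) hG

section rect

variable {x0 x1 y0 y1 : ℤ}

/-- lower ring faces, upper ring faces: the colouring of a left-right pair -/
def lrF (x0 x1 y1 : ℤ) (p p' : P2) (f : P2) : ZMod 2 :=
  ind ((f.1 ≤ x0 - 1 ∧ p.2 ≤ f.2) ∨ (x1 ≤ f.1 ∧ p'.2 ≤ f.2) ∨ (x0 ≤ f.1 ∧ f.1 < x1 ∧ y1 ≤ f.2))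

theorem lrF_col (hx : x0 < x1) {p p' : P2} (hp : p ∈ Rect x0 x1 y0 y1)
    (hp' : p' ∈ Rect x0 x1 y0 y1) :
    IsCol x0 x1 y0 y1 ((x0 - 1, p.2), false) ((x1, p'.2), false) (lrF x0 x1 y1 p p') := by
  have one : ∀ q : Prop, q → ind q = 1 := fun q h => ind_true h
  have zero : ∀ q : Prop, ¬ q → ind q = 0 := fun q h => ind_false h
  rw [mem_rect] at hp hp'
  intro e v he
  unfold lrF dl
  rcases he with ⟨h1, h2, ⟨rfl, h3⟩ | ⟨rfl, h3⟩⟩ | ⟨h1, h2, ⟨rfl, h3⟩ | ⟨rfl, h3⟩⟩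
  · simp only [fA_mk, fB_h]
    rw [zero ((((x0 - 1, v.2), false) : Edge) = ((x1, p'.2), false)) (by
      simp only [Prod.mk.injEq]; omega), add_zero]
    rcases lt_trichotomy v.2 p.2 with h | h | h
    · rw [zero _ (by omega), zero _ (by omega), zero _ (by simp only [Prod.mk.injEq]; omega), add_zero]
    · rw [one _ (by omega), zero _ (by omega), one _ (by simp only [Prod.mk.injEq]; simp [h]), add_zero]
    · rw [one _ (by omega), one _ (by omega), zero _ (by simp only [Prod.mk.injEq]; omega)]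
      decide
  · simp only [fA_mk, fB_h]
    rw [zero ((((x1, v.2), false) : Edge) = ((x0 - 1, p.2), false)) (by
      simp only [Prod.mk.injEq]; omega), zero_add]
    rcases lt_trichotomy v.2 p'.2 with h | h | h
    · rw [zero _ (by omega), zero _ (by omega), zero _ (by simp only [Prod.mk.injEq]; omega), add_zero]
    · rw [one _ (by omega), zero _ (by omega), one _ (by simp only [Prod.mk.injEq]; simp [h]), add_zero]
    · rw [one _ (by omega), one _ (by omega), zero _ (by simp only [Prod.mk.injEq]; omega)]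
      decide
  · simp only [fA_mk, fB_v]
    rw [zero ((((v.1, y0 - 1), true) : Edge) = ((x0 - 1, p.2), false)) (by simp),
      zero ((((v.1, y0 - 1), true) : Edge) = ((x1, p'.2), false)) (by simp), add_zero,
      zero _ (by omega), zero _ (by omega), add_zero]
  · simp only [fA_mk, fB_v]
    rw [zero ((((v.1, y1), true) : Edge) = ((x0 - 1, p.2), false)) (by simp),
      zero ((((v.1, y1), true) : Edge) = ((x1, p'.2), false)) (by simp), add_zero,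
      one _ (by omega), one _ (by omega)]
    decide

/-- the dual arm up to a ring face -/
theorem to_ring {z : Cf} {E : Edge → Prop} {D D' : Set P2} {y g f : P2}
    (h : OC (dual z) D y g) (h2 : DStep (fun e => z e = false ∧ E e) g f)
    (hf : f ∈ D') (hsub : D ⊆ D') : OC (dual z) D' y f := by
  refine (h.monoS hsub).trans ⟨hsub h.right, .single ⟨dstep_dual.1 ?_, hsub h.right, hf⟩⟩
  obtain ⟨e, he, hh⟩ := h2
  refine ⟨e, ?_, hh⟩
  show ¬ z e = true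
  rw [he.1]; simp

/-- arms of a pivotal block -/
theorem piv_arms {z : Cf} {c0 : P2} {r0 : ℤ} (m1 : x0 + r0 + 1 ≤ c0.1) (m2 : c0.1 + r0 + 1 ≤ x1)
    (hz : z ∈ Ld570.BPiv c0 r0 {z | LRc z x0 x1 y0 y1}) :
    (∃ x q p x' q' p', Nbr q x ∧ sd c0 q < r0 + 1 ∧ sd c0 x = r0 + 1 ∧ Nbr q' x' ∧ sd c0 q' < r0 + 1 ∧
      sd c0 x' = r0 + 1 ∧ OC z (So x0 x1 y0 y1 c0 (r0 + 1)) x p ∧ p.1 = x0 ∧
      OC z (So x0 x1 y0 y1 c0 (r0 + 1)) x' p' ∧ p'.1 = x1) ∧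
    ∀ u v : P2, u.1 = x0 → v.1 = x1 → ¬ OC z (So x0 x1 y0 y1 c0 (r0 + 1)) u v := by
  obtain ⟨z', hz', hn⟩ := hz
  have hoff : ∀ e, InE (So x0 x1 y0 y1 c0 (r0 + 1)) e → z' e = z e := by
    intro e he
    apply hz'
    intro h
    have h1 : r0 + 1 ≤ sd c0 (src e) := he.1.2
    have h2 := h.1
    omega
  have hno : ∀ u v : P2, u.1 = x0 → v.1 = x1 → ¬ OC z (So x0 x1 y0 y1 c0 (r0 + 1)) u v := by
    intro u v hu hv h
    apply hn
    have h1 : z ∈ {z : Cf | LRc z x0 x1 y0 y1} := ⟨u, v, hu, hv, h.monoS Set.inter_subset_left⟩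
    have h2 : z' ∈ {z : Cf | LRc z x0 x1 y0 y1} := by
      refine ⟨u, v, hu, hv, ?_⟩
      have h3 : OC z' (So x0 x1 y0 y1 c0 (r0 + 1)) u v :=
        (oc_iff (z := z') (z' := z) (fun e h4 h5 => hoff e ⟨h4, h5⟩)).2 h
      exact h3.monoS Set.inter_subset_left
    exact ⟨fun _ => h1, fun _ => h2⟩
  refine ⟨?_, hno⟩
  -- a crossing with the hole open
  have hcr : ∃ u v : P2, u.1 = x0 ∧ v.1 = x1 ∧ u ∈ Rect x0 x1 y0 y1 ∧ v ∈ Rect x0 x1 y0 y1 ∧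
      Relation.ReflTransGen (PStep (fun e => (z e = true ∧ InE (So x0 x1 y0 y1 c0 (r0 + 1)) e) ∨
        (IB x0 x1 y0 y1 e ∧ ¬ InE (So x0 x1 y0 y1 c0 (r0 + 1)) e))) u v := by
    have key : ∀ z1 : Cf, (∀ e, InE (So x0 x1 y0 y1 c0 (r0 + 1)) e → z1 e = z e) →
        LRc z1 x0 x1 y0 y1 → ∃ u v : P2, u.1 = x0 ∧ v.1 = x1 ∧ u ∈ Rect x0 x1 y0 y1 ∧
        v ∈ Rect x0 x1 y0 y1 ∧
        Relation.ReflTransGen (PStep (fun e => (z e = true ∧ InE (So x0 x1 y0 y1 c0 (r0 + 1)) e) ∨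
          (IB x0 x1 y0 y1 e ∧ ¬ InE (So x0 x1 y0 y1 c0 (r0 + 1)) e))) u v := by
      rintro z1 h1 ⟨u, v, hu, hv, h⟩
      refine ⟨u, v, hu, hv, h.left, h.right, rtg_congr ?_ h.2⟩
      rintro a b ⟨⟨e, he, hh⟩, ha, hb⟩
      refine ⟨e, ?_, hh⟩
      have hI : IB x0 x1 y0 y1 e := by
        rcases hh with ⟨rfl, rfl⟩ | ⟨rfl, rfl⟩
        · exact ⟨ha, hb⟩
        · exact ⟨hb, ha⟩
      by_cases h2 : InE (So x0 x1 y0 y1 c0 (r0 + 1)) e
      · left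
        exact ⟨by rw [← h1 e h2]; exact he, h2⟩
      · exact Or.inr ⟨hI, h2⟩
    by_cases h1 : LRc z x0 x1 y0 y1
    · exact key z (fun e _ => rfl) h1
    · have h2 : LRc z' x0 x1 y0 y1 := by
        by_contra h3
        exact hn ⟨fun h => absurd h h3, fun h => absurd h h1⟩
      exact key z' hoff h2
  obtain ⟨u, v, hu, hv, huR, hvR, h⟩ := hcr
  have huS : u ∈ So x0 x1 y0 y1 c0 (r0 + 1) := by
    refine ⟨huR, ?_⟩
    show r0 + 1 ≤ sd c0 u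
    by_contra h1
    have h2 : sd c0 u ≤ r0 := by omega
    rw [sd_le] at h2
    omega
  have hvS : v ∈ So x0 x1 y0 y1 c0 (r0 + 1) := by
    refine ⟨hvR, ?_⟩
    show r0 + 1 ≤ sd c0 v
    by_contra h1
    have h2 : sd c0 v ≤ r0 := by omega
    rw [sd_le] at h2
    omega
  rcases cut_holeP (O := fun e => z e = true ∧ InE (So x0 x1 y0 y1 c0 (r0 + 1)) e)
    (H := fun e => IB x0 x1 y0 y1 e ∧ ¬ InE (So x0 x1 y0 y1 c0 (r0 + 1)) e) h with
    h1 | ⟨e1, e2, f0, g0, he1, he2, hf0, hg0, h1, h2⟩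
  · exact absurd (step_oc huS h1) (hno u v hu hv)
  · have g1 := step_oc huS h1
    have g2 := step_oc hvS (rtg_pstep_symm h2)
    have fin : ∀ {e : Edge} {f : P2}, (IB x0 x1 y0 y1 e ∧ ¬ InE (So x0 x1 y0 y1 c0 (r0 + 1)) e) →
        (f = src e ∨ f = tgt e) → f ∈ So x0 x1 y0 y1 c0 (r0 + 1) →
        ∃ q, Nbr q f ∧ sd c0 q < r0 + 1 ∧ sd c0 f = r0 + 1 := by
      rintro e f ⟨h3, h4⟩ h5 h6
      have h7 : sd c0 (src e) < r0 + 1 ∨ sd c0 (tgt e) < r0 + 1 := by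
        by_contra h8
        push Not at h8
        exact h4 ⟨⟨h3.1, h8.1⟩, ⟨h3.2, h8.2⟩⟩
      have h8 : r0 + 1 ≤ sd c0 f := h6.2
      rcases h5 with rfl | rfl
      · have h9 : sd c0 (tgt e) < r0 + 1 := by omega
        have h10 : Nbr (tgt e) (src e) := nbr_iff.2 ⟨e, Or.inr ⟨rfl, rfl⟩⟩
        exact ⟨tgt e, h10, h9, nbr_far h10 h9 h8⟩
      · have h9 : sd c0 (src e) < r0 + 1 := by omega
        have h10 : Nbr (src e) (tgt e) := nbr_iff.2 ⟨e, Or.inl ⟨rfl, rfl⟩⟩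
        exact ⟨src e, h10, h9, nbr_far h10 h9 h8⟩
    obtain ⟨q, hq1, hq2, hq3⟩ := fin he1 hf0 g1.right
    obtain ⟨q', hq1', hq2', hq3'⟩ := fin he2 hg0 g2.right
    exact ⟨f0, q, u, g0, q', v, hq1, hq2, hq3, hq1', hq2', hq3', g1.symm, hu, g2.symm, hv⟩

/-- first visit to a set containing the ends of all new edges -/
theorem first_col {z zo : Cf} {D : Set P2} {P : P2 → Prop} {u v : P2} (h : OC zo D u v) (hv : P v)
    (hz : ∀ e, zo e = true → z e = true ∨ (P (src e) ∧ P (tgt e))) : ∃ v', P v' ∧ OC z D u v' := by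
  have key : ∀ w, Relation.ReflTransGen (OStep zo D) u w → (∃ v', P v' ∧ OC z D u v') ∨ OC z D u w := by
    intro w hw
    induction hw with
    | refl => exact Or.inr (OC.refl h.left)
    | @tail a b _ hs ih =>
        rcases ih with ih | ih
        · exact Or.inl ih
        · obtain ⟨⟨e, he, hh⟩, ha, hb⟩ := hs
          rcases hz e he with h1 | h1
          · exact Or.inr (ih.trans ⟨ha, .single ⟨⟨e, h1, hh⟩, ha, hb⟩⟩)
          · refine Or.inl ⟨a, ?_, ih⟩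
            rcases hh with ⟨rfl, _⟩ | ⟨rfl, _⟩
            · exact h1.1
            · exact h1.2
  rcases key v h.2 with h1 | h1
  · exact h1
  · exact ⟨v, hv, h1⟩

/-- top, bottom and inner faces outside the circle -/
def FoT (x0 x1 y0 y1 : ℤ) (c0 : P2) (ρ : ℤ) : Set P2 := Rect x0 (x1 - 1) (y0 - 1) y1 ∩ (Fi c0 ρ)ᶜ

/-- **Instance 1: pivotal blocks.** -/
theorem core_piv {z : Cf} {c0 : P2} {r0 : ℤ} {t r t1 s c s1 b : ℤ} (hr0 : 0 ≤ r0)
    (m1 : x0 + (r0 + 1) + b + 2 ≤ c0.1) (m2 : c0.1 + (r0 + 1) + b + 2 ≤ x1)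
    (m3 : y0 + (r0 + 1) + b + 2 ≤ c0.2) (m4 : c0.2 + (r0 + 1) + b + 2 ≤ y1)
    (ht : 0 ≤ t) (htr : t ≤ r) (hrt : t + r + 1 ≤ t1) (ht1b : t1 ≤ b) (hrs : r + 1 ≤ s)
    (hsc : s ≤ c) (hcs : s + c ≤ s1) (hs1b : s1 ≤ b)
    (hz : z ∈ Ld570.BPiv c0 r0 {z | LRc z x0 x1 y0 y1})
    (hG : GoodH z x0 x1 y0 y1 c0 (r0 + 1) t r t1 s c s1 b) :
    ∃ x x' p p' y y' w w' f f', s1 < sd x x' ∧ t1 < sd y y' ∧
      sd c0 x = r0 + 1 ∧ sd c0 x' = r0 + 1 ∧ p.1 = x0 ∧ p'.1 = x1 ∧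
      sd c0 w = r0 + 1 ∧ sd y w ≤ 1 ∧ sd c0 w' = r0 + 1 ∧ sd y' w' ≤ 1 ∧
      y ∈ Fo x0 x1 y0 y1 c0 (r0 + 1) ∧ y ∈ Fi c0 (r0 + 1 + 1) ∧
      y' ∈ Fo x0 x1 y0 y1 c0 (r0 + 1) ∧ y' ∈ Fi c0 (r0 + 1 + 1) ∧ f.2 = y1 ∧ f'.2 = y0 - 1 ∧
      OC (dual z) (FoT x0 x1 y0 y1 c0 (r0 + 1) ∩ {v | s ≤ sd x v} ∩ {v | s ≤ sd x' v}) y f ∧
      OC (dual z) (FoT x0 x1 y0 y1 c0 (r0 + 1) ∩ {v | s ≤ sd x v} ∩ {v | s ≤ sd x' v}) y' f' ∧
      OC z (So x0 x1 y0 y1 c0 (r0 + 1) ∩ {v | t ≤ sd w v} ∩ {v | t ≤ sd w' v}) x p ∧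
      OC z (So x0 x1 y0 y1 c0 (r0 + 1) ∩ {v | t ≤ sd w v} ∩ {v | t ≤ sd w' v}) x' p' := by
  classical
  obtain ⟨⟨x, q, p, x', q', p', hq, hqh, hx, hq', hqh', hx', h1, hp, h2, hp'⟩, hno⟩ :=
    piv_arms (by omega) (by omega) hz
  set S := So x0 x1 y0 y1 c0 (r0 + 1) with hS
  set zo : Cf := fun e => decide (z e = true ∨ ((src e).1 = x0 ∧ (tgt e).1 = x0) ∨
    ((src e).1 = x1 ∧ (tgt e).1 = x1)) with hzo
  have hzot : ∀ e, zo e = true ↔ (z e = true ∨ ((src e).1 = x0 ∧ (tgt e).1 = x0) ∨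
    ((src e).1 = x1 ∧ (tgt e).1 = x1)) := by
    intro e; simp [hzo]
  have hle : ∀ e, z e ≤ zo e := by
    intro e
    rcases hh : z e with _ | _
    · exact Bool.false_le _
    · rw [(hzot e).2 (Or.inl hh)]
  have h1o : OC zo S x p := h1.mono hle le_rfl
  have h2o : OC zo S x' p' := h2.mono hle le_rfl
  -- no crossing with the columns opened
  have hno' : ¬ OC zo S p p' := by
    intro h
    have hinv : ∀ w, Relation.ReflTransGen (OStep zo S) p w → ∃ u : P2, u.1 = x0 ∧ OC z S u w := by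
      intro w hw
      induction hw with
      | refl => exact ⟨p, hp, OC.refl h.left⟩
      | @tail a b _ hs ih =>
          obtain ⟨u, hu, hua⟩ := ih
          obtain ⟨⟨e, he, hh⟩, ha, hb⟩ := hs
          rcases (hzot e).1 he with h3 | h3 | h3
          · exact ⟨u, hu, hua.trans ⟨ha, .single ⟨⟨e, h3, hh⟩, ha, hb⟩⟩⟩
          · refine ⟨b, ?_, OC.refl hb⟩
            rcases hh with ⟨_, rfl⟩ | ⟨_, rfl⟩
            · exact h3.2
            · exact h3.1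
          · exfalso
            refine hno u a hu ?_ hua
            rcases hh with ⟨rfl, _⟩ | ⟨rfl, _⟩
            · exact h3.1
            · exact h3.2
    obtain ⟨u, hu, h3⟩ := hinv p' h.2
    exact hno u p' hu hp' h3
  -- the configurations agree near the circle
  have hagree : ∀ e, sd c0 (src e) ≤ (r0 + 1) + b → z e = zo e := by
    intro e he
    rw [sd_le] at he
    have h3 : ¬ (((src e).1 = x0 ∧ (tgt e).1 = x0) ∨ ((src e).1 = x1 ∧ (tgt e).1 = x1)) := by omega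
    rcases hh : z e with _ | _
    · symm
      by_contra h4
      have h5 : zo e = true := by simpa using h4
      rcases (hzot e).1 h5 with h6 | h6
      · rw [hh] at h6; exact absurd h6 (by simp)
      · exact h3 h6
    · exact ((hzot e).2 (Or.inl hh)).symm
  have hd : ∀ e, sd c0 (src e) ≤ (r0 + 1) + b + 1 → sd c0 (tgt e) ≤ (r0 + 1) + b + 1 →
      dual z e = dual zo e := by
    intro e he he'
    rw [sd_le] at he he'
    have h3 : ¬ (((src (dE.symm e)).1 = x0 ∧ (tgt (dE.symm e)).1 = x0) ∨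
        ((src (dE.symm e)).1 = x1 ∧ (tgt (dE.symm e)).1 = x1)) := by
      obtain ⟨⟨i, j⟩, c'⟩ := e
      cases c'
      · rw [dE_symm_h]
        simp only [src_mk, tgt_v, tgt_h] at *
        omega
      · rw [dE_symm_v]
        simp only [src_mk, tgt_v, tgt_h] at *
        omega
    show (!z (dE.symm e)) = !zo (dE.symm e)
    congr 1
    rcases hh : z (dE.symm e) with _ | _
    · symm
      by_contra h4
      have h5 : zo (dE.symm e) = true := by simpa using h4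
      rcases (hzot _).1 h5 with h6 | h6
      · rw [hh] at h6; exact absurd h6 (by simp)
      · exact h3 h6
    · exact ((hzot _).2 (Or.inl hh)).symm
  have tri : ∀ {w v : P2} {k m : ℤ}, sd c0 w ≤ k → sd w v ≤ m → sd c0 v ≤ k + m := by
    intro w v k m h3 h4
    have := sd_tri c0 w v
    omega
  have hGo : GoodH zo x0 x1 y0 y1 c0 (r0 + 1) t r t1 s c s1 b := by
    refine ⟨fun w hw => ?_, fun w hw => ?_, fun w hw => ?_, fun f hf hfn => ?_⟩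
    · refine gd_of_far (fun e he _ => hagree e ?_) (hG.g1 w hw)
      exact tri hw.le he
    · refine gd_of_far (fun e he _ => hagree e ?_) (hG.g2 w hw)
      have := tri hw.le he
      omega
    · refine gd_of_far (fun e he _ => hagree e ?_) (hG.g3 w hw)
      have := tri hw.le he
      omega
    · obtain ⟨w, hw, hfw⟩ := id hfn
      rw [sd_symm] at hfw
      have h5 := tri hw.le hfw
      refine gd_of_far (fun e he he' => hd e ?_ ?_) (hG.g4 f hf hfn)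
      · have h6 := tri h5 he
        omega
      · have h6 := tri h5 he'
        omega
  have hpR : p ∈ Rect x0 x1 y0 y1 := h1.right.1
  have hpR' : p' ∈ Rect x0 x1 y0 y1 := h2.right.1
  have hout : Out x0 x1 y0 y1 ((x0 - 1, p.2), false) p := by
    rw [mem_rect] at hpR
    exact Or.inl ⟨hpR.2.2.1, hpR.2.2.2, Or.inl ⟨rfl, hp⟩⟩
  have hout' : Out x0 x1 y0 y1 ((x1, p'.2), false) p' := by
    rw [mem_rect] at hpR'
    exact Or.inl ⟨hpR'.2.2.1, hpR'.2.2.2, Or.inr ⟨rfl, hp'⟩⟩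
  have hcol := lrF_col (y0 := y0) (y1 := y1) (show x0 < x1 by omega) hpR hpR'
  obtain ⟨hs1, y, y', w, w', g, g', f, f', hw, hyw, hw', hyw', hy, hyF, hy', hyF', hg, hbg, hg', hbg', hf, hf',
    hff, hff', htt, hgf, hgf', a1, a2, a3, a4⟩ := core_hole (z := zo) m1 m2 m3 m4 ht htr hrt ht1b hrs hsc hcs hs1b
    hx hx' hq hqh hq' hqh' hout hout' hcol h1o h2o hno' hGo
  -- back to `z`
  have hdm : ∀ e, dual zo e ≤ dual z e := by
    intro e
    show (!zo (dE.symm e)) ≤ !z (dE.symm e)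
    have := hle (dE.symm e)
    cases hh : z (dE.symm e) <;> cases hh' : zo (dE.symm e) <;> simp_all
  have hcols : ∀ e, zo e = true → z e = true ∨
      (((src e).1 = x0 ∨ (src e).1 = x1) ∧ ((tgt e).1 = x0 ∨ (tgt e).1 = x1)) := by
    intro e he
    rcases (hzot e).1 he with h3 | h3 | h3
    · exact Or.inl h3
    · exact Or.inr ⟨Or.inl h3.1, Or.inl h3.2⟩
    · exact Or.inr ⟨Or.inr h3.1, Or.inr h3.2⟩
  obtain ⟨pp, hpp, b3⟩ := first_col (P := fun v : P2 => v.1 = x0 ∨ v.1 = x1) a3 (Or.inl hp) hcols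
  obtain ⟨pp', hpp', b4⟩ := first_col (P := fun v : P2 => v.1 = x0 ∨ v.1 = x1) a4 (Or.inr hp') hcols
  have hsubS : S ∩ {v | t ≤ sd w v} ∩ {v | t ≤ sd w' v} ⊆ S := fun v hv => hv.1.1
  have hpp0 : pp.1 = x0 := by
    rcases hpp with h3 | h3
    · exact h3
    · exact absurd (h1.symm.trans (b3.monoS hsubS)) (hno p pp hp h3)
  have hpp1 : pp'.1 = x1 := by
    rcases hpp' with h3 | h3
    · exact absurd ((b4.symm.monoS hsubS).trans h2) (hno pp' p' h3 hp')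
    · exact h3
  -- the ring faces
  have ring : ∀ {g f : P2}, RingF x0 x1 y0 y1 f → DStep (fun e => zo e = false ∧ InE S e) g f →
      x0 ≤ f.1 ∧ f.1 < x1 ∧ (f.2 = y1 ∨ f.2 = y0 - 1) := by
    rintro g f hf ⟨e, ⟨h3, h4⟩, h5⟩
    have h6 : ¬ (((src e).1 = x0 ∧ (tgt e).1 = x0) ∨ ((src e).1 = x1 ∧ (tgt e).1 = x1)) := by
      intro h7
      rw [(hzot e).2 (Or.inr h7)] at h3
      exact absurd h3 (by simp)
    have h7 : IB x0 x1 y0 y1 e := ⟨h4.1.1, h4.2.1⟩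
    obtain ⟨⟨i, j⟩, c'⟩ := e
    cases c' <;> rcases h5 with ⟨rfl, rfl⟩ | ⟨rfl, rfl⟩ <;>
      simp only [IB, RingF, src_mk, tgt_h, tgt_v, fA_mk, fB_h, fB_v] at * <;> omega
  have cvd : ∀ {g f : P2}, DStep (fun e => zo e = false ∧ InE S e) g f →
      DStep (fun e => z e = false ∧ InE S e) g f := by
    rintro g f ⟨e, ⟨h3, h4⟩, h5⟩
    refine ⟨e, ⟨?_, h4⟩, h5⟩
    have := hle e
    rw [h3] at this
    cases hh : z e
    · rfl
    · rw [hh] at this; exact absurd this (by decide)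
  have r1 := ring hf hgf
  have r2 := ring hf' hgf'
  have hf1 : f.2 = y1 := by
    rcases r1.2.2 with h3 | h3
    · exact h3
    · exfalso
      have h4 : ¬ ((f.1 ≤ x0 - 1 ∧ p.2 ≤ f.2) ∨ (x1 ≤ f.1 ∧ p'.2 ≤ f.2) ∨ (x0 ≤ f.1 ∧ f.1 < x1 ∧ y1 ≤ f.2)) := by
        omega
      have h5 : lrF x0 x1 y1 p p' f = 0 := ind_false h4
      rw [h5] at hff
      exact absurd hff (by decide)
  have hf2 : f'.2 = y0 - 1 := by
    rcases r2.2.2 with h3 | h3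
    · exfalso
      have h5 : lrF x0 x1 y1 p p' f' = 1 := ind_true (Or.inr (Or.inr ⟨r2.1, r2.2.1, h3.ge⟩))
      rw [h5] at hff'
      exact absurd hff' (by decide)
    · exact h3
  have hsT : Fo x0 x1 y0 y1 c0 (r0 + 1) ∩ {v | s ≤ sd x v} ∩ {v | s ≤ sd x' v} ⊆
      FoT x0 x1 y0 y1 c0 (r0 + 1) ∩ {v | s ≤ sd x v} ∩ {v | s ≤ sd x' v} := by
    rintro v ⟨⟨⟨hv1, hv2⟩, hv3⟩, hv4⟩
    refine ⟨⟨⟨?_, hv2⟩, hv3⟩, hv4⟩
    rw [mem_rect] at hv1 ⊢
    omega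
  have fmem : ∀ {f : P2}, x0 ≤ f.1 → f.1 < x1 → (f.2 = y1 ∨ f.2 = y0 - 1) →
      f ∈ FoT x0 x1 y0 y1 c0 (r0 + 1) ∩ {v | s ≤ sd x v} ∩ {v | s ≤ sd x' v} := by
    intro f h3 h4 h5
    have h6 : ∀ {v : P2}, sd c0 v = r0 + 1 → s ≤ sd v f := by
      intro v hv
      by_contra h7
      have h8 := tri hv.le (show sd v f ≤ s by omega)
      rw [sd_le] at h8
      omega
    refine ⟨⟨⟨?_, ?_⟩, h6 hx⟩, h6 hx'⟩
    · rw [mem_rect]; omega
    · intro h7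
      simp only [Fi, mem_rect] at h7
      omega
  refine ⟨x, x', pp, pp', y, y', w, w', f, f', hs1, htt, hx, hx', hpp0, hpp1, hw, hyw, hw', hyw', hy, hyF, hy',
    hyF', hf1, hf2, to_ring (a1.mono hdm le_rfl) (cvd hgf) (fmem r1.1 r1.2.1 r1.2.2) hsT,
    to_ring (a2.mono hdm le_rfl) (cvd hgf') (fmem r2.1 r2.2.1 r2.2.2) hsT, b3, b4⟩

/-- faces of the ring and inner faces outside the circle -/
def FoR (x0 x1 y0 y1 : ℤ) (c0 : P2) (ρ : ℤ) : Set P2 := Rect (x0 - 1) x1 (y0 - 1) y1 ∩ (Fi c0 ρ)ᶜ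




end rect

end Crest.Agent.R158.Kd458
end
end

-- ▼ part R158/Oc1_874
section

/-!
# Row 158 (helper874), SEP: outer cells from points

* `kp n N x` : the cell of the ring `N - 1` next to the point `x` of the circle of radius `N n`
* `nr_kp`, `mem_kp`, `far_kp`, `bk_kp`
* `outP`, `outD` : the arms of 458's core give the landing events of `Uout`
-/

set_option autoImplicit false

noncomputable section

namespace Crest.Agent.R158.Oc874

open MeasureTheory ProbabilityTheory unitInterval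
open Crest.Agent.R161.Geo729 Crest.Agent.R161.Topo374 Crest.Agent.R161.Dual374
open Crest.Agent.R161.Tas682 hiding Sq
open Crest.Agent.R158.Rs689 Crest.Agent.R158.Ru874 Crest.Agent.R158.Sp580
open Crest.Agent.R158.Sp874 (FarN nr Gd' farN_cl_cl)
open Crest.Agent.R158.Kd458 (So Fo Fi FoT FoR)

/-- clamp -/
def cp (N k : ℤ) : ℤ := max (-N) (min (N - 1) k)

/-- ring cell of a point -/
def kp (n N : ℤ) (x : P2) : P2 := (cp N (x.1 / n), cp N (x.2 / n))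

theorem cp_bd {N : ℤ} (hN : 1 ≤ N) (k : ℤ) : -N ≤ cp N k ∧ cp N k ≤ N - 1 := by
  unfold cp
  omega

theorem cp_near {n N t : ℤ} (hn : 1 ≤ n) (hN : 1 ≤ N) (h1 : -(N * n) - n ≤ t) (h2 : t ≤ N * n + n) :
    (cp N (t / n) - 1) * n ≤ t ∧ t ≤ (cp N (t / n) + 2) * n := by
  have h3 := Int.emod_nonneg t (by omega : n ≠ 0)
  have h4 := Int.emod_lt_of_pos t (by omega : 0 < n)
  have h5 := Int.emod_add_mul_ediv t n
  unfold cp
  rcases le_total (t / n) (N - 1) with h6 | h6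
  · rw [min_eq_right h6]
    rcases le_total (-N) (t / n) with h7 | h7
    · rw [max_eq_right h7]
      constructor <;> nlinarith
    · rw [max_eq_left h7]
      constructor
      · nlinarith
      · nlinarith
  · rw [min_eq_left h6, max_eq_right (by omega)]
    constructor
    · nlinarith
    · nlinarith

/-- near the circle of radius `N n` -/
def NC (n N : ℤ) (x : P2) : Prop :=
  (-(N * n) - n ≤ x.1 ∧ x.1 ≤ N * n + n ∧ -(N * n) - n ≤ x.2 ∧ x.2 ≤ N * n + n) ∧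
    (x.1 < -(N * n) + n ∨ N * n - n ≤ x.1 ∨ x.2 < -(N * n) + n ∨ N * n - n ≤ x.2)

theorem nr_kp {n N : ℤ} (hn : 1 ≤ n) (hN : 1 ≤ N) {x : P2} (h : NC n N x) : nr (kp n N x) = N - 1 := by
  have b1 := cp_bd hN (x.1 / n)
  have b2 := cp_bd hN (x.2 / n)
  have lo : ∀ t : ℤ, t < -(N * n) + n → cp N (t / n) = -N := by
    intro t ht
    have : t / n < -N + 1 := by
      rw [Int.ediv_lt_iff_lt_mul (by omega)]
      nlinarith
    unfold cp
    omega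
  have hi : ∀ t : ℤ, N * n - n ≤ t → cp N (t / n) = N - 1 := by
    intro t ht
    have : N - 1 ≤ t / n := by
      rw [Int.le_ediv_iff_mul_le (by omega)]
      nlinarith
    unfold cp
    omega
  unfold nr kp
  simp only
  rcases h.2 with h | h | h | h
  · rw [lo _ h]; omega
  · rw [hi _ h]; omega
  · rw [lo _ h]; omega
  · rw [hi _ h]; omega

theorem mem_kp {n : ℕ} {N : ℤ} (hn : 1 ≤ n) (hN : 1 ≤ N) {x : P2} (h : NC n N x) :
    x ∈ Bk n (kp n N x) 1 := by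
  have hn' : (1 : ℤ) ≤ n := by exact_mod_cast hn
  obtain ⟨⟨h1, h2, h3, h4⟩, -⟩ := h
  have a := cp_near hn' hN h1 h2
  have b := cp_near hn' hN h3 h4
  rw [mem_Bk]
  unfold kp
  simp only
  refine ⟨a.1, ?_, b.1, ?_⟩
  · linarith [a.2]
  · linarith [b.2]

theorem far_kp {n : ℕ} {N F : ℤ} (hn : 1 ≤ n) (hN : 1 ≤ N) {x y : P2} (hx : NC n N x)
    (hy : NC n N y) (h : (F + 3) * n ≤ sd x y) : FarN F (kp n N x) (kp n N y) := by
  have hn' : (1 : ℤ) ≤ n := by exact_mod_cast hn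
  have a := mem_kp hn hN hx
  have b := mem_kp hn hN hy
  rw [mem_Bk] at a b
  by_contra hc
  rw [Sr200.not_farN] at hc
  obtain ⟨c1, c2, c3, c4⟩ := hc
  have h1 : ¬ sd x y ≤ (F + 3) * n - 1 := by omega
  apply h1
  rw [sd_le]
  obtain ⟨a1, a2, a3, a4⟩ := a
  obtain ⟨b1, b2, b3, b4⟩ := b
  refine ⟨?_, ?_, ?_, ?_⟩
  · nlinarith
  · nlinarith
  · nlinarith
  · nlinarith

/-- points of the block are near the point -/
theorem bk_kp {n : ℕ} {N : ℤ} (hn : 1 ≤ n) (hN : 1 ≤ N) {x v : P2} (hx : NC n N x)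
    (hv : v ∈ Bk n (kp n N x) 8) : sd x v ≤ 10 * n := by
  have a := mem_kp hn hN hx
  rw [mem_Bk] at a hv
  rw [sd_le]
  obtain ⟨a1, a2, a3, a4⟩ := a
  obtain ⟨b1, b2, b3, b4⟩ := hv
  refine ⟨?_, ?_, ?_, ?_⟩ <;> nlinarith

theorem nc_of_sd {n N : ℤ} (hn : 1 ≤ n) {x : P2} (h : sd (0, 0) x = N * n) : NC n N x := by
  have h1 := (sd_le (x := (0, 0)) (p := x) (k := N * n)).1 h.le
  have h2 : ¬ sd (0, 0) x ≤ N * n - 1 := by omega
  rw [sd_le] at h2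
  simp only at h1 h2
  unfold NC
  omega

theorem nc_of_face {n N : ℤ} (hn : 1 ≤ n) {y : P2} (h : y ∈ Fi (0, 0) (N * n + 1))
    (h' : y ∉ Fi (0, 0) (N * n)) : NC n N y := by
  simp only [Fi, mem_rect] at h h'
  unfold NC
  omega

theorem fo_eq {FL : Set P2} {ρ : ℤ} : OutF FL ρ = FL ∩ (Fi (0, 0) ρ)ᶜ := by
  ext f
  simp only [OutF, Fi, Set.mem_inter_iff, Set.mem_ofPred_eq, Set.mem_compl_iff, mem_rect, zero_sub,
    zero_add]

/-- primal landing -/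
theorem outP {n N : ℕ} (hn : 1 ≤ n) (hN : 1 ≤ N) {z : Cf} {L : Set P2} {x x' p p' w w' y y' : P2}
    {t : ℤ} (ht : 12 * (n : ℤ) ≤ t) (hx : NC n N x) (hx' : NC n N x') (hy : NC n N y)
    (hy' : NC n N y') (hw : sd y w ≤ 1) (hw' : sd y' w' ≤ 1) {P1 P3 : Set P2} (hp : p ∈ P1)
    (hp' : p' ∈ P3)
    (h1 : OC z (OutV L (N * n) ∩ {v | t ≤ sd w v} ∩ {v | t ≤ sd w' v}) x p)
    (h2 : OC z (OutV L (N * n) ∩ {v | t ≤ sd w v} ∩ {v | t ≤ sd w' v}) x' p') :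
    z ∈ UoutP L (N * n) n (kp n N x) (kp n N y) (kp n N x') (kp n N y') P1 P3 := by
  have hn' : (1 : ℤ) ≤ n := by exact_mod_cast hn
  have hN' : (1 : ℤ) ≤ N := by exact_mod_cast hN
  have hsub : OutV L (N * n) ∩ {v | t ≤ sd w v} ∩ {v | t ≤ sd w' v} ⊆
      OutV L (N * n) \ Bk2 n (kp n N y) (kp n N y') 8 := by
    rintro v ⟨⟨h1, h2⟩, h3⟩
    rw [Set.mem_ofPred_eq] at h2 h3
    refine ⟨h1, ?_⟩
    rintro (h4 | h4)
    · have h5 := bk_kp hn hN' hy h4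
      have h6 := Kd458.sd_tri w y v
      rw [Kd458.sd_symm w y] at h6
      omega
    · have h5 := bk_kp hn hN' hy' h4
      have h6 := Kd458.sd_tri w' y' v
      rw [Kd458.sd_symm w' y'] at h6
      omega
  exact ⟨⟨x, mem_kp hn hN' hx, p, hp, h1.monoS hsub⟩, ⟨x', mem_kp hn hN' hx', p', hp', h2.monoS hsub⟩⟩

/-- dual landing -/
theorem outD {n N : ℕ} (hn : 1 ≤ n) (hN : 1 ≤ N) {z : Cf} {FL : Set P2} {x x' f f' y y' : P2}
    {s : ℤ} (hs : 12 * (n : ℤ) ≤ s) (hx : NC n N x) (hx' : NC n N x') (hy : NC n N y)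
    (hy' : NC n N y') {Q2 Q4 : Set P2} (hf : f ∈ Q2) (hf' : f' ∈ Q4)
    (h1 : OC (dual z) (OutF FL (N * n) ∩ {v | s ≤ sd x v} ∩ {v | s ≤ sd x' v}) y f)
    (h2 : OC (dual z) (OutF FL (N * n) ∩ {v | s ≤ sd x v} ∩ {v | s ≤ sd x' v}) y' f') :
    z ∈ UoutD FL (N * n) n (kp n N x) (kp n N y) (kp n N x') (kp n N y') Q2 Q4 := by
  have hn' : (1 : ℤ) ≤ n := by exact_mod_cast hn
  have hN' : (1 : ℤ) ≤ N := by exact_mod_cast hN
  have hsub : OutF FL (N * n) ∩ {v | s ≤ sd x v} ∩ {v | s ≤ sd x' v} ⊆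
      OutF FL (N * n) \ Bk2 n (kp n N x) (kp n N x') 8 := by
    rintro v ⟨⟨h1, h2⟩, h3⟩
    rw [Set.mem_ofPred_eq] at h2 h3
    refine ⟨h1, ?_⟩
    rintro (h4 | h4)
    · have h5 := bk_kp hn hN' hx h4
      omega
    · have h5 := bk_kp hn hN' hx' h4
      omega
  exact ⟨⟨y, mem_kp hn hN' hy, f, hf, h1.monoS hsub⟩, ⟨y', mem_kp hn hN' hy', f', hf', h2.monoS hsub⟩⟩

/-! ### finitely many cells -/




end Crest.Agent.R158.Oc874
end
end

-- ▼ part R158/Qf7_808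

/-!
# Row 158 (helper808), SEP: good scales give 458's `GoodH`

* `goodH_of_GO` : `z ∈ GO c0 D1 D2 D3 u` and margins `ρ + b + 3` give `GoodH` with `t1 = 2 D3 u - 1`,
  `b = 4 D1 D2 D3 u + 1`
* `goodH_radii` : the inequalities of `core_hole` for these radii
-/

set_option autoImplicit false

noncomputable section

namespace Crest.Agent.R158.Qf808

open MeasureTheory ProbabilityTheory unitInterval
open Crest.Agent.R161.Geo729 Crest.Agent.R161.Topo374 Crest.Agent.R161.Dual374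
open Crest.Agent.R161.Tas682 hiding Sq
open Crest.Agent.R158.Rs689 Crest.Agent.R158.Ru874 Crest.Agent.R158.Sp580
open Crest.Agent.R158.Hp814 (FIn FOut FInB FRing bdS SqI LT LT_move)
open Crest.Agent.R158.Kd458 (Gd GoodH So Fi Fo NearC)

theorem gd_move {z : Cf} {D : Set P2} {x x' : P2} {s r l m : ℤ} (h1 : sd x x' + s ≤ l)
    (h2 : m + sd x x' ≤ r) (hlm : l ≤ m) (hG : Gd z D x' l m) : Gd z D x s r := by
  intro hT
  exact hG (LT_move D h1 h2 hlm hT)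

theorem near_ring {c0 : P2} {ρ : ℤ} {f : P2} (hf : f ∉ Fi c0 ρ) (hn : NearC c0 ρ f) :
    ∃ f' ∈ FRing c0 ρ, sd f f' ≤ 1 ∧ sd c0 f ≤ ρ + 1 := by
  obtain ⟨w, hw, hfw⟩ := hn
  have hρ : 0 ≤ ρ := by rw [← hw]; exact Cpl963.sd_nonneg _ _
  have h1 : sd c0 w ≤ ρ := hw.le
  rw [sd_le] at h1 hfw
  unfold Fi at hf
  rw [mem_rect] at hf
  refine ⟨(min f.1 (c0.1 + ρ), min f.2 (c0.2 + ρ)), ⟨?_, ?_⟩, ?_, ?_⟩
  · unfold SqI
    rw [mem_rect]
    simp only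
    omega
  · simp only
    omega
  · rw [sd_le]
    simp only
    omega
  · rw [sd_le]
    omega

theorem goodH_of_GO {z : Cf} {x0 x1 y0 y1 : ℤ} {c0 : P2} {D1 D2 D3 : ℕ} {u : ℤ} (h1 : 2 ≤ D1)
    (h2 : 2 ≤ D2) (h3 : 2 ≤ D3) (hu : 1 ≤ u)
    (m1 : x0 + (32 * D1 * D2 * D3 * u + 4 * D1 * D2 * D3 * u + 3) ≤ c0.1)
    (m2 : c0.1 + (32 * D1 * D2 * D3 * u + 4 * D1 * D2 * D3 * u + 3) ≤ x1)
    (m3 : y0 + (32 * D1 * D2 * D3 * u + 4 * D1 * D2 * D3 * u + 3) ≤ c0.2)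
    (m4 : c0.2 + (32 * D1 * D2 * D3 * u + 4 * D1 * D2 * D3 * u + 3) ≤ y1)
    (hz : z ∈ GO c0 D1 D2 D3 u) :
    GoodH z x0 x1 y0 y1 c0 (32 * D1 * D2 * D3 * u) u (D3 * u) (2 * D3 * u - 1) (2 * D3 * u)
      (2 * D2 * D3 * u) (4 * D2 * D3 * u) (4 * D1 * D2 * D3 * u + 1) := by
  obtain ⟨r1, r2, r3, r4, r5⟩ := radii h1 h2 h3 hu
  obtain ⟨hz1, hz2⟩ := hz
  set ρ : ℤ := 32 * D1 * D2 * D3 * u with hρ
  set b : ℤ := 4 * D1 * D2 * D3 * u with hb
  have hρb : ρ = 8 * b := by rw [hρ, hb]; ring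
  have hcut : ∀ w, sd c0 w = ρ → ∀ a b' : ℤ, b' ≤ b + 1 →
      {v : P2 | ρ ≤ sd c0 v} ∩ Cpl963.An w a b' = So x0 x1 y0 y1 c0 ρ ∩ Cpl963.An w a b' := by
    intro w hw a b' hb'
    ext v
    constructor
    · rintro ⟨h5, h6⟩
      refine ⟨⟨?_, h5⟩, h6⟩
      have h7 := Cpl963.sd_tri c0 w v
      have h8 : sd w v ≤ b' := h6.2
      have h9 : sd c0 v ≤ ρ + b + 1 := by omega
      rw [sd_le] at h9
      rw [mem_rect]
      omega
    · rintro ⟨h5, h6⟩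
      exact ⟨h5.2, h6⟩
  refine ⟨fun w hw => ?_, fun w hw => gd_cut (hcut w hw _ _ (by omega)) (hz1 w hw).2.1,
    fun w hw => gd_cut (hcut w hw _ _ (by omega)) (hz1 w hw).2.2, ?_⟩
  · refine gd_cut (hcut w hw _ _ le_rfl) ?_
    refine gd_move (x' := w) ?_ ?_ (by omega) (hz1 w hw).1
    · rw [Cpl963.sd_self]; omega
    · rw [Cpl963.sd_self]; omega
  · intro f hf hn
    obtain ⟨f', hf', hff, hfs⟩ := near_ring hf.2 hn
    have hG := gd_move (s := 2 * (D3 : ℤ) * u - 1) (r := b + 1) (x := f) (by omega) (by omega)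
      (by omega) (hz2 f' hf')
    refine gd_cut ?_ hG
    ext v
    constructor
    · rintro ⟨h5, h6⟩
      refine ⟨⟨?_, h5⟩, h6⟩
      have h7 := Cpl963.sd_tri c0 f v
      have h8 : sd f v ≤ b + 1 := h6.2
      have h9 : sd c0 v ≤ ρ + b + 2 := by omega
      rw [sd_le] at h9
      rw [mem_rect]
      omega
    · rintro ⟨h5, h6⟩
      exact ⟨h5.2, h6⟩

/-- the inequalities between the radii of `goodH_of_GO` -/
theorem goodH_radii {D1 D2 D3 : ℕ} (h1 : 2 ≤ D1) (h2 : 2 ≤ D2) (h3 : 2 ≤ D3) {u : ℤ} (hu : 2 ≤ u) :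
    0 ≤ u ∧ u ≤ D3 * u ∧ u + D3 * u + 1 ≤ 2 * D3 * u - 1 ∧ 2 * D3 * u - 1 ≤ 4 * D1 * D2 * D3 * u + 1 ∧
      D3 * u + 1 ≤ 2 * D3 * u ∧ 2 * (D3 : ℤ) * u ≤ 2 * D2 * D3 * u ∧
      2 * (D3 : ℤ) * u + 2 * D2 * D3 * u ≤ 4 * D2 * D3 * u ∧
      4 * (D2 : ℤ) * D3 * u ≤ 4 * D1 * D2 * D3 * u + 1 := by
  obtain ⟨r1, r2, r3, r4, r5⟩ := radii h1 h2 h3 (show 1 ≤ u by omega)
  have e1 : 2 * (D3 : ℤ) * u = 2 * (D3 * u) := by ring
  refine ⟨by omega, by omega, by omega, by omega, by omega, by omega, by omega, by omega⟩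

end Crest.Agent.R158.Qf808
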