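import Crest.Agent.R158.Sp0_580
import Crest.Agent.R158.Sp4c_874

-- ▼ part R158/Sg1_689
section

/-!
# Row 158, Block SEP, leaf L5 (helper689): arms landed on tokens and gates, generic layer

* `arm_col`, `arm_row` : an arm landing at the ring of cells around `κ` is prolonged by the tube to a gate
  (a long vertical / horizontal crossing carried by a column / row of cells)
-/

set_option autoImplicit false

noncomputable section

namespace Crest.Agent.R158.Sg689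

open MeasureTheory ProbabilityTheory unitInterval
open Crest.Agent.R161.Geo729 Crest.Agent.R161.Topo374 Crest.Agent.R161.Dual374
open Crest.Agent.R161.Tas682
open Crest.Agent.R158.Rs689 Crest.Agent.R158.Sp580

/-- outside the block of radius `m` (weakly) -/
def OutB (n : ℕ) (k : P2) (m : ℤ) (x : P2) : Prop :=
  x.1 ≤ (k.1 - m) * n ∨ (k.1 + m + 1) * n ≤ x.1 ∨ x.2 ≤ (k.2 - m) * n ∨ (k.2 + m + 1) * n ≤ x.2

/-- **Landing**, block form: the arm ends in the block of radius `r - 2` and starts outside the block of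
radius `r + 1`; the ring has radius `r`. -/
theorem land_block {z : Cfz} {n : ℕ} {K : Finset P2} (hz : z ∈ tubeX n K) {κ : P2} {r : ℤ}
    (hr : 2 ≤ r) (hK : ringC κ r ⊆ K) {k k' u : P2} (hk : k ∈ K) (hk' : k' ∈ ringC κ r)
    (hkc : CConn (K : Set P2) k k') (hu : hubH z n k u) {S : Set P2} {a b : P2} (h : OC z S a b)
    (ha : a ∈ Bk n κ (r - 2)) (hb : OutB n κ (r + 1) b) :
    ∃ w, OC z S a w ∧ OC z (tubeR n K) u w := by
  have hn : (0 : ℤ) ≤ n := by positivity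
  rw [mem_Bk] at ha
  refine frame_catch hz (by omega) (by omega) hK hk
    (hkc.trans ((frame_conn hk').mono fun x hx => hK hx).symm) hu h ?_ ?_
  · obtain ⟨h1, h2, h3, h4⟩ := ha
    refine ⟨?_, ?_, ?_, ?_⟩ <;> nlinarith
  · rcases hb with h1 | h1 | h1 | h1
    · left; nlinarith
    · right; left; nlinarith
    · right; right; left; nlinarith
    · right; right; right; nlinarith

/-- arm + token + column gate -/
theorem arm_col {z : Cfz} {n : ℕ} {K : Finset P2} (hz : z ∈ tubeX n K) {κ : P2} {r : ℤ}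
    (hr : 2 ≤ r) (hK : ringC κ r ⊆ K) {i j0 j1 : ℤ} (hj : j0 ≤ j1) (hC : colC i j0 j1 ⊆ K)
    {k' : P2} (hk' : k' ∈ ringC κ r) (hkc : CConn (K : Set P2) (i, j0) k') {S : Set P2} {u a : P2}
    (h : OC z S u a) (ha : a ∈ Bk n κ (r - 2)) (hu : OutB n κ (r + 1) u) :
    ∃ A B : P2, A.2 = j0 * n - n ∧ B.2 = j1 * n + 2 * n ∧
      OC z (tubeR n (colC i j0 j1)) A B ∧ OC z (S ∪ tubeR n K) u A := by
  obtain ⟨A, B, v, hA, hB, hv, h1, h2⟩ := col_path hz hj hC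
  have m0 : ((i, j0) : P2) ∈ K := hC (mem_colC.2 ⟨rfl, le_rfl, hj⟩)
  obtain ⟨w, hw1, hw2⟩ := land_block hz hr hK m0 hk' hkc hv h.symm ha hu
  refine ⟨A, B, hA, hB, h1, ?_⟩
  have e1 : OC z (S ∪ tubeR n K) u w := (h.trans hw1).monoS Set.subset_union_left
  have e2 : OC z (S ∪ tubeR n K) w v := hw2.symm.monoS Set.subset_union_right
  have e3 : OC z (S ∪ tubeR n K) v A := h2.monoS ((tubeR_mono n hC).trans Set.subset_union_right)
  exact (e1.trans e2).trans e3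

/-- arm + token + row gate -/
theorem arm_row {z : Cfz} {n : ℕ} {K : Finset P2} (hz : z ∈ tubeX n K) {κ : P2} {r : ℤ}
    (hr : 2 ≤ r) (hK : ringC κ r ⊆ K) {i0 i1 j : ℤ} (hi : i0 ≤ i1) (hC : rowC i0 i1 j ⊆ K)
    {k' : P2} (hk' : k' ∈ ringC κ r) (hkc : CConn (K : Set P2) (i0, j) k') {S : Set P2} {u a : P2}
    (h : OC z S u a) (ha : a ∈ Bk n κ (r - 2)) (hu : OutB n κ (r + 1) u) :
    ∃ A B : P2, A.1 = i0 * n - n ∧ B.1 = i1 * n + 2 * n ∧
      OC z (tubeR n (rowC i0 i1 j)) A B ∧ OC z (S ∪ tubeR n K) u A := by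
  obtain ⟨A, B, v, hA, hB, hv, h1, h2⟩ := row_path hz hi hC
  have m0 : ((i0, j) : P2) ∈ K := hC (mem_rowC.2 ⟨le_rfl, hi, rfl⟩)
  obtain ⟨w, hw1, hw2⟩ := land_block hz hr hK m0 hk' hkc hv h.symm ha hu
  refine ⟨A, B, hA, hB, h1, ?_⟩
  have e1 : OC z (S ∪ tubeR n K) u w := (h.trans hw1).monoS Set.subset_union_left
  have e2 : OC z (S ∪ tubeR n K) w v := hw2.symm.monoS Set.subset_union_right
  have e3 : OC z (S ∪ tubeR n K) v A := h2.monoS ((tubeR_mono n hC).trans Set.subset_union_right)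
  exact (e1.trans e2).trans e3


end Crest.Agent.R158.Sg689
end
end

-- ▼ part R158/Sg2_689
section

/-!
# Row 158, Block SEP, leaf L5 (helper689): tokens prolonged by straight rays and gates

* `TokOut N M k K` : what is consumed from the token lemma (outward)
* `rayF`, `gateF`, `ext` : straight rays, gates (columns / rows of cells), prolonged tokens
* `ext_far`, `ext_conn`, `ext_region`
-/

set_option autoImplicit false

noncomputable section

namespace Crest.Agent.R158.Sg689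

open MeasureTheory ProbabilityTheory unitInterval
open Crest.Agent.R161.Geo729 Crest.Agent.R161.Topo374 Crest.Agent.R161.Dual374
open Crest.Agent.R161.Tas682
open Crest.Agent.R158.Rs689 Crest.Agent.R158.Sp580

/-- cells at cell-distance `≥ 5` -/
def Far5 (c c' : P2) : Prop :=
  c.1 + 5 ≤ c'.1 ∨ c'.1 + 5 ≤ c.1 ∨ c.2 + 5 ≤ c'.2 ∨ c'.2 + 5 ≤ c.2

theorem Far5.symm {c c' : P2} (h : Far5 c c') : Far5 c' c := by
  unfold Far5 at *; omega

theorem far5_abs {c c' : P2} (h : Far5 c c') : 5 ≤ |c.1 - c'.1| ∨ 5 ≤ |c.2 - c'.2| := by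
  rcases h with h | h | h | h
  · left; rw [le_abs]; right; omega
  · left; rw [le_abs]; left; omega
  · right; rw [le_abs]; right; omega
  · right; rw [le_abs]; left; omega

/-- cells of ring index `≤ M` (the square `[-(M+1), M]²`) -/
def InR (M : ℤ) (c : P2) : Prop := -1 - M ≤ c.1 ∧ c.1 ≤ M ∧ -1 - M ≤ c.2 ∧ c.2 ≤ M

/-- cells of ring index `≥ N` -/
def OutR (N : ℤ) (c : P2) : Prop := N ≤ c.1 ∨ c.1 ≤ -1 - N ∨ N ≤ c.2 ∨ c.2 ≤ -1 - N

/-- the four straight rays: `0` east, `1` north, `2` west, `3` south -/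
def OnRay : Fin 4 → P2 → Prop
  | 0, c => c.2 = 0 ∧ 0 ≤ c.1
  | 1, c => c.1 = -1 ∧ 0 ≤ c.2
  | 2, c => c.2 = -1 ∧ c.1 ≤ -1
  | 3, c => c.1 = 0 ∧ c.2 ≤ -1

/-- the standard cell of direction `i` in ring `j` -/
def std : Fin 4 → ℤ → P2
  | 0, j => (j, 0)
  | 1, j => (-1, j)
  | 2, j => (-1 - j, -1)
  | 3, j => (0, -1 - j)

/-- straight rays, rings `M .. L` -/
def rayF : Fin 4 → ℤ → ℤ → Finset P2
  | 0, M, L => rowC M L 0
  | 1, M, L => colC (-1) M L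
  | 2, M, L => rowC (-1 - L) (-1 - M) (-1)
  | 3, M, L => colC 0 (-1 - L) (-1 - M)

/-- gates at ring `26 c` -/
def gateF : Fin 4 → ℤ → Finset P2
  | 0, c => colC (26 * c) (-(5 * c)) (5 * c)
  | 1, c => rowC (-(5 * c)) (5 * c) (26 * c)
  | 2, c => colC (-1 - 26 * c) (-(5 * c)) (5 * c)
  | 3, c => rowC (-(5 * c)) (5 * c) (-1 - 26 * c)

/-- **what is consumed from the (outward) token lemma** -/
structure TokOut (N M : ℤ) (k : Fin 4 → P2) (K : Fin 4 → Finset P2) : Prop where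
  ring : ∀ i, ringC (k i) 3 ⊆ K i
  near : ∀ i, ∀ c ∈ K i, (|c.1 - (k i).1| ≤ 4 ∧ |c.2 - (k i).2| ≤ 4) ∨ OutR (N + 2) c
  le : ∀ i, ∀ c ∈ K i, InR M c
  last : ∀ i, ∀ c ∈ K i, OutR (M - 5) c → OnRay i c
  fin : ∀ i, std i M ∈ K i
  conn : ∀ i, ∃ c ∈ ringC (k i) 3, CConn ((K i : Finset P2) : Set P2) c (std i M)
  far : ∀ i j, i ≠ j → ∀ c ∈ K i, ∀ c' ∈ K j, Far5 c c'

/-- prolonged tokens -/
def ext (M c : ℤ) (K : Fin 4 → Finset P2) (i : Fin 4) : Finset P2 := by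
  classical
  exact K i ∪ rayF i M (26 * c) ∪ gateF i c

theorem mem_ext {M c : ℤ} {K : Fin 4 → Finset P2} {i : Fin 4} {x : P2} :
    x ∈ ext M c K i ↔ x ∈ K i ∨ x ∈ rayF i M (26 * c) ∨ x ∈ gateF i c := by
  classical
  unfold ext
  rw [Finset.mem_union, Finset.mem_union, or_assoc]

theorem mem_rayF0 {M L : ℤ} {x : P2} : x ∈ rayF 0 M L ↔ M ≤ x.1 ∧ x.1 ≤ L ∧ x.2 = 0 := mem_rowC
theorem mem_rayF1 {M L : ℤ} {x : P2} : x ∈ rayF 1 M L ↔ x.1 = -1 ∧ M ≤ x.2 ∧ x.2 ≤ L := mem_colC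
theorem mem_rayF2 {M L : ℤ} {x : P2} :
    x ∈ rayF 2 M L ↔ -1 - L ≤ x.1 ∧ x.1 ≤ -1 - M ∧ x.2 = -1 := mem_rowC
theorem mem_rayF3 {M L : ℤ} {x : P2} :
    x ∈ rayF 3 M L ↔ x.1 = 0 ∧ -1 - L ≤ x.2 ∧ x.2 ≤ -1 - M := mem_colC
theorem mem_gateF0 {c : ℤ} {x : P2} :
    x ∈ gateF 0 c ↔ x.1 = 26 * c ∧ -(5 * c) ≤ x.2 ∧ x.2 ≤ 5 * c := mem_colC
theorem mem_gateF1 {c : ℤ} {x : P2} :
    x ∈ gateF 1 c ↔ -(5 * c) ≤ x.1 ∧ x.1 ≤ 5 * c ∧ x.2 = 26 * c := mem_rowC
theorem mem_gateF2 {c : ℤ} {x : P2} :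
    x ∈ gateF 2 c ↔ x.1 = -1 - 26 * c ∧ -(5 * c) ≤ x.2 ∧ x.2 ≤ 5 * c := mem_colC
theorem mem_gateF3 {c : ℤ} {x : P2} :
    x ∈ gateF 3 c ↔ -(5 * c) ≤ x.1 ∧ x.1 ≤ 5 * c ∧ x.2 = -1 - 26 * c := mem_rowC

theorem fin4_cases {P : Fin 4 → Prop} (h0 : P 0) (h1 : P 1) (h2 : P 2) (h3 : P 3) : ∀ i, P i := by
  intro i
  fin_cases i
  · exact h0
  · exact h1
  · exact h2
  · exact h3

/-- `x` is either a cell of the token, or a cell of the ray beyond ring `M`, or a cell of the gate -/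
theorem ext_far {N M c : ℤ} {k : Fin 4 → P2} {K : Fin 4 → Finset P2} (h : TokOut N M k K)
    (hM : 10 ≤ M) (hc : M + 3 ≤ 16 * c) (i j : Fin 4) (hij : i ≠ j) :
    ∀ x ∈ ext M c K i, ∀ y ∈ ext M c K j, Far5 x y := by
  intro x hx y hy
  rw [mem_ext] at hx hy
  have hle := h.le
  have hlast := h.last
  -- data of a token cell
  have tok : ∀ i : Fin 4, ∀ x ∈ K i, InR M x ∧ (OutR (M - 5) x → OnRay i x) := fun i x hx =>
    ⟨hle i x hx, hlast i x hx⟩
  by_cases hKK : x ∈ K i ∧ y ∈ K j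
  · exact h.far i j hij x hKK.1 y hKK.2
  -- replace memberships by inequalities
  have P : ∀ i : Fin 4, ∀ x : P2, (x ∈ K i ∨ x ∈ rayF i M (26 * c) ∨ x ∈ gateF i c) →
      (x ∈ K i ∧ InR M x ∧ (OutR (M - 5) x → OnRay i x)) ∨
      (x ∈ rayF i M (26 * c) ∨ x ∈ gateF i c) := by
    intro i x hx
    rcases hx with hx | hx
    · exact Or.inl ⟨hx, tok i x hx⟩
    · exact Or.inr hx
  rcases P i x hx with ⟨hx1, hx2, hx3⟩ | hx1 <;> rcases P j y hy with ⟨hy1, hy2, hy3⟩ | hy1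
  · exact absurd ⟨hx1, hy1⟩ hKK
  · clear hx hy hKK P tok hle hlast
    revert i j
    refine fin4_cases ?_ ?_ ?_ ?_ <;> refine fin4_cases ?_ ?_ ?_ ?_ <;> intro hij hx1 hx3 hy1 <;>
      first
      | exact absurd rfl hij
      | (simp only [mem_rayF0, mem_rayF1, mem_rayF2, mem_rayF3, mem_gateF0, mem_gateF1,
          mem_gateF2, mem_gateF3] at hy1
         simp only [InR, OutR, OnRay] at hx2 hx3
         unfold Far5
         omega)
  · clear hx hy hKK P tok hle hlast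
    revert i j
    refine fin4_cases ?_ ?_ ?_ ?_ <;> refine fin4_cases ?_ ?_ ?_ ?_ <;> intro hij hx1 hy1 hy3 <;>
      first
      | exact absurd rfl hij
      | (simp only [mem_rayF0, mem_rayF1, mem_rayF2, mem_rayF3, mem_gateF0, mem_gateF1,
          mem_gateF2, mem_gateF3] at hx1
         simp only [InR, OutR, OnRay] at hy2 hy3
         unfold Far5
         omega)
  · clear hx hy hKK P tok hle hlast
    revert i j
    refine fin4_cases ?_ ?_ ?_ ?_ <;> refine fin4_cases ?_ ?_ ?_ ?_ <;> intro hij hx1 hy1 <;>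
      first
      | exact absurd rfl hij
      | (simp only [mem_rayF0, mem_rayF1, mem_rayF2, mem_rayF3, mem_gateF0, mem_gateF1,
          mem_gateF2, mem_gateF3] at hx1 hy1
         unfold Far5
         omega)

end Crest.Agent.R158.Sg689
end
private theorem rz_75c7a412db : type_of% @_root_.Crest.Agent.R158.Sg689.OnRay.eq_1 := @_root_.Crest.Agent.R158.Sg689.OnRay.eq_1 -- L43
private theorem rz_b68f342470 : type_of% @_root_.Crest.Agent.R158.Sg689.std.eq_1 := @_root_.Crest.Agent.R158.Sg689.std.eq_1 -- L50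
end

-- ▼ part R158/Sg3_689
section

/-!
# Row 158, Block SEP, leaf L5 (helper689): the four prolonged arms
-/

set_option autoImplicit false

noncomputable section

namespace Crest.Agent.R158.Sg689

open MeasureTheory ProbabilityTheory unitInterval
open Crest.Agent.R161.Geo729 Crest.Agent.R161.Topo374 Crest.Agent.R161.Dual374
open Crest.Agent.R161.Tas682
open Crest.Agent.R158.Rs689 Crest.Agent.R158.Sp580

/-- first corner of the gate -/
def gcor : Fin 4 → ℤ → P2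
  | 0, c => (26 * c, -(5 * c))
  | 1, c => (-(5 * c), 26 * c)
  | 2, c => (-1 - 26 * c, -(5 * c))
  | 3, c => (-(5 * c), -1 - 26 * c)

theorem ext_conn {N M c : ℤ} {k : Fin 4 → P2} {K : Fin 4 → Finset P2} (h : TokOut N M k K)
    (hM : 10 ≤ M) (hc : M + 3 ≤ 16 * c) : ∀ i : Fin 4, ∃ x ∈ ringC (k i) 3,
      CConn ((ext M c K i : Finset P2) : Set P2) (gcor i c) x := by
  have sub : ∀ i : Fin 4, ((K i : Finset P2) : Set P2) ⊆ ((ext M c K i : Finset P2) : Set P2) :=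
    fun i x hx => by
      show x ∈ ext M c K i
      exact mem_ext.2 (Or.inl hx)
  have ray : ∀ i : Fin 4, ∀ x ∈ rayF i M (26 * c), x ∈ ((ext M c K i : Finset P2) : Set P2) :=
    fun i x hx => by
      show x ∈ ext M c K i
      exact mem_ext.2 (Or.inr (Or.inl hx))
  have gat : ∀ i : Fin 4, ∀ x ∈ gateF i c, x ∈ ((ext M c K i : Finset P2) : Set P2) :=
    fun i x hx => by
      show x ∈ ext M c K i
      exact mem_ext.2 (Or.inr (Or.inr hx))
  refine fin4_cases ?_ ?_ ?_ ?_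
  · obtain ⟨x, hx, h1⟩ := h.conn 0
    refine ⟨x, hx, ?_⟩
    have e1 : CConn ((ext M c K 0 : Finset P2) : Set P2) (26 * c, -(5 * c)) (26 * c, 0) :=
      col_conn' (by omega) fun j h2 h3 => gat 0 _ (mem_gateF0.2 ⟨rfl, h2, by simp only; omega⟩)
    have e2 : CConn ((ext M c K 0 : Finset P2) : Set P2) (M, 0) (26 * c, 0) :=
      row_conn' (by omega) fun j h2 h3 => ray 0 _ (mem_rayF0.2 ⟨h2, h3, rfl⟩)
    exact (e1.trans e2.symm).trans (h1.mono (sub 0)).symm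
  · obtain ⟨x, hx, h1⟩ := h.conn 1
    refine ⟨x, hx, ?_⟩
    have e1 : CConn ((ext M c K 1 : Finset P2) : Set P2) (-(5 * c), 26 * c) (-1, 26 * c) :=
      row_conn' (by omega) fun j h2 h3 => gat 1 _ (mem_gateF1.2 ⟨h2, by simp only; omega, rfl⟩)
    have e2 : CConn ((ext M c K 1 : Finset P2) : Set P2) (-1, M) (-1, 26 * c) :=
      col_conn' (by omega) fun j h2 h3 => ray 1 _ (mem_rayF1.2 ⟨rfl, h2, h3⟩)
    exact (e1.trans e2.symm).trans (h1.mono (sub 1)).symm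
  · obtain ⟨x, hx, h1⟩ := h.conn 2
    refine ⟨x, hx, ?_⟩
    have e1 : CConn ((ext M c K 2 : Finset P2) : Set P2) (-1 - 26 * c, -(5 * c))
        (-1 - 26 * c, -1) :=
      col_conn' (by omega) fun j h2 h3 => gat 2 _ (mem_gateF2.2 ⟨rfl, h2, by simp only; omega⟩)
    have e2 : CConn ((ext M c K 2 : Finset P2) : Set P2) (-1 - 26 * c, -1) (-1 - M, -1) :=
      row_conn' (by omega) fun j h2 h3 => ray 2 _ (mem_rayF2.2 ⟨h2, h3, rfl⟩)
    exact (e1.trans e2).trans (h1.mono (sub 2)).symm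
  · obtain ⟨x, hx, h1⟩ := h.conn 3
    refine ⟨x, hx, ?_⟩
    have e1 : CConn ((ext M c K 3 : Finset P2) : Set P2) (-(5 * c), -1 - 26 * c)
        (0, -1 - 26 * c) :=
      row_conn' (by omega) fun j h2 h3 => gat 3 _ (mem_gateF3.2 ⟨h2, by simp only; omega, rfl⟩)
    have e2 : CConn ((ext M c K 3 : Finset P2) : Set P2) (0, -1 - 26 * c) (0, -1 - M) :=
      col_conn' (by omega) fun j h2 h3 => ray 3 _ (mem_rayF3.2 ⟨rfl, h2, h3⟩)
    exact (e1.trans e2).trans (h1.mono (sub 3)).symm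

theorem ring_sub_ext {N M c : ℤ} {k : Fin 4 → P2} {K : Fin 4 → Finset P2} (h : TokOut N M k K)
    (i : Fin 4) : ringC (k i) 3 ⊆ ext M c K i := fun x hx => mem_ext.2 (Or.inl (h.ring i hx))

theorem plusR_bounds {n : ℕ} {k x : P2} (h : x ∈ plusR n k) {a b c d : ℤ} (ha : a ≤ k.1)
    (hb : k.1 ≤ b) (hc : c ≤ k.2) (hd : k.2 ≤ d) :
    (a - 1) * n ≤ x.1 ∧ x.1 ≤ (b + 2) * n ∧ (c - 1) * n ≤ x.2 ∧ x.2 ≤ (d + 2) * n := by
  have hn : (0 : ℤ) ≤ n := by positivity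
  obtain ⟨h1, h2, h3, h4⟩ := mem_plusR h
  have e1 := mul_le_mul_of_nonneg_right ha hn
  have e2 := mul_le_mul_of_nonneg_right hb hn
  have e3 := mul_le_mul_of_nonneg_right hc hn
  have e4 := mul_le_mul_of_nonneg_right hd hn
  refine ⟨?_, ?_, ?_, ?_⟩ <;> nlinarith

/-- region of the prolonged tokens -/
theorem ext_region {N M c : ℤ} {k : Fin 4 → P2} {K : Fin 4 → Finset P2} (h : TokOut N M k K)
    (hM : 10 ≤ M) (hc : M + 3 ≤ 16 * c) (n n' : ℕ) (hn' : (n' : ℤ) = c * n) : ∀ i : Fin 4,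
      tubeR n (ext M c K i) ⊆ Sq (16 * n') ∪ Corr i n' := by
  have hn : (0 : ℤ) ≤ n := by positivity
  have hcn : (M + 3) * (n : ℤ) ≤ 16 * c * n := mul_le_mul_of_nonneg_right hc hn
  have hMn : 10 * (n : ℤ) ≤ M * n := mul_le_mul_of_nonneg_right hM hn
  have h1n : 1 * (n : ℤ) ≤ c * n := mul_le_mul_of_nonneg_right (by omega) hn
  -- token cells
  have tok : ∀ i, ∀ κ ∈ K i, plusR n κ ⊆ Sq (16 * n') := by
    intro i κ hκ x hx
    obtain ⟨a1, a2, a3, a4⟩ := h.le i κ hκ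
    obtain ⟨b1, b2, b3, b4⟩ := plusR_bounds hx a1 a2 a3 a4
    rw [mem_Sq, hn']
    refine ⟨?_, ?_, ?_, ?_⟩ <;> nlinarith
  intro i x hx
  simp only [tubeR, Set.mem_iUnion] at hx
  obtain ⟨κ, hκ, hx⟩ := hx
  rw [mem_ext] at hκ
  rcases hκ with hκ | hκ
  · exact Or.inl (tok i κ hκ hx)
  · rw [Set.mem_union, mem_Sq, hn']
    unfold Corr
    rw [Set.mem_ofPred_eq, hn']
    revert i
    refine fin4_cases ?_ ?_ ?_ ?_
    · intro hκ
      rw [mem_rayF0, mem_gateF0] at hκ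
      simp only [co]
      obtain ⟨b1, b2, b3, b4⟩ := plusR_bounds hx (a := M) (b := 26 * c) (c := -(5 * c))
        (d := 5 * c) (by omega) (by omega) (by omega) (by omega)
      by_cases h16 : x.1 ≤ 16 * (c * n)
      · left; refine ⟨?_, ?_, ?_, ?_⟩ <;> nlinarith
      · right; refine ⟨?_, ?_, ?_, ?_⟩ <;> nlinarith
    · intro hκ
      rw [mem_rayF1, mem_gateF1] at hκ
      simp only [co]
      obtain ⟨b1, b2, b3, b4⟩ := plusR_bounds hx (c := M) (d := 26 * c) (a := -(5 * c))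
        (b := 5 * c) (by omega) (by omega) (by omega) (by omega)
      by_cases h16 : x.2 ≤ 16 * (c * n)
      · left; refine ⟨?_, ?_, ?_, ?_⟩ <;> nlinarith
      · right; refine ⟨?_, ?_, ?_, ?_⟩ <;> nlinarith
    · intro hκ
      rw [mem_rayF2, mem_gateF2] at hκ
      simp only [co]
      obtain ⟨b1, b2, b3, b4⟩ := plusR_bounds hx (a := -1 - 26 * c) (b := -1 - M)
        (c := -(5 * c)) (d := 5 * c) (by omega) (by omega) (by omega) (by omega)
      by_cases h16 : -(16 * (c * n)) ≤ x.1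
      · left; refine ⟨?_, ?_, ?_, ?_⟩ <;> nlinarith
      · right; refine ⟨?_, ?_, ?_, ?_⟩ <;> nlinarith
    · intro hκ
      rw [mem_rayF3, mem_gateF3] at hκ
      simp only [co]
      obtain ⟨b1, b2, b3, b4⟩ := plusR_bounds hx (c := -1 - 26 * c) (d := -1 - M)
        (a := -(5 * c)) (b := 5 * c) (by omega) (by omega) (by omega) (by omega)
      by_cases h16 : -(16 * (c * n)) ≤ x.2
      · left; refine ⟨?_, ?_, ?_, ?_⟩ <;> nlinarith
      · right; refine ⟨?_, ?_, ?_, ?_⟩ <;> nlinarith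

/-- region of the gates -/
theorem gate_region {c : ℤ} (hc : 1 ≤ c) (n n' : ℕ) (hn' : (n' : ℤ) = c * n) : ∀ i : Fin 4,
    tubeR n (gateF i c) ⊆ Gate i n' := by
  have hn : (0 : ℤ) ≤ n := by positivity
  have h1n : 1 * (n : ℤ) ≤ c * n := mul_le_mul_of_nonneg_right hc hn
  intro i x hx
  simp only [tubeR, Set.mem_iUnion] at hx
  obtain ⟨κ, hκ, hx⟩ := hx
  unfold Gate
  rw [Set.mem_ofPred_eq, hn']
  revert i
  refine fin4_cases ?_ ?_ ?_ ?_
  · intro hκ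
    rw [mem_gateF0] at hκ
    simp only [co]
    obtain ⟨b1, b2, b3, b4⟩ := plusR_bounds hx (a := 26 * c) (b := 26 * c) (c := -(5 * c))
      (d := 5 * c) (by omega) (by omega) (by omega) (by omega)
    refine ⟨?_, ?_, ?_, ?_⟩ <;> nlinarith
  · intro hκ
    rw [mem_gateF1] at hκ
    simp only [co]
    obtain ⟨b1, b2, b3, b4⟩ := plusR_bounds hx (c := 26 * c) (d := 26 * c) (a := -(5 * c))
      (b := 5 * c) (by omega) (by omega) (by omega) (by omega)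
    refine ⟨?_, ?_, ?_, ?_⟩ <;> nlinarith
  · intro hκ
    rw [mem_gateF2] at hκ
    simp only [co]
    obtain ⟨b1, b2, b3, b4⟩ := plusR_bounds hx (a := -1 - 26 * c) (b := -1 - 26 * c)
      (c := -(5 * c)) (d := 5 * c) (by omega) (by omega) (by omega) (by omega)
    refine ⟨?_, ?_, ?_, ?_⟩ <;> nlinarith
  · intro hκ
    rw [mem_gateF3] at hκ
    simp only [co]
    obtain ⟨b1, b2, b3, b4⟩ := plusR_bounds hx (c := -1 - 26 * c) (d := -1 - 26 * c)
      (a := -(5 * c)) (b := 5 * c) (by omega) (by omega) (by omega) (by omega)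
    refine ⟨?_, ?_, ?_, ?_⟩ <;> nlinarith

theorem arm_ext {N M c : ℤ} {k : Fin 4 → P2} {K : Fin 4 → Finset P2} (h : TokOut N M k K)
    (hM : 10 ≤ M) (hc : M + 3 ≤ 16 * c) {n n' : ℕ} (hn' : (n' : ℤ) = c * n) {z : Cfz} (i : Fin 4)
    (hz : z ∈ tubeX n (ext M c K i)) {S : Set P2} (hS : S ⊆ Sq (16 * n')) {u a : P2}
    (hua : OC z S u a) (ha : a ∈ Bk n (k i) 1) (hu : OutB n (k i) 4 u) :
    GArm z i n' u := by
  have hn : (0 : ℤ) ≤ n := by positivity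
  have h1n : 1 * (n : ℤ) ≤ c * n := mul_le_mul_of_nonneg_right (by omega) hn
  obtain ⟨x, hx, hxc⟩ := ext_conn h hM hc i
  have hring := ring_sub_ext (c := c) h i
  have hreg := ext_region h hM hc n n' hn' i
  have hgr := gate_region (c := c) (by omega) n n' hn' i
  have hSR : S ∪ tubeR n (ext M c K i) ⊆ Sq (16 * n') ∪ Corr i n' :=
    Set.union_subset (hS.trans Set.subset_union_left) hreg
  have hGC : Gate i n' ⊆ Sq (16 * n') ∪ Corr i n' := (Gate_sub i n').trans Set.subset_union_right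
  have hgate : gateF i c ⊆ ext M c K i := fun y hy => mem_ext.2 (Or.inr (Or.inr hy))
  revert i
  refine fin4_cases ?_ ?_ ?_ ?_
  · intro hz ha hu hx hxc hring hreg hgr hSR hGC hgate
    obtain ⟨A, B, hA, hB, h1, h2⟩ := arm_col hz (by norm_num : (2 : ℤ) ≤ 3) hring
      (i := 26 * c) (j0 := -(5 * c)) (j1 := 5 * c) (by omega) hgate hx hxc hua ha hu
    refine ⟨A, B, ?_, ?_, h1.monoS hgr, h2.monoS hSR⟩
    · show A.2 ≤ _
      rw [hA, hn']; nlinarith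
    · show _ ≤ B.2
      rw [hB, hn']; nlinarith
  · intro hz ha hu hx hxc hring hreg hgr hSR hGC hgate
    obtain ⟨A, B, hA, hB, h1, h2⟩ := arm_row hz (by norm_num : (2 : ℤ) ≤ 3) hring
      (j := 26 * c) (i0 := -(5 * c)) (i1 := 5 * c) (by omega) hgate hx hxc hua ha hu
    refine ⟨B, A, ?_, ?_, (h1.monoS hgr).symm, (h2.monoS hSR).trans ((h1.monoS hgr).monoS hGC)⟩
    · show -B.1 ≤ _
      rw [hB, hn']; nlinarith
    · show _ ≤ -A.1
      rw [hA, hn']; nlinarith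
  · intro hz ha hu hx hxc hring hreg hgr hSR hGC hgate
    obtain ⟨A, B, hA, hB, h1, h2⟩ := arm_col hz (by norm_num : (2 : ℤ) ≤ 3) hring
      (i := -1 - 26 * c) (j0 := -(5 * c)) (j1 := 5 * c) (by omega) hgate hx hxc hua ha hu
    refine ⟨B, A, ?_, ?_, (h1.monoS hgr).symm, (h2.monoS hSR).trans ((h1.monoS hgr).monoS hGC)⟩
    · show -B.2 ≤ _
      rw [hB, hn']; nlinarith
    · show _ ≤ -A.2
      rw [hA, hn']; nlinarith
  · intro hz ha hu hx hxc hring hreg hgr hSR hGC hgate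
    obtain ⟨A, B, hA, hB, h1, h2⟩ := arm_row hz (by norm_num : (2 : ℤ) ≤ 3) hring
      (j := -1 - 26 * c) (i0 := -(5 * c)) (i1 := 5 * c) (by omega) hgate hx hxc hua ha hu
    refine ⟨A, B, ?_, ?_, h1.monoS hgr, h2.monoS hSR⟩
    · show A.1 ≤ _
      rw [hA, hn']; nlinarith
    · show _ ≤ B.1
      rw [hB, hn']; nlinarith

end Crest.Agent.R158.Sg689
end
end

-- ▼ part R158/Sg4_689
section

/-!
# Row 158, Block SEP, leaf L5 (helper689): supports, gluing of the inner landing events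

* `glue_core` : `c^B P(Uin e (N n) n k0 k1 k2 k3) ≤ P(Nice e n' true true)` and the mirrored form
-/

set_option autoImplicit false

noncomputable section

namespace Crest.Agent.R158.Sg689

open MeasureTheory ProbabilityTheory unitInterval
open Crest.Agent.R161.Geo729 Crest.Agent.R161.Topo374 Crest.Agent.R161.Dual374
open Crest.Agent.R161.Tas682
open Crest.Agent.R158.Rs689 Crest.Agent.R158.Sp580 Crest.Agent.R158.Ru874

/-- region of the support of a cell -/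
def InCell (n : ℕ) (κ x : P2) : Prop :=
  κ.1 * n - n ≤ x.1 ∧ x.1 ≤ κ.1 * n + 2 * n ∧ κ.2 * n - n ≤ x.2 ∧ x.2 ≤ κ.2 * n + 2 * n

theorem cell_out {n : ℕ} {κ x : P2} (h : InCell n κ x) {N : ℤ} (hκ : OutR N κ) :
    (N - 1) * n ≤ x.1 ∨ x.1 ≤ -((N - 1) * n) ∨ (N - 1) * n ≤ x.2 ∨ x.2 ≤ -((N - 1) * n) := by
  have hn : (0 : ℤ) ≤ n := by positivity
  obtain ⟨h1, h2, h3, h4⟩ := h
  rcases hκ with h5 | h5 | h5 | h5
  · have := mul_le_mul_of_nonneg_right h5 hn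
    left; nlinarith
  · have := mul_le_mul_of_nonneg_right h5 hn
    right; left; nlinarith
  · have := mul_le_mul_of_nonneg_right h5 hn
    right; right; left; nlinarith
  · have := mul_le_mul_of_nonneg_right h5 hn
    right; right; right; nlinarith

theorem cell_near {n : ℕ} {κ k x : P2} (h : InCell n κ x) (hκ : |κ.1 - k.1| ≤ 4 ∧ |κ.2 - k.2| ≤ 4) :
    (k.1 - 5) * n ≤ x.1 ∧ x.1 ≤ (k.1 + 6) * n ∧ (k.2 - 5) * n ≤ x.2 ∧ x.2 ≤ (k.2 + 6) * n := by
  have hn : (0 : ℤ) ≤ n := by positivity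
  obtain ⟨h1, h2, h3, h4⟩ := h
  rw [abs_le, abs_le] at hκ
  obtain ⟨⟨a1, a2⟩, a3, a4⟩ := hκ
  have e1 := mul_le_mul_of_nonneg_right (show k.1 - 4 ≤ κ.1 by omega) hn
  have e2 := mul_le_mul_of_nonneg_right (show κ.1 ≤ k.1 + 4 by omega) hn
  have e3 := mul_le_mul_of_nonneg_right (show k.2 - 4 ≤ κ.2 by omega) hn
  have e4 := mul_le_mul_of_nonneg_right (show κ.2 ≤ k.2 + 4 by omega) hn
  refine ⟨?_, ?_, ?_, ?_⟩ <;> nlinarith

theorem ext_near {N M c : ℤ} {k : Fin 4 → P2} {K : Fin 4 → Finset P2} (h : TokOut N M k K)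
    (hNM : N + 2 ≤ M) (hM : 10 ≤ M) (hc : M + 3 ≤ 16 * c) (i : Fin 4) :
    ∀ κ ∈ ext M c K i, (|κ.1 - (k i).1| ≤ 4 ∧ |κ.2 - (k i).2| ≤ 4) ∨ OutR (N + 2) κ := by
  intro κ hκ
  rw [mem_ext] at hκ
  rcases hκ with hκ | hκ
  · exact h.near i κ hκ
  · right
    revert i
    refine fin4_cases ?_ ?_ ?_ ?_ <;> intro hκ <;>
      simp only [mem_rayF0, mem_rayF1, mem_rayF2, mem_rayF3, mem_gateF0, mem_gateF1,
          mem_gateF2, mem_gateF3] at hκ <;> unfold OutR <;> omega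

theorem mem_tubeE {n : ℕ} {K : Finset P2} {g : Edge} (h : g ∈ tubeE n K) :
    ∃ κ ∈ K, InCell n κ (src g) ∧ InCell n κ (tgt g) := by
  classical
  unfold tubeE at h
  rw [Finset.mem_biUnion] at h
  obtain ⟨κ, hκ, h⟩ := h
  exact ⟨κ, hκ, mem_cellE h⟩

theorem src_dEs (g : Edge) : (src g).1 ≤ (src (dE.symm g)).1 ∧ (src (dE.symm g)).1 ≤ (src g).1 + 1 ∧
    (src g).2 ≤ (src (dE.symm g)).2 ∧ (src (dE.symm g)).2 ≤ (src g).2 + 1 := by
  obtain ⟨⟨i, j⟩, b⟩ := g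
  cases b <;> simp

theorem ofNat_pos' {n : ℕ} (hn : 2 ≤ n) : (2 : ℤ) ≤ n := by exact_mod_cast hn

/-- supports: open landing event versus dual tube -/
theorem disj_P {N M c R : ℤ} {k : Fin 4 → P2} {K : Fin 4 → Finset P2} (h : TokOut N M k K)
    (hNM : N + 2 ≤ M) (hM : 10 ≤ M) (hc : M + 3 ≤ 16 * c) {n : ℕ} (hn : 2 ≤ n) (hR : R = N * n)
    {T : Finset P2} {i j : Fin 4} (hT : ∀ κ ∈ T, κ ∈ ext M c K i ∨ κ ∈ ext M c K j)
    {D : Set P2} (hDf : D.Finite)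
    (hD : ∀ x ∈ D, x ∈ Sp580.Sq R ∧ x ∉ Bk n (k i) 8 ∧ x ∉ Bk n (k j) 8) :
    Disjoint (edF D) ((tubeE n T).map dE.symm.toEmbedding) := by
  have hn' := ofNat_pos' hn
  rw [Finset.disjoint_left]
  intro g hg hg'
  rw [mem_edF hDf] at hg
  obtain ⟨hx, hx2, hx3⟩ := hD _ hg.1
  rw [Finset.mem_map] at hg'
  obtain ⟨g', hg', rfl⟩ := hg'
  obtain ⟨κ, hκ, h1, _⟩ := mem_tubeE hg'
  have h2 := src_dEs g'
  have e0 : dE.symm.toEmbedding g' = dE.symm g' := rfl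
  rw [e0] at hx hx2 hx3
  have key : ∀ l : Fin 4, κ ∈ ext M c K l → src (dE.symm g') ∉ Bk n (k l) 8 → False := by
    intro l hl hx4
    rcases ext_near h hNM hM hc l κ hl with h3 | h3
    · obtain ⟨b1, b2, b3, b4⟩ := cell_near h1 h3
      apply hx4
      rw [mem_Bk]
      refine ⟨?_, ?_, ?_, ?_⟩ <;> nlinarith
    · have h4 := cell_out h1 h3
      rw [mem_Sq, hR] at hx
      rcases h4 with h4 | h4 | h4 | h4 <;> nlinarith
  rcases hT κ hκ with h3 | h3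
  · exact key i h3 hx2
  · exact key j h3 hx3

/-- supports: dual landing event versus open tube -/
theorem disj_D {N M c R : ℤ} {k : Fin 4 → P2} {K : Fin 4 → Finset P2} (h : TokOut N M k K)
    (hNM : N + 2 ≤ M) (hM : 10 ≤ M) (hc : M + 3 ≤ 16 * c) {n : ℕ} (hn : 2 ≤ n) (hR : R = N * n)
    {T : Finset P2} {i j : Fin 4} (hT : ∀ κ ∈ T, κ ∈ ext M c K i ∨ κ ∈ ext M c K j)
    {D : Set P2} (hDf : D.Finite)
    (hD : ∀ x ∈ D, x ∈ FSq R ∧ x ∉ Bk n (k i) 8 ∧ x ∉ Bk n (k j) 8) :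
    Disjoint ((edF D).map dE.symm.toEmbedding) (tubeE n T) := by
  have hn' := ofNat_pos' hn
  rw [Finset.disjoint_left]
  intro g hg hg'
  rw [Finset.mem_map] at hg
  obtain ⟨g', hg, rfl⟩ := hg
  rw [mem_edF hDf] at hg
  obtain ⟨hx, hx2, hx3⟩ := hD _ hg.1
  obtain ⟨κ, hκ, h1, _⟩ := mem_tubeE hg'
  have h2 := src_dEs g'
  have e0 : dE.symm.toEmbedding g' = dE.symm g' := rfl
  rw [e0] at h1
  have key : ∀ l : Fin 4, κ ∈ ext M c K l → src g' ∉ Bk n (k l) 8 → False := by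
    intro l hl hx4
    rcases ext_near h hNM hM hc l κ hl with h3 | h3
    · obtain ⟨b1, b2, b3, b4⟩ := cell_near h1 h3
      apply hx4
      rw [mem_Bk]
      refine ⟨?_, ?_, ?_, ?_⟩ <;> nlinarith
    · have h4 := cell_out h1 h3
      rw [mem_FSq, hR] at hx
      rcases h4 with h4 | h4 | h4 | h4 <;> nlinarith
  rcases hT κ hκ with h3 | h3
  · exact key i h3 hx2
  · exact key j h3 hx3

/-- the cells of the prolonged tokens are far from the origin -/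
theorem ext_away {N M c : ℤ} {k : Fin 4 → P2} {K : Fin 4 → Finset P2} (h : TokOut N M k K)
    (hNM : N + 2 ≤ M) (hM : 10 ≤ M) (hc : M + 3 ≤ 16 * c) (hk : ∀ i, OutR (N - 1) (k i))
    (i : Fin 4) : ∀ κ ∈ ext M c K i, OutR (N - 5) κ := by
  intro κ hκ
  rcases ext_near h hNM hM hc i κ hκ with h1 | h1
  · rw [abs_le, abs_le] at h1
    have h2 := hk i
    unfold OutR at *
    omega
  · unfold OutR at *
    omega

theorem tube_away {N M c : ℤ} {k : Fin 4 → P2} {K : Fin 4 → Finset P2} (h : TokOut N M k K)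
    (hNM : N + 2 ≤ M) (hM : 10 ≤ M) (hc : M + 3 ≤ 16 * c) (hk : ∀ i, OutR (N - 1) (k i))
    (hN : 10 ≤ N) {n : ℕ} (hn : 1 ≤ n) {i : Fin 4} {g : Edge} (hg : g ∈ tubeE n (ext M c K i)) :
    4 ≤ (src g).1 ∨ (src g).1 ≤ -4 ∨ 4 ≤ (src g).2 ∨ (src g).2 ≤ -4 := by
  have hn' : (1 : ℤ) ≤ n := by exact_mod_cast hn
  obtain ⟨κ, hκ, h1, _⟩ := mem_tubeE hg
  have h2 := cell_out h1 (ext_away h hNM hM hc hk i κ hκ)
  rcases h2 with h2 | h2 | h2 | h2
  · left; nlinarith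
  · right; left; nlinarith
  · right; right; left; nlinarith
  · right; right; right; nlinarith

theorem tube_frc {N M c : ℤ} {k : Fin 4 → P2} {K : Fin 4 → Finset P2} (h : TokOut N M k K)
    (hNM : N + 2 ≤ M) (hM : 10 ≤ M) (hc : M + 3 ≤ 16 * c) (hk : ∀ i, OutR (N - 1) (k i))
    (hN : 10 ≤ N) {n : ℕ} (hn : 1 ≤ n) {i : Fin 4} {e : Edge} (he : src e = (0, 0)) {z : Cfz}
    (b : Bool) (hz : z ∈ tubeX n (ext M c K i)) : frc e b z ∈ tubeX n (ext M c K i) := by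
  refine (tubeX_dep n (ext M c K i) z (frc e b z) fun g hg => ?_).1 hz
  have h1 := tube_away h hNM hM hc hk hN hn hg
  rw [frc_ne]
  rintro rfl
  rw [he] at h1
  simp at h1

theorem tube_frc_dual {N M c : ℤ} {k : Fin 4 → P2} {K : Fin 4 → Finset P2} (h : TokOut N M k K)
    (hNM : N + 2 ≤ M) (hM : 10 ≤ M) (hc : M + 3 ≤ 16 * c) (hk : ∀ i, OutR (N - 1) (k i))
    (hN : 10 ≤ N) {n : ℕ} (hn : 1 ≤ n) {i : Fin 4} {e : Edge} (he : src e = (0, 0)) {z : Cfz}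
    (b : Bool) (hz : dual z ∈ tubeX n (ext M c K i)) :
    dual (frc e b z) ∈ tubeX n (ext M c K i) := by
  refine (tubeX_dep n (ext M c K i) (dual z) (dual (frc e b z)) fun g hg => ?_).1 hz
  have h1 := tube_away h hNM hM hc hk hN hn hg
  have h2 := src_dEs g
  show (!z (dE.symm g)) = !(frc e b z) (dE.symm g)
  rw [frc_ne]
  intro h3
  rw [h3, he] at h2
  simp only at h2
  omega

/-- the starting points are outside the landing blocks -/
theorem start_out {N : ℤ} {k : Fin 4 → P2} (hk : ∀ i, OutR (N - 1) (k i)) (hN : 10 ≤ N) {n : ℕ}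
    (hn : 1 ≤ n) (i : Fin 4) {x : P2} (hx : -1 ≤ x.1 ∧ x.1 ≤ 1 ∧ -1 ≤ x.2 ∧ x.2 ≤ 1) :
    OutB n (k i) 4 x := by
  have hn' : (1 : ℤ) ≤ n := by exact_mod_cast hn
  unfold OutB
  rcases hk i with h | h | h | h
  · left
    have := mul_le_mul_of_nonneg_right (show (5 : ℤ) ≤ (k i).1 - 4 by omega) (show (0 : ℤ) ≤ n by omega)
    nlinarith
  · right; left
    have := mul_le_mul_of_nonneg_right (show (k i).1 + 4 + 1 ≤ (-5 : ℤ) by omega)
      (show (0 : ℤ) ≤ n by omega)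
    nlinarith
  · right; right; left
    have := mul_le_mul_of_nonneg_right (show (5 : ℤ) ≤ (k i).2 - 4 by omega) (show (0 : ℤ) ≤ n by omega)
    nlinarith
  · right; right; right
    have := mul_le_mul_of_nonneg_right (show (k i).2 + 4 + 1 ≤ (-5 : ℤ) by omega)
      (show (0 : ℤ) ≤ n by omega)
    nlinarith

/-- number of cells -/
theorem ext_card {N M c : ℤ} {k : Fin 4 → P2} {K : Fin 4 → Finset P2} (h : TokOut N M k K)
    (hM : 10 ≤ M) (hc : M + 3 ≤ 16 * c) {T : Finset P2} {i j : Fin 4}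
    (hT : ∀ κ ∈ T, κ ∈ ext M c K i ∨ κ ∈ ext M c K j) :
    T.card ≤ (52 * c + 2).toNat ^ 2 := by
  have h1 : ∀ l : Fin 4, ∀ κ ∈ ext M c K l, InR (26 * c) κ := by
    intro l κ hκ
    rw [mem_ext] at hκ
    rcases hκ with hκ | hκ
    · have := h.le l κ hκ
      unfold InR at *
      omega
    · revert l
      refine fin4_cases ?_ ?_ ?_ ?_ <;> intro hκ <;>
        simp only [mem_rayF0, mem_rayF1, mem_rayF2, mem_rayF3, mem_gateF0, mem_gateF1,
          mem_gateF2, mem_gateF3] at hκ <;> unfold InR <;> omega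
  have h2 : T ⊆ Finset.Icc (-1 - 26 * c) (26 * c) ×ˢ Finset.Icc (-1 - 26 * c) (26 * c) := by
    intro κ hκ
    have h3 : InR (26 * c) κ := (hT κ hκ).elim (h1 i κ) (h1 j κ)
    rw [Finset.mem_product, Finset.mem_Icc, Finset.mem_Icc]
    exact ⟨⟨h3.1, h3.2.1⟩, h3.2.2.1, h3.2.2.2⟩
  refine (Finset.card_le_card h2).trans ?_
  rw [Finset.card_product, Int.card_Icc, sq]
  have : 26 * c + 1 - (-1 - 26 * c) = 52 * c + 2 := by ring
  rw [this]

/-! ### the gluing -/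

theorem tube_union_mem {n : ℕ} {K1 K2 T : Finset P2} (hT : ∀ κ, κ ∈ T ↔ κ ∈ K1 ∨ κ ∈ K2) {z : Cfz}
    (hz : z ∈ tubeX n T) : z ∈ tubeX n K1 ∧ z ∈ tubeX n K2 :=
  ⟨tubeX_mono (fun _ h => (hT _).2 (Or.inl h)) hz, tubeX_mono (fun _ h => (hT _).2 (Or.inr h)) hz⟩

/-- generic form: `Ap`, `Am` landing events -/
theorem glue_gen {N M : ℤ} {c : ℕ} {k : Fin 4 → P2} {K : Fin 4 → Finset P2} (h : TokOut N M k K)
    (hNM : N + 2 ≤ M) (hM : 10 ≤ M) (hc : M + 3 ≤ 16 * c) {n : ℕ} (hn : 2 ≤ n)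
    {c0 : ℝ} {p : I} (hp : RSp c0 p n) {Tp Tm : Finset Edge} {Ap Am : Set Cfz}
    (hAp : Dep Tp Ap) (hAm : Dep Tm Am) (iAp : Inc Ap) (iAm : Decr Am)
    (d1 : ∀ T : Finset P2, (∀ κ ∈ T, κ ∈ ext M c K 1 ∨ κ ∈ ext M c K 3) →
      Disjoint Tp ((tubeE n T).map dE.symm.toEmbedding))
    (d2 : ∀ T : Finset P2, (∀ κ ∈ T, κ ∈ ext M c K 0 ∨ κ ∈ ext M c K 2) → Disjoint Tm (tubeE n T))
    {G : Set Cfz}
    (hG : ∀ z ∈ Ap ∩ Am, z ∈ tubeX n (ext M c K 0) → z ∈ tubeX n (ext M c K 2) →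
      dual z ∈ tubeX n (ext M c K 1) → dual z ∈ tubeX n (ext M c K 3) → z ∈ G) :
    c0 ^ (4 * (52 * c + 2) ^ 2) * (nu p).real (Ap ∩ Am) ≤ (nu p).real G := by
  classical
  set T02 := ext M c K 0 ∪ ext M c K 2 with hT02
  set T13 := ext M c K 1 ∪ ext M c K 3 with hT13
  have m02 : ∀ κ, κ ∈ T02 ↔ κ ∈ ext M c K 0 ∨ κ ∈ ext M c K 2 := fun κ => Finset.mem_union
  have m13 : ∀ κ, κ ∈ T13 ↔ κ ∈ ext M c K 1 ∨ κ ∈ ext M c K 3 := fun κ => Finset.mem_union
  have cnat : (52 * (c : ℤ) + 2).toNat = 52 * c + 2 := by omega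
  have b02 : T02.card ≤ (52 * c + 2) ^ 2 := by
    have := ext_card h hM hc fun κ hκ => (m02 κ).1 hκ
    rwa [cnat] at this
  have b13 : T13.card ≤ (52 * c + 2) ^ 2 := by
    have := ext_card h hM hc fun κ hκ => (m13 κ).1 hκ
    rwa [cnat] at this
  have d3 : Disjoint (tubeE n T02) ((tubeE n T13).map dE.symm.toEmbedding) := by
    refine tubeE_disj_dual (by omega) fun κ hκ κ' hκ' => far5_abs ?_
    rcases (m02 κ).1 hκ with h1 | h1 <;> rcases (m13 κ').1 hκ' with h2 | h2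
    · exact ext_far h hM hc 0 1 (by decide) κ h1 κ' h2
    · exact ext_far h hM hc 0 3 (by decide) κ h1 κ' h2
    · exact ext_far h hM hc 2 1 (by decide) κ h1 κ' h2
    · exact ext_far h hM hc 2 3 (by decide) κ h1 κ' h2
  have key := gen_fkg_dual p hAp hAm (tubeX_dep n T02) (tubeX_dep n T13)
    (d1 T13 fun κ hκ => (m13 κ).1 hκ) (d2 T02 fun κ hκ => (m02 κ).1 hκ) d3 iAp iAm
    (tubeX_inc n T02) (tubeX_inc n T13)
  have e1 := (hp.tube (n := n) (by omega) le_rfl b02).1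
  have e2 := (hp.tube (n := n) (by omega) le_rfl b13).2
  have hc0 : 0 < c0 := hp.1
  calc c0 ^ (4 * (52 * c + 2) ^ 2) * (nu p).real (Ap ∩ Am)
      = (nu p).real (Ap ∩ Am) * (c0 ^ (2 * (52 * c + 2) ^ 2) * c0 ^ (2 * (52 * c + 2) ^ 2)) := by
        rw [← pow_add, mul_comm]
        congr 2
        ring
    _ ≤ (nu p).real (Ap ∩ Am) *
          ((nu p).real (tubeX n T02) * (nu (σ p)).real (tubeX n T13)) :=
        mul_le_mul_of_nonneg_left (mul_le_mul e1 e2 (by positivity) measureReal_nonneg)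
          measureReal_nonneg
    _ ≤ _ := key
    _ ≤ (nu p).real G := by
        refine measureReal_mono ?_
        rintro z ⟨hz, hz1, hz2⟩
        obtain ⟨h1, h2⟩ := tube_union_mem m02 hz1
        obtain ⟨h3, h4⟩ := tube_union_mem m13 hz2
        exact hG z hz h1 h2 h3 h4

theorem src_tgt_zero {e : Edge} (he : src e = (0, 0)) :
    (-1 ≤ (src e).1 ∧ (src e).1 ≤ 1 ∧ -1 ≤ (src e).2 ∧ (src e).2 ≤ 1) ∧
    (-1 ≤ (tgt e).1 ∧ (tgt e).1 ≤ 1 ∧ -1 ≤ (tgt e).2 ∧ (tgt e).2 ≤ 1) ∧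
    (-1 ≤ (fA e).1 ∧ (fA e).1 ≤ 1 ∧ -1 ≤ (fA e).2 ∧ (fA e).2 ≤ 1) ∧
    (-1 ≤ (fB e).1 ∧ (fB e).1 ≤ 1 ∧ -1 ≤ (fB e).2 ∧ (fB e).2 ≤ 1) := by
  obtain ⟨⟨a, b⟩, d⟩ := e
  have h : ((a, b) : P2) = (0, 0) := he
  rw [Prod.mk.injEq] at h
  obtain ⟨rfl, rfl⟩ := h
  cases d <;> simp

/-- **Gluing of the inner landing event** (L5), both cyclic orders. -/
theorem glue_core {N M : ℤ} {c : ℕ} {k : Fin 4 → P2} {K : Fin 4 → Finset P2} (h : TokOut N M k K)
    (hk : ∀ i, OutR (N - 1) (k i)) (hN : 10 ≤ N)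
    (hNM : N + 2 ≤ M) (hc : M + 3 ≤ 16 * c) {n n' : ℕ} (hn : 2 ≤ n) (hn' : n' = c * n)
    {c0 : ℝ} {p : I} (hp : RSp c0 p n) {e : Edge} (he : src e = (0, 0)) :
    c0 ^ (4 * (52 * c + 2) ^ 2) * (nu p).real (Uin e (N * n) n (k 0) (k 1) (k 2) (k 3)) ≤
      (nu p).real (Nice e n' true true) ∧
    c0 ^ (4 * (52 * c + 2) ^ 2) * (nu p).real (Uin e (N * n) n (k 0) (k 3) (k 2) (k 1)) ≤
      (nu p).real (Nice e n' true false) := by
  have hM : 10 ≤ M := by omega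
  have hn1 : 1 ≤ n := by omega
  have hn0 : (2 : ℤ) ≤ n := ofNat_pos' hn
  have hn'' : (n' : ℤ) = (c : ℤ) * n := by rw [hn']; push_cast; ring
  obtain ⟨s1, s2, s3, s4⟩ := src_tgt_zero he
  have hSq : Sp580.Sq (N * n) ⊆ Sp580.Sq (16 * n') := by
    refine Sq_sub ?_
    rw [hn'']
    nlinarith
  have hFSq : FSq (N * n) ⊆ Sp580.Sq (16 * n') := by
    intro x hx
    rw [mem_FSq] at hx
    rw [mem_Sq, hn'']
    refine ⟨?_, ?_, ?_, ?_⟩ <;> nlinarith
  have P := fun (z : Cfz) (i : Fin 4) (hz : z ∈ tubeX n (ext M c K i)) (S : Set P2)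
    (hS : S ⊆ Sp580.Sq (16 * n')) (u a : P2) (hua : OC z S u a) (ha : a ∈ Bk n (k i) 1)
    (hu : -1 ≤ u.1 ∧ u.1 ≤ 1 ∧ -1 ≤ u.2 ∧ u.2 ≤ 1) =>
      arm_ext h hM hc hn'' i hz hS hua ha (start_out hk hN hn1 i hu)
  constructor
  · refine glue_gen h hNM hM hc hn hp (dep_UinP e _ n (k 0) (k 1) (k 2) (k 3))
      (dep_UinD e _ n (k 0) (k 1) (k 2) (k 3)) (inc_UinP e _ n _ _ _ _)
      (decr_UinD e _ n _ _ _ _) ?_ ?_ ?_
    · intro T hT
      refine disj_P h hNM hM hc hn rfl (i := 1) (j := 3) hT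
        ((Sq_finite _).subset Set.sdiff_subset) ?_
      rintro x ⟨h1, h2⟩
      exact ⟨h1, fun h3 => h2 (Or.inl h3), fun h3 => h2 (Or.inr h3)⟩
    · intro T hT
      refine disj_D h hNM hM hc hn rfl (i := 0) (j := 2) hT
        ((FSq_finite _).subset Set.sdiff_subset) ?_
      rintro x ⟨h1, h2⟩
      exact ⟨h1, fun h3 => h2 (Or.inl h3), fun h3 => h2 (Or.inr h3)⟩
    · rintro z ⟨⟨⟨a0, ha0, h0⟩, ⟨a2, ha2, h2⟩⟩, ⟨⟨a1, ha1, h1⟩, ⟨a3, ha3, h3⟩⟩⟩ t0 t2 t1 t3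
      have f0 := tube_frc h hNM hM hc hk hN hn1 he false t0
      have f2 := tube_frc h hNM hM hc hk hN hn1 he false t2
      have f1 := tube_frc_dual h hNM hM hc hk hN hn1 he true t1
      have f3 := tube_frc_dual h hNM hM hc hk hN hn1 he true t3
      exact ⟨⟨P _ 0 f0 _ (Set.sdiff_subset.trans hSq) _ _ h0 ha0 s1,
        P _ 2 f2 _ (Set.sdiff_subset.trans hSq) _ _ h2 ha2 s2⟩,
        ⟨P _ 1 f1 _ (Set.sdiff_subset.trans hFSq) _ _ h1 ha1 s3,
        P _ 3 f3 _ (Set.sdiff_subset.trans hFSq) _ _ h3 ha3 s4⟩⟩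
  · refine glue_gen h hNM hM hc hn hp (dep_UinP e _ n (k 0) (k 3) (k 2) (k 1))
      (dep_UinD e _ n (k 0) (k 3) (k 2) (k 1)) (inc_UinP e _ n _ _ _ _)
      (decr_UinD e _ n _ _ _ _) ?_ ?_ ?_
    · intro T hT
      refine disj_P h hNM hM hc hn rfl (i := 1) (j := 3) hT
        ((Sq_finite _).subset Set.sdiff_subset) ?_
      rintro x ⟨h1, h2⟩
      exact ⟨h1, fun h3 => h2 (Or.inr h3), fun h3 => h2 (Or.inl h3)⟩
    · intro T hT
      refine disj_D h hNM hM hc hn rfl (i := 0) (j := 2) hT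
        ((FSq_finite _).subset Set.sdiff_subset) ?_
      rintro x ⟨h1, h2⟩
      exact ⟨h1, fun h3 => h2 (Or.inl h3), fun h3 => h2 (Or.inr h3)⟩
    · rintro z ⟨⟨⟨a0, ha0, h0⟩, ⟨a2, ha2, h2⟩⟩, ⟨⟨a1, ha1, h1⟩, ⟨a3, ha3, h3⟩⟩⟩ t0 t2 t1 t3
      have f0 := tube_frc h hNM hM hc hk hN hn1 he false t0
      have f2 := tube_frc h hNM hM hc hk hN hn1 he false t2
      have f1 := tube_frc_dual h hNM hM hc hk hN hn1 he true t1
      have f3 := tube_frc_dual h hNM hM hc hk hN hn1 he true t3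
      exact ⟨⟨P _ 0 f0 _ (Set.sdiff_subset.trans hSq) _ _ h0 ha0 s1,
        P _ 2 f2 _ (Set.sdiff_subset.trans hSq) _ _ h2 ha2 s2⟩,
        ⟨P _ 3 f3 _ (Set.sdiff_subset.trans hFSq) _ _ h1 ha1 s3,
        P _ 1 f1 _ (Set.sdiff_subset.trans hFSq) _ _ h3 ha3 s4⟩⟩

end Crest.Agent.R158.Sg689
end
end

-- ▼ part R158/Sg5_689

/-!
# Row 158, Block SEP, leaf L5 (helper689): `glue_in`

`c^B P(Uin e (N n) n k1 k2 k3 k4) ≤ P(NiceU e (c n))` for four cells of the ring `N - 1`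
in alternating cyclic order (either orientation) with gaps `≥ 26`.
-/

set_option autoImplicit false

noncomputable section

namespace Crest.Agent.R158.Sg689

open MeasureTheory ProbabilityTheory unitInterval
open Crest.Agent.R161.Geo729 Crest.Agent.R161.Topo374 Crest.Agent.R161.Dual374
open Crest.Agent.R161.Tas682
open Crest.Agent.R158.Rs689 Crest.Agent.R158.Sp580 Crest.Agent.R158.Ru874 Crest.Agent.R158.Sp874

theorem rt_std (M : ℤ) : ∀ i : Fin 4, rt ((i : ℕ) : ℤ) (M, 0) = std i M := by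
  refine fin4_cases ?_ ?_ ?_ ?_ <;> simp [rt, std]

theorem outR_iff {N : ℤ} {c : P2} : OutR N c ↔ N ≤ nr c := by
  unfold OutR nr; omega

theorem inR_iff {M : ℤ} {c : P2} : InR M c ↔ nr c ≤ M := by
  unfold InR nr; omega

theorem onRay_std {M : ℤ} (hM : 0 ≤ M) : ∀ i : Fin 4, OnRay i (std i M) := by
  refine fin4_cases ?_ ?_ ?_ ?_ <;> simp only [OnRay, std]
  · exact ⟨trivial, hM⟩
  · exact ⟨trivial, hM⟩
  · exact ⟨trivial, by omega⟩
  · exact ⟨trivial, by omega⟩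

/-- tokens exist -/
theorem tokOut_of {N M : ℤ} (hN : 21 ≤ N) (hM : N + 200 ≤ M) {w : Fin 4 → ℤ}
    (hw : Gd (N - 1) 26 w) : ∃ K, TokOut N M (fun i => cl (N - 1) (w i)) K := by
  obtain ⟨K, h1, h2, h3, h4, h5, h6, h7, _⟩ := tok_out hN hM hw
  refine ⟨K, ⟨h1, ?_, ?_, ?_, ?_, ?_, ?_⟩⟩
  · intro i c hc
    rcases h2 i c hc with h | h
    · exact Or.inl h
    · exact Or.inr (outR_iff.2 h)
  · intro i c hc
    exact inR_iff.2 (h3 i c hc).2
  · intro i c hc h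
    have h8 := outR_iff.1 h
    have h9 := h7 i c hc (by omega)
    rw [h9, rt_std]
    exact onRay_std (by omega) i
  · intro i
    rw [← rt_std]
    exact h4 i
  · intro i
    have h0 : ((cl (N - 1) (w i)).1 - 3, (cl (N - 1) (w i)).2 - 3) ∈ ringC (cl (N - 1) (w i)) 3 := by
      generalize cl (N - 1) (w i) = κ
      unfold ringC
      rw [mem_frameC]
      exact ⟨⟨le_rfl, by simp only; omega, le_rfl, by simp only; omega⟩, Or.inl rfl⟩
    refine ⟨_, h0, ?_⟩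
    rw [← rt_std]
    exact h5 i _ h0
  · intro i j hij c hc c' hc'
    have := h6 i j hij c hc c' hc'
    unfold Far5
    rw [le_abs, le_abs] at this
    omega

theorem nr_cl' {N : ℤ} (hN : 1 ≤ N) (w : ℤ) : OutR (N - 1) (cl (N - 1) w) := by
  rw [outR_iff, nr_cl (by omega)]

/-- **L5** : gluing of the inner landing event -/
theorem glue_in {N c : ℕ} (hN : 21 ≤ N) (hc : N + 203 ≤ 16 * c) {n : ℕ} (hn : 2 ≤ n) {c0 : ℝ}
    {p : I} (hp : RSp c0 p n) {e : Edge} (he : src e = (0, 0)) {w : Fin 4 → ℤ}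
    (hw : Gd ((N : ℤ) - 1) 26 w ∨ Gd' ((N : ℤ) - 1) 26 w) :
    c0 ^ (4 * (52 * c + 2) ^ 2) * (nu p).real (Uin e (N * n) n (cl ((N : ℤ) - 1) (w 0))
      (cl ((N : ℤ) - 1) (w 1)) (cl ((N : ℤ) - 1) (w 2)) (cl ((N : ℤ) - 1) (w 3))) ≤
      (nu p).real (NiceU e (c * n)) := by
  rcases hw with hw | hw
  · obtain ⟨K, hK⟩ := tokOut_of (N := N) (M := N + 200) (by omega) le_rfl hw
    have h := (glue_core hK (fun i => nr_cl' (by omega) (w i)) (by omega) (by omega)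
      (c := c) (by omega) hn rfl hp he).1
    refine h.trans (measureReal_mono ?_)
    intro z hz
    exact ⟨true, true, hz⟩
  · obtain ⟨K, hK⟩ := tokOut_of (N := N) (M := N + 200) (by omega) le_rfl hw.gd
    have h := (glue_core hK (fun i => nr_cl' (by omega) _) (by omega) (by omega)
      (c := c) (by omega) hn rfl hp he).2
    have e1 : cl ((N : ℤ) - 1) (w 1) = cl ((N : ℤ) - 1) (w 1 + 4 * (2 * ((N : ℤ) - 1) + 1)) := by
      rw [cl_period (by omega)]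
    have e2 : cl ((N : ℤ) - 1) (w 2) = cl ((N : ℤ) - 1) (w 2 + 4 * (2 * ((N : ℤ) - 1) + 1)) := by
      rw [cl_period (by omega)]
    have e3 : cl ((N : ℤ) - 1) (w 3) = cl ((N : ℤ) - 1) (w 3 + 4 * (2 * ((N : ℤ) - 1) + 1)) := by
      rw [cl_period (by omega)]
    rw [e1, e2, e3]
    have e4 : sw13 1 = 3 := rfl
    have e5 : sw13 2 = 2 := rfl
    have e6 : sw13 3 = 1 := rfl
    simp only [e4, e5, e6] at h
    refine le_trans ?_ (h.trans (measureReal_mono ?_))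
    · exact le_rfl
    · intro z hz
      exact ⟨true, false, hz⟩

end Crest.Agent.R158.Sg689
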