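import Crest.Agent.R158.Sp0_580

-- ▼ part R158/Sp1_580
section

/-!
# Row 158, Block SEP (helper580): extension of the nice event

* `tubeE_box`, `tubeR_box` : location of tubes
* `ext_h`, `ext_v` : a gate crossing is prolonged by a row / column of cells to a new gate
* `nice_ext` : `c ^ 400 * P (Nice e n s t) ≤ P (Nice e (2 n) s t)` if both colours have `xpr ≥ c` at scale `n`
-/

set_option autoImplicit false
set_option linter.constructorNameAsVariable false

noncomputable section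

namespace Crest.Agent.R158.Sp580

open MeasureTheory ProbabilityTheory unitInterval
open Crest.Agent.R161.Geo729 Crest.Agent.R161.Topo374 Crest.Agent.R161.Dual374
open Crest.Agent.R161.Tas682 Crest.Agent.R158.Rs689 Crest.Agent.R158.Ru874

/-- all cells of `K` lie in the rectangle -/
def InC (K : Finset P2) (i0 i1 j0 j1 : ℤ) : Prop :=
  ∀ k ∈ K, i0 ≤ k.1 ∧ k.1 ≤ i1 ∧ j0 ≤ k.2 ∧ k.2 ≤ j1

theorem mul_bd {n : ℕ} {a b : ℤ} (h : a ≤ b) : a * (n : ℤ) ≤ b * n :=
  mul_le_mul_of_nonneg_right h (by positivity)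

theorem tubeE_box {n : ℕ} {K : Finset P2} {i0 i1 j0 j1 : ℤ} (hK : InC K i0 i1 j0 j1) {e : Edge}
    (he : e ∈ tubeE n K) :
    (i0 * n - n ≤ (src e).1 ∧ (src e).1 ≤ i1 * n + 2 * n ∧ j0 * n - n ≤ (src e).2 ∧
      (src e).2 ≤ j1 * n + 2 * n) ∧
    (i0 * n - n ≤ (tgt e).1 ∧ (tgt e).1 ≤ i1 * n + 2 * n ∧ j0 * n - n ≤ (tgt e).2 ∧
      (tgt e).2 ≤ j1 * n + 2 * n) := by
  classical
  unfold tubeE at he
  rw [Finset.mem_biUnion] at he
  obtain ⟨k, hk, he⟩ := he
  have h1 := mem_cellE he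
  obtain ⟨h2, h3, h4, h5⟩ := hK k hk
  have b1 := mul_bd (n := n) h2
  have b2 := mul_bd (n := n) h3
  have b3 := mul_bd (n := n) h4
  have b4 := mul_bd (n := n) h5
  omega

theorem tubeR_box {n : ℕ} {K : Finset P2} {i0 i1 j0 j1 : ℤ} (hK : InC K i0 i1 j0 j1) {w : P2}
    (hw : w ∈ tubeR n K) : i0 * n - n ≤ w.1 ∧ w.1 ≤ i1 * n + 2 * n ∧ j0 * n - n ≤ w.2 ∧
      w.2 ≤ j1 * n + 2 * n := by
  simp only [tubeR, Set.mem_iUnion] at hw
  obtain ⟨k, hk, hw⟩ := hw
  have h1 := mem_plusR hw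
  obtain ⟨h2, h3, h4, h5⟩ := hK k hk
  have b1 := mul_bd (n := n) h2
  have b2 := mul_bd (n := n) h3
  have b3 := mul_bd (n := n) h4
  have b4 := mul_bd (n := n) h5
  omega

theorem tubeE_union (n : ℕ) (K K' : Finset P2) : ∀ e : Edge,
    e ∈ tubeE n (K ∪ K') ↔ e ∈ tubeE n K ∨ e ∈ tubeE n K' := by
  classical
  intro e
  unfold tubeE
  simp only [Finset.mem_biUnion, Finset.mem_union]
  constructor
  · rintro ⟨k, h | h, he⟩
    · exact Or.inl ⟨k, h, he⟩
    · exact Or.inr ⟨k, h, he⟩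
  · rintro (⟨k, h, he⟩ | ⟨k, h, he⟩)
    · exact ⟨k, Or.inl h, he⟩
    · exact ⟨k, Or.inr h, he⟩

/-- the primal edge of a dual edge -/
theorem dual_loc (e : Edge) : ((src e).1 ≤ (src (dE.symm e)).1 ∧
    (src (dE.symm e)).1 ≤ (src e).1 + 1 ∧ (src e).2 ≤ (src (dE.symm e)).2 ∧
    (src (dE.symm e)).2 ≤ (src e).2 + 1) := by
  obtain ⟨⟨i, j⟩, b⟩ := e
  cases b <;> simp

/-! ### prolonging a gate crossing -/

/-- horizontal prolongation -/
theorem ext_h {z : Cf} {n : ℕ} {K : Finset P2} (hz : z ∈ tubeX n K) {i0 i1 c j0 j1 m : ℤ}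
    (hi : i0 ≤ i1) (hc : c = i0 ∨ c = i1) (hj0 : j0 ≤ 0) (hj1 : 0 ≤ j1)
    (hrow : rowC i0 i1 0 ⊆ K) (hcol : colC c j0 j1 ⊆ K) (hm : 2 * (n : ℤ) ≤ m)
    {D G : Set P2} {u A B : P2} (hu : OC z D u A) (hAB : OC z G A B)
    (hy : (A.2 ≤ -m ∧ m ≤ B.2) ∨ (m ≤ A.2 ∧ B.2 ≤ -m))
    (hG : ∀ w ∈ G, i0 * n - n ≤ w.1 ∧ w.1 ≤ i1 * n + 2 * n) :
    ∃ A' B' : P2, A'.2 = j0 * n - n ∧ B'.2 = j1 * n + 2 * n ∧
      OC z (tubeR n (colC c j0 j1)) A' B' ∧ OC z (D ∪ G ∪ tubeR n K) u A' := by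
  obtain ⟨a, b, v, ha, hb, hv, h1, h2⟩ := row_path hz hi hrow
  obtain ⟨A', B', v', hA', hB', hv', h1', h2'⟩ := col_path hz (hj0.trans hj1) hcol
  have hS : ∀ w ∈ tubeR n (rowC i0 i1 0), -(n : ℤ) ≤ w.2 ∧ w.2 ≤ 2 * n := by
    intro w hw
    have := mem_tubeR_row hw
    omega
  obtain ⟨w, hw1, hw2⟩ : ∃ w, OC z (tubeR n (rowC i0 i1 0)) a w ∧ OC z G A w := by
    rcases hy with ⟨y1, y2⟩ | ⟨y1, y2⟩
    · exact glue h1 hAB (fun w hw => by have := hS w hw; omega) (fun w hw => by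
        have := hG w hw; omega)
    · obtain ⟨w, h3, h4⟩ := glue h1 hAB.symm (fun w hw => by have := hS w hw; omega)
        (fun w hw => by have := hG w hw; omega)
      exact ⟨w, h3, hAB.trans h4⟩
  have m0 : ((i0, 0) : P2) ∈ K := hrow (mem_rowC.2 ⟨le_rfl, hi, rfl⟩)
  have hconn : CConn (K : Set P2) (i0, 0) (c, j0) := by
    have hcc : CConn (K : Set P2) (c, j0) (c, 0) := col_conn' hj0 fun j h3 h4 =>
      hcol (mem_colC.2 ⟨rfl, h3, h4.trans hj1⟩)
    rcases hc with rfl | rfl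
    · exact hcc.symm
    · exact (row_conn' hi fun i h3 h4 => hrow (mem_rowC.2 ⟨h3, h4, rfl⟩)).trans hcc.symm
  have ht := tube hz m0 hconn hv hv'
  refine ⟨A', B', hA', hB', h1', ?_⟩
  have s1 : D ⊆ D ∪ G ∪ tubeR n K := Set.subset_union_left.trans Set.subset_union_left
  have s2 : G ⊆ D ∪ G ∪ tubeR n K := Set.subset_union_right.trans Set.subset_union_left
  have s3 : tubeR n K ⊆ D ∪ G ∪ tubeR n K := Set.subset_union_right
  exact (((((hu.monoS s1).trans (hw2.monoS s2)).trans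
    (hw1.symm.monoS ((tubeR_mono n hrow).trans s3))).trans
    (h2.symm.monoS ((tubeR_mono n hrow).trans s3))).trans (ht.monoS s3)).trans
    (h2'.monoS ((tubeR_mono n hcol).trans s3))

/-- vertical prolongation -/
theorem ext_v {z : Cf} {n : ℕ} {K : Finset P2} (hz : z ∈ tubeX n K) {i0 i1 c j0 j1 m : ℤ}
    (hi : i0 ≤ i1) (hc : c = i0 ∨ c = i1) (hj0 : j0 ≤ 0) (hj1 : 0 ≤ j1)
    (hcol : colC 0 i0 i1 ⊆ K) (hrow : rowC j0 j1 c ⊆ K) (hm : 2 * (n : ℤ) ≤ m)
    {D G : Set P2} {u A B : P2} (hu : OC z D u A) (hAB : OC z G A B)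
    (hy : (A.1 ≤ -m ∧ m ≤ B.1) ∨ (m ≤ A.1 ∧ B.1 ≤ -m))
    (hG : ∀ w ∈ G, i0 * n - n ≤ w.2 ∧ w.2 ≤ i1 * n + 2 * n) :
    ∃ A' B' : P2, A'.1 = j0 * n - n ∧ B'.1 = j1 * n + 2 * n ∧
      OC z (tubeR n (rowC j0 j1 c)) A' B' ∧ OC z (D ∪ G ∪ tubeR n K) u A' := by
  obtain ⟨a, b, v, ha, hb, hv, h1, h2⟩ := col_path hz hi hcol
  obtain ⟨A', B', v', hA', hB', hv', h1', h2'⟩ := row_path hz (hj0.trans hj1) hrow
  have hS : ∀ w ∈ tubeR n (colC 0 i0 i1), -(n : ℤ) ≤ w.1 ∧ w.1 ≤ 2 * n := by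
    intro w hw
    have := mem_tubeR_col hw
    omega
  obtain ⟨w, hw1, hw2⟩ : ∃ w, OC z (tubeR n (colC 0 i0 i1)) a w ∧ OC z G A w := by
    rcases hy with ⟨y1, y2⟩ | ⟨y1, y2⟩
    · obtain ⟨w, h3, h4⟩ := glue hAB h1 (fun w hw => by have := hG w hw; omega) (fun w hw => by
        have := hS w hw; omega)
      exact ⟨w, h4, h3⟩
    · obtain ⟨w, h3, h4⟩ := glue hAB.symm h1 (fun w hw => by have := hG w hw; omega)
        (fun w hw => by have := hS w hw; omega)
      exact ⟨w, h4, hAB.trans h3⟩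
  have m0 : ((0, i0) : P2) ∈ K := hcol (mem_colC.2 ⟨rfl, le_rfl, hi⟩)
  have hconn : CConn (K : Set P2) (0, i0) (j0, c) := by
    have hcc : CConn (K : Set P2) (j0, c) (0, c) := row_conn' hj0 fun j h3 h4 =>
      hrow (mem_rowC.2 ⟨h3, h4.trans hj1, rfl⟩)
    rcases hc with rfl | rfl
    · exact hcc.symm
    · exact (col_conn' hi fun i h3 h4 => hcol (mem_colC.2 ⟨rfl, h3, h4⟩)).trans hcc.symm
  have ht := tube hz m0 hconn hv hv'
  refine ⟨A', B', hA', hB', h1', ?_⟩
  have s1 : D ⊆ D ∪ G ∪ tubeR n K := Set.subset_union_left.trans Set.subset_union_left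
  have s2 : G ⊆ D ∪ G ∪ tubeR n K := Set.subset_union_right.trans Set.subset_union_left
  have s3 : tubeR n K ⊆ D ∪ G ∪ tubeR n K := Set.subset_union_right
  exact (((((hu.monoS s1).trans (hw2.monoS s2)).trans
    (hw1.symm.monoS ((tubeR_mono n hcol).trans s3))).trans
    (h2.symm.monoS ((tubeR_mono n hcol).trans s3))).trans (ht.monoS s3)).trans
    (h2'.monoS ((tubeR_mono n hrow).trans s3))

/-! ### the cells of the extension -/

/-- cells of the prolongation in direction `d` -/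
def XC (d : Fin 4) : Finset P2 :=
  match d with
  | 0 => rowC 21 50 0 ∪ colC 50 (-7) 6
  | 1 => colC 0 21 50 ∪ rowC (-7) 6 50
  | 2 => rowC (-51) (-22) 0 ∪ colC (-51) (-7) 6
  | 3 => colC 0 (-51) (-22) ∪ rowC (-7) 6 (-51)

theorem XC_in0 : InC (XC 0) 21 50 (-7) 6 := by
  intro k hk
  simp only [XC, Finset.mem_union, mem_rowC, mem_colC] at hk
  omega

theorem XC_in1 : InC (XC 1) (-7) 6 21 50 := by
  intro k hk
  simp only [XC, Finset.mem_union, mem_rowC, mem_colC] at hk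
  omega

theorem XC_in2 : InC (XC 2) (-51) (-22) (-7) 6 := by
  intro k hk
  simp only [XC, Finset.mem_union, mem_rowC, mem_colC] at hk
  omega

theorem XC_in3 : InC (XC 3) (-7) 6 (-51) (-22) := by
  intro k hk
  simp only [XC, Finset.mem_union, mem_rowC, mem_colC] at hk
  omega

theorem garm_ext {z : Cf} {n : ℕ} {d : Fin 4} {u : P2} (h : GArm z d n u)
    (hz : z ∈ tubeX n (XC d)) : GArm z d (2 * n) u := by
  obtain ⟨A, B, hA, hB, hAB, hu⟩ := h
  have hn : (0 : ℤ) ≤ n := by positivity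
  have key : ∀ {D' : Set P2} {A' : P2},
      OC z ((Sq (16 * n) ∪ Corr d n) ∪ Gate d n ∪ tubeR n (XC d)) u A' →
      (∀ w ∈ tubeR n (XC d), w ∈ Sq (16 * ((2 * n : ℕ) : ℤ)) ∪ Corr d (2 * n)) →
      OC z (Sq (16 * ((2 * n : ℕ) : ℤ)) ∪ Corr d (2 * n)) u A' := by
    intro _ A' h1 h2
    refine h1.monoS ?_
    have h3 : Sq (16 * n) ∪ Corr d n ⊆ Sq (16 * ((2 * n : ℕ) : ℤ)) ∪ Corr d (2 * n) := by
      refine Set.union_subset (Set.Subset.trans (Sq_sub ?_) Set.subset_union_left)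
        (Set.Subset.trans ((Corr_sub d n).trans (Sq_sub ?_)) Set.subset_union_left) <;>
        push_cast <;> omega
    exact Set.union_subset (Set.union_subset h3 (((Gate_sub d n).trans
      Set.subset_union_right).trans h3)) h2
  fin_cases d
  · -- east
    simp only [co, Fin.zero_eta] at hA hB ⊢
    obtain ⟨A', B', hA', hB', h1, h2⟩ := ext_h hz (i0 := 21) (i1 := 50) (c := 50) (j0 := -7)
      (j1 := 6) (m := 4 * n) (by norm_num) (Or.inr rfl) (by norm_num) (by norm_num)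
      Finset.subset_union_left Finset.subset_union_right (by omega) hu hAB
      (Or.inl ⟨hA, hB⟩) (fun w hw => by
        obtain ⟨h1, h2, h3, h4⟩ := hw
        simp only [co] at h1 h2 h3 h4
        omega)
    refine ⟨A', B', ?_, ?_, h1.monoS ?_, key (D' := ∅) h2 ?_⟩
    · simp only [co]; push_cast; omega
    · simp only [co]; push_cast; omega
    · intro w hw
      have := mem_tubeR_col hw
      refine ⟨?_, ?_, ?_, ?_⟩ <;> simp only [co] <;> push_cast <;> omega
    · intro w hw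
      have := tubeR_box XC_in0 hw
      by_cases hx : w.1 ≤ 32 * n
      · left
        rw [mem_Sq]
        push_cast
        omega
      · right
        refine ⟨?_, ?_, ?_, ?_⟩ <;> simp only [co] <;> push_cast <;> omega
  · -- north
    simp only [co, Fin.mk_one] at hA hB ⊢
    obtain ⟨A', B', hA', hB', h1, h2⟩ := ext_v hz (i0 := 21) (i1 := 50) (c := 50) (j0 := -7)
      (j1 := 6) (m := 4 * n) (by norm_num) (Or.inr rfl) (by norm_num) (by norm_num)
      Finset.subset_union_left Finset.subset_union_right (by omega) hu hAB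
      (Or.inr ⟨by omega, by omega⟩) (fun w hw => by
        obtain ⟨h1, h2, h3, h4⟩ := hw
        simp only [co] at h1 h2 h3 h4
        omega)
    have hs : tubeR n (rowC (-7) 6 50) ⊆ Gate 1 (2 * n) := by
      intro w hw
      have := mem_tubeR_row hw
      refine ⟨?_, ?_, ?_, ?_⟩ <;> simp only [co] <;> push_cast <;> omega
    have h4 : OC z (Sq (16 * ((2 * n : ℕ) : ℤ)) ∪ Corr 1 (2 * n)) u A' := by
      refine key (D' := ∅) h2 fun w hw => ?_
      have := tubeR_box XC_in1 hw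
      by_cases hx : w.2 ≤ 32 * n
      · left
        rw [mem_Sq]
        push_cast
        omega
      · right
        refine ⟨?_, ?_, ?_, ?_⟩ <;> simp only [co] <;> push_cast <;> omega
    refine ⟨B', A', ?_, ?_, h1.symm.monoS hs, h4.trans (h1.monoS ?_)⟩
    · simp only [co]; push_cast; omega
    · simp only [co]; push_cast; omega
    · exact hs.trans ((Gate_sub 1 _).trans Set.subset_union_right)
  · -- west
    simp only [co, Fin.reduceFinMk] at hA hB ⊢
    obtain ⟨A', B', hA', hB', h1, h2⟩ := ext_h hz (i0 := -51) (i1 := -22) (c := -51) (j0 := -7)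
      (j1 := 6) (m := 4 * n) (by norm_num) (Or.inl rfl) (by norm_num) (by norm_num)
      Finset.subset_union_left Finset.subset_union_right (by omega) hu hAB
      (Or.inr ⟨by omega, by omega⟩) (fun w hw => by
        obtain ⟨h1, h2, h3, h4⟩ := hw
        simp only [co, Fin.reduceFinMk] at h1 h2 h3 h4
        omega)
    have hs : tubeR n (colC (-51) (-7) 6) ⊆ Gate 2 (2 * n) := by
      intro w hw
      have := mem_tubeR_col hw
      refine ⟨?_, ?_, ?_, ?_⟩ <;> simp only [co] <;> push_cast <;> omega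
    have h4 : OC z (Sq (16 * ((2 * n : ℕ) : ℤ)) ∪ Corr 2 (2 * n)) u A' := by
      refine key (D' := ∅) h2 fun w hw => ?_
      have := tubeR_box XC_in2 hw
      by_cases hx : -(32 * (n : ℤ)) ≤ w.1
      · left
        rw [mem_Sq]
        push_cast
        omega
      · right
        refine ⟨?_, ?_, ?_, ?_⟩ <;> simp only [co] <;> push_cast <;> omega
    refine ⟨B', A', ?_, ?_, h1.symm.monoS hs, h4.trans (h1.monoS ?_)⟩
    · simp only [co]; push_cast; omega
    · simp only [co]; push_cast; omega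
    · exact hs.trans ((Gate_sub 2 _).trans Set.subset_union_right)
  · -- south
    simp only [co, Fin.reduceFinMk] at hA hB ⊢
    obtain ⟨A', B', hA', hB', h1, h2⟩ := ext_v hz (i0 := -51) (i1 := -22) (c := -51) (j0 := -7)
      (j1 := 6) (m := 4 * n) (by norm_num) (Or.inl rfl) (by norm_num) (by norm_num)
      Finset.subset_union_left Finset.subset_union_right (by omega) hu hAB
      (Or.inl ⟨by omega, by omega⟩) (fun w hw => by
        obtain ⟨h1, h2, h3, h4⟩ := hw
        simp only [co, Fin.reduceFinMk] at h1 h2 h3 h4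
        omega)
    refine ⟨A', B', ?_, ?_, h1.monoS ?_, key (D' := ∅) h2 ?_⟩
    · simp only [co]; push_cast; omega
    · simp only [co]; push_cast; omega
    · intro w hw
      have := mem_tubeR_row hw
      refine ⟨?_, ?_, ?_, ?_⟩ <;> simp only [co] <;> push_cast <;> omega
    · intro w hw
      have := tubeR_box XC_in3 hw
      by_cases hx : -(32 * (n : ℤ)) ≤ w.2
      · left
        rw [mem_Sq]
        push_cast
        omega
      · right
        refine ⟨?_, ?_, ?_, ?_⟩ <;> simp only [co] <;> push_cast <;> omega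

/-! ### probability -/

theorem XC_card (d : Fin 4) : (XC d).card ≤ 44 := by
  have h1 : ∀ i0 i1 j : ℤ, (rowC i0 i1 j).card = (i1 + 1 - i0).toNat := by
    intro i0 i1 j
    rw [rowC, Finset.card_product, Int.card_Icc, Finset.card_singleton, mul_one]
  have h2 : ∀ i j0 j1 : ℤ, (colC i j0 j1).card = (j1 + 1 - j0).toNat := by
    intro i j0 j1
    rw [colC, Finset.card_product, Int.card_Icc, Finset.card_singleton, one_mul]
  fin_cases d <;> refine (Finset.card_union_le _ _).trans ?_ <;> rw [h1, h2] <;> omega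

/-- tubes do not see an edge which is not in their support -/
theorem tubeX_frc {n : ℕ} {K : Finset P2} {z : Cf} {e : Edge} (b : Bool) (he : e ∉ tubeE n K)
    (hz : z ∈ tubeX n K) : frc e b z ∈ tubeX n K := by
  refine (tubeX_dep n K z _ fun i hi => ?_).1 hz
  refine (frc_ne ?_ b z).symm
  rintro rfl
  exact he hi

/-- the same for dual tubes -/
theorem tubeX_frc_dual {n : ℕ} {K : Finset P2} {z : Cf} {e : Edge} (b : Bool)
    (he : dE e ∉ tubeE n K) (hz : dual z ∈ tubeX n K) : dual (frc e b z) ∈ tubeX n K := by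
  refine (tubeX_dep n K _ _ fun i hi => ?_).1 hz
  show (!z (dE.symm i)) = !(frc e b z (dE.symm i))
  rw [frc_ne]
  rintro rfl
  rw [Equiv.apply_symm_apply] at he
  exact he hi

theorem dE_loc (e : Edge) : ((src (dE e)).1 ≤ (src e).1 ∧ (src e).1 ≤ (src (dE e)).1 + 1 ∧
    (src (dE e)).2 ≤ (src e).2 ∧ (src e).2 ≤ (src (dE e)).2 + 1) := by
  have h := dual_loc (dE e)
  rwa [Equiv.symm_apply_apply] at h

theorem nice_ext {c : ℝ} {p : I} {n : ℕ} (hn : 1 ≤ n) (h : RSp c p n) {e : Edge}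
    (he0 : src e = (0, 0)) (s t : Bool) :
    c ^ 352 * (nu p).real (Nice e n s t) ≤ (nu p).real (Nice e (2 * n) s t) := by
  classical
  have hn' : (1 : ℤ) ≤ n := by exact_mod_cast hn
  have k1 : (XC 0 ∪ XC 2).card ≤ 88 :=
    (Finset.card_union_le _ _).trans (by have := XC_card 0; have := XC_card 2; omega)
  have k2 : (XC 1 ∪ XC 3).card ≤ 88 :=
    (Finset.card_union_le _ _).trans (by have := XC_card 1; have := XC_card 3; omega)
  have q1 := (h.tube hn le_rfl k1).1
  have q2 := (h.tube hn le_rfl k2).2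
  have d1 : Disjoint (edF (NVP n)) ((tubeE n (XC 1 ∪ XC 3)).map dE.symm.toEmbedding) := by
    rw [Finset.disjoint_left]
    intro e he he'
    rw [Finset.mem_map] at he'
    obtain ⟨e', he', rfl⟩ := he'
    have h1 := (of_mem_edF he).1
    have h2 := dual_loc e'
    rw [tubeE_union] at he'
    simp only [Equiv.coe_toEmbedding] at h1
    rcases he' with he' | he'
    · have h3 := tubeE_box XC_in1 he'
      rcases h1 with h1 | h1 | h1
      · rw [mem_Sq] at h1; omega
      · obtain ⟨a1, a2, a3, a4⟩ := h1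
        simp only [co] at a1 a2 a3 a4
        omega
      · obtain ⟨a1, a2, a3, a4⟩ := h1
        simp only [co] at a1 a2 a3 a4
        omega
    · have h3 := tubeE_box XC_in3 he'
      rcases h1 with h1 | h1 | h1
      · rw [mem_Sq] at h1; omega
      · obtain ⟨a1, a2, a3, a4⟩ := h1
        simp only [co] at a1 a2 a3 a4
        omega
      · obtain ⟨a1, a2, a3, a4⟩ := h1
        simp only [co] at a1 a2 a3 a4
        omega
  have d2 : Disjoint ((edF (NVD n)).map dE.symm.toEmbedding) (tubeE n (XC 0 ∪ XC 2)) := by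
    rw [Finset.disjoint_left]
    intro e he' he
    rw [Finset.mem_map] at he'
    obtain ⟨e', he', rfl⟩ := he'
    have h1 := (of_mem_edF he').1
    have h2 := dual_loc e'
    rw [tubeE_union] at he
    simp only [Equiv.coe_toEmbedding] at he
    rcases he with he | he
    · have h3 := tubeE_box XC_in0 he
      rcases h1 with h1 | h1 | h1
      · rw [mem_Sq] at h1; omega
      · obtain ⟨a1, a2, a3, a4⟩ := h1
        simp only [co] at a1 a2 a3 a4
        omega
      · obtain ⟨a1, a2, a3, a4⟩ := h1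
        simp only [co] at a1 a2 a3 a4
        omega
    · have h3 := tubeE_box XC_in2 he
      rcases h1 with h1 | h1 | h1
      · rw [mem_Sq] at h1; omega
      · obtain ⟨a1, a2, a3, a4⟩ := h1
        simp only [co] at a1 a2 a3 a4
        omega
      · obtain ⟨a1, a2, a3, a4⟩ := h1
        simp only [co] at a1 a2 a3 a4
        omega
  have d3 : Disjoint (tubeE n (XC 0 ∪ XC 2))
      ((tubeE n (XC 1 ∪ XC 3)).map dE.symm.toEmbedding) := by
    rw [Finset.disjoint_left]
    intro e he he'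
    rw [Finset.mem_map] at he'
    obtain ⟨e', he', rfl⟩ := he'
    have h2 := dual_loc e'
    rw [tubeE_union] at he he'
    simp only [Equiv.coe_toEmbedding] at he
    rcases he with he | he <;> rcases he' with he' | he'
    · have h3 := tubeE_box XC_in0 he
      have h4 := tubeE_box XC_in1 he'
      omega
    · have h3 := tubeE_box XC_in0 he
      have h4 := tubeE_box XC_in3 he'
      omega
    · have h3 := tubeE_box XC_in2 he
      have h4 := tubeE_box XC_in1 he'
      omega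
    · have h3 := tubeE_box XC_in2 he
      have h4 := tubeE_box XC_in3 he'
      omega
  have hg := gen_fkg_dual p (dep_NiceP e n s) (dep_NiceD e n t) (tubeX_dep n (XC 0 ∪ XC 2))
    (tubeX_dep n (XC 1 ∪ XC 3)) d1 d2 d3 (inc_NiceP e n s) (decr_NiceD e n t) (tubeX_inc _ _)
    (tubeX_inc _ _)
  have hsub : (NiceP e n s ∩ NiceD e n t) ∩ (tubeX n (XC 0 ∪ XC 2) ∩
      Rs689.dual ⁻¹' tubeX n (XC 1 ∪ XC 3)) ⊆ Nice e (2 * n) s t := by
    rintro z ⟨⟨⟨a1, a2⟩, ⟨a3, a4⟩⟩, hz1, hz2⟩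
    have e0 := tubeX_mono (n := n) (Finset.subset_union_left (s₁ := XC 0) (s₂ := XC 2)) hz1
    have e2 := tubeX_mono (n := n) (Finset.subset_union_right (s₁ := XC 0) (s₂ := XC 2)) hz1
    have e1 : Rs689.dual z ∈ tubeX n (XC 1) :=
      tubeX_mono (n := n) (Finset.subset_union_left (s₁ := XC 1) (s₂ := XC 3)) hz2
    have e3 : Rs689.dual z ∈ tubeX n (XC 3) :=
      tubeX_mono (n := n) (Finset.subset_union_right (s₁ := XC 1) (s₂ := XC 3)) hz2
    have s1 : (src e).1 = 0 := by rw [he0]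
    have s2 : (src e).2 = 0 := by rw [he0]
    have s3 := dE_loc e
    have f0 := tubeX_frc (e := e) false (fun he => by have := tubeE_box XC_in0 he; omega) e0
    have f2 := tubeX_frc (e := e) false (fun he => by have := tubeE_box XC_in2 he; omega) e2
    have f1 := tubeX_frc_dual (e := e) true (fun he => by have := tubeE_box XC_in1 he; omega) e1
    have f3 := tubeX_frc_dual (e := e) true (fun he => by have := tubeE_box XC_in3 he; omega) e3
    refine ⟨⟨?_, ?_⟩, ⟨?_, ?_⟩⟩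
    · cases s
      · exact garm_ext a1 f2
      · exact garm_ext a1 f0
    · cases s
      · exact garm_ext a2 f0
      · exact garm_ext a2 f2
    · cases t
      · exact garm_ext a3 f3
      · exact garm_ext a3 f1
    · cases t
      · exact garm_ext a4 f1
      · exact garm_ext a4 f3
  have h0 : (0 : ℝ) ≤ (nu p).real (NiceP e n s ∩ NiceD e n t) := measureReal_nonneg
  calc c ^ 352 * (nu p).real (Nice e n s t)
      = (nu p).real (NiceP e n s ∩ NiceD e n t) * (c ^ (2 * 88) * c ^ (2 * 88)) := by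
        rw [Nice]; ring
    _ ≤ (nu p).real (NiceP e n s ∩ NiceD e n t) * ((nu p).real (tubeX n (XC 0 ∪ XC 2)) *
        (nu (σ p)).real (tubeX n (XC 1 ∪ XC 3))) := by
        refine mul_le_mul_of_nonneg_left ?_ h0
        exact mul_le_mul q1 q2 (pow_nonneg h.1.le _) measureReal_nonneg
    _ ≤ _ := hg
    _ ≤ _ := measureReal_mono hsub

end Crest.Agent.R158.Sp580
end
private theorem rz_6dba4e2b0e : type_of% @_root_.Crest.Agent.R158.Sp580.XC.eq_1 := @_root_.Crest.Agent.R158.Sp580.XC.eq_1 -- L165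
end

-- ▼ part R158/Sp2_580

/-!
# Row 158, Block SEP (helper580): base case and abstract recursion

* `cyl_lower` : a nonempty event on finitely many edges has probability at least `m ^ card`
* `nice_base` : `P (NiceU e 1)` is bounded below under one RSW scale
* `s5` : abstract recursion `a (j+1) ≤ δ a j + K b (j+1)`, `b j ≤ C0 b (j+1)`
-/

set_option autoImplicit false
set_option linter.constructorNameAsVariable false

noncomputable section

namespace Crest.Agent.R158.Sp580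

open MeasureTheory ProbabilityTheory unitInterval
open Crest.Agent.R161.Geo729 Crest.Agent.R161.Topo374 Crest.Agent.R161.Dual374
open Crest.Agent.R161.Tas682 Crest.Agent.R158.Rs689 Crest.Agent.R158.Ru874

/-! ### the abstract recursion -/

theorem s5 {a b : ℕ → ℝ} {J0 J : ℕ} {δ K C0 κ : ℝ} (hκ : 0 < κ) (hC : 1 ≤ C0) (hK : 0 ≤ K)
    (ha : ∀ j, a j ≤ 1) (hb0 : κ ≤ b 0) (hb : ∀ j < J, b j ≤ C0 * b (j + 1)) (hδ : 0 ≤ δ)
    (hδC : δ * C0 ≤ 1 / 2) (hstep : ∀ j, J0 ≤ j → j < J → a (j + 1) ≤ δ * a j + K * b (j + 1)) :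
    ∀ j ≤ J, a j ≤ max (2 * K) (C0 ^ J0 / κ) * b j := by
  have hlow : ∀ j ≤ J, κ ≤ C0 ^ j * b j := by
    intro j
    induction j with
    | zero => intro _; simpa using hb0
    | succ j ih =>
      intro hj
      refine (ih (by omega)).trans ?_
      rw [pow_succ, mul_assoc]
      exact mul_le_mul_of_nonneg_left (hb j (by omega)) (by positivity)
  have hpos : ∀ j ≤ J, 0 < b j := by
    intro j hj
    have h1 := hlow j hj
    have h2 : (0 : ℝ) < C0 ^ j := by positivity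
    by_contra h3
    push Not at h3
    have : C0 ^ j * b j ≤ 0 := mul_nonpos_of_nonneg_of_nonpos h2.le h3
    linarith
  set M := max (2 * K) (C0 ^ J0 / κ) with hM
  have hM0 : 0 ≤ M := le_max_of_le_right (by positivity)
  have hM1 : 2 * K ≤ M := le_max_left _ _
  have hM2 : C0 ^ J0 / κ ≤ M := le_max_right _ _
  have base : ∀ j, j ≤ J0 → j ≤ J → a j ≤ M * b j := by
    intro j hj hjJ
    have h1 := hlow j hjJ
    have h2 : C0 ^ j ≤ C0 ^ J0 := pow_le_pow_right₀ hC hj
    have h3 := hpos j hjJ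
    have h4 : κ ≤ C0 ^ J0 * b j := h1.trans (mul_le_mul_of_nonneg_right h2 h3.le)
    calc a j ≤ 1 := ha j
      _ ≤ C0 ^ J0 / κ * b j := by
        rw [div_mul_eq_mul_div, le_div_iff₀ hκ, one_mul]
        exact h4
      _ ≤ M * b j := mul_le_mul_of_nonneg_right hM2 h3.le
  intro j
  induction j with
  | zero => intro h; exact base 0 (Nat.zero_le _) h
  | succ j ih =>
    intro hj
    by_cases h0 : j + 1 ≤ J0
    · exact base _ h0 hj
    · have h1 := ih (by omega)
      have h2 := hstep j (by omega) (by omega)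
      have h3 := hb j (by omega)
      have h4 := hpos (j + 1) hj
      have h5 : δ * a j ≤ δ * (M * b j) := mul_le_mul_of_nonneg_left h1 hδ
      have h6 : M * b j ≤ M * (C0 * b (j + 1)) := mul_le_mul_of_nonneg_left h3 hM0
      have h7 : δ * (M * b j) ≤ δ * (M * (C0 * b (j + 1))) := mul_le_mul_of_nonneg_left h6 hδ
      have h8 : δ * (M * (C0 * b (j + 1))) = (δ * C0) * (M * b (j + 1)) := by ring
      have h9 : (δ * C0) * (M * b (j + 1)) ≤ 1 / 2 * (M * b (j + 1)) :=
        mul_le_mul_of_nonneg_right hδC (by positivity)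
      have h10 : K * b (j + 1) ≤ 1 / 2 * (M * b (j + 1)) := by
        have : 2 * K * b (j + 1) ≤ M * b (j + 1) := mul_le_mul_of_nonneg_right hM1 h4.le
        linarith
      linarith

/-! ### a nonempty local event -/

theorem cyl_lower {ι : Type*} (w : ι → I) {S : Finset ι} {A : Set (ι → Bool)} (hA : Dep S A)
    {z : ι → Bool}
    (hz : z ∈ A) {m : ℝ} (hm : 0 ≤ m) (hw : ∀ e ∈ S, ∀ b : Bool, m ≤ (bern (w e)).real {b}) :
    m ^ S.card ≤ (PB w).real A := by
  classical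
  rw [PB_real_eq w hA]
  have h1 : S.restrict z ∈ trc S A := by
    have h2 := hA.preim
    rw [h2] at hz
    exact hz
  have h3 : wt w S (S.restrict z) * (if S.restrict z ∈ trc S A then 1 else 0) ≤
      ∑ y, wt w S y * (if y ∈ trc S A then 1 else 0) :=
    Finset.single_le_sum (f := fun y => wt w S y * (if y ∈ trc S A then (1 : ℝ) else 0))
      (fun y _ => mul_nonneg (wt_nonneg w S y) (by split_ifs <;> norm_num))
      (Finset.mem_univ (S.restrict z))
  rw [if_pos h1, mul_one] at h3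
  refine le_trans ?_ h3
  have h4 : m ^ S.card = ∏ _e : S, m := by
    rw [Finset.prod_const, Finset.card_univ, Fintype.card_coe]
  rw [h4]
  exact Finset.prod_le_prod (fun _ _ => hm) fun e _ => hw e e.2 _

/-- one RSW scale bounds `p` from below -/
theorem p_ge {p : I} {c : ℝ} (h : c ≤ xpr p 3 1) : c / 2 ≤ (p : ℝ) := by
  classical
  have h1 : xpr p 3 1 = (nu p).real {z | LRc z 0 3 0 1} := by
    have := lr_eq_xpr p 0 3 0 1
    rw [sub_zero, sub_zero] at this
    exact this.symm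
  have hsub : {z : Cf | LRc z 0 3 0 1} ⊆ one ((0, 0), false) true ∪ one ((0, 1), false) true := by
    rintro z ⟨u, v, hu, hv, h⟩
    obtain ⟨w, hw, h2⟩ := first_hit (fun p => p.1) (fun a b hab => by
      unfold Nbr at hab
      show b.1 ≤ a.1 + 1
      omega) 1 h (by show u.1 ≤ 1; omega) (by show 1 ≤ v.1; omega)
    obtain ⟨w', hw', h3, -⟩ := last_exit (fun p => p.1) (fun a b hab => by
      unfold Nbr at hab
      show b.1 ≤ a.1 + 1
      omega) 0 h2 (by show u.1 ≤ 0; omega) (by show 0 ≤ w.1; omega)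
    -- a path from the column 0 to the column 1 inside `0 ≤ x ≤ 1` uses a horizontal edge
    have key : ∀ {a b : P2}, Relation.ReflTransGen
        (OStep z (Rect 0 3 0 1 ∩ {p | p.1 ≤ 1} ∩ {p | 0 ≤ p.1})) a b → a.1 = 0 → b.1 = 1 →
        z ∈ one ((0, 0), false) true ∪ one ((0, 1), false) true := by
      intro a b hab ha
      induction hab with
      | refl => intro hb; omega
      | @tail c d _ hs ih =>
        intro hd
        by_cases hc : c.1 = 1
        · exact ih hc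
        · obtain ⟨⟨e, he, h4⟩, hc1, hd1⟩ := hs
          have hc2 := hc1.1.1
          rw [mem_rect] at hc2
          have hc3 : c.1 ≤ 1 := hc1.1.2
          have hc0 : c.1 = 0 := by omega
          obtain ⟨⟨i, j⟩, b⟩ := e
          have hcj : c.2 = 0 ∨ c.2 = 1 := by omega
          cases b
          · rcases h4 with ⟨rfl, rfl⟩ | ⟨rfl, rfl⟩
            · simp only [src_mk] at hc0 hcj
              subst hc0
              rcases hcj with rfl | rfl
              · exact Or.inl he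
              · exact Or.inr he
            · simp only [src_mk, tgt_h] at hc0 hd
              omega
          · rcases h4 with ⟨rfl, rfl⟩ | ⟨rfl, rfl⟩ <;> simp only [src_mk, tgt_v] at hc0 hd <;> omega
    exact key h3.2 hw' hw
  have h2 : (nu p).real {z | LRc z 0 3 0 1} ≤ p + p := by
    refine (measureReal_mono hsub).trans ((measureReal_union_le _ _).trans ?_)
    have e1 := real_one (fun _ : Edge => p) ((0, 0), false) true
    have e2 := real_one (fun _ : Edge => p) ((0, 1), false) true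
    rw [bern_real_true] at e1 e2
    exact add_le_add e1.le e2.le
  rw [h1] at h
  linarith

theorem bern_ge {c : ℝ} {p : I} {N : ℕ} (h : RSp c p N) (hN : 1 ≤ N) (b : Bool) :
    c / 2 ≤ (bern p).real {b} := by
  obtain ⟨h1, h2⟩ := h.2 1 le_rfl hN
  simp only [Nat.cast_one, mul_one] at h1 h2
  have h3 := p_ge h1
  have h4 := p_ge h2
  rw [unitInterval.coe_symm_eq] at h4
  cases b
  · rw [bern_real_false]; exact h4
  · rw [bern_real_true]; exact h3

/-! ### straight lines -/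

theorem hline {z : Cf} {S : Set P2} {y x0 : ℤ} (d : ℕ)
    (hz : ∀ i : ℤ, x0 ≤ i → i < x0 + d → z ((i, y), false) = true)
    (hS : ∀ i : ℤ, x0 ≤ i → i ≤ x0 + d → ((i, y) : P2) ∈ S) : OC z S (x0, y) (x0 + d, y) := by
  induction d with
  | zero =>
    rw [Nat.cast_zero, add_zero]
    exact OC.refl (hS x0 le_rfl (by simp))
  | succ d ih =>
    have h1 := ih (fun i h1 h2 => hz i h1 (by push_cast; omega))
      (fun i h1 h2 => hS i h1 (by push_cast; omega))
    refine ⟨h1.1, h1.2.tail ⟨⟨((x0 + d, y), false), hz _ (by omega) (by push_cast; omega),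
      Or.inl ⟨rfl, ?_⟩⟩, hS _ (by omega) (by push_cast; omega), hS _ (by omega) (by push_cast; omega)⟩⟩
    rw [tgt_h]
    ext
    · simp only; push_cast; ring
    · rfl

theorem hline' {z : Cf} {S : Set P2} {y x0 x1 : ℤ} (h01 : x0 ≤ x1)
    (hz : ∀ i : ℤ, x0 ≤ i → i < x1 → z ((i, y), false) = true)
    (hS : ∀ i : ℤ, x0 ≤ i → i ≤ x1 → ((i, y) : P2) ∈ S) : OC z S (x0, y) (x1, y) := by
  obtain ⟨d, rfl⟩ : ∃ d : ℕ, x1 = x0 + d := ⟨(x1 - x0).toNat, by omega⟩
  exact hline d hz hS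

theorem vline {z : Cf} {S : Set P2} {x y0 : ℤ} (d : ℕ)
    (hz : ∀ j : ℤ, y0 ≤ j → j < y0 + d → z ((x, j), true) = true)
    (hS : ∀ j : ℤ, y0 ≤ j → j ≤ y0 + d → ((x, j) : P2) ∈ S) : OC z S (x, y0) (x, y0 + d) := by
  induction d with
  | zero =>
    rw [Nat.cast_zero, add_zero]
    exact OC.refl (hS y0 le_rfl (by simp))
  | succ d ih =>
    have h1 := ih (fun i h1 h2 => hz i h1 (by push_cast; omega))
      (fun i h1 h2 => hS i h1 (by push_cast; omega))
    refine ⟨h1.1, h1.2.tail ⟨⟨((x, y0 + d), true), hz _ (by omega) (by push_cast; omega),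
      Or.inl ⟨rfl, ?_⟩⟩, hS _ (by omega) (by push_cast; omega), hS _ (by omega) (by push_cast; omega)⟩⟩
    rw [tgt_v]
    ext
    · rfl
    · simp only; push_cast; ring

theorem vline' {z : Cf} {S : Set P2} {x y0 y1 : ℤ} (h01 : y0 ≤ y1)
    (hz : ∀ j : ℤ, y0 ≤ j → j < y1 → z ((x, j), true) = true)
    (hS : ∀ j : ℤ, y0 ≤ j → j ≤ y1 → ((x, j) : P2) ∈ S) : OC z S (x, y0) (x, y1) := by
  obtain ⟨d, rfl⟩ : ∃ d : ℕ, y1 = y0 + d := ⟨(y1 - y0).toNat, by omega⟩
  exact vline d hz hS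

/-! ### the base configuration -/

/-- open edges of the base configuration (horizontal `e`) -/
def bH (e : Edge) : Bool :=
  decide ((e.2 = false ∧ e.1.2 = 0 ∧ -22 ≤ e.1.1 ∧ e.1.1 ≤ 21) ∨
    (e.2 = true ∧ (e.1.1 = 22 ∨ e.1.1 = -22) ∧ -4 ≤ e.1.2 ∧ e.1.2 ≤ 3))

/-- open edges of the base configuration (vertical `e`) -/
def bV (e : Edge) : Bool :=
  decide ((e.2 = false ∧ e.1.2 = 1 ∧ 0 ≤ e.1.1 ∧ e.1.1 ≤ 21) ∨
    (e.2 = false ∧ e.1.2 = 0 ∧ -22 ≤ e.1.1 ∧ e.1.1 ≤ -1) ∨
    (e.2 = true ∧ (e.1.1 = 22 ∨ e.1.1 = -22) ∧ -4 ≤ e.1.2 ∧ e.1.2 ≤ 3))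

theorem mem_reg0 {v : P2} (h : (-16 ≤ v.1 ∧ v.1 ≤ 16 ∧ -16 ≤ v.2 ∧ v.2 ≤ 16) ∨
    (16 ≤ v.1 ∧ v.1 ≤ 32 ∧ -8 ≤ v.2 ∧ v.2 ≤ 8)) : v ∈ Sq (16 * ((1 : ℕ) : ℤ)) ∪ Corr 0 1 := by
  rcases h with h | h
  · left; rw [mem_Sq]; push_cast; omega
  · right; refine ⟨?_, ?_, ?_, ?_⟩ <;> simp only [co] <;> push_cast <;> omega

theorem mem_reg2 {v : P2} (h : (-16 ≤ v.1 ∧ v.1 ≤ 16 ∧ -16 ≤ v.2 ∧ v.2 ≤ 16) ∨
    (-32 ≤ v.1 ∧ v.1 ≤ -16 ∧ -8 ≤ v.2 ∧ v.2 ≤ 8)) : v ∈ Sq (16 * ((1 : ℕ) : ℤ)) ∪ Corr 2 1 := by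
  rcases h with h | h
  · left; rw [mem_Sq]; push_cast; omega
  · right; refine ⟨?_, ?_, ?_, ?_⟩ <;> simp only [co] <;> push_cast <;> omega

theorem mem_reg1 {v : P2} (h : (-16 ≤ v.1 ∧ v.1 ≤ 16 ∧ -16 ≤ v.2 ∧ v.2 ≤ 16) ∨
    (-8 ≤ v.1 ∧ v.1 ≤ 8 ∧ 16 ≤ v.2 ∧ v.2 ≤ 32)) : v ∈ Sq (16 * ((1 : ℕ) : ℤ)) ∪ Corr 1 1 := by
  rcases h with h | h
  · left; rw [mem_Sq]; push_cast; omega
  · right; refine ⟨?_, ?_, ?_, ?_⟩ <;> simp only [co] <;> push_cast <;> omega

theorem mem_reg3 {v : P2} (h : (-16 ≤ v.1 ∧ v.1 ≤ 16 ∧ -16 ≤ v.2 ∧ v.2 ≤ 16) ∨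
    (-8 ≤ v.1 ∧ v.1 ≤ 8 ∧ -32 ≤ v.2 ∧ v.2 ≤ -16)) : v ∈ Sq (16 * ((1 : ℕ) : ℤ)) ∪ Corr 3 1 := by
  rcases h with h | h
  · left; rw [mem_Sq]; push_cast; omega
  · right; refine ⟨?_, ?_, ?_, ?_⟩ <;> simp only [co] <;> push_cast <;> omega

/-- an eastern arm made of a row and a column -/
theorem garm0_of {z : Cf} {x y : ℤ} (hy : -4 ≤ y) (hy' : y ≤ 4) (hx : -16 ≤ x) (hx' : x ≤ 22)
    (h1 : ∀ i : ℤ, x ≤ i → i < 22 → z ((i, y), false) = true)
    (h2 : ∀ j : ℤ, -4 ≤ j → j < 4 → z ((22, j), true) = true) : GArm z 0 1 (x, y) := by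
  refine ⟨(22, -4), (22, 4), ?_, ?_, ?_, ?_⟩
  · simp [co]
  · simp [co]
  · refine vline' (by norm_num) h2 fun j h3 h4 => ?_
    refine ⟨?_, ?_, ?_, ?_⟩ <;> simp only [co] <;> push_cast <;> omega
  · have a1 : OC z (Sq (16 * ((1 : ℕ) : ℤ)) ∪ Corr 0 1) (x, y) (22, y) :=
      hline' hx' h1 fun i h3 h4 => mem_reg0 (by simp only; omega)
    have a2 : OC z (Sq (16 * ((1 : ℕ) : ℤ)) ∪ Corr 0 1) (22, -4) (22, y) :=
      vline' hy (fun j h3 h4 => h2 j h3 (by omega)) fun i h3 h4 => mem_reg0 (by simp only; omega)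
    exact a1.trans a2.symm

theorem garm2_of {z : Cf} {x y : ℤ} (hy : -4 ≤ y) (hy' : y ≤ 4) (hx : -22 ≤ x) (hx' : x ≤ 16)
    (h1 : ∀ i : ℤ, -22 ≤ i → i < x → z ((i, y), false) = true)
    (h2 : ∀ j : ℤ, -4 ≤ j → j < 4 → z ((-22, j), true) = true) : GArm z 2 1 (x, y) := by
  have a0 : OC z (Gate 2 1) (-22, -4) (-22, 4) := by
    refine vline' (by norm_num) h2 fun j h3 h4 => ?_
    refine ⟨?_, ?_, ?_, ?_⟩ <;> simp only [co] <;> push_cast <;> omega
  refine ⟨(-22, 4), (-22, -4), ?_, ?_, a0.symm, ?_⟩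
  · simp [co]
  · simp [co]
  · have a1 : OC z (Sq (16 * ((1 : ℕ) : ℤ)) ∪ Corr 2 1) (-22, y) (x, y) :=
      hline' hx h1 fun i h3 h4 => mem_reg2 (by simp only; omega)
    have a2 : OC z (Sq (16 * ((1 : ℕ) : ℤ)) ∪ Corr 2 1) (-22, y) (-22, 4) :=
      vline' hy' (fun j h3 h4 => h2 j (by omega) h4) fun i h3 h4 => mem_reg2 (by simp only; omega)
    exact a1.symm.trans a2

theorem garm1_of {z : Cf} {x y : ℤ} (hx : -4 ≤ x) (hx' : x ≤ 4) (hy : -16 ≤ y) (hy' : y ≤ 22)
    (h1 : ∀ j : ℤ, y ≤ j → j < 22 → z ((x, j), true) = true)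
    (h2 : ∀ i : ℤ, -4 ≤ i → i < 4 → z ((i, 22), false) = true) : GArm z 1 1 (x, y) := by
  have a0 : OC z (Gate 1 1) (-4, 22) (4, 22) := by
    refine hline' (by norm_num) h2 fun j h3 h4 => ?_
    refine ⟨?_, ?_, ?_, ?_⟩ <;> simp only [co] <;> push_cast <;> omega
  refine ⟨(4, 22), (-4, 22), ?_, ?_, a0.symm, ?_⟩
  · simp [co]
  · simp [co]
  · have a1 : OC z (Sq (16 * ((1 : ℕ) : ℤ)) ∪ Corr 1 1) (x, y) (x, 22) :=
      vline' hy' h1 fun i h3 h4 => mem_reg1 (by simp only; omega)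
    have a2 : OC z (Sq (16 * ((1 : ℕ) : ℤ)) ∪ Corr 1 1) (x, 22) (4, 22) :=
      hline' hx' (fun j h3 h4 => h2 j (by omega) h4) fun i h3 h4 => mem_reg1 (by simp only; omega)
    exact a1.trans a2

theorem garm3_of {z : Cf} {x y : ℤ} (hx : -4 ≤ x) (hx' : x ≤ 4) (hy : -22 ≤ y) (hy' : y ≤ 16)
    (h1 : ∀ j : ℤ, -22 ≤ j → j < y → z ((x, j), true) = true)
    (h2 : ∀ i : ℤ, -4 ≤ i → i < 4 → z ((i, -22), false) = true) : GArm z 3 1 (x, y) := by
  have a0 : OC z (Gate 3 1) (-4, -22) (4, -22) := by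
    refine hline' (by norm_num) h2 fun j h3 h4 => ?_
    refine ⟨?_, ?_, ?_, ?_⟩ <;> simp only [co] <;> push_cast <;> omega
  refine ⟨(-4, -22), (4, -22), ?_, ?_, a0, ?_⟩
  · simp [co]
  · simp [co]
  · have a1 : OC z (Sq (16 * ((1 : ℕ) : ℤ)) ∪ Corr 3 1) (x, -22) (x, y) :=
      vline' hy h1 fun i h3 h4 => mem_reg3 (by simp only; omega)
    have a2 : OC z (Sq (16 * ((1 : ℕ) : ℤ)) ∪ Corr 3 1) (-4, -22) (x, -22) :=
      hline' hx (fun j h3 h4 => h2 j h3 (by omega)) fun i h3 h4 => mem_reg3 (by simp only; omega)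
    exact a1.symm.trans a2.symm

theorem frc_app {e e' : Edge} (b : Bool) (z : Cf) (h : e' ≠ e) {r : Bool} (hz : z e' = r) :
    frc e b z e' = r := by rw [frc_ne h]; exact hz

theorem bH_mem : bH ∈ Nice ((0, 0), false) 1 false true := by
  refine ⟨⟨?_, ?_⟩, ⟨?_, ?_⟩⟩
  · refine garm2_of (x := 0) (y := 0) (by norm_num) (by norm_num) (by norm_num) (by norm_num)
      (fun i h1 h2 => frc_app _ _ ?_ ?_) (fun j h1 h2 => frc_app _ _ ?_ ?_)
    · simp; omega
    · simp [bH]; try omega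
    · simp
    · simp [bH]; try omega
  · refine garm0_of (x := 1) (y := 0) (by norm_num) (by norm_num) (by norm_num) (by norm_num)
      (fun i h1 h2 => frc_app _ _ ?_ ?_) (fun j h1 h2 => frc_app _ _ ?_ ?_)
    · simp; omega
    · simp [bH]; try omega
    · simp
    · simp [bH]; try omega
  · refine garm1_of (x := 0) (y := 0) (by norm_num) (by norm_num) (by norm_num) (by norm_num)
      (fun j h1 h2 => ?_) (fun i h1 h2 => ?_)
    · rw [dual_eq_true, dE_symm_v]
      refine frc_app _ _ ?_ ?_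
      · simp; omega
      · simp [bH]; try omega
    · rw [dual_eq_true, dE_symm_h]
      refine frc_app _ _ ?_ ?_
      · simp
      · simp [bH]; try omega
  · refine garm3_of (x := 0) (y := -1) (by norm_num) (by norm_num) (by norm_num) (by norm_num)
      (fun j h1 h2 => ?_) (fun i h1 h2 => ?_)
    · rw [dual_eq_true, dE_symm_v]
      refine frc_app _ _ ?_ ?_
      · simp; omega
      · simp [bH]; try omega
    · rw [dual_eq_true, dE_symm_h]
      refine frc_app _ _ ?_ ?_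
      · simp
      · simp [bH]; try omega

theorem bV_mem : bV ∈ Nice ((0, 0), true) 1 false false := by
  refine ⟨⟨?_, ?_⟩, ⟨?_, ?_⟩⟩
  · refine garm2_of (x := 0) (y := 0) (by norm_num) (by norm_num) (by norm_num) (by norm_num)
      (fun i h1 h2 => frc_app _ _ ?_ ?_) (fun j h1 h2 => frc_app _ _ ?_ ?_)
    · simp
    · simp [bV]; try omega
    · simp
    · simp [bV]; try omega
  · refine garm0_of (x := 0) (y := 1) (by norm_num) (by norm_num) (by norm_num) (by norm_num)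
      (fun i h1 h2 => frc_app _ _ ?_ ?_) (fun j h1 h2 => frc_app _ _ ?_ ?_)
    · simp
    · simp [bV]; try omega
    · simp
    · simp [bV]; try omega
  · refine garm3_of (x := 0) (y := 0) (by norm_num) (by norm_num) (by norm_num) (by norm_num)
      (fun j h1 h2 => ?_) (fun i h1 h2 => ?_)
    · rw [dual_eq_true, dE_symm_v]
      refine frc_app _ _ ?_ ?_
      · simp
      · simp [bV]; try omega
    · rw [dual_eq_true, dE_symm_h]
      refine frc_app _ _ ?_ ?_
      · simp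
      · simp [bV]; try omega
  · refine garm1_of (x := -1) (y := 0) (by norm_num) (by norm_num) (by norm_num) (by norm_num)
      (fun j h1 h2 => ?_) (fun i h1 h2 => ?_)
    · rw [dual_eq_true, dE_symm_v]
      refine frc_app _ _ ?_ ?_
      · simp
      · simp [bV]; try omega
    · rw [dual_eq_true, dE_symm_h]
      refine frc_app _ _ ?_ ?_
      · simp
      · simp [bV]; try omega

/-- support of the nice event -/
def SN (n : ℕ) : Finset Edge := by
  classical
  exact edF (NVP n) ∪ (edF (NVD n)).map dE.symm.toEmbedding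

theorem dep_Nice (e : Edge) (n : ℕ) (s t : Bool) : Dep (SN n) (Nice e n s t) := by
  classical
  exact ((dep_NiceP e n s).mono Finset.subset_union_left).inter
    ((dep_NiceD e n t).mono Finset.subset_union_right)

theorem nice_sub (e : Edge) (n : ℕ) (s t : Bool) : Nice e n s t ⊆ NiceU e n :=
  fun _ h => ⟨s, t, h⟩

/-- **Base case.** -/
theorem nice_base {c : ℝ} {p : I} {N : ℕ} (h : RSp c p N) (hN : 1 ≤ N) {e : Edge}
    (he : src e = (0, 0)) : (c / 2) ^ (SN 1).card ≤ (nu p).real (NiceU e 1) := by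
  have hc := h.1
  obtain ⟨v, b⟩ := e
  have hv : v = (0, 0) := he
  subst hv
  cases b
  · refine le_trans (cyl_lower (fun _ => p) (dep_Nice _ 1 false true) bH_mem (by positivity)
      fun e _ b => bern_ge h hN b) (measureReal_mono (nice_sub _ _ _ _))
  · refine le_trans (cyl_lower (fun _ => p) (dep_Nice _ 1 false false) bV_mem (by positivity)
      fun e _ b => bern_ge h hN b) (measureReal_mono (nice_sub _ _ _ _))

/-- extension of the union of the nice events -/
theorem niceU_ext {c : ℝ} {p : I} {n : ℕ} (hn : 1 ≤ n) (h : RSp c p n) {e : Edge}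
    (he0 : src e = (0, 0)) :
    (nu p).real (NiceU e n) ≤ 4 / c ^ 352 * (nu p).real (NiceU e (2 * n)) := by
  obtain ⟨s, t, h1⟩ := nice_choice p e n
  have h2 := nice_ext hn h he0 s t
  have h3 : (nu p).real (Nice e (2 * n) s t) ≤ (nu p).real (NiceU e (2 * n)) :=
    measureReal_mono (nice_sub _ _ _ _)
  have hc : (0 : ℝ) < c ^ 352 := pow_pos h.1 _
  calc (nu p).real (NiceU e n) ≤ 4 * (nu p).real (Nice e n s t) := h1
    _ = 4 / c ^ 352 * (c ^ 352 * (nu p).real (Nice e n s t)) := by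
        rw [← mul_assoc, div_mul_cancel₀ _ hc.ne']
    _ ≤ _ := mul_le_mul_of_nonneg_left (h2.trans h3) (by positivity)

end Crest.Agent.R158.Sp580
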