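import Crest.Agent.R158.Sb0_689
import Crest.Agent.R158.Sg5_689
import Crest.Agent.R158.Sp4e_874
import Crest.Agent.R158.Sp2_580
import Crest.Agent.R158.Hp8_814
import Crest.Agent.R158.Ce2_679
import Crest.Agent.R158.Sg1_158

-- ▼ part R158/Sb1_689
section

/-!
# Row 158, Block SEP2 (helper689): gluing of the inner landing event, two arms

* `glue_in2` : `c^B P(U2 f (N n) n (cl w) (cl w')) ≤ P(Nice2 f (c n))`
-/

set_option autoImplicit false

noncomputable section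

namespace Crest.Agent.R158.Sb689

open MeasureTheory ProbabilityTheory unitInterval
open Crest.Agent.R161.Geo729 Crest.Agent.R161.Topo374 Crest.Agent.R161.Dual374
open Crest.Agent.R161.Tas682 Crest.Agent.R158.Rs689 Crest.Agent.R158.Ru874
open Crest.Agent.R158.Sp580 Crest.Agent.R158.Sg689 Crest.Agent.R158.Sp874

/-- a face (or vertex) next to the origin -/
def Nr (f : P2) : Prop := -1 ≤ f.1 ∧ f.1 ≤ 1 ∧ -1 ≤ f.2 ∧ f.2 ≤ 1

theorem nr0 : Nr (0, 0) := by unfold Nr; simp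

/-- gluing of the inner landing event, two arms, given tokens -/
theorem glue_core2 {N M : ℤ} {c : ℕ} {k : Fin 4 → P2} {K : Fin 4 → Finset P2}
    (h : TokOut N M k K) (hk : ∀ i, OutR (N - 1) (k i)) (hN : 10 ≤ N)
    (hNM : N + 2 ≤ M) (hc : M + 3 ≤ 16 * c) {n n' : ℕ} (hn : 2 ≤ n) (hn' : n' = c * n)
    {c0 : ℝ} {p : I} (hp : RSp c0 p n) {f : P2} (hf : Nr f) :
    c0 ^ (4 * (52 * c + 2) ^ 2) * (nu p).real (U2 f (N * n) n (k 0) (k 2)) ≤
      (nu p).real (Nice2 f n') := by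
  have hM : 10 ≤ M := by omega
  have hn1 : 1 ≤ n := by omega
  have hn0 : (2 : ℤ) ≤ n := ofNat_pos' hn
  have hn'' : (n' : ℤ) = (c : ℤ) * n := by rw [hn']; push_cast; ring
  have hSq : Sp580.Sq (N * n) ⊆ Sp580.Sq (16 * n') := by
    refine Sq_sub ?_
    rw [hn'']
    nlinarith
  have hFSq : FSq (N * n) ⊆ Sp580.Sq (16 * n') := by
    intro x hx
    rw [mem_FSq] at hx
    rw [mem_Sq, hn'']
    refine ⟨?_, ?_, ?_, ?_⟩ <;> nlinarith
  have P := fun (z : Cfz) (i : Fin 4) (hz : z ∈ tubeX n (ext M c K i)) (S : Set P2)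
    (hS : S ⊆ Sp580.Sq (16 * n')) (u a : P2) (hua : OC z S u a) (ha : a ∈ Bk n (k i) 1)
    (hu : -1 ≤ u.1 ∧ u.1 ≤ 1 ∧ -1 ≤ u.2 ∧ u.2 ≤ 1) =>
      arm_ext h hM hc hn'' i hz hS hua ha (start_out hk hN hn1 i hu)
  have cnat : (52 * (c : ℤ) + 2).toNat = 52 * c + 2 := by omega
  have b0 : (ext M c K 0).card ≤ (52 * c + 2) ^ 2 := by
    have := ext_card h hM hc (i := 0) (j := 0) fun κ hκ => Or.inl hκ
    rwa [cnat] at this
  have b2 : (ext M c K 2).card ≤ (52 * c + 2) ^ 2 := by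
    have := ext_card h hM hc (i := 2) (j := 2) fun κ hκ => Or.inl hκ
    rwa [cnat] at this
  have d3 : Disjoint (tubeE n (ext M c K 0)) ((tubeE n (ext M c K 2)).map dE.symm.toEmbedding) :=
    tubeE_disj_dual hn1 fun κ hκ κ' hκ' => far5_abs (ext_far h hM hc 0 2 (by decide) κ hκ κ' hκ')
  have d1 : Disjoint (edF (Sp580.Sq (N * n) \ Bk n (k 2) 8))
      ((tubeE n (ext M c K 2)).map dE.symm.toEmbedding) := by
    refine disj_P h hNM hM hc hn rfl (i := 2) (j := 2) (fun κ hκ => Or.inl hκ)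
      ((Sq_finite _).subset Set.sdiff_subset) ?_
    rintro x ⟨h1, h2⟩
    exact ⟨h1, h2, h2⟩
  have d2 : Disjoint ((edF (FSq (N * n) \ Bk n (k 0) 8)).map dE.symm.toEmbedding)
      (tubeE n (ext M c K 0)) := by
    refine disj_D h hNM hM hc hn rfl (i := 0) (j := 0) (fun κ hκ => Or.inl hκ)
      ((FSq_finite _).subset Set.sdiff_subset) ?_
    rintro x ⟨h1, h2⟩
    exact ⟨h1, h2, h2⟩
  have key := gen_fkg_dual p (dep_U2P (N * n) n (k 0) (k 2)) (dep_U2D f (N * n) n (k 0) (k 2))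
    (tubeX_dep n (ext M c K 0)) (tubeX_dep n (ext M c K 2)) d1 d2 d3 (inc_U2P _ _ _ _)
    (decr_U2D _ _ _ _ _) (tubeX_inc n _) (tubeX_inc n _)
  have e1 := (hp.tube (n := n) hn1 le_rfl b0).1
  have e2 := (hp.tube (n := n) hn1 le_rfl b2).2
  have hc0 : 0 < c0 := hp.1
  calc c0 ^ (4 * (52 * c + 2) ^ 2) * (nu p).real (U2 f (N * n) n (k 0) (k 2))
      = (nu p).real (U2P (N * n) n (k 0) (k 2) ∩ U2D f (N * n) n (k 0) (k 2)) *
          (c0 ^ (2 * (52 * c + 2) ^ 2) * c0 ^ (2 * (52 * c + 2) ^ 2)) := by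
        rw [← pow_add, mul_comm]
        congr 2
        ring
    _ ≤ (nu p).real (U2P (N * n) n (k 0) (k 2) ∩ U2D f (N * n) n (k 0) (k 2)) *
          ((nu p).real (tubeX n (ext M c K 0)) * (nu (σ p)).real (tubeX n (ext M c K 2))) :=
        mul_le_mul_of_nonneg_left (mul_le_mul e1 e2 (by positivity) measureReal_nonneg)
          measureReal_nonneg
    _ ≤ _ := key
    _ ≤ (nu p).real (Nice2 f n') := by
        refine measureReal_mono ?_
        rintro z ⟨⟨⟨a0, ha0, h0⟩, ⟨a2, ha2, h2⟩⟩, hz1, hz2⟩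
        exact ⟨P _ 0 hz1 _ (Set.sdiff_subset.trans hSq) _ _ h0 ha0 (by simp),
          P _ 2 hz2 _ (Set.sdiff_subset.trans hFSq) _ _ h2 ha2 hf⟩

/-- **L5, two arms** -/
theorem glue_in2 {N c : ℕ} (hN : 21 ≤ N) (hc : N + 203 ≤ 16 * c) {n : ℕ} (hn : 2 ≤ n) {c0 : ℝ}
    {p : I} (hp : RSp c0 p n) {f : P2} (hf : Nr f) {w w' : ℤ} (h1 : w + 52 ≤ w')
    (h2 : w' + 52 ≤ w + 4 * (2 * ((N : ℤ) - 1) + 1)) :
    c0 ^ (4 * (52 * c + 2) ^ 2) * (nu p).real (U2 f (N * n) n (cl ((N : ℤ) - 1) w)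
      (cl ((N : ℤ) - 1) w')) ≤ (nu p).real (Nice2 f (c * n)) := by
  have hg := gd_two (a := (N : ℤ) - 1) (g := 26) (u := w) (v := w') (by omega) (by omega)
  obtain ⟨K, hK⟩ := tokOut_of (N := N) (M := N + 200) (by omega) le_rfl hg
  have h := glue_core2 hK (fun i => nr_cl' (by omega) _) (by omega) (by omega)
    (c := c) (by omega) hn rfl hp hf
  exact h

end Crest.Agent.R158.Sb689
end
end

-- ▼ part R158/Sh1_158

/-!
# Row 158, Block SEP2 (helper158), part 1: extension, base, monotonicity, locality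

* `nice2_ext`, `nice2_ext'` : extension of the nice two-arm event
* `nice2_base` : base case
* `a2_mono` : `A2 f R' ⊆ A2 f R`; `locD_A2`, `locD_gd`
-/

set_option autoImplicit false

noncomputable section

namespace Crest.Agent.R158.Sh158

open MeasureTheory ProbabilityTheory unitInterval
open Crest.Agent.R161.Geo729 Crest.Agent.R161.Topo374 Crest.Agent.R161.Dual374
open Crest.Agent.R161.Tas682 hiding Sq
open Crest.Agent.R158.Rs689 Crest.Agent.R158.Sp580 Crest.Agent.R158.Sb689 Crest.Agent.R158.Sg158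
open Crest.Agent.R158.Ru874 hiding An
open Crest.Agent.R158.Cpl963 (An mem_An)
open Crest.Agent.R158.Kd458 (Gd)
open Crest.Agent.R158.Sq200 (BdV)

/-! ### locality with sources -/

theorem src_map {D : Set P2} {T : Finset Edge} (h : ∀ e ∈ T, tgt e ∈ D) :
    ∀ e ∈ T.map dE.symm.toEmbedding, src e ∈ D := by
  intro e he
  rw [Finset.mem_map] at he
  obtain ⟨e', he', rfl⟩ := he
  have h3 : tgt (dE (dE.symm e')) = fA (dE.symm e') := tgt_dE _
  rw [Equiv.apply_symm_apply] at h3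
  have h4 : fA (dE.symm e') = src (dE.symm e') := rfl
  show src (dE.symm e') ∈ D
  rw [← h4, ← h3]
  exact h e' he'

theorem tubeB_box {n : ℕ} {K : Finset P2} {i0 i1 j0 j1 : ℤ} (hK : InC K i0 i1 j0 j1) {w : P2}
    (hw : w ∈ tubeB n K) : i0 * n - n ≤ w.1 ∧ w.1 ≤ i1 * n + 2 * n ∧ j0 * n - n ≤ w.2 ∧
      w.2 ≤ j1 * n + 2 * n := by
  obtain ⟨k, hk, h1⟩ := hw
  obtain ⟨h2, h3, h4, h5⟩ := hK k hk
  have b1 := mul_bd (n := n) h2
  have b2 := mul_bd (n := n) h3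
  have b3 := mul_bd (n := n) h4
  have b4 := mul_bd (n := n) h5
  omega

/-! ### extension -/

theorem nice2_ext {c : ℝ} {p : I} {n : ℕ} (hn : 1 ≤ n) (h : RSp c p n) (f : P2) :
    c ^ 176 * (nu p).real (Nice2 f n) ≤ (nu p).real (Nice2 f (2 * n)) := by
  have hn' : (1 : ℤ) ≤ n := by exact_mod_cast hn
  have q1 := (h.tube hn le_rfl (XC_card 0)).1
  have q2 := (h.tube hn le_rfl (XC_card 2)).2
  have s1 : ∀ e ∈ edF (N2P n), src e ∈ N2P n := fun e he => (of_mem_edF he).1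
  have s2 : ∀ e ∈ (edF (N2D n)).map dE.symm.toEmbedding, src e ∈ N2D n :=
    src_map fun e he => (of_mem_edF he).2
  have s3 : ∀ e ∈ tubeE n (XC 0), src e ∈ tubeB n (XC 0) := fun e he => (mem_tubeE he).1
  have s4 : ∀ e ∈ (tubeE n (XC 2)).map dE.symm.toEmbedding, src e ∈ tubeB n (XC 2) :=
    src_map fun e he => (mem_tubeE he).2
  have d1 : Disjoint (N2P n) (tubeB n (XC 2)) := by
    rw [Set.disjoint_left]
    intro x hx hx'
    have h3 := tubeB_box XC_in2 hx'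
    rcases hx with h1 | h1
    · rw [mem_Sq] at h1
      omega
    · obtain ⟨a1, a2, a3, a4⟩ := h1
      simp only [co] at a1 a2 a3 a4
      omega
  have d2 : Disjoint (N2D n) (tubeB n (XC 0)) := by
    rw [Set.disjoint_left]
    intro x hx hx'
    have h3 := tubeB_box XC_in0 hx'
    rcases hx with h1 | h1
    · rw [mem_Sq] at h1
      omega
    · obtain ⟨a1, a2, a3, a4⟩ := h1
      simp only [co] at a1 a2 a3 a4
      omega
  have d3 : Disjoint (tubeB n (XC 0)) (tubeB n (XC 2)) := by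
    rw [Set.disjoint_left]
    intro x hx hx'
    have h3 := tubeB_box XC_in0 hx
    have h4 := tubeB_box XC_in2 hx'
    omega
  have hg := gen_fkg_dual p (dep_Nice2P n) (dep_Nice2D f n) (tubeX_dep n (XC 0))
    (tubeX_dep n (XC 2)) (LocD.disj d1 s1 s4) (LocD.disj d2 s2 s3) (LocD.disj d3 s3 s4)
    (inc_Nice2P n) (decr_Nice2D f n) (tubeX_inc _ _) (tubeX_inc _ _)
  have hsub : (Nice2P n ∩ Nice2D f n) ∩ (tubeX n (XC 0) ∩ Rs689.dual ⁻¹' tubeX n (XC 2)) ⊆
      Nice2 f (2 * n) := by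
    rintro z ⟨⟨a1, a2⟩, hz1, hz2⟩
    exact ⟨garm_ext a1 hz1, garm_ext a2 hz2⟩
  have h0 : (0 : ℝ) ≤ (nu p).real (Nice2P n ∩ Nice2D f n) := measureReal_nonneg
  calc c ^ 176 * (nu p).real (Nice2 f n)
      = (nu p).real (Nice2P n ∩ Nice2D f n) * (c ^ (2 * 44) * c ^ (2 * 44)) := by
        rw [Nice2]; ring
    _ ≤ (nu p).real (Nice2P n ∩ Nice2D f n) * ((nu p).real (tubeX n (XC 0)) *
        (nu (σ p)).real (tubeX n (XC 2))) := by
        refine mul_le_mul_of_nonneg_left ?_ h0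
        exact mul_le_mul q1 q2 (pow_nonneg h.1.le _) measureReal_nonneg
    _ ≤ _ := hg
    _ ≤ _ := measureReal_mono hsub

theorem nice2_ext' {c : ℝ} {p : I} {n : ℕ} (hn : 1 ≤ n) (h : RSp c p n) (f : P2) :
    (nu p).real (Nice2 f n) ≤ 1 / c ^ 176 * (nu p).real (Nice2 f (2 * n)) := by
  have hc : (0 : ℝ) < c ^ 176 := pow_pos h.1 _
  rw [one_div, ← div_eq_inv_mul, le_div_iff₀ hc, mul_comm]
  exact nice2_ext hn h f

/-! ### base -/

/-- open edges of the base configuration -/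
def b2 (e : Edge) : Bool :=
  decide ((e.2 = false ∧ e.1.2 = 0 ∧ 0 ≤ e.1.1 ∧ e.1.1 ≤ 21) ∨
    (e.2 = true ∧ e.1.1 = 22 ∧ -4 ≤ e.1.2 ∧ e.1.2 ≤ 3))

theorem b2_mem {f : P2} (hf : Nr f) : b2 ∈ Nice2 f 1 := by
  obtain ⟨f1, f2⟩ := f
  obtain ⟨h1, h2, h3, h4⟩ := hf
  simp only at h1 h2 h3 h4
  refine ⟨?_, ?_⟩
  · refine garm0_of (x := 0) (y := 0) (by norm_num) (by norm_num) (by norm_num) (by norm_num)
      (fun i h1 h2 => ?_) (fun j h1 h2 => ?_)
    · simp [b2]; omega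
    · simp [b2]; omega
  · refine garm2_of (x := f1) (y := f2) (by omega) (by omega) (by omega) (by omega)
      (fun i h5 h6 => ?_) (fun j h5 h6 => ?_)
    · rw [dual_eq_true, dE_symm_h]
      simp [b2]
      omega
    · rw [dual_eq_true, dE_symm_v]
      simp [b2]

open Classical in
/-- support of the nice two-arm event -/
def SN2 (n : ℕ) : Finset Edge := edF (N2P n) ∪ (edF (N2D n)).map dE.symm.toEmbedding

theorem dep_Nice2 (f : P2) (n : ℕ) : Dep (SN2 n) (Nice2 f n) := by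
  classical
  exact ((dep_Nice2P n).mono Finset.subset_union_left).inter
    ((dep_Nice2D f n).mono Finset.subset_union_right)

theorem nice2_base {c : ℝ} {p : I} {N : ℕ} (h : RSp c p N) (hN : 1 ≤ N) {f : P2} (hf : Nr f) :
    (c / 2) ^ (SN2 1).card ≤ (nu p).real (Nice2 f 1) :=
  cyl_lower (fun _ => p) (dep_Nice2 f 1) (b2_mem hf) (div_nonneg h.1.le (by norm_num))
    fun _ _ b => bern_ge h hN b

/-! ### monotonicity and locality of `A2` -/

theorem nbr_fst {a b : P2} (h : Nbr a b) : b.1 ≤ a.1 + 1 ∧ a.1 ≤ b.1 + 1 ∧ b.2 ≤ a.2 + 1 ∧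
    a.2 ≤ b.2 + 1 := by
  unfold Nbr at h
  omega

theorem sd0_le {v : P2} {R : ℤ} : sd (0, 0) v ≤ R ↔ -R ≤ v.1 ∧ v.1 ≤ R ∧ -R ≤ v.2 ∧ v.2 ≤ R := by
  unfold sd
  simp only [sub_zero]
  rw [max_le_iff, abs_le, abs_le]
  constructor <;> rintro h <;> omega

theorem a2_mono {f : P2} {R R' : ℤ} (hR : 1 ≤ R) (h : R ≤ R') (hf : f ∈ FI R) :
    A2 f R' ⊆ A2 f R := by
  rintro z ⟨⟨x, hx, hz⟩, ⟨g, hg, hz'⟩⟩
  have hx' : sd (0, 0) x = R' := hx
  refine ⟨?_, ?_⟩
  · obtain ⟨y, hy, h1⟩ := first_hit (fun v => sd (0, 0) v) (fun a b hab => by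
      have h3 := nbr_fst hab
      have h4 : sd (0, 0) a ≤ sd (0, 0) a := le_rfl
      rw [sd0_le] at h4
      show sd (0, 0) b ≤ sd (0, 0) a + 1
      rw [sd0_le]
      omega) R hz (by
        show sd (0, 0) ((0, 0) : P2) ≤ R
        rw [sd0_le]
        simp only
        omega) (by show R ≤ sd (0, 0) x; omega)
    refine ⟨y, hy, h1.monoS ?_⟩
    rintro v ⟨_, hv⟩
    have hv' : sd (0, 0) v ≤ R := hv
    rw [sd0_le] at hv'
    exact hv'
  · -- depth of a face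
    set F : P2 → ℤ := fun v => max (max v.1 (-1 - v.1)) (max v.2 (-1 - v.2)) with hF
    have hFle : ∀ {v : P2} {m : ℤ}, F v ≤ m - 1 ↔ v ∈ FI m := by
      intro v m
      rw [mem_FI]
      simp only [hF]
      omega
    have hFe : ∀ {v : P2} {m : ℤ}, v ∈ FI m → F v = m - 1 → v ∈ FIb m := by
      intro v m h1 h2
      refine ⟨h1, ?_⟩
      simp only [hF] at h2
      show v.1 = -m ∨ v.1 = m - 1 ∨ v.2 = -m ∨ v.2 = m - 1
      omega
    have hFb : F g = R' - 1 := by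
      have h1 := hg.1
      have h2 : g.1 = -R' ∨ g.1 = R' - 1 ∨ g.2 = -R' ∨ g.2 = R' - 1 := hg.2
      rw [mem_FI] at h1
      simp only [hF]
      omega
    obtain ⟨y, hy, h1⟩ := first_hit F (fun a b hab => by
      have h3 := nbr_fst hab
      simp only [hF]
      omega) (R - 1) hz' (hFle.2 hf) (by rw [hFb]; omega)
    have hy' : F y = R - 1 := hy
    have h2 : OC (dual z) (FI R) f y := h1.monoS fun v hv => hFle.1 hv.2
    exact ⟨y, hFe h2.right hy', h2⟩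

theorem FI_sub_Sq (R : ℤ) : FI R ⊆ Sp580.Sq R := fun v hv => by
  rw [mem_FI] at hv
  rw [mem_Sq]
  omega

theorem locD_A2 (f : P2) (R : ℤ) : LocD (Sp580.Sq R) (A2 f R) := by
  have h1 : LocD (Sp580.Sq R) {z : Cf | Arm z (Sp580.Sq R) {v | sd (0, 0) v = R} (0, 0)} :=
    ⟨_, dep_A2P R, fun e he => (of_mem_edF he).1⟩
  have h2 : LocD (FI R) {z : Cf | Arm (dual z) (FI R) (FIb R) f} :=
    ⟨_, dep_A2D f R, src_map fun e he => (of_mem_edF he).2⟩
  have h3 := h1.inter (h2.mono (FI_sub_Sq R))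
  rw [Set.union_self] at h3
  exact h3

/-- the good event at one pair of radii -/
def Gsc (R a b : ℤ) : Set Cf := {z | ∀ w : P2, sd (0, 0) w = R → Gd z (Sp580.Sq R) w a b}



end Crest.Agent.R158.Sh158
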