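import Crest.Agent.R158.Sb0_689
import Crest.Agent.R158.Sg4_158
import Crest.Agent.R158.Sp4e_874
import Crest.Agent.R158.Sb3_689
import Crest.Agent.R158.Qf7_808_Mg
import Crest.Agent.R158.Ce2_679
import Crest.Agent.R158.Qf3_808
import Mathlib
import Crest.Agent.R158.Qf6_808
import Crest.Agent.R158.Sh1_158
import Crest.Agent.R158.Sp5_580

-- ▼ part R158/Sb2_689
section

/-!
# Row 158, Block SEP2 (helper689): gluing of nice two arms and an outer landing event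

* `glue_out2` : `c^B (P(Nice2 f (q n)) P(O2 L FL (N n) n (cl w) (cl w') P Q)) ≤ P(Glued2 f L FL P Q)`
-/

set_option autoImplicit false

noncomputable section

namespace Crest.Agent.R158.Sb689

open MeasureTheory ProbabilityTheory unitInterval
open Crest.Agent.R161.Geo729 Crest.Agent.R161.Topo374 Crest.Agent.R161.Dual374
open Crest.Agent.R161.Tas682 hiding Sq
open Crest.Agent.R158.Rs689 Crest.Agent.R158.Ru874
open Crest.Agent.R158.Sp580
open Crest.Agent.R158.Sp874 (rt nr cl)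
open Crest.Agent.R158.Sg158

/-- the inner support avoided by the token of direction `i` -/
def NV2 (i : Fin 4) (m : ℕ) : Set P2 := if i = 0 then N2D m else N2P m

theorem NV2_sub (i : Fin 4) (m : ℕ) : NV2 i m ⊆ Sq (32 * m) := by
  unfold NV2
  split_ifs
  · exact N2D_sub m
  · exact N2P_sub m

theorem inn2 {i : Fin 4} (hi : i = 0 ∨ i = 2) {N M0 J : ℤ} {K : Finset P2} {κ : P2}
    (h : InT i N M0 J K κ) {n m : ℕ} (h1 : 16 * (m : ℤ) < (M0 - 1) * n)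
    (h2 : 32 * (m : ℤ) < J * n) : Disjoint (NV2 i m) (tubeB n K) := by
  rw [Set.disjoint_left]
  rintro x hx ⟨c, hc, hxc⟩
  have hn : (0 : ℤ) ≤ n := by positivity
  by_cases hJ : nr c ≤ J
  · have h5 := h.str c hc hJ
    have h6 := h.low c hc
    have h7 : x ∉ Sq (16 * m) := notMem_of_nr h6 hxc h1
    generalize nr c = j at h5 h6
    have h8 : (M0 - 1) * (n : ℤ) ≤ j * n - n := by
      have : (j - 1) * (n : ℤ) = j * n - n := by ring
      rw [← this]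
      exact mul_le_mul_of_nonneg_right (by omega) hn
    rcases hi with rfl | rfl
    · simp only [Fin.val_zero, Nat.cast_zero, Sp874.rt_zero] at h5
      rw [h5] at hxc
      simp only at hxc
      simp only [NV2, if_true, N2D] at hx
      rcases hx with h9 | h9
      · exact h7 h9
      · have := h9.1
        simp only [co] at this
        omega
    · simp only [Fin.val_two, Nat.cast_ofNat, Sp874.rt_two, sub_zero] at h5
      rw [h5] at hxc
      simp only at hxc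
      have e1 : (-1 - j) * (n : ℤ) = -n - j * n := by ring
      simp only [NV2, Fin.reduceEq, if_false, N2P] at hx
      rcases hx with h9 | h9
      · exact h7 h9
      · have := h9.1
        simp only [co] at this
        omega
  · have h5 : J + 1 ≤ nr c := by omega
    refine notMem_of_nr h5 hxc (R := 32 * m) ?_ (NV2_sub i m hx)
    rw [add_sub_cancel_right]
    exact h2

theorem tok2 {i : Fin 4} (hi : i = 0 ∨ i = 2) {N M0 J : ℤ} {K : Finset P2} {κ : P2}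
    (h : InT i N M0 J K κ) {n m : ℕ} (hn : 1 ≤ n) (hJ : M0 ≤ J)
    (h1 : 16 * (m : ℤ) < (M0 - 1) * n) (h1' : (M0 - 1) * n ≤ 20 * m)
    (h2 : 32 * (m : ℤ) < J * n) (h3 : (n : ℤ) ≤ m) {L : Set P2}
    (hL : Sq ((N + 20) * n) ⊆ L) : Tok i m n (N * n) (NV2 i m) L K κ where
  tk := h.tkd hJ h1' h2.le h3
  loc := h.loc' hn
  inn := inn2 hi h h1 h2
  sub := h.sub' hL

theorem locD_src {D : Set P2} {i : Edge} (hi : i ∈ (edF D).map dE.symm.toEmbedding) :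
    src i ∈ D := by
  rw [Finset.mem_map] at hi
  obtain ⟨i', hi', rfl⟩ := hi
  have h3 : tgt (dE (dE.symm i')) = fA (dE.symm i') := tgt_dE _
  rw [Equiv.apply_symm_apply] at h3
  have h4 : fA (dE.symm i') = src (dE.symm i') := rfl
  show src (dE.symm i') ∈ D
  rw [← h4, ← h3]
  exact (of_mem_edF hi').2

/-- **Outer gluing, two arms, given tokens** -/
theorem glue_out_tok2 {p : I} {c : ℝ} {n m : ℕ} {ρ : ℤ} (hn : 1 ≤ n) (hc : RSp c p n) (f : P2)
    (hm : 32 * (m : ℤ) < ρ) {L FL : Set P2} (hL : L.Finite)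
    (hFL : FL.Finite) (hLm : Sq (32 * m) ⊆ L) (hFLm : Sq (32 * m) ⊆ FL) {k k' : P2}
    {P Q : Set P2} (f1 : FarP n k P) (f2 : FarP n k' Q) {K K' : Finset P2}
    (T : Tok 0 m n ρ (N2D m) L K k) (T' : Tok 2 m n ρ (N2P m) FL K' k')
    (d : Disjoint (tubeB n K) (tubeB n K')) {M : ℕ} (c1 : K.card ≤ M) (c2 : K'.card ≤ M) :
    c ^ (4 * M) * ((nu p).real (Nice2 f m) * (nu p).real (O2 L FL ρ n k k' P Q)) ≤
      (nu p).real (Glued2 f L FL P Q) := by
  have l1 : LocD (N2P m) (Nice2P m) := ⟨_, dep_Nice2P m, fun i hi => (of_mem_edF hi).1⟩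
  have l2 : LocD (N2D m) (Nice2D f m) := ⟨_, dep_Nice2D f m, fun i hi => locD_src hi⟩
  have l3 : LocD (OutV L ρ \ Bk n k' 8) (O2P L ρ n k k' P) :=
    ⟨_, dep_O2P hL ρ n k k' P, fun i hi => (of_mem_edF hi).1⟩
  have l4 : LocD (OutF FL ρ \ Bk n k 8) (O2D FL ρ n k k' Q) :=
    ⟨_, dep_O2D hFL ρ n k k' Q, fun i hi => locD_src hi⟩
  have inS : N2P m ∪ N2D m ⊆ Sq (ρ - 1) :=
    Set.union_subset ((N2P_sub m).trans (Sq_sub (by omega)))
      ((N2D_sub m).trans (Sq_sub (by omega)))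
  have g0 : Disjoint (N2P m ∪ N2D m) ((OutV L ρ \ Bk n k' 8) ∪ (OutF FL ρ \ Bk n k 8)) := by
    rw [Set.disjoint_left]
    rintro x hx (h | h)
    · exact OutV_not h.1 (inS hx)
    · exact OutF_not h.1 (inS hx)
  have g1 : Disjoint (N2P m ∪ (OutV L ρ \ Bk n k' 8)) (tubeB n K') := by
    rw [Set.disjoint_left]
    rintro x (hx | hx) h
    · exact Set.disjoint_left.1 T'.inn hx h
    · rcases T'.loc h with h' | h'
      · exact hx.2 h'
      · exact OutV_not hx.1 h'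
  have g2 : Disjoint (N2D m ∪ (OutF FL ρ \ Bk n k 8)) (tubeB n K) := by
    rw [Set.disjoint_left]
    rintro x (hx | hx) h
    · exact Set.disjoint_left.1 T.inn hx h
    · rcases T.loc h with h' | h'
      · exact hx.2 h'
      · exact OutF_not hx.1 h'
  have key := glue_prob p (n := n) (K := K) (K' := K') l1 l2 l3 l4 (inc_Nice2P m)
    (decr_Nice2D f m) (inc_O2P L ρ n k k' P) (decr_O2D FL ρ n k k' Q) g0 g1 g2 d
  have hc0 := hc.1
  have hc1 := hc.le_one hn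
  have pr : c ^ (4 * M) ≤ xpr p (3 * n) n ^ (2 * K.card) *
      xpr (σ p) (3 * n) n ^ (2 * K'.card) := by
    obtain ⟨h4, h5⟩ := hc.2 n hn le_rfl
    have r1 : c ^ (2 * M) ≤ xpr p (3 * n) n ^ (2 * K.card) :=
      (pow_le_pow_of_le_one hc0.le hc1 (by omega)).trans (pow_le_pow_left₀ hc0.le h4 _)
    have r2 : c ^ (2 * M) ≤ xpr (σ p) (3 * n) n ^ (2 * K'.card) :=
      (pow_le_pow_of_le_one hc0.le hc1 (by omega)).trans (pow_le_pow_left₀ hc0.le h5 _)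
    have r3 : c ^ (4 * M) = c ^ (2 * M) * c ^ (2 * M) := by
      rw [← pow_add]
      congr 1
      ring
    rw [r3]
    exact mul_le_mul r1 r2 (pow_nonneg hc0.le _) ((pow_nonneg hc0.le _).trans r1)
  have st : c ^ (4 * M) * ((nu p).real (Nice2 f m) * (nu p).real (O2 L FL ρ n k k' P Q)) ≤
      (nu p).real (Nice2P m ∩ Nice2D f m) *
        (nu p).real (O2P L ρ n k k' P ∩ O2D FL ρ n k k' Q) *
        (xpr p (3 * n) n ^ (2 * K.card) * xpr (σ p) (3 * n) n ^ (2 * K'.card)) := by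
    rw [mul_comm]
    exact mul_le_mul_of_nonneg_left pr (mul_nonneg measureReal_nonneg measureReal_nonneg)
  refine (st.trans key).trans (measureReal_mono ?_)
  rintro z ⟨⟨⟨hP, hOP⟩, ⟨hD, hOD⟩⟩, hK, hK'⟩
  have sL : OutV L ρ \ Bk n k' 8 ⊆ L := fun x hx => hx.1.1
  have sF : OutF FL ρ \ Bk n k 8 ⊆ FL := fun x hx => hx.1.1
  have cL : ∀ d : Fin 4, Sq (16 * m) ∪ Corr d m ⊆ L := fun d =>
    Set.union_subset ((Sq_sub (by omega)).trans hLm) ((Corr_sub d m).trans hLm)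
  have cF : ∀ d : Fin 4, Sq (16 * m) ∪ Corr d m ⊆ FL := fun d =>
    Set.union_subset ((Sq_sub (by omega)).trans hFLm) ((Corr_sub d m).trans hFLm)
  obtain ⟨a, ha, ho⟩ := hOP
  obtain ⟨b, hb, ho'⟩ := hOD
  exact ⟨garm_glue hK T.tk hP ha ho f1 (cL 0) ((tubeR_sub n K).trans T.sub) sL,
    garm_glue hK' T'.tk hD hb ho' f2 (cF 2) ((tubeR_sub n K').trans T'.sub) sF⟩

open Classical in
/-- **L6, two arms.** -/
theorem glue_out2 {q N : ℕ} (hq : 1 ≤ q) (hN : 32 * q + 200 ≤ N) {c : ℝ} {p : I} {n : ℕ}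
    (hn : 1 ≤ n) (hc : RSp c p n) (f : P2) {w w' : ℤ} (hw : w + 840 ≤ w')
    (hw' : w' + 840 ≤ w + 4 * (2 * ((N : ℤ) - 1) + 1)) {L FL : Set P2} (hL : L.Finite)
    (hFL : FL.Finite) (hLN : Sq (((N : ℤ) + 20) * n) ⊆ L) (hFLN : Sq (((N : ℤ) + 20) * n) ⊆ FL)
    {P Q : Set P2} (f1 : ∀ b ∈ P, b ∉ Sq (((N : ℤ) + 10) * n))
    (f2 : ∀ b ∈ Q, b ∉ Sq (((N : ℤ) + 10) * n)) :
    c ^ (4 * (2 * N + 8) ^ 2) * ((nu p).real (Nice2 f (q * n)) *
      (nu p).real (O2 L FL (N * n) n (cl (N - 1) w) (cl (N - 1) w') P Q)) ≤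
        (nu p).real (Glued2 f L FL P Q) := by
  have hM : (2 * (N : ℤ) + 8).toNat ^ 2 = (2 * N + 8) ^ 2 := by
    congr 1
  have hnr : ∀ i, nr (cl ((N : ℤ) - 1) i) = N - 1 := fun i => Sp874.nr_cl (by omega) _
  obtain ⟨K, K', ⟨a1, b1⟩, a2, b2, a3, ⟨a4, b4⟩, a5, b5, a6, a7, b7, a8, b8⟩ :=
    Sp874.tok2_in (N := N) (M := 18 * q + 1) (by omega) (by omega) (by omega) hw hw'
  have e0 : ∀ r : ℤ, rt (((0 : Fin 4) : ℕ) : ℤ) (r, 0) = (r, 0) := fun r => by simp [rt]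
  have e2 : ∀ r : ℤ, rt (((2 : Fin 4) : ℕ) : ℤ) (r, 0) = (-1 - r, -1) := fun r => by
    simp [rt]
  have T : InT 0 N (18 * q + 1) (N - 177) K (cl (N - 1) w) := by
    refine inT_of (hnr _) a1 a2 (fun c hc => a3 c (Finset.mem_union_left _ hc)) ?_ ?_ (by omega)
    · rw [e0]
      exact a5
    · intro c hc h
      rw [e0]
      exact a7 c hc h
  have T' : InT 2 N (18 * q + 1) (N - 177) K' (cl (N - 1) w') := by
    refine inT_of (hnr _) b1 b2 (fun c hc => a3 c (Finset.mem_union_right _ hc)) ?_ ?_ (by omega)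
    · rw [e2]
      exact b5
    · intro c hc h
      rw [e2]
      exact b7 c hc h
  have hn' : (1 : ℤ) ≤ n := by exact_mod_cast hn
  have hq' : (1 : ℤ) ≤ q := by exact_mod_cast hq
  have hqn : (1 : ℤ) ≤ (q : ℤ) * n := by nlinarith
  have h1 : 16 * (((q * n : ℕ) : ℤ)) < ((18 * (q : ℤ) + 1) - 1) * n := by
    push_cast
    have : ((18 * (q : ℤ) + 1) - 1) * n = 18 * (q * n) := by ring
    rw [this]
    omega
  have h1' : ((18 * (q : ℤ) + 1) - 1) * n ≤ 20 * (((q * n : ℕ) : ℤ)) := by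
    push_cast
    have : ((18 * (q : ℤ) + 1) - 1) * n = 18 * (q * n) := by ring
    rw [this]
    omega
  have h2 : 32 * (((q * n : ℕ) : ℤ)) < ((N : ℤ) - 177) * n := by
    push_cast
    have : 32 * ((q : ℤ) * n) = (32 * q) * n := by ring
    rw [this]
    exact mul_lt_mul_of_pos_right (by omega) (by omega)
  have h3 : (n : ℤ) ≤ ((q * n : ℕ) : ℤ) := by
    push_cast
    nlinarith
  have hNn : ((N : ℤ) - 177) * (n : ℤ) ≤ N * n := mul_le_mul_of_nonneg_right (by omega) (by omega)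
  have m32 : Sq (32 * ((q * n : ℕ) : ℤ)) ⊆ Sq (((N : ℤ) + 20) * n) := Sq_sub (by nlinarith)
  have far : ∀ {κ : P2} {P : Set P2}, nr κ = (N : ℤ) - 1 →
      (∀ b ∈ P, b ∉ Sq (((N : ℤ) + 10) * n)) → FarP n κ P := fun hκ h =>
    FarP.of_out hn hκ (mul_le_mul_of_nonneg_right (by omega) (by omega)) h
  have dd : Disjoint (tubeB n K) (tubeB n K') := by
    refine tubeB_disj hn fun k hk k' hk' => ?_
    rcases a6 k hk k' hk' with h | h
    · left; omega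
    · right; omega
  have t := tok2 (Or.inl rfl) T hn (by omega) h1 h1' h2 h3 hLN
  have t' := tok2 (Or.inr rfl) T' hn (by omega) h1 h1' h2 h3 hFLN
  have n0 : NV2 0 (q * n) = N2D (q * n) := by simp [NV2]
  have n2 : NV2 2 (q * n) = N2P (q * n) := by simp [NV2]
  rw [n0] at t
  rw [n2] at t'
  rw [hM] at a8 b8
  exact glue_out_tok2 hn hc f (h2.trans_le hNn) hL hFL (m32.trans hLN) (m32.trans hFLN)
    (far T.nrk f1) (far T'.nrk f2) t t' dd a8 b8

end Crest.Agent.R158.Sb689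
end
end

-- ▼ part R158/Sc1_689
section

/-!
# Row 158, Block SEP2 (helper689): outer landing of two arms at a good scale

* `cover2` : on a good scale, primal and dual crossing clusters of an annulus give an outer landing
  event of two separated cells
-/

set_option autoImplicit false

noncomputable section

namespace Crest.Agent.R158.Sc689

open MeasureTheory ProbabilityTheory unitInterval
open Crest.Agent.R161.Geo729 Crest.Agent.R161.Topo374 Crest.Agent.R161.Dual374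
open Crest.Agent.R161.Tas682 hiding Sq
open Crest.Agent.R158.Rs689 Crest.Agent.R158.Ru874
open Crest.Agent.R158.Sp580 Crest.Agent.R158.Sb689
open Crest.Agent.R158.Sp874 (nr cl)
open Crest.Agent.R158.Qf808 Crest.Agent.R158.Oc874
open Crest.Agent.R158.Ce679 (Nxt Hl mem_Hl ostep_dual)

/-- first entrance into `H` -/
theorem enter {z : Cf} {S H : Set P2} {a b : P2} (h : OC z S a b) (ha : a ∉ H) (hb : b ∈ H) :
    ∃ c d, c ∉ H ∧ d ∈ H ∧ OStep z S c d ∧ OC z (S \ H) a c := by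
  obtain ⟨haS, h⟩ := h
  have key : OC z (S \ H) a b ∨ ∃ c d, c ∉ H ∧ d ∈ H ∧ OStep z S c d ∧ OC z (S \ H) a c := by
    clear hb
    induction h with
    | refl => exact Or.inl (OC.refl ⟨haS, ha⟩)
    | @tail b c h1 h2 ih =>
      rcases ih with h3 | h3
      · have hbH := h3.right.2
        by_cases hc : c ∈ H
        · exact Or.inr ⟨b, c, hbH, hc, h2, h3⟩
        · exact Or.inl ⟨h3.1, h3.2.tail ⟨h2.1, ⟨h2.2.1, hbH⟩, ⟨h2.2.2, hc⟩⟩⟩
      · exact Or.inr h3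
  rcases key with h3 | h3
  · exact absurd hb h3.right.2
  · exact h3

/-- primal crossing cluster: arm outside the ball of radius `ρ` -/
theorem parm_out {z : Cf} {k l ρ : ℤ} (hk : k < ρ) (hl : ρ ≤ l) (hz : z ∈ PArm (0, 0) k l) :
    ∃ x p, sd (0, 0) x = ρ ∧ sd (0, 0) p = l ∧
      OC z (Rect (-l) l (-l) l ∩ {v | ρ ≤ sd (0, 0) v}) x p := by
  obtain ⟨u, v, hu, hv, h⟩ := hz
  obtain ⟨p, hp, h1⟩ := first_hit (sd (0, 0)) (sd_nbr (0, 0)) l (oc_univ_of_rch h) (by omega) hv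
  obtain ⟨y, x, -, hx, -, -, -, h2⟩ := last_exit_nb (c := (0, 0)) (k := ρ - 1) h1 (by omega)
    (by omega)
  refine ⟨x, p, by omega, hp, h2.monoS ?_⟩
  rintro w ⟨⟨-, h3⟩, h4⟩
  have h3' : sd (0, 0) w ≤ l := h3
  have h4' : ρ - 1 + 1 ≤ sd (0, 0) w := h4
  rw [sd_le] at h3'
  simp only at h3'
  refine ⟨?_, ?_⟩
  · rw [mem_rect]; omega
  · show ρ ≤ sd (0, 0) w
    omega

/-- dual crossing cluster: arm outside the box of radius `ρ` -/
theorem darm_out {z : Cf} {k l ρ : ℤ} (hk : k < ρ) (hl : ρ < l) (hz : z ∈ DArm (0, 0) k l) :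
    ∃ f g, Nxt (0, 0) ρ f ∧ Sq200.BdV (-l) (l - 1) (-l) (l - 1) g ∧
      OC (dual z) (Rect (-l) (l - 1) (-l) (l - 1) \ Hl (0, 0) ρ) f g := by
  obtain ⟨f0, g0, hf, hg, h⟩ := hz
  have hf0 := (sd_le (x := (0, 0)) (p := f0) (k := k)).1 hf
  simp only at hf0
  have hg0 : ¬ sd (0, 0) g0 ≤ l - 1 := by omega
  rw [sd_le] at hg0
  simp only at hg0
  obtain ⟨g, hg1, hg2⟩ := exit_box (oc_univ_of_rch (mem_dcl.1 h)) (x0 := -l) (x1 := l - 1)
    (y0 := -l) (y1 := l - 1) (by omega) (by omega)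
  have hgH : g ∉ Hl (0, 0) ρ := by
    rw [mem_Hl]
    simp only
    omega
  have hfH : f0 ∈ Hl (0, 0) ρ := by
    rw [mem_Hl]
    simp only
    omega
  obtain ⟨f, d, hf1, hd, hst, hgf⟩ := enter hg1.symm hgH hfH
  obtain ⟨e, -, hff⟩ := ostep_dual hst
  refine ⟨f, g, ⟨hf1, e, d, hff, hd⟩, hg2, (hgf.symm).monoS ?_⟩
  rintro x ⟨⟨-, h3⟩, h4⟩
  exact ⟨h3, h4⟩

/-- **cover, two arms** -/
theorem cover2 {T0 : ℕ} (hT : 500 ≤ T0) {D1 D2 D3 : ℕ} (h1 : 2 ≤ D1) (h2 : 2 ≤ D2) (h3 : 2 ≤ D3)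
    {N : ℕ} (hN : N = 32 * D1 * D2 * D3 * T0) {n : ℕ} (hn : 1 ≤ n) {k l : ℤ} (hk : k < N * n)
    (hl : 2 * ((N : ℤ) * n) ≤ l) {z : Cf} (hz : z ∈ PArm (0, 0) k l) (hz' : z ∈ DArm (0, 0) k l)
    (hg : z ∈ GO (0, 0) D1 D2 D3 (T0 * n)) :
    ∃ w w' : ℤ, w + 840 ≤ w' ∧ w' + 840 ≤ w + 4 * (2 * ((N : ℤ) - 1) + 1) ∧
      (0 ≤ w ∧ w < 16 * N) ∧ (0 ≤ w' ∧ w' < 16 * N) ∧
      z ∈ O2 (Sq l) (FI l) (N * n) n (cl (N - 1) w) (cl (N - 1) w') (Sph l) (FIb l) := by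
  have hn' : (1 : ℤ) ≤ n := by exact_mod_cast hn
  have hT' : (500 : ℤ) ≤ T0 := by exact_mod_cast hT
  set u : ℤ := T0 * n with hu
  have hun : 500 * (n : ℤ) ≤ u := mul_le_mul_of_nonneg_right hT' (by omega)
  have hu1 : 1 ≤ u := by omega
  obtain ⟨r1, r2, r3, r4, r5⟩ := radii h1 h2 h3 hu1
  have hρ : (N : ℤ) * n = 32 * D1 * D2 * D3 * u := by
    rw [hN, hu]
    push_cast
    ring
  have hNpos : 1 ≤ N := by
    have : 2 * 2 * 2 * 1 ≤ D1 * D2 * D3 * T0 := by gcongr; omega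
    have e0 : N = 32 * (D1 * D2 * D3 * T0) := by rw [hN]; ring
    omega
  have hb : 32 * (D1 : ℤ) * D2 * D3 * u = 8 * (4 * D1 * D2 * D3 * u) := by ring
  have hcρ : 2 * (D2 : ℤ) * D3 * u < N * n := by omega
  obtain ⟨x, p, hx, hp, hxp⟩ := parm_out hk (by omega) hz
  obtain ⟨f, g, hf, hgb, hfg⟩ := darm_out hk (by omega) hz'
  have hcut : ∀ w, sd (0, 0) w = N * n → ∀ a b' : ℤ, b' ≤ 4 * D1 * D2 * D3 * u →
      {v : P2 | (N : ℤ) * n ≤ sd (0, 0) v} ∩ Cpl963.An w a b' =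
        (Rect (-l) l (-l) l ∩ {v | (N : ℤ) * n ≤ sd (0, 0) v}) ∩ Cpl963.An w a b' := by
    intro w hw a b' hb'
    ext v
    constructor
    · rintro ⟨h5, h6⟩
      refine ⟨⟨?_, h5⟩, h6⟩
      have h7 := Cpl963.sd_tri (0, 0) w v
      have h8 : sd w v ≤ b' := h6.2
      have h9 : sd (0, 0) v ≤ l := by omega
      rw [sd_le] at h9
      simp only at h9
      rw [mem_rect]
      omega
    · rintro ⟨h5, h6⟩
      exact ⟨h5.2, h6⟩
  rw [← hρ] at hb
  have hGO : z ∈ GoodO (0, 0) (N * n) u (D3 * u) (2 * D3 * u) (2 * D3 * u) (2 * D2 * D3 * u)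
    (4 * D2 * D3 * u) (4 * D1 * D2 * D3 * u) := by
    rw [hρ]
    exact hg
  obtain ⟨f', g', w', hf', hg', hw', hfw, hsx, hD, hP⟩ := Ce679.core2_hole (z := z) (c0 := (0, 0))
    (x := x) (p := p) (f := f) (g := g) (ρ := N * n) (t := u) (r := D3 * u) (s := 2 * D3 * u)
    (c := 2 * D2 * D3 * u) (x0 := -l) (x1 := l) (y0 := -l) (y1 := l) (by omega) (by omega) (by omega)
    (by omega) hcρ (by simp only; omega) (by simp only; omega) (by simp only; omega)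
    (by simp only; omega) hx hxp (by omega) hf hgb hfg
    (gd_cut (hcut x hx _ _ (by omega)) (hGO.1 x hx).2.1)
    (fun w hw => gd_cut (hcut w hw _ _ (by omega)) (hGO.1 w hw).2.2)
  have ncx : NC n N x := nc_of_sd hn' hx
  have ncf : NC n N f' := by
    have e1 : ¬ (f' ∈ Hl (0, 0) (N * n)) := hf'.1
    rw [mem_Hl] at e1
    simp only at e1
    have e2 := Cpl963.sd_tri (0, 0) w' f'
    rw [Cpl963.sd_comm w' f'] at e2
    have e3 : sd (0, 0) f' ≤ N * n + 1 := by omega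
    rw [sd_le] at e3
    simp only at e3
    unfold NC
    omega
  have hNn : (1 : ℤ) ≤ N := by exact_mod_cast hNpos
  have hfar := far_kp (F := 840) hn hNn ncx ncf (by
    have : (840 + 3) * (n : ℤ) = 843 * n := by ring
    omega)
  have nkx := nr_kp hn' hNn ncx
  have nkf := nr_kp hn' hNn ncf
  obtain ⟨w, q1, q2, q3⟩ := Sr200.exists_cel (j := (N : ℤ) - 1) (by omega)
    ((Sr200.rg_iff (by omega)).2 nkx) 0
  obtain ⟨v, q4, q5, q6⟩ := Sr200.exists_cel (j := (N : ℤ) - 1) (by omega)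
    ((Sr200.rg_iff (by omega)).2 nkf) w
  rw [Sr200.cel_eq] at q3 q6
  rw [← q3, ← q6] at hfar
  obtain ⟨s1, s2⟩ := Sp874.sep_of_far (by omega) q4 (by omega) hfar
  refine ⟨w, v, s1, s2, ⟨q1, by omega⟩, ⟨by omega, by omega⟩, ?_⟩
  rw [q3, q6]
  refine ⟨⟨x, mem_kp hn hNn ncx, p, hp, hP.monoS ?_⟩, ⟨f', mem_kp hn hNn ncf, g', ?_, hD.monoS ?_⟩⟩
  · rintro y ⟨⟨y1, y2⟩, y3⟩
    refine ⟨⟨y1, y2⟩, fun y4 => ?_⟩
    have y5 := bk_kp hn hNn ncf y4
    have y6 := Cpl963.sd_tri w' f' y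
    rw [Cpl963.sd_comm w' f'] at y6
    have y7 : u ≤ sd w' y := y3
    omega
  · exact ⟨hD.right.1.1, hg'⟩
  · rintro y ⟨⟨y1, y2⟩, y3⟩
    refine ⟨⟨y1, fun y4 => y2 ?_⟩, fun y4 => ?_⟩
    · rw [mem_Hl]
      simp only
      omega
    · have y5 := bk_kp hn hNn ncx y4
      have y7 : 2 * (D3 : ℤ) * u ≤ sd x y := y3
      omega

end Crest.Agent.R158.Sc689
end
end

-- ▼ part R158/Sc2_689
section

/-!
# Row 158 (helper689), QM2, abstract part: quasi-multiplicativity with losses from one-scale landing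

Variant of 808's `qm_of_one_scale` in which the exponent of `P` is not used: only
`P n ≤ C P (2 n)` (`n ≥ n0`) and monotonicity.

* `qm_of_doubling`
-/

set_option autoImplicit false

noncomputable section

namespace Crest.Agent.R158.Sc689

open Filter MeasureTheory

/-- iterated doubling -/
theorem iter_dbl {P : ℕ → ℝ} {C : ℝ} (hC : 1 ≤ C) {n0 : ℕ}
    (hdb : ∀ n, n0 ≤ n → P n ≤ C * P (2 * n)) (m : ℕ) {n : ℕ} (hn : n0 ≤ n) :
    P n ≤ C ^ m * P (2 ^ m * n) := by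
  induction m with
  | zero => simp
  | succ m ih =>
    have h1 : n0 ≤ 2 ^ m * n := hn.trans (Nat.le_mul_of_pos_left n (by positivity))
    have h2 := hdb _ h1
    have h3 : 2 * (2 ^ m * n) = 2 ^ (m + 1) * n := by ring
    rw [h3] at h2
    calc P n ≤ C ^ m * P (2 ^ m * n) := ih
      _ ≤ C ^ m * (C * P (2 ^ (m + 1) * n)) := mul_le_mul_of_nonneg_left h2 (by positivity)
      _ = C ^ (m + 1) * P (2 ^ (m + 1) * n) := by ring

/-- polynomial lower bound -/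
theorem lower_dbl {P : ℕ → ℝ} (hPa : Antitone P) (hP0 : ∀ n, 0 ≤ P n) {C : ℝ} (hC : 1 ≤ C) {n0 : ℕ}
    (hdb : ∀ n, n0 ≤ n → P n ≤ C * P (2 * n)) (hpos : 0 < P (max n0 1)) :
    ∃ a c1 : ℝ, 0 ≤ a ∧ 0 < c1 ∧ ∀ n : ℕ, 1 ≤ n → c1 * (n : ℝ) ^ (-a) ≤ P n := by
  refine ⟨Real.logb 2 C, P (max n0 1) / C, Real.logb_nonneg (by norm_num) hC, by positivity, ?_⟩
  intro n hn
  have hn0 : (0 : ℝ) < n := by exact_mod_cast hn
  have hC0 : 0 < C := by linarith
  set m := Nat.log 2 n with hm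
  have h1 := iter_dbl hC hdb (m + 1) (le_max_left n0 1)
  have h2 : P (2 ^ (m + 1) * max n0 1) ≤ P n := by
    refine hPa ?_
    have h3 : n < 2 ^ (m + 1) := Nat.lt_pow_succ_log_self (by norm_num) n
    have h4 : 2 ^ (m + 1) ≤ 2 ^ (m + 1) * max n0 1 :=
      Nat.le_mul_of_pos_right _ (lt_of_lt_of_le one_pos (le_max_right _ _))
    omega
  have h3 : C ^ m ≤ (n : ℝ) ^ (Real.logb 2 C) := by
    have h4 : (2 : ℝ) ^ m ≤ n := by exact_mod_cast Nat.pow_log_le_self 2 (by omega)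
    have h5 : C ^ m = ((2 : ℝ) ^ m) ^ (Real.logb 2 C) := by
      rw [← Real.rpow_natCast, ← Real.rpow_natCast, ← Real.rpow_mul (by norm_num), mul_comm,
        Real.rpow_mul (by norm_num), Real.rpow_logb (by norm_num) (by norm_num) hC0]
    rw [h5]
    exact Real.rpow_le_rpow (by positivity) h4 (Real.logb_nonneg (by norm_num) hC)
  have h6 : P (max n0 1) ≤ C * (n : ℝ) ^ (Real.logb 2 C) * P n := by
    calc P (max n0 1) ≤ C ^ (m + 1) * P (2 ^ (m + 1) * max n0 1) := h1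
      _ ≤ C ^ (m + 1) * P n := mul_le_mul_of_nonneg_left h2 (by positivity)
      _ = C * C ^ m * P n := by ring
      _ ≤ C * (n : ℝ) ^ (Real.logb 2 C) * P n := by
          refine mul_le_mul_of_nonneg_right (mul_le_mul_of_nonneg_left h3 hC0.le) (hP0 n)
  rw [Real.rpow_neg hn0.le]
  have h7 := Real.rpow_pos_of_pos hn0 (Real.logb 2 C)
  rw [← div_eq_mul_inv, div_div, div_le_iff₀ (by positivity)]
  linarith

theorem fin_aux {X A B Q : ℝ} (hX : 1 ≤ X) (h1 : B ≤ A * X) (h2 : A + 1 ≤ X) (hQ : 0 ≤ Q) :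
    B * X * Q + Q ≤ X * X * (X * X) * Q := by
  have hX0 : 0 ≤ X := by linarith
  have e1 : B * X ≤ A * X * X := mul_le_mul_of_nonneg_right h1 hX0
  have e2 : 1 ≤ X * X := one_le_mul_of_one_le_of_one_le hX hX
  have e3 : (A + 1) * (X * X) ≤ X * (X * X) := mul_le_mul_of_nonneg_right h2 (by linarith)
  have e4 : X * (X * X) ≤ X * X * (X * X) :=
    mul_le_mul_of_nonneg_right (by nlinarith) (by linarith)
  have e5 : (A + 1) * (X * X) = A * X * X + X * X := by ring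
  have e6 : B * X + 1 ≤ X * X * (X * X) := by linarith
  have e7 := mul_le_mul_of_nonneg_right e6 hQ
  linarith

/-- **quasi-multiplicativity with losses from one-scale landing**, doubling version -/
theorem qm_of_doubling {Ω : Type*} [MeasurableSpace Ω] {μ : Measure Ω} [IsProbabilityMeasure μ]
    {P : ℕ → ℝ} {T : ℕ → ℕ → Set Ω} (hPa : Antitone P) (hP0 : ∀ n, 0 ≤ P n) (hP1 : ∀ n, P n ≤ 1)
    {C : ℝ} (hC : 1 ≤ C) {n0 : ℕ} (hdb : ∀ n, n0 ≤ n → P n ≤ C * P (2 * n))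
    (hTm : ∀ k k' l, 1 ≤ k → k ≤ k' → k' ≤ l → T k l ⊆ T k' l)
    {b : ℕ} (G : ℝ → ℕ → Set Ω)
    (hG : ∀ η : ℝ, 0 < η → ∃ r0 : ℕ, ∀ k J : ℕ, r0 ≤ k →
      μ.real (⋂ j ∈ Finset.range J, (G η ((2 ^ b) ^ j * k))ᶜ) ≤ η ^ J)
    (one : ∀ η : ℝ, 0 < η → ∃ (K : ℝ) (r0 : ℕ), 0 ≤ K ∧ ∀ r l : ℕ, r0 ≤ r → 2 ^ b * r ≤ l →
      μ.real (T r l ∩ G η r) * P r ≤ K * P l) :
    ∀ ε : ℝ, 0 < ε → ∃ k0 : ℕ, ∀ᶠ n : ℕ in atTop, ∀ k l : ℕ, k0 ≤ k → k ≤ l → l ≤ n →
      P k * μ.real (T k l) ≤ (n : ℝ) ^ ε * P l := by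
  intro ε hε
  rcases (hP0 (max n0 1)).eq_or_lt with hz | hpos
  · refine ⟨max n0 1, Eventually.of_forall fun n k l hk _ _ => ?_⟩
    have h1 : P k = 0 := le_antisymm ((hPa hk).trans hz.symm.le) (hP0 k)
    rw [h1, zero_mul]
    exact mul_nonneg (Real.rpow_nonneg (Nat.cast_nonneg _) _) (hP0 l)
  obtain ⟨a, c1, ha, hc1, hlow⟩ := lower_dbl hPa hP0 hC hdb hpos
  set D : ℝ := C ^ b with hD
  have hD1 : 1 ≤ D := one_le_pow₀ hC
  have hD0 : 0 < D := by linarith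
  have hLD : 0 ≤ Real.log D := Real.log_nonneg hD1
  set θ : ℝ := ε / (4 * (Real.log D + 1)) with hθ
  have hθ0 : 0 < θ := by positivity
  have hθD : θ * Real.log D ≤ ε / 4 := by
    rw [hθ, div_mul_eq_mul_div, div_le_iff₀ (by positivity)]
    nlinarith
  set η : ℝ := Real.exp (-((a + 1) / θ)) with hη
  have hη0 : 0 < η := Real.exp_pos _
  obtain ⟨r0, hr0⟩ := hG η hη0
  obtain ⟨K, r1, hK, hr1⟩ := one η hη0
  refine ⟨max n0 (max (max r0 r1) 1), ?_⟩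
  have htend : Tendsto (fun n : ℕ => (n : ℝ) ^ (ε / 4)) atTop atTop :=
    (tendsto_rpow_atTop (by positivity)).comp tendsto_natCast_atTop_atTop
  have hlogt : ∀ᶠ n : ℕ in atTop, Real.log n ≤ (n : ℝ) ^ (ε / 4) := by
    have h := isLittleO_log_rpow_atTop (show 0 < ε / 4 by positivity)
    have h2 := (h.comp_tendsto tendsto_natCast_atTop_atTop).bound (c := 1) one_pos
    filter_upwards [h2, eventually_ge_atTop 1] with n hn hn1
    simp only [Function.comp_apply, Real.norm_eq_abs, one_mul] at hn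
    have hN0 : (0 : ℝ) ≤ n := Nat.cast_nonneg _
    rw [abs_of_nonneg (Real.rpow_nonneg hN0 _)] at hn
    exact (le_abs_self _).trans hn
  have hexp : ∀ᶠ n : ℕ in atTop, Real.exp ((a + 1) / θ) / c1 ≤ (n : ℝ) :=
    tendsto_natCast_atTop_atTop.eventually_ge_atTop _
  filter_upwards [hlogt, htend.eventually_ge_atTop (θ * K + 1), htend.eventually_ge_atTop D, hexp,
    eventually_ge_atTop 1] with n h1 h2 h3 h4 hn k l hk hkl hl
  have hN : (1 : ℝ) ≤ n := by exact_mod_cast hn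
  have hN0 : (0 : ℝ) < n := by linarith
  have hL0 : 0 ≤ Real.log n := Real.log_nonneg hN
  have hkn0 : n0 ≤ k := (le_max_left _ _).trans hk
  have hkr0 : r0 ≤ k :=
    (((le_max_left r0 r1).trans (le_max_left _ _)).trans (le_max_right _ _)).trans hk
  have hkr1 : r1 ≤ k :=
    (((le_max_right r0 r1).trans (le_max_left _ _)).trans (le_max_right _ _)).trans hk
  have hk1 : 1 ≤ k := ((le_max_right (max r0 r1) 1).trans (le_max_right _ _)).trans hk
  have hl1 : 1 ≤ l := hk1.trans hkl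
  have hPl : 0 < P l :=
    lt_of_lt_of_le (mul_pos hc1 (Real.rpow_pos_of_pos (by exact_mod_cast hl1) _)) (hlow l hl1)
  set J := ⌊θ * Real.log n⌋₊ with hJ
  have hJle : (J : ℝ) ≤ θ * Real.log n := Nat.floor_le (by positivity)
  have hJge : θ * Real.log n - 1 ≤ J := by
    have := Nat.lt_floor_add_one (θ * Real.log n)
    linarith
  -- `D^J ≤ n^(ε/4)`
  have hDJ : D ^ J ≤ (n : ℝ) ^ (ε / 4) := by
    rw [← Real.rpow_natCast, Real.rpow_def_of_pos hD0, Real.rpow_def_of_pos hN0]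
    refine Real.exp_le_exp.2 ?_
    calc Real.log D * J ≤ Real.log D * (θ * Real.log n) := mul_le_mul_of_nonneg_left hJle hLD
      _ = (θ * Real.log D) * Real.log n := by ring
      _ ≤ ε / 4 * Real.log n := mul_le_mul_of_nonneg_right hθD hL0
      _ = Real.log n * (ε / 4) := by ring
  have hBeq : ∀ j, (2 ^ b) ^ j = 2 ^ (b * j) := fun j => (pow_mul 2 b j).symm
  have hDeq : ∀ j, D ^ j = C ^ (b * j) := fun j => (pow_mul C b j).symm
  have hstepP : ∀ j, P k ≤ D ^ j * P ((2 ^ b) ^ j * k) := by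
    intro j
    rw [hBeq, hDeq]
    exact iter_dbl hC hdb (b * j) hkn0
  have hμ1 : μ.real (T k l) ≤ 1 := measureReal_le_one
  rcases lt_or_ge l ((2 ^ b) ^ (J + 1) * k) with hcase | hcase
  · -- few scales
    have h5 : P k ≤ D ^ (J + 1) * P l :=
      (hstepP (J + 1)).trans (mul_le_mul_of_nonneg_left (hPa hcase.le) (by positivity))
    have h6 : D ^ (J + 1) ≤ (n : ℝ) ^ ε := by
      calc D ^ (J + 1) = D ^ J * D := pow_succ _ _
        _ ≤ (n : ℝ) ^ (ε / 4) * (n : ℝ) ^ (ε / 4) :=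
            mul_le_mul hDJ h3 hD0.le (Real.rpow_nonneg hN0.le _)
        _ = (n : ℝ) ^ (ε / 4 + ε / 4) := (Real.rpow_add hN0 _ _).symm
        _ ≤ (n : ℝ) ^ ε := Real.rpow_le_rpow_of_exponent_le hN (by linarith)
    calc P k * μ.real (T k l) ≤ P k * 1 := mul_le_mul_of_nonneg_left hμ1 (hP0 k)
      _ = P k := mul_one _
      _ ≤ D ^ (J + 1) * P l := h5
      _ ≤ (n : ℝ) ^ ε * P l := mul_le_mul_of_nonneg_right h6 hPl.le
  · have hηJ : η ^ J ≤ P l := by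
      have h5 : η ^ J ≤ (n : ℝ) ^ (-(a + 1)) * Real.exp ((a + 1) / θ) := by
        rw [hη, ← Real.exp_nat_mul, Real.rpow_def_of_pos hN0, ← Real.exp_add]
        refine Real.exp_le_exp.2 ?_
        have h6 : (θ * Real.log n - 1) * ((a + 1) / θ) ≤ J * ((a + 1) / θ) :=
          mul_le_mul_of_nonneg_right hJge (by positivity)
        have h7 : (θ * Real.log n - 1) * ((a + 1) / θ) = (a + 1) * Real.log n - (a + 1) / θ := by
          field_simp
        have h8 : (J : ℝ) * -((a + 1) / θ) = -(J * ((a + 1) / θ)) := by ring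
        rw [h8]
        linarith
      have h6 : (n : ℝ) ^ (-(a + 1)) * Real.exp ((a + 1) / θ) ≤ c1 * (n : ℝ) ^ (-a) := by
        rw [div_le_iff₀ hc1] at h4
        have h7 : (n : ℝ) ^ (-(a + 1)) = (n : ℝ) ^ (-a) * (n : ℝ)⁻¹ := by
          rw [neg_add, Real.rpow_add hN0, Real.rpow_neg_one]
        rw [h7]
        have h8 := Real.rpow_pos_of_pos hN0 (-a)
        calc (n : ℝ) ^ (-a) * (n : ℝ)⁻¹ * Real.exp ((a + 1) / θ)
            ≤ (n : ℝ) ^ (-a) * (n : ℝ)⁻¹ * (n * c1) :=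
              mul_le_mul_of_nonneg_left h4 (by positivity)
          _ = c1 * (n : ℝ) ^ (-a) := by field_simp
      have h7 : c1 * (n : ℝ) ^ (-a) ≤ c1 * (l : ℝ) ^ (-a) := by
        refine mul_le_mul_of_nonneg_left ?_ hc1.le
        have hl0 : (0 : ℝ) < l := by exact_mod_cast hl1
        rw [Real.rpow_neg hN0.le, Real.rpow_neg hl0.le]
        refine inv_anti₀ (Real.rpow_pos_of_pos hl0 _) ?_
        exact Real.rpow_le_rpow hl0.le (by exact_mod_cast hl) ha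
      exact h5.trans (h6.trans (h7.trans (hlow l hl1)))
    have hsub : T k l ⊆ (⋃ j ∈ Finset.range J, (T ((2 ^ b) ^ j * k) l ∩ G η ((2 ^ b) ^ j * k))) ∪
        (⋂ j ∈ Finset.range J, (G η ((2 ^ b) ^ j * k))ᶜ) := by
      intro z hz
      by_cases hbad : z ∈ ⋂ j ∈ Finset.range J, (G η ((2 ^ b) ^ j * k))ᶜ
      · exact Or.inr hbad
      · left
        simp only [Set.mem_iInter, not_forall, Set.mem_compl_iff, not_not] at hbad
        obtain ⟨j, hj, hjG⟩ := hbad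
        refine Set.mem_iUnion₂.2 ⟨j, hj, ?_, hjG⟩
        refine hTm k ((2 ^ b) ^ j * k) l hk1 (Nat.le_mul_of_pos_left _ (by positivity)) ?_ hz
        refine le_trans (Nat.mul_le_mul_right _ (Nat.pow_le_pow_right (by positivity) ?_)) hcase
        have := Finset.mem_range.1 hj
        omega
    have hstep : ∀ j ∈ Finset.range J,
        P k * μ.real (T ((2 ^ b) ^ j * k) l ∩ G η ((2 ^ b) ^ j * k)) ≤
          (n : ℝ) ^ (ε / 4) * (K * P l) := by
      intro j hj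
      have hjJ := Finset.mem_range.1 hj
      have hjk : k ≤ (2 ^ b) ^ j * k := Nat.le_mul_of_pos_left _ (by positivity)
      have hjl : 2 ^ b * ((2 ^ b) ^ j * k) ≤ l := by
        refine le_trans (le_of_eq (by ring : 2 ^ b * ((2 ^ b) ^ j * k) = (2 ^ b) ^ (j + 1) * k))
          (le_trans (Nat.mul_le_mul_right _ (Nat.pow_le_pow_right (by positivity) (by omega))) hcase)
      have h5 := hr1 ((2 ^ b) ^ j * k) l (hkr1.trans hjk) hjl
      have h6 : P k ≤ (n : ℝ) ^ (ε / 4) * P ((2 ^ b) ^ j * k) := by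
        refine (hstepP j).trans (mul_le_mul_of_nonneg_right ?_ (hP0 _))
        exact (pow_le_pow_right₀ hD1 (by omega)).trans hDJ
      calc P k * μ.real (T ((2 ^ b) ^ j * k) l ∩ G η ((2 ^ b) ^ j * k))
          ≤ ((n : ℝ) ^ (ε / 4) * P ((2 ^ b) ^ j * k)) *
              μ.real (T ((2 ^ b) ^ j * k) l ∩ G η ((2 ^ b) ^ j * k)) :=
            mul_le_mul_of_nonneg_right h6 measureReal_nonneg
        _ = (n : ℝ) ^ (ε / 4) *
              (μ.real (T ((2 ^ b) ^ j * k) l ∩ G η ((2 ^ b) ^ j * k)) * P ((2 ^ b) ^ j * k)) := by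
            ring
        _ ≤ (n : ℝ) ^ (ε / 4) * (K * P l) :=
            mul_le_mul_of_nonneg_left h5 (Real.rpow_nonneg hN0.le _)
    have hμle : μ.real (T k l) ≤
        ∑ j ∈ Finset.range J, μ.real (T ((2 ^ b) ^ j * k) l ∩ G η ((2 ^ b) ^ j * k)) + η ^ J := by
      refine (measureReal_mono hsub).trans ((measureReal_union_le _ _).trans ?_)
      exact add_le_add (measureReal_biUnion_finset_le _ _) (hr0 k J hkr0)
    have hηl : P k * η ^ J ≤ P l :=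
      calc P k * η ^ J ≤ 1 * η ^ J := mul_le_mul_of_nonneg_right (hP1 k) (by positivity)
        _ = η ^ J := one_mul _
        _ ≤ P l := hηJ
    calc P k * μ.real (T k l)
        ≤ P k * (∑ j ∈ Finset.range J,
            μ.real (T ((2 ^ b) ^ j * k) l ∩ G η ((2 ^ b) ^ j * k)) + η ^ J) :=
          mul_le_mul_of_nonneg_left hμle (hP0 k)
      _ = ∑ j ∈ Finset.range J, P k * μ.real (T ((2 ^ b) ^ j * k) l ∩ G η ((2 ^ b) ^ j * k)) +
            P k * η ^ J := by rw [mul_add, Finset.mul_sum]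
      _ ≤ ∑ _j ∈ Finset.range J, (n : ℝ) ^ (ε / 4) * (K * P l) + P l :=
          add_le_add (Finset.sum_le_sum hstep) hηl
      _ = (J * K) * (n : ℝ) ^ (ε / 4) * P l + P l := by
          rw [Finset.sum_const, Finset.card_range, nsmul_eq_mul]; ring
      _ ≤ (n : ℝ) ^ ε * P l := by
          have e2 : (J * K : ℝ) ≤ θ * K * (n : ℝ) ^ (ε / 4) := by
            calc (J * K : ℝ) ≤ (θ * Real.log n) * K := mul_le_mul_of_nonneg_right hJle hK
              _ = θ * K * Real.log n := by ring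
              _ ≤ θ * K * (n : ℝ) ^ (ε / 4) := mul_le_mul_of_nonneg_left h1 (by positivity)
          have e3 : (n : ℝ) ^ ε = (n : ℝ) ^ (ε / 4) * (n : ℝ) ^ (ε / 4) *
              ((n : ℝ) ^ (ε / 4) * (n : ℝ) ^ (ε / 4)) := by
            rw [← Real.rpow_add hN0, ← Real.rpow_add hN0]; congr 1; ring
          rw [e3]
          exact fin_aux (Real.one_le_rpow hN (by positivity)) e2 h2 hPl.le

end Crest.Agent.R158.Sc689
end
end

-- ▼ part R158/Sc3_689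
section

/-!
# Row 158, Block SEP2 (helper689): quasi-multiplicativity of two arms

* `step_out2` : outer landing and gluing at one scale
* `Sep2` : separation of two arms (literal input)
* `p2_dbl` : `p2 n ≤ C p2 (2 n)`
* `qm2` : `p2 k P(An2 k' l) ≤ n^ε p2 l`
-/

set_option autoImplicit false

noncomputable section

namespace Crest.Agent.R158.Sc689

open Filter MeasureTheory ProbabilityTheory unitInterval
open Crest.Agent.R161.Geo729 Crest.Agent.R161.Topo374 Crest.Agent.R161.Dual374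
open Crest.Agent.R161.Tas682 hiding Sq
open Crest.Agent.R158.Rs689 Crest.Agent.R158.Ru874
open Crest.Agent.R158.Sp580 Crest.Agent.R158.Sb689
open Crest.Agent.R158.Sp874 (nr cl)
open Crest.Agent.R158.Qf808 Crest.Agent.R158.Oc874
open Crest.Agent.R158.Ax107 (p2 p2_anti p2_nonneg p2_le_one P2ev)
open Crest.Agent.R158.Sg158 (LocD)

/-- primal and dual crossing clusters of the annulus -/
def An2 (k l : ℤ) : Set Cf := PArm (0, 0) k l ∩ DArm (0, 0) k l

theorem An2_mono {k k' l : ℤ} (h : k ≤ k') : An2 k l ⊆ An2 k' l := by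
  rintro z ⟨⟨u, v, h1, h2, h3⟩, f, g, h4, h5, h6⟩
  exact ⟨⟨u, v, h1.trans h, h2, h3⟩, f, g, h4.trans h, h5, h6⟩

/-- finite union over pairs of cells -/
theorem cover_le2 {Ω : Type*} [MeasurableSpace Ω] {μ : Measure Ω} [IsFiniteMeasure μ] {A : Set Ω}
    {U : ℤ → ℤ → Set Ω} {Q : ℤ → ℤ → Prop} {M : ℕ}
    (h : ∀ z ∈ A, ∃ w w' : ℤ, (0 ≤ w ∧ w < M) ∧ (0 ≤ w' ∧ w' < M) ∧ Q w w' ∧ z ∈ U w w') {B : ℝ}
    (hB : 0 ≤ B) (hU : ∀ w w', Q w w' → μ.real (U w w') ≤ B) : μ.real A ≤ (M : ℝ) ^ 2 * B := by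
  classical
  set S : Finset (ℤ × ℤ) := (Finset.Ico (0 : ℤ) M ×ˢ Finset.Ico (0 : ℤ) M).filter
    fun q => Q q.1 q.2 with hS
  have hc : S.card ≤ M ^ 2 := by
    refine (Finset.card_filter_le _ _).trans ?_
    rw [Finset.card_product]
    simp [sq]
  have h1 : A ⊆ ⋃ q ∈ S, U q.1 q.2 := by
    intro z hz
    obtain ⟨w, w', h2, h3, h4, h5⟩ := h z hz
    refine Set.mem_biUnion (x := (w, w')) ?_ h5
    rw [hS]
    refine Finset.mem_coe.2 (Finset.mem_filter.2 ⟨?_, h4⟩)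
    exact Finset.mem_product.2 ⟨Finset.mem_Ico.2 h2, Finset.mem_Ico.2 h3⟩
  calc μ.real A ≤ μ.real (⋃ q ∈ S, U q.1 q.2) := measureReal_mono h1 (measure_ne_top _ _)
    _ ≤ ∑ q ∈ S, μ.real (U q.1 q.2) := measureReal_biUnion_finset_le _ _
    _ ≤ ∑ _q ∈ S, B := Finset.sum_le_sum fun q hq => hU q.1 q.2 (Finset.mem_filter.1 hq).2
    _ = S.card * B := by rw [Finset.sum_const, nsmul_eq_mul]
    _ ≤ (M : ℝ) ^ 2 * B := mul_le_mul_of_nonneg_right (by exact_mod_cast hc) hB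

/-- **outer landing and gluing at one scale, two arms** -/
theorem step_out2 {T0 : ℕ} (hT : 500 ≤ T0) {D1 D2 D3 : ℕ} (h1 : 2 ≤ D1) (h2 : 2 ≤ D2)
    (h3 : 2 ≤ D3) {c : ℝ} {p : I} {n : ℕ} (hn : 1 ≤ n) (hc : RSp c p n) (f : P2)
    {N : ℕ} (hN : N = 32 * D1 * D2 * D3 * T0) {k l : ℤ} (hkN : k < N * n)
    (hl : 2 * ((N : ℤ) * n) ≤ l) :
    (nu p).real (An2 k l ∩ GO (0, 0) D1 D2 D3 (T0 * n)) * (nu p).real (Nice2 f n) ≤
      (((16 * N : ℕ) : ℝ) ^ 2 * (c ^ (4 * (2 * N + 8) ^ 2))⁻¹) * (nu p).real (A2 f l) := by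
  have hN232 : 232 ≤ N := by
    have : 2 * 2 * 2 * 1 ≤ D1 * D2 * D3 * T0 := by gcongr; omega
    have e0 : N = 32 * (D1 * D2 * D3 * T0) := by rw [hN]; ring
    omega
  have hn0 : (1 : ℤ) ≤ n := by exact_mod_cast hn
  have hN0 : (232 : ℤ) ≤ N := by exact_mod_cast hN232
  have hn1 : (N : ℤ) * n + 20 * n ≤ 2 * (N * n) - 2 := by nlinarith
  have hc0 : 0 < c := hc.1
  set B := 4 * (2 * N + 8) ^ 2 with hB
  have hcB : 0 < c ^ B := pow_pos hc0 B
  have hS : ∀ v ∈ Sq (((N : ℤ) + 20) * n), -((N : ℤ) * n + 20 * n) ≤ v.1 ∧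
      v.1 ≤ (N : ℤ) * n + 20 * n ∧ -((N : ℤ) * n + 20 * n) ≤ v.2 ∧ v.2 ≤ (N : ℤ) * n + 20 * n := by
    intro v hv
    rw [mem_Sq] at hv
    have : ((N : ℤ) + 20) * n = (N : ℤ) * n + 20 * n := by ring
    omega
  have hS' : ∀ v ∈ Sq (((N : ℤ) + 10) * n), -((N : ℤ) * n + 20 * n) ≤ v.1 ∧
      v.1 ≤ (N : ℤ) * n + 20 * n ∧ -((N : ℤ) * n + 20 * n) ≤ v.2 ∧ v.2 ≤ (N : ℤ) * n + 20 * n := by
    intro v hv
    rw [mem_Sq] at hv
    have : ((N : ℤ) + 10) * n = (N : ℤ) * n + 10 * n := by ring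
    omega
  have hP : ∀ b ∈ Sph l, b ∉ Sq (((N : ℤ) + 10) * n) := by
    intro b hb hb'
    have h4 := hS' b hb'
    have h5 : sd (0, 0) b = l := hb
    have h6 : sd (0, 0) b ≤ (N : ℤ) * n + 20 * n := by rw [sd_le]; simp only; omega
    omega
  have hQ : ∀ b ∈ FIb l, b ∉ Sq (((N : ℤ) + 10) * n) := by
    intro b hb hb'
    have h4 := hS' b hb'
    have h5 := hb.2
    simp only [Set.mem_ofPred_eq] at h5
    omega
  rcases (measureReal_nonneg (μ := nu p) (s := Nice2 f n)).eq_or_lt with hz | hpos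
  · rw [← hz, mul_zero]
    positivity
  have hcov : (nu p).real (An2 k l ∩ GO (0, 0) D1 D2 D3 (T0 * n)) ≤
      ((16 * N : ℕ) : ℝ) ^ 2 * ((c ^ B)⁻¹ * (nu p).real (A2 f l) / (nu p).real (Nice2 f n)) := by
    refine cover_le2 (Q := fun w w' => w + 840 ≤ w' ∧ w' + 840 ≤ w + 4 * (2 * ((N : ℤ) - 1) + 1))
      (U := fun w w' => O2 (Sq l) (FI l) (N * n) n (cl (N - 1) w) (cl (N - 1) w') (Sph l) (FIb l))
      ?_ (by positivity) ?_
    · rintro z ⟨⟨hz1, hz2⟩, hg⟩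
      obtain ⟨w, w', a1, a2, a3, a4, a5⟩ := cover2 hT h1 h2 h3 hN hn hkN hl hz1 hz2 hg
      refine ⟨w, w', ?_, ?_, ⟨a1, a2⟩, a5⟩
      · push_cast; exact a3
      · push_cast; exact a4
    · rintro w w' ⟨hw, hw'⟩
      have hg := glue_out2 (q := 1) (N := N) le_rfl (by omega) hn hc f hw hw'
        (L := Sq l) (FL := FI l) (Sq_finite l) (FI_finite l)
        (fun v hv => by rw [mem_Sq]; have := hS v hv; omega)
        (fun v hv => by rw [mem_FI]; have := hS v hv; omega)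
        (P := Sph l) (Q := FIb l) hP hQ
      rw [one_mul] at hg
      rw [le_div_iff₀ hpos, inv_mul_eq_div, le_div_iff₀ hcB]
      calc (nu p).real (O2 (Sq l) (FI l) (N * n) n (cl (N - 1) w) (cl (N - 1) w') (Sph l) (FIb l)) *
            (nu p).real (Nice2 f n) * c ^ B
          = c ^ B * ((nu p).real (Nice2 f n) * (nu p).real (O2 (Sq l) (FI l) (N * n) n
              (cl (N - 1) w) (cl (N - 1) w') (Sph l) (FIb l))) := by ring
        _ ≤ (nu p).real (Glued2 f (Sq l) (FI l) (Sph l) (FIb l)) := hg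
        _ = (nu p).real (A2 f l) := rfl
  calc (nu p).real (An2 k l ∩ GO (0, 0) D1 D2 D3 (T0 * n)) * (nu p).real (Nice2 f n)
      ≤ (((16 * N : ℕ) : ℝ) ^ 2 * ((c ^ B)⁻¹ * (nu p).real (A2 f l) / (nu p).real (Nice2 f n))) *
          (nu p).real (Nice2 f n) := mul_le_mul_of_nonneg_right hcov hpos.le
    _ = _ := by field_simp

/-! ### `p = 1/2` -/

/-- **separation of two arms** (literal input) -/
def Sep2 : Prop :=
  ∀ c : ℝ, 0 < c → ∃ K : ℝ, ∀ (p : I) (j : ℕ), RSp c p (2 ^ (j + 5)) →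
    (nu p).real (A2 (0, 0) ((2 : ℤ) ^ (j + 2))) ≤ K * (nu p).real (Nice2 (0, 0) (2 ^ j))

/-- `p2` at a dyadic radius is at most `K P(Nice2)` -/
theorem p2_nice (h : Sep2) : ∃ K : ℝ, 1 ≤ K ∧ ∀ j r : ℕ, 2 ^ (j + 2) ≤ r →
    p2 r ≤ K * (nu Rs689.hf).real (Nice2 (0, 0) (2 ^ j)) := by
  obtain ⟨c, hc0, hc1, hRS⟩ := rsp_half
  obtain ⟨K, hK⟩ := h c hc0
  refine ⟨max K 1, le_max_right _ _, fun j r hr => ?_⟩
  have h1 : p2 r ≤ p2 (2 ^ (j + 2)) := p2_anti hr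
  have h2 := p2_le (n := 2 ^ (j + 2)) Nat.one_le_two_pow
  have h3 := hK Rs689.hf j (hRS _)
  push_cast at h2
  exact h1.trans (h2.trans (h3.trans
    (mul_le_mul_of_nonneg_right (le_max_left _ _) measureReal_nonneg)))

theorem nice_p2 (j : ℕ) : (nu Rs689.hf).real (Nice2 (0, 0) (2 ^ j)) ≤ p2 (16 * 2 ^ j) :=
  measureReal_mono (Nice2_sub Nat.one_le_two_pow)

/-- doubling -/
theorem p2_dbl (h : Sep2) : ∃ C : ℝ, 1 ≤ C ∧ ∀ n : ℕ, 4 ≤ n → p2 n ≤ C * p2 (2 * n) := by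
  obtain ⟨K, hK1, hK⟩ := p2_nice h
  refine ⟨K, hK1, fun n hn => ?_⟩
  obtain ⟨j, hj⟩ : ∃ j, Nat.log 2 n = j + 2 := by
    have : Nat.log 2 4 ≤ Nat.log 2 n := Nat.log_mono_right hn
    have h4 : Nat.log 2 4 = 2 := by
      have : (4 : ℕ) = 2 ^ 2 := by norm_num
      rw [this, Nat.log_pow (by norm_num)]
    exact ⟨Nat.log 2 n - 2, by omega⟩
  have h1 : 2 ^ (j + 2) ≤ n := by
    rw [← hj]; exact Nat.pow_log_le_self 2 (by omega)
  have h2 : n < 2 ^ (j + 3) := by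
    have := Nat.lt_pow_succ_log_self (b := 2) (by norm_num) n
    rw [hj] at this
    exact this
  have h3 : p2 (16 * 2 ^ j) ≤ p2 (2 * n) := by
    refine p2_anti ?_
    have : 2 ^ (j + 3) = 8 * 2 ^ j := by ring
    omega
  exact (hK j n h1).trans (mul_le_mul_of_nonneg_left ((nice_p2 j).trans h3) (by linarith))

/-- **quasi-multiplicativity of two arms, with losses** -/
theorem qm2_aux (h : Sep2) : ∀ ε : ℝ, 0 < ε → ∃ k0 : ℕ, ∀ᶠ n : ℕ in atTop, ∀ k l : ℕ, k0 ≤ k →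
    k ≤ l → l ≤ n → p2 k * (nu Rs689.hf).real (An2 k l) ≤ (n : ℝ) ^ ε * p2 l := by
  classical
  obtain ⟨c, hc0, hc1, hRS⟩ := rsp_half
  obtain ⟨C, hC1, hC⟩ := p2_dbl h
  obtain ⟨K0, hK01, hK0⟩ := p2_nice h
  have hgp := fun η : ℝ => fun hη : 0 < η => good_params hc0 hc1 hη
  choose! D1 D2 D3 hD1 hD2 hD3 hD using hgp
  set Nf : ℝ → ℕ := fun η => 32 * D1 η * D2 η * D3 η * 500 with hNf
  set G : ℝ → ℕ → Set Cf := fun η r =>
    GO (0, 0) (D1 η) (D2 η) (D3 η) ((500 : ℕ) * (2 ^ sci (Nf η) r : ℕ)) with hG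
  have hNpos : ∀ η, 0 < η → 256 ≤ Nf η := by
    intro η hη
    have h1 := hD1 η hη
    have h2 := hD2 η hη
    have h3 := hD3 η hη
    have : 2 * 2 * 2 ≤ D1 η * D2 η * D3 η := by gcongr
    have e0 : Nf η = 16000 * (D1 η * D2 η * D3 η) := by simp only [hNf]; ring
    omega
  have hρ : ∀ η, ∀ r : ℕ, 32 * (D1 η : ℤ) * D2 η * D3 η * ((500 : ℕ) * (2 ^ sci (Nf η) r : ℕ)) =
      ((Nf η * 2 ^ sci (Nf η) r : ℕ) : ℤ) := by
    intro η r
    simp only [hNf]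
    push_cast
    ring
  refine qm_of_doubling (μ := nu Rs689.hf) (P := p2) (T := fun k l : ℕ => An2 (k : ℤ) (l : ℤ))
    p2_anti p2_nonneg p2_le_one hC1 (n0 := 4) hC (fun k k' l h1 h2 h3 =>
      An2_mono (by exact_mod_cast h2)) (b := 3) G ?_ ?_
  · intro η hη
    refine ⟨Nf η, fun k J hk => ?_⟩
    have hN := hNpos η hη
    have hkj : ∀ j : ℕ, k ≤ (2 ^ 3) ^ j * k := fun j => Nat.le_mul_of_pos_left k (by positivity)
    refine inter_pow Rs689.hf (D := fun j => {v |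
      ((Nf η * 2 ^ sci (Nf η) ((2 ^ 3) ^ j * k) : ℕ) : ℤ) ≤ sd (0, 0) v ∧
      sd (0, 0) v ≤ 2 * ((Nf η * 2 ^ sci (Nf η) ((2 ^ 3) ^ j * k) : ℕ) : ℤ)}) J ?_ ?_ ?_
    · intro j _
      refine LocD.compl' ?_
      have h4 := locD_GO (0, 0) (hD1 η hη) (hD2 η hη) (hD3 η hη)
        (u := ((500 : ℕ) : ℤ) * (2 ^ sci (Nf η) ((2 ^ 3) ^ j * k) : ℕ)) (by
          have : 1 ≤ 500 * 2 ^ sci (Nf η) ((2 ^ 3) ^ j * k) := Nat.mul_pos (by norm_num) (by positivity)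
          exact_mod_cast this)
      rw [hρ η] at h4
      exact h4
    · have key : ∀ i j : ℕ, i < j → Disjoint
          {v : P2 | ((Nf η * 2 ^ sci (Nf η) ((2 ^ 3) ^ i * k) : ℕ) : ℤ) ≤ sd (0, 0) v ∧
            sd (0, 0) v ≤ 2 * ((Nf η * 2 ^ sci (Nf η) ((2 ^ 3) ^ i * k) : ℕ) : ℤ)}
          {v : P2 | ((Nf η * 2 ^ sci (Nf η) ((2 ^ 3) ^ j * k) : ℕ) : ℤ) ≤ sd (0, 0) v ∧
            sd (0, 0) v ≤ 2 * ((Nf η * 2 ^ sci (Nf η) ((2 ^ 3) ^ j * k) : ℕ) : ℤ)} := by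
        intro i j hij
        rw [Set.disjoint_left]
        rintro v ⟨_, h5⟩ ⟨h6, _⟩
        have h7 := (sci_lt (N := Nf η) (r := (2 ^ 3) ^ i * k) (by omega) (hk.trans (hkj i))).1
        have h8 := sci_ge (N := Nf η) (r := (2 ^ 3) ^ j * k) (by omega)
        have h9 : 8 * ((2 ^ 3) ^ i * k) ≤ (2 ^ 3) ^ j * k := by
          have : (2 ^ 3) ^ (i + 1) ≤ (2 ^ 3) ^ j := Nat.pow_le_pow_right (by norm_num) hij
          calc 8 * ((2 ^ 3) ^ i * k) = (2 ^ 3) ^ (i + 1) * k := by ring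
            _ ≤ _ := Nat.mul_le_mul_right k this
        have h10 := hkj i
        have h11 : ((Nf η * 2 ^ sci (Nf η) ((2 ^ 3) ^ j * k) : ℕ) : ℤ) ≤
          2 * ((Nf η * 2 ^ sci (Nf η) ((2 ^ 3) ^ i * k) : ℕ) : ℤ) := h6.trans h5
        have h12 : Nf η * 2 ^ sci (Nf η) ((2 ^ 3) ^ j * k) ≤
            2 * (Nf η * 2 ^ sci (Nf η) ((2 ^ 3) ^ i * k)) := by
          exact_mod_cast h11
        omega
      intro i _ j _ hij
      rcases lt_or_gt_of_ne hij with h | h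
      · exact key i j h
      · exact (key j i h).symm
    · intro j _
      exact (hD η hη Rs689.hf _ _ (0, 0)
        (hRS (2 * (Nf η * 2 ^ sci (Nf η) ((2 ^ 3) ^ j * k)) + 1)) (by
        have : 1 ≤ 500 * 2 ^ sci (Nf η) ((2 ^ 3) ^ j * k) := Nat.mul_pos (by norm_num) (by positivity)
        exact_mod_cast this) (by rw [hρ η]; push_cast; exact le_rfl)).1
  · intro η hη
    have hN := hNpos η hη
    set N := Nf η with hNdef
    set C1 : ℝ := ((16 * N : ℕ) : ℝ) ^ 2 * (c ^ (4 * (2 * N + 8) ^ 2))⁻¹ with hC1'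
    have hC10 : 0 ≤ C1 := by positivity
    refine ⟨K0 * (C1 * C), N, by positivity, fun r l hr hl => ?_⟩
    set i := sci N r with hi
    have h1 := sci_ge (N := N) (r := r) (by omega)
    obtain ⟨h2, h3⟩ := sci_lt (N := N) (r := r) (by omega) hr
    rw [← hi] at h1 h2 h3
    have hstep := step_out2 (T0 := 500) le_rfl (hD1 η hη) (hD2 η hη) (hD3 η hη) (p := Rs689.hf)
      (n := 2 ^ i) Nat.one_le_two_pow (hRS _) (0, 0)
      (N := N) rfl (k := r) (l := l) (by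
        have : r < N * 2 ^ i := by omega
        exact_mod_cast this) (by
        have : 2 * (N * 2 ^ i) ≤ l := by omega
        exact_mod_cast this)
    have h5 : p2 r ≤ K0 * (nu Rs689.hf).real (Nice2 (0, 0) (2 ^ i)) := by
      refine hK0 i r ?_
      have h6 : 256 * 2 ^ i ≤ N * 2 ^ i := Nat.mul_le_mul_right _ hN
      have h7 : 2 ^ (i + 2) = 4 * 2 ^ i := by ring
      omega
    have h6 : (nu Rs689.hf).real (A2 (0, 0) (l : ℤ)) ≤ C * p2 l := by
      have h7 : (nu Rs689.hf).real (A2 (0, 0) (l : ℤ)) ≤ p2 (l - 1) := by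
        refine A2_le ?_
        have : 1 ≤ l := by omega
        push_cast [Nat.cast_sub this]
        omega
      refine h7.trans ((hC (l - 1) (by omega)).trans ?_)
      exact mul_le_mul_of_nonneg_left (p2_anti (by omega)) (by linarith)
    calc (nu Rs689.hf).real (An2 (r : ℤ) (l : ℤ) ∩ G η r) * p2 r
        ≤ (nu Rs689.hf).real (An2 (r : ℤ) (l : ℤ) ∩ G η r) *
            (K0 * (nu Rs689.hf).real (Nice2 (0, 0) (2 ^ i))) :=
          mul_le_mul_of_nonneg_left h5 measureReal_nonneg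
      _ = K0 * ((nu Rs689.hf).real (An2 (r : ℤ) (l : ℤ) ∩ G η r) *
            (nu Rs689.hf).real (Nice2 (0, 0) (2 ^ i))) := by ring
      _ ≤ K0 * (C1 * (nu Rs689.hf).real (A2 (0, 0) (l : ℤ))) :=
          mul_le_mul_of_nonneg_left hstep (by linarith)
      _ ≤ K0 * (C1 * (C * p2 l)) :=
          mul_le_mul_of_nonneg_left (mul_le_mul_of_nonneg_left h6 hC10) (by linarith)
      _ = _ := by ring

end Crest.Agent.R158.Sc689
end
end

-- ▼ part R158/Sh2_158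
section

/-!
# Row 158, Block SEP2 (helper158), part 2: cells from points, cover, one step

* `kp n N x` : cell of the ring `N - 1` containing the point `x` of the sphere of radius `N n`
* `a2_cover` : `A2 f R ∩ Good ⊆ ⋃ U2 f R n (cl w) (cl w')`
* `a2_step` : `P(A2 f R ∩ Good) ≤ K P(Nice2 f (c n))`
-/

set_option autoImplicit false

noncomputable section

namespace Crest.Agent.R158.Sh158

open MeasureTheory ProbabilityTheory unitInterval
open Crest.Agent.R161.Geo729 Crest.Agent.R161.Topo374 Crest.Agent.R161.Dual374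
open Crest.Agent.R161.Tas682 hiding Sq
open Crest.Agent.R158.Rs689 Crest.Agent.R158.Sp580 Crest.Agent.R158.Sb689 Crest.Agent.R158.Sg158
open Crest.Agent.R158.Ru874 hiding An
open Crest.Agent.R158.Cpl963 (An mem_An)
open Crest.Agent.R158.Kd458 (Gd)
open Crest.Agent.R158.Sq200 (BdV)
open Crest.Agent.R158.Sp874 (nr cl FarN)

/-! ### cells from points -/

/-- the cell of a point of the closed ball of radius `N n` -/
def kp (n : ℕ) (N : ℤ) (x : P2) : P2 := (min (x.1 / n) (N - 1), min (x.2 / n) (N - 1))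

section kp

variable {n : ℕ} (hn : 1 ≤ n) {N : ℤ}
include hn

theorem kp_one {a : ℤ} (ha : -(N * n) ≤ a) (ha' : a ≤ N * n) :
    min (a / n) (N - 1) * n ≤ a ∧ a ≤ min (a / n) (N - 1) * n + n ∧
      (N ≥ 1 → -N ≤ min (a / n) (N - 1)) ∧
      min (a / n) (N - 1) ≤ N - 1 ∧ (a = N * n → min (a / n) (N - 1) = N - 1) ∧
      (a = -(N * n) → N ≥ 1 → min (a / n) (N - 1) = -N) := by
  have hn0 : (0 : ℤ) < n := by exact_mod_cast hn
  have h1 := Int.emod_nonneg a hn0.ne'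
  have h2 := Int.emod_lt_of_pos a hn0
  have h3 := Int.mul_ediv_add_emod a n
  set q := a / (n : ℤ) with hq
  have h4 : q * n ≤ a := by linarith [mul_comm (n : ℤ) q]
  have h5 : a < q * n + n := by linarith [mul_comm (n : ℤ) q]
  have h6 : -N ≤ q := by
    by_contra h
    push Not at h
    have : (q + 1) * (n : ℤ) ≤ -N * n := mul_le_mul_of_nonneg_right (by omega) hn0.le
    linarith
  have h7 : q ≤ N := by
    by_contra h
    push Not at h
    have : (N + 1) * (n : ℤ) ≤ q * n := mul_le_mul_of_nonneg_right (by omega) hn0.le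
    linarith
  rcases le_or_gt q (N - 1) with h8 | h8
  · rw [min_eq_left h8]
    refine ⟨h4, h5.le, fun _ => h6, h8, fun h9 => ?_, fun h9 _ => ?_⟩
    · exfalso
      have : q * (n : ℤ) ≤ (N - 1) * n := mul_le_mul_of_nonneg_right h8 hn0.le
      linarith
    · have : q ≤ -N := by
        by_contra h
        push Not at h
        have : (-N + 1) * (n : ℤ) ≤ q * n := mul_le_mul_of_nonneg_right (by omega) hn0.le
        linarith
      omega
  · have h9 : q = N := by omega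
    rw [min_eq_right (by omega)]
    have h10 : (N - 1) * (n : ℤ) = N * n - n := by ring
    rw [h9] at h4
    rw [h10]
    refine ⟨by linarith, by linarith, fun _ => by omega, le_rfl, fun _ => rfl, fun h11 h12 => ?_⟩
    exfalso
    have : (0 : ℤ) < N * n := by positivity
    linarith

theorem kp_mem {x : P2} (hx : x ∈ Sp580.Sq (N * n)) :
    (kp n N x).1 * n ≤ x.1 ∧ x.1 ≤ (kp n N x).1 * n + n ∧ (kp n N x).2 * n ≤ x.2 ∧
      x.2 ≤ (kp n N x).2 * n + n := by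
  rw [mem_Sq] at hx
  obtain ⟨h1, h2, -⟩ := kp_one hn (N := N) hx.1 hx.2.1
  obtain ⟨h3, h4, -⟩ := kp_one hn (N := N) hx.2.2.1 hx.2.2.2
  exact ⟨h1, h2, h3, h4⟩

theorem kp_nr (hN : 1 ≤ N) {x : P2} (hx : sd (0, 0) x = N * n) : nr (kp n N x) = N - 1 := by
  have h0 : x ∈ Sp580.Sq (N * n) := sd0_le.1 hx.le
  have h0' := h0
  rw [mem_Sq] at h0
  obtain ⟨h1, h2, h3, h4, h5, h6⟩ := kp_one hn (N := N) h0.1 h0.2.1
  obtain ⟨g1, g2, g3, g4, g5, g6⟩ := kp_one hn (N := N) h0.2.2.1 h0.2.2.2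
  replace h3 := h3 hN
  replace g3 := g3 hN
  have h7 : x.1 = N * n ∨ x.1 = -(N * n) ∨ x.2 = N * n ∨ x.2 = -(N * n) := by
    by_contra hc
    push Not at hc
    have : sd (0, 0) x ≤ N * n - 1 := by
      rw [sd0_le]
      omega
    omega
  unfold nr
  show max (max (min (x.1 / n) (N - 1)) (-1 - min (x.1 / n) (N - 1)))
    (max (min (x.2 / n) (N - 1)) (-1 - min (x.2 / n) (N - 1))) = N - 1
  generalize min (x.1 / (n : ℤ)) (N - 1) = a at *
  generalize min (x.2 / (n : ℤ)) (N - 1) = b at *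
  rcases h7 with h7 | h7 | h7 | h7
  · have := h5 h7
    omega
  · have := h6 h7 hN
    omega
  · have := g5 h7
    omega
  · have := g6 h7 hN
    omega

theorem kp_blk {x v : P2} (hx : x ∈ Sp580.Sq (N * n)) (hv : v ∈ Bk n (kp n N x) 8) :
    sd x v ≤ 9 * n := by
  obtain ⟨h1, h2, h3, h4⟩ := kp_mem hn hx
  rw [mem_Bk] at hv
  obtain ⟨g1, g2, g3, g4⟩ := hv
  unfold sd
  rw [max_le_iff, abs_le, abs_le]
  refine ⟨⟨?_, ?_⟩, ?_, ?_⟩ <;> linarith

theorem kp_near {x v : P2} (hx : x ∈ Sp580.Sq (N * n)) (hv : sd v x ≤ 1) :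
    v ∈ Bk n (kp n N x) 1 := by
  have hn' : (1 : ℤ) ≤ n := by exact_mod_cast hn
  obtain ⟨h1, h2, h3, h4⟩ := kp_mem hn hx
  unfold sd at hv
  rw [max_le_iff, abs_le, abs_le] at hv
  rw [mem_Bk]
  refine ⟨?_, ?_, ?_, ?_⟩ <;> linarith [hv.1.1, hv.1.2, hv.2.1, hv.2.2]

theorem kp_far {x y : P2} (hx : x ∈ Sp580.Sq (N * n)) (hy : y ∈ Sp580.Sq (N * n)) {g : ℤ}
    (h : (g + 1) * n ≤ sd x y) : FarN g (kp n N x) (kp n N y) := by
  have hn0 : (0 : ℤ) < n := by exact_mod_cast hn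
  obtain ⟨h1, h2, h3, h4⟩ := kp_mem hn hx
  obtain ⟨g1, g2, g3, g4⟩ := kp_mem hn hy
  have key : ∀ a b : ℤ, a * n + g * n ≤ b * n → a + g ≤ b := by
    intro a b hab
    have : (a + g) * (n : ℤ) ≤ b * n := by linarith
    exact le_of_mul_le_mul_right this hn0
  unfold sd at h
  rw [le_max_iff, le_abs, le_abs] at h
  unfold FarN
  rcases h with (h | h) | (h | h)
  · exact Or.inl (key _ _ (by linarith))
  · exact Or.inr (Or.inl (key _ _ (by linarith)))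
  · exact Or.inr (Or.inr (Or.inl (key _ _ (by linarith))))
  · exact Or.inr (Or.inr (Or.inr (key _ _ (by linarith))))

end kp

/-- ring coordinates of two far cells of a ring -/
theorem two_coord {N g : ℤ} (hN : 1 ≤ N) {k k' : P2} (hk : nr k = N - 1) (hk' : nr k' = N - 1)
    (h : FarN g k k') : ∃ w w' : ℤ, k = cl (N - 1) w ∧ k' = cl (N - 1) w' ∧
      w ∈ Finset.Ico (-(N - 1)) (-(N - 1) + 4 * (2 * (N - 1) + 1)) ∧
      w' ∈ Finset.Ico (-(N - 1)) (-(N - 1) + 8 * (2 * (N - 1) + 1)) ∧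
      w + g ≤ w' ∧ w' + g ≤ w + 4 * (2 * (N - 1) + 1) := by
  obtain ⟨w, a1, a2, a3⟩ := Sp874.exists_cl k
  obtain ⟨w', b1, b2, b3⟩ := Sp874.exists_cl k'
  rw [hk] at a1 a2 a3
  rw [hk'] at b1 b2 b3
  have hj : 0 ≤ N - 1 := by omega
  rw [a3, b3] at h
  rcases le_total w w' with h1 | h1
  · obtain ⟨h2, h3⟩ := Sp874.sep_of_far hj h1 (by omega) h
    refine ⟨w, w', a3, b3, ?_, ?_, h2, h3⟩ <;> rw [Finset.mem_Ico] <;> omega
  · have h' : FarN g (cl (N - 1) w) (cl (N - 1) (w' + 4 * (2 * (N - 1) + 1))) := by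
      rw [Sp874.cl_period hj]
      exact h
    obtain ⟨h2, h3⟩ := Sp874.sep_of_far hj (by omega) (by omega) h'
    refine ⟨w, w' + 4 * (2 * (N - 1) + 1), a3, by rw [Sp874.cl_period hj]; exact b3, ?_, ?_,
      h2, h3⟩ <;> rw [Finset.mem_Ico] <;> omega

/-! ### the cover -/

theorem bdv_of_sd {R : ℤ} {x : P2} (hx : sd (0, 0) x = R) :
    x ∈ Rect (-R) R (-R) R ∧ BdV (-R) R (-R) R x := by
  have h0 : x ∈ Sp580.Sq R := sd0_le.1 hx.le
  refine ⟨h0, ?_⟩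
  rw [mem_Sq] at h0
  by_contra hc
  unfold BdV at hc
  push Not at hc
  have : sd (0, 0) x ≤ R - 1 := by
    rw [sd0_le]
    omega
  omega

theorem sd_of_bdv {R : ℤ} {x : P2} (h0 : x ∈ Rect (-R) R (-R) R) (h : BdV (-R) R (-R) R x) :
    sd (0, 0) x = R := by
  rw [mem_rect] at h0
  unfold BdV at h
  refine le_antisymm (sd0_le.2 h0) ?_
  unfold sd
  simp only [sub_zero]
  rw [le_max_iff, le_abs, le_abs]
  omega

theorem a2_cover {f : P2} (hf : Nr f) {n N : ℕ} (hn : 1 ≤ n) (hN : 1 ≤ N) {t r s c : ℤ}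
    (h1 : 9 * (n : ℤ) < t) (h2 : t ≤ r) (h3 : r + 1 ≤ s) (h4 : s ≤ c) (h5 : c + 1 < N * n)
    (h6 : 53 * (n : ℤ) + 1 ≤ s) {z : Cf} (hz : z ∈ A2 f (N * n))
    (g1 : z ∈ Gsc (N * n) s c) (g2 : z ∈ Gsc (N * n) t r) :
    ∃ w w' : ℤ, w ∈ Finset.Ico (-((N : ℤ) - 1)) (-((N : ℤ) - 1) + 4 * (2 * ((N : ℤ) - 1) + 1)) ∧
      w' ∈ Finset.Ico (-((N : ℤ) - 1)) (-((N : ℤ) - 1) + 8 * (2 * ((N : ℤ) - 1) + 1)) ∧
      (w + 52 ≤ w' ∧ w' + 52 ≤ w + 4 * (2 * ((N : ℤ) - 1) + 1)) ∧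
      z ∈ U2 f (N * n) n (cl ((N : ℤ) - 1) w) (cl ((N : ℤ) - 1) w') := by
  have hn' : (1 : ℤ) ≤ n := by exact_mod_cast hn
  have hN' : (1 : ℤ) ≤ N := by exact_mod_cast hN
  obtain ⟨⟨x, hx, hzx⟩, ⟨g, hg, hzg⟩⟩ := hz
  have hx0 : sd (0, 0) x = N * n := hx
  obtain ⟨hxB, hbx⟩ := bdv_of_sd hx0
  have hgb : BdV (-((N : ℤ) * n)) ((N : ℤ) * n - 1) (-((N : ℤ) * n)) ((N : ℤ) * n - 1) g := hg.2
  have hfx : c < sd x f := by
    have e1 := Kd458.sd_tri (0, 0) f x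
    have e2 : sd (0, 0) f ≤ 1 := by
      rw [sd0_le]
      obtain ⟨q1, q2, q3, q4⟩ := hf
      omega
    rw [Kd458.sd_symm f x] at e1
    omega
  obtain ⟨f', w', hf'R, hbf', hw'B, hbw', hfw', hxf', o1, o2⟩ := Ce679.core2 hxB hbx hzx hgb hzg
    (t := t) (r := r) (s := s) (c := c) (by omega) h2 h3 h4 hfx (g1 x hx0)
    (fun w hw hbw => by
      rw [Kd458.sd_symm, sd_of_bdv hw hbw]
      omega)
    (fun w hw hbw => g2 w (sd_of_bdv hw hbw))
  have hw'0 := sd_of_bdv hw'B hbw'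
  have hxS : x ∈ Sp580.Sq (N * n) := hxB
  have hw'S : w' ∈ Sp580.Sq (N * n) := hw'B
  have hfar : FarN 52 (kp n N x) (kp n N w') := by
    refine kp_far hn hxS hw'S ?_
    have e1 := Kd458.sd_tri x w' f'
    rw [Kd458.sd_symm w' f'] at e1
    have e2 : (52 + 1) * (n : ℤ) = 53 * n := by ring
    rw [e2]
    omega
  obtain ⟨w, v, c1, c2, c3, c4, c5, c6⟩ := two_coord hN' (kp_nr hn hN' hx0)
    (kp_nr hn hN' hw'0) hfar
  refine ⟨w, v, c3, c4, ⟨c5, c6⟩, ?_⟩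
  rw [← c1, ← c2]
  refine ⟨⟨x, kp_near hn hxS (by rw [Kd458.sd_self]; norm_num), o2.monoS ?_⟩,
    ⟨f', kp_near hn hw'S hfw', o1.monoS ?_⟩⟩
  · rintro u ⟨hu1, hu2⟩
    refine ⟨hu1, fun hu3 => ?_⟩
    have := kp_blk hn hw'S hu3
    have hu2' : t ≤ sd w' u := hu2
    omega
  · rintro u ⟨hu1, hu2⟩
    refine ⟨FI_sub _ hu1, fun hu3 => ?_⟩
    have := kp_blk hn hxS hu3
    have hu2' : s ≤ sd x u := hu2
    omega

/-- **One step**, the good part -/
theorem a2_step {f : P2} (hf : Nr f) {N q : ℕ} (hN : 21 ≤ N) (hq : N + 203 ≤ 16 * q) {n : ℕ}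
    (hn : 2 ≤ n) {c0 : ℝ} {p : I} (hp : RSp c0 p n) {t r s c : ℤ}
    (h1 : 9 * (n : ℤ) < t) (h2 : t ≤ r) (h3 : r + 1 ≤ s) (h4 : s ≤ c) (h5 : c + 1 < N * n)
    (h6 : 53 * (n : ℤ) + 1 ≤ s) :
    (nu p).real (A2 f (N * n) ∩ (Gsc (N * n) s c ∩ Gsc (N * n) t r)) ≤
      128 * N ^ 2 / c0 ^ (4 * (52 * q + 2) ^ 2) * (nu p).real (Nice2 f (q * n)) := by
  classical
  have hc0 : 0 < c0 := hp.1
  have hcB : 0 < c0 ^ (4 * (52 * q + 2) ^ 2) := pow_pos hc0 _
  set I1 := Finset.Ico (-((N : ℤ) - 1)) (-((N : ℤ) - 1) + 4 * (2 * ((N : ℤ) - 1) + 1)) with hI1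
  set I2 := Finset.Ico (-((N : ℤ) - 1)) (-((N : ℤ) - 1) + 8 * (2 * ((N : ℤ) - 1) + 1)) with hI2
  set J := (I1 ×ˢ I2).filter fun w : ℤ × ℤ =>
    w.1 + 52 ≤ w.2 ∧ w.2 + 52 ≤ w.1 + 4 * (2 * ((N : ℤ) - 1) + 1) with hJ
  have hsub : A2 f (N * n) ∩ (Gsc (N * n) s c ∩ Gsc (N * n) t r) ⊆
      ⋃ w ∈ J, U2 f (N * n) n (cl ((N : ℤ) - 1) w.1) (cl ((N : ℤ) - 1) w.2) := by
    rintro z ⟨hz, g1, g2⟩
    obtain ⟨w, w', e1, e2, e3, e4⟩ := a2_cover hf (by omega : 1 ≤ n) (by omega : 1 ≤ N) h1 h2 h3 h4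
      h5 h6 hz g1 g2
    rw [Set.mem_iUnion₂]
    exact ⟨(w, w'), Finset.mem_filter.2 ⟨Finset.mem_product.2 ⟨e1, e2⟩, e3⟩, e4⟩
  have hcard : (J.card : ℝ) ≤ 128 * N ^ 2 := by
    have e1 : J.card ≤ I1.card * I2.card :=
      (Finset.card_filter_le _ _).trans (by rw [Finset.card_product])
    have e2 : I1.card ≤ 8 * N := by
      rw [hI1, Int.card_Ico]
      omega
    have e3 : I2.card ≤ 16 * N := by
      rw [hI2, Int.card_Ico]
      omega
    have e4 : J.card ≤ (8 * N) * (16 * N) := e1.trans (Nat.mul_le_mul e2 e3)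
    calc (J.card : ℝ) ≤ (((8 * N) * (16 * N) : ℕ) : ℝ) := by exact_mod_cast e4
      _ = 128 * (N : ℝ) ^ 2 := by push_cast; ring
  have hterm : ∀ w ∈ J, (nu p).real (U2 f (N * n) n (cl ((N : ℤ) - 1) w.1)
      (cl ((N : ℤ) - 1) w.2)) ≤
      1 / c0 ^ (4 * (52 * q + 2) ^ 2) * (nu p).real (Nice2 f (q * n)) := by
    intro w hw
    have h7 := (Finset.mem_filter.1 hw).2
    have h8 := glue_in2 hN hq hn hp hf h7.1 h7.2
    rw [one_div, ← div_eq_inv_mul, le_div_iff₀ hcB, mul_comm]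
    exact h8
  calc (nu p).real (A2 f (N * n) ∩ (Gsc (N * n) s c ∩ Gsc (N * n) t r))
      ≤ (nu p).real (⋃ w ∈ J, U2 f (N * n) n (cl ((N : ℤ) - 1) w.1) (cl ((N : ℤ) - 1) w.2)) :=
        measureReal_mono hsub (measure_ne_top _ _)
    _ ≤ ∑ w ∈ J, (nu p).real (U2 f (N * n) n (cl ((N : ℤ) - 1) w.1) (cl ((N : ℤ) - 1) w.2)) :=
        measureReal_biUnion_finset_le _ _
    _ ≤ ∑ _w ∈ J, 1 / c0 ^ (4 * (52 * q + 2) ^ 2) * (nu p).real (Nice2 f (q * n)) :=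
        Finset.sum_le_sum hterm
    _ = J.card * (1 / c0 ^ (4 * (52 * q + 2) ^ 2) * (nu p).real (Nice2 f (q * n))) := by
        rw [Finset.sum_const, nsmul_eq_mul]
    _ ≤ 128 * N ^ 2 * (1 / c0 ^ (4 * (52 * q + 2) ^ 2) * (nu p).real (Nice2 f (q * n))) :=
        mul_le_mul_of_nonneg_right hcard (by positivity)
    _ = _ := by ring

end Crest.Agent.R158.Sh158
end
end

-- ▼ part R158/Sh3_158

/-!
# Row 158, Block SEP2 (helper158), part 3: separation of two arms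

* `sep2` : `P (A2 f (2^(j+2))) ≤ K P (Nice2 f (2^j))`
-/

set_option autoImplicit false

noncomputable section

namespace Crest.Agent.R158.Sh158

open MeasureTheory ProbabilityTheory unitInterval
open Crest.Agent.R161.Geo729 Crest.Agent.R161.Topo374 Crest.Agent.R161.Dual374
open Crest.Agent.R161.Tas682 hiding Sq
open Crest.Agent.R158.Rs689 Crest.Agent.R158.Sp580 Crest.Agent.R158.Sb689 Crest.Agent.R158.Sg158
open Crest.Agent.R158.Ru874 hiding An
open Crest.Agent.R158.Cpl963 (An mem_An)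
open Crest.Agent.R158.Kd458 (Gd)
open Crest.Agent.R158.Sq200 (BdV)
open Crest.Agent.R158.Sp874 (nr cl FarN)

theorem goodS_sub {R t r t1 s c s1 b : ℤ} :
    GoodS R t r t1 s c s1 b ⊆ Gsc R s c ∩ Gsc R t r := by
  rintro z ⟨-, h1, h2, -⟩
  refine ⟨fun w hw => ?_, fun w hw => ?_⟩
  · obtain ⟨e1, e2⟩ := bdv_of_sd hw
    exact h1 w e1 e2
  · obtain ⟨e1, e2⟩ := bdv_of_sd hw
    exact h2 w e1 e2

theorem nr_FI {f : P2} (hf : Nr f) {R : ℤ} (hR : 2 ≤ R) : f ∈ FI R := by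
  obtain ⟨q1, q2, q3, q4⟩ := hf
  rw [mem_FI]
  omega

theorem a2_bad {p : I} {f : P2} (hf : Nr f) {R t r t1 s c s1 b ρ : ℤ} (h1 : s1 ≤ b)
    (h2 : c ≤ b) (h3 : r ≤ b) (hρ1 : 2 ≤ ρ) (hb0 : 0 ≤ b) (hρ : ρ + b + 4 ≤ R) :
    (nu p).real (A2 f R ∩ (GoodS R t r t1 s c s1 b)ᶜ) ≤
      (nu p).real (A2 f ρ) * (nu p).real (GoodS R t r t1 s c s1 b)ᶜ := by
  rw [← LocD.indep p (D := Sp580.Sq ρ) (D' := {v | ρ < sd (0, 0) v}) ?_
    (locD_A2 f ρ) (locD_compl (locD_good h1 h2 h3 hρ))]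
  · exact measureReal_mono (Set.inter_subset_inter_left _
      (a2_mono (by omega) (by omega) (nr_FI hf hρ1))) (measure_ne_top _ _)
  · rw [Set.disjoint_left]
    intro v hv hv'
    have a1 : sd (0, 0) v ≤ ρ := sd0_le.2 (by rw [mem_Sq] at hv; exact hv)
    have a2 : ρ < sd (0, 0) v := hv'
    omega

/-- one step of the recursion, general form -/
theorem one_step2 {c0 : ℝ} (hc0 : 0 < c0) (hc1 : c0 ≤ 1) {δ : ℝ} (hδ : 0 < δ) :
    ∃ (ν : ℕ) (K : ℝ), 0 ≤ K ∧ 9 ≤ ν ∧ ∀ (p : I) (n : ℕ), 2 ≤ n → RSp c0 p (2 ^ ν * n) →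
      ∀ f : P2, Nr f → ∀ ρ : ℤ, 2 ≤ ρ → 2 * ρ ≤ 2 ^ ν * n →
      (nu p).real (A2 f (2 ^ ν * n)) ≤
        δ * (nu p).real (A2 f ρ) + K * (nu p).real (Nice2 f (2 ^ (ν - 2) * n)) := by
  classical
  obtain ⟨A1, A2', A3, hA3, hbad⟩ := bad_small hc0 hc1 hδ
  set ν := 9 + A1 + A2' + A3 with hν
  have hNN : NN A1 A2' A3 = 2 ^ ν := rfl
  set B : ℕ := 4 * (52 * 2 ^ (ν - 2) + 2) ^ 2 with hB
  refine ⟨ν, 128 * ((2 ^ ν : ℕ) : ℝ) ^ 2 / c0 ^ B, by positivity, by omega, ?_⟩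
  intro p n hn hp f hf ρ hρ1 hρ
  set N : ℕ := 2 ^ ν with hN
  have hN512 : 512 ≤ N := by
    calc 512 = 2 ^ 9 := by norm_num
      _ ≤ 2 ^ ν := Nat.pow_le_pow_right (by norm_num) (by omega)
  have hN4 : 4 * 2 ^ (ν - 2) = N := by
    rw [hN, show (4 : ℕ) = 2 ^ 2 by norm_num, ← pow_add]
    congr 1
    omega
  have hn0 : (2 : ℤ) ≤ n := by exact_mod_cast hn
  have hcast : ((2 : ℤ) ^ ν * n) = (N : ℤ) * n := by rw [hN]; push_cast; ring
  rw [hcast] at hρ ⊢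
  -- radii
  have p1 : (1 : ℤ) ≤ 2 ^ A1 := one_le_pow₀ (by norm_num)
  have p2 : (1 : ℤ) ≤ 2 ^ A2' := one_le_pow₀ (by norm_num)
  have p3 : (16 : ℤ) ≤ 2 ^ A3 := by
    calc (16 : ℤ) = 2 ^ 4 := by norm_num
      _ ≤ 2 ^ A3 := pow_le_pow_right₀ (by norm_num) hA3
  have x3 : 16 * (n : ℤ) ≤ 2 ^ A3 * n := by nlinarith
  have x2 : 2 ^ A3 * (n : ℤ) ≤ 2 ^ A3 * 2 ^ A2' * n := by
    have : 2 ^ A3 * (n : ℤ) * 1 ≤ 2 ^ A3 * n * 2 ^ A2' :=
      mul_le_mul_of_nonneg_left p2 (by positivity)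
    linarith
  have x1 : 2 ^ A3 * 2 ^ A2' * (n : ℤ) ≤ 2 ^ A3 * 2 ^ A2' * 2 ^ A1 * n := by
    have : 2 ^ A3 * 2 ^ A2' * (n : ℤ) * 1 ≤ 2 ^ A3 * 2 ^ A2' * n * 2 ^ A1 :=
      mul_le_mul_of_nonneg_left p1 (by positivity)
    linarith
  have eR := NN_mul A1 A2' A3 n
  rw [hNN] at eR
  have eT : rT n = 16 * n := rfl
  have eRr : rR A3 n = 16 * (2 ^ A3 * n) := by unfold rR; ring
  have eT1 : rT1 A3 n = 32 * (2 ^ A3 * n) := by unfold rT1; ring
  have eS : rS A3 n = 32 * (2 ^ A3 * n) := by unfold rS; ring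
  have eC : rC A2' A3 n = 32 * (2 ^ A3 * 2 ^ A2' * n) := by unfold rC; ring
  have eS1 : rS1 A2' A3 n = 64 * (2 ^ A3 * 2 ^ A2' * n) := by unfold rS1; ring
  have eB : rB A1 A2' A3 n = 64 * (2 ^ A3 * 2 ^ A2' * 2 ^ A1 * n) := by unfold rB; ring
  set G : Set Cf := GoodS (N * n) (rT n) (rR A3 n) (rT1 A3 n) (rS A3 n) (rC A2' A3 n)
    (rS1 A2' A3 n) (rB A1 A2' A3 n) with hG
  have hb : (nu p).real Gᶜ ≤ δ := by
    have := hbad p n (by omega) (by rw [hNN]; exact hp)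
    rw [hNN] at this
    exact this
  have hlow := a2_bad (p := p) hf (R := N * n) (t := rT n) (r := rR A3 n) (t1 := rT1 A3 n)
    (s := rS A3 n) (c := rC A2' A3 n) (s1 := rS1 A2' A3 n) (b := rB A1 A2' A3 n) (ρ := ρ)
    (by omega) (by omega) (by omega) hρ1 (by omega) (by omega)
  have hstep := a2_step hf (N := N) (q := 2 ^ (ν - 2)) (by omega) (by omega) hn
    (hp.mono (by nlinarith [Nat.one_le_two_pow (n := ν)])) (t := rT n) (r := rR A3 n)
    (s := rS A3 n) (c := rC A2' A3 n) (by omega) (by omega) (by omega) (by omega) (by omega)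
    (by omega)
  have hgood : (nu p).real (A2 f (N * n) ∩ G) ≤
      128 * (N : ℝ) ^ 2 / c0 ^ B * (nu p).real (Nice2 f (2 ^ (ν - 2) * n)) :=
    (measureReal_mono (Set.inter_subset_inter_right _ goodS_sub) (measure_ne_top _ _)).trans hstep
  have hsplit := measureReal_union_le (μ := nu p) (A2 f (N * n) ∩ Gᶜ) (A2 f (N * n) ∩ G)
  rw [← Set.inter_union_distrib_left, Set.compl_union_self, Set.inter_univ] at hsplit
  have h0 : (0 : ℝ) ≤ (nu p).real (A2 f ρ) := measureReal_nonneg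
  have h5 : (nu p).real (A2 f ρ) * (nu p).real Gᶜ ≤ (nu p).real (A2 f ρ) * δ :=
    mul_le_mul_of_nonneg_left hb h0
  linarith

/-- **Separation of two arms.** -/
theorem sep2 {c0 : ℝ} (hc0 : 0 < c0) : ∃ K : ℝ, 0 < K ∧ ∀ (p : I) (j : ℕ),
    RSp c0 p (2 ^ (j + 2)) → ∀ f : P2, Nr f →
      (nu p).real (A2 f (2 ^ (j + 2))) ≤ K * (nu p).real (Nice2 f (2 ^ j)) := by
  by_cases hc1 : c0 ≤ 1
  swap
  · refine ⟨1, one_pos, fun p j hp => ?_⟩
    exact absurd (hp.le_one Nat.one_le_two_pow) hc1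
  set C0 : ℝ := 1 / c0 ^ 176 with hC0
  have hC0pos : 0 < C0 := by positivity
  have hC1 : 1 ≤ C0 := by
    rw [hC0, le_div_iff₀ (by positivity), one_mul]
    exact pow_le_one₀ hc0.le hc1
  obtain ⟨ν, K, hK, hν, hstep⟩ := one_step2 hc0 hc1 (δ := 1 / (2 * C0)) (by positivity)
  set κ : ℝ := (c0 / 2) ^ (SN2 1).card with hκ
  have hκ0 : 0 < κ := by positivity
  refine ⟨max (2 * K) (C0 ^ ν / κ), lt_max_of_lt_right (by positivity), fun p J hp f hf => ?_⟩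
  refine s5 (a := fun j => (nu p).real (A2 f (2 ^ (j + 2))))
    (b := fun j => (nu p).real (Nice2 f (2 ^ j))) (J0 := ν) (J := J) (δ := 1 / (2 * C0)) (K := K)
    (C0 := C0) (κ := κ) hκ0 hC1 hK (fun j => measureReal_le_one) ?_ ?_ (by positivity) ?_ ?_ J
    le_rfl
  · have := nice2_base hp Nat.one_le_two_pow hf
    simpa using this
  · intro j hj
    have h1 := nice2_ext' (n := 2 ^ j) Nat.one_le_two_pow
      (hp.mono (Nat.pow_le_pow_right (by norm_num) (by omega))) f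
    have h2 : 2 * 2 ^ j = 2 ^ (j + 1) := by rw [pow_succ]; ring
    rw [h2] at h1
    exact h1
  · rw [div_mul_eq_mul_div, one_mul, div_le_div_iff₀ (by positivity) (by norm_num)]
    linarith
  · intro j hj0 hj
    have e1 : 2 ^ ν * 2 ^ (j + 3 - ν) = 2 ^ (j + 3) := by
      rw [← pow_add]; congr 1; omega
    have h1 := hstep p (2 ^ (j + 3 - ν)) (by
      calc 2 = 2 ^ 1 := by norm_num
        _ ≤ 2 ^ (j + 3 - ν) := Nat.pow_le_pow_right (by norm_num) (by omega))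
      (by rw [e1]; exact hp.mono (Nat.pow_le_pow_right (by norm_num) (by omega))) f hf
      (2 ^ (j + 2)) (by
        calc (2 : ℤ) ≤ 2 ^ 2 := by norm_num
          _ ≤ 2 ^ (j + 2) := pow_le_pow_right₀ (by norm_num) (by omega)) (by
        have : ((2 : ℤ) ^ ν * ((2 ^ (j + 3 - ν) : ℕ) : ℤ)) = 2 ^ (j + 3) := by
          exact_mod_cast e1
        rw [this, pow_succ 2 (j + 2)]
        linarith)
    have e2 : ((2 : ℤ) ^ ν * ((2 ^ (j + 3 - ν) : ℕ) : ℤ)) = 2 ^ (j + 3) := by exact_mod_cast e1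
    have e3 : 2 ^ (ν - 2) * 2 ^ (j + 3 - ν) = 2 ^ (j + 1) := by
      rw [← pow_add]; congr 1; omega
    rw [e2, e3] at h1
    exact h1


end Crest.Agent.R158.Sh158
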