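import Crest.Agent.R158.Sp2_580
import Crest.Agent.R158.Kd4_458
import Crest.Agent.R158.Hp8_814
import Crest.Agent.R158.Sp4e_874
import Crest.Agent.R158.Sg1_158

-- ▼ part R158/Sp3_580
section

/-!
# Row 158, Block SEP (helper580): inner cells from points, good boundary

* `cellOf N n v` : the cell of the ball `Sq (N n)` which contains `v`
* `cover_in` : four arms with a good boundary land in separated boundary cells
* `bad_small` : the boundary is good with probability `≥ 1 - δ`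
* `a4_bad` : `P (A4 e R ∩ bad) ≤ P (A4 e (R/2)) P (bad)`
-/

set_option autoImplicit false
set_option linter.constructorNameAsVariable false

noncomputable section

namespace Crest.Agent.R158.Sp580

open MeasureTheory ProbabilityTheory unitInterval
open Crest.Agent.R161.Geo729 Crest.Agent.R161.Topo374 Crest.Agent.R161.Dual374
open Crest.Agent.R161.Tas682 Crest.Agent.R158.Rs689
open Crest.Agent.R158.Ru874 hiding An
open Crest.Agent.R158.Cpl963 (An)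
open Crest.Agent.R158.Kd458 (cl op GoodB core_edge gd_congr)
open Crest.Agent.R158.Sp874 (nr FarN)
open Crest.Agent.R158.Sq200 (InE BdV)
open Crest.Agent.R158.Sg158 (LocD)

/-! ### cells of points -/

/-- the cell of `Sq (N n)` which contains `v` -/
def cellOf (N n : ℤ) (v : P2) : P2 :=
  (max (-N) (min (N - 1) (v.1 / n)), max (-N) (min (N - 1) (v.2 / n)))

theorem clamp_mem {N n a : ℤ} (hn : 1 ≤ n) (hN : 1 ≤ N) (h1 : -(N * n) ≤ a) (h2 : a ≤ N * n) :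
    (max (-N) (min (N - 1) (a / n))) * n ≤ a ∧ a ≤ (max (-N) (min (N - 1) (a / n)) + 1) * n := by
  have hn0 : 0 < n := by omega
  have e1 := Int.emod_nonneg a hn0.ne'
  have e2 := Int.emod_lt_of_pos a hn0
  have e3 := Int.mul_ediv_add_emod a n
  have q1 : -N ≤ a / n := by
    rw [Int.le_ediv_iff_mul_le hn0]; linarith
  have q2 : a / n ≤ N := Int.ediv_le_of_le_mul hn0 h2
  rcases eq_or_lt_of_le q2 with h3 | h3
  · have h4 : max (-N) (min (N - 1) (a / n)) = N - 1 := by omega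
    rw [h4]
    rw [h3] at e3
    constructor
    · nlinarith
    · nlinarith
  · have h4 : max (-N) (min (N - 1) (a / n)) = a / n := by omega
    rw [h4]
    constructor
    · nlinarith
    · nlinarith

theorem cellOf_mem {N n : ℕ} (hn : 1 ≤ n) (hN : 1 ≤ N) {v : P2} (hv : v ∈ Sq (N * n)) :
    v ∈ Bk n (cellOf N n v) 0 := by
  rw [mem_Sq] at hv
  have h1 := clamp_mem (N := N) (n := n) (a := v.1) (by omega) (by omega) hv.1 hv.2.1
  have h2 := clamp_mem (N := N) (n := n) (a := v.2) (by omega) (by omega) hv.2.2.1 hv.2.2.2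
  rw [mem_Bk]
  simp only [cellOf, sub_zero, add_zero]
  exact ⟨h1.1, h1.2, h2.1, h2.2⟩

theorem nr_cellOf {N n : ℕ} (hn : 1 ≤ n) (hN : 1 ≤ N) {v : P2}
    (hb : (N : ℤ) * n - 1 ≤ v.1 ∨ v.1 ≤ -((N : ℤ) * n) ∨ (N : ℤ) * n - 1 ≤ v.2 ∨
      v.2 ≤ -((N : ℤ) * n)) : nr (cellOf N n v) = N - 1 := by
  have hn0 : (0 : ℤ) < n := by omega
  have key1 : ∀ a : ℤ, (N : ℤ) * n - 1 ≤ a → (N : ℤ) - 1 ≤ a / n := by
    intro a ha
    rw [Int.le_ediv_iff_mul_le hn0]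
    nlinarith
  have key2 : ∀ a : ℤ, a ≤ -((N : ℤ) * n) → a / n ≤ -(N : ℤ) := by
    intro a ha
    refine Int.ediv_le_of_le_mul hn0 ?_
    linarith
  unfold nr cellOf
  simp only
  rcases hb with h | h | h | h
  · have := key1 _ h; omega
  · have := key2 _ h; omega
  · have := key1 _ h; omega
  · have := key2 _ h; omega

theorem far_of_sd {n : ℕ} {g : ℤ} {v v' k k' : P2} (hv : v ∈ Bk n k 0) (hv' : v' ∈ Bk n k' 0)
    (h : g * n < sd v v') : FarN g k k' := by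
  by_contra hcon
  unfold FarN at hcon
  push Not at hcon
  obtain ⟨c1, c2, c3, c4⟩ := hcon
  rw [mem_Bk] at hv hv'
  simp only [sub_zero, add_zero] at hv hv'
  have hn0 : (0 : ℤ) ≤ n := by positivity
  have h1 : sd v v' ≤ g * n := by
    rw [sd_le]
    refine ⟨?_, ?_, ?_, ?_⟩
    · have : (k.1 + 1 - g) * (n : ℤ) ≤ k'.1 * n := mul_le_mul_of_nonneg_right (by omega) hn0
      nlinarith
    · have : (k'.1 + 1) * (n : ℤ) ≤ (k.1 + g) * n := mul_le_mul_of_nonneg_right (by omega) hn0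
      nlinarith
    · have : (k.2 + 1 - g) * (n : ℤ) ≤ k'.2 * n := mul_le_mul_of_nonneg_right (by omega) hn0
      nlinarith
    · have : (k'.2 + 1) * (n : ℤ) ≤ (k.2 + g) * n := mul_le_mul_of_nonneg_right (by omega) hn0
      nlinarith
  omega

/-- points of the block of radius 8 of the cell of `f` are close to `f` -/
theorem near_of_Bk {n : ℕ} {k f v : P2} {m : ℤ} (hf : f ∈ Bk n k 0) (hv : v ∈ Bk n k m)
    (hm : 0 ≤ m) : sd f v ≤ (m + 1) * n := by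
  rw [mem_Bk] at hf hv
  simp only [sub_zero, add_zero] at hf
  have e1 : (k.1 - m) * (n : ℤ) = k.1 * n - m * n := by ring
  have e2 : (k.1 + m + 1) * (n : ℤ) = k.1 * n + m * n + n := by ring
  have e3 : (k.2 - m) * (n : ℤ) = k.2 * n - m * n := by ring
  have e4 : (k.2 + m + 1) * (n : ℤ) = k.2 * n + m * n + n := by ring
  have e5 : (m + 1) * (n : ℤ) = m * n + n := by ring
  have e6 : (k.1 + 1) * (n : ℤ) = k.1 * n + n := by ring
  have e7 : (k.2 + 1) * (n : ℤ) = k.2 * n + n := by ring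
  rw [sd_le]
  omega

theorem Bk_mono {n : ℕ} {k : P2} {m m' : ℤ} (h : m ≤ m') : Bk n k m ⊆ Bk n k m' := by
  intro v hv
  rw [mem_Bk] at hv ⊢
  have hn0 : (0 : ℤ) ≤ n := by positivity
  have a1 : (k.1 - m') * (n : ℤ) ≤ (k.1 - m) * n := mul_le_mul_of_nonneg_right (by omega) hn0
  have a2 : (k.1 + m + 1) * (n : ℤ) ≤ (k.1 + m' + 1) * n :=
    mul_le_mul_of_nonneg_right (by omega) hn0
  have a3 : (k.2 - m') * (n : ℤ) ≤ (k.2 - m) * n := mul_le_mul_of_nonneg_right (by omega) hn0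
  have a4 : (k.2 + m + 1) * (n : ℤ) ≤ (k.2 + m' + 1) * n :=
    mul_le_mul_of_nonneg_right (by omega) hn0
  omega

theorem cl_eq (z : Cf) (e : Edge) : cl z e = frc e false z := by
  funext e'
  by_cases h : e' = e
  · subst h; rw [frc_self]; simp [cl]
  · rw [frc_ne h]; simp [cl, h]

theorem op_eq (z : Cf) (e : Edge) : op z e = frc e true z := by
  funext e'
  by_cases h : e' = e
  · subst h; rw [frc_self]; simp [op]
  · rw [frc_ne h]; simp [op, h]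

theorem ball_eq (R : ℤ) : {v : P2 | sd (0, 0) v ≤ R} = Sq R := by
  ext v
  rw [Set.mem_setOf_eq, sd_le, mem_Sq]
  simp

theorem bd_of_sd {R : ℤ} {x : P2} (h : sd (0, 0) x = R) : BdV (-R) R (-R) R x := by
  rcases sd_eq h with h1 | h1 | h1 | h1
  · left; simpa using h1
  · right; left; simpa using h1
  · right; right; left; simpa using h1
  · right; right; right; simpa using h1

/-- positions of the ends of an edge at the origin -/
theorem e0_pos {e : Edge} (he : src e = (0, 0)) :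
    ((src e).1 = 0 ∧ (src e).2 = 0) ∧
    (0 ≤ (tgt e).1 ∧ (tgt e).1 ≤ 1 ∧ 0 ≤ (tgt e).2 ∧ (tgt e).2 ≤ 1) ∧
    ((fA e).1 = 0 ∧ (fA e).2 = 0) ∧ (-1 ≤ (fB e).1 ∧ (fB e).1 ≤ 0 ∧ -1 ≤ (fB e).2 ∧ (fB e).2 ≤ 0) := by
  obtain ⟨⟨i, j⟩, b⟩ := e
  simp only [src_mk, Prod.mk.injEq] at he
  obtain ⟨rfl, rfl⟩ := he
  cases b <;> simp

/-- **Inner covering, deterministic.** -/
theorem cover_in {e : Edge} (he : src e = (0, 0)) {n N : ℕ} (hn : 2 ≤ n) {g : ℤ} (hg : 1 ≤ g)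
    {t r t1 s c s1 b : ℤ} (ht : 16 * (n : ℤ) ≤ t) (htr : t ≤ r) (hrt : t + r + 1 ≤ t1)
    (ht1b : t1 ≤ b) (hrs : r + 1 ≤ s) (hsc : s ≤ c) (hcs : s + c ≤ s1) (hs1b : s1 ≤ b)
    (hbR : b + 4 ≤ N * n) (gt1 : g * n ≤ t1) (gs : (g + 1) * n ≤ s) {z : Cf}
    (hz : z ∈ A4 e (N * n))
    (hG : GoodB z (-(N * n)) (N * n) (-(N * n)) (N * n) t r t1 s c s1 b) :
    ∃ k1 k2 k3 k4 : P2, nr k1 = N - 1 ∧ nr k2 = N - 1 ∧ nr k3 = N - 1 ∧ nr k4 = N - 1 ∧
      FarN g k1 k2 ∧ FarN g k1 k3 ∧ FarN g k1 k4 ∧ FarN g k2 k3 ∧ FarN g k2 k4 ∧ FarN g k3 k4 ∧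
      z ∈ Uin e (N * n) n k1 k2 k3 k4 := by
  obtain ⟨⟨p1, p2⟩, p3, ⟨p5, p6⟩, p7⟩ := e0_pos he
  have hn0 : (2 : ℤ) ≤ n := by exact_mod_cast hn
  have hgn : (n : ℤ) ≤ g * n := by nlinarith
  have hN : 1 ≤ N := by
    rcases Nat.eq_zero_or_pos N with h | h
    · subst h
      simp only [Nat.cast_zero, zero_mul] at hbR
      omega
    · exact h
  set R : ℤ := (N : ℤ) * n with hR
  obtain ⟨⟨x, hx, h1⟩, ⟨x', hx', h2⟩, hnc⟩ := hz
  rw [he, ball_eq] at h1 h2 hnc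
  rw [he] at hx hx'
  have hx0 : sd (0, 0) x = R := hx
  have hx0' : sd (0, 0) x' = R := hx'
  have deep0 : ∀ w v : P2, BdV (-R) R (-R) R w → (-1 ≤ v.1 ∧ v.1 ≤ 1 ∧ -1 ≤ v.2 ∧ v.2 ≤ 1) →
      b < sd w v := by
    intro w v hw hv
    by_contra hcon
    push Not at hcon
    rw [sd_le] at hcon
    rcases hw with hw | hw | hw | hw <;> omega
  have deep1 : ∀ w v : P2, BdV (-R) (R - 1) (-R) (R - 1) w →
      (-1 ≤ v.1 ∧ v.1 ≤ 1 ∧ -1 ≤ v.2 ∧ v.2 ≤ 1) → b < sd w v := by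
    intro w v hw hv
    by_contra hcon
    push Not at hcon
    rw [sd_le] at hcon
    rcases hw with hw | hw | hw | hw <;> omega
  obtain ⟨hsep, f, f', w, w', hf, hfb, hf', hfb', hw, hwb, hfw, hw', hwb', hfw', hff, d1, d2, o1,
    o2⟩ := core_edge (z := z) (e := e) (x0 := -R) (x1 := R) (y0 := -R) (y1 := R)
      (he := ⟨by rw [mem_rect]; omega, by rw [mem_rect]; omega⟩)
      (hfA := by rw [mem_rect]; omega) (hfB := by rw [mem_rect]; omega)
      (x := x) (x' := x')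
      (hx := by have := h1.right; exact this) (hbx := bd_of_sd hx0)
      (hx' := by have := h2.right; exact this) (hbx' := bd_of_sd hx0')
      (h1 := by rw [cl_eq, he]; exact h1) (h2 := by rw [cl_eq]; exact h2)
      (hn := by rw [cl_eq, he]; exact hnc)
      (t := t) (r := r) (t1 := t1) (s := s) (c := c) (s1 := s1) (b := b) (by omega) htr hrt ht1b
      hrs hsc hcs hs1b
      (fun w _ hw => ⟨deep0 w _ hw (by omega), deep0 w _ hw (by omega)⟩)
      (fun w _ hw => ⟨deep1 w _ hw (by omega), deep1 w _ hw (by omega)⟩) hG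
  -- membership of the four points
  have hfS : f ∈ Sq R := by rw [mem_rect] at hf; rw [mem_Sq]; omega
  have hfS' : f' ∈ Sq R := by rw [mem_rect] at hf'; rw [mem_Sq]; omega
  have m1 := cellOf_mem (n := n) (N := N) (by omega) hN (v := x) h1.right
  have m3 := cellOf_mem (n := n) (N := N) (by omega) hN (v := x') h2.right
  have m2 := cellOf_mem (n := n) (N := N) (by omega) hN (v := f) hfS
  have m4 := cellOf_mem (n := n) (N := N) (by omega) hN (v := f') hfS'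
  have nx : nr (cellOf N n x) = N - 1 := by
    refine nr_cellOf (by omega) hN ?_
    rcases bd_of_sd hx0 with h | h | h | h <;> omega
  have nx' : nr (cellOf N n x') = N - 1 := by
    refine nr_cellOf (by omega) hN ?_
    rcases bd_of_sd hx0' with h | h | h | h <;> omega
  have nf : nr (cellOf N n f) = N - 1 := by
    refine nr_cellOf (by omega) hN ?_
    rcases hfb with h | h | h | h <;> omega
  have nf' : nr (cellOf N n f') = N - 1 := by
    refine nr_cellOf (by omega) hN ?_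
    rcases hfb' with h | h | h | h <;> omega
  -- distances
  have q1 : s ≤ sd x f := d1.right.1.2
  have q2 : s ≤ sd x' f := d1.right.2
  have q3 : s ≤ sd x f' := d2.right.1.2
  have q4 : s ≤ sd x' f' := d2.right.2
  have gs' : g * (n : ℤ) < s := by nlinarith
  -- the regions
  have regP : ∀ v, v ∈ Rect (-R) R (-R) R ∩ {v | t ≤ sd w v} ∩ {v | t ≤ sd w' v} →
      v ∈ Sq R \ Bk2 n (cellOf N n f) (cellOf N n f') 8 := by
    rintro v ⟨⟨hv, hv1⟩, hv2⟩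
    refine ⟨hv, ?_⟩
    rintro (h | h)
    · have h3 := near_of_Bk m2 h (by norm_num)
      have h4 := Kd458.sd_tri w f v
      rw [Kd458.sd_symm w f] at h4
      have hv1' : t ≤ sd w v := hv1
      omega
    · have h3 := near_of_Bk m4 h (by norm_num)
      have h4 := Kd458.sd_tri w' f' v
      rw [Kd458.sd_symm w' f'] at h4
      have hv2' : t ≤ sd w' v := hv2
      omega
  have regD : ∀ v, v ∈ Rect (-R) (R - 1) (-R) (R - 1) ∩ {v | s ≤ sd x v} ∩ {v | s ≤ sd x' v} →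
      v ∈ FSq R \ Bk2 n (cellOf N n x) (cellOf N n x') 8 := by
    rintro v ⟨⟨hv, hv1⟩, hv2⟩
    refine ⟨?_, ?_⟩
    · rw [mem_rect] at hv
      rw [mem_FSq]
      omega
    rintro (h | h)
    · have h3 := near_of_Bk m1 h (by norm_num)
      have hv1' : s ≤ sd x v := hv1
      omega
    · have h3 := near_of_Bk m3 h (by norm_num)
      have hv2' : s ≤ sd x' v := hv2
      omega
  refine ⟨cellOf N n x, cellOf N n f, cellOf N n x', cellOf N n f', nx, nf, nx', nf',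
    far_of_sd m1 m2 (by omega), far_of_sd m1 m3 (by omega), far_of_sd m1 m4 (by omega),
    far_of_sd m2 m3 ?_, far_of_sd m2 m4 (by omega), far_of_sd m3 m4 (by omega), ?_, ?_⟩
  · rw [Kd458.sd_symm]; omega
  · refine ⟨⟨x, Bk_mono (by norm_num) m1, ?_⟩, ⟨x', Bk_mono (by norm_num) m3, ?_⟩⟩
    · rw [← cl_eq]; exact o1.monoS regP
    · rw [← cl_eq]; exact o2.monoS regP
  · refine ⟨⟨f, Bk_mono (by norm_num) m2, ?_⟩, ⟨f', Bk_mono (by norm_num) m4, ?_⟩⟩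
    · rw [← op_eq]; exact d1.monoS regD
    · rw [← op_eq]; exact d2.monoS regD

end Crest.Agent.R158.Sp580
end
end

-- ▼ part R158/Sp4_580

/-!
# Row 158, Block SEP (helper580): the boundary is good

* `exists_scales` : choice of the three ratios
* `bad_bound`, `bad_small` : `P (¬ GoodB) ≤ δ`
* `a4_bad` : `P (A4 e R ∩ bad) ≤ P (A4 e ρ) P (bad)`, `ρ + b + 4 ≤ R`
-/

set_option autoImplicit false
set_option linter.constructorNameAsVariable false

noncomputable section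

namespace Crest.Agent.R158.Sp580

open MeasureTheory ProbabilityTheory unitInterval
open Crest.Agent.R161.Geo729 Crest.Agent.R161.Topo374 Crest.Agent.R161.Dual374
open Crest.Agent.R161.Tas682 Crest.Agent.R158.Rs689
open Crest.Agent.R158.Ru874 hiding An
open Crest.Agent.R158.Cpl963 (An)
open Crest.Agent.R158.Kd458 (cl op GoodB Gd core_edge gd_congr)
open Crest.Agent.R158.Sp874 (nr FarN)
open Crest.Agent.R158.Sq200 (InE BdV)
open Crest.Agent.R158.Sg158 (LocD)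
open Crest.Agent.R158.Hp814 (CL bL CL_pos bL_pos)

/-! ### choice of scales -/

theorem exists_pow_small {M β δ : ℝ} (hM : 0 < M) (hβ : 0 < β) (hδ : 0 < δ) (A0 : ℕ) :
    ∃ A : ℕ, A0 ≤ A ∧ M * ((1 / 2 : ℝ) ^ A) ^ β ≤ δ := by
  have h1 : (0 : ℝ) < (1 / 2 : ℝ) ^ β := by positivity
  have h2 : (1 / 2 : ℝ) ^ β < 1 := Real.rpow_lt_one (by norm_num) (by norm_num) hβ
  obtain ⟨A, hA⟩ := exists_pow_lt_of_lt_one (show 0 < δ / M by positivity) h2
  refine ⟨max A A0, le_max_right _ _, ?_⟩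
  have h3 : ((1 / 2 : ℝ) ^ (max A A0)) ^ β = ((1 / 2 : ℝ) ^ β) ^ (max A A0) := by
    rw [← Real.rpow_natCast, ← Real.rpow_mul (by norm_num), mul_comm, Real.rpow_mul (by norm_num),
      Real.rpow_natCast]
  rw [h3]
  have h4 : ((1 / 2 : ℝ) ^ β) ^ (max A A0) ≤ ((1 / 2 : ℝ) ^ β) ^ A :=
    pow_le_pow_of_le_one h1.le h2.le (le_max_left _ _)
  calc M * ((1 / 2 : ℝ) ^ β) ^ (max A A0) ≤ M * (δ / M) :=
        mul_le_mul_of_nonneg_left (h4.trans hA.le) hM.le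
    _ = δ := by field_simp

theorem exists_scales {C β δ : ℝ} (hC : 0 < C) (hβ : 0 < β) (hδ : 0 < δ) :
    ∃ A1 A2 A3 : ℕ, 4 ≤ A3 ∧
      C * (8 * ((1 / 2 : ℝ) ^ A1) ^ β) + C * (16 * 2 ^ A1 * ((1 / 2 : ℝ) ^ A2) ^ β) +
        C * (32 * 2 ^ A1 * 2 ^ A2 * ((1 / 2 : ℝ) ^ A3) ^ β) +
        C * (8 * ((1 / 2 : ℝ) ^ A1) ^ β) ≤ δ := by
  obtain ⟨A1, -, h1⟩ := exists_pow_small (M := C * 8) (δ := δ / 4) (by positivity) hβ
    (by positivity) 0
  obtain ⟨A2, -, h2⟩ := exists_pow_small (M := C * (16 * 2 ^ A1)) (δ := δ / 4) (by positivity) hβ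
    (by positivity) 0
  obtain ⟨A3, h30, h3⟩ := exists_pow_small (M := C * (32 * 2 ^ A1 * 2 ^ A2)) (δ := δ / 4)
    (by positivity) hβ (by positivity) 4
  refine ⟨A1, A2, A3, h30, ?_⟩
  have e1 : C * (8 * ((1 / 2 : ℝ) ^ A1) ^ β) = C * 8 * ((1 / 2 : ℝ) ^ A1) ^ β := by ring
  have e2 : C * (16 * 2 ^ A1 * ((1 / 2 : ℝ) ^ A2) ^ β) =
    C * (16 * 2 ^ A1) * ((1 / 2 : ℝ) ^ A2) ^ β := by ring
  have e3 : C * (32 * 2 ^ A1 * 2 ^ A2 * ((1 / 2 : ℝ) ^ A3) ^ β) =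
    C * (32 * 2 ^ A1 * 2 ^ A2) * ((1 / 2 : ℝ) ^ A3) ^ β := by ring
  rw [e1, e2, e3]
  linarith

/-! ### probability of a bad boundary -/

/-- the boundary of `Sq R` is good at the radii -/
def GoodS (R t r t1 s c s1 b : ℤ) : Set Cf := {z | GoodB z (-R) R (-R) R t r t1 s c s1 b}

theorem sq_rect (R : ℤ) : Rect (-R) R (-R) R = {v : P2 | sd (0, 0) v ≤ R} := by
  ext v
  rw [mem_rect, Set.mem_setOf_eq, sd_le]
  simp

theorem bad_sub {R t r t1 s c s1 b : ℤ} (hR : 1 ≤ R) : (GoodS R t r t1 s c s1 b)ᶜ ⊆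
    (({z | ∃ w, sd (0, 0) w = R ∧ ¬ Gd z {v | sd (0, 0) v ≤ R} w s1 b} ∪
      {z | ∃ w, sd (0, 0) w = R ∧ ¬ Gd z {v | sd (0, 0) v ≤ R} w s c}) ∪
      {z | ∃ w, sd (0, 0) w = R ∧ ¬ Gd z {v | sd (0, 0) v ≤ R} w t r}) ∪
      {z | ∃ f ∈ Hp814.FInB (0, 0) R, ¬ Gd (dual z) (Hp814.FIn (0, 0) R) f t1 b} := by
  intro z hz
  by_contra hcon
  simp only [Set.mem_union, not_or] at hcon
  obtain ⟨⟨⟨h1, h2⟩, h3⟩, h4⟩ := hcon
  apply hz
  have hb : ∀ w ∈ Rect (-R) R (-R) R, BdV (-R) R (-R) R w → sd (0, 0) w = R := by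
    intro w hw hb
    rw [mem_rect] at hw
    have a1 : sd (0, 0) w ≤ R := by rw [sd_le]; simp; omega
    have a2 : ¬ sd (0, 0) w ≤ R - 1 := by
      rw [sd_le]
      simp only [zero_sub, zero_add]
      rcases hb with hb | hb | hb | hb <;> omega
    omega
  have key : ∀ {a c : ℤ}, ¬ (∃ w, sd (0, 0) w = R ∧ ¬ Gd z {v | sd (0, 0) v ≤ R} w a c) →
      ∀ w ∈ Rect (-R) R (-R) R, BdV (-R) R (-R) R w → Gd z (Rect (-R) R (-R) R) w a c := by
    intro a c h w hw hbw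
    rw [sq_rect]
    by_contra h5
    exact h ⟨w, hb w hw hbw, h5⟩
  refine ⟨key h1, key h2, key h3, ?_⟩
  intro f hf hfb
  have e1 : Rect (-R) (R - 1) (-R) (R - 1) = Hp814.FIn (0, 0) R := by
    unfold Hp814.FIn
    simp
  rw [e1]
  by_contra h5
  refine h4 ⟨f, ?_, h5⟩
  unfold Hp814.FInB Hp814.bdS Hp814.SqI
  rw [mem_rect] at hf
  rcases hfb with h | h | h | h
  all_goals
    refine ⟨?_, ?_⟩
    · rw [mem_rect]; simp only [zero_sub]; omega
    · simp only [zero_sub]; omega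

theorem bad_bound {c0 : ℝ} {p : I} {M : ℕ} (h : RSp c0 p M) {R t r t1 s c s1 b : ℤ}
    (ht : 1 ≤ t) (htr : t ≤ r) (ht1 : 1 ≤ t1) (ht1b : t1 ≤ b) (hs : 1 ≤ s) (hsc : s ≤ c)
    (hs1 : 1 ≤ s1) (hs1b : s1 ≤ b) (hcR : c ≤ b) (hrR : r ≤ b) (hbR : b ≤ R)
    (hM1 : 2 * b + 1 ≤ M) :
    (nu p).real (GoodS R t r t1 s c s1 b)ᶜ ≤
      CL c0 * (((R : ℝ) / b) * ((s1 : ℝ) / b) ^ bL c0) +
      CL c0 * (((R : ℝ) / c) * ((s : ℝ) / c) ^ bL c0) +
      CL c0 * (((R : ℝ) / r) * ((t : ℝ) / r) ^ bL c0) +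
      CL c0 * (((R : ℝ) / b) * ((t1 : ℝ) / b) ^ bL c0) := by
  have a1 := Hp814.ball_in h (0, 0) (R := R) hs1 hs1b (by omega) (by omega) (by omega)
  have a2 := Hp814.ball_in h (0, 0) (R := R) hs hsc (by omega) (by omega) (by omega)
  have a3 := Hp814.ball_in h (0, 0) (R := R) ht htr (by omega) (by omega) (by omega)
  have a4 := Hp814.ball_in_dual h (0, 0) (R := R) ht1 ht1b (by omega) (by omega) (by omega)
  refine (measureReal_mono (bad_sub (by omega))).trans ?_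
  refine (measureReal_union_le _ _).trans (add_le_add ?_ a4)
  refine (measureReal_union_le _ _).trans (add_le_add ?_ a3)
  exact (measureReal_union_le _ _).trans (add_le_add a1 a2)

/-- the radii -/
def rT (n : ℕ) : ℤ := 16 * n
def rR (A3 n : ℕ) : ℤ := 16 * 2 ^ A3 * n
def rT1 (A3 n : ℕ) : ℤ := 32 * 2 ^ A3 * n
def rS (A3 n : ℕ) : ℤ := 32 * 2 ^ A3 * n
def rC (A2 A3 n : ℕ) : ℤ := 32 * 2 ^ A3 * 2 ^ A2 * n
def rS1 (A2 A3 n : ℕ) : ℤ := 64 * 2 ^ A3 * 2 ^ A2 * n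
def rB (A1 A2 A3 n : ℕ) : ℤ := 64 * 2 ^ A3 * 2 ^ A2 * 2 ^ A1 * n

/-- the number of cells -/
def NN (A1 A2 A3 : ℕ) : ℕ := 2 ^ (9 + A1 + A2 + A3)

theorem NN_mul (A1 A2 A3 n : ℕ) : ((NN A1 A2 A3 : ℕ) : ℤ) * n = 8 * rB A1 A2 A3 n := by
  unfold NN rB
  push_cast
  rw [pow_add, pow_add, pow_add]
  ring

theorem bad_small {c0 δ : ℝ} (hc0 : 0 < c0) (hc1 : c0 ≤ 1) (hδ : 0 < δ) :
    ∃ A1 A2 A3 : ℕ, 4 ≤ A3 ∧ ∀ (p : I) (n : ℕ), 1 ≤ n →
      RSp c0 p (NN A1 A2 A3 * n) →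
      (nu p).real (GoodS (NN A1 A2 A3 * n) (rT n) (rR A3 n) (rT1 A3 n) (rS A3 n) (rC A2 A3 n)
        (rS1 A2 A3 n) (rB A1 A2 A3 n))ᶜ ≤ δ := by
  obtain ⟨A1, A2, A3, h3, h⟩ := exists_scales (CL_pos hc0) (bL_pos hc0 hc1) hδ
  refine ⟨A1, A2, A3, h3, fun p n hn hp => ?_⟩
  have hn0 : (1 : ℤ) ≤ n := by exact_mod_cast hn
  have hn1 : (0 : ℝ) < n := by exact_mod_cast (by omega : 0 < n)
  have p1 : (1 : ℤ) ≤ 2 ^ A1 := one_le_pow₀ (by norm_num)
  have p2 : (1 : ℤ) ≤ 2 ^ A2 := one_le_pow₀ (by norm_num)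
  have p3 : (1 : ℤ) ≤ 2 ^ A3 := one_le_pow₀ (by norm_num)
  have x3 : (n : ℤ) ≤ 2 ^ A3 * n := by nlinarith
  have x2 : 2 ^ A3 * (n : ℤ) ≤ 2 ^ A3 * 2 ^ A2 * n := by
    have : 2 ^ A3 * (n : ℤ) * 1 ≤ 2 ^ A3 * n * 2 ^ A2 :=
      mul_le_mul_of_nonneg_left p2 (by positivity)
    linarith
  have x1 : 2 ^ A3 * 2 ^ A2 * (n : ℤ) ≤ 2 ^ A3 * 2 ^ A2 * 2 ^ A1 * n := by
    have : 2 ^ A3 * 2 ^ A2 * (n : ℤ) * 1 ≤ 2 ^ A3 * 2 ^ A2 * n * 2 ^ A1 :=
      mul_le_mul_of_nonneg_left p1 (by positivity)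
    linarith
  have eR := NN_mul A1 A2 A3 n
  have eT : rT n = 16 * n := rfl
  have eRr : rR A3 n = 16 * (2 ^ A3 * n) := by unfold rR; ring
  have eT1 : rT1 A3 n = 32 * (2 ^ A3 * n) := by unfold rT1; ring
  have eS : rS A3 n = 32 * (2 ^ A3 * n) := by unfold rS; ring
  have eC : rC A2 A3 n = 32 * (2 ^ A3 * 2 ^ A2 * n) := by unfold rC; ring
  have eS1 : rS1 A2 A3 n = 64 * (2 ^ A3 * 2 ^ A2 * n) := by unfold rS1; ring
  have eB : rB A1 A2 A3 n = 64 * (2 ^ A3 * 2 ^ A2 * 2 ^ A1 * n) := by unfold rB; ring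
  have hb := bad_bound hp (R := (NN A1 A2 A3 : ℤ) * n) (t := rT n) (r := rR A3 n)
    (t1 := rT1 A3 n) (s := rS A3 n) (c := rC A2 A3 n) (s1 := rS1 A2 A3 n) (b := rB A1 A2 A3 n)
    (by omega) (by omega) (by omega) (by omega) (by omega) (by omega) (by omega) (by omega)
    (by omega) (by omega) (by omega) (by push_cast; omega)
  refine hb.trans (le_trans ?_ h)
  -- the ratios
  have q1 : ((((NN A1 A2 A3 : ℤ) * n : ℤ)) : ℝ) / ((rB A1 A2 A3 n : ℤ) : ℝ) = 8 := by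
    rw [eR]
    have : ((rB A1 A2 A3 n : ℤ) : ℝ) ≠ 0 := by
      unfold rB; push_cast; positivity
    push_cast
    field_simp
  have q2 : ((rS1 A2 A3 n : ℤ) : ℝ) / ((rB A1 A2 A3 n : ℤ) : ℝ) = (1 / 2) ^ A1 := by
    unfold rS1 rB; push_cast
    rw [one_div, inv_pow]
    field_simp
  have q3 : ((((NN A1 A2 A3 : ℤ) * n : ℤ)) : ℝ) / ((rC A2 A3 n : ℤ) : ℝ) = 16 * 2 ^ A1 := by
    rw [eR]
    unfold rB rC; push_cast
    field_simp
    ring
  have q4 : ((rS A3 n : ℤ) : ℝ) / ((rC A2 A3 n : ℤ) : ℝ) = (1 / 2) ^ A2 := by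
    unfold rS rC; push_cast
    rw [one_div, inv_pow]
    field_simp
  have q5 : ((((NN A1 A2 A3 : ℤ) * n : ℤ)) : ℝ) / ((rR A3 n : ℤ) : ℝ) = 32 * 2 ^ A1 * 2 ^ A2 := by
    rw [eR]
    unfold rB rR; push_cast
    field_simp
    ring
  have q6 : ((rT n : ℤ) : ℝ) / ((rR A3 n : ℤ) : ℝ) = (1 / 2) ^ A3 := by
    unfold rT rR; push_cast
    rw [one_div, inv_pow]
    field_simp
  have q7 : ((rT1 A3 n : ℤ) : ℝ) / ((rB A1 A2 A3 n : ℤ) : ℝ) ≤ (1 / 2) ^ A1 := by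
    rw [← q2]
    refine div_le_div_of_nonneg_right ?_ ?_
    · exact_mod_cast (by omega : rT1 A3 n ≤ rS1 A2 A3 n)
    · exact_mod_cast (by omega : 0 ≤ rB A1 A2 A3 n)
  have q8 : (0 : ℝ) ≤ ((rT1 A3 n : ℤ) : ℝ) / ((rB A1 A2 A3 n : ℤ) : ℝ) := by
    refine div_nonneg ?_ ?_
    · exact_mod_cast (by omega : 0 ≤ rT1 A3 n)
    · exact_mod_cast (by omega : 0 ≤ rB A1 A2 A3 n)
  rw [q1, q2, q3, q4, q5, q6]
  have q9 := Real.rpow_le_rpow q8 q7 (bL_pos hc0 hc1).le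
  have hCL := (CL_pos hc0).le
  have q10 : CL c0 * (8 * (((rT1 A3 n : ℤ) : ℝ) / ((rB A1 A2 A3 n : ℤ) : ℝ)) ^ bL c0) ≤
      CL c0 * (8 * ((1 / 2) ^ A1) ^ bL c0) := by
    refine mul_le_mul_of_nonneg_left ?_ hCL
    linarith
  linarith

/-! ### locality -/

theorem locD_good {R t r t1 s c s1 b ρ : ℤ} (h1 : s1 ≤ b) (h2 : c ≤ b) (h3 : r ≤ b)
    (hρ : ρ + b + 4 ≤ R) :
    LocD {v | ρ < sd (0, 0) v} (GoodS R t r t1 s c s1 b) := by
  classical
  -- the two supports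
  set DP : Set P2 := Sq R ∩ {v | ρ < sd (0, 0) v} with hDP
  set DD : Set P2 := Sq R ∩ {v | ρ + 2 < sd (0, 0) v} with hDD
  have fP : DP.Finite := (Sq_finite R).subset Set.inter_subset_left
  have fD : DD.Finite := (Sq_finite R).subset Set.inter_subset_left
  have low : ∀ w v : P2, R - 1 ≤ sd (0, 0) w → sd w v ≤ b → ρ + 2 < sd (0, 0) v := by
    intro w v hw hv
    have := Kd458.sd_tri (0, 0) v w
    rw [Kd458.sd_symm v w] at this
    omega
  have bdR : ∀ w : P2, BdV (-R) R (-R) R w → R - 1 ≤ sd (0, 0) w := by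
    intro w hw
    by_contra hcon
    have : sd (0, 0) w ≤ R - 2 := by omega
    rw [sd_le] at this
    simp only [zero_sub, zero_add] at this
    rcases hw with hw | hw | hw | hw <;> omega
  have bdR' : ∀ w : P2, BdV (-R) (R - 1) (-R) (R - 1) w → R - 1 ≤ sd (0, 0) w := by
    intro w hw
    by_contra hcon
    have : sd (0, 0) w ≤ R - 2 := by omega
    rw [sd_le] at this
    simp only [zero_sub, zero_add] at this
    rcases hw with hw | hw | hw | hw <;> omega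
  have hGP : ∀ (w : P2) (a d : ℤ), BdV (-R) R (-R) R w → d ≤ b →
      Dep (edF DP) {z : Cf | Gd z (Rect (-R) R (-R) R) w a d} := by
    intro w a d hw hd
    have hsub : Rect (-R) R (-R) R ∩ An w a d ⊆ DP := by
      rintro v ⟨hv, hv2⟩
      exact ⟨hv, by have := low w v (bdR w hw) (hv2.2.trans hd); show ρ < sd (0, 0) v; omega⟩
    refine Dep.mono (edF_mono fP hsub) ?_
    exact (dep_TT (fP.subset hsub) _ _).compl
  have hGD : ∀ (f : P2) (a d : ℤ), BdV (-R) (R - 1) (-R) (R - 1) f → d ≤ b →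
      Dep ((edF DD).map dE.symm.toEmbedding)
        {z : Cf | Gd (dual z) (Rect (-R) (R - 1) (-R) (R - 1)) f a d} := by
    intro w a d hw hd
    have hsub : Rect (-R) (R - 1) (-R) (R - 1) ∩ An w a d ⊆ DD := by
      rintro v ⟨hv, hv2⟩
      refine ⟨?_, low w v (bdR' w hw) (hv2.2.trans hd)⟩
      rw [mem_rect] at hv
      rw [mem_Sq]
      omega
    refine Dep.mono (Finset.map_subset_map.2 (edF_mono fD hsub)) ?_
    exact (dep_TT (fD.subset hsub) _ _).compl.dual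
  refine ⟨edF DP ∪ (edF DD).map dE.symm.toEmbedding, ?_, ?_⟩
  · intro z z' h
    have hP : ∀ (w : P2) (a d : ℤ), BdV (-R) R (-R) R w → d ≤ b →
        (Gd z (Rect (-R) R (-R) R) w a d ↔ Gd z' (Rect (-R) R (-R) R) w a d) :=
      fun w a d hw hd => hGP w a d hw hd z z' fun e he => h e (Finset.mem_union_left _ he)
    have hD : ∀ (w : P2) (a d : ℤ), BdV (-R) (R - 1) (-R) (R - 1) w → d ≤ b →
        (Gd (dual z) (Rect (-R) (R - 1) (-R) (R - 1)) w a d ↔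
          Gd (dual z') (Rect (-R) (R - 1) (-R) (R - 1)) w a d) :=
      fun w a d hw hd => hGD w a d hw hd z z' fun e he => h e (Finset.mem_union_right _ he)
    constructor
    · rintro ⟨g1, g2, g3, g4⟩
      exact ⟨fun w hw hb => (hP w _ _ hb le_rfl).1 (g1 w hw hb),
        fun w hw hb => (hP w _ _ hb h2).1 (g2 w hw hb),
        fun w hw hb => (hP w _ _ hb h3).1 (g3 w hw hb),
        fun w hw hb => (hD w _ _ hb le_rfl).1 (g4 w hw hb)⟩
    · rintro ⟨g1, g2, g3, g4⟩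
      exact ⟨fun w hw hb => (hP w _ _ hb le_rfl).2 (g1 w hw hb),
        fun w hw hb => (hP w _ _ hb h2).2 (g2 w hw hb),
        fun w hw hb => (hP w _ _ hb h3).2 (g3 w hw hb),
        fun w hw hb => (hD w _ _ hb le_rfl).2 (g4 w hw hb)⟩
  · intro e he
    rcases Finset.mem_union.1 he with he | he
    · exact (of_mem_edF he).1.2
    · rw [Finset.mem_map] at he
      obtain ⟨e', he', rfl⟩ := he
      have h4 := (of_mem_edF he').1.2
      have h5 := dual_loc e'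
      simp only [Equiv.coe_toEmbedding]
      have h6 : sd (src e') (src (dE.symm e')) ≤ 1 := by
        rw [sd_le]; omega
      have h7 := Kd458.sd_tri (0, 0) (src (dE.symm e')) (src e')
      rw [Kd458.sd_symm (src (dE.symm e')) (src e')] at h7
      have h8 : ρ + 2 < sd (0, 0) (src e') := h4
      show ρ < sd (0, 0) (src (dE.symm e'))
      omega

theorem locD_compl {D : Set P2} {A : Set Cf} (h : LocD D A) : LocD D Aᶜ := by
  obtain ⟨T, h1, h2⟩ := h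
  exact ⟨T, h1.compl, h2⟩

theorem locD_A4 {e : Edge} (he : src e = (0, 0)) (ρ : ℤ) : LocD {v | sd (0, 0) v ≤ ρ} (A4 e ρ) := by
  have hfin : {v : P2 | sd (0, 0) v ≤ ρ}.Finite := by rw [ball_eq]; exact Sq_finite ρ
  refine ⟨edF {v : P2 | sd (0, 0) v ≤ ρ}, ?_, fun e he => (of_mem_edF he).1⟩
  have h := dep_frc_oc hfin e false fun f =>
    (∃ a ∈ {v : P2 | sd (0, 0) v = ρ}, f (0, 0) a) ∧ (∃ a ∈ {v : P2 | sd (0, 0) v = ρ}, f (tgt e) a) ∧
      ¬ f (0, 0) (tgt e)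
  have h2 : A4 e ρ = {z : Cf | (∃ a ∈ {v : P2 | sd (0, 0) v = ρ},
      OC (frc e false z) {v : P2 | sd (0, 0) v ≤ ρ} (0, 0) a) ∧
      (∃ a ∈ {v : P2 | sd (0, 0) v = ρ}, OC (frc e false z) {v : P2 | sd (0, 0) v ≤ ρ} (tgt e) a) ∧
      ¬ OC (frc e false z) {v : P2 | sd (0, 0) v ≤ ρ} (0, 0) (tgt e)} := by
    unfold A4 Arm
    rw [he]
  rw [h2]
  exact h

/-- the four-arm event is decreasing in the radius -/
theorem A4_anti {e : Edge} {ρ R : ℤ} (h1 : 1 ≤ ρ) (h : ρ ≤ R) : A4 e R ⊆ A4 e ρ := by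
  have s0 : sd (src e) (src e) = 0 := Kd458.sd_self _
  have s1 : sd (src e) (tgt e) ≤ 1 := by
    rw [sd_le]
    obtain ⟨⟨i, j⟩, b⟩ := e
    cases b <;> simp <;> omega
  have key : ∀ {z : Cf} {u : P2}, sd (src e) u ≤ ρ →
      Arm z {v | sd (src e) v ≤ R} {v | sd (src e) v = R} u →
      Arm z {v | sd (src e) v ≤ ρ} {v | sd (src e) v = ρ} u := by
    rintro z u hu ⟨a, ha, h2⟩
    have ha' : sd (src e) a = R := ha
    obtain ⟨w, hw, h3⟩ := first_hit (sd (src e)) (sd_nbr (src e)) ρ h2 hu (by omega)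
    exact ⟨w, hw, h3.monoS fun v hv => hv.2⟩
  rintro z ⟨h2, h3, h4⟩
  refine ⟨key (by omega) h2, key (by omega) h3, fun h5 => h4 (h5.monoS fun v hv => ?_)⟩
  exact le_trans hv h

theorem a4_bad {p : I} {e : Edge} (he : src e = (0, 0)) {R t r t1 s c s1 b ρ : ℤ} (h1 : s1 ≤ b)
    (h2 : c ≤ b) (h3 : r ≤ b) (hρ1 : 1 ≤ ρ) (hb0 : 0 ≤ b) (hρ : ρ + b + 4 ≤ R) :
    (nu p).real (A4 e R ∩ (GoodS R t r t1 s c s1 b)ᶜ) ≤
      (nu p).real (A4 e ρ) * (nu p).real (GoodS R t r t1 s c s1 b)ᶜ := by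
  rw [← LocD.indep p (D := {v | sd (0, 0) v ≤ ρ}) (D' := {v | ρ < sd (0, 0) v}) ?_
    (locD_A4 he ρ) (locD_compl (locD_good h1 h2 h3 hρ))]
  · exact measureReal_mono (Set.inter_subset_inter_left _ (A4_anti hρ1 (by omega)))
  · rw [Set.disjoint_left]
    intro v hv hv'
    have a1 : sd (0, 0) v ≤ ρ := hv
    have a2 : ρ < sd (0, 0) v := hv'
    omega

end Crest.Agent.R158.Sp580
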