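import Crest.Agent.R158.Sq4_200

-- ▼ part R158/Sq5_200
section

/-!
# Row 158, SEP leaf L2-in (helper200): the landing cells of four inner arms alternate
-/

set_option autoImplicit false

noncomputable section

namespace Crest.Agent.R158.Sr200

open Crest.Agent.R161.Geo729 Crest.Agent.R161.Topo374 Crest.Agent.R161.Dual374
open Crest.Agent.R161.Tas682 hiding Sq
open Crest.Agent.R158.Rs689
open Crest.Agent.R158.Kd458 Finset
open Crest.Agent.R158.Sp874 (FarN nr Gd Gd')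
open Crest.Agent.R158.Sp580
open Crest.Agent.R158.Ru874 (frc frc_self frc_ne)

/-! ### segments -/

theorem hseg {S : Set P2} {y x1 x2 : ℤ} (h : ∀ i, (x1 ≤ i ∧ i ≤ x2) ∨ (x2 ≤ i ∧ i ≤ x1) → (i, y) ∈ S) :
    Relation.ReflTransGen (PStep (fun e => src e ∈ S ∧ tgt e ∈ S)) (x1, y) (x2, y) := by
  have key : ∀ n : ℕ, ∀ x : ℤ, (∀ i, x ≤ i → i ≤ x + n → (i, y) ∈ S) →
      Relation.ReflTransGen (PStep (fun e => src e ∈ S ∧ tgt e ∈ S)) (x, y) (x + n, y) := by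
    intro n
    induction n with
    | zero => intro x _; simp only [Nat.cast_zero, add_zero]; exact .refl
    | succ n ih =>
        intro x hx
        refine (ih x fun i h1 h2 => hx i h1 (by push_cast; omega)).tail ?_
        refine ⟨((x + n, y), false), ⟨?_, ?_⟩, Or.inl ⟨rfl, ?_⟩⟩
        · exact hx _ (by omega) (by push_cast; omega)
        · rw [tgt_h]
          exact hx _ (by omega) (by push_cast; omega)
        · rw [tgt_h]; ext <;> simp <;> ring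
  rcases le_total x1 x2 with h1 | h1
  · have := key (x2 - x1).toNat x1 fun i h2 h3 => h i (Or.inl ⟨h2, by omega⟩)
    rwa [show x1 + ((x2 - x1).toNat : ℤ) = x2 by omega] at this
  · have := key (x1 - x2).toNat x2 fun i h2 h3 => h i (Or.inr ⟨h2, by omega⟩)
    rw [show x2 + ((x1 - x2).toNat : ℤ) = x1 by omega] at this
    exact rtg_pstep_symm this

theorem vseg {S : Set P2} {x y1 y2 : ℤ} (h : ∀ i, (y1 ≤ i ∧ i ≤ y2) ∨ (y2 ≤ i ∧ i ≤ y1) → (x, i) ∈ S) :
    Relation.ReflTransGen (PStep (fun e => src e ∈ S ∧ tgt e ∈ S)) (x, y1) (x, y2) := by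
  have key : ∀ n : ℕ, ∀ y : ℤ, (∀ i, y ≤ i → i ≤ y + n → (x, i) ∈ S) →
      Relation.ReflTransGen (PStep (fun e => src e ∈ S ∧ tgt e ∈ S)) (x, y) (x, y + n) := by
    intro n
    induction n with
    | zero => intro y _; simp only [Nat.cast_zero, add_zero]; exact .refl
    | succ n ih =>
        intro y hy
        refine (ih y fun i h1 h2 => hy i h1 (by push_cast; omega)).tail ?_
        refine ⟨((x, y + n), true), ⟨?_, ?_⟩, Or.inl ⟨rfl, ?_⟩⟩
        · exact hy _ (by omega) (by push_cast; omega)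
        · rw [tgt_v]
          exact hy _ (by omega) (by push_cast; omega)
        · rw [tgt_v]; ext <;> simp <;> ring
  rcases le_total y1 y2 with h1 | h1
  · have := key (y2 - y1).toNat y1 fun i h2 h3 => h i (Or.inl ⟨h2, by omega⟩)
    rwa [show y1 + ((y2 - y1).toNat : ℤ) = y2 by omega] at this
  · have := key (y1 - y2).toNat y2 fun i h2 h3 => h i (Or.inr ⟨h2, by omega⟩)
    rw [show y2 + ((y1 - y2).toNat : ℤ) = y1 by omega] at this
    exact rtg_pstep_symm this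

/-- a path of faces -/
theorem face_path {S : Set P2} {f g : P2}
    (h : Relation.ReflTransGen (PStep (fun e => src e ∈ S ∧ tgt e ∈ S)) f g) :
    Relation.ReflTransGen (DStep (fun e => fA e ∈ S ∧ fB e ∈ S)) f g := by
  refine Relation.ReflTransGen.mono ?_ _ _ h
  intro a b hab
  rw [dstep_iff]
  obtain ⟨e, he, hh⟩ := hab
  refine ⟨e, ?_, hh⟩
  have h1 : fA (dE.symm e) = tgt e := by rw [← tgt_dE]; simp
  have h2 : fB (dE.symm e) = src e := by rw [← src_dE]; simp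
  show fA (dE.symm e) ∈ S ∧ fB (dE.symm e) ∈ S
  rw [h1, h2]
  exact ⟨he.2, he.1⟩

theorem oc_walk {z : Cf} {S : Set P2} {u a : P2} (h : OC z S u a) :
    Relation.ReflTransGen (PStep (fun e => z e = true ∧ src e ∈ S ∧ tgt e ∈ S)) u a := by
  refine Relation.ReflTransGen.mono ?_ _ _ h.2
  rintro p q ⟨⟨e, he, hh⟩, hp, hq⟩
  refine ⟨e, ⟨he, ?_⟩, hh⟩
  rcases hh with ⟨rfl, rfl⟩ | ⟨rfl, rfl⟩
  · exact ⟨hp, hq⟩
  · exact ⟨hq, hp⟩

theorem oc_dwalk {z : Cf} {S : Set P2} {f g : P2} (h : OC (dual z) S f g) :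
    Relation.ReflTransGen (DStep (fun e => z e = false ∧ fA e ∈ S ∧ fB e ∈ S)) f g := by
  refine Relation.ReflTransGen.mono ?_ _ _ h.2
  rintro p q ⟨hs, hp, hq⟩
  obtain ⟨e, he, hh⟩ := dstep_dual.2 hs
  refine ⟨e, ⟨by simpa using he, ?_⟩, hh⟩
  rcases hh with ⟨rfl, rfl⟩ | ⟨rfl, rfl⟩
  · exact ⟨hp, hq⟩
  · exact ⟨hq, hp⟩

/-- the faces of an edge are next to its end points -/
theorem face_src (e : Edge) :
    ((fA e).1 = (src e).1 ∧ (fA e).2 = (src e).2) ∧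
    ((src e).1 - 1 ≤ (fB e).1 ∧ (fB e).1 ≤ (src e).1 ∧ (src e).2 - 1 ≤ (fB e).2 ∧ (fB e).2 ≤ (src e).2) ∧
    ((src e).1 ≤ (tgt e).1 ∧ (tgt e).1 ≤ (src e).1 + 1 ∧ (src e).2 ≤ (tgt e).2 ∧
      (tgt e).2 ≤ (src e).2 + 1) := by
  obtain ⟨⟨x, y⟩, s⟩ := e
  cases s <;> simp

/-- an edge between two faces of the ring or of the box -/
theorem tb_of_faces {R : ℤ} (hR : 0 ≤ R) {e : Edge} (h1 : fA e ∈ FSq R) (h2 : fB e ∈ FSq R) :
    TB (-R) R (-R) R e := by
  obtain ⟨⟨x, y⟩, s⟩ := e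
  rw [mem_FSq] at h1 h2
  cases s
  · simp only [fA_mk, fB_h] at h1 h2
    simp only [TB, src_mk, tgt_h]
    omega
  · simp only [fA_mk, fB_v] at h1 h2
    simp only [TB, src_mk, tgt_v]
    omega

/-- blocks of far cells are disjoint -/
theorem bk_disj {n : ℕ} (hn : 1 ≤ n) {k k' : P2} {m m' F : ℤ} (hF : m + m' + 2 ≤ F) (h : FarN F k k') {p : P2}
    (h1 : p ∈ Bk n k m) (h2 : p ∈ Bk n k' m') : False := by
  rw [mem_Bk] at h1 h2
  have hn' : (0 : ℤ) < n := by exact_mod_cast hn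
  have key : ∀ x y : ℤ, x + F ≤ y → (x + m + 1) * n < (y - m') * n := by
    intro x y hxy
    exact mul_lt_mul_of_pos_right (by omega) hn'
  rcases h with h | h | h | h
  · have := key _ _ h; omega
  · have := mul_lt_mul_of_pos_right (show k'.1 + m' + 1 < k.1 - m by omega) hn'; omega
  · have := key _ _ h; omega
  · have := mul_lt_mul_of_pos_right (show k'.2 + m' + 1 < k.2 - m by omega) hn'; omega

/-- enlarging a block by one unit -/
theorem bk_grow {n : ℕ} (hn : 1 ≤ n) {k : P2} {m : ℤ} {p p' : P2} (h : p ∈ Bk n k m)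
    (h1 : p.1 - 1 ≤ p'.1) (h2 : p'.1 ≤ p.1 + 1) (h3 : p.2 - 1 ≤ p'.2) (h4 : p'.2 ≤ p.2 + 1) :
    p' ∈ Bk n k (m + 1) := by
  rw [mem_Bk] at h ⊢
  have hn' : (1 : ℤ) ≤ n := by exact_mod_cast hn
  have e1 : ∀ x : ℤ, (x - (m + 1)) * n = (x - m) * n - n := fun x => by ring
  have e2 : ∀ x : ℤ, (x + (m + 1) + 1) * n = (x + m + 1) * n + n := fun x => by ring
  rw [e1, e2, e1, e2]
  omega

theorem bk_mono {n : ℕ} {k : P2} {m m' : ℤ} (h : m ≤ m') : Bk n k m ⊆ Bk n k m' := by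
  intro p hp
  rw [mem_Bk] at hp ⊢
  have hn' : (0 : ℤ) ≤ n := by positivity
  have e1 : ∀ x : ℤ, (x - m') * n ≤ (x - m) * n := fun x => mul_le_mul_of_nonneg_right (by omega) hn'
  have e2 : ∀ x : ℤ, (x + m + 1) * n ≤ (x + m' + 1) * n := fun x =>
    mul_le_mul_of_nonneg_right (by omega) hn'
  have := e1 k.1
  have := e1 k.2
  have := e2 k.1
  have := e2 k.2
  omega


theorem fl_bk2 {n : ℕ} (hn : 1 ≤ n) {k : P2} {m : ℤ} {x p : P2} (h : x ∈ Bk n k m)
    (h1 : x.1 - 1 ≤ p.1) (h2 : p.1 ≤ x.1) (h3 : x.2 - 1 ≤ p.2) (h4 : p.2 ≤ x.2) :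
    ¬ FarN (m + 2) k (fl n p) := by
  rw [mem_Bk] at h
  have hn' : (1 : ℤ) ≤ n := by exact_mod_cast hn
  have b1 : ∀ y : ℤ, (y - m - 1) * n = (y - m) * n - n := fun y => by ring
  have a1 : k.1 - m - 1 ≤ p.1 / n := by
    rw [Int.le_ediv_iff_mul_le (by omega), b1]; omega
  have a3 : k.2 - m - 1 ≤ p.2 / n := by
    rw [Int.le_ediv_iff_mul_le (by omega), b1]; omega
  have a2 : p.1 / n ≤ k.1 + m + 1 := by
    have := Int.ediv_le_ediv (by omega : (0 : ℤ) < n) (show p.1 ≤ (k.1 + m + 1) * n by omega)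
    rwa [Int.mul_ediv_cancel _ (by omega)] at this
  have a4 : p.2 / n ≤ k.2 + m + 1 := by
    have := Int.ediv_le_ediv (by omega : (0 : ℤ) < n) (show p.2 ≤ (k.2 + m + 1) * n by omega)
    rwa [Int.mul_ediv_cancel _ (by omega)] at this
  rw [not_farN]
  unfold fl
  simp only
  omega

/-- the faces of a leaving edge are next to its boundary vertex -/
theorem out_near {x0 x1 y0 y1 : ℤ} {r : Edge} {x : P2} (h : Out x0 x1 y0 y1 r x) :
    (x.1 - 1 ≤ (fA r).1 ∧ (fA r).1 ≤ x.1 ∧ x.2 - 1 ≤ (fA r).2 ∧ (fA r).2 ≤ x.2) ∧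
    (x.1 - 1 ≤ (fB r).1 ∧ (fB r).1 ≤ x.1 ∧ x.2 - 1 ≤ (fB r).2 ∧ (fB r).2 ≤ x.2) := by
  obtain ⟨a, b⟩ := x
  unfold Out at h
  simp only at h
  rcases h with ⟨h1, h2, ⟨rfl, h3⟩ | ⟨rfl, h3⟩⟩ | ⟨h1, h2, ⟨rfl, h3⟩ | ⟨rfl, h3⟩⟩ <;>
    simp only [fA_mk, fB_h, fB_v] <;> omega

theorem cel_near {R : ℤ} (hR : 0 ≤ R) (w : ℤ) :
    (lv R w).1 - 1 ≤ (cel R w).1 ∧ (cel R w).1 ≤ (lv R w).1 ∧ (lv R w).2 - 1 ≤ (cel R w).2 ∧
      (cel R w).2 ≤ (lv R w).2 := by
  have h := out_near (out_le hR w)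
  rcases le_faces hR w with ⟨h1, _⟩ | ⟨_, h1⟩
  · rw [← h1]; exact h.1
  · rw [← h1]; exact h.2

theorem nr_cases {N : ℤ} {k : P2} (hk : nr k = N - 1) :
    (k.1 = N - 1 ∨ k.1 = -N ∨ k.2 = N - 1 ∨ k.2 = -N) ∧ -N ≤ k.1 ∧ k.1 ≤ N - 1 ∧ -N ≤ k.2 ∧
      k.2 ≤ N - 1 := by
  unfold nr at hk
  omega

theorem N_large {N g : ℤ} (hg : 15 ≤ g) {k k' : P2} (hk : nr k = N - 1) (hk' : nr k' = N - 1)
    (h : FarN g k k') : 8 ≤ N := by
  have h1 := nr_cases hk
  have h2 := nr_cases hk'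
  unfold FarN at h
  omega

/-- the blocks are away from the origin -/
theorem not_origin {n : ℕ} (hn : 1 ≤ n) {N : ℤ} (hN : 5 ≤ N) {k : P2} (hk : nr k = N - 1) {p : P2}
    (h1 : -1 ≤ p.1) (h2 : p.1 ≤ 1) (h3 : -1 ≤ p.2) (h4 : p.2 ≤ 1) : p ∉ Bk n k 2 := by
  intro h
  rw [mem_Bk] at h
  have hn' : (1 : ℤ) ≤ n := by exact_mod_cast hn
  have e1 : 2 * (n : ℤ) ≤ (N - 3) * n := mul_le_mul_of_nonneg_right (by omega) (by omega)
  obtain ⟨h5, _⟩ := nr_cases hk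
  rcases h5 with h5 | h5 | h5 | h5 <;> rw [h5] at h
  · have e2 : (N - 1 - 2) * (n : ℤ) = (N - 3) * n := by ring
    rw [e2] at h; omega
  · have e2 : (-N + 2 + 1) * (n : ℤ) = -((N - 3) * n) := by ring
    rw [e2] at h; omega
  · have e2 : (N - 1 - 2) * (n : ℤ) = (N - 3) * n := by ring
    rw [e2] at h; omega
  · have e2 : (-N + 2 + 1) * (n : ℤ) = -((N - 3) * n) := by ring
    rw [e2] at h; omega

/-- extension to the circle inside the landing block -/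
theorem ext_in {n : ℕ} {N : ℤ} {k : P2} (hk : nr k = N - 1) {a : P2} (ha : a ∈ Bk n k 1)
    (hS : a ∈ Sq (N * n)) : ∃ x ∈ Bk n k 1 ∩ Sq (N * n),
      (x.1 = N * n ∨ x.1 = -(N * n) ∨ x.2 = N * n ∨ x.2 = -(N * n)) ∧
      Relation.ReflTransGen (PStep (fun e => src e ∈ Bk n k 1 ∩ Sq (N * n) ∧
        tgt e ∈ Bk n k 1 ∩ Sq (N * n))) a x := by
  obtain ⟨a1, a2⟩ := a
  have ha' := ha
  have hS' := hS
  rw [mem_Bk] at ha
  rw [mem_Sq] at hS
  simp only at ha hS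
  have hn : (0 : ℤ) ≤ n := by positivity
  have e1 : (N - 1 - 1) * (n : ℤ) = N * n - 2 * n := by ring
  have e2 : (N - 1 + 1 + 1) * (n : ℤ) = N * n + n := by ring
  have e3 : (-N - 1) * (n : ℤ) = -(N * n) - n := by ring
  have e4 : (-N + 1 + 1) * (n : ℤ) = -(N * n) + 2 * n := by ring
  obtain ⟨h5, _⟩ := nr_cases hk
  rcases h5 with h5 | h5 | h5 | h5
  · have key : ∀ i, (a1 ≤ i ∧ i ≤ N * n) ∨ (N * n ≤ i ∧ i ≤ a1) → (i, a2) ∈ Bk n k 1 ∩ Sq (N * n) := by
      intro i hi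
      refine ⟨?_, ?_⟩
      · rw [mem_Bk]; rw [h5] at ha ⊢; rw [e1, e2] at ha ⊢; simp only; omega
      · rw [mem_Sq]; simp only; omega
    exact ⟨(N * n, a2), key _ (by omega), Or.inl rfl, hseg key⟩
  · have key : ∀ i, (a1 ≤ i ∧ i ≤ -(N * n)) ∨ (-(N * n) ≤ i ∧ i ≤ a1) →
        (i, a2) ∈ Bk n k 1 ∩ Sq (N * n) := by
      intro i hi
      refine ⟨?_, ?_⟩
      · rw [mem_Bk]; rw [h5] at ha ⊢; rw [e3, e4] at ha ⊢; simp only; omega
      · rw [mem_Sq]; simp only; omega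
    exact ⟨(-(N * n), a2), key _ (by omega), Or.inr (Or.inl rfl), hseg key⟩
  · have key : ∀ i, (a2 ≤ i ∧ i ≤ N * n) ∨ (N * n ≤ i ∧ i ≤ a2) → (a1, i) ∈ Bk n k 1 ∩ Sq (N * n) := by
      intro i hi
      refine ⟨?_, ?_⟩
      · rw [mem_Bk]; rw [h5] at ha ⊢; rw [e1, e2] at ha ⊢; simp only; omega
      · rw [mem_Sq]; simp only; omega
    exact ⟨(a1, N * n), key _ (by omega), Or.inr (Or.inr (Or.inl rfl)), vseg key⟩
  · have key : ∀ i, (a2 ≤ i ∧ i ≤ -(N * n)) ∨ (-(N * n) ≤ i ∧ i ≤ a2) →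
        (a1, i) ∈ Bk n k 1 ∩ Sq (N * n) := by
      intro i hi
      refine ⟨?_, ?_⟩
      · rw [mem_Bk]; rw [h5] at ha ⊢; rw [e3, e4] at ha ⊢; simp only; omega
      · rw [mem_Sq]; simp only; omega
    exact ⟨(a1, -(N * n)), key _ (by omega), Or.inr (Or.inr (Or.inr rfl)), vseg key⟩

/-- extension of a dual arm to the ring of faces -/
theorem ext_inD {n : ℕ} (hn1 : 1 ≤ n) {N : ℤ} {k : P2} (hk : nr k = N - 1) {a : P2} (ha : a ∈ Bk n k 1)
    (hS : a ∈ FSq (N * n)) : ∃ x ∈ Bk n k 1 ∩ FSq (N * n), Rg (N * n) x ∧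
      Relation.ReflTransGen (DStep (fun e => fA e ∈ Bk n k 1 ∩ FSq (N * n) ∧
        fB e ∈ Bk n k 1 ∩ FSq (N * n))) a x := by
  obtain ⟨a1, a2⟩ := a
  rw [mem_Bk] at ha
  rw [mem_FSq] at hS
  simp only at ha hS
  have hn : (1 : ℤ) ≤ n := by exact_mod_cast hn1
  have e1 : (N - 1 - 1) * (n : ℤ) = N * n - 2 * n := by ring
  have e2 : (N - 1 + 1 + 1) * (n : ℤ) = N * n + n := by ring
  have e3 : (-N - 1) * (n : ℤ) = -(N * n) - n := by ring
  have e4 : (-N + 1 + 1) * (n : ℤ) = -(N * n) + 2 * n := by ring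
  obtain ⟨h5, _⟩ := nr_cases hk
  rcases h5 with h5 | h5 | h5 | h5
  · have key : ∀ i, (a1 ≤ i ∧ i ≤ N * n) ∨ (N * n ≤ i ∧ i ≤ a1) → (i, a2) ∈ Bk n k 1 ∩ FSq (N * n) := by
      intro i hi
      refine ⟨?_, ?_⟩
      · rw [mem_Bk]; rw [h5] at ha ⊢; rw [e1, e2] at ha ⊢; simp only; omega
      · rw [mem_FSq]; simp only; omega
    refine ⟨(N * n, a2), key _ (by omega), ⟨⟨?_, ?_, ?_, ?_⟩, Or.inl rfl⟩, face_path (hseg key)⟩ <;>
      simp only <;> omega
  · have key : ∀ i, (a1 ≤ i ∧ i ≤ -1 - N * n) ∨ (-1 - N * n ≤ i ∧ i ≤ a1) →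
        (i, a2) ∈ Bk n k 1 ∩ FSq (N * n) := by
      intro i hi
      refine ⟨?_, ?_⟩
      · rw [mem_Bk]; rw [h5] at ha ⊢; rw [e3, e4] at ha ⊢; simp only; omega
      · rw [mem_FSq]; simp only; omega
    refine ⟨(-1 - N * n, a2), key _ (by omega), ⟨⟨?_, ?_, ?_, ?_⟩, Or.inr (Or.inl rfl)⟩,
      face_path (hseg key)⟩ <;> simp only <;> omega
  · have key : ∀ i, (a2 ≤ i ∧ i ≤ N * n) ∨ (N * n ≤ i ∧ i ≤ a2) → (a1, i) ∈ Bk n k 1 ∩ FSq (N * n) := by
      intro i hi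
      refine ⟨?_, ?_⟩
      · rw [mem_Bk]; rw [h5] at ha ⊢; rw [e1, e2] at ha ⊢; simp only; omega
      · rw [mem_FSq]; simp only; omega
    refine ⟨(a1, N * n), key _ (by omega), ⟨⟨?_, ?_, ?_, ?_⟩, Or.inr (Or.inr (Or.inl rfl))⟩,
      face_path (vseg key)⟩ <;> simp only <;> omega
  · have key : ∀ i, (a2 ≤ i ∧ i ≤ -1 - N * n) ∨ (-1 - N * n ≤ i ∧ i ≤ a2) →
        (a1, i) ∈ Bk n k 1 ∩ FSq (N * n) := by
      intro i hi
      refine ⟨?_, ?_⟩
      · rw [mem_Bk]; rw [h5] at ha ⊢; rw [e3, e4] at ha ⊢; simp only; omega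
      · rw [mem_FSq]; simp only; omega
    refine ⟨(a1, -1 - N * n), key _ (by omega), ⟨⟨?_, ?_, ?_, ?_⟩, Or.inr (Or.inr (Or.inr rfl))⟩,
      face_path (vseg key)⟩ <;> simp only <;> omega

end Crest.Agent.R158.Sr200
end
end

-- ▼ part R158/Sq6_200

/-!
# Row 158, SEP leaf L2-in (helper200)

`uin_alt` : if `Uin e (N n) n k1 k2 k3 k4` occurs (cells of the ring `N-1`, pairwise far), the four cells
alternate: `Gd` (counterclockwise) or `Gd'` (clockwise) in 874's coordinates.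
-/

set_option autoImplicit false

noncomputable section

namespace Crest.Agent.R158.Sr200

open Crest.Agent.R161.Geo729 Crest.Agent.R161.Topo374 Crest.Agent.R161.Dual374
open Crest.Agent.R161.Tas682 hiding Sq
open Crest.Agent.R158.Rs689
open Crest.Agent.R158.Kd458 Finset
open Crest.Agent.R158.Sp874 (FarN nr Gd Gd')
open Crest.Agent.R158.Sp580
open Crest.Agent.R158.Ru874 (frc frc_self frc_ne)

theorem sum4 {N1 N2 N3 N4 : Edge → ZMod 2} {e : Edge} {s t a b x x' : P2}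
    (h1 : ∀ v, star N1 v = ind (v = s) + ind (v = a)) (h2 : ∀ v, star N2 v = ind (v = a) + ind (v = x))
    (h3 : ∀ v, star N3 v = ind (v = t) + ind (v = b)) (h4 : ∀ v, star N4 v = ind (v = b) + ind (v = x'))
    (hs : s = src e) (ht : t = tgt e) (v : P2) :
    star (fun e' => ((N1 e' + N2 e') + (N3 e' + N4 e')) + dl e e') v = ind (v = x) + ind (v = x') := by
  rw [star_add, star_add, star_add, star_add, h1, h2, h3, h4, star_dl, hs, ht]
  have z1 := zmod2_add_self (ind (v = src e))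
  have z2 := zmod2_add_self (ind (v = tgt e))
  have z3 := zmod2_add_self (ind (v = a))
  have z4 := zmod2_add_self (ind (v = b))
  linear_combination z1 + z2 + z3 + z4

theorem zero_of_not {N : Edge → ZMod 2} {Z : Edge → Prop} (h : ∀ e, N e ≠ 0 → Z e) {e : Edge} (hz : ¬ Z e) :
    N e = 0 := by
  by_contra h'
  exact hz (h e h')

set_option maxHeartbeats 2000000 in
/-- **L2-in.** -/
theorem uin_alt {e : Edge} (he : src e = (0, 0)) {n : ℕ} (hn : 1 ≤ n) {N g : ℤ} (hg : 15 ≤ g)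
    {k1 k2 k3 k4 : P2} (h1 : nr k1 = N - 1) (h2 : nr k2 = N - 1) (h3 : nr k3 = N - 1) (h4 : nr k4 = N - 1)
    (f12 : FarN g k1 k2) (f23 : FarN g k2 k3) (f34 : FarN g k3 k4) (f41 : FarN g k4 k1)
    (f13 : FarN g k1 k3) {z : Cf} (hz : z ∈ Uin e (N * n) n k1 k2 k3 k4) :
    ∃ w : Fin 4 → ℤ, Sp874.cl (N - 1) (w 0) = k1 ∧ Sp874.cl (N - 1) (w 1) = k2 ∧
      Sp874.cl (N - 1) (w 2) = k3 ∧ Sp874.cl (N - 1) (w 3) = k4 ∧
      (Gd (N - 1) g w ∨ Gd' (N - 1) g w) := by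
  have hN : 8 ≤ N := N_large hg h1 h2 f12
  have hn' : (1 : ℤ) ≤ n := by exact_mod_cast hn
  have hR : 0 ≤ N * (n : ℤ) := by positivity
  have hR5 : 5 ≤ N * (n : ℤ) := by nlinarith
  have hsym : ∀ {k k' : P2}, FarN g k k' → FarN g k' k := fun h => by unfold FarN at *; omega
  obtain ⟨⟨⟨a, ha, hu⟩, ⟨b, hb, hv⟩⟩, ⟨f, hf, hd1⟩, ⟨f', hf', hd2⟩⟩ := hz
  obtain ⟨x, ⟨hx1, hx2⟩, hx3, hx4⟩ := ext_in h1 ha hu.right.1
  obtain ⟨x', ⟨hx1', hx2'⟩, hx3', hx4'⟩ := ext_in h3 hb hv.right.1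
  obtain ⟨y, ⟨hy1, hy2⟩, hy3, hy4⟩ := ext_inD hn h2 hf hd1.right.1
  obtain ⟨y', ⟨hy1', hy2'⟩, hy3', hy4'⟩ := ext_inD hn h4 hf' hd2.right.1
  rw [mem_Sq] at hx2 hx2'
  obtain ⟨A, -, -, hA⟩ := exists_lv hR hx2 hx3 0
  obtain ⟨B, hB1, hB2, hB⟩ := exists_lv hR hx2' hx3' A
  obtain ⟨c, hc1, hc2, hc⟩ := exists_cel hR hy3 A
  obtain ⟨d, hd1', hd2', hd⟩ := exists_cel hR hy3' A
  -- chains
  obtain ⟨N1, m1, s1⟩ := walk_parity (oc_walk hu)
  obtain ⟨N2, m2, s2⟩ := walk_parity hx4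
  obtain ⟨N3, m3, s3⟩ := walk_parity (oc_walk hv)
  obtain ⟨N4, m4, s4⟩ := walk_parity hx4'
  set M : Edge → ZMod 2 := fun e' => ((N1 e' + N2 e') + (N3 e' + N4 e')) + dl e e' with hM
  have hMz : ∀ e', N1 e' = 0 → N2 e' = 0 → N3 e' = 0 → N4 e' = 0 → e' ≠ e → M e' = 0 := by
    intro e' p1 p2 p3 p4 p5
    simp only [hM, p1, p2, p3, p4, dl, ind_false p5, add_zero]
  have hstar : ∀ v, star M v = ind (v = lv (N * n) A) + ind (v = lv (N * n) B) := by
    intro v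
    rw [hA, hB]
    exact sum4 s1 s2 s3 s4 rfl rfl v
  have hsupp : ∀ e', M e' ≠ 0 → IB (-(N * n)) (N * n) (-(N * n)) (N * n) e' := by
    intro e' h
    by_contra hc'
    apply h
    apply hMz
    · exact zero_of_not m1 fun hh => hc' ⟨hh.2.1.1, hh.2.2.1⟩
    · exact zero_of_not m2 fun hh => hc' ⟨hh.1.2, hh.2.2⟩
    · exact zero_of_not m3 fun hh => hc' ⟨hh.2.1.1, hh.2.2.1⟩
    · exact zero_of_not m4 fun hh => hc' ⟨hh.1.2, hh.2.2⟩
    · rintro rfl
      apply hc'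
      have hf0 := (face_src e').2.2
      rw [he] at hf0
      simp only at hf0
      constructor
      · rw [he]; simp only; omega
      · omega
  obtain ⟨K, hK1, hK2⟩ := par (by omega) (by omega) (out_le hR A) (out_le hR B) hsupp hstar
  -- faces of the leaving edges
  have hleA : ∀ k' m, FarN g k' k1 → m ≤ 11 → ∀ p, (p = fA (le (N * n) A) ∨ p = fB (le (N * n) A)) →
      p ∉ Bk n k' m ∧ p ∈ Bk n k1 2 := by
    intro k' m hk' hm p hp
    have ho := out_near (out_le hR A)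
    rw [hA] at ho
    have hp2 : p ∈ Bk n k1 2 := by
      rcases hp with rfl | rfl
      · exact bk_grow hn hx1 (by omega) (by omega) (by omega) (by omega)
      · exact bk_grow hn hx1 (by omega) (by omega) (by omega) (by omega)
    exact ⟨fun h => bk_disj hn (by omega) hk' h hp2, hp2⟩
  have hleB : ∀ k' m, FarN g k' k3 → m ≤ 11 → ∀ p, (p = fA (le (N * n) B) ∨ p = fB (le (N * n) B)) →
      p ∉ Bk n k' m ∧ p ∈ Bk n k3 2 := by
    intro k' m hk' hm p hp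
    have ho := out_near (out_le hR B)
    rw [hB] at ho
    have hp2 : p ∈ Bk n k3 2 := by
      rcases hp with rfl | rfl
      · exact bk_grow hn hx1' (by omega) (by omega) (by omega) (by omega)
      · exact bk_grow hn hx1' (by omega) (by omega) (by omega) (by omega)
    exact ⟨fun h => bk_disj hn (by omega) hk' h hp2, hp2⟩
  have jump0 : ∀ e', fA e' ∈ FSq (N * n) → fB e' ∈ FSq (N * n) → M e' = 0 → e' ≠ le (N * n) A →
      e' ≠ le (N * n) B → K (fA e') + K (fB e') = 0 := by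
    intro e' p1 p2 p3 p4 p5
    rcases TB_cases (by omega) (by omega) (tb_of_faces hR p1 p2) with h | ⟨v, h⟩
    · rw [hK2 e' h, p3]
    · rw [hK1 e' v h]
      simp only [dl, ind_false p4, ind_false p5, add_zero]
  -- the arms
  have C1 : ∀ e', (frc e true z e' = false ∧ fA e' ∈ FSq (N * n) \ Bk2 n k1 k3 8 ∧
      fB e' ∈ FSq (N * n) \ Bk2 n k1 k3 8) → K (fA e') + K (fB e') = 0 := by
    rintro e' ⟨p1, ⟨p2, p3⟩, p4, p5⟩
    have hne : e' ≠ e := by
      rintro rfl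
      rw [frc_self] at p1
      exact absurd p1 (by simp)
    have hz0 : frc e false z e' = false := by
      rw [frc_ne hne] at p1 ⊢
      exact p1
    have hface : ∀ k', (k' = k1 ∨ k' = k3) → src e' ∉ Bk n k' 1 := by
      intro k' hk' hh
      apply p3
      have : fA e' ∈ Bk n k' 8 :=
        bk_mono (by norm_num) (bk_grow hn hh (by have := (face_src e').1; omega)
          (by have := (face_src e').1; omega) (by have := (face_src e').1; omega)
          (by have := (face_src e').1; omega))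
      rcases hk' with rfl | rfl
      · exact Or.inl this
      · exact Or.inr this
    refine jump0 e' p2 p4 (hMz e' ?_ ?_ ?_ ?_ hne) ?_ ?_
    · exact zero_of_not m1 fun hh => by rw [hz0] at hh; exact absurd hh.1 (by simp)
    · exact zero_of_not m2 fun hh => hface k1 (Or.inl rfl) hh.1.1
    · exact zero_of_not m3 fun hh => by rw [hz0] at hh; exact absurd hh.1 (by simp)
    · exact zero_of_not m4 fun hh => hface k3 (Or.inr rfl) hh.1.1
    · rintro rfl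
      exact p3 (Or.inl (bk_mono (by norm_num) (hleA k3 1 (hsym f13) (by norm_num) _ (Or.inl rfl)).2))
    · rintro rfl
      exact p3 (Or.inr (bk_mono (by norm_num) (hleB k1 1 f13 (by norm_num) _ (Or.inl rfl)).2))
  have C2 : ∀ k', (k' = k2 ∨ k' = k4) → nr k' = N - 1 → FarN g k' k1 → FarN g k' k3 → ∀ e',
      (fA e' ∈ Bk n k' 1 ∩ FSq (N * n) ∧ fB e' ∈ Bk n k' 1 ∩ FSq (N * n)) →
      K (fA e') + K (fB e') = 0 := by
    rintro k' hk' hnr g1 g3 e' ⟨⟨p1, p2⟩, p3, p4⟩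
    have hsrc : src e' ∈ Bk n k' 2 :=
      bk_grow hn p1 (by have := (face_src e').1; omega)
          (by have := (face_src e').1; omega) (by have := (face_src e').1; omega)
          (by have := (face_src e').1; omega)
    have hs8 : src e' ∉ Sq (N * n) \ Bk2 n k2 k4 8 := by
      rintro ⟨_, hh⟩
      apply hh
      rcases hk' with rfl | rfl
      · exact Or.inl (bk_mono (by norm_num) hsrc)
      · exact Or.inr (bk_mono (by norm_num) hsrc)
    refine jump0 e' p2 p4 (hMz e' ?_ ?_ ?_ ?_ ?_) ?_ ?_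
    · exact zero_of_not m1 fun hh => hs8 hh.2.1
    · exact zero_of_not m2 fun hh => bk_disj hn (by omega) g1 hsrc hh.1.1
    · exact zero_of_not m3 fun hh => hs8 hh.2.1
    · exact zero_of_not m4 fun hh => bk_disj hn (by omega) g3 hsrc hh.1.1
    · rintro rfl
      rw [he] at hsrc
      exact not_origin hn (by omega) hnr (by simp) (by simp) (by simp) (by simp) hsrc
    · rintro rfl
      exact (hleA k' 1 g1 (by norm_num) _ (Or.inl rfl)).1 p1
    · rintro rfl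
      exact (hleB k' 1 g3 (by norm_num) _ (Or.inl rfl)).1 p1
  have e1 : K (fA e) = K y :=
    (dual_const C1 (oc_dwalk hd1)).trans
      (dual_const (C2 k2 (Or.inl rfl) h2 (hsym f12) f23) hy4)
  have e2 : K (fB e) = K y' :=
    (dual_const C1 (oc_dwalk hd2)).trans
      (dual_const (C2 k4 (Or.inr rfl) h4 f41 (hsym f34)) hy4')
  have hMe : M e = 1 := by
    have ho : ∀ k', nr k' = N - 1 → src e ∉ Bk n k' 1 := fun k' hk' hh =>
      not_origin hn (by omega) hk' (by rw [he]; simp) (by rw [he]; simp) (by rw [he]; simp)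
        (by rw [he]; simp) (bk_mono (by norm_num) hh)
    have hz0 : frc e false z e = false := frc_self _ _ _
    have q1 : N1 e = 0 := zero_of_not m1 fun hh => by rw [hz0] at hh; exact absurd hh.1 (by simp)
    have q2 : N2 e = 0 := zero_of_not m2 fun hh => ho k1 h1 hh.1.1
    have q3 : N3 e = 0 := zero_of_not m3 fun hh => by rw [hz0] at hh; exact absurd hh.1 (by simp)
    have q4 : N4 e = 0 := zero_of_not m4 fun hh => ho k3 h3 hh.1.1
    simp only [hM, q1, q2, q3, q4, dl, zero_add]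
    exact ind_true trivial
  have hIBe : IB (-(N * n)) (N * n) (-(N * n)) (N * n) e := hsupp e (by rw [hMe]; decide)
  have hj := hK2 e hIBe
  rw [hMe, e1, e2, ← hc, ← hd] at hj
  have hne : K (cel (N * n) c) ≠ K (cel (N * n) d) := by
    intro h
    rw [h, zmod2_add_self] at hj
    exact absurd hj (by decide)
  have hAB : A < B := by
    rcases hB1.lt_or_eq with h | h
    · exact h
    · exfalso
      have : x = x' := by rw [← hA, ← hB, h]
      exact bk_disj hn (by omega) f13 hx1 (this ▸ hx1')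
  have hs := col_sep hR hAB hB2 hK1 hc1 hc2 hd1' hd2' hne
  refine order_both (by omega) (by omega) hg h1 h2 h3 h4 f12 f23 f34 f41 hc1 hc2 hd1' hd2' hs ?_ ?_ ?_ ?_
  · have := cel_near hR A
    rw [hA] at this
    exact fl_bk2 hn hx1 this.1 this.2.1 this.2.2.1 this.2.2.2
  · rw [hc]
    exact fl_bk2 hn hy1 (by omega) le_rfl (by omega) le_rfl
  · have := cel_near hR B
    rw [hB] at this
    exact fl_bk2 hn hx1' this.1 this.2.1 this.2.2.1 this.2.2.2
  · rw [hd]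
    exact fl_bk2 hn hy1' (by omega) le_rfl (by omega) le_rfl

end Crest.Agent.R158.Sr200
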