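import Crest.Agent.R158.Wf2_850
import Crest.Agent.R158.Vx2_107
import Crest.Agent.R158.Hd1_109
import Crest.Agent.R158.Vx4_107
import Crest.Agent.R158.Lc4_522

-- ▼ part R158/Wf3_850
section

/-!
# Row 158, BLOCK W (helper850), part 3: concentric systems of charges

* `Sys J C D σ τ κ u` : densities `u i`, `i ≤ J`, supported in `BF σ_i \ BF τ_i`, `σ_i ≤ τ_{i+1}`
* `sp z j` : loops around `BF σ_j` inside `BF τ_{j+1}` (their number is `NN σ_j τ_{j+1}`)
* `W_eq` : `W = ∏_j ff (c_0 + .. + c_j) ^ NN_j * ∏ over the rest`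
* `W_le`, `W_ge` : the deterministic bounds
* `cover_count` : a majorant with exponential moments of the number of exceptional loops
* `sys_bd` : **the bounds with an error having all exponential moments**
-/

set_option autoImplicit false

noncomputable section

namespace Crest.Agent.R158.Wf850

open Real Finset MeasureTheory
open Crest.Agent.R161.Geo729 Crest.Agent.R161.Tas682
open Crest.Agent.R158.Rs689 (nu hf PB Dep)
open Crest.Agent.R158.It200 (Cfz Corner fc fc_zero)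
open Crest.Agent.R158.We297 (ff)
open Crest.Agent.R158.Cn109 (DepF lsW SS QQ smalls mem_smalls SS_eq VV)
open Crest.Agent.R158.Vx107 (mass W Ntr Fw)
open Crest.Agent.R158.Hd109 (Dens Err)

/-- system of concentric densities -/
structure Sys (J : ℕ) (C : ℝ) (D : ℕ) (σ τ : ℕ → ℤ) (κ : ℕ → ℕ) (u : ℕ → Face →₀ ℝ) : Prop where
  s0 : 1 ≤ σ 0
  lt : ∀ i ≤ J, τ i < σ i
  mo : ∀ i < J, σ i ≤ τ (i + 1)
  k1 : ∀ i ≤ J, (2 : ℤ) ^ κ i ≤ 2 * σ i
  k2 : ∀ i ≤ J, 1 ≤ i → (2 : ℤ) ^ κ i ≤ τ i + 2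
  k3 : ∀ i ≤ J, σ i ≤ D * (2 : ℤ) ^ κ i
  dens : ∀ i ≤ J, Dens C (κ i) (u i).support (u i)
  sub : ∀ i ≤ J, ∀ v, u i v ≠ 0 → v ∈ BF (0, 0) (σ i) ∧ v ∉ BF (0, 0) (τ i)

/-- the charge -/
def mm (J : ℕ) (c : ℕ → ℝ) (u : ℕ → Face →₀ ℝ) : Face →₀ ℝ := ∑ i ∈ range (J + 1), c i • u i

open Classical in
/-- loops between two boxes -/
def spc (r R : ℤ) (z : Cfz) : Finset (Finset Face) :=
  (BF (0, 0) R).powerset.filter fun A => BF (0, 0) r ⊆ A ∧ A ∈ Lps z

theorem card_spc (r R : ℤ) (z : Cfz) : (spc r R z).card = NN (0, 0) r R z := rfl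

theorem mem_spc {r R : ℤ} {z : Cfz} {A : Finset Face} :
    A ∈ spc r R z ↔ A ⊆ BF (0, 0) R ∧ BF (0, 0) r ⊆ A ∧ A ∈ Lps z := by
  classical
  unfold spc
  rw [Finset.mem_filter, Finset.mem_powerset]

/-- the face at distance `n` -/
theorem far_mem {n : ℤ} (hn : 0 ≤ n) : (((n, 0), false) : Face) ∈ BF (0, 0) n := by
  rw [mem_BF, sd_le]; simp [hn]

theorem far_mem' {n : ℤ} (hn : 0 ≤ n) : (((-n, 0), false) : Face) ∈ BF (0, 0) n := by
  rw [mem_BF, sd_le]; simp [hn]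

theorem far_notMem {n m : ℤ} (h : m < n) : (((n, 0), false) : Face) ∉ BF (0, 0) m := by
  rw [mem_BF]
  intro h2
  have h3 := (sd_le.1 h2).2.1
  dsimp only at h3
  linarith

theorem not_BF_sub {n m : ℤ} (hn : 0 ≤ n) (h : m < n) : ¬ BF (0, 0) n ⊆ BF (0, 0) m :=
  fun h2 => far_notMem h (h2 (far_mem hn))

theorem dia_of_BF {n : ℤ} (hn : 0 ≤ n) {A : Finset Face} (h : BF (0, 0) n ⊆ A) :
    2 * n ≤ dia A := by
  have h1 := sd_le_dia (h (far_mem' hn)) (h (far_mem hn))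
  refine le_trans ?_ h1
  unfold sd
  refine le_trans ?_ (le_max_left _ _)
  dsimp only
  rw [show n - -n = 2 * n by ring]
  exact le_abs_self _

namespace Sys

variable {J : ℕ} {C : ℝ} {D : ℕ} {σ τ : ℕ → ℤ} {κ : ℕ → ℕ} {u : ℕ → Face →₀ ℝ}
  (H : Sys J C D σ τ κ u)

include H

theorem smo {i j : ℕ} (hij : i ≤ j) (hj : j ≤ J) : σ i ≤ σ j := by
  induction j, hij using Nat.le_induction with
  | base => exact le_rfl
  | succ j _ ih =>
      have h1 := H.mo j (by omega)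
      have h2 := H.lt (j + 1) hj
      linarith [ih (by omega)]

theorem tmo {i j : ℕ} (hij : i ≤ j) (hj : j ≤ J) : τ i ≤ τ j := by
  induction j, hij using Nat.le_induction with
  | base => exact le_rfl
  | succ j _ ih =>
      have h1 := H.mo j (by omega)
      have h2 := H.lt j (by omega)
      linarith [ih (by omega)]

theorem pos {i : ℕ} (hi : i ≤ J) : 1 ≤ σ i := H.s0.trans (H.smo (Nat.zero_le i) hi)

theorem mass_nonneg {i : ℕ} (hi : i ≤ J) (A : Finset Face) : 0 ≤ mass (u i) A := by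
  refine sum_nonneg fun f _ => ?_
  by_cases h : u i f = 0
  · rw [h]
  · exact (H.dens i hi).nn f (Finsupp.mem_support_iff.2 h)

omit H in
theorem mass_eq {i : ℕ} (A : Finset Face) : mass (u i) A = Cn109.mass (u i) (u i).support A := by
  classical
  unfold mass Cn109.mass
  symm
  refine sum_subset_zero_on_sdiff (fun f hf => (mem_filter.1 hf).2) (fun f hf => ?_) fun _ _ => rfl
  rw [mem_sdiff, mem_filter, not_and_or] at hf
  rcases hf.2 with h | h
  · exact Finsupp.notMem_support_iff.1 h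
  · exact absurd hf.1 h

theorem mass_le_one {i : ℕ} (hi : i ≤ J) (A : Finset Face) : mass (u i) A ≤ 1 := by
  rw [Sys.mass_eq, ← (H.dens i hi).sum]
  exact sum_le_sum_of_subset_of_nonneg (filter_subset _ _) fun f hf _ => (H.dens i hi).nn f hf

theorem mass_one {i j : ℕ} (hij : i ≤ j) (hj : j ≤ J) {A : Finset Face}
    (h : BF (0, 0) (σ j) ⊆ A) : mass (u i) A = 1 := by
  rw [Sys.mass_eq, ← (H.dens i (hij.trans hj)).sum]
  unfold Cn109.mass
  rw [filter_true_of_mem]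
  intro v hv
  exact h (BF_mono (H.smo hij hj) (H.sub i (hij.trans hj) v (Finsupp.mem_support_iff.1 hv)).1)

theorem mass_zero {i j : ℕ} (hij : j ≤ i) (hi : i ≤ J) {A : Finset Face}
    (h : A ⊆ BF (0, 0) (τ j)) : mass (u i) A = 0 := by
  refine sum_eq_zero fun f hf => ?_
  by_contra hne
  exact (H.sub i hi f hne).2 (BF_mono (H.tmo hij hi) (h hf))

end Sys

/-- all loops which split the largest box -/
def al (n : ℤ) (z : Cfz) : Finset (Finset Face) := (fin_split z (0, 0) n).toFinset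

theorem mem_al {n : ℤ} {z : Cfz} {A : Finset Face} :
    A ∈ al n z ↔ A ∈ Lps z ∧ Splits A (BF (0, 0) n) := by
  unfold al
  rw [Set.Finite.mem_toFinset]
  exact Iff.rfl

theorem mass_mm (J : ℕ) (c : ℕ → ℝ) (u : ℕ → Face →₀ ℝ) (A : Finset Face) :
    mass (mm J c u) A = ∑ i ∈ range (J + 1), c i * mass (u i) A := by
  unfold mm
  have h : ∀ s : Finset ℕ, mass (∑ i ∈ s, c i • u i) A = ∑ i ∈ s, c i * mass (u i) A := by
    intro s
    classical
    induction s using Finset.induction_on with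
    | empty => unfold mass; simp
    | insert i s hi ih =>
        rw [sum_insert hi, sum_insert hi, Vx107.mass_add, Vx107.mass_smul, ih]
  exact h _

theorem ntr_mm {J : ℕ} {C : ℝ} {D : ℕ} {σ τ : ℕ → ℤ} {κ : ℕ → ℕ} {u : ℕ → Face →₀ ℝ}
    (H : Sys J C D σ τ κ u) {c : ℕ → ℝ} (hc : ∑ i ∈ range (J + 1), c i = 0) :
    Ntr (mm J c u) := by
  classical
  unfold Ntr mm
  have h : ∀ s : Finset ℕ, Vx107.tot (∑ i ∈ s, c i • u i) = ∑ i ∈ s, c i * Vx107.tot (u i) := by
    intro s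
    induction s using Finset.induction_on with
    | empty => unfold Vx107.tot; simp
    | insert i s hi ih => rw [sum_insert hi, sum_insert hi, Vx107.tot_add, Vx107.tot_smul, ih]
  rw [h, ← hc]
  refine sum_congr rfl fun i hi => ?_
  have h1 : Vx107.tot (u i) = 1 := (H.dens i (by rw [mem_range] at hi; omega)).sum
  rw [h1, mul_one]

theorem supp_mm {J : ℕ} {C : ℝ} {D : ℕ} {σ τ : ℕ → ℤ} {κ : ℕ → ℕ} {u : ℕ → Face →₀ ℝ}
    (H : Sys J C D σ τ κ u) (c : ℕ → ℝ) : (mm J c u).support ⊆ BF (0, 0) (σ J) := by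
  intro f hf
  by_contra hcon
  rw [Finsupp.mem_support_iff] at hf
  apply hf
  unfold mm
  rw [Finsupp.finsetSum_apply]
  refine sum_eq_zero fun i hi => ?_
  have hi' : i ≤ J := by rw [mem_range] at hi; omega
  have h0 : u i f = 0 := by
    by_contra hne
    exact hcon (BF_mono (H.smo hi' le_rfl) (H.sub i hi' f hne).1)
  rw [Finsupp.smul_apply, h0, smul_zero]

theorem Fw_eq (x : ℝ) : Fw x = ff x := rfl

open Classical in
/-- the special loops -/
def spz (J : ℕ) (σ τ : ℕ → ℤ) (z : Cfz) : Finset (Finset Face) :=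
  (range J).biUnion fun j => spc (σ j) (τ (j + 1)) z

open Classical in
/-- the other loops -/
def rst (J : ℕ) (σ τ : ℕ → ℤ) (z : Cfz) : Finset (Finset Face) := al (σ J) z \ spz J σ τ z

theorem mem_rst {J : ℕ} {σ τ : ℕ → ℤ} {z : Cfz} {A : Finset Face} :
    A ∈ rst J σ τ z ↔ (A ∈ Lps z ∧ Splits A (BF (0, 0) (σ J))) ∧
      ∀ j < J, ¬ (A ⊆ BF (0, 0) (τ (j + 1)) ∧ BF (0, 0) (σ j) ⊆ A) := by
  classical
  unfold rst spz
  rw [mem_sdiff, mem_al, mem_biUnion]
  constructor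
  · rintro ⟨h1, h2⟩
    refine ⟨h1, fun j hj h3 => h2 ⟨j, mem_range.2 hj, mem_spc.2 ⟨h3.1, h3.2, h1.1⟩⟩⟩
  · rintro ⟨h1, h2⟩
    refine ⟨h1, ?_⟩
    rintro ⟨j, hj, h3⟩
    rw [mem_spc] at h3
    exact h2 j (mem_range.1 hj) ⟨h3.1, h3.2.1⟩

/-- partial sums of the charges -/
def cs (c : ℕ → ℝ) (j : ℕ) : ℝ := ∑ i ∈ range (j + 1), c i

theorem spc_sub_al {J : ℕ} {C : ℝ} {D : ℕ} {σ τ : ℕ → ℤ} {κ : ℕ → ℕ} {u : ℕ → Face →₀ ℝ}
    (H : Sys J C D σ τ κ u) {j : ℕ} (hj : j < J) (z : Cfz) :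
    spc (σ j) (τ (j + 1)) z ⊆ al (σ J) z := by
  intro A hA
  rw [mem_spc] at hA
  rw [mem_al]
  have hp := H.pos (i := j) (by omega)
  refine ⟨hA.2.2, ⟨_, BF_mono (H.smo (by omega) le_rfl) (far_mem (n := σ j) (by linarith)),
    hA.2.1 (far_mem (by linarith))⟩, ⟨_, far_mem (n := σ J) (by linarith [H.pos (le_refl J)]), ?_⟩⟩
  intro h
  refine far_notMem ?_ (hA.1 h)
  have h1 := H.lt (j + 1) (by omega)
  have h2 := H.smo (i := j + 1) (j := J) (by omega) le_rfl
  linarith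

theorem W_eq {J : ℕ} {C : ℝ} {D : ℕ} {σ τ : ℕ → ℤ} {κ : ℕ → ℕ} {u : ℕ → Face →₀ ℝ}
    (H : Sys J C D σ τ κ u) {c : ℕ → ℝ} (hc : ∑ i ∈ range (J + 1), c i = 0) (z : Cfz) :
    W (mm J c u) z = (∏ j ∈ range J, ff (cs c j) ^ NN (0, 0) (σ j) (τ (j + 1)) z) *
      ∏ A ∈ rst J σ τ z, ff (∑ i ∈ range (J + 1), c i * mass (u i) A) := by
  classical
  have h1 : W (mm J c u) z = ∏ A ∈ al (σ J) z, Fw (mass (mm J c u) A) := by
    unfold W
    refine finprod_mem_eq_prod_of_inter_mulSupport_eq _ ?_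
    ext A
    constructor
    · rintro ⟨h2, h3⟩
      refine ⟨?_, h3⟩
      rw [Finset.mem_coe, mem_al]
      refine ⟨h2, Vx107.splits_of_mass (ntr_mm H hc) (supp_mm H c) fun h4 => h3 ?_⟩
      show Fw (mass (mm J c u) A) = 1
      rw [h4, Vx107.Fw_zero]
    · rintro ⟨h2, h3⟩
      rw [Finset.mem_coe, mem_al] at h2
      exact ⟨h2.1, h3⟩
  have hsub : spz J σ τ z ⊆ al (σ J) z := by
    unfold spz
    rw [biUnion_subset]
    intro j hj
    exact spc_sub_al H (mem_range.1 hj) z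
  have hdisj : ((range J : Finset ℕ) : Set ℕ).PairwiseDisjoint
      fun j => spc (σ j) (τ (j + 1)) z := by
    have key : ∀ j k, j < k → k < J → Disjoint (spc (σ j) (τ (j + 1)) z)
        (spc (σ k) (τ (k + 1)) z) := by
      intro j k hjk hk
      rw [Finset.disjoint_left]
      intro A hA hB
      rw [mem_spc] at hA hB
      refine not_BF_sub (n := σ k) (by linarith [H.pos (i := k) (by omega)]) ?_
        (hB.2.1.trans hA.1)
      have h2 := H.tmo (i := j + 1) (j := k) (by omega) (by omega)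
      have h3 := H.lt k (by omega)
      linarith
    intro j hj k hk hne
    rw [Finset.mem_coe, mem_range] at hj hk
    rcases lt_or_gt_of_ne hne with h | h
    · exact key j k h hk
    · exact (key k j h hj).symm
  rw [h1, ← prod_sdiff hsub, mul_comm]
  unfold rst
  congr 1
  · unfold spz
    rw [prod_biUnion hdisj]
    refine prod_congr rfl fun j hj => ?_
    rw [mem_range] at hj
    rw [← card_spc, ← prod_const]
    refine prod_congr rfl fun A hA => ?_
    rw [mem_spc] at hA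
    rw [Fw_eq, mass_mm]
    congr 1
    unfold cs
    have e : ∀ i ∈ range (J + 1), c i * mass (u i) A = if i ∈ range (j + 1) then c i else 0 := by
      intro i hi
      rw [mem_range] at hi
      split_ifs with h
      · rw [mem_range] at h
        rw [H.mass_one (j := j) (by omega) (by omega) hA.2.1, mul_one]
      · rw [mem_range] at h
        rw [H.mass_zero (j := j + 1) (by omega) (by omega) hA.1, mul_zero]
    rw [sum_congr rfl e, sum_ite_mem]
    congr 1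
    ext i
    rw [mem_inter, mem_range, mem_range]
    omega
  · refine prod_congr rfl fun A _ => ?_
    rw [Fw_eq, mass_mm]

/-- small loops are among the others -/
theorem smalls_sub {J : ℕ} {C : ℝ} {D : ℕ} {σ τ : ℕ → ℤ} {κ : ℕ → ℕ} {u : ℕ → Face →₀ ℝ}
    (H : Sys J C D σ τ κ u) {i : ℕ} (hi : i ≤ J) (z : Cfz) :
    smalls lsW (u i).support (κ i) z ⊆ rst J σ τ z := by
  classical
  intro A hA
  rw [mem_smalls] at hA
  obtain ⟨h1, ⟨v, hv, hvA⟩, h3⟩ := hA
  have hv' := H.sub i hi v (Finsupp.mem_support_iff.1 hv)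
  have h3' : dia A + 1 < 2 ^ κ i := h3
  have hno : ∀ j, i ≤ j → j ≤ J → ¬ BF (0, 0) (σ j) ⊆ A := by
    intro j hij hj h
    have h4 := dia_of_BF (by linarith [H.pos (i := j) hj]) h
    have h5 := H.smo hij hj
    have h6 := H.k1 i hi
    have h7 : ((dia A : ℤ) + 1) < 2 ^ κ i := by exact_mod_cast h3'
    linarith
  rw [mem_rst]
  refine ⟨⟨h1, ⟨v, BF_mono (H.smo hi le_rfl) hv'.1, hvA⟩, ?_⟩, ?_⟩
  · by_contra hcon
    push Not at hcon
    exact hno J hi le_rfl hcon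
  · rintro j hj ⟨h4, h5⟩
    rcases le_or_gt i j with h | h
    · exact hno j h (by omega) h5
    · exact hv'.2 (BF_mono (H.tmo (i := j + 1) (j := i) (by omega) hi) (h4 hvA))

open Classical in
/-- exceptional loops of one box -/
def exc (n : ℤ) (k : ℕ) (z : Cfz) : Finset (Finset Face) :=
  (al n z).filter fun A => 2 ^ k ≤ dia A + 1

theorem mem_exc {n : ℤ} {k : ℕ} {z : Cfz} {A : Finset Face} :
    A ∈ exc n k z ↔ A ∈ Lps z ∧ Splits A (BF (0, 0) n) ∧ 2 ^ k ≤ dia A + 1 := by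
  classical
  unfold exc
  rw [mem_filter, mem_al, and_assoc]

open Classical in
/-- exceptional loops -/
def TT (J : ℕ) (σ : ℕ → ℤ) (κ : ℕ → ℕ) (z : Cfz) : Finset (Finset Face) :=
  (range (J + 1)).biUnion fun i => exc (σ i) (κ i) z

theorem mem_TT {J : ℕ} {C : ℝ} {D : ℕ} {σ τ : ℕ → ℤ} {κ : ℕ → ℕ} {u : ℕ → Face →₀ ℝ}
    (H : Sys J C D σ τ κ u) {i : ℕ} (hi : i ≤ J) {z : Cfz} {A : Finset Face}
    (hA : A ∈ rst J σ τ z) (hs : A ∉ smalls lsW (u i).support (κ i) z)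
    (hm : mass (u i) A ≠ 0) : A ∈ TT J σ κ z := by
  classical
  rw [mem_rst] at hA
  obtain ⟨⟨hL, hspl⟩, hsp⟩ := hA
  obtain ⟨v, hvA, hv⟩ : ∃ v ∈ A, u i v ≠ 0 := by
    by_contra hcon
    push Not at hcon
    exact hm (sum_eq_zero hcon)
  have hv' := H.sub i hi v hv
  have hdia : 2 ^ κ i ≤ dia A + 1 := by
    by_contra hcon
    refine hs ((mem_smalls lsW).2 ⟨hL, ⟨v, Finsupp.mem_support_iff.2 hv, hvA⟩, ?_⟩)
    exact not_le.1 hcon
  -- least `j ≥ i` with `¬ BF σ_j ⊆ A`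
  have hJ : ¬ BF (0, 0) (σ J) ⊆ A := fun h => by
    obtain ⟨w, hw, hwA⟩ := hspl.2
    exact hwA (h hw)
  have hex : ∃ j, i ≤ j ∧ j ≤ J ∧ ¬ BF (0, 0) (σ j) ⊆ A := ⟨J, hi, le_rfl, hJ⟩
  obtain ⟨h1, h2, h3⟩ := Nat.find_spec hex
  set j := Nat.find hex with hj
  unfold TT
  rw [mem_biUnion]
  refine ⟨j, mem_range.2 (by omega), mem_exc.2 ⟨hL, ⟨⟨v, BF_mono (H.smo h1 h2) hv'.1, hvA⟩, ?_⟩, ?_⟩⟩
  · by_contra hcon
    push Not at hcon
    exact h3 hcon
  · rcases Nat.eq_or_lt_of_le h1 with h4 | h4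
    · rw [← h4]; exact hdia
    · have h5 : BF (0, 0) (σ (j - 1)) ⊆ A := by
        by_contra hcon
        exact Nat.find_min hex (m := j - 1) (by omega) ⟨by omega, by omega, hcon⟩
      have h6 := hsp (j - 1) (by omega)
      rw [show j - 1 + 1 = j by omega] at h6
      have h7 : ¬ A ⊆ BF (0, 0) (τ j) := fun h => h6 ⟨h, h5⟩
      rw [not_subset] at h7
      obtain ⟨w, hw, hw'⟩ := h7
      rw [mem_BF, not_le] at hw'
      have h8 : (((0, 0), false) : Face) ∈ A := h5 (by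
        rw [mem_BF, sd_self]
        linarith [H.pos (i := j - 1) (by omega)])
      have h9 := sd_le_dia h8 hw
      have h10 := H.k2 j h2 (by omega)
      have h11 : (2 : ℤ) ^ κ j ≤ ((dia A + 1 : ℕ) : ℤ) := by
        push_cast
        have : sd ((0 : ℤ), (0 : ℤ)) w.1 ≤ dia A := h9
        linarith
      exact_mod_cast h11

/-- sum of the moduli of the charges -/
def ca (J : ℕ) (c : ℕ → ℝ) : ℝ := ∑ i ∈ range (J + 1), |c i|

theorem ca_nonneg (J : ℕ) (c : ℕ → ℝ) : 0 ≤ ca J c := sum_nonneg fun _ _ => abs_nonneg _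

/-- the main exponent -/
def lin (J : ℕ) (c : ℕ → ℝ) (κ : ℕ → ℕ) : ℝ := √3 * ∑ i ∈ range (J + 1), c i * VV (κ i)

/-- **deterministic upper bound** -/
theorem W_le {J : ℕ} {C : ℝ} {D : ℕ} {σ τ : ℕ → ℤ} {κ : ℕ → ℕ} {u : ℕ → Face →₀ ℝ}
    (H : Sys J C D σ τ κ u) {c : ℕ → ℝ} (hc : ∑ i ∈ range (J + 1), c i = 0) (z : Cfz) :
    |W (mm J c u) z| ≤ (∏ j ∈ range J, |ff (cs c j)| ^ NN (0, 0) (σ j) (τ (j + 1)) z) *
      exp (-(√3 * ∑ i ∈ range (J + 1), c i * SS lsW (u i) (u i).support (κ i) z) +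
        (2 * ca J c + 12 * ca J c ^ 2) * ((TT J σ κ z).card +
          ∑ i ∈ range (J + 1), QQ lsW (u i) (u i).support (κ i) z)) := by
  classical
  rw [W_eq H hc, abs_mul, abs_prod]
  simp only [abs_pow]
  refine mul_le_mul_of_nonneg_left ?_ (prod_nonneg fun _ _ => pow_nonneg (abs_nonneg _) _)
  have h := prod_le (I := range (J + 1)) (R := rst J σ τ z) (T := TT J σ κ z) (c := c)
    (u := fun i A => mass (u i) A) (Sm := fun i => smalls lsW (u i).support (κ i) z)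
    (fun i hi A => H.mass_nonneg (by rw [mem_range] at hi; omega) A)
    (fun i hi A => H.mass_le_one (by rw [mem_range] at hi; omega) A)
    (fun i hi => smalls_sub H (by rw [mem_range] at hi; omega) z)
    (fun i hi A hA hs hm => mem_TT H (by rw [mem_range] at hi; omega) hA hs hm)
  refine h.trans (le_of_eq ?_)
  congr 2
  · congr 2
    refine sum_congr rfl fun i _ => ?_
    rw [SS_eq]
    congr 1
    exact sum_congr rfl fun A _ => Sys.mass_eq A
  · congr 2
    refine sum_congr rfl fun i _ => ?_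
    unfold QQ
    exact sum_congr rfl fun A _ => by rw [Sys.mass_eq A]

/-- **deterministic lower bound** -/
theorem W_ge {J : ℕ} {C : ℝ} {D : ℕ} {σ τ : ℕ → ℤ} {κ : ℕ → ℕ} {u : ℕ → Face →₀ ℝ}
    (H : Sys J C D σ τ κ u) {c : ℕ → ℝ} (hc : ∑ i ∈ range (J + 1), c i = 0) {C' : ℝ}
    (hC' : 0 ≤ C') (z : Cfz) (hpos : ∀ j < J, 0 ≤ ff (cs c j))
    (hlow : ∀ A ∈ rst J σ τ z, exp (-(√3 * ∑ i ∈ range (J + 1), c i * mass (u i) A) -
      C' * (∑ i ∈ range (J + 1), c i * mass (u i) A) ^ 2) ≤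
        ff (∑ i ∈ range (J + 1), c i * mass (u i) A)) :
    (∏ j ∈ range J, ff (cs c j) ^ NN (0, 0) (σ j) (τ (j + 1)) z) *
      exp (-(√3 * ∑ i ∈ range (J + 1), c i * SS lsW (u i) (u i).support (κ i) z) -
        (2 * ca J c + C' * ca J c ^ 2) * ((TT J σ κ z).card +
          ∑ i ∈ range (J + 1), QQ lsW (u i) (u i).support (κ i) z)) ≤ W (mm J c u) z := by
  classical
  rw [W_eq H hc]
  refine mul_le_mul_of_nonneg_left ?_ (prod_nonneg fun j hj => pow_nonneg
    (hpos j (mem_range.1 hj)) _)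
  have h := prod_ge (I := range (J + 1)) (R := rst J σ τ z) (T := TT J σ κ z) (c := c)
    (u := fun i A => mass (u i) A) (Sm := fun i => smalls lsW (u i).support (κ i) z)
    (fun i hi A => H.mass_nonneg (by rw [mem_range] at hi; omega) A)
    (fun i hi A => H.mass_le_one (by rw [mem_range] at hi; omega) A)
    (fun i hi => smalls_sub H (by rw [mem_range] at hi; omega) z)
    (fun i hi A hA hs hm => mem_TT H (by rw [mem_range] at hi; omega) hA hs hm) hC' hlow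
  refine le_trans (le_of_eq ?_) h
  congr 2
  · congr 2
    refine sum_congr rfl fun i _ => ?_
    rw [SS_eq]
    congr 1
    exact sum_congr rfl fun A _ => (Sys.mass_eq A).symm
  · congr 2
    refine sum_congr rfl fun i _ => ?_
    unfold QQ
    exact sum_congr rfl fun A _ => by rw [Sys.mass_eq A]

end Crest.Agent.R158.Wf850
end
end

-- ▼ part R158/Wf4_850
section

/-!
# Row 158, BLOCK W (helper850), part 4: moments of the errors

* `cover` : a set splitting a box splits one of finitely many small boxes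
* `count` : majorant with exponential moments of the number of exceptional loops
* `sys_bd` : **bounds of the weight of a concentric system, error with all exponential moments**
-/

set_option autoImplicit false

noncomputable section

namespace Crest.Agent.R158.Wf850

open Real Finset MeasureTheory
open Crest.Agent.R161.Geo729 Crest.Agent.R161.Tas682
open Crest.Agent.R158.Rs689 (nu hf PB Dep)
open Crest.Agent.R158.It200 (Cfz Corner fc fc_zero)
open Crest.Agent.R158.We297 (ff)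
open Crest.Agent.R158.Cn109 (DepF lsW SS QQ smalls mem_smalls SS_eq VV SS_dep QQ_dep QQ_nonneg)
open Crest.Agent.R158.Vx107 (mass W Ntr Fw)
open Crest.Agent.R158.Hd109 (Dens Err Err_dep lin_moments exp_sum_le)

theorem fc_off (d : Corner) : (fc d).1 ≤ d.1.1 ∧ d.1.1 ≤ (fc d).1 + 1 ∧ (fc d).2 ≤ d.1.2 ∧
    d.1.2 ≤ (fc d).2 + 1 := by
  obtain ⟨⟨a, b⟩, q⟩ := d
  fin_cases q <;> simp [fc]

theorem cover {A : Finset Face} {n D : ℕ} (hn : 1 ≤ n) {s : ℤ} (hs : s ≤ D * (n : ℤ))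
    (h : Splits A (BF (0, 0) s)) : ∃ p ∈ Icc (-(D : ℤ)) D ×ˢ Icc (-(D : ℤ)) D,
      Splits A (BF ((n : ℤ) * p.1, (n : ℤ) * p.2) n) := by
  obtain ⟨d, h1, h2, h3⟩ := exists_sep h
  have hn' : (1 : ℤ) ≤ n := by exact_mod_cast hn
  obtain ⟨f1, f2, f3, f4⟩ := fc_off d
  have hh : 0 ≤ (n : ℤ) / 2 ∧ 2 * ((n : ℤ) / 2) ≤ n ∧ (n : ℤ) / 2 + 1 ≤ n := by omega
  set m : ℤ := (n : ℤ) / 2 with hm
  have key : ∀ t : ℤ, -s ≤ t → t ≤ s → ∃ a ∈ Icc (-(D : ℤ)) D,
      -m ≤ t - n * a ∧ t - n * a ≤ n - 1 - m := by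
    intro t ht1 ht2
    have e1 := Int.mul_ediv_add_emod (t + m) n
    have e2 := Int.emod_nonneg (t + m) (b := n) (by omega)
    have e3 := Int.emod_lt_of_pos (t + m) (b := n) (by omega)
    refine ⟨(t + m) / n, ?_, by linarith, by linarith⟩
    rw [Finset.mem_Icc]
    constructor
    · rw [Int.le_ediv_iff_mul_le (by omega)]
      nlinarith
    · rw [← Int.lt_add_one_iff, Int.ediv_lt_iff_lt_mul (by omega)]
      nlinarith
  rw [mem_BF, sd_le] at h1
  obtain ⟨c1, c2, c3, c4⟩ := h1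
  have hc1 : (0 : ℤ) - s ≤ d.1.1 := c1
  have hc2 : d.1.1 ≤ 0 + s := c2
  have hc3 : (0 : ℤ) - s ≤ d.1.2 := c3
  have hc4 : d.1.2 ≤ 0 + s := c4
  obtain ⟨a, ha, a1, a2⟩ := key d.1.1 (by linarith) (by linarith)
  obtain ⟨b, hb, b1, b2⟩ := key d.1.2 (by linarith) (by linarith)
  have m1 : cv d ∈ BF ((n : ℤ) * a, (n : ℤ) * b) n := by
    rw [mem_BF, sd_le]
    show (n : ℤ) * a - n ≤ d.1.1 ∧ d.1.1 ≤ (n : ℤ) * a + n ∧ (n : ℤ) * b - n ≤ d.1.2 ∧
      d.1.2 ≤ (n : ℤ) * b + n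
    refine ⟨?_, ?_, ?_, ?_⟩ <;> linarith
  have m2 : cf d ∈ BF ((n : ℤ) * a, (n : ℤ) * b) n := by
    rw [mem_BF, sd_le]
    show (n : ℤ) * a - n ≤ (fc d).1 ∧ (fc d).1 ≤ (n : ℤ) * a + n ∧ (n : ℤ) * b - n ≤ (fc d).2 ∧
      (fc d).2 ≤ (n : ℤ) * b + n
    refine ⟨?_, ?_, ?_, ?_⟩ <;> linarith
  refine ⟨(a, b), Finset.mem_product.2 ⟨ha, hb⟩, ?_⟩
  by_cases hv : cv d ∈ A
  · exact ⟨⟨_, m1, hv⟩, ⟨_, m2, fun hf => h3 ⟨fun _ => hf, fun _ => hv⟩⟩⟩
  · refine ⟨⟨_, m2, ?_⟩, ⟨_, m1, hv⟩⟩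
    by_contra hf
    exact h3 ⟨fun h => absurd h hv, fun h => absurd h hf⟩

/-- **exceptional loops have all exponential moments** -/
theorem count {a : ℝ} (ha : 0 ≤ a) (D : ℕ) : ∃ G : ℝ, 1 ≤ G ∧ ∀ (s : ℤ) (k : ℕ),
    s ≤ D * (2 : ℤ) ^ k → ∃ (S : Finset Edge) (K : Cfz → ℕ), DepF S K ∧
      ∫ z, exp (a * K z) ∂(nu hf) ≤ G ∧ ∀ z, (exc s k z).card ≤ K z := by
  classical
  set P : Finset (ℤ × ℤ) := Icc (-(D : ℤ)) D ×ˢ Icc (-(D : ℤ)) D with hP
  have hPne : P.Nonempty := ⟨(0, 0), by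
    rw [hP, Finset.mem_product, Finset.mem_Icc]; simp⟩
  have hpos : 0 ≤ (P.card : ℝ) * a := by positivity
  obtain ⟨G, hG, h⟩ := Lc522.l7 (exp (P.card * a)) (Real.one_le_exp hpos)
  refine ⟨G, hG, fun s k hs => ?_⟩
  have hk : 1 ≤ 2 ^ k := Nat.one_le_two_pow
  choose K hK1 hK2 hK3 using fun p : ℤ × ℤ =>
    h (((2 ^ k : ℕ) : ℤ) * p.1, ((2 ^ k : ℕ) : ℤ) * p.2) (2 ^ k) hk
  have hdep : ∀ p, DepF (Em522.starE (((2 ^ k : ℕ) : ℤ) * p.1, ((2 ^ k : ℕ) : ℤ) * p.2)
      (2 * 2 ^ k)) (K p) := fun p z z' hz => hK1 p z z' hz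
  refine ⟨P.biUnion fun p => Em522.starE (((2 ^ k : ℕ) : ℤ) * p.1, ((2 ^ k : ℕ) : ℤ) * p.2)
      (2 * 2 ^ k), fun z => ∑ p ∈ P, K p z, ?_, ?_, ?_⟩
  · intro z z' hz
    refine Finset.sum_congr rfl fun p hp => hdep p z z' fun e he => hz e ?_
    exact Finset.mem_biUnion.2 ⟨p, hp, he⟩
  · have e1 : ∀ z, exp (a * ((∑ p ∈ P, K p z : ℕ) : ℝ)) = exp (∑ p ∈ P, a * (K p z : ℝ)) := by
      intro z
      push_cast
      rw [Finset.mul_sum]
    simp only [e1]
    have e2 : ∀ p z, exp ((P.card : ℝ) * (a * (K p z : ℝ))) = exp (P.card * a) ^ K p z := by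
      intro p z
      rw [← Real.exp_nat_mul]
      congr 1
      ring
    refine exp_sum_le hPne (X := fun p z => a * (K p z : ℝ)) (fun p _ => ?_) fun p _ => ?_
    · exact ((hdep p).comp fun x => exp ((P.card : ℝ) * (a * (x : ℝ)))).integrable _
    · simp only [e2]
      exact hK2 p
  · intro z
    have h1 : exc s k z ⊆ P.biUnion fun p =>
        ((fin_split z (((2 ^ k : ℕ) : ℤ) * p.1, ((2 ^ k : ℕ) : ℤ) * p.2) (2 ^ k : ℕ)).toFinset.filter
          fun A => 2 ^ k ≤ 2 * (dia A + 1)) := by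
      intro A hA
      rw [mem_exc] at hA
      obtain ⟨hA1, hA2, hA3⟩ := hA
      obtain ⟨p, hp, hp2⟩ := cover hk (D := D) (s := s) (by push_cast; exact hs) hA2
      rw [Finset.mem_biUnion]
      refine ⟨p, hp, ?_⟩
      rw [Finset.mem_filter, Set.Finite.mem_toFinset]
      exact ⟨⟨hA1, hp2⟩, by omega⟩
    refine (Finset.card_le_card h1).trans (Finset.card_biUnion_le.trans ?_)
    refine Finset.sum_le_sum fun p _ => ?_
    refine le_trans (le_of_eq ?_) (hK3 p z)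
    rw [← Set.ncard_coe_finset]
    congr 1
    ext A
    rw [Finset.mem_coe, Finset.mem_filter, Set.Finite.mem_toFinset]
    constructor
    · rintro ⟨⟨a1, a2⟩, a3⟩; exact ⟨a1, a2, a3⟩
    · rintro ⟨a1, a2, a3⟩; exact ⟨⟨a1, a2⟩, a3⟩

/-- **bounds of the weight of a concentric system**, error with exponential moments -/
theorem sys_bd (J : ℕ) {C : ℝ} (hC : 0 ≤ C) (D : ℕ) (c : ℕ → ℝ)
    (hc : ∑ i ∈ range (J + 1), c i = 0) {C' : ℝ} (hC' : 0 ≤ C') {q : ℝ} (hq : 0 ≤ q) :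
    ∃ G : ℝ, 1 ≤ G ∧ ∀ (σ τ : ℕ → ℤ) (κ : ℕ → ℕ) (u : ℕ → Face →₀ ℝ), Sys J C D σ τ κ u →
      ∃ (S : Finset Edge) (E : Cfz → ℝ), DepF S E ∧ (∀ z, 0 ≤ E z) ∧
        ∫ z, exp (q * E z) ∂(nu hf) ≤ G ∧
        (∀ z, |W (mm J c u) z| ≤ (∏ j ∈ range J, |ff (cs c j)| ^ NN (0, 0) (σ j) (τ (j + 1)) z) *
          exp (-lin J c κ + E z)) ∧
        ∀ z, (∀ j < J, 0 ≤ ff (cs c j)) →
          (∀ A ∈ rst J σ τ z, exp (-(√3 * ∑ i ∈ range (J + 1), c i * mass (u i) A) -
            C' * (∑ i ∈ range (J + 1), c i * mass (u i) A) ^ 2) ≤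
              ff (∑ i ∈ range (J + 1), c i * mass (u i) A)) →
          (∏ j ∈ range J, ff (cs c j) ^ NN (0, 0) (σ j) (τ (j + 1)) z) *
            exp (-lin J c κ - E z) ≤ W (mm J c u) z := by
  classical
  set B : ℝ := 2 * ca J c + (12 + C') * ca J c ^ 2 with hB
  have hca := ca_nonneg J c
  have hB0 : 0 ≤ B := by positivity
  set r : Finset ℕ := range (J + 1) with hr
  have hrne : r.Nonempty := ⟨0, by rw [hr, mem_range]; omega⟩
  obtain ⟨G1, hG1, h1⟩ := lin_moments (ι := Fin (J + 1)) hC (fun i => √3 * c i) (fun _ => B)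
    (2 * q) (by positivity) (fun _ => hB0)
  obtain ⟨G2, hG2, h2⟩ := count (a := r.card * (2 * q * B)) (by positivity) D
  refine ⟨G1 + G2, by linarith, fun σ τ κ u H => ?_⟩
  choose! SK K hK1 hK2 hK3 using fun i (hi : i ∈ r) =>
    h2 (σ i) (κ i) (H.k3 i (by rw [hr, mem_range] at hi; omega))
  set E1 : Cfz → ℝ := Err (ι := Fin (J + 1)) (fun i => √3 * c i) (fun _ => B) (fun i => κ i)
    (fun i => (u i).support) (fun i => u i) with hE1
  set E2 : Cfz → ℝ := fun z => ∑ i ∈ r, B * (K i z : ℝ) with hE2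
  have hE1' : ∀ z, E1 z = ∑ i ∈ r, (√3 * |c i| * |SS lsW (u i) (u i).support (κ i) z - VV (κ i)| +
      B * QQ lsW (u i) (u i).support (κ i) z) := by
    intro z
    rw [hE1]
    unfold Err
    rw [hr, ← Fin.sum_univ_eq_sum_range (fun i => √3 * |c i| *
      |SS lsW (u i) (u i).support (κ i) z - VV (κ i)| + B * QQ lsW (u i) (u i).support (κ i) z)]
    refine Finset.sum_congr rfl fun i _ => ?_
    rw [abs_mul, abs_of_nonneg (Real.sqrt_nonneg 3)]
  have hE1n : ∀ z, 0 ≤ E1 z := by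
    intro z
    rw [hE1']
    refine Finset.sum_nonneg fun i _ => ?_
    have := QQ_nonneg lsW (u i) (u i).support (κ i) z
    positivity
  have hE2n : ∀ z, 0 ≤ E2 z := fun z => Finset.sum_nonneg fun i _ => by positivity
  have hd1 := Err_dep (ι := Fin (J + 1)) (fun i => √3 * c i) (fun _ => B) (fun i => κ i)
    (fun i => (u i).support) (fun i => u i)
  set S1 : Finset Edge := Finset.univ.biUnion fun i : Fin (J + 1) => (u i).support.biUnion fun v =>
      (Finset.range (κ i)).biUnion fun k => Cn109.Sup lsW k v with hS1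
  have hd2 : DepF (r.biUnion SK) E2 := by
    refine DepF.sum fun i hi => ?_
    exact ((hK1 i hi).mono (Finset.subset_biUnion_of_mem SK hi)).comp fun x => B * (x : ℝ)
  have hcount : ∀ z, B * ((TT J σ κ z).card : ℝ) ≤ E2 z := by
    intro z
    rw [hE2]
    simp only
    rw [← Finset.mul_sum]
    refine mul_le_mul_of_nonneg_left ?_ hB0
    have h5 : (TT J σ κ z).card ≤ ∑ i ∈ r, K i z :=
      Finset.card_biUnion_le.trans (Finset.sum_le_sum fun i hi => hK3 i hi z)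
    exact_mod_cast h5
  -- comparison of the linear terms
  have hlin : ∀ z, |√3 * ∑ i ∈ r, c i * SS lsW (u i) (u i).support (κ i) z - lin J c κ| ≤
      ∑ i ∈ r, √3 * |c i| * |SS lsW (u i) (u i).support (κ i) z - VV (κ i)| := by
    intro z
    unfold lin
    rw [← hr, ← mul_sub, ← Finset.sum_sub_distrib, abs_mul, abs_of_nonneg (Real.sqrt_nonneg 3)]
    rw [show (∑ i ∈ r, √3 * |c i| * |SS lsW (u i) (u i).support (κ i) z - VV (κ i)|) =
      √3 * ∑ i ∈ r, |c i| * |SS lsW (u i) (u i).support (κ i) z - VV (κ i)| by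
        rw [Finset.mul_sum]; exact Finset.sum_congr rfl fun i _ => by ring]
    refine mul_le_mul_of_nonneg_left ?_ (Real.sqrt_nonneg 3)
    refine (Finset.abs_sum_le_sum_abs _ _).trans (Finset.sum_le_sum fun i _ => ?_)
    rw [← mul_sub, abs_mul]
  have hmain : ∀ z (B' : ℝ), 0 ≤ B' → B' ≤ B →
      |√3 * ∑ i ∈ r, c i * SS lsW (u i) (u i).support (κ i) z - lin J c κ| +
        B' * ((TT J σ κ z).card + ∑ i ∈ r, QQ lsW (u i) (u i).support (κ i) z) ≤ E1 z + E2 z := by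
    intro z B' hB'0 hB'
    have hQ : 0 ≤ ∑ i ∈ r, QQ lsW (u i) (u i).support (κ i) z :=
      Finset.sum_nonneg fun i _ => QQ_nonneg _ _ _ _ _
    have hT : (0 : ℝ) ≤ (TT J σ κ z).card := Nat.cast_nonneg _
    have h6 := hlin z
    have h7 := hcount z
    rw [hE1', Finset.sum_add_distrib, ← Finset.mul_sum (a := B)]
    have h8 : B' * ((TT J σ κ z).card + ∑ i ∈ r, QQ lsW (u i) (u i).support (κ i) z) ≤
        B * ((TT J σ κ z).card + ∑ i ∈ r, QQ lsW (u i) (u i).support (κ i) z) :=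
      mul_le_mul_of_nonneg_right hB' (by linarith)
    rw [mul_add B] at h8
    linarith
  refine ⟨S1 ∪ r.biUnion SK, fun z => E1 z + E2 z,
    DepF.add (hd1.mono Finset.subset_union_left) (hd2.mono Finset.subset_union_right),
    fun z => add_nonneg (hE1n z) (hE2n z), ?_, ?_, ?_⟩
  · have hi1 : Integrable (fun z => exp (2 * q * E1 z)) (nu hf) :=
      (hd1.comp fun x => exp (2 * q * x)).integrable _
    have hi2 : Integrable (fun z => exp (2 * q * E2 z)) (nu hf) :=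
      (hd2.comp fun x => exp (2 * q * x)).integrable _
    have hb1 : ∫ z, exp (2 * q * E1 z) ∂(nu hf) ≤ G1 :=
      h1 (fun i => κ i) (fun i => (u i).support) (fun i => u i) fun i => H.dens i (by omega)
    have hb2 : ∫ z, exp (2 * q * E2 z) ∂(nu hf) ≤ G2 := by
      have e : ∀ z, 2 * q * E2 z = ∑ i ∈ r, 2 * q * B * (K i z : ℝ) := by
        intro z
        rw [hE2]
        simp only
        rw [Finset.mul_sum]
        exact Finset.sum_congr rfl fun i _ => by ring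
      simp only [e]
      refine exp_sum_le hrne (X := fun i z => 2 * q * B * (K i z : ℝ)) (fun i hi => ?_)
        fun i hi => ?_
      · exact ((hK1 i hi).comp fun x => exp (r.card * (2 * q * B * (x : ℝ)))).integrable _
      · have := hK2 i hi
        refine le_trans (le_of_eq ?_) this
        refine integral_congr_ae (Filter.Eventually.of_forall fun z => ?_)
        show exp (r.card * (2 * q * B * (K i z : ℝ))) = exp (r.card * (2 * q * B) * (K i z : ℝ))
        rw [mul_assoc (r.card : ℝ)]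
    calc ∫ z, exp (q * (E1 z + E2 z)) ∂(nu hf)
        ≤ ∫ z, (exp (2 * q * E1 z) + exp (2 * q * E2 z)) ∂(nu hf) := by
          refine integral_mono ?_ (hi1.add hi2) fun z => ?_
          · exact ((DepF.add (hd1.mono (T := S1 ∪ r.biUnion SK) Finset.subset_union_left)
              (hd2.mono Finset.subset_union_right)).comp fun x => exp (q * x)).integrable _
          · show exp (q * (E1 z + E2 z)) ≤ exp (2 * q * E1 z) + exp (2 * q * E2 z)
            rcases le_total (E1 z) (E2 z) with h | h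
            · have : q * (E1 z + E2 z) ≤ 2 * q * E2 z := by nlinarith
              have h3 := exp_le_exp.2 this
              linarith [exp_pos (2 * q * E1 z)]
            · have : q * (E1 z + E2 z) ≤ 2 * q * E1 z := by nlinarith
              have h3 := exp_le_exp.2 this
              linarith [exp_pos (2 * q * E2 z)]
      _ = ∫ z, exp (2 * q * E1 z) ∂(nu hf) + ∫ z, exp (2 * q * E2 z) ∂(nu hf) :=
          integral_add hi1 hi2
      _ ≤ G1 + G2 := add_le_add hb1 hb2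
  · intro z
    refine (W_le H hc z).trans (mul_le_mul_of_nonneg_left ?_
      (prod_nonneg fun _ _ => pow_nonneg (abs_nonneg _) _))
    apply exp_le_exp.2
    have h6 := hmain z (2 * ca J c + 12 * ca J c ^ 2) (by positivity) (by rw [hB]; nlinarith)
    have h7 := (abs_le.1 (le_refl |√3 * ∑ i ∈ r, c i * SS lsW (u i) (u i).support (κ i) z -
      lin J c κ|)).1
    linarith
  · intro z hpos hlow
    refine le_trans (mul_le_mul_of_nonneg_left ?_ (prod_nonneg fun j hj =>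
      pow_nonneg (hpos j (mem_range.1 hj)) _)) (W_ge H hc hC' z hpos hlow)
    apply exp_le_exp.2
    have h6 := hmain z (2 * ca J c + C' * ca J c ^ 2) (by positivity) (by rw [hB]; nlinarith)
    have h7 := (abs_le.1 (le_refl |√3 * ∑ i ∈ r, c i * SS lsW (u i) (u i).support (κ i) z -
      lin J c κ|)).2
    linarith

end Crest.Agent.R158.Wf850
end
end

-- ▼ part R158/Wf5_850

/-!
# Row 158, BLOCK W (helper850), part 5: F1 and F2

* `Blobs us ws` : the properties of the square blobs and of the rings, and (STAR)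
* `hF1`, `hF2` : the fields F1 and F2 of `We297.Hyp`
-/

set_option autoImplicit false

noncomputable section

namespace Crest.Agent.R158.Wf850

open Real Finset MeasureTheory Filter Topology
open Crest.Agent.R161.Geo729 Crest.Agent.R161.Tas682
open Crest.Agent.R158.Rs689 (nu hf PB Dep)
open Crest.Agent.R158.It200 (Cfz Corner fc fc_zero)
open Crest.Agent.R158.We297 (ff kap)
open Crest.Agent.R158.Cn109 (DepF lsW SS QQ smalls mem_smalls SS_eq VV VV_inc)
open Crest.Agent.R158.Vx107 (mass W Ntr Fw tot)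
open Crest.Agent.R158.Hd109 (Dens hoelder_exp rev_hoelder)

/-- the square blobs, the rings and (STAR) -/
structure Blobs (us ws : ℕ → Face →₀ ℝ) : Prop where
  us_nn : ∀ r f, 0 ≤ us r f
  us_tot : ∀ r, 1 ≤ r → tot (us r) = 1
  us_sub : ∀ (r : ℕ) (f : Face), us r f ≠ 0 → f ∈ BF (0, 0) (r : ℤ)
  us_le : ∀ (r : ℕ) (f : Face), us r f ≤ 1 / (4 * (r : ℝ) ^ 2)
  ws_nn : ∀ r, 1 ≤ r → ∀ f, 0 ≤ ws r f
  ws_tot : ∀ r, 1 ≤ r → tot (ws r) = 1
  ws_sub : ∀ (r : ℕ), 1 ≤ r → ∀ (f : Face), ws r f ≠ 0 → f ∈ BF (0, 0) (2 * (r : ℤ)) ∧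
    f ∉ BF (0, 0) (((r : ℕ) : ℤ) / 2 - 1)
  ws_le : ∀ (r : ℕ), 1 ≤ r → ∀ (f : Face), ws r f ≤ 1 / (12 * (r : ℝ) ^ 2)
  star2 : ∀ a : ℝ, ∃ C : ℝ, 0 < C ∧ ∀ K : ℕ, 1 ≤ K → ∀ᶠ r : ℕ in atTop,
    exp (-(3 * a ^ 2 / (4 * π ^ 2)) * log K) / C ≤ ∫ z, W (a • (us r - ws (K * r))) z ∂(nu hf) ∧
    ∫ z, W (a • (us r - ws (K * r))) z ∂(nu hf) ≤ C * exp (-(3 * a ^ 2 / (4 * π ^ 2)) * log K)
  star3 : ∀ b : ℝ, ∃ C : ℝ, 0 < C ∧ ∀ K : ℕ, 1 ≤ K → ∀ L : ℕ, 1 ≤ L → ∀ᶠ r : ℕ in atTop,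
    ∫ z, W ((-2 * b) • us r + b • ws (K * r) + b • ws (K * L * r)) z ∂(nu hf) ≤
      C * exp (-(3 / (4 * π ^ 2)) * (b ^ 2 * (4 * log K + log L)))

theorem dens_of {C : ℝ} {κ : ℕ} {u : Face →₀ ℝ} (h0 : ∀ f, 0 ≤ u f) (h1 : tot u = 1)
    (h2 : ∀ f, u f ≤ C / 4 ^ κ) : Dens C κ u.support u :=
  ⟨fun v _ => h0 v, h1, fun v _ => h2 v⟩

theorem le_four {κ n : ℕ} (h : 2 ^ κ ≤ n) {c : ℝ} (hc : 1 ≤ c) : 1 / (c * (n : ℝ) ^ 2) ≤ 1 / 4 ^ κ := by
  have h1 : (4 : ℝ) ^ κ = (2 ^ κ) ^ 2 := by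
    rw [← pow_mul, mul_comm, pow_mul]; norm_num
  have h2 : (2 : ℝ) ^ κ ≤ n := by exact_mod_cast h
  have h3 : (0 : ℝ) < 2 ^ κ := by positivity
  refine one_div_le_one_div_of_le (by positivity) ?_
  rw [h1]
  have h4 : ((2 : ℝ) ^ κ) ^ 2 ≤ (n : ℝ) ^ 2 := by gcongr
  nlinarith [sq_nonneg (n : ℝ)]

theorem log_half {n : ℕ} (hn : 2 ≤ n) : 2 ^ (Nat.log 2 n - 1) ≤ n / 2 ∧ n < 4 * 2 ^ (Nat.log 2 n - 1) ∧
    1 ≤ Nat.log 2 n := by
  have h1 : 1 ≤ Nat.log 2 n := Nat.log_pos (by norm_num) hn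
  obtain ⟨l, hl⟩ : ∃ l, Nat.log 2 n = l + 1 := ⟨Nat.log 2 n - 1, by omega⟩
  have h2 := Nat.pow_log_le_self 2 (x := n) (by omega)
  have h3 := Nat.lt_pow_succ_log_self (b := 2) (by norm_num) n
  rw [hl] at h2 h3 ⊢
  rw [pow_succ] at h2
  rw [pow_succ, pow_succ] at h3
  simp only [Nat.add_sub_cancel]
  refine ⟨by omega, by omega, by omega⟩

variable {us ws : ℕ → Face →₀ ℝ}

/-- families of two densities -/
def u2 (us ws : ℕ → Face →₀ ℝ) (K r : ℕ) (i : ℕ) : Face →₀ ℝ := if i = 0 then us r else ws ((K + 1) * r)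
/-- outer radii -/
def s2 (K r : ℕ) (i : ℕ) : ℤ := if i = 0 then r else 2 * (((K + 1) * r : ℕ) : ℤ)
/-- inner radii -/
def t2 (K r : ℕ) (i : ℕ) : ℤ := if i = 0 then -1 else ((K * r / 2 : ℕ) : ℤ)
/-- levels -/
def k2 (K r : ℕ) (i : ℕ) : ℕ := if i = 0 then Nat.log 2 r else Nat.log 2 (K * r) - 1
/-- charges -/
def c2 (a : ℝ) (i : ℕ) : ℝ := if i = 0 then a else if i = 1 then -a else 0

theorem sys2 (B : Blobs us ws) {K r : ℕ} (hK : 2 ≤ K) (hr : 2 ≤ r) :
    Sys 1 1 16 (s2 K r) (t2 K r) (k2 K r) (u2 us ws K r) := by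
  have hKr : 2 * r ≤ K * r := Nat.mul_le_mul_right r hK
  have hK1 : (K + 1) * r = K * r + r := by ring
  obtain ⟨l1, l2, l3⟩ := log_half (n := K * r) (by omega)
  have p1 := Nat.pow_log_le_self 2 (x := r) (by omega)
  have p2 := Nat.lt_pow_succ_log_self (b := 2) (by norm_num) r
  rw [pow_succ] at p2
  have hc : ∀ i, i ≤ 1 → i = 0 ∨ i = 1 := by intro i hi; omega
  refine ⟨?_, ?_, ?_, ?_, ?_, ?_, ?_, ?_⟩
  · simp only [s2, if_true]; omega
  · intro i hi
    rcases hc i hi with rfl | rfl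
    · simp only [t2, s2, if_true]; omega
    · simp only [t2, s2, one_ne_zero, if_false]; rw [hK1]; push_cast; omega
  · intro i hi
    have : i = 0 := by omega
    subst this
    simp only [s2, t2, if_true, zero_add, one_ne_zero, if_false]
    omega
  · intro i hi
    rcases hc i hi with rfl | rfl
    · simp only [k2, s2, if_true]
      have : (2 : ℤ) ^ Nat.log 2 r ≤ r := by exact_mod_cast p1
      omega
    · simp only [k2, s2, one_ne_zero, if_false]
      have : (2 : ℤ) ^ (Nat.log 2 (K * r) - 1) ≤ ((K * r / 2 : ℕ) : ℤ) := by exact_mod_cast l1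
      rw [hK1]
      push_cast
      push_cast at this
      omega
  · intro i hi hi1
    have : i = 1 := by omega
    subst this
    simp only [k2, t2, one_ne_zero, if_false]
    have : (2 : ℤ) ^ (Nat.log 2 (K * r) - 1) ≤ ((K * r / 2 : ℕ) : ℤ) := by exact_mod_cast l1
    linarith
  · intro i hi
    rcases hc i hi with rfl | rfl
    · simp only [k2, s2, if_true]
      have : (r : ℤ) < 2 ^ Nat.log 2 r * 2 := by exact_mod_cast p2
      push_cast
      have h0 : (0 : ℤ) < 2 ^ Nat.log 2 r := by positivity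
      linarith
    · simp only [k2, s2, one_ne_zero, if_false]
      have h5 : ((K * r : ℕ) : ℤ) < 4 * 2 ^ (Nat.log 2 (K * r) - 1) := by exact_mod_cast l2
      have h6 : (((K + 1) * r : ℕ) : ℤ) ≤ 2 * ((K * r : ℕ) : ℤ) := by
        rw [hK1]; push_cast; nlinarith
      push_cast at h5 h6 ⊢
      linarith
  · intro i hi
    rcases hc i hi with rfl | rfl
    · simp only [k2, u2, if_true]
      exact dens_of (B.us_nn r) (B.us_tot r (by omega)) fun f =>
        (B.us_le r f).trans (le_four p1 (by norm_num))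
    · simp only [k2, u2, one_ne_zero, if_false]
      refine dens_of (B.ws_nn _ (by omega)) (B.ws_tot _ (by omega)) fun f =>
        (B.ws_le _ (by omega) f).trans (le_four ?_ (by norm_num))
      omega
  · intro i hi v hv
    rcases hc i hi with rfl | rfl
    · simp only [u2, if_true] at hv
      simp only [s2, t2, if_true]
      refine ⟨B.us_sub r v hv, ?_⟩
      rw [mem_BF]
      have := sd_nonneg' ((0 : ℤ), (0 : ℤ)) v.1
      have h0 : ¬ sd ((0 : ℤ), (0 : ℤ)) v.1 ≤ -1 := by omega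
      exact h0
    · simp only [u2, one_ne_zero, if_false] at hv
      simp only [s2, t2, one_ne_zero, if_false]
      obtain ⟨h1, h2⟩ := B.ws_sub _ (by omega) v hv
      refine ⟨h1, fun h3 => h2 (BF_mono ?_ h3)⟩
      rw [hK1]
      push_cast
      omega

theorem sum_c2 (a : ℝ) : ∑ i ∈ range (1 + 1), c2 a i = 0 := by
  simp [Finset.sum_range_succ, c2]

theorem cs_c2 (a : ℝ) : cs (c2 a) 0 = a := by
  simp [cs, c2]

theorem mm2 (us ws : ℕ → Face →₀ ℝ) (a : ℝ) (K r : ℕ) :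
    mm 1 (c2 a) (u2 us ws K r) = a • (us r - ws ((K + 1) * r)) := by
  unfold mm
  rw [Finset.sum_range_succ, Finset.sum_range_one]
  simp only [c2, u2, if_true, one_ne_zero, if_false]
  rw [smul_sub, neg_smul, sub_eq_add_neg]

/-- number of long loops -/
def N0 (K r : ℕ) (z : Cfz) : ℕ := NN (0, 0) (r : ℤ) ((K * r / 2 : ℕ) : ℤ) z

/-- its generating function -/
def MM (i : ℕ × ℕ) (x : ℝ) : ℝ := ∫ z, x ^ N0 i.1 i.2 z ∂(nu hf)

/-- the difference of the means -/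
def DD (i : ℕ × ℕ) : ℝ := VV (Nat.log 2 (i.1 * i.2)) - VV (Nat.log 2 i.2)

theorem n0_dep (K r : ℕ) : DepF (annF (0, 0) (r : ℤ) ((K * r / 2 : ℕ) : ℤ)) (N0 K r) :=
  NN_dep _ _ _

/-- the exponent of the two-blob system -/
theorem lin2 : ∃ C : ℝ, 0 ≤ C ∧ ∀ (a : ℝ) (K r : ℕ), 2 ≤ K → 2 ≤ r →
    |-lin 1 (c2 a) (k2 K r) - √3 * a * DD (K, r)| ≤ |a| * C := by
  obtain ⟨C, hC, h⟩ := VV_inc
  refine ⟨√3 * C, by positivity, fun a K r hK hr => ?_⟩
  have hKr : 2 * r ≤ K * r := Nat.mul_le_mul_right r hK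
  obtain ⟨l1, l2, l3⟩ := log_half (n := K * r) (by omega)
  unfold lin
  rw [Finset.sum_range_succ, Finset.sum_range_one]
  simp only [c2, k2, if_true, one_ne_zero, if_false, DD]
  have h1 := h (Nat.log 2 (K * r) - 1)
  rw [show Nat.log 2 (K * r) - 1 + 1 = Nat.log 2 (K * r) by omega] at h1
  have e : -(√3 * (a * VV (Nat.log 2 r) + -a * VV (Nat.log 2 (K * r) - 1))) -
      √3 * a * (VV (Nat.log 2 (K * r)) - VV (Nat.log 2 r)) =
      -(a * (√3 * (VV (Nat.log 2 (K * r)) - VV (Nat.log 2 (K * r) - 1)))) := by ring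
  rw [e, abs_neg, abs_mul, abs_mul, abs_of_nonneg (Real.sqrt_nonneg 3), abs_of_nonneg h1.1]
  exact mul_le_mul_of_nonneg_left (mul_le_mul_of_nonneg_left h1.2 (Real.sqrt_nonneg 3))
    (abs_nonneg a)

theorem log_succ_le (K : ℕ) (hK : 1 ≤ K) : log ((K + 1 : ℕ) : ℝ) ≤ log K + log 2 := by
  have h1 : (1 : ℝ) ≤ K := by exact_mod_cast hK
  rw [← Real.log_mul (by positivity) (by norm_num)]
  refine Real.log_le_log (by positivity) ?_
  push_cast
  linarith

theorem kap_eq (a : ℝ) : kap * a ^ 2 / 2 = 3 * a ^ 2 / (4 * π ^ 2) := by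
  unfold kap
  have := Real.pi_pos
  field_simp
  ring

theorem rpow_pow_comm {x : ℝ} (hx : 0 ≤ x) (p : ℝ) (n : ℕ) : (x ^ n) ^ p = (x ^ p) ^ n := by
  rw [← Real.rpow_natCast, ← Real.rpow_mul hx, ← Real.rpow_natCast, ← Real.rpow_mul hx, mul_comm]

/-- the filter of the two scales -/
theorem ev_curry {P : ℕ × ℕ → Prop} (h : ∀ᶠ K : ℕ in atTop, ∀ᶠ r : ℕ in atTop, P (K, r)) :
    ∀ᶠ i in Filter.curry (atTop : Filter ℕ) (atTop : Filter ℕ), P i :=
  Filter.eventually_curry_iff.2 h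

/-- **F1** -/
theorem hF1 (B : Blobs us ws) (a : ℝ) (ha : ff a ≠ 0) {p : ℝ} (hp : 1 < p) :
    ∃ C, 0 < C ∧ ∀ᶠ i in Filter.curry (atTop : Filter ℕ) (atTop : Filter ℕ),
      exp (-(kap * a ^ 2 / 2) * log i.1) ≤
        C * exp (√3 * a * DD i) * (MM i (|ff a| ^ p)) ^ (1 / p) := by
  have hp0 : 0 < p := by linarith
  have hp1 : 0 < p - 1 := by linarith
  set q := p / (p - 1) with hq
  have hq0 : 0 ≤ q := by positivity
  obtain ⟨Cs, hCs, hs⟩ := B.star2 a
  obtain ⟨Cl, hCl, hl⟩ := lin2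
  obtain ⟨G, hG, hsys⟩ := sys_bd 1 (C := 1) zero_le_one 16 (c2 a) (sum_c2 a) (C' := 0) le_rfl hq0
  set k := 3 * a ^ 2 / (4 * π ^ 2) with hk
  have hk0 : 0 ≤ k := by positivity
  refine ⟨Cs * exp (k * log 2) * exp (|a| * Cl) * G ^ ((p - 1) / p), by positivity, ev_curry ?_⟩
  filter_upwards [eventually_ge_atTop 2] with K hK
  filter_upwards [hs (K + 1) (by omega), eventually_ge_atTop 2] with r hr1 hr2
  obtain ⟨S, E, hE1, hE2, hE3, hE4, -⟩ := hsys _ _ _ _ (sys2 B hK hr2)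
  have hneu := ntr_mm (sys2 B hK hr2) (sum_c2 a)
  have hWi := Vx107.integrable_W hneu (nu hf)
  rw [← mm2] at hr1
  have hd := n0_dep K r
  set x := |ff a| with hx
  have hx0 : 0 ≤ x := abs_nonneg _
  -- pointwise
  have hpt : ∀ z, W (mm 1 (c2 a) (u2 us ws K r)) z ≤
      exp (-lin 1 (c2 a) (k2 K r)) * (x ^ N0 K r z * exp (E z)) := by
    intro z
    refine (le_abs_self _).trans ((hE4 z).trans (le_of_eq ?_))
    rw [Finset.prod_range_one, cs_c2, Real.exp_add]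
    have e : NN (0, 0) (s2 K r 0) (t2 K r (0 + 1)) z = N0 K r z := by
      simp [s2, t2, N0]
    rw [e]
    ring
  have hYd : DepF (annF (0, 0) (r : ℤ) ((K * r / 2 : ℕ) : ℤ)) (fun z => x ^ N0 K r z) :=
    hd.comp fun n => x ^ n
  have hho := hoelder_exp (μ := nu hf) hp (Y := fun z => x ^ N0 K r z) (L := E)
    (fun z => pow_nonneg hx0 _) hYd.measurable.aestronglyMeasurable
    hE1.measurable.aestronglyMeasurable ((hYd.comp fun y => y ^ p).integrable _)
    ((hE1.comp fun y => exp (q * y)).integrable _)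
  have hYE : Integrable (fun z => x ^ N0 K r z * exp (E z)) (nu hf) :=
    ((hYd.mono Finset.subset_union_left).mul
      ((hE1.comp fun y => exp y).mono (Finset.subset_union_right (s₁ := annF (0, 0) (r : ℤ)
        ((K * r / 2 : ℕ) : ℤ))))).integrable _
  have h1 : ∫ z, W (mm 1 (c2 a) (u2 us ws K r)) z ∂(nu hf) ≤
      exp (-lin 1 (c2 a) (k2 K r)) * ∫ z, x ^ N0 K r z * exp (E z) ∂(nu hf) := by
    rw [← integral_const_mul]
    exact integral_mono hWi (hYE.const_mul _) hpt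
  have e1 : (∫ z, (x ^ N0 K r z) ^ p ∂(nu hf)) = MM (K, r) (x ^ p) := by
    unfold MM
    refine integral_congr_ae (Filter.Eventually.of_forall fun z => ?_)
    exact rpow_pow_comm hx0 p _
  rw [e1] at hho
  have hM0 : 0 ≤ MM (K, r) (x ^ p) := integral_nonneg fun z => pow_nonneg (Real.rpow_nonneg hx0 _) _
  have h2 : (∫ z, exp (p / (p - 1) * E z) ∂(nu hf)) ^ ((p - 1) / p) ≤ G ^ ((p - 1) / p) :=
    Real.rpow_le_rpow (integral_nonneg fun z => (exp_pos _).le) hE3 (by positivity)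
  have h3 : exp (-lin 1 (c2 a) (k2 K r)) ≤ exp (|a| * Cl) * exp (√3 * a * DD (K, r)) := by
    rw [← Real.exp_add]
    apply exp_le_exp.2
    have := (abs_le.1 (hl a K r hK hr2)).2
    linarith
  have h4 : exp (-(kap * a ^ 2 / 2) * log K) ≤
      exp (k * log 2) * exp (-k * log ((K + 1 : ℕ) : ℝ)) := by
    rw [kap_eq, ← Real.exp_add]
    apply exp_le_exp.2
    have := log_succ_le K (by omega)
    nlinarith
  have h5 : exp (-k * log ((K + 1 : ℕ) : ℝ)) ≤ Cs * ∫ z, W (mm 1 (c2 a) (u2 us ws K r)) z ∂(nu hf) := by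
    have := hr1.1
    rw [div_le_iff₀ hCs] at this
    linarith
  have h6 : ∫ z, W (mm 1 (c2 a) (u2 us ws K r)) z ∂(nu hf) ≤
      (exp (|a| * Cl) * exp (√3 * a * DD (K, r))) *
        ((MM (K, r) (x ^ p)) ^ (1 / p) * G ^ ((p - 1) / p)) := by
    refine h1.trans (mul_le_mul h3 (hho.trans (mul_le_mul_of_nonneg_left h2 (by positivity)))
      (integral_nonneg fun z => by positivity) (by positivity))
  calc exp (-(kap * a ^ 2 / 2) * log ((K, r) : ℕ × ℕ).1)
      ≤ exp (k * log 2) * exp (-k * log ((K + 1 : ℕ) : ℝ)) := h4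
    _ ≤ exp (k * log 2) * (Cs * ((exp (|a| * Cl) * exp (√3 * a * DD (K, r))) *
        ((MM (K, r) (x ^ p)) ^ (1 / p) * G ^ ((p - 1) / p)))) := by
        refine mul_le_mul_of_nonneg_left (h5.trans (mul_le_mul_of_nonneg_left h6 hCs.le)) (by positivity)
    _ = _ := by ring

/-- masses of the two-blob system -/
theorem mass2 (B : Blobs us ws) {K r : ℕ} (hK : 2 ≤ K) (hr : 2 ≤ r) (a : ℝ) (A : Finset Face) :
    |∑ i ∈ range (1 + 1), c2 a i * mass (u2 us ws K r i) A| ≤ |a| := by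
  have H := sys2 B hK hr
  have h0 := H.mass_nonneg (i := 0) (by omega) A
  have h1 := H.mass_nonneg (i := 1) (by omega) A
  have h2 := H.mass_le_one (i := 0) (by omega) A
  have h3 := H.mass_le_one (i := 1) (by omega) A
  rw [Finset.sum_range_succ, Finset.sum_range_one]
  have e : c2 a 0 * mass (u2 us ws K r 0) A + c2 a 1 * mass (u2 us ws K r 1) A =
      a * (mass (u2 us ws K r 0) A - mass (u2 us ws K r 1) A) := by
    simp only [c2, if_true, one_ne_zero, if_false]; ring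
  rw [e, abs_mul]
  refine mul_le_of_le_one_right (abs_nonneg a) ?_
  rw [abs_le]
  constructor <;> linarith

/-- **F2** -/
theorem hF2 (B : Blobs us ws) (a : ℝ) (ha : |a| < π / 6) {p : ℝ} (hp : 1 < p) :
    ∃ C, 0 < C ∧ ∀ᶠ i in Filter.curry (atTop : Filter ℕ) (atTop : Filter ℕ),
      exp (√3 * a * DD i) * (MM i ((ff a) ^ (1 / p))) ^ p ≤
        C * exp (-(kap * a ^ 2 / 2) * log i.1) := by
  have hp0 : 0 < p := by linarith
  have hp1 : 0 < p - 1 := by linarith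
  have hq0 : 0 ≤ 1 / (p - 1) := by positivity
  have hpi := Real.pi_pos
  obtain ⟨Cs, hCs, hs⟩ := B.star2 a
  obtain ⟨Cl, hCl, hl⟩ := lin2
  obtain ⟨C', hC', hlow⟩ := ff_lower (lo := -|a|) (hi := |a|) (by linarith) ha
  obtain ⟨G, hG, hsys⟩ := sys_bd 1 (C := 1) zero_le_one 16 (c2 a) (sum_c2 a) (C' := C') hC' hq0
  set k := 3 * a ^ 2 / (4 * π ^ 2) with hk
  have hk0 : 0 ≤ k := by positivity
  have hfa : 0 < ff a := lt_of_lt_of_le (exp_pos _) (hlow a (neg_abs_le a) (le_abs_self a))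
  refine ⟨Cs * exp (|a| * Cl) * G ^ (p - 1), by positivity, ev_curry ?_⟩
  filter_upwards [eventually_ge_atTop 2] with K hK
  filter_upwards [hs (K + 1) (by omega), eventually_ge_atTop 2] with r hr1 hr2
  obtain ⟨S, E, hE1, hE2, hE3, -, hE5⟩ := hsys _ _ _ _ (sys2 B hK hr2)
  have hneu := ntr_mm (sys2 B hK hr2) (sum_c2 a)
  have hWi := Vx107.integrable_W hneu (nu hf)
  rw [← mm2] at hr1
  have hd := n0_dep K r
  set x := ff a with hx
  have hpt : ∀ z, exp (-lin 1 (c2 a) (k2 K r)) * (x ^ N0 K r z * exp (-E z)) ≤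
      W (mm 1 (c2 a) (u2 us ws K r)) z := by
    intro z
    refine le_trans (le_of_eq ?_) (hE5 z ?_ ?_)
    · rw [Finset.prod_range_one, cs_c2, sub_eq_add_neg, Real.exp_add]
      have e : NN (0, 0) (s2 K r 0) (t2 K r (0 + 1)) z = N0 K r z := by
        simp [s2, t2, N0]
      rw [e]
      ring
    · intro j hj
      have : j = 0 := by omega
      subst this
      rw [cs_c2]
      exact hfa.le
    · intro A _
      have h1 := abs_le.1 (mass2 B hK hr2 a A)
      exact hlow _ h1.1 h1.2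
  have hYd : DepF (annF (0, 0) (r : ℤ) ((K * r / 2 : ℕ) : ℤ)) (fun z => x ^ N0 K r z) :=
    hd.comp fun n => x ^ n
  have hYE : Integrable (fun z => x ^ N0 K r z * exp (-E z)) (nu hf) :=
    ((hYd.mono Finset.subset_union_left).mul
      ((hE1.comp fun y => exp (-y)).mono (Finset.subset_union_right (s₁ := annF (0, 0) (r : ℤ)
        ((K * r / 2 : ℕ) : ℤ))))).integrable _
  have hrev := rev_hoelder (μ := nu hf) hp (Y := fun z => x ^ N0 K r z) (L := E)
    (fun z => pow_nonneg hfa.le _) hYd.measurable.aestronglyMeasurable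
    hE1.measurable.aestronglyMeasurable hYE
    ((hE1.comp fun y => exp (y / (p - 1))).integrable _)
  have e1 : (∫ z, (x ^ N0 K r z) ^ (1 / p) ∂(nu hf)) = MM (K, r) (x ^ (1 / p)) := by
    unfold MM
    refine integral_congr_ae (Filter.Eventually.of_forall fun z => ?_)
    exact rpow_pow_comm hfa.le (1 / p) _
  rw [e1] at hrev
  have e2 : (∫ z, exp (E z / (p - 1)) ∂(nu hf)) = ∫ z, exp (1 / (p - 1) * E z) ∂(nu hf) := by
    refine integral_congr_ae (Filter.Eventually.of_forall fun z => ?_)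
    show exp (E z / (p - 1)) = exp (1 / (p - 1) * E z)
    congr 1
    ring
  rw [e2] at hrev
  have h2 : (∫ z, exp (1 / (p - 1) * E z) ∂(nu hf)) ^ (p - 1) ≤ G ^ (p - 1) :=
    Real.rpow_le_rpow (integral_nonneg fun z => (exp_pos _).le) hE3 hp1.le
  have h1 : exp (-lin 1 (c2 a) (k2 K r)) * ∫ z, x ^ N0 K r z * exp (-E z) ∂(nu hf) ≤
      ∫ z, W (mm 1 (c2 a) (u2 us ws K r)) z ∂(nu hf) := by
    rw [← integral_const_mul]
    exact integral_mono (hYE.const_mul _) hWi hpt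
  have h3 : exp (√3 * a * DD (K, r)) ≤ exp (|a| * Cl) * exp (-lin 1 (c2 a) (k2 K r)) := by
    rw [← Real.exp_add]
    apply exp_le_exp.2
    have := (abs_le.1 (hl a K r hK hr2)).1
    linarith
  have h4 : exp (-k * log ((K + 1 : ℕ) : ℝ)) ≤ exp (-(kap * a ^ 2 / 2) * log K) := by
    rw [kap_eq]
    apply exp_le_exp.2
    have h5 : log (K : ℝ) ≤ log ((K + 1 : ℕ) : ℝ) :=
      Real.log_le_log (by positivity) (by push_cast; linarith)
    nlinarith
  have hI0 : 0 ≤ ∫ z, x ^ N0 K r z * exp (-E z) ∂(nu hf) :=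
    integral_nonneg fun z => by positivity
  calc exp (√3 * a * DD (K, r)) * (MM (K, r) (x ^ (1 / p))) ^ p
      ≤ (exp (|a| * Cl) * exp (-lin 1 (c2 a) (k2 K r))) *
        ((∫ z, x ^ N0 K r z * exp (-E z) ∂(nu hf)) * G ^ (p - 1)) := by
        refine mul_le_mul h3 (hrev.trans (mul_le_mul_of_nonneg_left h2 hI0)) ?_ (by positivity)
        exact Real.rpow_nonneg (integral_nonneg fun z =>
          pow_nonneg (Real.rpow_nonneg hfa.le _) _) _
    _ = exp (|a| * Cl) * G ^ (p - 1) * (exp (-lin 1 (c2 a) (k2 K r)) *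
        ∫ z, x ^ N0 K r z * exp (-E z) ∂(nu hf)) := by ring
    _ ≤ exp (|a| * Cl) * G ^ (p - 1) * (Cs * exp (-k * log ((K + 1 : ℕ) : ℝ))) :=
        mul_le_mul_of_nonneg_left (h1.trans hr1.2) (by positivity)
    _ ≤ exp (|a| * Cl) * G ^ (p - 1) * (Cs * exp (-(kap * a ^ 2 / 2) * log K)) :=
        mul_le_mul_of_nonneg_left (mul_le_mul_of_nonneg_left h4 hCs.le) (by positivity)
    _ = _ := by ring

end Crest.Agent.R158.Wf850
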