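import Crest.Agent.R161.UTurn_374
import Crest.Agent.R158.Rs2_689
import Crest.Agent.R158.FrDef_158
import Crest.Agent.R158.Rs3_689

-- ▼ part R161/Perc_374
section

/-!
Abstract positively associated, lattice-symmetric percolation on `ℤ²` (helper374): configurations,
connection events, the structure `Perc`, and its symmetries on connection events.
-/

set_option autoImplicit false

namespace Crest.Agent.R161.Perc374

open Crest.Agent.R161.Topo374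

/-- Configurations: `ω u v` (or `ω v u`) says that the edge `u v` is open; only nearest neighbours matter. -/
abbrev Cfg := V → V → Prop

/-- open step inside `S` -/
def Stp (ω : Cfg) (S : Set V) (u v : V) : Prop := Nbr u v ∧ (ω u v ∨ ω v u) ∧ u ∈ S ∧ v ∈ S

/-- connection inside `S` -/
def Con (ω : Cfg) (S : Set V) (a b : V) : Prop := a ∈ S ∧ Relation.ReflTransGen (Stp ω S) a b

/-- the rectangle `[x0,x1] × [y0,y1]` -/
def Rc (x0 x1 y0 y1 : ℤ) : Set V := {v | x0 ≤ v.1 ∧ v.1 ≤ x1 ∧ y0 ≤ v.2 ∧ v.2 ≤ y1}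







/-- increasing local events -/
def Good (A : Set Cfg) : Prop :=
  (∀ ω ω' : Cfg, (∀ u v, ω u v → ω' u v) → ω ∈ A → ω' ∈ A) ∧
  ∃ n : ℕ, ∀ ω ω' : Cfg, (∀ u v, u ∈ Rc (-n) n (-n) n → v ∈ Rc (-n) n (-n) n → (ω u v ↔ ω' u v)) →
    (ω ∈ A ↔ ω' ∈ A)

/-- action of a map on configurations -/
def pull (g : V → V) (ω : Cfg) : Cfg := fun u v => ω (g u) (g v)

/-- translation by `z` -/
def tr (z : V) (v : V) : V := (v.1 + z.1, v.2 + z.2)
/-- reflection `x ↦ -x` -/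
def rx (v : V) : V := (-v.1, v.2)
/-- exchange of the coordinates -/
def sw (v : V) : V := (v.2, v.1)

/-- Positively associated, translation and `D4` invariant percolation (only the set function matters). -/
structure Perc where
  Pr : Set Cfg → ℝ
  nonneg : ∀ A, 0 ≤ Pr A
  le_one : ∀ A, Pr A ≤ 1
  mono : ∀ A B, A ⊆ B → Pr A ≤ Pr B
  union_le : ∀ A B, Pr (A ∪ B) ≤ Pr A + Pr B
  univ : Pr Set.univ = 1
  fkg : ∀ A B, Good A → Good B → Pr A * Pr B ≤ Pr (A ∩ B)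
  inv_tr : ∀ z A, Good A → Pr {ω | pull (tr z) ω ∈ A} = Pr A
  inv_rx : ∀ A, Good A → Pr {ω | pull rx ω ∈ A} = Pr A
  inv_sw : ∀ A, Good A → Pr {ω | pull sw ω ∈ A} = Pr A

/-! ### Elementary facts on connections -/

lemma Stp.symm {ω : Cfg} {S : Set V} {u v : V} (h : Stp ω S u v) : Stp ω S v u :=
  ⟨h.1.symm, h.2.1.symm, h.2.2.2, h.2.2.1⟩

lemma Con.left {ω : Cfg} {S : Set V} {a b : V} (h : Con ω S a b) : a ∈ S := h.1

lemma Con.right {ω : Cfg} {S : Set V} {a b : V} (h : Con ω S a b) : b ∈ S := by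
  obtain ⟨ha, h⟩ := h
  induction h with
  | refl => exact ha
  | tail _ h _ => exact h.2.2.2

lemma Con.refl {ω : Cfg} {S : Set V} {a : V} (h : a ∈ S) : Con ω S a a := ⟨h, .refl⟩

lemma Con.trans {ω : Cfg} {S : Set V} {a b c : V} (h : Con ω S a b) (h' : Con ω S b c) : Con ω S a c :=
  ⟨h.1, Relation.ReflTransGen.trans h.2 h'.2⟩

lemma Con.tail {ω : Cfg} {S : Set V} {a b c : V} (h : Con ω S a b) (h' : Stp ω S b c) : Con ω S a c :=
  ⟨h.1, Relation.ReflTransGen.tail h.2 h'⟩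

lemma Con.symm {ω : Cfg} {S : Set V} {a b : V} (h : Con ω S a b) : Con ω S b a := by
  refine ⟨h.right, ?_⟩
  have h1 := h.2
  clear h
  induction h1 with
  | refl => exact .refl
  | tail _ h2 ih => exact Relation.ReflTransGen.head h2.symm ih

lemma Stp.mono {ω ω' : Cfg} {S S' : Set V} (hω : ∀ u v, ω u v → ω' u v) (hS : S ⊆ S') {u v : V}
    (h : Stp ω S u v) : Stp ω' S' u v :=
  ⟨h.1, h.2.1.imp (hω _ _) (hω _ _), hS h.2.2.1, hS h.2.2.2⟩

lemma Con.mono' {ω ω' : Cfg} {S S' : Set V} (hω : ∀ u v, ω u v → ω' u v) (hS : S ⊆ S') {a b : V}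
    (h : Con ω S a b) : Con ω' S' a b := by
  obtain ⟨ha, h⟩ := h
  refine ⟨hS ha, ?_⟩
  induction h with
  | refl => exact .refl
  | tail _ h2 ih => exact ih.tail (h2.mono hω hS)

lemma Con.mono {ω : Cfg} {S S' : Set V} (hS : S ⊆ S') {a b : V}
    (h : Con ω S a b) : Con ω S' a b := h.mono' (fun _ _ h => h) hS





/-! ### Good events -/










/-! ### Transport of connection events -/

/-- `g` with inverse `g'` preserving neighbours -/
structure IsSym (g g' : V → V) : Prop where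
  left : ∀ v, g' (g v) = v
  right : ∀ v, g (g' v) = v
  nbr : ∀ u v, Nbr u v → Nbr (g u) (g v)
  nbr' : ∀ u v, Nbr u v → Nbr (g' u) (g' v)






namespace Perc

variable (P : Perc)




end Perc




namespace Perc

variable (P : Perc)








end Perc

end Crest.Agent.R161.Perc374
end

-- ▼ part R158/Ze1_96
section

/-!
# Row 158, Block Z (helper96), part 1: crossings of rectangles

* `Cn z S a b` : open connection inside the vertex set `S`
* `HX x0 x1 y0 y1`, `VX x0 x1 y0 y1` : left-right / bottom-top crossing of a rectangle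
* `ext_h`, `ext_v` : extraction of crossings from connections
* `cn_cross` : two crossing connections meet
-/

set_option autoImplicit false

noncomputable section

namespace Crest.Agent.R158.Ze96

open MeasureTheory unitInterval
open Crest.Agent.R161.Geo729 Crest.Agent.R161.Topo374 Crest.Agent.R161.Dual374
open Crest.Agent.R158.Rs689
open Crest.Agent.R161.Perc374 (Rc)

/-- open step -/
abbrev Os (z : Cfz) (u v : P2) : Prop := PStep (fun e => z e = true) u v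

/-- open step inside a vertex set -/
def Sp (z : Cfz) (S : Set P2) (u v : P2) : Prop := Os z u v ∧ u ∈ S ∧ v ∈ S

/-- open connection inside a vertex set -/
def Cn (z : Cfz) (S : Set P2) (a b : P2) : Prop := Relation.ReflTransGen (Sp z S) a b

theorem rtg_mono {α : Type*} {r s : α → α → Prop} (h : ∀ a b, r a b → s a b) {a b : α}
    (hab : Relation.ReflTransGen r a b) : Relation.ReflTransGen s a b := by
  induction hab with
  | refl => exact Relation.ReflTransGen.refl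
  | tail _ h2 ih => exact ih.tail (h _ _ h2)

theorem pstep_nbr {Z : Edge → Prop} {u v : P2} (h : PStep Z u v) : Nbr u v := by
  obtain ⟨e, -, h⟩ := h
  exact nbr_iff.2 ⟨e, h⟩

theorem Sp.symm {z : Cfz} {S : Set P2} {u v : P2} (h : Sp z S u v) : Sp z S v u :=
  ⟨h.1.symm, h.2.2, h.2.1⟩

theorem Cn.refl {z : Cfz} {S : Set P2} (a : P2) : Cn z S a a := Relation.ReflTransGen.refl

theorem Cn.trans {z : Cfz} {S : Set P2} {a b c : P2} (h : Cn z S a b) (h' : Cn z S b c) :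
    Cn z S a c := Relation.ReflTransGen.trans h h'

theorem Cn.symm {z : Cfz} {S : Set P2} {a b : P2} (h : Cn z S a b) : Cn z S b a := by
  induction h with
  | refl => exact Relation.ReflTransGen.refl
  | tail _ h2 ih => exact Relation.ReflTransGen.head h2.symm ih

theorem Cn.mono {z : Cfz} {S T : Set P2} (hST : S ⊆ T) {a b : P2} (h : Cn z S a b) :
    Cn z T a b :=
  rtg_mono (fun _ _ h => ⟨h.1, hST h.2.1, hST h.2.2⟩) h


theorem Cn.right {z : Cfz} {S : Set P2} {a b : P2} (h : Cn z S a b) (ha : a ∈ S) : b ∈ S := by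
  induction h with
  | refl => exact ha
  | tail _ h2 _ => exact h2.2.2

/-- connection inside a set: all vertices of the path are reached -/
theorem Cn.self {z : Cfz} {S : Set P2} {a b : P2} (h : Cn z S a b) :
    Cn z {w | Cn z S a w} a b := by
  induction h with
  | refl => exact Relation.ReflTransGen.refl
  | tail h1 h2 ih => exact ih.tail ⟨h2.1, h1, h1.tail h2⟩

theorem Cn.rch {z : Cfz} {S : Set P2} {a b : P2} (h : Cn z S a b) : Rch z a b :=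
  rtg_mono (fun _ _ h => h.1) h

theorem cn_univ {z : Cfz} {a b : P2} : Cn z Set.univ a b ↔ Rch z a b :=
  ⟨Cn.rch, fun h => rtg_mono (fun _ _ h => ⟨h, trivial, trivial⟩) h⟩

theorem Cn.walk {z : Cfz} {S : Set P2} {a b : P2} (h : Cn z S a b) :
    Walk {w | Cn z S a w} a b := by
  refine ⟨Cn.refl a, ?_⟩
  have h' := h.self
  exact rtg_mono (fun u v h => ⟨pstep_nbr h.1, h.2⟩) h'

/-- **Crossing connections meet.** -/
theorem cn_cross {z : Cfz} {S1 S2 : Set P2} {a b p q : P2} (h1 : Cn z S1 a b) (h2 : Cn z S2 p q)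
    (ha : a ∈ S1) (hp : p ∈ S2)
    (hy : ∀ w ∈ S1, p.2 ≤ w.2 ∧ w.2 ≤ q.2) (hx : ∀ w ∈ S2, a.1 ≤ w.1 ∧ w.1 ≤ b.1) :
    ∃ w, Cn z S1 a w ∧ Cn z S2 p w := by
  obtain ⟨w, hw1, hw2⟩ := cross h1.walk h2.walk (fun w hw => hy w (Cn.right hw ha))
    (fun w hw => hx w (Cn.right hw hp))
  exact ⟨w, hw1, hw2⟩

/-! ### crossings -/

/-- left-right crossing of the rectangle by open edges -/
def HX (x0 x1 y0 y1 : ℤ) : Set Cfz :=
  {z | ∃ a b : P2, a.1 = x0 ∧ y0 ≤ a.2 ∧ a.2 ≤ y1 ∧ b.1 = x1 ∧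
    Relation.ReflTransGen (PStep (fun e => z e = true ∧ RE x0 x1 y0 y1 e)) a b}

theorem re_src {x0 x1 y0 y1 : ℤ} {e : Edge} (h : RE x0 x1 y0 y1 e) :
    src e ∈ Rc x0 x1 y0 y1 ∧ tgt e ∈ Rc x0 x1 y0 y1 := by
  obtain ⟨⟨ex, ey⟩, c⟩ := e
  unfold RE at h
  cases c <;> simp [Rc] at h ⊢ <;> omega

theorem hx_cn {z : Cfz} {x0 x1 y0 y1 : ℤ} (hx : x0 ≤ x1) (h : z ∈ HX x0 x1 y0 y1) :
    ∃ a b : P2, a.1 = x0 ∧ b.1 = x1 ∧ a ∈ Rc x0 x1 y0 y1 ∧ b ∈ Rc x0 x1 y0 y1 ∧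
      Cn z (Rc x0 x1 y0 y1) a b := by
  obtain ⟨a, b, h1, h2, h3, h4, h5⟩ := h
  have ha : a ∈ Rc x0 x1 y0 y1 := ⟨h1.ge, h1.le.trans hx, h2, h3⟩
  have h6 : Cn z (Rc x0 x1 y0 y1) a b := by
    refine rtg_mono (fun u v h => ?_) h5
    obtain ⟨e, ⟨he1, he2⟩, h⟩ := h
    refine ⟨⟨e, he1, h⟩, ?_⟩
    obtain ⟨h7, h8⟩ := re_src he2
    rcases h with ⟨rfl, rfl⟩ | ⟨rfl, rfl⟩
    · exact ⟨h7, h8⟩
    · exact ⟨h8, h7⟩
  exact ⟨a, b, h1, h4, ha, h6.right ha, h6⟩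

/-- **Extraction of a left-right crossing.** -/
theorem ext_h {z : Cfz} {S : Set P2} {a b : P2} {x0 x1 y0 y1 : ℤ} (h : Cn z S a b)
    (hS : ∀ v ∈ S, y0 ≤ v.2 ∧ v.2 ≤ y1) (ha : a.1 ≤ x0) (hb : x1 ≤ b.1) (hx : x0 < x1) :
    z ∈ HX x0 x1 y0 y1 := by
  have key : ∀ w, Cn z S a w → (w.1 ≤ x0) ∨ (x0 < w.1 ∧ w.1 < x1 ∧ ∃ a' : P2, a'.1 = x0 ∧
      y0 ≤ a'.2 ∧ a'.2 ≤ y1 ∧
      Relation.ReflTransGen (PStep (fun e => z e = true ∧ RE x0 x1 y0 y1 e)) a' w) ∨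
      z ∈ HX x0 x1 y0 y1 := by
    intro w hw
    induction hw with
    | refl => exact Or.inl ha
    | @tail u w h1 h2 ih =>
      obtain ⟨⟨e, he, h3⟩, hu, hw⟩ := h2
      have hu' := hS u hu
      have hw' := hS w hw
      rcases ih with ih | ⟨h4, h5, a', h6, h7, h8, h9⟩ | ih
      · by_cases hwx : w.1 ≤ x0
        · exact Or.inl hwx
        right
        obtain ⟨⟨ex, ey⟩, c⟩ := e
        obtain ⟨ux, uy⟩ := u
        obtain ⟨wx, wy⟩ := w
        have h10 : ux = x0 ∧ wx = x0 + 1 ∧ uy = wy ∧ c = false ∧ ex = ux ∧ ey = uy := by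
          cases c <;> rcases h3 with ⟨h3, h3'⟩ | ⟨h3, h3'⟩ <;>
            simp only [src_mk, tgt_h, tgt_v, Prod.mk.injEq] at h3 h3' ih hwx ⊢ <;>
            refine ⟨?_, ?_, ?_, ?_, ?_, ?_⟩ <;> first | omega | rfl | trivial
        obtain ⟨rfl, rfl, rfl, rfl, rfl, rfl⟩ := h10
        simp only at hu' hw'
        have h11 : PStep (fun e => z e = true ∧ RE ex x1 y0 y1 e) (ex, ey) (ex + 1, ey) :=
          ⟨((ex, ey), false), ⟨he, Or.inl ⟨rfl, le_refl _, hx, hu'.1, hu'.2⟩⟩, Or.inl ⟨rfl, rfl⟩⟩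
        by_cases hw1 : ex + 1 < x1
        · left
          exact ⟨by simp, hw1, (ex, ey), rfl, hu'.1, hu'.2, .single h11⟩
        · right
          exact ⟨(ex, ey), (ex + 1, ey), rfl, hu'.1, hu'.2, by simp only; omega, .single h11⟩
      · by_cases hwx : w.1 ≤ x0
        · exact Or.inl hwx
        right
        have h10 : RE x0 x1 y0 y1 e := by
          obtain ⟨⟨ex, ey⟩, c⟩ := e
          obtain ⟨ux, uy⟩ := u
          obtain ⟨wx, wy⟩ := w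
          unfold RE
          cases c <;> rcases h3 with ⟨h3, h3'⟩ | ⟨h3, h3'⟩ <;>
            simp only [src_mk, tgt_h, tgt_v, Prod.mk.injEq] at h3 h3' h4 h5 hwx hu' hw' ⊢ <;>
            simp <;> omega
        have h11 : PStep (fun e => z e = true ∧ RE x0 x1 y0 y1 e) u w := ⟨e, ⟨he, h10⟩, h3⟩
        by_cases hw1 : w.1 < x1
        · left
          exact ⟨by omega, hw1, a', h6, h7, h8, h9.tail h11⟩
        · right
          refine ⟨a', w, h6, h7, h8, ?_, h9.tail h11⟩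
          have := pstep_nbr h11
          unfold Nbr at this
          omega
      · exact Or.inr (Or.inr ih)
  rcases key b h with h1 | ⟨h1, h2, -⟩ | h1
  · omega
  · omega
  · exact h1

/-- the crossing of a smaller width rectangle contained in a wide one -/
theorem hx_sub {x0 x1 y0 y1 X0 X1 Y0 Y1 : ℤ} (h0 : X0 ≤ x0) (h1 : x0 < x1) (h2 : x1 ≤ X1)
    (h3 : y0 ≤ Y0) (h4 : Y1 ≤ y1) : HX X0 X1 Y0 Y1 ⊆ HX x0 x1 y0 y1 := by
  intro z hz
  obtain ⟨a, b, ha, hb, ha', hb', h⟩ := hx_cn (by omega) hz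
  exact ext_h h (fun v hv => ⟨h3.trans hv.2.2.1, hv.2.2.2.trans h4⟩) (by omega) (by omega) h1

/-! ### dependence -/

/-- edges of `RE` as a finset -/
def REf (x0 x1 y0 y1 : ℤ) : Finset Edge := by
  classical
  exact ((Finset.Icc x0 x1 ×ˢ Finset.Icc y0 y1) ×ˢ Finset.univ).filter (RE x0 x1 y0 y1)

theorem mem_REf {x0 x1 y0 y1 : ℤ} {e : Edge} : e ∈ REf x0 x1 y0 y1 ↔ RE x0 x1 y0 y1 e := by
  classical
  unfold REf
  simp only [Finset.mem_filter, Finset.mem_product, Finset.mem_Icc, Finset.mem_univ, and_true,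
    and_iff_right_iff_imp]
  intro h
  have h1 := (re_src h).1
  simp only [src, Rc, Set.mem_ofPred_eq] at h1
  omega

theorem dep_HX (x0 x1 y0 y1 : ℤ) : Dep (REf x0 x1 y0 y1) (HX x0 x1 y0 y1) := by
  intro z z' h
  have h1 : (fun e => z e = true ∧ RE x0 x1 y0 y1 e) = fun e => z' e = true ∧ RE x0 x1 y0 y1 e := by
    funext e
    by_cases he : RE x0 x1 y0 y1 e
    · rw [h e (mem_REf.2 he)]
    · simp [he]
  unfold HX
  simp only [Set.mem_ofPred_eq, h1]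

theorem inc_HX (x0 x1 y0 y1 : ℤ) : Inc (HX x0 x1 y0 y1) := by
  rintro z z' h ⟨a, b, h1, h2, h3, h4, h5⟩
  refine ⟨a, b, h1, h2, h3, h4, ?_⟩
  exact rtg_mono (fun u v ⟨e, he, h6⟩ => ⟨e, ⟨h e he.1, he.2⟩, h6⟩) h5

theorem meas_HX (x0 x1 y0 y1 : ℤ) : MeasurableSet (HX x0 x1 y0 y1) :=
  (dep_HX x0 x1 y0 y1).measurableSet

/-! ### symmetries -/

/-- a symmetry of the lattice: a map on vertices and on edges -/
structure LS where
  f : P2 → P2
  E : Edge ≃ Edge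
  st : ∀ e, (src (E e) = f (src e) ∧ tgt (E e) = f (tgt e)) ∨
    (src (E e) = f (tgt e) ∧ tgt (E e) = f (src e))

/-- action on configurations: `(g • z) (E e) = z e` -/
def LS.act (g : LS) (z : Cfz) : Cfz := fun e => z (g.E.symm e)

theorem LS.act_E (g : LS) (z : Cfz) (e : Edge) : g.act z (g.E e) = z e := by simp [LS.act]

theorem LS.step (g : LS) {Z : Edge → Prop} {Z' : Edge → Prop} (hZ : ∀ e, Z e → Z' (g.E e))
    {u v : P2} (h : PStep Z u v) : PStep Z' (g.f u) (g.f v) := by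
  obtain ⟨e, he, h⟩ := h
  refine ⟨g.E e, hZ e he, ?_⟩
  rcases g.st e with ⟨h1, h2⟩ | ⟨h1, h2⟩ <;> rcases h with ⟨rfl, rfl⟩ | ⟨rfl, rfl⟩
  · exact Or.inl ⟨h1.symm, h2.symm⟩
  · exact Or.inr ⟨h2.symm, h1.symm⟩
  · exact Or.inr ⟨h2.symm, h1.symm⟩
  · exact Or.inl ⟨h1.symm, h2.symm⟩

theorem LS.rtg (g : LS) {Z : Edge → Prop} {Z' : Edge → Prop} (hZ : ∀ e, Z e → Z' (g.E e))
    {u v : P2} (h : Relation.ReflTransGen (PStep Z) u v) :
    Relation.ReflTransGen (PStep Z') (g.f u) (g.f v) := by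
  induction h with
  | refl => exact Relation.ReflTransGen.refl
  | tail _ h2 ih => exact ih.tail (g.step hZ h2)

theorem LS.cn (g : LS) {z : Cfz} {S T : Set P2} (hST : ∀ v ∈ S, g.f v ∈ T) {u v : P2}
    (h : Cn z S u v) : Cn (g.act z) T (g.f u) (g.f v) := by
  induction h with
  | refl => exact Relation.ReflTransGen.refl
  | tail _ h2 ih =>
    exact ih.tail ⟨g.step (fun e he => by rw [g.act_E]; exact he) h2.1, hST _ h2.2.1,
      hST _ h2.2.2⟩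

theorem LS.map (g : LS) (p : I) : (PB fun _ : Edge => p).map g.act = PB fun _ : Edge => p :=
  PB_map_equiv g.E (fun _ => p)

theorem LS.meas (g : LS) : Measurable g.act :=
  measurable_pi_lambda _ fun _ => measurable_pi_apply _

theorem LS.real (g : LS) (p : I) {A : Set Cfz} (hA : MeasurableSet A) :
    (PB fun _ : Edge => p).real (g.act ⁻¹' A) = (PB fun _ : Edge => p).real A := by
  conv_rhs => rw [← g.map p]
  rw [measureReal_def, measureReal_def, Measure.map_apply g.meas hA]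

/-- translation -/
def tL (s t : ℤ) : LS where
  f v := (v.1 + s, v.2 + t)
  E := { toFun := fun e => ((e.1.1 + s, e.1.2 + t), e.2)
         invFun := fun e => ((e.1.1 - s, e.1.2 - t), e.2)
         left_inv := by rintro ⟨⟨a, b⟩, c⟩; simp
         right_inv := by rintro ⟨⟨a, b⟩, c⟩; simp }
  st := by
    rintro ⟨⟨a, b⟩, c⟩
    left
    cases c <;> simp <;> ring

/-- exchange of the coordinates -/
def sL : LS where
  f v := (v.2, v.1)
  E := { toFun := fun e => ((e.1.2, e.1.1), !e.2)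
         invFun := fun e => ((e.1.2, e.1.1), !e.2)
         left_inv := by rintro ⟨⟨a, b⟩, c⟩; simp
         right_inv := by rintro ⟨⟨a, b⟩, c⟩; simp }
  st := by
    rintro ⟨⟨a, b⟩, c⟩
    left
    cases c <;> simp


/-- translated crossings -/
theorem hx_tr (s t x0 x1 y0 y1 : ℤ) {z : Cfz} :
    (tL s t).act z ∈ HX (x0 + s) (x1 + s) (y0 + t) (y1 + t) ↔ z ∈ HX x0 x1 y0 y1 := by
  have aux : ∀ (s t x0 x1 y0 y1 : ℤ) (z : Cfz), z ∈ HX x0 x1 y0 y1 →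
      (tL s t).act z ∈ HX (x0 + s) (x1 + s) (y0 + t) (y1 + t) := by
    rintro s t x0 x1 y0 y1 z ⟨a, b, h1, h2, h3, h4, h5⟩
    refine ⟨(tL s t).f a, (tL s t).f b, by simp [tL, h1], by simp [tL, h2], by simp [tL, h3],
      by simp [tL, h4], (tL s t).rtg (fun e he => ⟨?_, ?_⟩) h5⟩
    · rw [LS.act_E]; exact he.1
    · obtain ⟨⟨ex, ey⟩, c⟩ := e
      have := he.2
      unfold RE at this ⊢
      simp only [tL, Equiv.coe_fn_mk] at this ⊢
      cases c <;> simp at this ⊢ <;> omega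
  constructor
  · intro h
    have h1 := aux (-s) (-t) _ _ _ _ _ h
    have h2 : (tL (-s) (-t)).act ((tL s t).act z) = z := by
      funext e
      simp only [LS.act, tL, Equiv.coe_fn_symm_mk]
      congr 1
      obtain ⟨⟨a, b⟩, c⟩ := e
      simp
    rw [h2] at h1
    have h3 : x0 + s + -s = x0 := by ring
    have h4 : x1 + s + -s = x1 := by ring
    have h5 : y0 + t + -t = y0 := by ring
    have h6 : y1 + t + -t = y1 := by ring
    rwa [h3, h4, h5, h6] at h1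
  · exact aux s t x0 x1 y0 y1 z

/-- probability of a crossing event -/
abbrev Pr (p : I) (A : Set Cfz) : ℝ := (PB fun _ : Edge => p).real A

theorem pr_hx_tr (p : I) (s t x0 x1 y0 y1 : ℤ) :
    Pr p (HX (x0 + s) (x1 + s) (y0 + t) (y1 + t)) = Pr p (HX x0 x1 y0 y1) := by
  have h := (tL s t).real p (meas_HX (x0 + s) (x1 + s) (y0 + t) (y1 + t))
  have h2 : (tL s t).act ⁻¹' HX (x0 + s) (x1 + s) (y0 + t) (y1 + t) = HX x0 x1 y0 y1 := by
    ext z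
    exact hx_tr s t x0 x1 y0 y1
  rw [h2] at h
  exact h.symm

theorem pr_hx_eq (p : I) {x0 x1 y0 y1 X0 X1 Y0 Y1 : ℤ} (h1 : X1 - X0 = x1 - x0)
    (h2 : Y1 - Y0 = y1 - y0) : Pr p (HX X0 X1 Y0 Y1) = Pr p (HX x0 x1 y0 y1) := by
  have := pr_hx_tr p (X0 - x0) (Y0 - y0) x0 x1 y0 y1
  rw [← this]
  congr 2 <;> omega

/-- bottom-top crossing -/
def VX (x0 x1 y0 y1 : ℤ) : Set Cfz := sL.act ⁻¹' HX y0 y1 x0 x1

theorem meas_VX (x0 x1 y0 y1 : ℤ) : MeasurableSet (VX x0 x1 y0 y1) :=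
  sL.meas (meas_HX _ _ _ _)

theorem pr_VX (p : I) (x0 x1 y0 y1 : ℤ) : Pr p (VX x0 x1 y0 y1) = Pr p (HX y0 y1 x0 x1) :=
  sL.real p (meas_HX _ _ _ _)

theorem sL_sL (z : Cfz) : sL.act (sL.act z) = z := by
  funext e
  simp only [LS.act, sL, Equiv.coe_fn_symm_mk]
  congr 1
  obtain ⟨⟨a, b⟩, c⟩ := e
  simp

theorem vx_cn {z : Cfz} {x0 x1 y0 y1 : ℤ} (hy : y0 ≤ y1) (h : z ∈ VX x0 x1 y0 y1) :
    ∃ a b : P2, a.2 = y0 ∧ b.2 = y1 ∧ a ∈ Rc x0 x1 y0 y1 ∧ b ∈ Rc x0 x1 y0 y1 ∧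
      Cn z (Rc x0 x1 y0 y1) a b := by
  obtain ⟨a, b, h1, h2, h3, h4, h5⟩ := hx_cn hy h
  have h6 := sL.cn (T := Rc x0 x1 y0 y1) (fun v hv => by
    simp only [sL, Rc, Set.mem_ofPred_eq] at hv ⊢; omega) h5
  rw [sL_sL] at h6
  refine ⟨sL.f a, sL.f b, h1, h2, ?_, ?_, h6⟩
  · simp only [sL, Rc, Set.mem_ofPred_eq] at h3 ⊢; omega
  · simp only [sL, Rc, Set.mem_ofPred_eq] at h4 ⊢; omega

/-- **Extraction of a bottom-top crossing.** -/
theorem ext_v {z : Cfz} {S : Set P2} {a b : P2} {x0 x1 y0 y1 : ℤ} (h : Cn z S a b)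
    (hS : ∀ v ∈ S, x0 ≤ v.1 ∧ v.1 ≤ x1) (ha : a.2 ≤ y0) (hb : y1 ≤ b.2) (hy : y0 < y1) :
    z ∈ VX x0 x1 y0 y1 := by
  have h1 := sL.cn (T := {v | (v.2, v.1) ∈ S}) (fun v hv => hv) h
  exact ext_h h1 (fun v hv => hS (v.2, v.1) hv) ha hb hy

theorem inc_VX (x0 x1 y0 y1 : ℤ) : Inc (VX x0 x1 y0 y1) := by
  intro z z' h hz
  exact inc_HX _ _ _ _ _ _ (fun e he => h _ he) hz

/-- edges of `VX` -/
def REv (x0 x1 y0 y1 : ℤ) : Finset Edge := (REf y0 y1 x0 x1).map sL.E.toEmbedding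

theorem dep_VX (x0 x1 y0 y1 : ℤ) : Dep (REv x0 x1 y0 y1) (VX x0 x1 y0 y1) := by
  intro z z' h
  refine dep_HX y0 y1 x0 x1 _ _ fun e he => ?_
  refine h _ ?_
  unfold REv
  rw [Finset.mem_map]
  refine ⟨e, he, ?_⟩
  obtain ⟨⟨a, b⟩, c⟩ := e
  simp [sL]

end Crest.Agent.R158.Ze96
end
end

-- ▼ part R158/Ze2_96
section

/-!
# Row 158, Block Z (helper96), part 2: renormalisation, exponential decay

* `Q p n` : probability of the easy crossing of `[0,n] × [0,3n]`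
* `Q_two` : `Q p (2n) ≤ 64 (Q p n)²`
* `Q_pow` : `Q p (2^j M) ≤ exp(-2^(j+1)) / 64` if `Q p M ≤ 1/500`
* `arm_decay` : `P(0 ↔ Out R) ≤ exp(-R/(2M))` for `R ≥ 2M`
-/

set_option autoImplicit false

noncomputable section

namespace Crest.Agent.R158.Ze96

open MeasureTheory unitInterval
open Crest.Agent.R161.Geo729 Crest.Agent.R161.Topo374 Crest.Agent.R161.Dual374
open Crest.Agent.R158.Rs689
open Crest.Agent.R161.Perc374 (Rc)

theorem Pr_nonneg (p : I) (A : Set Cfz) : 0 ≤ Pr p A := measureReal_nonneg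

theorem Pr_mono (p : I) {A B : Set Cfz} (h : A ⊆ B) : Pr p A ≤ Pr p B :=
  measureReal_mono h

theorem Pr_union_le (p : I) (A B : Set Cfz) : Pr p (A ∪ B) ≤ Pr p A + Pr p B :=
  measureReal_union_le A B

/-- easy crossing probability -/
def Q (p : I) (n : ℤ) : ℝ := Pr p (HX 0 n 0 (3 * n))

theorem Q_nonneg (p : I) (n : ℤ) : 0 ≤ Q p n := Pr_nonneg _ _

/-- **Windows.** -/
theorem windows {n : ℤ} (hn : 1 ≤ n) {z : Cfz} (h : z ∈ HX 0 n 0 (6 * n)) :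
    (z ∈ HX 0 n 0 (3 * n) ∨ z ∈ HX 0 n n (4 * n) ∨ z ∈ HX 0 n (2 * n) (5 * n) ∨
      z ∈ HX 0 n (3 * n) (6 * n)) ∨
    (z ∈ VX 0 n n (2 * n) ∨ z ∈ VX 0 n (2 * n) (3 * n) ∨ z ∈ VX 0 n (3 * n) (4 * n) ∨
      z ∈ VX 0 n (4 * n) (5 * n)) := by
  obtain ⟨a, b, ha, hb, ha', hb', h⟩ := hx_cn (by omega) h
  by_contra hcon
  push Not at hcon
  obtain ⟨⟨w0, w1, w2, w3⟩, v1, v2, v3, v4⟩ := hcon
  have hS : ∀ v ∈ Rc 0 n 0 (6 * n), 0 ≤ v.1 ∧ v.1 ≤ n := fun v hv => ⟨hv.1, hv.2.1⟩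
  have up : ∀ y0 y1 : ℤ, y0 < y1 → a.2 ≤ y0 → z ∉ VX 0 n y0 y1 →
      ∀ w, Cn z (Rc 0 n 0 (6 * n)) a w → w.2 < y1 := by
    intro y0 y1 hy h1 h2 w hw
    by_contra h3
    exact h2 (ext_v hw hS h1 (by omega) hy)
  have dn : ∀ y0 y1 : ℤ, y0 < y1 → y1 ≤ a.2 → z ∉ VX 0 n y0 y1 →
      ∀ w, Cn z (Rc 0 n 0 (6 * n)) a w → y0 < w.2 := by
    intro y0 y1 hy h1 h2 w hw
    by_contra h3
    exact h2 (ext_v hw.symm hS (by omega) h1 hy)
  have fin : ∀ y0 y1 : ℤ, (∀ w, Cn z (Rc 0 n 0 (6 * n)) a w → y0 ≤ w.2 ∧ w.2 ≤ y1) →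
      z ∈ HX 0 n y0 y1 := by
    intro y0 y1 h1
    exact ext_h h.self (fun v hv => h1 v hv) (by omega) (by omega) (by omega)
  have hr : ∀ w, Cn z (Rc 0 n 0 (6 * n)) a w → 0 ≤ w.2 ∧ w.2 ≤ 6 * n :=
    fun w hw => ⟨(hw.right ha').2.2.1, (hw.right ha').2.2.2⟩
  by_cases c1 : a.2 ≤ 2 * n
  · refine w0 (fin _ _ fun w hw => ⟨(hr w hw).1, ?_⟩)
    have := up _ _ (by omega) c1 v2 w hw
    omega
  by_cases c2 : a.2 ≤ 3 * n
  · refine w1 (fin _ _ fun w hw => ?_)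
    have h1 := up _ _ (by omega) c2 v3 w hw
    have h2 := dn _ _ (by omega) (by omega) v1 w hw
    omega
  by_cases c3 : a.2 ≤ 4 * n
  · refine w2 (fin _ _ fun w hw => ?_)
    have h1 := up _ _ (by omega) c3 v4 w hw
    have h2 := dn _ _ (by omega) (by omega) v2 w hw
    omega
  · refine w3 (fin _ _ fun w hw => ?_)
    have h2 := dn _ _ (by omega) (by omega) v3 w hw
    have h3 := hr w hw
    omega

theorem pr_six (p : I) {n : ℤ} (hn : 1 ≤ n) : Pr p (HX 0 n 0 (6 * n)) ≤ 8 * Q p n := by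
  have h1 : HX 0 n 0 (6 * n) ⊆
      (HX 0 n 0 (3 * n) ∪ (HX 0 n n (4 * n) ∪ (HX 0 n (2 * n) (5 * n) ∪
        HX 0 n (3 * n) (6 * n)))) ∪
      (VX 0 n n (2 * n) ∪ (VX 0 n (2 * n) (3 * n) ∪ (VX 0 n (3 * n) (4 * n) ∪
        VX 0 n (4 * n) (5 * n)))) := fun z hz => windows hn hz
  have hv : ∀ k : ℤ, Pr p (VX 0 n k (k + n)) ≤ Q p n := by
    intro k
    rw [pr_VX]
    have h2 : Pr p (HX k (k + n) 0 n) = Pr p (HX 0 n 0 n) := pr_hx_eq p (by ring) (by ring)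
    rw [h2]
    exact Pr_mono p (hx_sub (le_refl _) (by omega) (le_refl _) (le_refl _) (by omega))
  have e1 : Pr p (HX 0 n 0 (3 * n)) = Q p n := rfl
  have e2 : Pr p (HX 0 n n (4 * n)) = Q p n := pr_hx_eq p (by ring) (by ring)
  have e3 : Pr p (HX 0 n (2 * n) (5 * n)) = Q p n := pr_hx_eq p (by ring) (by ring)
  have e4 : Pr p (HX 0 n (3 * n) (6 * n)) = Q p n := pr_hx_eq p (by ring) (by ring)
  have f1 := hv n
  have f2 := hv (2 * n)
  have f3 := hv (3 * n)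
  have f4 := hv (4 * n)
  rw [show n + n = 2 * n by ring] at f1
  rw [show 2 * n + n = 3 * n by ring] at f2
  rw [show 3 * n + n = 4 * n by ring] at f3
  rw [show 4 * n + n = 5 * n by ring] at f4
  refine (Pr_mono p h1).trans ((Pr_union_le p _ _).trans ?_)
  have g1 := Pr_union_le p (HX 0 n 0 (3 * n)) (HX 0 n n (4 * n) ∪ (HX 0 n (2 * n) (5 * n) ∪
        HX 0 n (3 * n) (6 * n)))
  have g2 := Pr_union_le p (HX 0 n n (4 * n)) (HX 0 n (2 * n) (5 * n) ∪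
        HX 0 n (3 * n) (6 * n))
  have g3 := Pr_union_le p (HX 0 n (2 * n) (5 * n)) (HX 0 n (3 * n) (6 * n))
  have g4 := Pr_union_le p (VX 0 n n (2 * n)) (VX 0 n (2 * n) (3 * n) ∪ (VX 0 n (3 * n) (4 * n) ∪
        VX 0 n (4 * n) (5 * n)))
  have g5 := Pr_union_le p (VX 0 n (2 * n) (3 * n)) (VX 0 n (3 * n) (4 * n) ∪
        VX 0 n (4 * n) (5 * n))
  have g6 := Pr_union_le p (VX 0 n (3 * n) (4 * n)) (VX 0 n (4 * n) (5 * n))
  linarith

/-- **Renormalisation inequality.** -/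
theorem Q_two (p : I) {n : ℤ} (hn : 1 ≤ n) : Q p (2 * n) ≤ 64 * Q p n ^ 2 := by
  have h1 : HX 0 (2 * n) 0 (3 * (2 * n)) ⊆ HX 0 n 0 (6 * n) ∩ HX n (2 * n) 0 (6 * n) := by
    intro z hz
    rw [show 3 * (2 * n) = 6 * n by ring] at hz
    exact ⟨hx_sub (le_refl _) (by omega) (by omega) (le_refl _) (le_refl _) hz,
      hx_sub (by omega) (by omega) (le_refl _) (le_refl _) (le_refl _) hz⟩
  have hd : Disjoint (REf 0 n 0 (6 * n)) (REf n (2 * n) 0 (6 * n)) := by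
    rw [Finset.disjoint_left]
    intro e h1 h2
    rw [mem_REf] at h1 h2
    unfold RE at h1 h2
    omega
  have h2 := PB_indep_real (fun _ : Edge => p) hd (dep_HX 0 n 0 (6 * n))
    (dep_HX n (2 * n) 0 (6 * n))
  have h3 : Pr p (HX n (2 * n) 0 (6 * n)) = Pr p (HX 0 n 0 (6 * n)) :=
    pr_hx_eq p (by ring) (by ring)
  have h4 := pr_six p hn
  have h5 := Pr_nonneg p (HX 0 n 0 (6 * n))
  calc Q p (2 * n) ≤ Pr p (HX 0 n 0 (6 * n) ∩ HX n (2 * n) 0 (6 * n)) := Pr_mono p h1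
    _ = Pr p (HX 0 n 0 (6 * n)) * Pr p (HX n (2 * n) 0 (6 * n)) := h2
    _ = Pr p (HX 0 n 0 (6 * n)) ^ 2 := by rw [h3]; ring
    _ ≤ (8 * Q p n) ^ 2 := pow_le_pow_left₀ h5 h4 2
    _ = 64 * Q p n ^ 2 := by ring

theorem exp_two_le : Real.exp 2 ≤ 7.4 := by
  have h : Real.exp 1 ≤ 2.7182818286 := Real.exp_one_lt_d9.le
  have h2 : Real.exp 2 = Real.exp 1 ^ 2 := by rw [← Real.exp_nat_mul]; norm_num
  rw [h2]
  have h3 := Real.exp_pos 1
  nlinarith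

theorem Q_pow (p : I) {M : ℤ} (hM : 1 ≤ M) (h : Q p M ≤ 1 / 500) (j : ℕ) :
    Q p (2 ^ j * M) ≤ Real.exp (-(2 : ℝ) ^ (j + 1)) / 64 := by
  induction j with
  | zero =>
    simp only [pow_zero, one_mul, zero_add, pow_one]
    rw [Real.exp_neg]
    have h1 := exp_two_le
    have h2 : (0 : ℝ) < Real.exp 2 := Real.exp_pos 2
    have h3 : (1 : ℝ) / 7.4 ≤ (Real.exp 2)⁻¹ := by
      rw [one_div]
      exact inv_anti₀ h2 h1
    have h4 : (1 : ℝ) / 500 ≤ (1 / 7.4) / 64 := by norm_num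
    calc Q p M ≤ 1 / 500 := h
      _ ≤ (1 / 7.4) / 64 := h4
      _ ≤ _ := by gcongr
  | succ j ih =>
    have h1 : (1 : ℤ) ≤ 2 ^ j * M := by
      have : (1 : ℤ) ≤ 2 ^ j := one_le_pow₀ (by norm_num)
      nlinarith
    have h2 := Q_two p h1
    have h3 : (2 : ℤ) ^ (j + 1) * M = 2 * (2 ^ j * M) := by ring
    rw [h3]
    have h4 := Q_nonneg p (2 ^ j * M)
    calc Q p (2 * (2 ^ j * M)) ≤ 64 * Q p (2 ^ j * M) ^ 2 := h2
      _ ≤ 64 * (Real.exp (-(2 : ℝ) ^ (j + 1)) / 64) ^ 2 := by gcongr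
      _ = Real.exp (-(2 : ℝ) ^ (j + 1)) ^ 2 / 64 := by ring
      _ = Real.exp (-(2 : ℝ) ^ (j + 1 + 1)) / 64 := by
        rw [← Real.exp_nat_mul]
        congr 2
        push_cast
        ring

/-! ### arms -/

/-- vertices at sup distance at least `n` -/
abbrev Out (n : ℤ) : Set P2 := Crest.Agent.R158.Fr158.Out n

/-- connection to distance `n` -/
def AR (n : ℤ) : Set Cfz := {z | ∃ b ∈ Out n, Rch z (0, 0) b}

/-- first exit -/
theorem exit_box {z : Cfz} {n : ℤ} (hn : 0 ≤ n) {b : P2} (hb : b ∈ Out n)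
    (h : Rch z (0, 0) b) : ∃ b' ∈ Out n, b' ∈ Rc (-n) n (-n) n ∧
      Cn z (Rc (-n) n (-n) n) (0, 0) b' := by
  have h0 : ((0 : ℤ), (0 : ℤ)) ∈ Rc (-n) n (-n) n := by
    simp only [Rc, Set.mem_ofPred_eq]
    omega
  have key : ∀ w, Rch z (0, 0) w → (∃ b' ∈ Out n, b' ∈ Rc (-n) n (-n) n ∧
      Cn z (Rc (-n) n (-n) n) (0, 0) b') ∨ (w ∉ Out n ∧ w ∈ Rc (-n) n (-n) n ∧
      Cn z (Rc (-n) n (-n) n) (0, 0) w) := by
    intro w hw
    induction hw with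
    | refl =>
      by_cases h1 : ((0 : ℤ), (0 : ℤ)) ∈ Out n
      · exact Or.inl ⟨_, h1, h0, Cn.refl _⟩
      · exact Or.inr ⟨h1, h0, Cn.refl _⟩
    | @tail u w h1 h2 ih =>
      rcases ih with ih | ⟨h3, h4, h5⟩
      · exact Or.inl ih
      have h6 := pstep_nbr h2
      have h7 : w ∈ Rc (-n) n (-n) n := by
        simp only [Out, Fr158.Out, Set.mem_ofPred_eq, not_or, not_le, abs_lt] at h3
        simp only [Rc, Set.mem_ofPred_eq]
        unfold Nbr at h6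
        omega
      have h8 : Cn z (Rc (-n) n (-n) n) (0, 0) w := h5.tail ⟨h2, h4, h7⟩
      by_cases h9 : w ∈ Out n
      · exact Or.inl ⟨w, h9, h7, h8⟩
      · exact Or.inr ⟨h9, h7, h8⟩
  rcases key b h with h1 | ⟨h1, -⟩
  · exact h1
  · exact absurd hb h1

theorem arm_slab {n : ℤ} (hn : 1 ≤ n) {z : Cfz} (h : z ∈ AR (2 * n)) :
    z ∈ HX n (2 * n) (-(2 * n)) (2 * n) ∨ z ∈ HX (-(2 * n)) (-n) (-(2 * n)) (2 * n) ∨
      z ∈ VX (-(2 * n)) (2 * n) n (2 * n) ∨ z ∈ VX (-(2 * n)) (2 * n) (-(2 * n)) (-n) := by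
  obtain ⟨b, hb, h⟩ := h
  obtain ⟨b, hb, hb', h⟩ := exit_box (by omega) hb h
  have hb2 := hb'
  simp only [Out, Fr158.Out, Set.mem_ofPred_eq] at hb
  simp only [Rc, Set.mem_ofPred_eq] at hb2
  rcases hb with hb | hb
  · rcases le_abs'.1 hb with hb | hb
    · right; left
      exact ext_h h.symm (fun v hv => ⟨hv.2.2.1, hv.2.2.2⟩) (by omega)
        (by show -n ≤ (0 : ℤ); omega) (by omega)
    · left
      exact ext_h h (fun v hv => ⟨hv.2.2.1, hv.2.2.2⟩) (by show (0 : ℤ) ≤ n; omega) hb (by omega)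
  · rcases le_abs'.1 hb with hb | hb
    · right; right; right
      exact ext_v h.symm (fun v hv => ⟨hv.1, hv.2.1⟩) (by omega)
        (by show -n ≤ (0 : ℤ); omega) (by omega)
    · right; right; left
      exact ext_v h (fun v hv => ⟨hv.1, hv.2.1⟩) (by show (0 : ℤ) ≤ n; omega) hb (by omega)

theorem pr_slab (p : I) {n : ℤ} (hn : 1 ≤ n) {x0 x1 y0 y1 : ℤ} (hx : x1 - x0 = n)
    (hy : y1 - y0 ≤ 6 * n) : Pr p (HX x0 x1 y0 y1) ≤ 8 * Q p n := by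
  have h1 : Pr p (HX x0 x1 y0 y1) ≤ Pr p (HX x0 x1 y0 (y0 + 6 * n)) :=
    Pr_mono p (hx_sub (le_refl _) (by omega) (le_refl _) (le_refl _) (by omega))
  have h2 : Pr p (HX x0 x1 y0 (y0 + 6 * n)) = Pr p (HX 0 n 0 (6 * n)) :=
    pr_hx_eq p (by omega) (by ring)
  rw [h2] at h1
  exact h1.trans (pr_six p hn)

theorem pr_arm (p : I) {n : ℤ} (hn : 1 ≤ n) : Pr p (AR (2 * n)) ≤ 32 * Q p n := by
  have h1 : AR (2 * n) ⊆ HX n (2 * n) (-(2 * n)) (2 * n) ∪ (HX (-(2 * n)) (-n) (-(2 * n)) (2 * n) ∪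
      (VX (-(2 * n)) (2 * n) n (2 * n) ∪ VX (-(2 * n)) (2 * n) (-(2 * n)) (-n))) :=
    fun z hz => arm_slab hn hz
  refine (Pr_mono p h1).trans ?_
  refine (Pr_union_le p _ _).trans ?_
  have g1 := Pr_union_le p (HX (-(2 * n)) (-n) (-(2 * n)) (2 * n))
    (VX (-(2 * n)) (2 * n) n (2 * n) ∪ VX (-(2 * n)) (2 * n) (-(2 * n)) (-n))
  have g2 := Pr_union_le p (VX (-(2 * n)) (2 * n) n (2 * n)) (VX (-(2 * n)) (2 * n) (-(2 * n)) (-n))
  have e1 := pr_slab p hn (x0 := n) (x1 := 2 * n) (y0 := -(2 * n)) (y1 := 2 * n) (by ring)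
    (by omega)
  have e2 := pr_slab p hn (x0 := -(2 * n)) (x1 := -n) (y0 := -(2 * n)) (y1 := 2 * n) (by ring)
    (by omega)
  have e3 : Pr p (VX (-(2 * n)) (2 * n) n (2 * n)) ≤ 8 * Q p n := by
    rw [pr_VX]; exact e1
  have e4 : Pr p (VX (-(2 * n)) (2 * n) (-(2 * n)) (-n)) ≤ 8 * Q p n := by
    rw [pr_VX]; exact e2
  linarith

theorem out_anti {m n : ℤ} (h : m ≤ n) : Out n ⊆ Out m := by
  intro v hv
  simp only [Out, Fr158.Out, Set.mem_ofPred_eq] at hv ⊢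
  rcases hv with hv | hv
  · exact Or.inl (h.trans hv)
  · exact Or.inr (h.trans hv)

theorem AR_anti {m n : ℤ} (h : m ≤ n) : AR n ⊆ AR m := by
  rintro z ⟨b, hb, h'⟩
  exact ⟨b, out_anti h hb, h'⟩

/-- dyadic bracketing of a radius -/
theorem dyadic {M R : ℤ} (hM : 1 ≤ M) (hR : 2 * M ≤ R) :
    ∃ j : ℕ, 2 * (2 ^ j * M) ≤ R ∧ R < 2 * (2 ^ (j + 1) * M) := by
  have hex : ∃ j : ℕ, R < 2 * (2 ^ j * M) := by
    obtain ⟨j, hj⟩ := pow_unbounded_of_one_lt R (by norm_num : (1 : ℤ) < 2)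
    refine ⟨j, ?_⟩
    have : (0 : ℤ) < 2 ^ j := by positivity
    nlinarith
  classical
  set j0 := Nat.find hex with hj0
  have h1 := Nat.find_spec hex
  rw [← hj0] at h1
  rcases Nat.eq_zero_or_pos j0 with h0 | h0
  · rw [h0] at h1
    simp only [pow_zero, one_mul] at h1
    omega
  · have h2 := Nat.find_min hex (m := j0 - 1) (by omega)
    refine ⟨j0 - 1, not_lt.1 h2, ?_⟩
    rw [Nat.sub_add_cancel h0]
    exact h1

/-- the exponential factor -/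
theorem exp_dyadic {M R : ℤ} (hM : 1 ≤ M) {j : ℕ} (h : R < 2 * (2 ^ (j + 1) * M)) :
    Real.exp (-(2 : ℝ) ^ (j + 1)) ≤ Real.exp (-(R : ℝ) / (2 * M)) := by
  apply Real.exp_le_exp.2
  have hM' : (0 : ℝ) < M := by exact_mod_cast (by omega : (0 : ℤ) < M)
  rw [neg_div]
  apply neg_le_neg
  rw [div_le_iff₀ (by positivity)]
  have h1 : (R : ℝ) < 2 * (2 ^ (j + 1) * M) := by exact_mod_cast h
  linarith

/-- **Exponential decay beyond a subcritical scale.** -/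
theorem arm_decay (p : I) {M : ℤ} (hM : 1 ≤ M) (h : Q p M ≤ 1 / 500) {R : ℤ} (hR : 2 * M ≤ R) :
    Pr p (AR R) ≤ Real.exp (-(R : ℝ) / (2 * M)) := by
  obtain ⟨j, h1, h2⟩ := dyadic hM hR
  have h3 : (1 : ℤ) ≤ 2 ^ j * M := by
    have : (1 : ℤ) ≤ 2 ^ j := one_le_pow₀ (by norm_num)
    nlinarith
  have h4 := Q_pow p hM h j
  have h5 := Real.exp_pos (-(2 : ℝ) ^ (j + 1))
  calc Pr p (AR R) ≤ Pr p (AR (2 * (2 ^ j * M))) := Pr_mono p (AR_anti h1)
    _ ≤ 32 * Q p (2 ^ j * M) := pr_arm p h3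
    _ ≤ Real.exp (-(2 : ℝ) ^ (j + 1)) := by linarith
    _ ≤ _ := exp_dyadic hM h2

end Crest.Agent.R158.Ze96
end
end

-- ▼ part R158/Ze3_96

/-!
# Row 158, Block Z (helper96), part 3: the supercritical network

* `hx_iff`, `vx_iff` : comparison with `LRc`, `BTc`
* `hard` : hard crossings fail with probability `≤ 8 Q (σ p) n`
* `Nt n` : frame in the annulus `A(n,2n)` and radial crossing up to distance `4n`
* `inf_of_net` : a cluster which reaches `Out (2 n_j)` is infinite on `⋂_{i ≥ j} Nt (2^i M)`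
* `net_prob`, `fin_decay`, `theta_lower`
-/

set_option autoImplicit false

noncomputable section

namespace Crest.Agent.R158.Ze96

open MeasureTheory unitInterval
open Crest.Agent.R161.Geo729 Crest.Agent.R161.Topo374 Crest.Agent.R161.Dual374
open Crest.Agent.R158.Rs689
open Crest.Agent.R161.Perc374 (Rc)
open Crest.Agent.R161.Tas682 (LRc BTc OC EV Rect)

theorem hx_iff {z : Cfz} {x0 x1 y0 y1 : ℤ} (hx : x0 < x1) :
    z ∈ HX x0 x1 y0 y1 ↔ LRc z x0 x1 y0 y1 := by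
  constructor
  · intro h
    obtain ⟨a, b, ha, hb, ha', hb', h⟩ := hx_cn hx.le h
    exact ⟨a, b, ha, hb, ha', h⟩
  · rintro ⟨a, b, ha, hb, h⟩
    exact ext_h (S := Rect x0 x1 y0 y1) h.2 (fun v hv => ⟨hv.2.2.1, hv.2.2.2⟩) ha.le hb.ge hx

theorem vx_iff {z : Cfz} {x0 x1 y0 y1 : ℤ} (hy : y0 < y1) :
    z ∈ VX x0 x1 y0 y1 ↔ BTc z x0 x1 y0 y1 := by
  constructor
  · intro h
    obtain ⟨a, b, ha, hb, ha', hb', h⟩ := vx_cn hy.le h
    exact ⟨a, b, ha, hb, ha', h⟩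
  · rintro ⟨a, b, ha, hb, h⟩
    exact ext_v (S := Rect x0 x1 y0 y1) h.2 (fun v hv => ⟨hv.1, hv.2.1⟩) ha.le hb.ge hy

theorem pr_hx_xpr (p : I) {x0 x1 : ℤ} (y0 y1 : ℤ) (hx : x0 < x1) :
    Pr p (HX x0 x1 y0 y1) = xpr p (x1 - x0) (y1 - y0) := by
  rw [← lr_eq_xpr]
  congr 1
  ext z
  exact hx_iff hx

/-- easy and hard crossing probabilities as in the interface -/
theorem pr_BT (p : ℝ) {n : ℤ} (hn : 0 < n) :
    Fr158.Pr p (Fr158.BT n) = Q (Crest.ProbabilityR.Percolation.clampUnit p) n := by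
  have h1 : Fr158.BT n = VX 0 (3 * n) 0 n := by
    ext z
    exact (vx_iff hn).symm
  rw [h1]
  exact pr_VX _ _ _ _ _


/-- **Hard crossings.** -/
theorem hard (p : I) {n : ℤ} (hn : 1 ≤ n) {x0 x1 y0 y1 : ℤ} (hx : x1 - x0 = 4 * n)
    (hy : y1 - y0 = n) : Pr p (HX x0 x1 y0 y1)ᶜ ≤ 8 * Q (σ p) n := by
  have h1 : Pr p (HX x0 x1 y0 y1)ᶜ = 1 - Pr p (HX x0 x1 y0 y1) :=
    probReal_compl_eq_one_sub (meas_HX _ _ _ _)
  rw [h1, pr_hx_xpr p _ _ (by omega), hx, hy]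
  have h2 := xpr_dual p (4 * n) n (by omega) (by omega)
  have h3 : xpr (σ p) (n + 1) (4 * n - 1) = Pr (σ p) (HX 0 (n + 1) 0 (4 * n - 1)) := by
    rw [pr_hx_xpr (σ p) _ _ (by omega)]
    simp
  have h4 : Pr (σ p) (HX 0 (n + 1) 0 (4 * n - 1)) ≤ Pr (σ p) (HX 0 n 0 (6 * n)) :=
    Pr_mono _ (hx_sub (le_refl _) (by omega) (by omega) (le_refl _) (by omega))
  have h5 := pr_six (σ p) hn
  linarith

/-! ### frames and radial crossings -/

/-- frame in the annulus `A(n,2n)` -/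
def Fm (n : ℤ) : Set Cfz :=
  (HX (-(2 * n)) (2 * n) n (2 * n) ∩ HX (-(2 * n)) (2 * n) (-(2 * n)) (-n)) ∩
    (VX n (2 * n) (-(2 * n)) (2 * n) ∩ VX (-(2 * n)) (-n) (-(2 * n)) (2 * n))

/-- frame and radial crossing -/
def Nt (n : ℤ) : Set Cfz := Fm n ∩ HX 0 (4 * n) 0 n

/-- dependence of an intersection -/
theorem Dep.inter' {S T : Finset Edge} {A B : Set Cfz} (hA : Dep S A) (hB : Dep T B) :
    Dep (S ∪ T) (A ∩ B) := by
  classical
  exact (hA.mono Finset.subset_union_left).inter (hB.mono Finset.subset_union_right)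

/-- edges of a frame -/
def FmE (n : ℤ) : Finset Edge :=
  (REf (-(2 * n)) (2 * n) n (2 * n) ∪ REf (-(2 * n)) (2 * n) (-(2 * n)) (-n)) ∪
    (REv n (2 * n) (-(2 * n)) (2 * n) ∪ REv (-(2 * n)) (-n) (-(2 * n)) (2 * n))

theorem dep_Fm (n : ℤ) : Dep (FmE n) (Fm n) :=
  Dep.inter' (Dep.inter' (dep_HX _ _ _ _) (dep_HX _ _ _ _))
    (Dep.inter' (dep_VX _ _ _ _) (dep_VX _ _ _ _))

theorem inc_Fm (n : ℤ) : Inc (Fm n) :=
  ((inc_HX _ _ _ _).inter (inc_HX _ _ _ _)).inter ((inc_VX _ _ _ _).inter (inc_VX _ _ _ _))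

theorem dep_Nt (n : ℤ) : Dep (FmE n ∪ REf 0 (4 * n) 0 n) (Nt n) :=
  Dep.inter' (dep_Fm n) (dep_HX _ _ _ _)

theorem inc_Nt (n : ℤ) : Inc (Nt n) := (inc_Fm n).inter (inc_HX _ _ _ _)

theorem pr_Nt (p : I) {n : ℤ} (hn : 1 ≤ n) : Pr p (Nt n)ᶜ ≤ 40 * Q (σ p) n := by
  have h1 : (Nt n)ᶜ ⊆ (HX (-(2 * n)) (2 * n) n (2 * n))ᶜ ∪
      ((HX (-(2 * n)) (2 * n) (-(2 * n)) (-n))ᶜ ∪
      ((VX n (2 * n) (-(2 * n)) (2 * n))ᶜ ∪ ((VX (-(2 * n)) (-n) (-(2 * n)) (2 * n))ᶜ ∪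
        (HX 0 (4 * n) 0 n)ᶜ))) := by
    intro z hz
    simp only [Nt, Fm, Set.mem_compl_iff, Set.mem_inter_iff, Set.mem_union] at hz ⊢
    tauto
  refine (Pr_mono p h1).trans ?_
  have e1 := hard p hn (x0 := -(2 * n)) (x1 := 2 * n) (y0 := n) (y1 := 2 * n) (by ring) (by ring)
  have e2 := hard p hn (x0 := -(2 * n)) (x1 := 2 * n) (y0 := -(2 * n)) (y1 := -n) (by ring)
    (by ring)
  have ev : ∀ x0 x1 y0 y1 : ℤ, Pr p (VX x0 x1 y0 y1)ᶜ = Pr p (HX y0 y1 x0 x1)ᶜ := by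
    intro x0 x1 y0 y1
    have h2 : Pr p (VX x0 x1 y0 y1)ᶜ = 1 - Pr p (VX x0 x1 y0 y1) :=
      probReal_compl_eq_one_sub (meas_VX _ _ _ _)
    have h3 : Pr p (HX y0 y1 x0 x1)ᶜ = 1 - Pr p (HX y0 y1 x0 x1) :=
      probReal_compl_eq_one_sub (meas_HX _ _ _ _)
    rw [h2, h3, pr_VX]
  have e3 := hard p hn (x0 := -(2 * n)) (x1 := 2 * n) (y0 := n) (y1 := 2 * n) (by ring) (by ring)
  have e4 := hard p hn (x0 := -(2 * n)) (x1 := 2 * n) (y0 := -(2 * n)) (y1 := -n) (by ring)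
    (by ring)
  rw [← ev] at e3 e4
  have e5 := hard p hn (x0 := 0) (x1 := 4 * n) (y0 := 0) (y1 := n) (by ring) (by ring)
  have g1 := Pr_union_le p (HX (-(2 * n)) (2 * n) n (2 * n))ᶜ
      ((HX (-(2 * n)) (2 * n) (-(2 * n)) (-n))ᶜ ∪
      ((VX n (2 * n) (-(2 * n)) (2 * n))ᶜ ∪ ((VX (-(2 * n)) (-n) (-(2 * n)) (2 * n))ᶜ ∪
        (HX 0 (4 * n) 0 n)ᶜ)))
  have g2 := Pr_union_le p (HX (-(2 * n)) (2 * n) (-(2 * n)) (-n))ᶜ
      ((VX n (2 * n) (-(2 * n)) (2 * n))ᶜ ∪ ((VX (-(2 * n)) (-n) (-(2 * n)) (2 * n))ᶜ ∪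
        (HX 0 (4 * n) 0 n)ᶜ))
  have g3 := Pr_union_le p (VX n (2 * n) (-(2 * n)) (2 * n))ᶜ
      ((VX (-(2 * n)) (-n) (-(2 * n)) (2 * n))ᶜ ∪ (HX 0 (4 * n) 0 n)ᶜ)
  have g4 := Pr_union_le p (VX (-(2 * n)) (-n) (-(2 * n)) (2 * n))ᶜ (HX 0 (4 * n) 0 n)ᶜ
  linarith

/-! ### topology -/

/-- the cluster of the origin contains a bottom-top crossing of the right slab of `A(n,2n)` -/
def KR (z : Cfz) (n : ℤ) : Prop :=
  ∃ p q : P2, p.2 = -(2 * n) ∧ q.2 = 2 * n ∧ p ∈ Rc n (2 * n) (-(2 * n)) (2 * n) ∧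
    Cn z (Rc n (2 * n) (-(2 * n)) (2 * n)) p q ∧ Rch z (0, 0) p

theorem rch_of_meet {z : Cfz} {S1 S2 : Set P2} {a p w : P2} (h1 : Cn z S1 a w)
    (h2 : Cn z S2 p w) : Rch z a p := h1.rch.trans h2.symm.rch

/-- a cluster reaching distance `2n` contains the frame -/
theorem kr_of_frame {z : Cfz} {n : ℤ} (hn : 1 ≤ n) (hF : z ∈ Fm n) (hA : z ∈ AR (2 * n)) :
    KR z n := by
  obtain ⟨⟨ht, hb⟩, hr, hl⟩ := hF
  obtain ⟨ta, tb, t1, t2, t3, t4, t5⟩ := hx_cn (by omega) ht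
  obtain ⟨ba, bb, b1, b2, b3, b4, b5⟩ := hx_cn (by omega) hb
  obtain ⟨ra, rb, r1, r2, r3, r4, r5⟩ := vx_cn (by omega) hr
  obtain ⟨la, lb, l1, l2, l3, l4, l5⟩ := vx_cn (by omega) hl
  -- the four pieces are connected
  have tr : Rch z ta ra := by
    obtain ⟨w, hw1, hw2⟩ := cn_cross t5 r5 t3 r3
      (fun w hw => ⟨by have := hw.2.2.1; omega, by have := hw.2.2.2; omega⟩)
      (fun w hw => ⟨by have := hw.1; omega, by have := hw.2.1; omega⟩)
    exact rch_of_meet hw1 hw2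
  have tl : Rch z ta la := by
    obtain ⟨w, hw1, hw2⟩ := cn_cross t5 l5 t3 l3
      (fun w hw => ⟨by have := hw.2.2.1; omega, by have := hw.2.2.2; omega⟩)
      (fun w hw => ⟨by have := hw.1; omega, by have := hw.2.1; omega⟩)
    exact rch_of_meet hw1 hw2
  have br : Rch z ba ra := by
    obtain ⟨w, hw1, hw2⟩ := cn_cross b5 r5 b3 r3
      (fun w hw => ⟨by have := hw.2.2.1; omega, by have := hw.2.2.2; omega⟩)
      (fun w hw => ⟨by have := hw.1; omega, by have := hw.2.1; omega⟩)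
    exact rch_of_meet hw1 hw2
  have sym : ∀ {u v : P2}, Rch z u v → Rch z v u := fun h => (cn_univ.2 h).symm.rch
  obtain ⟨b, hb, hA⟩ := hA
  obtain ⟨b, hb, hb', h⟩ := exit_box (by omega) hb hA
  have hb2 := hb'
  simp only [Out, Fr158.Out, Set.mem_ofPred_eq] at hb
  simp only [Rc, Set.mem_ofPred_eq] at hb2
  have h0 : ((0 : ℤ), (0 : ℤ)) ∈ Rc (-(2 * n)) (2 * n) (-(2 * n)) (2 * n) := by
    simp only [Rc, Set.mem_ofPred_eq]; omega
  refine ⟨ra, rb, r1, r2, r3, r5, ?_⟩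
  rcases hb with hb | hb
  · rcases le_abs'.1 hb with hb | hb
    · obtain ⟨w, hw1, hw2⟩ := cn_cross h.symm l5 hb' l3
        (fun w hw => ⟨by have := hw.2.2.1; omega, by have := hw.2.2.2; omega⟩)
        (fun w hw => ⟨by have := hw.1; omega, by show w.1 ≤ 0; have := hw.2.1; omega⟩)
      have h1 := rch_of_meet hw1 hw2
      exact (h.rch.trans h1).trans ((sym tl).trans tr)
    · obtain ⟨w, hw1, hw2⟩ := cn_cross h r5 h0 r3
        (fun w hw => ⟨by have := hw.2.2.1; omega, by have := hw.2.2.2; omega⟩)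
        (fun w hw => ⟨by show 0 ≤ w.1; have := hw.1; omega, by have := hw.2.1; omega⟩)
      exact rch_of_meet hw1 hw2
  · rcases le_abs'.1 hb with hb | hb
    · obtain ⟨w, hw1, hw2⟩ := cn_cross b5 h.symm b3 hb'
        (fun w hw => ⟨by have := hw.2.2.1; omega, by show w.2 ≤ 0; have := hw.2.2.2; omega⟩)
        (fun w hw => ⟨by have := hw.1; omega, by have := hw.2.1; omega⟩)
      have h1 := rch_of_meet hw2 hw1
      exact (h.rch.trans h1).trans br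
    · obtain ⟨w, hw1, hw2⟩ := cn_cross t5 h t3 h0
        (fun w hw => ⟨by show 0 ≤ w.2; have := hw.2.2.1; omega, by have := hw.2.2.2; omega⟩)
        (fun w hw => ⟨by have := hw.1; omega, by have := hw.2.1; omega⟩)
      have h1 := rch_of_meet hw2 hw1
      exact h1.trans tr

/-- the radial crossing brings the cluster to distance `4n` -/
theorem kr_far {z : Cfz} {n : ℤ} (hn : 1 ≤ n) (hK : KR z n) (hR : z ∈ HX 0 (4 * n) 0 n) :
    ∃ b : P2, b.1 = 4 * n ∧ Rch z (0, 0) b := by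
  obtain ⟨p, q, h1, h2, h3, h4, h5⟩ := hK
  obtain ⟨a, b, a1, a2, a3, a4, a5⟩ := hx_cn (by omega) hR
  obtain ⟨w, hw1, hw2⟩ := cn_cross a5 h4 a3 h3
    (fun w hw => ⟨by have := hw.2.2.1; omega, by have := hw.2.2.2; omega⟩)
    (fun w hw => ⟨by have := hw.1; omega, by have := hw.2.1; omega⟩)
  exact ⟨b, a2, (h5.trans (rch_of_meet hw2 hw1)).trans a5.rch⟩

/-- ... and to the next frame -/
theorem kr_next {z : Cfz} {n : ℤ} (hn : 1 ≤ n) (hK : KR z n) (hR : z ∈ HX 0 (4 * n) 0 n)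
    (hF : z ∈ Fm (2 * n)) : KR z (2 * n) := by
  obtain ⟨p, q, h1, h2, h3, h4, h5⟩ := hK
  obtain ⟨a, b, a1, a2, a3, a4, a5⟩ := hx_cn (by omega) hR
  obtain ⟨w, hw1, hw2⟩ := cn_cross a5 h4 a3 h3
    (fun w hw => ⟨by have := hw.2.2.1; omega, by have := hw.2.2.2; omega⟩)
    (fun w hw => ⟨by have := hw.1; omega, by have := hw.2.1; omega⟩)
  have h6 := h5.trans (rch_of_meet hw2 hw1)
  obtain ⟨ra, rb, r1, r2, r3, r4, r5⟩ := vx_cn (by omega) hF.2.1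
  obtain ⟨w', hw1', hw2'⟩ := cn_cross a5 r5 a3 r3
    (fun w hw => ⟨by have := hw.2.2.1; omega, by have := hw.2.2.2; omega⟩)
    (fun w hw => ⟨by have := hw.1; omega, by have := hw.2.1; omega⟩)
  exact ⟨ra, rb, r1, r2, r3, r5, h6.trans (rch_of_meet hw1' hw2')⟩

/-- cluster of the origin -/
def C0 (z : Cfz) : Set P2 := {v | Rch z (0, 0) v}

/-- **Infinite cluster on the network.** -/
theorem inf_of_net {z : Cfz} {M : ℤ} (hM : 1 ≤ M) {j : ℕ} (hN : ∀ i, j ≤ i → z ∈ Nt (2 ^ i * M))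
    (hA : z ∈ AR (2 * (2 ^ j * M))) : (C0 z).Infinite := by
  have hpos : ∀ i : ℕ, (1 : ℤ) ≤ 2 ^ i * M := by
    intro i
    have : (1 : ℤ) ≤ 2 ^ i := one_le_pow₀ (by norm_num)
    nlinarith
  have hK : ∀ k : ℕ, KR z (2 ^ (j + k) * M) := by
    intro k
    induction k with
    | zero => exact kr_of_frame (hpos _) (hN j le_rfl).1 hA
    | succ k ih =>
      have h1 := kr_next (hpos _) ih (hN (j + k) (by omega)).2
        (by have := (hN (j + k + 1) (by omega)).1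
            rwa [show (2 : ℤ) * (2 ^ (j + k) * M) = 2 ^ (j + k + 1) * M by ring])
      rwa [show (2 : ℤ) * (2 ^ (j + k) * M) = 2 ^ (j + (k + 1)) * M by ring] at h1
  intro hfin
  obtain ⟨B, hB⟩ := (hfin.image (fun v : P2 => v.1)).bddAbove
  obtain ⟨k, hk⟩ := pow_unbounded_of_one_lt B (by norm_num : (1 : ℤ) < 2)
  obtain ⟨b, hb, hb'⟩ := kr_far (hpos _) (hK k) (hN (j + k) (by omega)).2
  have h1 : b.1 ≤ B := hB ⟨b, hb', rfl⟩
  have h2 : (2 : ℤ) ^ k ≤ 2 ^ (j + k) := pow_le_pow_right₀ (by norm_num) (by omega)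
  have h3 : (0 : ℤ) < 2 ^ (j + k) := by positivity
  nlinarith

/-! ### probabilities -/

theorem exp_neg_two_le : Real.exp (-2) ≤ 1 / 5 := by
  have h1 := Real.quadratic_le_exp_of_nonneg (show (0 : ℝ) ≤ 2 by norm_num)
  rw [Real.exp_neg, one_div]
  refine inv_anti₀ (by norm_num) ?_
  linarith

theorem two_pow_ge (j k : ℕ) : (2 : ℝ) ^ (j + 1) + 2 * k ≤ 2 ^ (j + k + 1) := by
  induction k with
  | zero => simp
  | succ k ih =>
    have h1 : (2 : ℝ) ^ (j + (k + 1) + 1) = 2 * 2 ^ (j + k + 1) := by ring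
    have h2 : (2 : ℝ) ≤ 2 ^ (j + k + 1) := by
      have h3 : (2 : ℝ) ^ 1 ≤ 2 ^ (j + k + 1) := pow_le_pow_right₀ (by norm_num) (by omega)
      simpa using h3
    rw [h1]
    push_cast
    linarith

theorem exp_geom (j k : ℕ) :
    Real.exp (-(2 : ℝ) ^ (j + k + 1)) ≤ Real.exp (-(2 : ℝ) ^ (j + 1)) * (1 / 5) ^ k := by
  have h1 := two_pow_ge j k
  calc Real.exp (-(2 : ℝ) ^ (j + k + 1)) ≤ Real.exp (-(2 : ℝ) ^ (j + 1) + k * (-2)) :=
        Real.exp_le_exp.2 (by linarith)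
    _ = Real.exp (-(2 : ℝ) ^ (j + 1)) * Real.exp (-2) ^ k := by
        rw [Real.exp_add, ← Real.exp_nat_mul]
    _ ≤ _ := by
        have := exp_neg_two_le
        gcongr

/-- **Probability of the network**, conditionally on an increasing event. -/
theorem net_prob (p : I) {M : ℤ} (hM : 1 ≤ M) (h : Q (σ p) M ≤ 1 / 500) {S : Finset Edge}
    {A : Set Cfz} (hA : Dep S A) (iA : Inc A) (j : ℕ) :
    Pr p (A ∩ ⋃ k : ℕ, (Nt (2 ^ (j + k) * M))ᶜ) ≤ Real.exp (-(2 : ℝ) ^ (j + 1)) * Pr p A := by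
  set E := Real.exp (-(2 : ℝ) ^ (j + 1)) with hE
  have hE0 : 0 ≤ E := (Real.exp_pos _).le
  have ha : 0 ≤ Pr p A := Pr_nonneg p A
  have hpos : ∀ i : ℕ, (1 : ℤ) ≤ 2 ^ i * M := by
    intro i
    have : (1 : ℤ) ≤ 2 ^ i := one_le_pow₀ (by norm_num)
    nlinarith
  have h1 : ∀ k : ℕ, Pr p (A ∩ (Nt (2 ^ (j + k) * M))ᶜ) ≤
      Pr p A * (5 / 8 * (E * (1 / 5) ^ k)) := by
    intro k
    have e1 := harris (fun _ : Edge => p) hA (dep_Nt (2 ^ (j + k) * M)) iA (inc_Nt _)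
    have e2 := pr_Nt p (hpos (j + k))
    have e3 := Q_pow (σ p) hM h (j + k)
    have e4 := exp_geom j k
    have e5 : Pr p (Nt (2 ^ (j + k) * M))ᶜ = 1 - Pr p (Nt (2 ^ (j + k) * M)) :=
      probReal_compl_eq_one_sub (dep_Nt _).measurableSet
    have e6 : Pr p A = Pr p (A ∩ Nt (2 ^ (j + k) * M)) + Pr p (A ∩ (Nt (2 ^ (j + k) * M))ᶜ) := by
      have := measureReal_inter_add_sdiff (μ := PB fun _ : Edge => p) (s := A)
        (dep_Nt (2 ^ (j + k) * M)).measurableSet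
      rw [Set.sdiff_eq] at this
      exact this.symm
    have e7 : Pr p A * Pr p (Nt (2 ^ (j + k) * M)) ≤ Pr p (A ∩ Nt (2 ^ (j + k) * M)) := e1
    have e8 : Pr p (Nt (2 ^ (j + k) * M))ᶜ ≤ 5 / 8 * (E * (1 / 5) ^ k) := by
      linarith
    have e9 : Pr p (A ∩ (Nt (2 ^ (j + k) * M))ᶜ) ≤ Pr p A * Pr p (Nt (2 ^ (j + k) * M))ᶜ := by
      rw [e5]
      linarith
    exact e9.trans (mul_le_mul_of_nonneg_left e8 ha)
  have h2 : HasSum (fun k : ℕ => Pr p A * (5 / 8 * (E * (1 / 5) ^ k)))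
      (Pr p A * (5 / 8 * (E * (1 - 1 / 5)⁻¹))) :=
    (((hasSum_geometric_of_lt_one (by norm_num) (by norm_num)).mul_left E).mul_left _).mul_left _
  have h3 : (PB fun _ : Edge => p) (A ∩ ⋃ k : ℕ, (Nt (2 ^ (j + k) * M))ᶜ) ≤
      ENNReal.ofReal (Pr p A * (5 / 8 * (E * (1 - 1 / 5)⁻¹))) := by
    rw [Set.inter_iUnion]
    refine (measure_iUnion_le _).trans ?_
    rw [← h2.tsum_eq, ENNReal.ofReal_tsum_of_nonneg (fun k => by positivity) h2.summable]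
    refine ENNReal.tsum_le_tsum fun k => ?_
    rw [← ENNReal.ofReal_toReal (measure_ne_top (PB fun _ : Edge => p) _)]
    exact ENNReal.ofReal_le_ofReal (h1 k)
  have h4 := ENNReal.toReal_mono ENNReal.ofReal_ne_top h3
  rw [ENNReal.toReal_ofReal (by positivity)] at h4
  have h5 : Pr p (A ∩ ⋃ k : ℕ, (Nt (2 ^ (j + k) * M))ᶜ) ≤
      Pr p A * (5 / 8 * (E * (1 - 1 / 5)⁻¹)) := h4
  refine h5.trans ?_
  have h6 : (0 : ℝ) ≤ Pr p A * E := mul_nonneg ha hE0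
  calc Pr p A * (5 / 8 * (E * (1 - 1 / 5)⁻¹)) = (25 / 32) * (Pr p A * E) := by norm_num; ring
    _ ≤ 1 * (Pr p A * E) := by gcongr; norm_num
    _ = E * Pr p A := by ring

/-- **Exponential decay of finite clusters beyond a supercritical scale.** -/
theorem fin_decay (p : I) {M : ℤ} (hM : 1 ≤ M) (h : Q (σ p) M ≤ 1 / 500) {R : ℤ}
    (hR : 2 * M ≤ R) :
    Pr p (AR R ∩ {z | (C0 z).Finite}) ≤ Real.exp (-(R : ℝ) / (2 * M)) := by
  obtain ⟨j, h1, h2⟩ := dyadic hM hR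
  have h3 := net_prob p hM h (Dep.univ ∅) (fun _ _ _ _ => trivial) j
  have h4 : AR R ∩ {z | (C0 z).Finite} ⊆ Set.univ ∩ ⋃ k : ℕ, (Nt (2 ^ (j + k) * M))ᶜ := by
    rintro z ⟨hz1, hz2⟩
    refine ⟨trivial, ?_⟩
    by_contra hcon
    simp only [Set.mem_iUnion, Set.mem_compl_iff, not_exists, not_not] at hcon
    refine inf_of_net hM (j := j) (fun i hi => ?_) (AR_anti h1 hz1) hz2
    have := hcon (i - j)
    rwa [Nat.add_sub_cancel' hi] at this
  refine (Pr_mono p h4).trans (h3.trans ?_)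
  have h5 : Pr p (Set.univ : Set Cfz) = 1 := probReal_univ
  rw [h5, mul_one]
  exact exp_dyadic hM h2

/-! ### lower bound of the percolation probability -/

/-- `AR n` is the event `Arm1 n` of the interface -/
theorem AR_eq {n : ℤ} (hn : 0 ≤ n) : AR n = Fr158.Arm1 n := by
  ext z
  constructor
  · rintro ⟨b, hb, h⟩
    obtain ⟨b, hb, hb', h⟩ := exit_box hn hb h
    refine ⟨(0, 0), rfl, b, hb, ?_, h⟩
    show ((0 : ℤ), (0 : ℤ)) ∈ Rect (-n) n (-n) n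
    rw [Crest.Agent.R161.Tas682.mem_rect]
    omega
  · rintro ⟨a, ha, b, hb, h⟩
    rw [Set.mem_singleton_iff] at ha
    subst ha
    exact ⟨b, hb, Cn.rch (S := Fr158.Bx n) h.2⟩

theorem AR_incLoc {n : ℤ} (hn : 0 ≤ n) : (∃ S : Finset Edge, Dep S (AR n)) ∧ Inc (AR n) := by
  rw [AR_eq hn]
  have h := Crest.Agent.R161.Tas682.EV_incLoc (Crest.Agent.R161.Tas682.rect_finite (-n) n (-n) n)
    {((0 : ℤ), (0 : ℤ))} (Fr158.Out n)
  exact ⟨h.loc, h.inc⟩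

/-- **Lower bound of `θ`.** -/
theorem theta_lower (p : I) {M : ℤ} (hM : 1 ≤ M) (h : Q (σ p) M ≤ 1 / 500) :
    1 / 2 * Pr p (AR (2 * M)) ≤ Pr p {z | (C0 z).Infinite} := by
  obtain ⟨⟨S, hS⟩, hI⟩ := AR_incLoc (n := 2 * M) (by omega)
  have h1 := net_prob p hM h hS hI 0
  have h2 : AR (2 * M) \ (AR (2 * M) ∩ ⋃ k : ℕ, (Nt (2 ^ (0 + k) * M))ᶜ) ⊆
      {z | (C0 z).Infinite} := by
    rintro z ⟨hz1, hz2⟩
    refine inf_of_net hM (j := 0) (fun i _ => ?_) (by simpa using hz1)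
    by_contra hcon
    exact hz2 ⟨hz1, Set.mem_iUnion.2 ⟨i, by simpa using hcon⟩⟩
  have h3 : Pr p (AR (2 * M)) - Pr p (AR (2 * M) ∩ ⋃ k : ℕ, (Nt (2 ^ (0 + k) * M))ᶜ) ≤
      Pr p (AR (2 * M) \ (AR (2 * M) ∩ ⋃ k : ℕ, (Nt (2 ^ (0 + k) * M))ᶜ)) :=
    le_measureReal_sdiff
  have h4 := Pr_mono p h2
  have h5 : Real.exp (-(2 : ℝ) ^ (0 + 1)) ≤ 1 / 5 := by
    have := exp_neg_two_le
    simpa using this
  have h6 := Pr_nonneg p (AR (2 * M))
  have h8 := h1.trans (mul_le_mul_of_nonneg_right h5 h6)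
  have h9 := h3.trans h4
  generalize Pr p (AR (2 * M) ∩ ⋃ k : ℕ, (Nt (2 ^ (0 + k) * M))ᶜ) = b at h8 h9
  generalize Pr p (AR (2 * M)) = a at h6 h8 h9 ⊢
  linarith

end Crest.Agent.R158.Ze96
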