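import Crest.Agent.R158.FsF_158
import Crest.Agent.R158.Ze3_96
import Crest.Agent.R158.FrPre_158
import Crest.Agent.R158.FrA_158
import Crest.Agent.R158.Cpl8_963
import Crest.Agent.R158.Os5_488
import Crest.Agent.R158.Ld5_570
import Crest.Agent.R158.Ax2_107
import Crest.Agent.R158.Sp0_580
import Crest.Agent.R158.Rs5_689
import Crest.Agent.R158.Ld2_570
import Mathlib
import Crest.Agent.R158.Ac1_109
import Crest.Agent.R158.Wf1_850
import Crest.Agent.R158.We1_297
import Crest.Agent.R158.Cn4_109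
import Crest.Agent.R158.Bb2_488
import Crest.Agent.R158.Lc6_522
import Crest.Agent.R158.Vg1_109
import Crest.Agent.R158.Wf6_850
import Crest.Agent.R158.Wf5_850
import Crest.Agent.R158.Sq6_200

-- ▼ part R158/FrEnd_158
section

/-!
# Row 158, Block F (helper158): S0235 and S0236 from `HypA`, `HypB`, `HypC`, `HypD`

The renormalisation inputs `HypZ1`, `HypZ2` are helper96's `fin_decay`, `arm_decay`, `theta_lower`.
-/

set_option autoImplicit false

noncomputable section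

namespace Crest.Agent.R158.Fr158

open MeasureTheory Filter Topology unitInterval
open Crest.ProbabilityR.Percolation Crest.ProbabilityR.FirstPassage
open Crest.Agent.R158.Rs689 Crest.Agent.R161.Tas682 Crest.Agent.R161.Geo729

theorem sigma_clampUnit (p : ℝ) : σ (clampUnit p) = clampUnit (1 - p) := by
  ext
  unfold clampUnit
  rw [unitInterval.coe_symm_eq, Set.coe_projIcc, Set.coe_projIcc]
  rcases le_total p 0 with h0 | h0
  · rw [min_eq_right (by linarith), max_eq_left h0, min_eq_left (by linarith)]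
    norm_num
  · rcases le_total p 1 with h1 | h1
    · rw [min_eq_right h1, max_eq_right h0, min_eq_right (by linarith), max_eq_right (by linarith)]
    · rw [min_eq_left h1, min_eq_right (by linarith), max_eq_left (by linarith : 1 - p ≤ 0)]
      norm_num

theorem pr_eq (p : ℝ) (A : Set Cf) : Ze96.Pr (clampUnit p) A = Pr p A := rfl


theorem exp_aux {R M : ℕ} (hM : 1 ≤ M) (h : R < 2 * M) :
    (1 : ℝ) ≤ Real.exp 1 * Real.exp (-(1 / 2 * (R : ℝ) / M)) := by
  rw [← Real.exp_add]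
  apply Real.one_le_exp
  have hM0 : (0 : ℝ) < M := by exact_mod_cast hM
  have h1 : (R : ℝ) ≤ 2 * M := by exact_mod_cast h.le
  have h2 : 1 / 2 * (R : ℝ) / M ≤ 1 := by
    rw [div_le_one hM0]
    linarith
  linarith

theorem hypZ1 : HypZ1 := by
  refine ⟨1 / 500, Real.exp 1, 1 / 2, by norm_num, (Real.exp_pos 1).le, by norm_num, ?_⟩
  intro p M hM h R
  by_cases hR : 2 * M ≤ R
  · have hR' : 2 * (M : ℤ) ≤ (R : ℤ) := by exact_mod_cast hR
    have hM' : (1 : ℤ) ≤ (M : ℤ) := by exact_mod_cast hM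
    have e : Real.exp (-(((R : ℤ) : ℝ)) / (2 * ((M : ℤ) : ℝ))) =
        Real.exp (-(1 / 2 * (R : ℝ) / M)) := by
      congr 1
      push_cast
      ring
    have hAR : Ze96.AR (R : ℤ) = Arm1 R := Ze96.AR_eq (by omega)
    have h1 : (1 : ℝ) ≤ Real.exp 1 := Real.one_le_exp (by norm_num)
    have key : Pr p (Arm1 R ∩ {z | (clu z).Finite}) ≤ Real.exp (-(1 / 2 * (R : ℝ) / M)) := by
      rcases h with ⟨_, h⟩ | ⟨_, h⟩
      · rw [Ze96.pr_BT p (by omega)] at h
        have h2 := Ze96.arm_decay (clampUnit p) hM' h hR'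
        rw [e, hAR, pr_eq] at h2
        exact (Pr_mono Set.inter_subset_left).trans h2
      · rw [Ze96.pr_BT (1 - p) (by omega), ← sigma_clampUnit] at h
        have h2 := Ze96.fin_decay (clampUnit p) hM' h hR'
        rw [e, hAR, pr_eq] at h2
        exact h2
    refine key.trans ?_
    have := Real.exp_pos (-(1 / 2 * (R : ℝ) / M))
    nlinarith
  · exact (Pr_le_one _ _).trans (exp_aux hM (by omega))

theorem hypZ2 : HypZ2 := by
  refine ⟨1 / 500, 1 / 2, by norm_num, by norm_num, ?_⟩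
  intro p M hM _ h
  have hM' : (1 : ℤ) ≤ (M : ℤ) := by exact_mod_cast hM
  rw [Ze96.pr_BT (1 - p) (by omega), ← sigma_clampUnit] at h
  have h2 := Ze96.theta_lower (clampUnit p) hM' h
  rw [Ze96.AR_eq (by omega), pr_eq] at h2
  exact h2

/-! ### lower bound of the percolation probability -/

theorem theta_lower (hA : HypA) (hD : HypD) (hZ : HypZ2) {ε : ℝ} (hε : 0 < ε) :
    ∀ᶠ p : ℝ in 𝓝[≠] (1 / 2), 1 / 2 < p →
      |p - 1 / 2| ^ ((5 / 36 : ℝ) + ε) ≤ (percolationProb p).toReal := by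
  have hd := tendsto_abs_sub_half
  obtain ⟨δ, c, hδ, hc, hZ⟩ := hZ
  obtain ⟨η, hη, hη1⟩ : ∃ η : ℝ, 0 < η ∧ 3 * η ≤ ε := ⟨ε / 3, by positivity, by linarith⟩
  -- a common scale
  have hlow := hypA_lower hA hd (t := 4 / 3 + 2 * η) (by linarith)
    (n := fun p => ⌊|p - 1 / 2| ^ (-(4 / 3 + 2 * η))⌋₊) (ε := η)
    ((ev_floor hd (s := 4 / 3 + 2 * η) (ε := η) (by linarith) hη).mono fun p hp => hp.2.1) hη
  filter_upwards [good_scale hD hδ hη, hlow, ev_pos_lt hd one_pos,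
    ev_rpow_le hd hη (by norm_num : (0 : ℝ) < 1 / 2),
    ev_rpow_le hd hη hc] with p h1 h2 h3 h4 h5
  intro hp
  obtain ⟨M, hM1, hM2, hM3⟩ := h1
  have hM4 : Pr (1 - p) (BT M) ≤ δ := by
    rcases hM3 with ⟨h, _⟩ | ⟨_, h⟩
    · exact absurd h (by linarith)
    · exact h
  have h6 := hZ p M hM1 hp hM4
  rw [percolationProb_eq]
  refine le_trans ?_ h6
  set d := |p - 1 / 2| with hdd
  have h7 : 2 * M ≤ ⌊d ^ (-(4 / 3 + 2 * η))⌋₊ := by
    apply Nat.le_floor
    push_cast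
    have e : d ^ (-(4 / 3 : ℝ) - η) = d ^ η * d ^ (-(4 / 3 + 2 * η)) := by
      rw [← Real.rpow_add h3.1]
      congr 1
      ring
    have h8 : 0 < d ^ (-(4 / 3 + 2 * η)) := Real.rpow_pos_of_pos h3.1 _
    rw [e] at hM2
    nlinarith
  have h8 : Pr (1 / 2) (Arm1 (⌊d ^ (-(4 / 3 + 2 * η))⌋₊ : ℕ)) ≤ Pr p (Arm1 (2 * (M : ℤ))) := by
    refine (Pr_mono_loc hp.le (arm1_incLoc _)).trans (Pr_mono (arm1_anti (by omega) ?_))
    exact_mod_cast h7
  calc d ^ ((5 / 36 : ℝ) + ε) ≤ d ^ (η + (5 / 48 * (4 / 3 + 2 * η) + η)) := by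
        apply Real.rpow_le_rpow_of_exponent_ge h3.1 h3.2.le
        linarith
    _ = d ^ η * d ^ (5 / 48 * (4 / 3 + 2 * η) + η) := by rw [Real.rpow_add h3.1]
    _ ≤ c * Pr p (Arm1 (2 * (M : ℤ))) :=
        mul_le_mul h5 (h2.trans h8) (Real.rpow_nonneg h3.1.le _) hc.le

/-- **S0235** from the near-critical inputs. -/
theorem s0235 (hA : HypA) (hB : HypB) (hD : HypD) :
    Filter.Tendsto (fun R : ℝ => Real.log (oneArmProb R).toReal / Real.log R)
        Filter.atTop (nhds (-(5 : ℝ) / 48)) ∧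
      Filter.Tendsto (fun p : ℝ => Real.log (percolationProb p).toReal / Real.log (p - 1 / 2))
        (nhdsWithin (1 / 2) (Set.Ioi (1 / 2))) (nhds ((5 : ℝ) / 36)) := by
  refine ⟨oneArm_limit hA, ?_⟩
  have hd := tendsto_sub_half_right
  have hle : (𝓝[>] (1 / 2) : Filter ℝ) ≤ 𝓝[≠] (1 / 2) :=
    nhdsWithin_mono _ fun x hx => ne_of_gt hx
  apply tendsto_logratio hd
  intro ε hε
  filter_upwards [hle (theta_upper hA hB hε), hle (theta_lower hA hD hypZ2 hε),
    self_mem_nhdsWithin] with p h1 h2 hp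
  have hp' : (1 : ℝ) / 2 < p := hp
  rw [abs_of_pos (by linarith)] at h1 h2
  exact ⟨h2 hp', h1⟩

/-- **S0236** from the near-critical inputs. -/
theorem s0236' (hA : HypA) (hB : HypB) (hC : HypC) (hD : HypD) :
    Filter.Tendsto
        (fun p : ℝ => Real.log (truncSusceptibility p) / Real.log (abs (p - 1 / 2)))
        (nhdsWithin (1 / 2) {(1 / 2 : ℝ)}ᶜ) (nhds (-(43 : ℝ) / 18)) ∧
      Filter.Tendsto
        (fun p : ℝ => Real.log (correlationLength p) / Real.log (abs (p - 1 / 2)))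
        (nhdsWithin (1 / 2) {(1 / 2 : ℝ)}ᶜ) (nhds (-(4 : ℝ) / 3)) :=
  s0236 hA hB hC hD hypZ1

end Crest.Agent.R158.Fr158
end
end

-- ▼ part R158/Ze4_96
section

/-!
# Row 158, Block Z (helper96), part 4: two-point function

`F p x = P(0 ↔ x, cluster finite)`

* `F_le_arm` : `F p x ≤ π_p(s)²` for `2s < |x|`
* `F_ge` : `π_p(4k)² P(LR 2k)⁴ (1 - P(BT (10k+2)))⁴ ≤ F p x` for `|x| ≤ k`
* `F_decay` : `F p x ≤ exp(-|x|/(2M))` for `|x| ≥ 2M`, `M` above the window
-/

set_option autoImplicit false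

noncomputable section

namespace Crest.Agent.R158.Zf96

open MeasureTheory Filter Topology unitInterval
open Crest.ProbabilityR.Percolation Crest.ProbabilityR.FirstPassage
open Crest.Agent.R158.Rs689 Crest.Agent.R161.Tas682 Crest.Agent.R161.Geo729
open Crest.Agent.R161.Topo374 Crest.Agent.R161.Dual374
open Crest.Agent.R158.Fr158
open scoped ENNReal

/-- the origin is joined to `x` and its cluster is finite -/
def FE (x : P2) : Set Cf := {z | Rch z (0, 0) x ∧ (clu z).Finite}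

/-- truncated two-point function -/
def F (p : ℝ) (x : P2) : ℝ := Fr158.Pr p (FE x)




/-! ### arms at other vertices -/











/-! ### lower bound -/






















/-! ### decay -/





end Crest.Agent.R158.Zf96
end
end

-- ▼ part R158/Ze5_96
section

/-!
# Row 158, Block Z (helper96), part 5: the literal quantities as sums and the summation

* `trunc_real`, `corr_real` : `χ` and `ξ` through `F p x`
* `sum_bounds` : from pointwise bounds of `F` to bounds of both sums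
-/

set_option autoImplicit false

noncomputable section

namespace Crest.Agent.R158.Zf96

open MeasureTheory Filter Topology unitInterval
open Crest.ProbabilityR.Percolation Crest.ProbabilityR.FirstPassage
open Crest.Agent.R158.Rs689 Crest.Agent.R161.Tas682 Crest.Agent.R161.Geo729
open Crest.Agent.R161.Topo374 Crest.Agent.R161.Dual374
open Crest.Agent.R158.Fr158
open scoped ENNReal

/-! ### the literal quantities -/










/-! ### sums over boxes -/




/-! ### the tail -/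

/-- one-dimensional weight -/
def w1 (a : ℤ) : ℝ := 1 / (1 + |(a : ℝ)|) ^ 2



/-- two-dimensional weight -/
def w2 (x : P2) : ℝ := w1 x.1 * w1 x.2











end Crest.Agent.R158.Zf96
end
end

-- ▼ part R158/Top1_772
section

/-!
# Row 158 (helper772, integration of S0235 + S0236): the two statements from the open leaves

State of the tree: everything except the hypotheses of `s0235_of`, `s0236_of` below is on main.

* `HypA`                     : one arm at `p = 1/2` (Block W: 850, 297, 522, 109)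
* `SB p2`, `SC p2 p4`, `SD p2 p4` : identities B, C, D of doc 1912 (612; 841, 468, 110; 61, 107)
* `QM`                       : `P4U → L4 → HypU4` (808: Qf*, with 158's glue_out, 458, 200, 814, 874)
* `HypBD`                    : boundary blocks (488)
* `HypGl A4c`                : one-scale separation and gluing (580, 689, 158, 458, 200, 814, 874)
-/

set_option autoImplicit false

noncomputable section

namespace Crest.Agent.R158.Top772

open MeasureTheory Filter Topology unitInterval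
open Crest.ProbabilityR.Percolation Crest.ProbabilityR.FirstPassage
open Crest.Agent.R161.Geo729 Crest.Agent.R161.Tas682
open Crest.Agent.R158.Fr158 Crest.Agent.R158.Cpl963 Crest.Agent.R158.Ld570
open Crest.Agent.R158.Ax107





/-- S0235, literal statement -/
def St235 : Prop :=
  Filter.Tendsto (fun R : ℝ => Real.log (oneArmProb R).toReal / Real.log R)
      Filter.atTop (nhds (-(5 : ℝ) / 48)) ∧
    Filter.Tendsto (fun p : ℝ => Real.log (percolationProb p).toReal / Real.log (p - 1 / 2))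
      (nhdsWithin (1 / 2) (Set.Ioi (1 / 2))) (nhds ((5 : ℝ) / 36))

/-- S0236, literal statement -/
def St236 : Prop :=
  Filter.Tendsto
      (fun p : ℝ => Real.log (truncSusceptibility p) / Real.log (abs (p - 1 / 2)))
      (nhdsWithin (1 / 2) {(1 / 2 : ℝ)}ᶜ) (nhds (-(43 : ℝ) / 18)) ∧
    Filter.Tendsto
      (fun p : ℝ => Real.log (correlationLength p) / Real.log (abs (p - 1 / 2)))
      (nhdsWithin (1 / 2) {(1 / 2 : ℝ)}ᶜ) (nhds (-(4 : ℝ) / 3))




end Crest.Agent.R158.Top772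
end
end

-- ▼ part R158/Sg5_158
section

/-!
# Row 158, Block SEP / Lemma D (helper158): translation of `HypGl` to the origin

* `ocs_iff` : open connections of the shifted configuration
* `sh_XR`, `sh_BPiv`, `sh_Piv`, `sh_A4`, `dep_sh` : shifts of the events of `HypGl`
* `HypGl0 A4` : `HypGl` restricted to `src e = (0,0)`
* `gl_of_gl0` : `HypGl0 → HypGl` (for `Sp580.A4`)
-/

set_option autoImplicit false

noncomputable section

namespace Crest.Agent.R158.Sg158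

open MeasureTheory ProbabilityTheory unitInterval
open Crest.Agent.R161.Geo729 Crest.Agent.R161.Topo374 Crest.Agent.R161.Dual374
open Crest.Agent.R161.Tas682 hiding Sq
open Crest.Agent.R161.Ring421
open Crest.Agent.R158.Rs689 Crest.Agent.R158.Ru874
open Crest.Agent.R158.Fr158 (Pr)
open Crest.Agent.R158.Ld570 (XR Blk HypGl)
open Crest.Agent.R158.Os488 (RScale)

theorem ocs_one {z : Cfz} (a : P2) {S : Set P2} {u v : P2} (h : OC (shiftZ a z) S u v) :
    OC z {w | w - a ∈ S} (u + a) (v + a) := by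
  refine ⟨by simpa using h.1, ?_⟩
  obtain ⟨_, h⟩ := h
  induction h with
  | refl => exact .refl
  | @tail b c _ h2 ih =>
    obtain ⟨⟨e, he, h3⟩, hb, hc⟩ := h2
    refine ih.tail ⟨⟨shE a e, he, ?_⟩, by simpa using hb, by simpa using hc⟩
    rw [src_shE, tgt_shE]
    rcases h3 with ⟨rfl, rfl⟩ | ⟨rfl, rfl⟩
    · exact Or.inl ⟨rfl, rfl⟩
    · exact Or.inr ⟨rfl, rfl⟩

/-- open connections of the shifted configuration -/
theorem ocs_iff {z : Cfz} (a : P2) {S : Set P2} {u v : P2} :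
    OC (shiftZ a z) S u v ↔ OC z {w | w - a ∈ S} (u + a) (v + a) := by
  refine ⟨ocs_one a, fun h => ?_⟩
  have h1 : OC (shiftZ (-a) (shiftZ a z)) {w | w - a ∈ S} (u + a) (v + a) := by
    rw [shiftZ_shiftZ, neg_add_cancel, shiftZ_zero]
    exact h
  have h2 := ocs_one (-a) h1
  have h3 : {w : P2 | w - -a ∈ {w : P2 | w - a ∈ S}} = S := by
    ext w
    simp
  rw [h3] at h2
  simpa using h2

/-- the shifted edge -/
def ea (x : P2) (e : Edge) : Edge := (e.1 + x, e.2)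

theorem src_ea (x : P2) (e : Edge) : src (ea x e) = src e + x := rfl

theorem tgt_ea (x : P2) (e : Edge) : tgt (ea x e) = tgt e + x := by
  obtain ⟨⟨a, b⟩, c⟩ := e
  obtain ⟨x1, x2⟩ := x
  cases c
  · simp only [ea, tgt_h]
    ext <;> simp <;> ring
  · simp only [ea, tgt_v]
    ext <;> simp <;> ring

theorem ea_inj (x : P2) : Function.Injective (ea x) := by
  rintro ⟨a, b⟩ ⟨a', b'⟩ h
  simp only [ea, Prod.mk.injEq, add_left_inj] at h
  exact Prod.ext h.1 h.2

/-- shifting commutes with forcing -/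
theorem frc_sh (x : P2) (e : Edge) (b : Bool) (z : Cfz) :
    frc e b (shiftZ x z) = shiftZ x (frc (ea x e) b z) := by
  funext i
  by_cases h : i = e
  · subst h
    rw [frc_self]
    show b = frc (ea x i) b z (ea x i)
    rw [frc_self]
  · rw [frc_ne h]
    show z (ea x i) = frc (ea x e) b z (ea x i)
    rw [frc_ne fun h' => h (ea_inj x h')]

theorem sh_XR (x : P2) (a b c d : ℤ) :
    shiftZ x ⁻¹' XR (a - x.1) (b - x.1) (c - x.2) (d - x.2) = XR a b c d := by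
  have hR : {w : P2 | w - x ∈ Rect (a - x.1) (b - x.1) (c - x.2) (d - x.2)} = Rect a b c d := by
    ext w
    simp only [Set.mem_ofPred_eq, mem_rect, Prod.fst_sub, Prod.snd_sub]
    omega
  ext z
  constructor
  · rintro ⟨u, v, hu, hv, h⟩
    rw [ocs_iff, hR] at h
    exact ⟨u + x, v + x, by simp [hu], by simp [hv], h⟩
  · rintro ⟨u, v, hu, hv, h⟩
    refine ⟨u - x, v - x, by simp [hu], by simp [hv], ?_⟩
    rw [ocs_iff, hR, sub_add_cancel, sub_add_cancel]
    exact h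

theorem sh_surj (x : P2) (z : Cfz) : ∃ z' : Cfz, shiftZ x z' = z :=
  ⟨shiftZ (-x) z, by rw [shiftZ_shiftZ, add_neg_cancel, shiftZ_zero]⟩

theorem sd_sh (x y w : P2) : sd (y + x) (w + x) = sd y w := by
  simp [sd]

theorem sh_BPiv (x y : P2) (r : ℤ) (A : Set Cfz) :
    shiftZ x ⁻¹' Ld570.BPiv y r A = Ld570.BPiv (y + x) r (shiftZ x ⁻¹' A) := by
  ext z
  constructor
  · rintro ⟨z', h1, h2⟩
    obtain ⟨z'', rfl⟩ := sh_surj x z'
    refine ⟨z'', fun e he => ?_, h2⟩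
    have h3 := h1 (e.1 - x, e.2) (fun h => he ?_)
    · have h4 : ∀ t : Cfz, shiftZ x t (e.1 - x, e.2) = t e := by
        intro t
        show t (e.1 - x + x, e.2) = t e
        rw [sub_add_cancel]
      rwa [h4, h4] at h3
    · obtain ⟨h4, h5⟩ := h
      have e1 : e = ea x (e.1 - x, e.2) := by
        simp [ea]
      refine ⟨?_, ?_⟩
      · rw [e1, src_ea, sd_sh]
        exact h4
      · rw [e1, tgt_ea, sd_sh]
        exact h5
  · rintro ⟨z', h1, h2⟩
    refine ⟨shiftZ x z', fun e he => ?_, h2⟩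
    refine h1 (ea x e) fun h => he ?_
    obtain ⟨h4, h5⟩ := h
    rw [src_ea, sd_sh] at h4
    rw [tgt_ea, sd_sh] at h5
    exact ⟨h4, h5⟩

theorem sh_Piv (x : P2) (e : Edge) (A : Set Cfz) :
    shiftZ x ⁻¹' Piv e A = Piv (ea x e) (shiftZ x ⁻¹' A) := by
  ext z
  simp only [Set.mem_preimage, mem_piv, frc_sh]

theorem sh_A4 (x : P2) (e : Edge) (R : ℤ) :
    shiftZ x ⁻¹' Sp580.A4 e R = Sp580.A4 (ea x e) R := by
  have hS : {w : P2 | w - x ∈ {v : P2 | sd (src e) v ≤ R}} = {v : P2 | sd (src (ea x e)) v ≤ R} := by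
    ext w
    have h := sd_sh x (src e) (w - x)
    rw [sub_add_cancel] at h
    show sd (src e) (w - x) ≤ R ↔ sd (src e + x) w ≤ R
    rw [h]
  have hA : ∀ (z : Cfz) (u : P2),
      Sp580.Arm (frc e false (shiftZ x z)) {v | sd (src e) v ≤ R} {v | sd (src e) v = R} u ↔
      Sp580.Arm (frc (ea x e) false z) {v | sd (src (ea x e)) v ≤ R}
        {v | sd (src (ea x e)) v = R} (u + x) := by
    intro z u
    constructor
    · rintro ⟨a, ha, h⟩
      rw [frc_sh, ocs_iff, hS] at h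
      refine ⟨a + x, ?_, h⟩
      show sd (src e + x) (a + x) = R
      rw [sd_sh]
      exact ha
    · rintro ⟨a, ha, h⟩
      refine ⟨a - x, ?_, ?_⟩
      · have h2 := sd_sh x (src e) (a - x)
        rw [sub_add_cancel] at h2
        show sd (src e) (a - x) = R
        rw [← h2]
        exact ha
      · rw [frc_sh, ocs_iff, hS, sub_add_cancel]
        exact h
  ext z
  show (Sp580.Arm _ _ _ _ ∧ Sp580.Arm _ _ _ _ ∧ ¬ OC _ _ _ _) ↔
    (Sp580.Arm _ _ _ _ ∧ Sp580.Arm _ _ _ _ ∧ ¬ OC _ _ _ _)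
  rw [hA, hA, frc_sh, ocs_iff, hS, ← src_ea, ← tgt_ea]

open Classical in
theorem dep_sh (x : P2) {T : Finset Edge} {A : Set Cfz} (h : Dep T A) :
    Dep (T.image (ea x)) (shiftZ x ⁻¹' A) := by
  intro z z' hz
  exact h _ _ fun e he => hz _ (Finset.mem_image_of_mem _ he)

theorem Pr_sh (q : ℝ) (x : P2) {A : Set Cfz} (hA : MeasurableSet A) :
    Pr q (shiftZ x ⁻¹' A) = Pr q A := by
  have ht := tInv (Crest.ProbabilityR.Percolation.clampUnit q) x
  show (Rs689.nu _).real _ = (Rs689.nu _).real _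
  conv_rhs => rw [← ht]
  rw [measureReal_def, measureReal_def, Measure.map_apply (measurable_shiftZ x) hA]

/-- `HypGl` at the origin -/
def HypGl0 (A4 : Edge → ℕ → Set Cfz) : Prop :=
  ∀ c : ℝ, 0 < c → ∃ Λ : ℕ, 1 ≤ Λ ∧ ∀ η : ℝ, 0 < η → ∃ K : ℝ, 0 < K ∧ ∃ C r0 : ℕ, 1 ≤ C ∧
    ∀ q : ℝ, 0 < q → q < 1 → ∀ r : ℕ, r0 ≤ r → RScale c q (C * r) →
      ∀ (a b c' d : ℤ) (e : Edge), src e = (0, 0) → a + C * r ≤ 0 → C * r ≤ b →
        c' + C * r ≤ 0 → C * r ≤ d →
        ∃ (G : Set Cfz) (T : Finset Edge), Dep T G ∧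
          (∀ i ∈ T, (r : ℤ) ≤ Λ * sd (0, 0) (src i) ∧ sd (0, 0) (src i) ≤ Λ * r) ∧
          Pr q Gᶜ ≤ η ∧
          Pr q (Ld570.BPiv (0, 0) r (XR a b c' d) ∩ G) * Pr q (A4 e r) ≤
            K * Pr q (Piv e (XR a b c' d))

theorem dep_XR (a b c d : ℤ) : Dep (rectE a b c d) (XR a b c d) := lr_dep a b c d

theorem finite_sdball (x : P2) (R : ℤ) : {v : P2 | sd x v ≤ R}.Finite := by
  refine (rect_finite (x.1 - R) (x.1 + R) (x.2 - R) (x.2 + R)).subset fun v hv => ?_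
  have h : sd x v ≤ R := hv
  unfold sd at h
  rw [max_le_iff, abs_le, abs_le] at h
  rw [mem_rect]
  omega

theorem dep_A4 (e : Edge) (R : ℤ) : ∃ S : Finset Edge, Dep S (Sp580.A4 e R) :=
  ⟨_, Sp580.dep_frc_oc (finite_sdball (src e) R) e false fun f =>
    (∃ a ∈ {v | sd (src e) v = R}, f (src e) a) ∧ (∃ a ∈ {v | sd (src e) v = R}, f (tgt e) a) ∧
      ¬ f (src e) (tgt e)⟩

/-- **`HypGl` from its version at the origin** -/
theorem gl_of_gl0 (h : HypGl0 fun e r => Sp580.A4 e r) : HypGl fun e r => Sp580.A4 e r := by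
  classical
  intro c hc
  obtain ⟨Λ, hΛ, h⟩ := h c hc
  refine ⟨Λ, hΛ, fun η hη => ?_⟩
  obtain ⟨K, hK, C, r0, hC, h⟩ := h η hη
  refine ⟨K, hK, C, r0, hC, ?_⟩
  intro q hq0 hq1 r hr hs a b c' d e he
  obtain ⟨x, k⟩ := e
  obtain ⟨h1, h2, h3, h4⟩ := he
  have h1' : a + C * r ≤ x.1 := by exact_mod_cast h1
  have h2' : x.1 ≤ b - C * r := by exact_mod_cast h2
  have h3' : c' + C * r ≤ x.2 := by exact_mod_cast h3
  have h4' : x.2 ≤ d - C * r := by exact_mod_cast h4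
  obtain ⟨G, T, hG, hT, hη', hmain⟩ := h q hq0 hq1 r hr hs (a - x.1) (b - x.1) (c' - x.2)
    (d - x.2) ((0, 0), k) rfl (by linarith) (by linarith) (by linarith) (by linarith)
  have hex : ea x ((0, 0), k) = (x, k) := by
    obtain ⟨x1, x2⟩ := x
    simp [ea]
  have h0x : ((0, 0) : P2) + x = x := by
    obtain ⟨x1, x2⟩ := x
    simp
  refine ⟨shiftZ x ⁻¹' G, T.image (ea x), dep_sh x hG, ?_, ?_, ?_⟩
  · intro i hi
    rw [Finset.mem_image] at hi
    obtain ⟨i', hi', rfl⟩ := hi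
    have h5 := hT i' hi'
    have h6 := sd_sh x (0, 0) (src i')
    rw [h0x] at h6
    show (r : ℤ) ≤ Λ * sd x (src (ea x i')) ∧ sd x (src (ea x i')) ≤ Λ * r
    rw [src_ea, h6]
    exact h5
  · rw [← Set.preimage_compl, Pr_sh q x hG.compl.measurableSet]
    exact hη'
  · have dX := dep_XR (a - x.1) (b - x.1) (c' - x.2) (d - x.2)
    have m1 : MeasurableSet (Ld570.BPiv (0, 0) r (XR (a - x.1) (b - x.1) (c' - x.2) (d - x.2)) ∩ G) :=
      (Ld570.dep_bpiv (0, 0) r dX).measurableSet.inter hG.measurableSet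
    have m2 : MeasurableSet (Piv ((0, 0), k) (XR (a - x.1) (b - x.1) (c' - x.2) (d - x.2))) :=
      (dep_piv dX _).measurableSet
    obtain ⟨S, hS⟩ := dep_A4 ((0, 0), k) r
    have e1 : Pr q (Ld570.BPiv (src (x, k)) r (XR a b c' d) ∩ shiftZ x ⁻¹' G) =
        Pr q (Ld570.BPiv (0, 0) r (XR (a - x.1) (b - x.1) (c' - x.2) (d - x.2)) ∩ G) := by
      rw [← Pr_sh q x m1, Set.preimage_inter, sh_BPiv, sh_XR, h0x]
      rfl
    have e2 : Pr q (Sp580.A4 (x, k) r) = Pr q (Sp580.A4 ((0, 0), k) r) := by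
      rw [← Pr_sh q x hS.measurableSet, sh_A4, hex]
    have e3 : Pr q (Piv (x, k) (XR a b c' d)) =
        Pr q (Piv ((0, 0), k) (XR (a - x.1) (b - x.1) (c' - x.2) (d - x.2))) := by
      rw [← Pr_sh q x m2, sh_Piv, sh_XR, hex]
    rw [e1, e2, e3]
    exact hmain

end Crest.Agent.R158.Sg158
end
end

-- ▼ part R158/Wh1_109
section

/-!
# Row 158, Block W-F (helper109), part 1: power laws from one-step recursions
-/

set_option autoImplicit false

noncomputable section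

namespace Crest.Agent.R158.Wh109

open Filter Topology

/-- `p (M r) ≤ β p r` for large `r`, `β ≤ M ^ (-θ)` ⟹ `p n ≤ n ^ (-θ+ε)` eventually -/
theorem chain_upper {p : ℕ → ℝ} (anti : Antitone p) (h0 : ∀ n, 0 ≤ p n) {M r0 : ℕ} (hM : 2 ≤ M)
    {β θ : ℝ} (hθ : 0 ≤ θ) (hβθ : β ≤ (M : ℝ) ^ (-θ))
    (hstep : ∀ r, r0 ≤ r → p (M * r) ≤ β * p r) {ε : ℝ} (hε : 0 < ε) :
    ∀ᶠ n : ℕ in atTop, p n ≤ (n : ℝ) ^ (-θ + ε) := by
  set r1 := max r0 1 with hr1
  have hr1p : 0 < r1 := lt_of_lt_of_le one_pos (le_max_right _ _)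
  have hMp : 0 < M := by omega
  have hMr : (0 : ℝ) < M := by exact_mod_cast hMp
  have h1 : ∀ j : ℕ, p (M ^ j * r1) ≤ ((M : ℝ) ^ j) ^ (-θ) * p r1 := by
    intro j
    induction j with
    | zero => simp
    | succ j ih =>
      have h2 := hstep (M ^ j * r1) ((le_max_left r0 1).trans
        (Nat.le_mul_of_pos_left _ (Nat.pow_pos hMp)))
      have h3 : M ^ (j + 1) * r1 = M * (M ^ j * r1) := by ring
      rw [h3]
      calc p (M * (M ^ j * r1)) ≤ β * p (M ^ j * r1) := h2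
        _ ≤ (M : ℝ) ^ (-θ) * (((M : ℝ) ^ j) ^ (-θ) * p r1) :=
            mul_le_mul hβθ ih (h0 _) (Real.rpow_nonneg hMr.le _)
        _ = ((M : ℝ) ^ (j + 1)) ^ (-θ) * p r1 := by
            rw [pow_succ, Real.mul_rpow (by positivity) hMr.le]; ring
  set C : ℝ := ((M : ℝ) * r1) ^ θ * p r1
  have h4 : ∀ n : ℕ, r1 ≤ n → p n ≤ C * (n : ℝ) ^ (-θ) := by
    intro n hn
    set j := Nat.log M (n / r1)
    have hq : n / r1 ≠ 0 := (Nat.div_pos hn hr1p).ne'
    have h5 : M ^ j * r1 ≤ n :=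
      (Nat.mul_le_mul_right _ (Nat.pow_log_le_self M hq)).trans (Nat.div_mul_le_self n r1)
    have h6 : n < M ^ (j + 1) * r1 := by
      have h7 : n / r1 < M ^ (j + 1) := Nat.lt_pow_succ_log_self (by omega) _
      exact (Nat.div_lt_iff_lt_mul hr1p).1 h7
    have h8 : (n : ℝ) < (M : ℝ) ^ j * (M * r1) := by
      have : (n : ℝ) < (M : ℝ) ^ (j + 1) * r1 := by exact_mod_cast h6
      calc (n : ℝ) < (M : ℝ) ^ (j + 1) * r1 := this
        _ = _ := by ring
    have hn0 : (0 : ℝ) < n := by exact_mod_cast hr1p.trans_le hn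
    have hr1' : (0 : ℝ) < r1 := by exact_mod_cast hr1p
    have h9 : ((M : ℝ) ^ j) ^ (-θ) ≤ ((M : ℝ) * r1) ^ θ * (n : ℝ) ^ (-θ) := by
      rw [Real.rpow_neg (by positivity), Real.rpow_neg hn0.le, ← div_eq_mul_inv,
        inv_eq_one_div, div_le_div_iff₀ (by positivity) (by positivity), one_mul,
        ← Real.mul_rpow (by positivity) (by positivity)]
      refine Real.rpow_le_rpow hn0.le ?_ hθ
      linarith [h8]
    calc p n ≤ p (M ^ j * r1) := anti h5
      _ ≤ ((M : ℝ) ^ j) ^ (-θ) * p r1 := h1 j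
      _ ≤ (((M : ℝ) * r1) ^ θ * (n : ℝ) ^ (-θ)) * p r1 := mul_le_mul_of_nonneg_right h9 (h0 _)
      _ = C * (n : ℝ) ^ (-θ) := by ring
  have h10 : ∀ᶠ n : ℕ in atTop, C ≤ (n : ℝ) ^ ε :=
    ((tendsto_rpow_atTop hε).comp tendsto_natCast_atTop_atTop).eventually_ge_atTop C
  filter_upwards [h10, eventually_ge_atTop r1] with n hn1 hn2
  have hn0 : (0 : ℝ) < n := by exact_mod_cast hr1p.trans_le hn2
  calc p n ≤ C * (n : ℝ) ^ (-θ) := h4 n hn2
    _ ≤ (n : ℝ) ^ ε * (n : ℝ) ^ (-θ) :=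
        mul_le_mul_of_nonneg_right hn1 (Real.rpow_nonneg hn0.le _)
    _ = (n : ℝ) ^ (-θ + ε) := by rw [← Real.rpow_add hn0]; ring_nf

/-- `β p r ≤ p (M r)` for large `r`, `M ^ (-θ) ≤ β` ⟹ `n ^ (-θ-ε) ≤ p n` eventually -/
theorem chain_lower {p : ℕ → ℝ} (anti : Antitone p) (h0 : ∀ n, 0 < p n) {M r0 : ℕ} (hM : 2 ≤ M)
    {β θ : ℝ} (hθ : 0 ≤ θ) (hβθ : (M : ℝ) ^ (-θ) ≤ β)
    (hstep : ∀ r, r0 ≤ r → β * p r ≤ p (M * r)) {ε : ℝ} (hε : 0 < ε) :
    ∀ᶠ n : ℕ in atTop, (n : ℝ) ^ (-θ - ε) ≤ p n := by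
  set r1 := max r0 1 with hr1
  have hr1p : 0 < r1 := lt_of_lt_of_le one_pos (le_max_right _ _)
  have hMp : 0 < M := by omega
  have hMr : (0 : ℝ) < M := by exact_mod_cast hMp
  have hβ : 0 ≤ β := (Real.rpow_nonneg hMr.le _).trans hβθ
  have h1 : ∀ j : ℕ, ((M : ℝ) ^ j) ^ (-θ) * p r1 ≤ p (M ^ j * r1) := by
    intro j
    induction j with
    | zero => simp
    | succ j ih =>
      have h2 := hstep (M ^ j * r1) ((le_max_left r0 1).trans
        (Nat.le_mul_of_pos_left _ (Nat.pow_pos hMp)))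
      have h3 : M ^ (j + 1) * r1 = M * (M ^ j * r1) := by ring
      rw [h3]
      refine le_trans ?_ h2
      calc ((M : ℝ) ^ (j + 1)) ^ (-θ) * p r1
          = (M : ℝ) ^ (-θ) * (((M : ℝ) ^ j) ^ (-θ) * p r1) := by
            rw [pow_succ, Real.mul_rpow (by positivity) hMr.le]; ring
        _ ≤ β * p (M ^ j * r1) :=
            mul_le_mul hβθ ih (mul_nonneg (Real.rpow_nonneg (by positivity) _) (h0 _).le) hβ
  set C : ℝ := ((M : ℝ)) ^ (-θ) * p r1
  have hC : 0 < C := mul_pos (Real.rpow_pos_of_pos hMr _) (h0 _)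
  have h4 : ∀ n : ℕ, r1 ≤ n → C * (n : ℝ) ^ (-θ) ≤ p n := by
    intro n hn
    set j := Nat.log M n
    have hn0 : (0 : ℝ) < n := by exact_mod_cast hr1p.trans_le hn
    have h5 : M ^ j ≤ n := Nat.pow_log_le_self M (by omega)
    have h6 : n < M ^ (j + 1) := Nat.lt_pow_succ_log_self (by omega) _
    have h7 : n ≤ M ^ (j + 1) * r1 := h6.le.trans (Nat.le_mul_of_pos_right _ hr1p)
    have h8 : (M : ℝ) ^ (j + 1) ≤ M * n := by
      have : (M : ℝ) ^ j ≤ n := by exact_mod_cast h5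
      rw [pow_succ]
      nlinarith
    calc C * (n : ℝ) ^ (-θ) = ((M : ℝ) * n) ^ (-θ) * p r1 := by
          rw [Real.mul_rpow hMr.le hn0.le]; ring
      _ ≤ ((M : ℝ) ^ (j + 1)) ^ (-θ) * p r1 := by
          refine mul_le_mul_of_nonneg_right ?_ (h0 _).le
          exact Real.rpow_le_rpow_of_nonpos (by positivity) h8 (by linarith)
      _ ≤ p (M ^ (j + 1) * r1) := h1 _
      _ ≤ p n := anti h7
  have h10 : ∀ᶠ n : ℕ in atTop, C⁻¹ ≤ (n : ℝ) ^ ε :=
    ((tendsto_rpow_atTop hε).comp tendsto_natCast_atTop_atTop).eventually_ge_atTop _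
  filter_upwards [h10, eventually_ge_atTop r1] with n hn1 hn2
  have hn0 : (0 : ℝ) < n := by exact_mod_cast hr1p.trans_le hn2
  refine le_trans ?_ (h4 n hn2)
  have h11 : (n : ℝ) ^ (-θ - ε) = (n : ℝ) ^ (-θ) * ((n : ℝ) ^ ε)⁻¹ := by
    rw [← Real.rpow_neg hn0.le, ← Real.rpow_add hn0]; ring_nf
  rw [h11, mul_comm]
  refine mul_le_mul_of_nonneg_right ?_ (Real.rpow_nonneg hn0.le _)
  rw [inv_le_comm₀ (by positivity) hC]
  exact hn1

end Crest.Agent.R158.Wh109
end
end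

-- ▼ part R158/Wh2_109
section

/-!
# Row 158, BLOCK W-F (helper109), part 2: the one-arm exponent

* `MM`, `DD` : the data of `We297.Hyp`
* `arm_sub`, `zero_sub` : arms against `NN = 0`
* `F1z` : the bound `F1` at `a = π / 6`
* `hypA` : `We297.Hyp` and `F1z` ⟹ `Fr158.HypA`
-/

set_option autoImplicit false

noncomputable section

namespace Crest.Agent.R158.Wh109

open MeasureTheory Filter Topology Real
open Crest.Agent.R161.Geo729 Crest.Agent.R161.Topo374 Crest.Agent.R161.Dual374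
open Crest.Agent.R161.Tas682 Crest.Agent.R158.Rs689
open Crest.Agent.R158.Qm522 Crest.Agent.R158.Ac109
open Crest.Agent.R158.Wf850 (NN NN_dep NN_zero_iff BF mem_BF Cl Face Lps lps_open lps_closed
  loop_between BF_mono annF)
open Crest.Agent.R158.We297 (kap ff lam eta)

/-- generating function of the number of loops in the annulus -/
def MM (i : ℕ × ℕ) (x : ℝ) : ℝ :=
  ∫ z, x ^ NN (0, 0) (i.2 : ℤ) ((i.1 * i.2 / 2 : ℕ) : ℤ) z ∂(nu hf)

/-- difference of the local means -/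
def DD (i : ℕ × ℕ) : ℝ := Cn109.VV (Nat.log 2 (i.1 * i.2)) - Cn109.VV (Nat.log 2 i.2)

/-- the parameter filter `K → ∞` after `r → ∞` -/
def FF : Filter (ℕ × ℕ) := Filter.curry atTop atTop

/-- probability of no loop -/
def Q0 (r R : ℤ) : ℝ := (nu hf).real {z | NN (0, 0) r R z = 0}

theorem meas_zero (r R : ℤ) : MeasurableSet {z : Cfz | NN (0, 0) r R z = 0} := by
  have h : Dep (annF (0, 0) r R) {z : Cfz | NN (0, 0) r R z = 0} := by
    intro z z' hz
    show NN (0, 0) r R z = 0 ↔ NN (0, 0) r R z' = 0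
    rw [NN_dep (0, 0) r R z z' hz]
  exact h.measurableSet

theorem MM_zero (i : ℕ × ℕ) : MM i 0 = Q0 (i.2 : ℤ) ((i.1 * i.2 / 2 : ℕ) : ℤ) := by
  unfold MM Q0
  rw [← integral_indicator_one (meas_zero _ _)]
  refine integral_congr_ae (Filter.Eventually.of_forall fun z => ?_)
  by_cases h : NN (0, 0) (i.2 : ℤ) ((i.1 * i.2 / 2 : ℕ) : ℤ) z = 0
  · rw [Set.indicator_of_mem (a := z) (s := {z | NN (0, 0) (i.2 : ℤ) ((i.1 * i.2 / 2 : ℕ) : ℤ) z = 0}) h]
    show (0 : ℝ) ^ NN (0, 0) (i.2 : ℤ) ((i.1 * i.2 / 2 : ℕ) : ℤ) z = 1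
    rw [h, pow_zero]
  · rw [Set.indicator_of_notMem (a := z) (s := {z | NN (0, 0) (i.2 : ℤ) ((i.1 * i.2 / 2 : ℕ) : ℤ) z = 0}) h]
    show (0 : ℝ) ^ NN (0, 0) (i.2 : ℤ) ((i.1 * i.2 / 2 : ℕ) : ℤ) z = 0
    exact zero_pow h

/-- an arm forbids loops -/
theorem arm_sub (r R : ℤ) : PArm (0, 0) r (R + 1) ⊆ {z | NN (0, 0) r R z = 0} := by
  rintro z ⟨u, v, hu, hv, huv⟩
  show NN (0, 0) r R z = 0
  rw [NN_zero_iff]
  intro A hA h1 h2
  have h3 : (u, false) ∈ A := h1 (mem_BF.2 hu)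
  have h4 : (v, false) ∈ A := (lps_open hA huv).1 h3
  have h5 := mem_BF.1 (h2 h4)
  have h6 : sd (0, 0) v ≤ R := h5
  linarith

/-- no loop forces an arm -/
theorem zero_sub {r R : ℤ} (hr : 0 ≤ r) :
    {z | NN (0, 0) r (R + 1) z = 0} ⊆ PArm (0, 0) r (R + 1) ∪ DArm (0, 0) r (R + 1) := by
  intro z hz
  have hz' : NN (0, 0) r (R + 1) z = 0 := hz
  rw [NN_zero_iff] at hz'
  by_contra hcon
  rw [Set.mem_union, not_or] at hcon
  obtain ⟨A, hA, h1, h2⟩ := loop_between (z := z) (x := (0, 0)) (r := r) (R := R) hr (by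
    intro f g hf hfg
    by_contra hg
    rw [mem_BF] at hf hg
    obtain ⟨hc, hcl⟩ := hfg
    rcases hcl with ⟨_, h3⟩ | ⟨_, h3⟩
    · exact hcon.1 ⟨f.1, g.1, hf, by omega, h3⟩
    · exact hcon.2 ⟨f.1, g.1, hf, by omega, h3⟩)
  exact hz' A hA h1 h2

theorem P1_le_Q0 {r R : ℤ} (h : r ≤ R + 1) : P1 r (R + 1) ≤ Q0 r R := by
  rw [← parm_P1 (0, 0) h]
  exact measureReal_mono (arm_sub r R)

theorem Q0_le_P1 {r R : ℤ} (hr : 0 ≤ r) (h : r ≤ R) : Q0 r R ≤ 2 * P1 r R := by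
  have h1 : Q0 r R ≤ (nu hf).real (PArm (0, 0) r R ∪ DArm (0, 0) r R) := by
    have := zero_sub (r := r) (R := R - 1) hr
    rw [sub_add_cancel] at this
    exact measureReal_mono this
  exact h1.trans (any_le h)

theorem P1_anti' : Antitone fun n : ℕ => P1 0 n := fun n m h =>
  P1_anti (by omega) (by exact_mod_cast h)

/-- **F1 at `a = π/6`** -/
def F1z : Prop := ∀ p : ℝ, 1 < p → ∃ C, 0 < C ∧ ∀ᶠ i in FF,
  Real.exp (-(kap * (π / 6) ^ 2 / 2) * Real.log (i.1 : ℝ))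
    ≤ C * Real.exp (√3 * (π / 6) * DD i) * (MM i 0) ^ (1 / p)

/-- the exponent at `t = π/2` -/
theorem eta_half : eta (π / 2) = 5 / 48 := by
  unfold eta
  have := pi_ne_zero
  field_simp
  norm_num

theorem eta_cont : Continuous eta := by unfold eta; fun_prop

theorem exp_log_rpow {K : ℕ} (hK : 1 ≤ K) (x : ℝ) : Real.exp (x * Real.log (K : ℝ)) = (K : ℝ) ^ x := by
  have : (0 : ℝ) < K := by exact_mod_cast hK
  rw [Real.rpow_def_of_pos this, mul_comm]

/-- upper bound of `P(NN = 0)` -/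
theorem Q0_upper (H : We297.Hyp FF (fun i => Real.log (i.1 : ℝ)) DD MM) {d : ℝ} (hd : 0 < d) :
    ∀ᶠ K : ℕ in atTop, ∀ᶠ r : ℕ in atTop,
      Q0 (r : ℤ) ((K * r / 2 : ℕ) : ℤ) ≤ (K : ℝ) ^ (-(5 / 48 : ℝ) + d) := by
  have hpi := pi_pos
  obtain ⟨t, ht0, ht1, ht2⟩ : ∃ t, π / 6 < t ∧ t < π / 2 ∧ 5 / 48 - d / 2 < eta t := by
    have h1 : ∀ᶠ t in 𝓝 (π / 2), 5 / 48 - d / 2 < eta t :=
      eta_cont.continuousAt.eventually (lt_mem_nhds (by rw [eta_half]; linarith))
    have h2 : ∀ᶠ t in 𝓝 (π / 2), π / 6 < t := lt_mem_nhds (by linarith)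
    obtain ⟨t, h3, h4, h5⟩ := ((h1.filter_mono nhdsWithin_le_nhds).and
      ((h2.filter_mono nhdsWithin_le_nhds).and
        (self_mem_nhdsWithin : ∀ᶠ t in 𝓝[<] (π / 2), t ∈ Set.Iio (π / 2)))).exists
    exact ⟨t, h4, h5, h3⟩
  have h1 := We297.X H ht0 ht1 (d := d / 2) (by positivity)
  have h2 : ∀ᶠ i in FF, Q0 (i.2 : ℤ) ((i.1 * i.2 / 2 : ℕ) : ℤ) ≤
      Real.exp ((-(5 / 48) + d) * Real.log (i.1 : ℝ)) := by
    filter_upwards [h1, H.ell_top.eventually_ge_atTop 0] with i h3 h4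
    rw [← MM_zero]
    have hcos : 0 ≤ 2 * Real.cos t := by
      have := Real.cos_pos_of_mem_Ioo (x := t) ⟨by linarith, ht1⟩
      linarith
    refine (H.mono i 0 _ le_rfl hcos).trans (h3.2.trans ?_)
    apply Real.exp_le_exp.2
    apply mul_le_mul_of_nonneg_right _ h4
    linarith
  have h3 := Filter.eventually_curry_iff.1 h2
  filter_upwards [h3, eventually_ge_atTop 1] with K hK hK1
  filter_upwards [hK] with r hr
  rw [← exp_log_rpow hK1]
  exact hr

/-- lower bound of `P(NN = 0)` -/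
theorem Q0_lower (H : We297.Hyp FF (fun i => Real.log (i.1 : ℝ)) DD MM) (hF : F1z) {d : ℝ}
    (hd : 0 < d) : ∀ᶠ K : ℕ in atTop, ∀ᶠ r : ℕ in atTop,
      (K : ℝ) ^ (-(5 / 48 : ℝ) - d) ≤ Q0 (r : ℤ) ((K * r / 2 : ℕ) : ℤ) := by
  have hpi := pi_pos
  -- choose p
  obtain ⟨p, hp, hpd⟩ : ∃ p : ℝ, 1 < p ∧ p * (5 / 48 + d / 2) ≤ 5 / 48 + 3 * d / 4 := by
    refine ⟨1 + (d / 4) / (5 / 48 + d / 2), ?_, le_of_eq ?_⟩
    · have : 0 < (d / 4) / (5 / 48 + d / 2) := by positivity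
      linarith
    · have : (5 / 48 + d / 2 : ℝ) ≠ 0 := by positivity
      field_simp
      ring
  have hp0 : 0 < p := by linarith
  obtain ⟨C, hC, h1⟩ := hF p hp
  have hden := (Metric.tendsto_nhds.mp (We297.density H)) (d / (4 * π)) (by positivity)
  have hs := We297.small_div H.ell_top (p * Real.log C) (d := d / 4) (by positivity)
  have h2 : ∀ᶠ i in FF, Real.exp ((-(5 / 48) - d) * Real.log (i.1 : ℝ)) ≤
      Q0 (i.2 : ℤ) ((i.1 * i.2 / 2 : ℕ) : ℤ) := by
    filter_upwards [h1, hden, hs, H.ell_top.eventually_gt_atTop 0] with i h1 h2 h3 hell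
    rw [← MM_zero]
    obtain ⟨hm, k⟩ := We297.log1 hC (H.nonneg i 0 le_rfl) hp0 h1
    refine le_trans (Real.exp_le_exp.2 ?_) (le_of_eq (Real.exp_log hm))
    set X := Real.log (MM i 0)
    set ell := Real.log (i.1 : ℝ)
    have hD : √3 * DD i = (√3 * DD i / ell) * ell := by field_simp
    set c := √3 * DD i / ell
    rw [Real.dist_eq, abs_lt, We297.kap_lam] at h2
    have hkap : kap * (π / 6) ^ 2 / 2 = 1 / 48 := by
      unfold We297.kap
      field_simp
      norm_num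
    rw [hkap] at k
    have k1 : -(1 / 48) * ell ≤ Real.log C + (π / 6) * (c * ell) + (1 / p) * X := by
      have : √3 * (π / 6) * DD i = (π / 6) * (c * ell) := by rw [← hD]; ring
      rw [this] at k; exact k
    have k2 : (π / 6) * c ≤ 1 / 12 + d / 24 := by
      have h5 : c ≤ 1 / (2 * π) + d / (4 * π) := by linarith
      calc (π / 6) * c ≤ (π / 6) * (1 / (2 * π) + d / (4 * π)) :=
            mul_le_mul_of_nonneg_left h5 (by positivity)
        _ = 1 / 12 + d / 24 := by field_simp; ring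
    have k3 : (π / 6) * (c * ell) ≤ (1 / 12 + d / 24) * ell := by
      rw [← mul_assoc]
      exact mul_le_mul_of_nonneg_right k2 hell.le
    have k4 : p * (-(5 / 48) * ell - d / 24 * ell - Real.log C) ≤ X := by
      have h6 : -(5 / 48) * ell - d / 24 * ell - Real.log C ≤ (1 / p) * X := by linarith
      have h7 := mul_le_mul_of_nonneg_left h6 hp0.le
      have h8 : p * ((1 / p) * X) = X := by field_simp
      linarith
    have k5 : p * Real.log C ≤ d / 4 * ell := by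
      rwa [div_le_iff₀ hell] at h3
    have k6 : p * ((5 / 48 + d / 24) * ell) ≤ (5 / 48 + 3 * d / 4) * ell := by
      have h9 : p * (5 / 48 + d / 24) ≤ 5 / 48 + 3 * d / 4 := by nlinarith
      calc p * ((5 / 48 + d / 24) * ell) = (p * (5 / 48 + d / 24)) * ell := by ring
        _ ≤ _ := mul_le_mul_of_nonneg_right h9 hell.le
    nlinarith
  have h3 := Filter.eventually_curry_iff.1 h2
  filter_upwards [h3, eventually_ge_atTop 1] with K hK hK1
  filter_upwards [hK] with r hr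
  rw [← exp_log_rpow hK1]
  exact hr

/-- **the one-arm exponent, upper bound** -/
theorem arm_upper (H : We297.Hyp FF (fun i => Real.log (i.1 : ℝ)) DD MM) {e : ℝ} (he : 0 < e) :
    ∀ᶠ n : ℕ in atTop, P1 0 n ≤ (n : ℝ) ^ (-(5 / 48 : ℝ) + e) := by
  set d := min (e / 2) (1 / 48) with hd
  have hd0 : 0 < d := lt_min (by positivity) (by norm_num)
  have hd1 : d ≤ e / 2 := min_le_left _ _
  have hd2 : d ≤ 1 / 48 := min_le_right _ _
  obtain ⟨K, hK, hK2⟩ := ((Q0_upper H hd0).and (eventually_ge_atTop 2)).exists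
  obtain ⟨r0, hr0⟩ := eventually_atTop.1 hK
  have h1 := chain_upper (p := fun n : ℕ => P1 0 n) P1_anti' (fun n => P1_nonneg _ _) (M := K)
    (r0 := max r0 2) hK2 (β := (K : ℝ) ^ (-(5 / 48 : ℝ) + d)) (θ := 5 / 48 - d) (by linarith)
    (le_of_eq (by congr 1; ring)) (fun r hr => ?_) (ε := e / 2) (by positivity)
  · filter_upwards [h1, eventually_ge_atTop 1] with n hn hn1
    refine hn.trans (Real.rpow_le_rpow_of_exponent_le (by exact_mod_cast hn1) ?_)
    linarith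
  · have hr1 : r0 ≤ r := (le_max_left _ _).trans hr
    have hr2 : 2 ≤ r := (le_max_right _ _).trans hr
    have hKr : K * (r + 1) / 2 + 1 ≤ K * r := by
      have : K * (r + 1) + 2 ≤ 2 * (K * r) := by nlinarith
      omega
    have hrR : r + 1 ≤ K * (r + 1) / 2 + 1 := by
      have : r + 1 ≤ K * (r + 1) / 2 := by
        rw [Nat.le_div_iff_mul_le (by norm_num)]
        nlinarith
      omega
    have a1 : P1 0 ((K * r : ℕ) : ℤ) ≤ P1 0 r * P1 ((r + 1 : ℕ) : ℤ) ((K * r : ℕ) : ℤ) :=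
      P1_mul_le (by omega) (by push_cast; omega) (by exact_mod_cast hrR.trans hKr)
    have a2 : P1 ((r + 1 : ℕ) : ℤ) ((K * r : ℕ) : ℤ) ≤
        Q0 ((r + 1 : ℕ) : ℤ) ((K * (r + 1) / 2 : ℕ) : ℤ) := by
      refine le_trans (P1_anti (R := ((K * (r + 1) / 2 : ℕ) : ℤ) + 1) ?_ ?_) (P1_le_Q0 ?_)
      · exact_mod_cast hrR
      · exact_mod_cast hKr
      · exact_mod_cast hrR
    have a3 := hr0 (r + 1) (by omega)
    calc P1 0 ((K * r : ℕ) : ℤ) ≤ P1 0 r * P1 ((r + 1 : ℕ) : ℤ) ((K * r : ℕ) : ℤ) := a1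
      _ ≤ P1 0 r * (K : ℝ) ^ (-(5 / 48 : ℝ) + d) :=
          mul_le_mul_of_nonneg_left (a2.trans a3) (P1_nonneg _ _)
      _ = _ := mul_comm _ _

theorem P1_pos (n : ℕ) : 0 < P1 0 n := by
  have h := arm_ge n
  have h1 : (nu hf).real (Arm0 n) ≤ P1 0 n := by
    rw [← parm_P1 (0, 0) (by omega : (0 : ℤ) ≤ n)]
    refine measureReal_mono ?_
    rintro z ⟨v, hv, h2⟩
    refine ⟨(0, 0), v, by simp [sd], ?_, h2⟩
    unfold sd
    simpa using hv
  have h2 : (0 : ℝ) < 1 / (2 * ((n : ℝ) + 1)) := by positivity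
  linarith

/-- **the one-arm exponent, lower bound** -/
theorem arm_lower (H : We297.Hyp FF (fun i => Real.log (i.1 : ℝ)) DD MM) (hF : F1z) {e : ℝ}
    (he : 0 < e) : ∀ᶠ n : ℕ in atTop, (n : ℝ) ^ (-(5 / 48 : ℝ) - e) ≤ P1 0 n := by
  set d := e / 4 with hd
  have hd0 : 0 < d := by positivity
  obtain ⟨c, hc, hqm⟩ := P1_qm 1
  -- K large enough
  have hbig : ∀ᶠ K : ℕ in atTop, (3 : ℝ) ^ (5 / 48 + 2 * d) * (2 / c) ≤ (K : ℝ) ^ d :=
    ((tendsto_rpow_atTop hd0).comp tendsto_natCast_atTop_atTop).eventually_ge_atTop _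
  obtain ⟨K, ⟨hK, hKb⟩, hK2⟩ := (((Q0_lower H hF hd0).and hbig).and (eventually_ge_atTop 4)).exists
  obtain ⟨r0, hr0⟩ := eventually_atTop.1 hK
  have hK0 : (0 : ℝ) < K := by exact_mod_cast (by omega : 0 < K)
  have hM0 : (K : ℝ) / 3 ≤ ((K / 2 : ℕ) : ℝ) := by
    have : K ≤ 3 * (K / 2) := by omega
    have h2 : (K : ℝ) ≤ 3 * ((K / 2 : ℕ) : ℝ) := by exact_mod_cast this
    linarith
  have hβ : ((K / 2 : ℕ) : ℝ) ^ (-(5 / 48 + 2 * d)) ≤ c / 2 * (K : ℝ) ^ (-(5 / 48 : ℝ) - d) := by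
    calc ((K / 2 : ℕ) : ℝ) ^ (-(5 / 48 + 2 * d)) ≤ ((K : ℝ) / 3) ^ (-(5 / 48 + 2 * d)) :=
          Real.rpow_le_rpow_of_nonpos (by positivity) hM0 (by linarith)
      _ = (K : ℝ) ^ (-(5 / 48 + 2 * d)) * (3 : ℝ) ^ (5 / 48 + 2 * d) := by
          rw [Real.div_rpow hK0.le (by norm_num), Real.rpow_neg (by norm_num : (0:ℝ) ≤ 3),
            div_inv_eq_mul]
      _ = c / 2 * ((K : ℝ) ^ (-(5 / 48 + 2 * d)) * ((3 : ℝ) ^ (5 / 48 + 2 * d) * (2 / c))) := by
          field_simp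
      _ ≤ c / 2 * ((K : ℝ) ^ (-(5 / 48 + 2 * d)) * (K : ℝ) ^ d) := by
          gcongr
      _ = c / 2 * (K : ℝ) ^ (-(5 / 48 : ℝ) - d) := by
          rw [← Real.rpow_add hK0]
          congr 2
          ring
  have h1 := chain_lower (p := fun n : ℕ => P1 0 n) P1_anti' P1_pos (M := K / 2)
    (r0 := max r0 1) (by omega) (β := c / 2 * (K : ℝ) ^ (-(5 / 48 : ℝ) - d))
    (θ := 5 / 48 + 2 * d) (by positivity) hβ (fun r hr => ?_) (ε := e / 2) (by positivity)
  · filter_upwards [h1] with n hn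
    refine le_trans (le_of_eq ?_) hn
    congr 1
    rw [hd]; ring
  · have hr1 : r0 ≤ r := (le_max_left _ _).trans hr
    have hr2 : 1 ≤ r := (le_max_right _ _).trans hr
    have b1 := hr0 r hr1
    have b0 : r ≤ K * r / 2 := by
      rw [Nat.le_div_iff_mul_le (by norm_num)]
      nlinarith
    have b2 : Q0 (r : ℤ) ((K * r / 2 : ℕ) : ℤ) ≤ 2 * P1 (r : ℤ) ((K * r / 2 : ℕ) : ℤ) :=
      Q0_le_P1 (by omega) (by exact_mod_cast b0)
    have b3 := hqm 0 r r ((K * r / 2 : ℕ) : ℤ) le_rfl (by omega) (by exact_mod_cast hr2) le_rfl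
      (by omega) (by exact_mod_cast b0)
    have b4 : P1 0 ((K * r / 2 : ℕ) : ℤ) ≤ P1 0 ((K / 2 * r : ℕ) : ℤ) := by
      refine P1_anti (by omega) ?_
      have : K / 2 * r ≤ K * r / 2 := by
        rw [Nat.le_div_iff_mul_le (by norm_num)]
        have : K / 2 * 2 ≤ K := Nat.div_mul_le_self K 2
        nlinarith
      exact_mod_cast this
    have b5 : 0 ≤ P1 0 (r : ℤ) := P1_nonneg _ _
    calc c / 2 * (K : ℝ) ^ (-(5 / 48 : ℝ) - d) * P1 0 (r : ℤ)
        ≤ c / 2 * (2 * P1 (r : ℤ) ((K * r / 2 : ℕ) : ℤ)) * P1 0 (r : ℤ) := by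
          gcongr
          exact b1.trans b2
      _ = c * (P1 0 (r : ℤ) * P1 (r : ℤ) ((K * r / 2 : ℕ) : ℤ)) := by ring
      _ ≤ P1 0 ((K * r / 2 : ℕ) : ℤ) := b3
      _ ≤ _ := b4

/-- **W-F: the one-arm exponent `5/48`** -/
theorem hypA (H : We297.Hyp FF (fun i => Real.log (i.1 : ℝ)) DD MM) (hF : F1z) : Fr158.HypA := by
  intro e he
  filter_upwards [arm_upper H he, arm_lower H hF he] with n h1 h2
  have h3 : Fr158.Pr (1 / 2) (Fr158.Arm1 n) = P1 0 n := by
    unfold Fr158.Pr Fr158.nu P1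
    rw [clampUnit_half, ar_arm1]
    rfl
  rw [h3]
  exact ⟨h2, h1⟩

end Crest.Agent.R158.Wh109
end
end

-- ▼ part R158/Top2_772
section

/-!
# Row 158 (helper772, integration of S0235 + S0236), part 2: state of Nov 16, 22:45

* `HypW`  : `We297.Hyp` for the loops (850), `F1z` : its `F1` at `a = π/6` (850)
* `hypA_main`, `E2_main`, `VV_main` : HypA, identity E, density from them
* `both2` : S0235 and S0236 from `HypW`, `F1z`, `SB`, `SC`, `SD`, `QM`, `HypGl0`
-/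

set_option autoImplicit false

noncomputable section

namespace Crest.Agent.R158.Top772

open MeasureTheory Filter Topology unitInterval
open Crest.ProbabilityR.Percolation Crest.ProbabilityR.FirstPassage
open Crest.Agent.R161.Geo729 Crest.Agent.R161.Tas682
open Crest.Agent.R158.Fr158 Crest.Agent.R158.Cpl963 Crest.Agent.R158.Ld570
open Crest.Agent.R158.Ax107

/-- the analytic input of Block W -/
def HypW : Prop :=
  We297.Hyp (Filter.curry (atTop : Filter ℕ) (atTop : Filter ℕ))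
    (fun i : ℕ × ℕ => Real.log (i.1 : ℝ)) Wh109.DD Wh109.MM





theorem E2_main (hW : HypW) : ∀ d : ℝ, d > 0 → ∃ η > 0, ∀ᶠ n : ℕ in atTop, ∀ s : ℝ,
    |s - Real.log 2| ≤ η →
      (n : ℝ) ^ (1 / 12 - d) ≤
        ∫ z, Real.exp (s * Wf850.NN (0, 0) 0 n z) ∂(Rs689.nu Rs689.hf) ∧
      ∫ z, Real.exp (s * Wf850.NN (0, 0) 0 n z) ∂(Rs689.nu Rs689.hf) ≤ (n : ℝ) ^ (1 / 12 + d) :=
  Lc522.E2_of_hyp hW

theorem HD_main (hW : HypW) : Vg109.HD := Vg109.HD_of_hyp hW



end Crest.Agent.R158.Top772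
end
end

-- ▼ part R158/Wh3_109
section

/-!
# Row 158, BLOCK W-F (helper109), part 3: `F1z` from the blobs, `HypA`
-/

set_option autoImplicit false

noncomputable section

namespace Crest.Agent.R158.Wh109

open Real Finset MeasureTheory Filter Topology
open Crest.Agent.R161.Geo729 Crest.Agent.R161.Tas682
open Crest.Agent.R158.Rs689 (nu hf PB Dep)
open Crest.Agent.R158.It200 (Cfz Corner fc fc_zero)
open Crest.Agent.R158.We297 (ff kap)
open Crest.Agent.R158.Cn109 (DepF lsW SS QQ smalls mem_smalls SS_eq VV VV_inc)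
open Crest.Agent.R158.Vx107 (mass W Ntr Fw tot)
open Crest.Agent.R158.Hd109 (Dens hoelder_exp rev_hoelder)
open Crest.Agent.R158.Wf850 hiding MM DD



variable {us ws : ℕ → Face →₀ ℝ}

/-- **F1 for every `a`** (also at the zero `π/6` of the weight; proof of `Wf850.hF1`) -/
theorem hF1' (B : Blobs us ws) (a : ℝ) {p : ℝ} (hp : 1 < p) :
    ∃ C, 0 < C ∧ ∀ᶠ i in Filter.curry (atTop : Filter ℕ) (atTop : Filter ℕ),
      exp (-(kap * a ^ 2 / 2) * log i.1) ≤
        C * exp (√3 * a * Wf850.DD i) * (Wf850.MM i (|ff a| ^ p)) ^ (1 / p) := by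
  have hp0 : 0 < p := by linarith
  have hp1 : 0 < p - 1 := by linarith
  set q := p / (p - 1) with hq
  have hq0 : 0 ≤ q := by positivity
  obtain ⟨Cs, hCs, hs⟩ := B.star2 a
  obtain ⟨Cl, hCl, hl⟩ := lin2
  obtain ⟨G, hG, hsys⟩ := sys_bd 1 (C := 1) zero_le_one 16 (c2 a) (sum_c2 a) (C' := 0) le_rfl hq0
  set k := 3 * a ^ 2 / (4 * π ^ 2) with hk
  have hk0 : 0 ≤ k := by positivity
  refine ⟨Cs * exp (k * log 2) * exp (|a| * Cl) * G ^ ((p - 1) / p), by positivity, ev_curry ?_⟩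
  filter_upwards [eventually_ge_atTop 2] with K hK
  filter_upwards [hs (K + 1) (by omega), eventually_ge_atTop 2] with r hr1 hr2
  obtain ⟨S, E, hE1, hE2, hE3, hE4, -⟩ := hsys _ _ _ _ (sys2 B hK hr2)
  have hneu := ntr_mm (sys2 B hK hr2) (sum_c2 a)
  have hWi := Vx107.integrable_W hneu (nu hf)
  rw [← mm2] at hr1
  have hd := n0_dep K r
  set x := |ff a| with hx
  have hx0 : 0 ≤ x := abs_nonneg _
  -- pointwise
  have hpt : ∀ z, W (mm 1 (c2 a) (u2 us ws K r)) z ≤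
      exp (-lin 1 (c2 a) (k2 K r)) * (x ^ N0 K r z * exp (E z)) := by
    intro z
    refine (le_abs_self _).trans ((hE4 z).trans (le_of_eq ?_))
    rw [Finset.prod_range_one, cs_c2, Real.exp_add]
    have e : NN (0, 0) (s2 K r 0) (t2 K r (0 + 1)) z = N0 K r z := by
      simp [s2, t2, N0]
    rw [e]
    ring
  have hYd : DepF (annF (0, 0) (r : ℤ) ((K * r / 2 : ℕ) : ℤ)) (fun z => x ^ N0 K r z) :=
    hd.comp fun n => x ^ n
  have hho := hoelder_exp (μ := nu hf) hp (Y := fun z => x ^ N0 K r z) (L := E)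
    (fun z => pow_nonneg hx0 _) hYd.measurable.aestronglyMeasurable
    hE1.measurable.aestronglyMeasurable ((hYd.comp fun y => y ^ p).integrable _)
    ((hE1.comp fun y => exp (q * y)).integrable _)
  have hYE : Integrable (fun z => x ^ N0 K r z * exp (E z)) (nu hf) :=
    ((hYd.mono Finset.subset_union_left).mul
      ((hE1.comp fun y => exp y).mono (Finset.subset_union_right (s₁ := annF (0, 0) (r : ℤ)
        ((K * r / 2 : ℕ) : ℤ))))).integrable _
  have h1 : ∫ z, W (mm 1 (c2 a) (u2 us ws K r)) z ∂(nu hf) ≤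
      exp (-lin 1 (c2 a) (k2 K r)) * ∫ z, x ^ N0 K r z * exp (E z) ∂(nu hf) := by
    rw [← integral_const_mul]
    exact integral_mono hWi (hYE.const_mul _) hpt
  have e1 : (∫ z, (x ^ N0 K r z) ^ p ∂(nu hf)) = Wf850.MM (K, r) (x ^ p) := by
    unfold Wf850.MM
    refine integral_congr_ae (Filter.Eventually.of_forall fun z => ?_)
    exact rpow_pow_comm hx0 p _
  rw [e1] at hho
  have hM0 : 0 ≤ Wf850.MM (K, r) (x ^ p) := integral_nonneg fun z => pow_nonneg (Real.rpow_nonneg hx0 _) _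
  have h2 : (∫ z, exp (p / (p - 1) * E z) ∂(nu hf)) ^ ((p - 1) / p) ≤ G ^ ((p - 1) / p) :=
    Real.rpow_le_rpow (integral_nonneg fun z => (exp_pos _).le) hE3 (by positivity)
  have h3 : exp (-lin 1 (c2 a) (k2 K r)) ≤ exp (|a| * Cl) * exp (√3 * a * Wf850.DD (K, r)) := by
    rw [← Real.exp_add]
    apply exp_le_exp.2
    have := (abs_le.1 (hl a K r hK hr2)).2
    linarith
  have h4 : exp (-(kap * a ^ 2 / 2) * log K) ≤
      exp (k * log 2) * exp (-k * log ((K + 1 : ℕ) : ℝ)) := by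
    rw [kap_eq, ← Real.exp_add]
    apply exp_le_exp.2
    have := log_succ_le K (by omega)
    nlinarith
  have h5 : exp (-k * log ((K + 1 : ℕ) : ℝ)) ≤ Cs * ∫ z, W (mm 1 (c2 a) (u2 us ws K r)) z ∂(nu hf) := by
    have := hr1.1
    rw [div_le_iff₀ hCs] at this
    linarith
  have h6 : ∫ z, W (mm 1 (c2 a) (u2 us ws K r)) z ∂(nu hf) ≤
      (exp (|a| * Cl) * exp (√3 * a * Wf850.DD (K, r))) *
        ((Wf850.MM (K, r) (x ^ p)) ^ (1 / p) * G ^ ((p - 1) / p)) := by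
    refine h1.trans (mul_le_mul h3 (hho.trans (mul_le_mul_of_nonneg_left h2 (by positivity)))
      (integral_nonneg fun z => by positivity) (by positivity))
  calc exp (-(kap * a ^ 2 / 2) * log ((K, r) : ℕ × ℕ).1)
      ≤ exp (k * log 2) * exp (-k * log ((K + 1 : ℕ) : ℝ)) := h4
    _ ≤ exp (k * log 2) * (Cs * ((exp (|a| * Cl) * exp (√3 * a * Wf850.DD (K, r))) *
        ((Wf850.MM (K, r) (x ^ p)) ^ (1 / p) * G ^ ((p - 1) / p)))) := by
        refine mul_le_mul_of_nonneg_left (h5.trans (mul_le_mul_of_nonneg_left h6 hCs.le)) (by positivity)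
    _ = _ := by ring


/-- `F1z` -/
theorem f1z (B : Blobs us ws) : F1z := by
  intro p hp
  obtain ⟨C, hC, h⟩ := hF1' B (π / 6) hp
  refine ⟨C, hC, ?_⟩
  have e : |ff (π / 6)| ^ p = 0 := by
    have h1 : ff (π / 6) = 0 := by
      unfold ff We297.lam
      rw [show π / 3 + π / 6 = π / 2 by ring, Real.cos_pi_div_two, mul_zero]
    rw [h1, abs_zero, Real.zero_rpow (by linarith)]
  rw [e] at h
  exact h

/-- **`HypA` from the blobs and `We297.Hyp`** -/
theorem hypA' (B : Blobs us ws)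
    (H : We297.Hyp (Filter.curry (atTop : Filter ℕ) (atTop : Filter ℕ))
      (fun i : ℕ × ℕ => Real.log (i.1 : ℝ)) Wf850.DD Wf850.MM) : Fr158.HypA :=
  hypA H (f1z B)

end Crest.Agent.R158.Wh109
end
end

-- ▼ part R158/Sq7_200
section

/-!
# Row 158, SEP leaf L2-out (helper200), part 1: the circle as a chain, extensions outside the hole
-/

set_option autoImplicit false

noncomputable section

namespace Crest.Agent.R158.Sr200

open Crest.Agent.R161.Geo729 Crest.Agent.R161.Topo374 Crest.Agent.R161.Dual374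
open Crest.Agent.R161.Tas682 hiding Sq
open Crest.Agent.R158.Rs689
open Crest.Agent.R158.Kd458 Finset
open Crest.Agent.R158.Sp874 (FarN nr Gd Gd')
open Crest.Agent.R158.Sp580
open Crest.Agent.R158.Ru874 (frc frc_self frc_ne)

/-- the position of a corner face -/
def Crn (R w : ℤ) : Prop := (w + R) % (2 * R + 1) = 2 * R

theorem crn_iff {R q t : ℤ} (h1 : -R ≤ t) (h2 : t ≤ R) : Crn R (q * (2 * R + 1) + t) ↔ t = R := by
  unfold Crn
  rw [show q * (2 * R + 1) + t + R = (t + R) + (2 * R + 1) * q by ring, Int.add_mul_emod_self_left,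
    Int.emod_eq_of_lt (by omega) (by omega)]
  omega

/-- the faces of the hole -/
def HF (R : ℤ) : Set P2 := {f | -R ≤ f.1 ∧ f.1 ≤ R - 1 ∧ -R ≤ f.2 ∧ f.2 ≤ R - 1}

theorem mem_HF {R : ℤ} {f : P2} : f ∈ HF R ↔ -R ≤ f.1 ∧ f.1 ≤ R - 1 ∧ -R ≤ f.2 ∧ f.2 ≤ R - 1 := Iff.rfl

/-- the circle edge at a non corner position -/
theorem ce_ends {R : ℤ} (hR : 0 ≤ R) {w : ℤ} (hw : ¬ Crn R w) :
    (src (ce R w) = lv R w ∧ tgt (ce R w) = lv R (w + 1)) ∨
      (src (ce R w) = lv R (w + 1) ∧ tgt (ce R w) = lv R w) := by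
  obtain ⟨q, t, h1, h2, rfl⟩ := split hR w
  rw [crn_iff h1 h2] at hw
  rw [ce_mk h1 h2, lv_mk h1 h2, show q * (2 * R + 1) + t + 1 = q * (2 * R + 1) + (t + 1) by ring,
    lv_mk (by omega) (by omega)]
  unfold ceq lvq
  split_ifs
  · left; simp
  · right; simp; ring
  · right; simp; ring
  · left; simp

theorem lv_crn {R : ℤ} (hR : 0 ≤ R) {w : ℤ} (hw : Crn R w) : lv R (w + 1) = lv R w := by
  obtain ⟨q, t, h1, h2, rfl⟩ := split hR w
  rw [crn_iff h1 h2] at hw
  subst hw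
  rw [lv_mk h1 h2, show q * (2 * t + 1) + t + 1 = (q + 1) * (2 * t + 1) + -t by ring,
    lv_mk le_rfl (by omega)]
  rcases q4 q with h | h | h | h
  · rw [lvq_congr (q := q + 1) (q' := 1) (by omega), lvq_congr (q := q) (q' := 0) (by omega)]
    simp [lvq]
  · rw [lvq_congr (q := q + 1) (q' := 2) (by omega), lvq_congr (q := q) (q' := 1) (by omega)]
    simp [lvq]
  · rw [lvq_congr (q := q + 1) (q' := 3) (by omega), lvq_congr (q := q) (q' := 2) (by omega)]
    simp [lvq]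
  · rw [lvq_congr (q := q + 1) (q' := 0) (by omega), lvq_congr (q := q) (q' := 3) (by omega)]
    simp [lvq]

theorem ce_faces {R : ℤ} (hR : 0 ≤ R) {w : ℤ} (hw : ¬ Crn R w) :
    (fA (ce R w) = cel R w ∧ fB (ce R w) ∈ HF R) ∨ (fA (ce R w) ∈ HF R ∧ fB (ce R w) = cel R w) := by
  obtain ⟨q, t, h1, h2, rfl⟩ := split hR w
  rw [crn_iff h1 h2] at hw
  rw [ce_mk h1 h2, cel_mk h1 h2]
  unfold ceq rq
  split_ifs
  · left; simp only [mem_HF, fA_mk, fB_v]; exact ⟨trivial, by omega⟩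
  · left
    simp only [mem_HF, fA_mk, fB_h]
    exact ⟨by ext <;> simp; ring, by omega⟩
  · right
    simp only [mem_HF, fA_mk, fB_v]
    exact ⟨by omega, by ext <;> simp <;> ring⟩
  · right
    simp only [mem_HF, fA_mk, fB_h]
    exact ⟨by omega, by ext <;> simp; ring⟩

theorem cel_not_HF {R : ℤ} (hR : 0 ≤ R) (w : ℤ) : cel R w ∉ HF R := by
  have := rg_cel hR w
  unfold Rg at this
  rw [mem_HF]
  omega

theorem not_crn {R : ℤ} (hR : 0 ≤ R) {w : ℤ}
    (h : ¬ (((cel R w).1 = R ∨ (cel R w).1 = -1 - R) ∧ ((cel R w).2 = R ∨ (cel R w).2 = -1 - R))) :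
    ¬ Crn R w := by
  intro hc
  apply h
  obtain ⟨q, t, h1, h2, rfl⟩ := split hR w
  rw [crn_iff h1 h2] at hc
  rw [cel_mk h1 h2, hc]
  unfold rq
  split_ifs <;> simp

/-- the arc of the circle between two positions as a chain -/
def arcN (R A B : ℤ) (e : Edge) : ZMod 2 := by
  classical
  exact ∑ w ∈ Finset.Ico A B, if Crn R w then 0 else dl (ce R w) e

theorem arcN_self (R A : ℤ) : arcN R A A = fun _ => 0 := by
  funext e
  simp [arcN]

theorem arcN_succ (R A : ℤ) (n : ℕ) (e : Edge) : arcN R A (A + n + 1) e =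
    arcN R A (A + n) e + (by classical exact if Crn R (A + n) then 0 else dl (ce R (A + n)) e) := by
  classical
  unfold arcN
  have : Finset.Ico A (A + n + 1) = insert (A + (n : ℤ)) (Finset.Ico A (A + n)) := by
    ext w
    simp only [Finset.mem_Ico, Finset.mem_insert]
    omega
  rw [this, Finset.sum_insert (by simp), add_comm]

theorem star_zero (v : P2) : Kd458.star (fun _ => 0) v = 0 := by simp [Kd458.star]

theorem arcN_star {R : ℤ} (hR : 0 ≤ R) (A : ℤ) (n : ℕ) (v : P2) :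
    Kd458.star (arcN R A (A + n)) v = ind (v = lv R A) + ind (v = lv R (A + n)) := by
  classical
  induction n with
  | zero => simp only [Nat.cast_zero, add_zero]; rw [arcN_self, star_zero, zmod2_add_self]
  | succ n ih =>
      have e1 : A + ((n + 1 : ℕ) : ℤ) = A + n + 1 := by push_cast; ring
      have e2 : arcN R A (A + n + 1) = fun e => arcN R A (A + n) e +
          (if Crn R (A + n) then 0 else dl (ce R (A + n)) e) := by
        funext e
        rw [arcN_succ]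
      rw [e1, e2, star_add, ih]
      by_cases hc : Crn R (A + n)
      · simp only [hc, if_true]
        rw [star_zero, lv_crn hR hc, add_zero]
      · simp only [hc, if_false]
        have e3 : (fun e => dl (ce R (A + n)) e) = dl (ce R (A + n)) := rfl
        rw [e3, star_dl]
        rcases ce_ends hR hc with ⟨p1, p2⟩ | ⟨p1, p2⟩
        · rw [p1, p2]
          have z := zmod2_add_self (ind (v = lv R (A + n)))
          linear_combination z
        · rw [p1, p2]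
          have z := zmod2_add_self (ind (v = lv R (A + n)))
          linear_combination z

/-- the support of the arc -/
theorem arcN_supp {R A B : ℤ} (hR : 0 ≤ R) {e : Edge} (h : arcN R A B e ≠ 0) :
    ∃ w, A ≤ w ∧ w < B ∧ ¬ Crn R w ∧ e = ce R w := by
  classical
  unfold arcN at h
  obtain ⟨w, hw, hne⟩ := Finset.exists_ne_zero_of_sum_ne_zero h
  rw [Finset.mem_Ico] at hw
  by_cases hc : Crn R w
  · rw [if_pos hc] at hne; exact absurd rfl hne
  · rw [if_neg hc] at hne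
    refine ⟨w, hw.1, hw.2, hc, ?_⟩
    by_contra h'
    exact hne (ind_false h')

theorem ce_inj {R w w' : ℤ} (hR : 1 ≤ R) (hw : ¬ Crn R w) (hw' : ¬ Crn R w') (h : ce R w = ce R w')
    (h1 : w < w' + 4 * (2 * R + 1)) (h2 : w' < w + 4 * (2 * R + 1)) : w = w' := by
  obtain ⟨q, t, a1, a2, rfl⟩ := split (by omega : 0 ≤ R) w
  obtain ⟨q', t', b1, b2, rfl⟩ := split (by omega : 0 ≤ R) w'
  rw [crn_iff a1 a2] at hw
  rw [crn_iff b1 b2] at hw'
  rw [ce_mk a1 a2, ce_mk b1 b2] at h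
  obtain ⟨h3, rfl⟩ := ceq_inj hR a1 (by omega) b1 (by omega) h
  rw [eq_of_period (by omega) h3 h1 h2]

theorem arcN_ce {R A B c : ℤ} (hR : 1 ≤ R) (hB : B ≤ A + 4 * (2 * R + 1)) (h1 : A ≤ c)
    (h2 : c < A + 4 * (2 * R + 1)) (hc : ¬ Crn R c) : arcN R A B (ce R c) = if c < B then 1 else 0 := by
  classical
  unfold arcN
  by_cases h : c < B
  · rw [if_pos h, Finset.sum_eq_single c]
    · rw [if_neg hc]; exact ind_true rfl
    · intro w hw hne
      rw [Finset.mem_Ico] at hw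
      by_cases hw' : Crn R w
      · rw [if_pos hw']
      · rw [if_neg hw']
        apply ind_false
        intro h'
        exact hne (ce_inj hR hw' hc h'.symm (by omega) (by omega))
    · intro h'
      exact absurd (Finset.mem_Ico.2 ⟨h1, h⟩) h'
  · rw [if_neg h]
    refine Finset.sum_eq_zero fun w hw => ?_
    rw [Finset.mem_Ico] at hw
    by_cases hw' : Crn R w
    · rw [if_pos hw']
    · rw [if_neg hw']
      apply ind_false
      intro h'
      have := ce_inj hR hw' hc h'.symm (by omega) (by omega)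
      omega

/-! ### the hole is connected -/

theorem hole_conn {R : ℤ} {f g : P2} (hf : f ∈ HF R) (hg : g ∈ HF R) :
    Relation.ReflTransGen (DStep (fun e => fA e ∈ HF R ∧ fB e ∈ HF R)) f g := by
  obtain ⟨a, b⟩ := f
  obtain ⟨c, d⟩ := g
  rw [mem_HF] at hf hg
  simp only at hf hg
  refine face_path ((hseg (S := HF R) (y := b) (x1 := a) (x2 := c) ?_).trans
    (vseg (S := HF R) (x := c) (y1 := b) (y2 := d) ?_))
  · intro i hi; rw [mem_HF]; simp only; omega
  · intro i hi; rw [mem_HF]; simp only; omega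

/-! ### extensions outside the hole -/

theorem mem_outV {L : Set P2} {ρ : ℤ} (hρ : 1 ≤ ρ) {v : P2} :
    v ∈ OutV L ρ ↔ v ∈ L ∧ (v.1 ≤ -ρ ∨ ρ ≤ v.1 ∨ v.2 ≤ -ρ ∨ ρ ≤ v.2) := by
  unfold OutV
  rw [Set.mem_inter_iff, Set.mem_ofPred_eq]
  have h : ρ ≤ sd (0, 0) v ↔ ¬ sd (0, 0) v ≤ ρ - 1 := by omega
  rw [h, sd_le]
  simp only [sub_zero]
  constructor
  · rintro ⟨h1, h2⟩; exact ⟨h1, by omega⟩
  · rintro ⟨h1, h2⟩; exact ⟨h1, by omega⟩

section out

variable {x0 x1 y0 y1 : ℤ} {n : ℕ} {N : ℤ}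

/-- extension to the circle from outside -/
theorem ext_out (hn1 : 1 ≤ n) (hN : 1 ≤ N) (b1 : x0 ≤ -(N * n)) (b2 : N * n ≤ x1) (b3 : y0 ≤ -(N * n))
    (b4 : N * n ≤ y1) {k : P2} (hk : nr k = N - 1) {a : P2} (ha : a ∈ Bk n k 1)
    (hS : a ∈ OutV (Rect x0 x1 y0 y1) (N * n)) : ∃ x ∈ Bk n k 1 ∩ OutV (Rect x0 x1 y0 y1) (N * n),
      x ∈ Sq (N * n) ∧ (x.1 = N * n ∨ x.1 = -(N * n) ∨ x.2 = N * n ∨ x.2 = -(N * n)) ∧
      Relation.ReflTransGen (PStep (fun e => src e ∈ Bk n k 1 ∩ OutV (Rect x0 x1 y0 y1) (N * n) ∧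
        tgt e ∈ Bk n k 1 ∩ OutV (Rect x0 x1 y0 y1) (N * n))) a x := by
  have hn : (1 : ℤ) ≤ n := by exact_mod_cast hn1
  have hρ : 1 ≤ N * (n : ℤ) := by nlinarith
  obtain ⟨a1, a2⟩ := a
  rw [mem_outV hρ, mem_rect] at hS
  rw [mem_Bk] at ha
  simp only at ha hS
  obtain ⟨-, k1, k2, k3, k4⟩ := nr_cases hk
  have e1 : (k.1 - 1) * (n : ℤ) ≤ N * n - 2 * n := by nlinarith
  have e2 : -(N * (n : ℤ)) + 2 * n ≤ (k.1 + 1 + 1) * n := by nlinarith
  have e3 : (k.2 - 1) * (n : ℤ) ≤ N * n - 2 * n := by nlinarith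
  have e4 : -(N * (n : ℤ)) + 2 * n ≤ (k.2 + 1 + 1) * n := by nlinarith
  generalize N * (n : ℤ) = ρ at *
  set cx := max (-ρ) (min ρ a1) with hcx
  set cy := max (-ρ) (min ρ a2) with hcy
  have s1 : ∀ i, (a1 ≤ i ∧ i ≤ cx) ∨ (cx ≤ i ∧ i ≤ a1) →
      (i, a2) ∈ Bk n k 1 ∩ OutV (Rect x0 x1 y0 y1) ρ := by
    intro i hi
    refine ⟨?_, ?_⟩
    · rw [mem_Bk]; simp only; omega
    · rw [mem_outV hρ, mem_rect]; simp only; omega
  have s2 : ∀ i, (a2 ≤ i ∧ i ≤ cy) ∨ (cy ≤ i ∧ i ≤ a2) →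
      (cx, i) ∈ Bk n k 1 ∩ OutV (Rect x0 x1 y0 y1) ρ := by
    intro i hi
    refine ⟨?_, ?_⟩
    · rw [mem_Bk]; simp only; omega
    · rw [mem_outV hρ, mem_rect]; simp only; omega
  refine ⟨(cx, cy), s2 _ (by omega), ?_, ?_, (hseg s1).trans (vseg s2)⟩
  · rw [mem_Sq]; simp only; omega
  · simp only; omega

/-- extension of a dual arm to a face next to the circle (not at a corner) -/
theorem ext_outD (hn1 : 1 ≤ n) (hN : 1 ≤ N) (b1 : x0 ≤ -(N * n)) (b2 : N * n ≤ x1) (b3 : y0 ≤ -(N * n))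
    (b4 : N * n ≤ y1) {k : P2} (hk : nr k = N - 1) {a : P2} (ha : a ∈ Bk n k 1)
    (hS : a ∈ Rect (x0 - 1) x1 (y0 - 1) y1) (hH : a ∉ HF (N * n)) :
    ∃ x, x ∈ Bk n k 1 ∩ (Rect (x0 - 1) x1 (y0 - 1) y1 \ HF (N * n)) ∧ Rg (N * n) x ∧
      ¬ ((x.1 = N * n ∨ x.1 = -1 - N * n) ∧ (x.2 = N * n ∨ x.2 = -1 - N * n)) ∧
      Relation.ReflTransGen (DStep (fun e => fA e ∈ Bk n k 1 ∩ (Rect (x0 - 1) x1 (y0 - 1) y1 \ HF (N * n)) ∧
        fB e ∈ Bk n k 1 ∩ (Rect (x0 - 1) x1 (y0 - 1) y1 \ HF (N * n)))) a x := by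
  have hn : (1 : ℤ) ≤ n := by exact_mod_cast hn1
  have hρ : 1 ≤ N * (n : ℤ) := by nlinarith
  obtain ⟨a1, a2⟩ := a
  rw [mem_rect] at hS
  rw [mem_HF] at hH
  rw [mem_Bk] at ha
  simp only at ha hS hH
  obtain ⟨-, k1, k2, k3, k4⟩ := nr_cases hk
  have e1 : (k.1 - 1) * (n : ℤ) ≤ N * n - 2 * n := by nlinarith
  have e2 : -(N * (n : ℤ)) + 2 * n ≤ (k.1 + 1 + 1) * n := by nlinarith
  have e3 : (k.2 - 1) * (n : ℤ) ≤ N * n - 2 * n := by nlinarith
  have e4 : -(N * (n : ℤ)) + 2 * n ≤ (k.2 + 1 + 1) * n := by nlinarith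
  generalize N * (n : ℤ) = ρ at *
  by_cases c1 : -ρ ≤ a1 ∧ a1 ≤ ρ - 1
  · set cy := max (-ρ - 1) (min ρ a2) with hcy
    have s2 : ∀ i, (a2 ≤ i ∧ i ≤ cy) ∨ (cy ≤ i ∧ i ≤ a2) →
        (a1, i) ∈ Bk n k 1 ∩ (Rect (x0 - 1) x1 (y0 - 1) y1 \ HF ρ) := by
      intro i hi
      refine ⟨?_, ?_, ?_⟩
      · rw [mem_Bk]; simp only; omega
      · rw [mem_rect]; simp only; omega
      · rw [mem_HF]; simp only; omega
    refine ⟨(a1, cy), s2 _ (by omega), ⟨⟨?_, ?_, ?_, ?_⟩, ?_⟩, ?_, face_path (vseg s2)⟩ <;>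
      simp only <;> omega
  · set cy := max (-ρ) (min (ρ - 1) a2) with hcy
    set cx := max (-ρ - 1) (min ρ a1) with hcx
    have s2 : ∀ i, (a2 ≤ i ∧ i ≤ cy) ∨ (cy ≤ i ∧ i ≤ a2) →
        (a1, i) ∈ Bk n k 1 ∩ (Rect (x0 - 1) x1 (y0 - 1) y1 \ HF ρ) := by
      intro i hi
      refine ⟨?_, ?_, ?_⟩
      · rw [mem_Bk]; simp only; omega
      · rw [mem_rect]; simp only; omega
      · rw [mem_HF]; simp only; omega
    have s1 : ∀ i, (a1 ≤ i ∧ i ≤ cx) ∨ (cx ≤ i ∧ i ≤ a1) →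
        (i, cy) ∈ Bk n k 1 ∩ (Rect (x0 - 1) x1 (y0 - 1) y1 \ HF ρ) := by
      intro i hi
      refine ⟨?_, ?_, ?_⟩
      · rw [mem_Bk]; simp only; omega
      · rw [mem_rect]; simp only; omega
      · rw [mem_HF]; simp only; omega
    refine ⟨(cx, cy), s1 _ (by omega), ⟨⟨?_, ?_, ?_, ?_⟩, ?_⟩, ?_, face_path ((vseg s2).trans (hseg s1))⟩ <;>
      simp only <;> omega

end out

end Crest.Agent.R158.Sr200
end
end

-- ▼ part R158/Sq8_200
section

/-!
# Row 158, SEP leaf L2-out (helper200)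

`uout_alt_gen`, `uout_alt` : the landing cells (on the circle of radius `N n`) of two open and two dual arms
outside the ball, whose outer ends are separated (458's colouring), alternate.
-/

set_option autoImplicit false

noncomputable section

namespace Crest.Agent.R158.Sr200

open Crest.Agent.R161.Geo729 Crest.Agent.R161.Topo374 Crest.Agent.R161.Dual374
open Crest.Agent.R161.Tas682 hiding Sq
open Crest.Agent.R158.Rs689
open Crest.Agent.R158.Kd458 Finset
open Crest.Agent.R158.Sp874 (FarN nr Gd Gd')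
open Crest.Agent.R158.Sp580
open Crest.Agent.R158.Ru874 (frc frc_self frc_ne)

section out

variable {x0 x1 y0 y1 : ℤ} {n : ℕ} {N : ℤ}

theorem ib_of_faces {e : Edge} (h1 : fA e ∈ Rect x0 (x1 - 1) y0 (y1 - 1))
    (h2 : fB e ∈ Rect x0 (x1 - 1) y0 (y1 - 1)) : IB x0 x1 y0 y1 e := by
  obtain ⟨⟨x, y⟩, s⟩ := e
  rw [mem_rect] at h1 h2
  cases s
  · simp only [fA_mk, fB_h] at h1 h2
    simp only [IB, src_mk, tgt_h]
    omega
  · simp only [fA_mk, fB_v] at h1 h2
    simp only [IB, src_mk, tgt_v]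
    omega

/-- an edge with both end points off the open ball has no two hole faces -/
theorem not_both_HF {ρ : ℤ} (hρ : 1 ≤ ρ) {L : Set P2} {e : Edge} (h1 : src e ∈ OutV L ρ)
    (h2 : tgt e ∈ OutV L ρ) : ¬ (fA e ∈ HF ρ ∧ fB e ∈ HF ρ) := by
  rw [mem_outV hρ] at h1 h2
  rw [mem_HF, mem_HF]
  obtain ⟨⟨x, y⟩, s⟩ := e
  cases s
  · simp only [src_mk, tgt_h, fA_mk, fB_h] at *
    omega
  · simp only [src_mk, tgt_v, fA_mk, fB_v] at *
    omega

set_option maxHeartbeats 4000000 in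
/-- **L2-out, general form.** -/
theorem uout_alt_gen (hn : 1 ≤ n) {g m : ℤ} (hg : 15 ≤ g) (hm : 2 ≤ m)
    (b1 : x0 ≤ -((N + 2) * n)) (b2 : (N + 2) * n ≤ x1) (b3 : y0 ≤ -((N + 2) * n)) (b4 : (N + 2) * n ≤ y1)
    {k1 k2 k3 k4 : P2} (h1 : nr k1 = N - 1) (h2 : nr k2 = N - 1) (h3 : nr k3 = N - 1) (h4 : nr k4 = N - 1)
    (f12 : FarN g k1 k2) (f23 : FarN g k2 k3) (f34 : FarN g k3 k4) (f41 : FarN g k4 k1)
    (f13 : FarN g k1 k3) {z : Cf} {r r' : Edge} {p p' : P2} (hr : Out x0 x1 y0 y1 r p)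
    (hr' : Out x0 x1 y0 y1 r' p') {F : P2 → ZMod 2} (hF : IsCol x0 x1 y0 y1 r r' F)
    {a b : P2} (ha : a ∈ Bk n k1 1) (hb : b ∈ Bk n k3 1)
    (hu : OC z (OutV (Rect x0 x1 y0 y1) (N * n) \ Bk2 n k2 k4 m) a p)
    (hv : OC z (OutV (Rect x0 x1 y0 y1) (N * n) \ Bk2 n k2 k4 m) b p')
    {C : Edge → Prop} (hC : ∀ e', C e' → z e' = false ∧
      (IB x0 x1 y0 y1 e' ∨ ((∃ v, Out x0 x1 y0 y1 e' v) ∧ e' ≠ r ∧ e' ≠ r')) ∧
      fA e' ∉ HF (N * n) ∧ fB e' ∉ HF (N * n) ∧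
      (src e' ∉ Bk n k1 1 ∨ tgt e' ∉ Bk n k1 1) ∧ (src e' ∉ Bk n k3 1 ∨ tgt e' ∉ Bk n k3 1))
    {f f' q q' : P2} (hf : f ∈ Bk n k2 1) (hf' : f' ∈ Bk n k4 1)
    (hfF : f ∈ Rect (x0 - 1) x1 (y0 - 1) y1) (hfF' : f' ∈ Rect (x0 - 1) x1 (y0 - 1) y1)
    (hfH : f ∉ HF (N * n)) (hfH' : f' ∉ HF (N * n))
    (hd1 : Relation.ReflTransGen (DStep C) f q) (hd2 : Relation.ReflTransGen (DStep C) f' q')
    (hq : RingF x0 x1 y0 y1 q) (hq' : RingF x0 x1 y0 y1 q') (hne : F q ≠ F q') :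
    ∃ w : Fin 4 → ℤ, Sp874.cl (N - 1) (w 0) = k1 ∧ Sp874.cl (N - 1) (w 1) = k2 ∧
      Sp874.cl (N - 1) (w 2) = k3 ∧ Sp874.cl (N - 1) (w 3) = k4 ∧
      (Gd (N - 1) g w ∨ Gd' (N - 1) g w) := by
  have hN : 8 ≤ N := N_large hg h1 h2 f12
  have hn' : (1 : ℤ) ≤ n := by exact_mod_cast hn
  have hR : 0 ≤ N * (n : ℤ) := by positivity
  have hR1 : 1 ≤ N * (n : ℤ) := by nlinarith
  have hb2n : (N + 2) * (n : ℤ) = N * n + 2 * n := by ring
  rw [hb2n] at b1 b2 b3 b4
  have hsym : ∀ {k k' : P2}, FarN g k k' → FarN g k' k := fun h => by unfold FarN at *; omega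
  obtain ⟨x, ⟨hx1, hx0⟩, hx2, hx3, hx4⟩ := ext_out (N := N) (x0 := x0) (x1 := x1) (y0 := y0) (y1 := y1) hn
    (by omega) (by omega) (by omega) (by omega) (by omega) h1 ha hu.left.1
  obtain ⟨x', ⟨hx1', hx0'⟩, hx2', hx3', hx4'⟩ := ext_out (N := N) (x0 := x0) (x1 := x1) (y0 := y0)
    (y1 := y1) hn (by omega) (by omega) (by omega) (by omega) (by omega) h3 hb hv.left.1
  obtain ⟨y, ⟨hy1, hy2⟩, hy3, hyc, hy4⟩ := ext_outD (N := N) hn (by omega) (by omega) (by omega)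
    (by omega) (by omega) h2 hf hfF hfH
  obtain ⟨y', ⟨hy1', hy2'⟩, hy3', hyc', hy4'⟩ := ext_outD (N := N) hn (by omega) (by omega) (by omega)
    (by omega) (by omega) h4 hf' hfF' hfH'
  rw [mem_Sq] at hx2 hx2'
  obtain ⟨A, -, -, hA⟩ := exists_lv hR hx2 hx3 0
  obtain ⟨B, hB1, hB2, hB⟩ := exists_lv hR hx2' hx3' A
  obtain ⟨c, hc1, hc2, hc⟩ := exists_cel hR hy3 A
  obtain ⟨d, hd1', hd2', hd⟩ := exists_cel hR hy3' A
  have hcc : ¬ Crn (N * n) c := not_crn hR (by rw [hc]; exact hyc)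
  have hdc : ¬ Crn (N * n) d := not_crn hR (by rw [hd]; exact hyc')
  -- chains
  obtain ⟨N1, m1, s1⟩ := walk_parity (oc_walk hu)
  obtain ⟨N2, m2, s2⟩ := walk_parity hx4
  obtain ⟨N3, m3, s3⟩ := walk_parity (oc_walk hv)
  obtain ⟨N4, m4, s4⟩ := walk_parity hx4'
  have sA := arcN_star hR A (B - A).toNat
  rw [show A + ((B - A).toNat : ℤ) = B by omega, hA, hB] at sA
  set arc := arcN (N * n) A B with harc
  set M : Edge → ZMod 2 := fun e' => ((N1 e' + N2 e') + (N3 e' + N4 e')) + arc e' with hM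
  have hMz : ∀ e', N1 e' = 0 → N2 e' = 0 → N3 e' = 0 → N4 e' = 0 → M e' = arc e' := by
    intro e' p1 p2 p3 p4
    simp only [hM, p1, p2, p3, p4, zero_add]
  have hstar : ∀ v, Kd458.star M v = ind (v = p) + ind (v = p') := by
    intro v
    have e1 : Kd458.star M v = ((Kd458.star N1 v + Kd458.star N2 v) + (Kd458.star N3 v + Kd458.star N4 v)) +
        Kd458.star arc v := by
      rw [hM, star_add, star_add, star_add, star_add]
    rw [e1, s1, s2, s3, s4, sA]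
    have z1 := zmod2_add_self (ind (v = a))
    have z2 := zmod2_add_self (ind (v = b))
    have z3 := zmod2_add_self (ind (v = x))
    have z4 := zmod2_add_self (ind (v = x'))
    linear_combination z1 + z2 + z3 + z4
  -- circle edges
  have harcF : ∀ e', arc e' ≠ 0 → (fA e' ∈ HF (N * n) ∨ fB e' ∈ HF (N * n)) ∧
      ¬ (fA e' ∈ HF (N * n) ∧ fB e' ∈ HF (N * n)) ∧ IB x0 x1 y0 y1 e' := by
    intro e' h
    obtain ⟨w, _, _, hw, rfl⟩ := arcN_supp hR h
    have hnh := cel_not_HF hR w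
    refine ⟨?_, ?_, ?_⟩
    · rcases ce_faces hR hw with ⟨_, h6⟩ | ⟨h6, _⟩
      · exact Or.inr h6
      · exact Or.inl h6
    · rintro ⟨h6, h7⟩
      rcases ce_faces hR hw with ⟨h8, _⟩ | ⟨_, h8⟩
      · rw [h8] at h6; exact hnh h6
      · rw [h8] at h7; exact hnh h7
    · have hfs := face_src (ce (N * n) w)
      rcases ce_faces hR hw with ⟨h8, h9⟩ | ⟨h9, h8⟩
      · rw [mem_HF] at h9
        constructor <;> omega
      · rw [mem_HF] at h9
        constructor <;> omega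
  have hsupp : ∀ e', M e' ≠ 0 → IB x0 x1 y0 y1 e' := by
    intro e' h
    by_contra hc'
    apply h
    rw [hMz]
    · by_contra h'
      exact hc' (harcF e' h').2.2
    · exact zero_of_not m1 fun hh => hc' ⟨hh.2.1.1.1, hh.2.2.1.1⟩
    · exact zero_of_not m2 fun hh => hc' ⟨hh.1.2.1, hh.2.2.1⟩
    · exact zero_of_not m3 fun hh => hc' ⟨hh.2.1.1.1, hh.2.2.1.1⟩
    · exact zero_of_not m4 fun hh => hc' ⟨hh.1.2.1, hh.2.2.1⟩
  obtain ⟨K, hK1, hK2⟩ := par (by omega) (by omega) hr hr' hsupp hstar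
  -- the hole
  have hH : ∀ e', (fA e' ∈ HF (N * n) ∧ fB e' ∈ HF (N * n)) → K (fA e') + K (fB e') = 0 := by
    intro e' hh
    have hIB : IB x0 x1 y0 y1 e' := by
      have hfs := face_src e'
      obtain ⟨h8, h9⟩ := hh
      rw [mem_HF] at h8 h9
      constructor <;> omega
    rw [hK2 e' hIB, hMz e']
    · by_contra h'
      exact (harcF e' h').2.1 hh
    · exact zero_of_not m1 fun h' => not_both_HF hR1 h'.2.1.1 h'.2.2.1 hh
    · exact zero_of_not m2 fun h' => not_both_HF hR1 h'.1.2 h'.2.2 hh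
    · exact zero_of_not m3 fun h' => not_both_HF hR1 h'.2.1.1 h'.2.2.1 hh
    · exact zero_of_not m4 fun h' => not_both_HF hR1 h'.1.2 h'.2.2 hh
  -- the arms
  have C1 : ∀ e', C e' → K (fA e') + K (fB e') = 0 := by
    intro e' he'
    obtain ⟨c1, c2, c3, c4, c5, c6⟩ := hC e' he'
    rcases c2 with c2 | ⟨⟨v, c2⟩, c7, c8⟩
    · rw [hK2 e' c2, hMz e']
      · by_contra h'
        rcases (harcF e' h').1 with h'' | h''
        · exact c3 h''
        · exact c4 h''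
      · exact zero_of_not m1 fun h' => by rw [c1] at h'; exact absurd h'.1 (by simp)
      · exact zero_of_not m2 fun h' => by
          rcases c5 with c5 | c5
          · exact c5 h'.1.1
          · exact c5 h'.2.1
      · exact zero_of_not m3 fun h' => by rw [c1] at h'; exact absurd h'.1 (by simp)
      · exact zero_of_not m4 fun h' => by
          rcases c6 with c6 | c6
          · exact c6 h'.1.1
          · exact c6 h'.2.1
    · rw [hK1 e' v c2]
      simp only [dl, ind_false c7, ind_false c8, add_zero]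
  -- zero of the arms in the landing blocks of the dual arms
  have hz0 : ∀ k', (k' = k2 ∨ k' = k4) → FarN g k' k1 → FarN g k' k3 → ∀ e', src e' ∈ Bk n k' 2 →
      N1 e' = 0 ∧ N2 e' = 0 ∧ N3 e' = 0 ∧ N4 e' = 0 := by
    intro k' hk' g1 g3 e' hsrc
    have hs8 : src e' ∉ OutV (Rect x0 x1 y0 y1) (N * n) \ Bk2 n k2 k4 m := by
      rintro ⟨_, hh⟩
      apply hh
      rcases hk' with rfl | rfl
      · exact Or.inl (bk_mono hm hsrc)
      · exact Or.inr (bk_mono hm hsrc)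
    exact ⟨zero_of_not m1 fun hh => hs8 hh.2.1, zero_of_not m2 fun hh => bk_disj hn (by omega) g1 hsrc hh.1.1,
      zero_of_not m3 fun hh => hs8 hh.2.1, zero_of_not m4 fun hh => bk_disj hn (by omega) g3 hsrc hh.1.1⟩
  -- blocks are inside `L`
  have hblk : ∀ k' : P2, nr k' = N - 1 → ∀ v ∈ Bk n k' 1, -(N * n) - n ≤ v.1 ∧ v.1 ≤ N * n + n ∧
      -(N * n) - n ≤ v.2 ∧ v.2 ≤ N * n + n := by
    intro k' hk' v hv'
    rw [mem_Bk] at hv'
    obtain ⟨-, g1, g2, g3, g4⟩ := nr_cases hk'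
    have e1 : -(N * (n : ℤ)) - n ≤ (k'.1 - 1) * n := by nlinarith
    have e2 : (k'.1 + 1 + 1) * (n : ℤ) ≤ N * n + n := by nlinarith
    have e3 : -(N * (n : ℤ)) - n ≤ (k'.2 - 1) * n := by nlinarith
    have e4 : (k'.2 + 1 + 1) * (n : ℤ) ≤ N * n + n := by nlinarith
    omega
  have C2 : ∀ k', (k' = k2 ∨ k' = k4) → nr k' = N - 1 → FarN g k' k1 → FarN g k' k3 → ∀ e',
      (fA e' ∈ Bk n k' 1 ∩ (Rect (x0 - 1) x1 (y0 - 1) y1 \ HF (N * n)) ∧
        fB e' ∈ Bk n k' 1 ∩ (Rect (x0 - 1) x1 (y0 - 1) y1 \ HF (N * n))) →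
      K (fA e') + K (fB e') = 0 := by
    rintro k' hk' hnr g1 g3 e' ⟨⟨p1, p2, p3⟩, p4, p5, p6⟩
    have hfs := face_src e'
    have hsrc : src e' ∈ Bk n k' 2 := bk_grow hn p1 (by omega) (by omega) (by omega) (by omega)
    have hIB : IB x0 x1 y0 y1 e' := by
      have q1 := hblk k' hnr _ p1
      have q2 := hblk k' hnr _ p4
      constructor <;> omega
    obtain ⟨z1, z2, z3, z4⟩ := hz0 k' hk' g1 g3 e' hsrc
    rw [hK2 e' hIB, hMz e' z1 z2 z3 z4]
    by_contra h'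
    rcases (harcF e' h').1 with h'' | h''
    · exact p3 h''
    · exact p6 h''
  have e1 : K q = K y := (dual_const C1 hd1).symm.trans
      (dual_const (C2 k2 (Or.inl rfl) h2 (hsym f12) f23) hy4)
  have e2 : K q' = K y' := (dual_const C1 hd2).symm.trans
      (dual_const (C2 k4 (Or.inr rfl) h4 f41 (hsym f34)) hy4')
  -- the value next to the circle
  have hval : ∀ k', (k' = k2 ∨ k' = k4) → FarN g k' k1 → FarN g k' k3 → ∀ w, ¬ Crn (N * n) w →
      A ≤ w → w < A + 4 * (2 * (N * n) + 1) → cel (N * n) w ∈ Bk n k' 1 →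
      K (cel (N * n) w) = K (0, 0) + if w < B then 1 else 0 := by
    intro k' hk' g1 g3 w hw w1 w2 w3
    have hfs := face_src (ce (N * n) w)
    have hO : (0, 0) ∈ HF (N * (n : ℤ)) := by rw [mem_HF]; simp only; omega
    have hsrc : src (ce (N * n) w) ∈ Bk n k' 2 := by
      rcases ce_faces hR hw with ⟨h8, _⟩ | ⟨_, h8⟩
      · rw [← h8] at w3
        exact bk_grow hn w3 (by omega) (by omega) (by omega) (by omega)
      · rw [← h8] at w3
        exact bk_grow hn w3 (by omega) (by omega) (by omega) (by omega)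
    obtain ⟨z1, z2, z3, z4⟩ := hz0 k' hk' g1 g3 _ hsrc
    have hIB : IB x0 x1 y0 y1 (ce (N * n) w) := by
      rcases ce_faces hR hw with ⟨h8, h9⟩ | ⟨h9, h8⟩
      · rw [mem_HF] at h9
        constructor <;> omega
      · rw [mem_HF] at h9
        constructor <;> omega
    have hj := hK2 _ hIB
    rw [hMz _ z1 z2 z3 z4, harc, arcN_ce hR1 hB2.le w1 w2 hw] at hj
    have z := zmod2_add_self (K (0, 0))
    rcases ce_faces hR hw with ⟨h8, h9⟩ | ⟨h9, h8⟩
    · have h10 := dual_const hH (hole_conn h9 hO)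
      rw [h8, h10] at hj
      linear_combination hj - z
    · have h10 := dual_const hH (hole_conn h9 hO)
      rw [h8, h10] at hj
      linear_combination hj - z
  have v1 := hval k2 (Or.inl rfl) (hsym f12) f23 c hcc hc1 hc2 (by rw [hc]; exact hy1)
  have v2 := hval k4 (Or.inr rfl) f41 (hsym f34) d hdc hd1' hd2' (by rw [hd]; exact hy1')
  rw [hc, ← e1] at v1
  rw [hd, ← e2] at v2
  have hcol := col_unique (by omega) (by omega) hF hK1 hq hq'
  have hs : (c < B ∧ B ≤ d) ∨ (d < B ∧ B ≤ c) := by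
    have hKne : K q ≠ K q' := by
      intro h
      apply hne
      rw [h, zmod2_add_self] at hcol
      exact zmod2_eq_of_add hcol
    rw [v1, v2] at hKne
    by_cases hcB : c < B <;> by_cases hdB : d < B
    · rw [if_pos hcB, if_pos hdB] at hKne; exact absurd rfl hKne
    · exact Or.inl ⟨hcB, by omega⟩
    · exact Or.inr ⟨hdB, by omega⟩
    · rw [if_neg hcB, if_neg hdB] at hKne; exact absurd rfl hKne
  refine order_both (by omega) (by omega) hg h1 h2 h3 h4 f12 f23 f34 f41 hc1 hc2 hd1' hd2' hs ?_ ?_ ?_ ?_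
  · have := cel_near hR A
    rw [hA] at this
    exact fl_bk2 hn hx1 this.1 this.2.1 this.2.2.1 this.2.2.2
  · rw [hc]
    exact fl_bk2 hn hy1 (by omega) le_rfl (by omega) le_rfl
  · have := cel_near hR B
    rw [hB] at this
    exact fl_bk2 hn hx1' this.1 this.2.1 this.2.2.1 this.2.2.2
  · rw [hd]
    exact fl_bk2 hn hy1' (by omega) le_rfl (by omega) le_rfl

end out

end Crest.Agent.R158.Sr200
end
end

-- ▼ part R158/Sq9_200

/-!
# Row 158, SEP leaf L2-out (helper200): the two literal forms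

* `uout_alt` : dual arms inside the inner faces of `L`, then one closed edge to a ring face (458's Kd5 output)
* `uout_piv` : the pivotal event (left / right, bottom / top) directly from `Uout`
-/

set_option autoImplicit false

noncomputable section

namespace Crest.Agent.R158.Sr200

open Crest.Agent.R161.Geo729 Crest.Agent.R161.Topo374 Crest.Agent.R161.Dual374
open Crest.Agent.R161.Tas682 hiding Sq
open Crest.Agent.R158.Rs689
open Crest.Agent.R158.Kd458 Finset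
open Crest.Agent.R158.Sp874 (FarN nr Gd Gd')
open Crest.Agent.R158.Sp580
open Crest.Agent.R158.Ru874 (frc frc_self frc_ne)

section out

variable {x0 x1 y0 y1 : ℤ} {n : ℕ} {N : ℤ}

theorem mem_outF {FL : Set P2} {ρ : ℤ} {f : P2} : f ∈ OutF FL ρ ↔ f ∈ FL ∧ f ∉ HF ρ := Iff.rfl

theorem src_off (hn : 1 ≤ n) {k : P2} {e : Edge} (h : fA e ∉ Bk n k 8) : src e ∉ Bk n k 1 := by
  intro hh
  have hfs := face_src e
  exact h (bk_mono (by norm_num) (bk_grow hn hh (by omega) (by omega) (by omega) (by omega)))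

/-- the blocks are inside the ball of radius `(N+1) n` -/
theorem blk_in {k : P2} (hk : nr k = N - 1) {v : P2} (hv : v ∈ Bk n k 1) :
    -(N * n) - n ≤ v.1 ∧ v.1 ≤ N * n + n ∧ -(N * n) - n ≤ v.2 ∧ v.2 ≤ N * n + n := by
  rw [mem_Bk] at hv
  obtain ⟨-, g1, g2, g3, g4⟩ := nr_cases hk
  have hn : (0 : ℤ) ≤ n := by positivity
  have e1 : -(N * (n : ℤ)) - n ≤ (k.1 - 1) * n := by nlinarith
  have e2 : (k.1 + 1 + 1) * (n : ℤ) ≤ N * n + n := by nlinarith
  have e3 : -(N * (n : ℤ)) - n ≤ (k.2 - 1) * n := by nlinarith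
  have e4 : (k.2 + 1 + 1) * (n : ℤ) ≤ N * n + n := by nlinarith
  omega

/-- **L2-out**, 458's form of the dual arms. -/
theorem uout_alt (hn : 1 ≤ n) {g : ℤ} (hg : 15 ≤ g)
    (b1 : x0 ≤ -((N + 3) * n)) (b2 : (N + 3) * n ≤ x1) (b3 : y0 ≤ -((N + 3) * n)) (b4 : (N + 3) * n ≤ y1)
    {k1 k2 k3 k4 : P2} (h1 : nr k1 = N - 1) (h2 : nr k2 = N - 1) (h3 : nr k3 = N - 1) (h4 : nr k4 = N - 1)
    (f12 : FarN g k1 k2) (f23 : FarN g k2 k3) (f34 : FarN g k3 k4) (f41 : FarN g k4 k1)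
    (f13 : FarN g k1 k3) {z : Cf} {r r' : Edge} {p p' : P2} (hr : Out x0 x1 y0 y1 r p)
    (hr' : Out x0 x1 y0 y1 r' p') {F : P2 → ZMod 2} (hF : IsCol x0 x1 y0 y1 r r' F)
    {a b : P2} (ha : a ∈ Bk n k1 1) (hb : b ∈ Bk n k3 1)
    (hu : OC z (OutV (Rect x0 x1 y0 y1) (N * n) \ Bk2 n k2 k4 8) a p)
    (hv : OC z (OutV (Rect x0 x1 y0 y1) (N * n) \ Bk2 n k2 k4 8) b p')
    {f f' q q' s s' : P2} (hf : f ∈ Bk n k2 1) (hf' : f' ∈ Bk n k4 1)
    (hd1 : OC (dual z) (OutF (Rect x0 (x1 - 1) y0 (y1 - 1)) (N * n) \ Bk2 n k1 k3 8) f s)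
    (hd2 : OC (dual z) (OutF (Rect x0 (x1 - 1) y0 (y1 - 1)) (N * n) \ Bk2 n k1 k3 8) f' s')
    (hs : DStep (fun e => z e = false ∧ IB x0 x1 y0 y1 e) s q)
    (hs' : DStep (fun e => z e = false ∧ IB x0 x1 y0 y1 e) s' q')
    (hq : RingF x0 x1 y0 y1 q) (hq' : RingF x0 x1 y0 y1 q') (hne : F q ≠ F q') :
    ∃ w : Fin 4 → ℤ, Sp874.cl (N - 1) (w 0) = k1 ∧ Sp874.cl (N - 1) (w 1) = k2 ∧
      Sp874.cl (N - 1) (w 2) = k3 ∧ Sp874.cl (N - 1) (w 3) = k4 ∧
      (Gd (N - 1) g w ∨ Gd' (N - 1) g w) := by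
  have hN : 8 ≤ N := N_large hg h1 h2 f12
  have hn' : (1 : ℤ) ≤ n := by exact_mod_cast hn
  have hR1 : 1 ≤ N * (n : ℤ) := by nlinarith
  have c3 : (N + 3) * (n : ℤ) = N * n + 3 * n := by ring
  have c2 : (N + 2) * (n : ℤ) = N * n + 2 * n := by ring
  set C : Edge → Prop := fun e' => z e' = false ∧
      (IB x0 x1 y0 y1 e' ∨ ((∃ v, Out x0 x1 y0 y1 e' v) ∧ e' ≠ r ∧ e' ≠ r')) ∧
      fA e' ∉ HF (N * n) ∧ fB e' ∉ HF (N * n) ∧
      (src e' ∉ Bk n k1 1 ∨ tgt e' ∉ Bk n k1 1) ∧ (src e' ∉ Bk n k3 1 ∨ tgt e' ∉ Bk n k3 1) with hC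
  have hwalk : ∀ {f s : P2},
      OC (dual z) (OutF (Rect x0 (x1 - 1) y0 (y1 - 1)) (N * n) \ Bk2 n k1 k3 8) f s →
      Relation.ReflTransGen (DStep C) f s := by
    intro f s h
    refine dstep_mono' ?_ (oc_dwalk h)
    rintro e' ⟨p1, ⟨p2, p3⟩, p4, p5⟩
    rw [mem_outF] at p2 p4
    exact ⟨p1, Or.inl (ib_of_faces p2.1 p4.1), p2.2, p4.2,
      Or.inl (src_off hn fun hh => p3 (Or.inl hh)), Or.inl (src_off hn fun hh => p3 (Or.inr hh))⟩
  have hlast : ∀ {s q : P2}, s ∉ HF (N * n) → RingF x0 x1 y0 y1 q →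
      DStep (fun e => z e = false ∧ IB x0 x1 y0 y1 e) s q → DStep C s q := by
    rintro s q hsH hqR ⟨e', ⟨p1, p2⟩, p3⟩
    have hqH : q ∉ HF (N * n) := by
      unfold RingF at hqR
      rw [mem_HF]
      omega
    have hfs := face_src e'
    have hoff : ∀ k, nr k = N - 1 → src e' ∉ Bk n k 1 := by
      intro k hk hh
      have := blk_in hk hh
      unfold RingF at hqR
      rcases p3 with ⟨rfl, rfl⟩ | ⟨rfl, rfl⟩ <;> omega
    refine ⟨e', ⟨p1, Or.inl p2, ?_, ?_, Or.inl (hoff k1 h1), Or.inl (hoff k3 h3)⟩, p3⟩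
    · rcases p3 with ⟨rfl, rfl⟩ | ⟨rfl, rfl⟩
      · exact hsH
      · exact hqH
    · rcases p3 with ⟨rfl, rfl⟩ | ⟨rfl, rfl⟩
      · exact hqH
      · exact hsH
  have m1 := mem_outF.1 hd1.left.1
  have m2 := mem_outF.1 hd2.left.1
  have m3 := mem_outF.1 hd1.right.1
  have m4 := mem_outF.1 hd2.right.1
  refine uout_alt_gen hn hg (by norm_num : (2 : ℤ) ≤ 8) (by omega) (by omega) (by omega) (by omega) h1 h2 h3 h4
    f12 f23 f34 f41 f13 hr hr' hF ha hb hu hv (C := C) (fun e' he' => he') hf hf' ?_ ?_ m1.2 m2.2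
    ((hwalk hd1).tail (hlast m3.2 hq hs)) ((hwalk hd2).tail (hlast m4.2 hq' hs')) hq hq' hne
  · have := m1.1
    rw [mem_rect] at this ⊢
    omega
  · have := m2.1
    rw [mem_rect] at this ⊢
    omega

/-! ### left / right, bottom / top -/

/-- a colouring with leaving edges on the left and on the right separates bottom from top -/
theorem col_piv {r r' : Edge} {p p' : P2} (hx : x0 ≤ x1) (hy : y0 ≤ y1)
    (hr : r = ((x0 - 1, p.2), false)) (hp : y0 ≤ p.2 ∧ p.2 ≤ y1)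
    (hr' : r' = ((x1, p'.2), false)) (hp' : y0 ≤ p'.2 ∧ p'.2 ≤ y1) {F : P2 → ZMod 2}
    (hF : IsCol x0 x1 y0 y1 r r' F) {i i' : ℤ} (hi : x0 - 1 ≤ i ∧ i ≤ x1) (hi' : x0 - 1 ≤ i' ∧ i' ≤ x1) :
    F (i, y0 - 1) ≠ F (i', y1) := by
  -- rows
  have hrow : ∀ j, (j = y0 - 1 ∨ j = y1) → ∀ i, x0 - 1 ≤ i → i ≤ x1 → F (i, j) = F (x1, j) := by
    intro j hj
    have key : ∀ m : ℕ, x0 - 1 ≤ x1 - m → F (x1 - m, j) = F (x1, j) := by
      intro m
      induction m with
      | zero => intro _; simp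
      | succ m ih =>
          intro hm
          push_cast at hm
          have h1 := hF ((x1 - m, j), true) (x1 - m, if j = y1 then y1 else y0) (by
            right
            refine ⟨by simp only; omega, by simp only; omega, ?_⟩
            rcases hj with rfl | rfl
            · left
              rw [if_neg (by omega)]
              exact ⟨rfl, rfl⟩
            · right
              rw [if_pos rfl]
              exact ⟨rfl, rfl⟩)
          have h2 : dl r ((x1 - m, j), true) = 0 := ind_false (by rw [hr]; simp)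
          have h3 : dl r' ((x1 - m, j), true) = 0 := ind_false (by rw [hr']; simp)
          rw [h2, h3, add_zero, fA_mk, fB_v] at h1
          have h4 := ih (by omega)
          have h5 : F (x1 - (m : ℤ), j) = F (x1 - m - 1, j) := zmod2_eq_of_add h1
          rw [show x1 - ((m + 1 : ℕ) : ℤ) = x1 - m - 1 by push_cast; ring, ← h5, h4]
    intro i h1 h2
    have := key (x1 - i).toNat (by omega)
    rwa [show x1 - ((x1 - i).toNat : ℤ) = i by omega] at this
  -- right column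
  have hcol : ∀ m : ℕ, y0 - 1 + m ≤ y1 →
      F (x1, y0 - 1 + m) = F (x1, y0 - 1) + if p'.2 ≤ y0 - 1 + m then 1 else 0 := by
    intro m
    induction m with
    | zero => intro _; rw [if_neg (by push_cast; omega)]; simp
    | succ m ih =>
        intro hm
        push_cast at hm ⊢
        have h1 := hF ((x1, y0 + m), false) (x1, y0 + m) (Or.inl ⟨by simp only; omega, by simp only; omega,
          Or.inr ⟨rfl, rfl⟩⟩)
        have h2 : dl r ((x1, y0 + m), false) = 0 := by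
          apply ind_false
          rw [hr]
          simp only [Prod.mk.injEq, and_true]
          omega
        have h3 : dl r' ((x1, y0 + m), false) = if p'.2 = y0 + m then 1 else 0 := by
          by_cases h : p'.2 = y0 + m
          · rw [if_pos h]; exact ind_true (by rw [hr', h])
          · rw [if_neg h]
            apply ind_false
            rw [hr']
            simp only [Prod.mk.injEq, and_true, true_and]
            exact fun h' => h h'.symm
        rw [h2, h3, zero_add, fA_mk, fB_h] at h1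
        have h4 := ih (by omega)
        have e1 : y0 - 1 + ((m : ℤ) + 1) = y0 + m := by ring
        have e2 : y0 + (m : ℤ) - 1 = y0 - 1 + m := by ring
        rw [e2] at h1
        rw [e1]
        have z := zmod2_add_self (F (x1, y0 - 1 + m))
        have h5 : F (x1, y0 + m) = F (x1, y0 - 1 + m) + if p'.2 = y0 + m then 1 else 0 := by
          linear_combination h1 - z
        rw [h5, h4]
        by_cases h6 : p'.2 ≤ y0 - 1 + m
        · rw [if_pos h6, if_neg (by omega), if_pos (by omega)]; ring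
        · by_cases h7 : p'.2 = y0 + m
          · rw [if_neg h6, if_pos h7, if_pos (by omega)]; ring
          · rw [if_neg h6, if_neg h7, if_neg (by omega)]; ring
  have h1 := hrow (y0 - 1) (Or.inl rfl) i hi.1 hi.2
  have h2 := hrow y1 (Or.inr rfl) i' hi'.1 hi'.2
  have h3 := hcol (y1 - (y0 - 1)).toNat (by omega)
  rw [show y0 - 1 + ((y1 - (y0 - 1)).toNat : ℤ) = y1 by omega, if_pos (by omega)] at h3
  rw [h1, h2, h3]
  intro h
  have z := zmod2_add_self (F (x1, y0 - 1))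
  have : (1 : ZMod 2) = 0 := by linear_combination -h
  exact absurd this (by decide)

/-- **L2-out, pivotal case**: left / right and bottom / top, directly from `Uout`. -/
theorem uout_piv (hn : 1 ≤ n) {g : ℤ} (hg : 15 ≤ g)
    (b1 : x0 ≤ -((N + 3) * n)) (b2 : (N + 3) * n ≤ x1) (b3 : y0 ≤ -((N + 3) * n)) (b4 : (N + 3) * n ≤ y1)
    {k1 k2 k3 k4 : P2} (h1 : nr k1 = N - 1) (h2 : nr k2 = N - 1) (h3 : nr k3 = N - 1) (h4 : nr k4 = N - 1)
    (f12 : FarN g k1 k2) (f23 : FarN g k2 k3) (f34 : FarN g k3 k4) (f41 : FarN g k4 k1)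
    (f13 : FarN g k1 k3) {z : Cf}
    (hz : z ∈ Uout (Rect x0 x1 y0 y1) (Rect x0 (x1 - 1) (y0 - 1) y1) (N * n) n k1 k2 k3 k4
      {v | v.1 = x0} {v | v.1 = x1} {v | v.2 = y0 - 1} {v | v.2 = y1}) :
    ∃ w : Fin 4 → ℤ, Sp874.cl (N - 1) (w 0) = k1 ∧ Sp874.cl (N - 1) (w 1) = k2 ∧
      Sp874.cl (N - 1) (w 2) = k3 ∧ Sp874.cl (N - 1) (w 3) = k4 ∧
      (Gd (N - 1) g w ∨ Gd' (N - 1) g w) := by
  have hN : 8 ≤ N := N_large hg h1 h2 f12
  have hn' : (1 : ℤ) ≤ n := by exact_mod_cast hn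
  have hR1 : 1 ≤ N * (n : ℤ) := by nlinarith
  have c3 : (N + 3) * (n : ℤ) = N * n + 3 * n := by ring
  have c2 : (N + 2) * (n : ℤ) = N * n + 2 * n := by ring
  obtain ⟨⟨⟨a, ha, p, hp, hu⟩, ⟨b, hb, p', hp', hv⟩⟩, ⟨f, hf, q, hq, hd1⟩, ⟨f', hf', q', hq', hd2⟩⟩ := hz
  rw [Set.mem_ofPred_eq] at hp hp' hq hq'
  have mp := hu.right.1.1
  have mp' := hv.right.1.1
  rw [mem_rect] at mp mp'
  have m1 := mem_outF.1 hd1.left.1
  have m2 := mem_outF.1 hd2.left.1
  have m3 := mem_outF.1 hd1.right.1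
  have m4 := mem_outF.1 hd2.right.1
  have m1' := m1.1
  have m2' := m2.1
  have m3' := m3.1
  have m4' := m4.1
  rw [mem_rect] at m1' m2' m3' m4'
  set r : Edge := ((x0 - 1, p.2), false) with hr
  set r' : Edge := ((x1, p'.2), false) with hr'
  have hor : Out x0 x1 y0 y1 r p := Or.inl ⟨mp.2.2.1, mp.2.2.2, Or.inl ⟨rfl, hp⟩⟩
  have hor' : Out x0 x1 y0 y1 r' p' := Or.inl ⟨mp'.2.2.1, mp'.2.2.2, Or.inr ⟨rfl, hp'⟩⟩
  -- a colouring
  obtain ⟨F, hF⟩ : ∃ F, IsCol x0 x1 y0 y1 r r' F := by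
    have hpath : Relation.ReflTransGen (PStep (fun e => True ∧ IB x0 x1 y0 y1 e)) p p' := by
      have s1 := hseg (S := Rect x0 x1 y0 y1) (y := p.2) (x1 := p.1) (x2 := p'.1) (fun i hi => by
        rw [mem_rect]; simp only; omega)
      have s2 := vseg (S := Rect x0 x1 y0 y1) (x := p'.1) (y1 := p.2) (y2 := p'.2) (fun i hi => by
        rw [mem_rect]; simp only; omega)
      refine pstep_mono' ?_ (s1.trans s2)
      rintro e ⟨h5, h6⟩
      exact ⟨trivial, h5, h6⟩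
    exact exists_col (by omega) (by omega) hor hor' hpath
  set C : Edge → Prop := fun e' => z e' = false ∧
      (IB x0 x1 y0 y1 e' ∨ ((∃ v, Out x0 x1 y0 y1 e' v) ∧ e' ≠ r ∧ e' ≠ r')) ∧
      fA e' ∉ HF (N * n) ∧ fB e' ∉ HF (N * n) ∧
      (src e' ∉ Bk n k1 1 ∨ tgt e' ∉ Bk n k1 1) ∧ (src e' ∉ Bk n k3 1 ∨ tgt e' ∉ Bk n k3 1) with hC
  have hedge : ∀ e' : Edge, fA e' ∈ Rect x0 (x1 - 1) (y0 - 1) y1 → fB e' ∈ Rect x0 (x1 - 1) (y0 - 1) y1 →
      (IB x0 x1 y0 y1 e' ∨ ((∃ v, Out x0 x1 y0 y1 e' v) ∧ e' ≠ r ∧ e' ≠ r')) := by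
    intro e' p1 p2
    have hTB : TB x0 x1 y0 y1 e' := by
      obtain ⟨⟨u, v⟩, s⟩ := e'
      rw [mem_rect] at p1 p2
      cases s
      · simp only [fA_mk, fB_h] at p1 p2
        simp only [TB, src_mk, tgt_h]
        omega
      · simp only [fA_mk, fB_v] at p1 p2
        simp only [TB, src_mk, tgt_v]
        omega
    rcases TB_cases (by omega) (by omega) hTB with h | ⟨v, h⟩
    · exact Or.inl h
    · refine Or.inr ⟨⟨v, h⟩, ?_, ?_⟩
      · rintro rfl
        rw [mem_rect] at p1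
        simp only [hr, fA_mk] at p1
        omega
      · rintro rfl
        rw [mem_rect] at p1
        simp only [hr', fA_mk] at p1
        omega
  have hwalk : ∀ {f s : P2},
      OC (dual z) (OutF (Rect x0 (x1 - 1) (y0 - 1) y1) (N * n) \ Bk2 n k1 k3 8) f s →
      Relation.ReflTransGen (DStep C) f s := by
    intro f s h
    refine dstep_mono' ?_ (oc_dwalk h)
    rintro e' ⟨p1, ⟨p2, p3⟩, p4, p5⟩
    rw [mem_outF] at p2 p4
    exact ⟨p1, hedge e' p2.1 p4.1, p2.2, p4.2,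
      Or.inl (src_off hn fun hh => p3 (Or.inl hh)), Or.inl (src_off hn fun hh => p3 (Or.inr hh))⟩
  refine uout_alt_gen hn hg (by norm_num : (2 : ℤ) ≤ 8) (by omega) (by omega) (by omega) (by omega) h1 h2 h3 h4
    f12 f23 f34 f41 f13 hor hor' hF ha hb hu hv (C := C) (fun e' he' => he') hf hf' ?_ ?_ m1.2 m2.2
    (hwalk hd1) (hwalk hd2) ?_ ?_ ?_
  · rw [mem_rect]; omega
  · rw [mem_rect]; omega
  · unfold RingF; omega
  · unfold RingF; omega
  · have e1 : q = (q.1, y0 - 1) := by ext <;> simp [hq]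
    have e2 : q' = (q'.1, y1) := by ext <;> simp [hq']
    rw [e1, e2]
    exact col_piv (by omega) (by omega) hr ⟨mp.2.2.1, mp.2.2.2⟩ hr' ⟨mp'.2.2.1, mp'.2.2.2⟩ hF
      ⟨by omega, by omega⟩ ⟨by omega, by omega⟩

end out

end Crest.Agent.R158.Sr200
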