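import Crest.Agent.R158.Sw0_300

-- ▼ part R158/Sw1_300
section

/-!
# R158, exact lattice layer: abstract planarity of matchings on a circle

`Inv A pos M S u`: on the finite set `A` of ends with (cyclic) positions `pos` the partner map `M`
is a non-crossing matching with exactly one unmatched end `u`, and `S x = true` iff the clockwise
interval from `x` to `M x` does not contain `u`.  The three elementary moves preserve it.
-/

set_option autoImplicit false

namespace Crest.Agent.R158.Sw300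

/-- cyclic order of three integers -/
def cyc (a b c : ℤ) : Prop := (a < b ∧ b < c) ∨ (b < c ∧ c < a) ∨ (c < a ∧ a < b)

/-- non-crossing matching with one unmatched end -/
structure Inv {α : Type*} (A : α → Prop) (pos : α → ℤ) (M : α → α) (S : α → Bool) (u : α) :
    Prop where
  bd : ∃ N : ℤ, ∀ x, A x → -N < pos x ∧ pos x < N
  inj : ∀ x y, A x → A y → x ≠ y → pos x ≠ pos y
  um : A u
  uf : M u = u
  mem : ∀ x, A x → A (M x)
  inv : ∀ x, A x → M (M x) = x
  fix : ∀ x, A x → M x = x → x = u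
  st : ∀ x, A x → x ≠ u → (S x = true ↔ cyc (pos x) (pos (M x)) (pos u))
  nc : ∀ x y, A x → A y → x ≠ u → y ≠ u → y ≠ x → y ≠ M x →
    (cyc (pos x) (pos y) (pos (M x)) ↔ cyc (pos x) (pos (M y)) (pos (M x)))

variable {α : Type*} {A : α → Prop} {pos pos' : α → ℤ} {M : α → α} {S : α → Bool} {u : α}

theorem Inv.congr (h : Inv A pos M S u)
    (hc : ∀ x y z, A x → A y → A z → (cyc (pos' x) (pos' y) (pos' z) ↔
      cyc (pos x) (pos y) (pos z)))
    (hb : ∃ N : ℤ, ∀ x, A x → -N < pos' x ∧ pos' x < N)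
    (hi : ∀ x y, A x → A y → x ≠ y → pos' x ≠ pos' y) : Inv A pos' M S u where
  bd := hb
  inj := hi
  um := h.um
  uf := h.uf
  mem := h.mem
  inv := h.inv
  fix := h.fix
  st x hx hxu := by rw [h.st x hx hxu, hc x (M x) u hx (h.mem x hx) h.um]
  nc x y hx hy h1 h2 h3 h4 := by
    rw [hc _ _ _ hx hy (h.mem x hx), hc _ _ _ hx (h.mem y hy) (h.mem x hx)]
    exact h.nc x y hx hy h1 h2 h3 h4

/-- cut the circle at `p` -/
def cut (pos : α → ℤ) (p : α) (N : ℤ) (x : α) : ℤ :=
  if pos x < pos p then pos x + 2 * N else pos x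

theorem cut_cyc {N : ℤ} (hN : ∀ x, A x → -N < pos x ∧ pos x < N) {p : α} (hp : A p) (x y z : α)
    (hx : A x) (hy : A y) (hz : A z) :
    cyc (cut pos p N x) (cut pos p N y) (cut pos p N z) ↔ cyc (pos x) (pos y) (pos z) := by
  have h1 := hN x hx
  have h2 := hN y hy
  have h3 := hN z hz
  have h4 := hN p hp
  unfold cyc cut
  split_ifs <;> omega

theorem Inv.cut_inv (h : Inv A pos M S u) {p : α} (hp : A p) :
    ∃ N : ℤ, (∀ x, A x → -N < pos x ∧ pos x < N) ∧ Inv A (cut pos p N) M S u := by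
  obtain ⟨N, hN⟩ := h.bd
  refine ⟨N, hN, h.congr (fun x y z hx hy hz => cut_cyc hN hp x y z hx hy hz) ⟨3 * N, ?_⟩ ?_⟩
  · intro x hx
    have h1 := hN x hx
    unfold cut
    split_ifs <;> omega
  · intro x y hx hy hxy
    have h1 := hN x hx
    have h2 := hN y hy
    have h4 := hN p hp
    have := h.inj x y hx hy hxy
    unfold cut
    split_ifs <;> omega

theorem Inv.Mne (h : Inv A pos M S u) {x : α} (hx : A x) (hxu : x ≠ u) : M x ≠ x :=
  fun e => hxu (h.fix x hx e)

theorem Inv.Mu (h : Inv A pos M S u) {x : α} (hx : A x) (hxu : x ≠ u) : M x ≠ u := by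
  intro e
  have := h.inv x hx
  rw [e, h.uf] at this
  exact hxu this.symm

theorem Inv.Minj (h : Inv A pos M S u) {x y : α} (hx : A x) (hy : A y) (e : M x = M y) :
    x = y := by
  rw [← h.inv x hx, ← h.inv y hy, e]

/-- the three maps after the contraction of `p`, `q` -/
def conM [DecidableEq α] (M : α → α) (p q : α) (x : α) : α :=
  if M x = p then (if M q = q then x else M q)
  else if M x = q then (if M p = p then x else M p)
  else M x

def conS [DecidableEq α] (M : α → α) (S : α → Bool) (p q : α) (x : α) : Bool :=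
  if M x = p then !(S p) && S q
  else if M x = q then S p || !(S q)
  else S x

def conu [DecidableEq α] (M : α → α) (u p q : α) : α :=
  if u = p then M q else if u = q then M p else u

section lin

variable [DecidableEq α] {p q : α}

/-- contraction of the two lowest ends, general case -/
theorem con_gen (h : Inv A pos M S u) (hp : A p) (hq : A q) (hpq : pos p < pos q)
    (hlo : ∀ z, A z → z ≠ p → z ≠ q → pos q < pos z) (hpu : p ≠ u) (hqu : q ≠ u)
    (hM : M p ≠ q) :
    Inv (fun x => A x ∧ x ≠ p ∧ x ≠ q) pos (conM M p q) (conS M S p q) (conu M u p q) := by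
  have hpq' : p ≠ q := by rintro rfl; exact lt_irrefl _ hpq
  have hMp : M p ≠ p := h.Mne hp hpu
  have hMq : M q ≠ q := h.Mne hq hqu
  have hMqp : M q ≠ p := by
    intro e
    apply hM
    rw [← e, h.inv q hq]
  have hu' : conu M u p q = u := by
    unfold conu
    rw [if_neg (Ne.symm hpu), if_neg (Ne.symm hqu)]
  -- the partners `a = M p`, `b = M q`
  obtain ⟨a, ha⟩ : ∃ a, a = M p := ⟨_, rfl⟩
  obtain ⟨b, hb⟩ : ∃ b, b = M q := ⟨_, rfl⟩
  have hAa : A a := ha ▸ h.mem p hp
  have hAb : A b := hb ▸ h.mem q hq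
  have hMa : M a = p := by rw [ha]; exact h.inv p hp
  have hMb : M b = q := by rw [hb]; exact h.inv q hq
  have hap : a ≠ p := ha ▸ hMp
  have haq : a ≠ q := ha ▸ hM
  have hbp : b ≠ p := hb ▸ hMqp
  have hbq : b ≠ q := hb ▸ hMq
  have hab : a ≠ b := by
    intro e
    apply hpq'
    rw [← hMa, ← hMb, e]
  have hau : a ≠ u := ha ▸ h.Mu hp hpu
  have hbu : b ≠ u := hb ▸ h.Mu hq hqu
  have cMa : conM M p q a = b := by
    unfold conM; rw [if_pos hMa, if_neg hMq, hb]
  have cMb : conM M p q b = a := by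
    unfold conM; rw [if_neg (by rw [hMb]; exact Ne.symm hpq'), if_pos hMb, if_neg hMp, ha]
  have cMx : ∀ x, A x → x ≠ a → x ≠ b → conM M p q x = M x := by
    intro x hx h1 h2
    unfold conM
    rw [if_neg, if_neg]
    · intro e; exact h2 (h.Minj hx hAb (e.trans hMb.symm))
    · intro e; exact h1 (h.Minj hx hAa (e.trans hMa.symm))
  have nMp : ∀ x, A x → x ≠ a → M x ≠ p := fun x hx h1 e =>
    h1 (h.Minj hx hAa (e.trans hMa.symm))
  have nMq : ∀ x, A x → x ≠ b → M x ≠ q := fun x hx h1 e =>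
    h1 (h.Minj hx hAb (e.trans hMb.symm))
  have La := hlo a hAa hap haq
  have Lb := hlo b hAb hbp hbq
  have Lu := hlo u h.um (Ne.symm hpu) (Ne.symm hqu)
  have Dab := h.inj a b hAa hAb hab
  have Dau := h.inj a u hAa h.um hau
  have Dbu := h.inj b u hAb h.um hbu
  have N1 := h.nc p q hp hq hpu hqu (Ne.symm hpq') (Ne.symm hM)
  rw [← ha, ← hb] at N1
  have Sp := h.st p hp hpu
  have Sq := h.st q hq hqu
  rw [← ha] at Sp
  rw [← hb] at Sq
  have N1' : pos b < pos a := by
    unfold cyc at N1; omega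
  have Sp' : S p = true ↔ pos a < pos u := by
    rw [Sp]; unfold cyc; omega
  have Sq' : S q = true ↔ pos b < pos u := by
    rw [Sq]; unfold cyc; omega
  refine ⟨?_, ?_, ?_, ?_, ?_, ?_, ?_, ?_, ?_⟩
  · obtain ⟨N, hN⟩ := h.bd
    exact ⟨N, fun x hx => hN x hx.1⟩
  · exact fun x y hx hy => h.inj x y hx.1 hy.1
  · rw [hu']; exact ⟨h.um, Ne.symm hpu, Ne.symm hqu⟩
  · rw [hu', cMx u h.um (Ne.symm hau) (Ne.symm hbu), h.uf]
  · rintro x ⟨hx, h1, h2⟩
    by_cases xa : x = a
    · subst xa; rw [cMa]; exact ⟨hAb, hbp, hbq⟩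
    by_cases xb : x = b
    · subst xb; rw [cMb]; exact ⟨hAa, hap, haq⟩
    rw [cMx x hx xa xb]
    exact ⟨h.mem x hx, nMp x hx xa, nMq x hx xb⟩
  · rintro x ⟨hx, h1, h2⟩
    by_cases xa : x = a
    · subst xa; rw [cMa, cMb]
    by_cases xb : x = b
    · subst xb; rw [cMb, cMa]
    rw [cMx x hx xa xb, cMx (M x) (h.mem x hx), h.inv x hx]
    · intro e; apply h1; rw [← h.inv x hx, e, hMa]
    · intro e; apply h2; rw [← h.inv x hx, e, hMb]
  · rintro x ⟨hx, h1, h2⟩ e
    rw [hu']
    by_cases xa : x = a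
    · rw [xa, cMa] at e; exact absurd e.symm hab
    by_cases xb : x = b
    · rw [xb, cMb] at e; exact absurd e hab
    rw [cMx x hx xa xb] at e
    exact h.fix x hx e
  · rintro x ⟨hx, h1, h2⟩ hxu
    rw [hu'] at hxu ⊢
    by_cases xa : x = a
    · subst xa
      rw [cMa]
      have : conS M S p q x = (!(S p) && S q) := by unfold conS; rw [if_pos hMa]
      rw [this]
      rw [Bool.and_eq_true, Bool.not_eq_true', ← Bool.not_eq_true, Sp', Sq']
      unfold cyc; omega
    by_cases xb : x = b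
    · subst xb
      rw [cMb]
      have : conS M S p q x = (S p || !(S q)) := by
        unfold conS; rw [if_neg (by rw [hMb]; exact Ne.symm hpq'), if_pos hMb]
      rw [this]
      rw [Bool.or_eq_true, Bool.not_eq_true', ← Bool.not_eq_true, Sp', Sq']
      unfold cyc; omega
    rw [cMx x hx xa xb]
    have : conS M S p q x = S x := by
      unfold conS; rw [if_neg (nMp x hx xa), if_neg (nMq x hx xb)]
    rw [this]
    exact h.st x hx hxu
  · rintro x y ⟨hx, hxp, hxq⟩ ⟨hy, hyp, hyq⟩ hxu hyu hyx hyM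
    rw [hu'] at hxu hyu
    have Lx := hlo x hx hxp hxq
    have Ly := hlo y hy hyp hyq
    by_cases xa : x = a
    · have yb : y ≠ b := by rw [xa, cMa] at hyM; exact hyM
      have ya : y ≠ a := by rw [xa] at hyx; exact hyx
      have Lmy := hlo (M y) (h.mem y hy) (nMp y hy ya) (nMq y hy yb)
      rw [xa, cMa, cMx y hy ya yb]
      have n1 := h.nc p y hp hy hpu hyu hyp (by rw [← ha]; exact ya)
      have n2 := h.nc q y hq hy hqu hyu hyq (by rw [← hb]; exact yb)
      rw [← ha] at n1
      rw [← hb] at n2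
      have d1 := h.inj y a hy hAa ya
      have d2 := h.inj y b hy hAb yb
      have d3 : pos (M y) ≠ pos a := h.inj (M y) a (h.mem y hy) hAa (by
        intro e; apply hyp; rw [← h.inv y hy, e, hMa])
      have d4 : pos (M y) ≠ pos b := h.inj (M y) b (h.mem y hy) hAb (by
        intro e; apply hyq; rw [← h.inv y hy, e, hMb])
      have n1' : pos y < pos a ↔ pos (M y) < pos a := by unfold cyc at n1; omega
      have n2' : pos y < pos b ↔ pos (M y) < pos b := by unfold cyc at n2; omega
      clear n1 n2 N1 Sp Sq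
      unfold cyc; omega
    by_cases xb : x = b
    · have ya : y ≠ a := by rw [xb, cMb] at hyM; exact hyM
      have yb : y ≠ b := by rw [xb] at hyx; exact hyx
      have Lmy := hlo (M y) (h.mem y hy) (nMp y hy ya) (nMq y hy yb)
      rw [xb, cMb, cMx y hy ya yb]
      have n1 := h.nc p y hp hy hpu hyu hyp (by rw [← ha]; exact ya)
      have n2 := h.nc q y hq hy hqu hyu hyq (by rw [← hb]; exact yb)
      rw [← ha] at n1
      rw [← hb] at n2
      have d1 := h.inj y a hy hAa ya
      have d2 := h.inj y b hy hAb yb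
      have d3 : pos (M y) ≠ pos a := h.inj (M y) a (h.mem y hy) hAa (by
        intro e; apply hyp; rw [← h.inv y hy, e, hMa])
      have d4 : pos (M y) ≠ pos b := h.inj (M y) b (h.mem y hy) hAb (by
        intro e; apply hyq; rw [← h.inv y hy, e, hMb])
      have n1' : pos y < pos a ↔ pos (M y) < pos a := by unfold cyc at n1; omega
      have n2' : pos y < pos b ↔ pos (M y) < pos b := by unfold cyc at n2; omega
      clear n1 n2 N1 Sp Sq
      unfold cyc; omega
    rw [cMx x hx xa xb] at hyM ⊢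
    have Lmx := hlo (M x) (h.mem x hx) (nMp x hx xa) (nMq x hx xb)
    have Dx := h.inj x (M x) hx (h.mem x hx) (Ne.symm (h.Mne hx hxu))
    have key : cyc (pos x) (pos a) (pos (M x)) ↔ cyc (pos x) (pos b) (pos (M x)) := by
      have n1 := h.nc x p hx hp hxu hpu (Ne.symm hxp) (Ne.symm (nMp x hx xa))
      have n2 := h.nc x q hx hq hxu hqu (Ne.symm hxq) (Ne.symm (nMq x hx xb))
      rw [← ha] at n1
      rw [← hb] at n2
      rw [← n1, ← n2]
      clear n1 n2 N1 Sp Sq
      unfold cyc; omega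
    by_cases ya : y = a
    · rw [ya, cMa]; exact key
    by_cases yb : y = b
    · rw [yb, cMb]; exact key.symm
    rw [cMx y hy ya yb]
    exact h.nc x y hx hy hxu hyu hyx hyM

/-- contraction of the two ends of one arc (a loop is closed) -/
theorem con_loop (h : Inv A pos M S u) (hp : A p) (hq : A q) (hpu : p ≠ u) (hqu : q ≠ u)
    (hM : M p = q) :
    Inv (fun x => A x ∧ x ≠ p ∧ x ≠ q) pos (conM M p q) (conS M S p q) (conu M u p q) := by
  have hMq : M q = p := by rw [← hM]; exact h.inv p hp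
  have hu' : conu M u p q = u := by
    unfold conu
    rw [if_neg (Ne.symm hpu), if_neg (Ne.symm hqu)]
  have n1 : ∀ x, A x → x ≠ q → M x ≠ p := fun x hx h2 e =>
    h2 (h.Minj hx hq (e.trans hMq.symm))
  have n2 : ∀ x, A x → x ≠ p → M x ≠ q := fun x hx h1 e =>
    h1 (h.Minj hx hp (e.trans hM.symm))
  have cM : ∀ x, A x → x ≠ p → x ≠ q → conM M p q x = M x := by
    intro x hx h1 h2
    unfold conM
    rw [if_neg (n1 x hx h2), if_neg (n2 x hx h1)]
  have cS : ∀ x, A x → x ≠ p → x ≠ q → conS M S p q x = S x := by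
    intro x hx h1 h2
    unfold conS
    rw [if_neg (n1 x hx h2), if_neg (n2 x hx h1)]
  refine ⟨?_, ?_, ?_, ?_, ?_, ?_, ?_, ?_, ?_⟩
  · obtain ⟨N, hN⟩ := h.bd
    exact ⟨N, fun x hx => hN x hx.1⟩
  · exact fun x y hx hy => h.inj x y hx.1 hy.1
  · rw [hu']; exact ⟨h.um, Ne.symm hpu, Ne.symm hqu⟩
  · rw [hu', cM u h.um (Ne.symm hpu) (Ne.symm hqu), h.uf]
  · rintro x ⟨hx, h1, h2⟩
    rw [cM x hx h1 h2]
    exact ⟨h.mem x hx, n1 x hx h2, n2 x hx h1⟩
  · rintro x ⟨hx, h1, h2⟩
    rw [cM x hx h1 h2, cM (M x) (h.mem x hx) (n1 x hx h2) (n2 x hx h1), h.inv x hx]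
  · rintro x ⟨hx, h1, h2⟩ e
    rw [cM x hx h1 h2] at e
    rw [hu']; exact h.fix x hx e
  · rintro x ⟨hx, h1, h2⟩ hxu
    rw [hu'] at hxu ⊢
    rw [cM x hx h1 h2, cS x hx h1 h2]
    exact h.st x hx hxu
  · rintro x y ⟨hx, hxp, hxq⟩ ⟨hy, hyp, hyq⟩ hxu hyu hyx hyM
    rw [hu'] at hxu hyu
    rw [cM x hx hxp hxq] at hyM ⊢
    rw [cM y hy hyp hyq]
    exact h.nc x y hx hy hxu hyu hyx hyM

/-- contraction of the unmatched end `p` with the next end `q` -/
theorem con_up (h : Inv A pos M S p) (hp : A p) (hq : A q) (hpq : pos p < pos q)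
    (hlo : ∀ z, A z → z ≠ p → z ≠ q → pos q < pos z) :
    Inv (fun x => A x ∧ x ≠ p ∧ x ≠ q) pos (conM M p q) (conS M S p q) (conu M p p q) := by
  have hpq' : p ≠ q := by rintro rfl; exact lt_irrefl _ hpq
  have hMp : M p = p := h.uf
  have hqp : q ≠ p := Ne.symm hpq'
  obtain ⟨b, hb⟩ : ∃ b, b = M q := ⟨_, rfl⟩
  have hAb : A b := hb ▸ h.mem q hq
  have hMb : M b = q := by rw [hb]; exact h.inv q hq
  have hbp : b ≠ p := hb ▸ h.Mu hq hqp
  have hbq : b ≠ q := hb ▸ h.Mne hq hqp
  have hu' : conu M p p q = b := by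
    unfold conu
    rw [if_pos rfl, hb]
  have n1 : ∀ x, A x → x ≠ p → M x ≠ p := fun x hx h2 e => h2 (h.Minj hx hp (e.trans hMp.symm))
  have n2 : ∀ x, A x → x ≠ b → M x ≠ q := fun x hx h2 e =>
    h2 (h.Minj hx hAb (e.trans hMb.symm))
  have cM : ∀ x, A x → x ≠ p → x ≠ b → conM M p q x = M x := by
    intro x hx h1 h2
    unfold conM
    rw [if_neg (n1 x hx h1), if_neg (n2 x hx h2)]
  have cMb : conM M p q b = b := by
    unfold conM
    rw [if_neg (by rw [hMb]; exact hqp), if_pos hMb, if_pos hMp]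
  have cS : ∀ x, A x → x ≠ p → x ≠ b → conS M S p q x = S x := by
    intro x hx h1 h2
    unfold conS
    rw [if_neg (n1 x hx h1), if_neg (n2 x hx h2)]
  have Lb := hlo b hAb hbp hbq
  refine ⟨?_, ?_, ?_, ?_, ?_, ?_, ?_, ?_, ?_⟩
  · obtain ⟨N, hN⟩ := h.bd
    exact ⟨N, fun x hx => hN x hx.1⟩
  · exact fun x y hx hy => h.inj x y hx.1 hy.1
  · rw [hu']; exact ⟨hAb, hbp, hbq⟩
  · rw [hu', cMb]
  · rintro x ⟨hx, h1, h2⟩
    by_cases xb : x = b
    · subst xb; rw [cMb]; exact ⟨hAb, hbp, hbq⟩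
    rw [cM x hx h1 xb]
    exact ⟨h.mem x hx, n1 x hx h1, n2 x hx xb⟩
  · rintro x ⟨hx, h1, h2⟩
    by_cases xb : x = b
    · subst xb; rw [cMb, cMb]
    rw [cM x hx h1 xb, cM (M x) (h.mem x hx) (n1 x hx h1), h.inv x hx]
    intro e; apply h2; rw [← h.inv x hx, e, hMb]
  · rintro x ⟨hx, h1, h2⟩ e
    rw [hu']
    by_contra xb
    rw [cM x hx h1 xb] at e
    exact h1 (h.fix x hx e)
  · rintro x ⟨hx, h1, h2⟩ hxu
    rw [hu'] at hxu ⊢
    rw [cM x hx h1 hxu, cS x hx h1 hxu, h.st x hx h1]
    have Lx := hlo x hx h1 h2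
    have Lmx := hlo (M x) (h.mem x hx) (n1 x hx h1) (n2 x hx hxu)
    have d1 := h.inj x b hx hAb hxu
    have d2 := h.inj x (M x) hx (h.mem x hx) (Ne.symm (h.Mne hx h1))
    have d3 : pos (M x) ≠ pos b := h.inj (M x) b (h.mem x hx) hAb (by
        intro e; apply h2; rw [← h.inv x hx, e, hMb])
    have n3 := h.nc q x hq hx hqp h1 h2 (by rw [← hb]; exact hxu)
    rw [← hb] at n3
    have n3' : pos x < pos b ↔ pos (M x) < pos b := by unfold cyc at n3; omega
    clear n3
    unfold cyc; omega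
  · rintro x y ⟨hx, hxp, hxq⟩ ⟨hy, hyp, hyq⟩ hxu hyu hyx hyM
    rw [hu'] at hxu hyu
    rw [cM x hx hxp hxu] at hyM ⊢
    rw [cM y hy hyp hyu]
    exact h.nc x y hx hy hxp hyp hyx hyM

/-- contraction of the end `p` with the unmatched end `q` that follows it -/
theorem con_uq (h : Inv A pos M S q) (hp : A p) (hq : A q) (hpq : pos p < pos q)
    (hlo : ∀ z, A z → z ≠ p → z ≠ q → pos q < pos z) :
    Inv (fun x => A x ∧ x ≠ p ∧ x ≠ q) pos (conM M p q) (conS M S p q) (conu M q p q) := by
  have hpq' : p ≠ q := by rintro rfl; exact lt_irrefl _ hpq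
  have hMq : M q = q := h.uf
  obtain ⟨a, ha⟩ : ∃ a, a = M p := ⟨_, rfl⟩
  have hAa : A a := ha ▸ h.mem p hp
  have hMa : M a = p := by rw [ha]; exact h.inv p hp
  have haq : a ≠ q := ha ▸ h.Mu hp hpq'
  have hap : a ≠ p := ha ▸ h.Mne hp hpq'
  have hu' : conu M q p q = a := by
    unfold conu
    rw [if_neg (Ne.symm hpq'), if_pos rfl, ha]
  have n1 : ∀ x, A x → x ≠ a → M x ≠ p := fun x hx h2 e =>
    h2 (h.Minj hx hAa (e.trans hMa.symm))
  have n2 : ∀ x, A x → x ≠ q → M x ≠ q := fun x hx h2 e => h2 (h.Minj hx hq (e.trans hMq.symm))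
  have cM : ∀ x, A x → x ≠ q → x ≠ a → conM M p q x = M x := by
    intro x hx h1 h2
    unfold conM
    rw [if_neg (n1 x hx h2), if_neg (n2 x hx h1)]
  have cMa : conM M p q a = a := by
    unfold conM
    rw [if_pos hMa, if_pos hMq]
  have cS : ∀ x, A x → x ≠ q → x ≠ a → conS M S p q x = S x := by
    intro x hx h1 h2
    unfold conS
    rw [if_neg (n1 x hx h2), if_neg (n2 x hx h1)]
  have La := hlo a hAa hap haq
  refine ⟨?_, ?_, ?_, ?_, ?_, ?_, ?_, ?_, ?_⟩
  · obtain ⟨N, hN⟩ := h.bd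
    exact ⟨N, fun x hx => hN x hx.1⟩
  · exact fun x y hx hy => h.inj x y hx.1 hy.1
  · rw [hu']; exact ⟨hAa, hap, haq⟩
  · rw [hu', cMa]
  · rintro x ⟨hx, h1, h2⟩
    by_cases xa : x = a
    · subst xa; rw [cMa]; exact ⟨hAa, hap, haq⟩
    rw [cM x hx h2 xa]
    exact ⟨h.mem x hx, n1 x hx xa, n2 x hx h2⟩
  · rintro x ⟨hx, h1, h2⟩
    by_cases xa : x = a
    · subst xa; rw [cMa, cMa]
    rw [cM x hx h2 xa, cM (M x) (h.mem x hx) (n2 x hx h2), h.inv x hx]
    intro e; apply h1; rw [← h.inv x hx, e, hMa]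
  · rintro x ⟨hx, h1, h2⟩ e
    rw [hu']
    by_contra xa
    rw [cM x hx h2 xa] at e
    exact h2 (h.fix x hx e)
  · rintro x ⟨hx, h1, h2⟩ hxu
    rw [hu'] at hxu ⊢
    rw [cM x hx h2 hxu, cS x hx h2 hxu, h.st x hx h2]
    have Lx := hlo x hx h1 h2
    have Lmx := hlo (M x) (h.mem x hx) (n1 x hx hxu) (n2 x hx h2)
    have d1 := h.inj x a hx hAa hxu
    have d2 := h.inj x (M x) hx (h.mem x hx) (Ne.symm (h.Mne hx h2))
    have d3 : pos (M x) ≠ pos a := h.inj (M x) a (h.mem x hx) hAa (by
        intro e; apply h1; rw [← h.inv x hx, e, hMa])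
    have n3 := h.nc p x hp hx hpq' h2 h1 (by rw [← ha]; exact hxu)
    rw [← ha] at n3
    have n3' : pos x < pos a ↔ pos (M x) < pos a := by unfold cyc at n3; omega
    clear n3
    unfold cyc; omega
  · rintro x y ⟨hx, hxp, hxq⟩ ⟨hy, hyp, hyq⟩ hxu hyu hyx hyM
    rw [hu'] at hxu hyu
    rw [cM x hx hxq hxu] at hyM ⊢
    rw [cM y hy hyq hyu]
    exact h.nc x y hx hy hxq hyq hyx hyM

theorem con_lin (h : Inv A pos M S u) (hp : A p) (hq : A q) (hpq : pos p < pos q)
    (hlo : ∀ z, A z → z ≠ p → z ≠ q → pos q < pos z) :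
    Inv (fun x => A x ∧ x ≠ p ∧ x ≠ q) pos (conM M p q) (conS M S p q) (conu M u p q) := by
  by_cases hpu : p = u
  · subst hpu; exact con_up h hp hq hpq hlo
  by_cases hqu : q = u
  · subst hqu; exact con_uq h hp hq hpq hlo
  by_cases hM : M p = q
  · exact con_loop h hp hq hpu hqu hM
  · exact con_gen h hp hq hpq hlo hpu hqu hM

/-- planarity facts used by a contraction: for cyclically consecutive `p`, `q` -/
theorem con_facts (h : Inv A pos M S u) (hp : A p) (hq : A q) (hpq : pos p < pos q)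
    (hlo : ∀ z, A z → z ≠ p → z ≠ q → pos q < pos z) :
    (p = u → S q = true) ∧ (q = u → S p = false) ∧
    (p ≠ u → q ≠ u → M p = q → S p = true ∧ S q = false) ∧
    (p ≠ u → q ≠ u → M p ≠ q → ¬ (S p = true ∧ S q = false)) := by
  have hpq' : p ≠ q := by rintro rfl; exact lt_irrefl _ hpq
  refine ⟨?_, ?_, ?_, ?_⟩
  · intro e
    have hqu : q ≠ u := by rw [← e]; exact Ne.symm hpq'
    rw [h.st q hq hqu]
    have L1 := hlo (M q) (h.mem q hq) (by rw [e]; exact h.Mu hq hqu) (h.Mne hq hqu)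
    rw [← e]; unfold cyc; omega
  · intro e
    have hpu : p ≠ u := by rw [← e]; exact hpq'
    have L1 := hlo (M p) (h.mem p hp) (h.Mne hp hpu) (by rw [e]; exact h.Mu hp hpu)
    have := h.st p hp hpu
    rw [Bool.eq_false_iff, Ne, this, ← e]
    unfold cyc; omega
  · intro hpu hqu hM
    have L1 := hlo u h.um (Ne.symm hpu) (Ne.symm hqu)
    have hMq : M q = p := by rw [← hM]; exact h.inv p hp
    constructor
    · rw [h.st p hp hpu, hM]; unfold cyc; omega
    · rw [Bool.eq_false_iff, Ne, h.st q hq hqu, hMq]; unfold cyc; omega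
  · intro hpu hqu hM
    have hMp := h.Mne hp hpu
    have hMq := h.Mne hq hqu
    have hMqp : M q ≠ p := by
      intro e; apply hM; rw [← e, h.inv q hq]
    have L1 := hlo u h.um (Ne.symm hpu) (Ne.symm hqu)
    have L2 := hlo (M p) (h.mem p hp) hMp hM
    have L3 := hlo (M q) (h.mem q hq) hMqp hMq
    have d1 : pos (M p) ≠ pos (M q) := h.inj _ _ (h.mem p hp) (h.mem q hq)
      (fun e => hpq' (h.Minj hp hq e))
    have d2 := h.inj _ _ (h.mem p hp) h.um (h.Mu hp hpu)
    have d3 := h.inj _ _ (h.mem q hq) h.um (h.Mu hq hqu)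
    have n1 := h.nc p q hp hq hpu hqu (Ne.symm hpq') (Ne.symm hM)
    rintro ⟨h1, h2⟩
    rw [h.st p hp hpu] at h1
    rw [Bool.eq_false_iff, Ne, h.st q hq hqu] at h2
    have n1' : pos (M q) < pos (M p) := by unfold cyc at n1; omega
    clear n1
    unfold cyc at h1 h2; omega

end lin

section cont

variable [DecidableEq α] {p q : α}

theorem low_of_adj (h : Inv A pos M S u) (hp : A p) (hq : A q) (hpq : p ≠ q)
    (hadj : ∀ z, A z → z ≠ p → z ≠ q → ¬ cyc (pos p) (pos z) (pos q)) {N : ℤ}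
    (hN : ∀ x, A x → -N < pos x ∧ pos x < N) :
    cut pos p N p < cut pos p N q ∧
      ∀ z, A z → z ≠ p → z ≠ q → cut pos p N q < cut pos p N z := by
  have hp1 := hN p hp
  have hq1 := hN q hq
  have d := h.inj p q hp hq hpq
  constructor
  · unfold cut; rw [if_neg (lt_irrefl _)]; split_ifs <;> omega
  · intro z hz h1 h2
    have hz1 := hN z hz
    have d1 := h.inj z p hz hp h1
    have d2 := h.inj z q hz hq h2
    have := hadj z hz h1 h2
    unfold cyc at this
    unfold cut
    split_ifs <;> omega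

/-- **contraction of two cyclically consecutive ends** -/
theorem Inv.con (h : Inv A pos M S u) (hp : A p) (hq : A q) (hpq : p ≠ q)
    (hadj : ∀ z, A z → z ≠ p → z ≠ q → ¬ cyc (pos p) (pos z) (pos q)) :
    Inv (fun x => A x ∧ x ≠ p ∧ x ≠ q) pos (conM M p q) (conS M S p q) (conu M u p q) := by
  obtain ⟨N, hN, h'⟩ := h.cut_inv hp
  obtain ⟨l1, l2⟩ := low_of_adj h hp hq hpq hadj hN
  have := con_lin h' hp hq l1 l2
  refine this.congr (fun x y z hx hy hz => (cut_cyc hN hp x y z hx.1 hy.1 hz.1).symm)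
    ⟨N, fun x hx => hN x hx.1⟩ (fun x y hx hy => h.inj x y hx.1 hy.1)

theorem Inv.facts (h : Inv A pos M S u) (hp : A p) (hq : A q) (hpq : p ≠ q)
    (hadj : ∀ z, A z → z ≠ p → z ≠ q → ¬ cyc (pos p) (pos z) (pos q)) :
    (p = u → S q = true) ∧ (q = u → S p = false) ∧
    (p ≠ u → q ≠ u → M p = q → S p = true ∧ S q = false) ∧
    (p ≠ u → q ≠ u → M p ≠ q → ¬ (S p = true ∧ S q = false)) := by
  obtain ⟨N, hN, h'⟩ := h.cut_inv hp
  obtain ⟨l1, l2⟩ := low_of_adj h hp hq hpq hadj hN
  exact con_facts h' hp hq l1 l2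

end cont

end Crest.Agent.R158.Sw300
end

-- ▼ part R158/Sw2_300
section

/-!
# R158, exact lattice layer: attaching a tile preserves planarity
-/

set_option autoImplicit false

namespace Crest.Agent.R158.Sw300

section ins

variable {α : Type*} [DecidableEq α] {A : α → Prop} {pos pos' : α → ℤ} {M M' : α → α}
  {S S' : α → Bool} {u p e f g : α}

/-- replace the end `p` by `e` and insert the matched consecutive ends `f, g` beside it -/
structure Ins (A : α → Prop) (pos pos' : α → ℤ) (M M' : α → α) (S S' : α → Bool)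
    (p e f g : α) : Prop where
  hp : A p
  he : ¬ A e
  hf : ¬ A f
  hg : ¬ A g
  hef : e ≠ f
  heg : e ≠ g
  hfg : f ≠ g
  px : ∀ x, A x → x ≠ p → pos' x = 4 * pos x
  pf : 4 * pos p ≤ pos' f ∧ pos' g ≤ 4 * pos p + 2 ∧ pos' f < pos' g
  pe : (4 * pos p ≤ pos' e ∧ pos' e < pos' f) ∨ (pos' g < pos' e ∧ pos' e ≤ 4 * pos p + 2)
  Me : M' e = if M p = p then e else M p
  Mf : M' f = g
  Mg : M' g = f
  Mx : ∀ x, A x → x ≠ p → M' x = if M x = p then e else M x
  Se : S' e = S p
  Sf : S' f = true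
  Sg : S' g = false
  Sx : ∀ x, A x → x ≠ p → S' x = S x

/-- attach at the unmatched end -/
theorem ins_u (h : Inv A pos M S p) (i : Ins A pos pos' M M' S S' p e f g) :
    Inv (fun x => (A x ∧ x ≠ p) ∨ x = e ∨ x = f ∨ x = g) pos' M' S' e := by
  obtain ⟨hp, he, hf, hg, hef, heg, hfg, px, pf, pe, Me, Mf, Mg, Mx, Se, Sf, Sg, Sx⟩ := i
  have Mp := h.uf
  rw [if_pos Mp] at Me
  have nM : ∀ x, A x → x ≠ p → M x ≠ p := fun x hx h1 e =>
    h1 (h.Minj hx hp (e.trans Mp.symm))
  have Mx' : ∀ x, A x → x ≠ p → M' x = M x := fun x hx h1 => by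
    rw [Mx x hx h1, if_neg (nM x hx h1)]
  have ne : ∀ x, A x → x ≠ e ∧ x ≠ f ∧ x ≠ g := fun x hx =>
    ⟨by rintro rfl; exact he hx, by rintro rfl; exact hf hx, by rintro rfl; exact hg hx⟩
  have old : ∀ x, A x → x ≠ p → pos' x < 4 * pos p ∨ 4 * pos p + 2 < pos' x := by
    intro x hx h1
    have d := h.inj x p hx hp h1
    rw [px x hx h1]; omega
  refine ⟨?_, ?_, ?_, ?_, ?_, ?_, ?_, ?_, ?_⟩
  · obtain ⟨N, hN⟩ := h.bd
    have np := hN p hp
    refine ⟨4 * N + 8, ?_⟩
    rintro x (⟨hx, h1⟩ | rfl | rfl | rfl)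
    · have := hN x hx
      rw [px x hx h1]; omega
    · omega
    · omega
    · omega
  · rintro x y (⟨hx, h1⟩ | rfl | rfl | rfl) (⟨hy, h2⟩ | rfl | rfl | rfl) hxy
    · have d := h.inj x y hx hy hxy
      rw [px x hx h1, px y hy h2]; omega
    all_goals first
      | exact absurd rfl hxy
      | (have := old _ (by assumption) (by assumption); omega)
      | omega
  · right; left; rfl
  · exact Me
  · rintro x (⟨hx, h1⟩ | rfl | rfl | rfl)
    · rw [Mx' x hx h1]; left; exact ⟨h.mem x hx, nM x hx h1⟩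
    · rw [Me]; right; left; rfl
    · rw [Mf]; right; right; right; rfl
    · rw [Mg]; right; right; left; rfl
  · rintro x (⟨hx, h1⟩ | rfl | rfl | rfl)
    · rw [Mx' x hx h1, Mx' _ (h.mem x hx) (nM x hx h1), h.inv x hx]
    · rw [Me, Me]
    · rw [Mf, Mg]
    · rw [Mg, Mf]
  · rintro x (⟨hx, h1⟩ | rfl | rfl | rfl) e1
    · rw [Mx' x hx h1] at e1; exact absurd (h.fix x hx e1) h1
    · rfl
    · rw [Mf] at e1; exact absurd e1.symm hfg
    · rw [Mg] at e1; exact absurd e1 hfg
  · rintro x (⟨hx, h1⟩ | rfl | rfl | rfl) hxu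
    · rw [Sx x hx h1, Mx' x hx h1, h.st x hx h1, px x hx h1, px _ (h.mem x hx) (nM x hx h1)]
      have d1 := h.inj x p hx hp h1
      have d2 := h.inj (M x) p (h.mem x hx) hp (nM x hx h1)
      have d3 := h.inj x (M x) hx (h.mem x hx) (Ne.symm (h.Mne hx h1))
      unfold cyc; omega
    · exact absurd rfl hxu
    · rw [Sf, Mf]
      simp only [true_iff]
      unfold cyc; omega
    · rw [Sg, Mg]
      simp only [Bool.false_eq_true, false_iff]
      unfold cyc; omega
  · have oldM : ∀ x, A x → x ≠ p → pos' (M' x) < 4 * pos p ∨ 4 * pos p + 2 < pos' (M' x) := by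
      intro x hx h1
      rw [Mx' x hx h1]
      exact old _ (h.mem x hx) (nM x hx h1)
    rintro x y (⟨hx, h1⟩ | rfl | rfl | rfl) (⟨hy, h2⟩ | rfl | rfl | rfl) hxu hyu hyx hyM
    · rw [Mx' x hx h1] at hyM
      have := h.nc x y hx hy h1 h2 hyx hyM
      rw [Mx' x hx h1, Mx' y hy h2, px x hx h1, px y hy h2, px _ (h.mem x hx) (nM x hx h1),
        px _ (h.mem y hy) (nM y hy h2)]
      unfold cyc at this ⊢; omega
    · exact absurd rfl hyu
    · have o1 := old x hx h1
      have o2 := oldM x hx h1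
      rw [Mf]; unfold cyc; omega
    · have o1 := old x hx h1
      have o2 := oldM x hx h1
      rw [Mg]; unfold cyc; omega
    · exact absurd rfl hxu
    · exact absurd rfl hxu
    · exact absurd rfl hxu
    · exact absurd rfl hxu
    · have o1 := old y hy h2
      have o2 := oldM y hy h2
      rw [Mf]; unfold cyc; omega
    · exact absurd rfl hyu
    · exact absurd rfl hyx
    · exact absurd Mf.symm hyM
    · have o1 := old y hy h2
      have o2 := oldM y hy h2
      rw [Mg]; unfold cyc; omega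
    · exact absurd rfl hyu
    · exact absurd Mg.symm hyM
    · exact absurd rfl hyx

/-- attach at a matched end -/
theorem ins_m (h : Inv A pos M S u) (i : Ins A pos pos' M M' S S' p e f g) (hpu : p ≠ u) :
    Inv (fun x => (A x ∧ x ≠ p) ∨ x = e ∨ x = f ∨ x = g) pos' M' S' u := by
  obtain ⟨hp, he, hf, hg, hef, heg, hfg, px, pf, pe, Me, Mf, Mg, Mx, Se, Sf, Sg, Sx⟩ := i
  have Mpp := h.Mne hp hpu
  rw [if_neg Mpp] at Me
  obtain ⟨a, ha⟩ : ∃ a, a = M p := ⟨_, rfl⟩
  rw [← ha] at Me Mpp
  have hAa : A a := ha ▸ h.mem p hp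
  have hMa : M a = p := by rw [ha]; exact h.inv p hp
  have hau : a ≠ u := ha ▸ h.Mu hp hpu
  have Ma' : M' a = e := by rw [Mx a hAa Mpp, if_pos hMa]
  have nM : ∀ x, A x → x ≠ a → M x ≠ p := fun x hx h1 e =>
    h1 (h.Minj hx hAa (e.trans hMa.symm))
  have Mx' : ∀ x, A x → x ≠ p → x ≠ a → M' x = M x := fun x hx h1 h2 => by
    rw [Mx x hx h1, if_neg (nM x hx h2)]
  have nMa : ∀ x, A x → x ≠ p → M x ≠ a := fun x hx h1 e => by
    apply h1; rw [← h.inv x hx, e, hMa]
  have hMu : M u = u := h.uf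
  have hu'e : M' u = u := by rw [Mx' u h.um (Ne.symm hpu) (Ne.symm hau), hMu]
  have nee : ∀ x, A x → x ≠ e := by rintro x hx rfl; exact he hx
  have nef : ∀ x, A x → x ≠ f := by rintro x hx rfl; exact hf hx
  have neg : ∀ x, A x → x ≠ g := by rintro x hx rfl; exact hg hx
  have old : ∀ x, A x → x ≠ p → pos' x < 4 * pos p ∨ 4 * pos p + 2 < pos' x := by
    intro x hx h1
    have d := h.inj x p hx hp h1
    rw [px x hx h1]; omega
  have pu := px u h.um (Ne.symm hpu)
  have pa := px a hAa Mpp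
  have dpa := h.inj a p hAa hp Mpp
  have dpu := h.inj p u hp h.um hpu
  have dau := h.inj a u hAa h.um hau
  refine ⟨?_, ?_, ?_, ?_, ?_, ?_, ?_, ?_, ?_⟩
  · obtain ⟨N, hN⟩ := h.bd
    have np := hN p hp
    refine ⟨4 * N + 8, ?_⟩
    rintro x (⟨hx, h1⟩ | rfl | rfl | rfl)
    · have := hN x hx
      rw [px x hx h1]; omega
    · omega
    · omega
    · omega
  · rintro x y (⟨hx, h1⟩ | rfl | rfl | rfl) (⟨hy, h2⟩ | rfl | rfl | rfl) hxy
    · have d := h.inj x y hx hy hxy
      rw [px x hx h1, px y hy h2]; omega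
    all_goals first
      | exact absurd rfl hxy
      | (have := old _ (by assumption) (by assumption); omega)
      | omega
  · left; exact ⟨h.um, Ne.symm hpu⟩
  · exact hu'e
  · rintro x (⟨hx, h1⟩ | rfl | rfl | rfl)
    · by_cases xa : x = a
      · subst xa; rw [Ma']; right; left; rfl
      rw [Mx' x hx h1 xa]; left; exact ⟨h.mem x hx, nM x hx xa⟩
    · rw [Me]; left; exact ⟨hAa, Mpp⟩
    · rw [Mf]; right; right; right; rfl
    · rw [Mg]; right; right; left; rfl
  · rintro x (⟨hx, h1⟩ | rfl | rfl | rfl)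
    · by_cases xa : x = a
      · subst xa; rw [Ma', Me]
      rw [Mx' x hx h1 xa, Mx' _ (h.mem x hx) (nM x hx xa) (nMa x hx h1), h.inv x hx]
    · rw [Me, Ma']
    · rw [Mf, Mg]
    · rw [Mg, Mf]
  · rintro x (⟨hx, h1⟩ | rfl | rfl | rfl) e1
    · by_cases xa : x = a
      · rw [xa, Ma'] at e1; exact absurd (e1 ▸ hAa) he
      rw [Mx' x hx h1 xa] at e1; exact h.fix x hx e1
    · rw [Me] at e1; exact absurd (e1 ▸ hAa) he
    · rw [Mf] at e1; exact absurd e1.symm hfg
    · rw [Mg] at e1; exact absurd e1 hfg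
  · rintro x (⟨hx, h1⟩ | rfl | rfl | rfl) hxu
    · have dxu := h.inj x u hx h.um hxu
      have dxp := h.inj x p hx hp h1
      by_cases xa : x = a
      · subst xa
        rw [Sx x hx h1, Ma', h.st x hx hxu, hMa, pa, pu]
        unfold cyc; omega
      rw [Sx x hx h1, Mx' x hx h1 xa, h.st x hx hxu, px x hx h1, px _ (h.mem x hx) (nM x hx xa),
        pu]
      unfold cyc; omega
    · rw [Se, Me, h.st p hp hpu, ← ha, pa, pu]
      unfold cyc; omega
    · rw [Sf, Mf, pu]
      simp only [true_iff]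
      unfold cyc; omega
    · rw [Sg, Mg, pu]
      simp only [Bool.false_eq_true, false_iff]
      unfold cyc; omega
  · have oldM : ∀ x, A x → x ≠ p → x ≠ a →
        pos' (M' x) < 4 * pos p ∨ 4 * pos p + 2 < pos' (M' x) := by
      intro x hx h1 h2
      rw [Mx' x hx h1 h2]
      exact old _ (h.mem x hx) (nM x hx h2)
    -- the arc of `p` against old ends
    have K1 : ∀ y, A y → y ≠ u → y ≠ p → y ≠ a →
        (cyc (pos p) (pos y) (pos a) ↔ cyc (pos p) (pos (M y)) (pos a)) := by
      intro y hy hyu hyp hya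
      have := h.nc p y hp hy hpu hyu hyp (by rw [← ha]; exact hya)
      rwa [← ha] at this
    rintro x y (⟨hx, h1⟩ | rfl | rfl | rfl) (⟨hy, h2⟩ | rfl | rfl | rfl) hxu hyu hyx hyM
    · by_cases xa : x = a
      · subst xa
        rw [Ma'] at hyM ⊢
        have hya : y ≠ x := hyx
        rw [Mx' y hy h2 hya, px x hx h1, px y hy h2, px _ (h.mem y hy) (nM y hy hya)]
        have k := K1 y hy hyu h2 hya
        have d1 := h.inj y p hy hp h2
        have d2 := h.inj (M y) p (h.mem y hy) hp (nM y hy hya)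
        have d3 := h.inj y x hy hx hyx
        have d4 := h.inj (M y) x (h.mem y hy) hx (nMa y hy h2)
        unfold cyc at k ⊢; omega
      · rw [Mx' x hx h1 xa] at hyM
        have k := h.nc x y hx hy hxu hyu hyx hyM
        have d1 := h.inj x p hx hp h1
        have d2 := h.inj (M x) p (h.mem x hx) hp (nM x hx xa)
        rw [Mx' x hx h1 xa, px x hx h1, px y hy h2, px _ (h.mem x hx) (nM x hx xa)]
        by_cases ya : y = a
        · subst ya
          rw [Ma']
          rw [hMa] at k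
          unfold cyc at k ⊢; omega
        rw [Mx' y hy h2 ya, px _ (h.mem y hy) (nM y hy ya)]
        unfold cyc at k ⊢; omega
    · have xa : x ≠ a := by
        intro e1; apply hyM; rw [e1, Ma']
      have k := h.nc x p hx hp hxu hpu (Ne.symm h1) (Ne.symm (nM x hx xa))
      rw [← ha] at k
      have d1 := h.inj x p hx hp h1
      have d2 := h.inj (M x) p (h.mem x hx) hp (nM x hx xa)
      rw [Me, Mx' x hx h1 xa, px x hx h1, px _ (h.mem x hx) (nM x hx xa), pa]
      unfold cyc at k ⊢; omega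
    · have o1 := old x hx h1
      rw [Mf]
      by_cases xa : x = a
      · subst xa; rw [Ma']; unfold cyc; omega
      have o2 := oldM x hx h1 xa
      unfold cyc; omega
    · have o1 := old x hx h1
      rw [Mg]
      by_cases xa : x = a
      · subst xa; rw [Ma']; unfold cyc; omega
      have o2 := oldM x hx h1 xa
      unfold cyc; omega
    · rw [Me] at hyM ⊢
      rw [Mx' y hy h2 hyM, px y hy h2, px _ (h.mem y hy) (nM y hy hyM), pa]
      have k := K1 y hy hyu h2 hyM
      have d1 := h.inj y p hy hp h2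
      have d2 := h.inj (M y) p (h.mem y hy) hp (nM y hy hyM)
      unfold cyc at k ⊢; omega
    · exact absurd rfl hyx
    · rw [Me, Mf, pa]; unfold cyc; omega
    · rw [Me, Mg, pa]; unfold cyc; omega
    · rw [Mf]
      have o1 := old y hy h2
      by_cases ya : y = a
      · subst ya; rw [Ma']; unfold cyc; omega
      have o2 := oldM y hy h2 ya
      unfold cyc; omega
    · rw [Mf, Me, pa]; unfold cyc; omega
    · exact absurd rfl hyx
    · exact absurd Mf.symm hyM
    · rw [Mg]
      have o1 := old y hy h2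
      by_cases ya : y = a
      · subst ya; rw [Ma']; unfold cyc; omega
      have o2 := oldM y hy h2 ya
      unfold cyc; omega
    · rw [Mg, Me, pa]; unfold cyc; omega
    · exact absurd Mg.symm hyM
    · exact absurd rfl hyx

/-- **attaching a tile** -/
theorem Inv.ins (h : Inv A pos M S u) (i : Ins A pos pos' M M' S S' p e f g) :
    Inv (fun x => (A x ∧ x ≠ p) ∨ x = e ∨ x = f ∨ x = g) pos' M' S'
      (if u = p then e else u) := by
  by_cases hpu : u = p
  · rw [if_pos hpu]; subst hpu; exact ins_u h i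
  · rw [if_neg hpu]; exact ins_m h i (Ne.symm hpu)

end ins

end Crest.Agent.R158.Sw300
end

-- ▼ part R158/Sw3_300

/-!
# R158, exact lattice layer: planarity of admissible words (helper300)

`Ok.inv : Ok w → Inv (· ∈ L w) (pos w) (M s w) (S s w) (u s w)` for every splitting `s`.
-/

set_option autoImplicit false

namespace Crest.Agent.R158.Sw300

instance (a b c : ℤ) : Decidable (cyc a b c) := by unfold cyc; infer_instance

variable {T : Type*} [DecidableEq T]

theorem mem_att {w : Wd T} {p : Port T} {t : T} {d : ZMod 4} {x : Port T} (hp : p ∈ L w) :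
    x ∈ L (.att w p t d) ↔
      (x ∈ L w ∧ x ≠ p) ∨ x = some (t, d + 1) ∨ x = some (t, d + 2) ∨ x = some (t, d + 3) := by
  simp only [L, List.mem_flatMap]
  constructor
  · rintro ⟨y, hy, hx⟩
    split_ifs at hx with h
    · simp only [List.mem_cons, List.not_mem_nil, or_false] at hx
      right; exact hx
    · simp only [List.mem_cons, List.not_mem_nil, or_false] at hx
      left; exact ⟨hx ▸ hy, hx ▸ h⟩
  · rintro (⟨h1, h2⟩ | h)
    · exact ⟨x, h1, by rw [if_neg h2]; simp⟩
    · exact ⟨p, hp, by rw [if_pos rfl]; simpa using h⟩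

theorem mem_con {w : Wd T} {p q x : Port T} :
    x ∈ L (.con w p q) ↔ x ∈ L w ∧ x ≠ p ∧ x ≠ q := by
  simp [L]

theorem tl_mem : ∀ (w : Wd T), Ok w → ∀ x ∈ L w, ∀ t, tl x = some t → t ∈ tls w
  | .leg, _, x, hx, t, ht => by
      simp only [L, List.mem_cons, List.not_mem_nil, or_false] at hx
      subst hx; simp at ht
  | .tile t', _, x, hx, t, ht => by
      simp only [L, List.mem_cons, List.not_mem_nil, or_false] at hx
      rcases hx with rfl | rfl | rfl | rfl | rfl <;> simp at ht <;> simp [tls, ht]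
  | .att w p t' d, h, x, hx, t, ht => by
      rw [mem_att h.2.1] at hx
      rcases hx with ⟨h1, _⟩ | rfl | rfl | rfl
      · exact List.mem_cons_of_mem _ (tl_mem w h.1 x h1 t ht)
      all_goals (simp at ht; simp [tls, ht])
  | .con w p q, h, x, hx, t, ht => by
      rw [mem_con] at hx
      exact tl_mem w h.1 x hx.1 t ht

/-- ports of a new tile are not ends -/
theorem new_port {w : Wd T} (h : Ok w) {t : T} (ht : t ∉ tls w) (d : ZMod 4) :
    (some (t, d) : Port T) ∉ L w := fun hx => ht (tl_mem w h _ hx t rfl)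

theorem ne_port {w : Wd T} (h : Ok w) {t : T} (ht : t ∉ tls w) (d : ZMod 4) {x : Port T}
    (hx : x ∈ L w) : x ≠ some (t, d) := by
  rintro rfl; exact new_port h ht d hx

theorem tl_ne {w : Wd T} (h : Ok w) {t : T} (ht : t ∉ tls w) {x : Port T}
    (hx : x ∈ L w) : tl x ≠ some t := fun e => ht (tl_mem w h x hx t e)

theorem pos_att_old {w : Wd T} (h : Ok w) {t : T} (ht : t ∉ tls w) (p : Port T) (d : ZMod 4)
    {x : Port T} (hx : x ∈ L w) : pos (.att w p t d) x = 4 * pos w x := by
  simp only [pos]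
  rw [if_neg (ne_port h ht _ hx), if_neg (ne_port h ht _ hx), if_neg (ne_port h ht _ hx)]

theorem d12 (d : ZMod 4) : d + 1 ≠ d + 2 ∧ d + 1 ≠ d + 3 ∧ d + 2 ≠ d + 3 := by
  revert d; decide

theorem pos_att_1 (w : Wd T) (p : Port T) (t : T) (d : ZMod 4) :
    pos (.att w p t d) (some (t, d + 1)) = 4 * pos w p := by
  simp [pos]

theorem pos_att_2 (w : Wd T) (p : Port T) (t : T) (d : ZMod 4) :
    pos (.att w p t d) (some (t, d + 2)) = 4 * pos w p + 1 := by
  obtain ⟨h1, h2, h3⟩ := d12 d
  have e1 : (some (t, d + 2) : Port T) ≠ some (t, d + 1) := by simpa using Ne.symm h1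
  simp only [pos, if_neg e1, if_true]

theorem pos_att_3 (w : Wd T) (p : Port T) (t : T) (d : ZMod 4) :
    pos (.att w p t d) (some (t, d + 3)) = 4 * pos w p + 2 := by
  obtain ⟨h1, h2, h3⟩ := d12 d
  have e1 : (some (t, d + 3) : Port T) ≠ some (t, d + 1) := by simpa using Ne.symm h2
  have e2 : (some (t, d + 3) : Port T) ≠ some (t, d + 2) := by simpa using Ne.symm h3
  simp only [pos, if_neg e1, if_neg e2, if_true]

/-- the ends are listed with increasing positions -/
theorem sorted : ∀ (w : Wd T), Ok w → (L w).Pairwise fun x y => pos w x < pos w y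
  | .leg, _ => by simp [L]
  | .tile t, _ => by
      simp [L, pos, List.pairwise_cons]
      decide
  | .att w p t d, h => by
      have ih := sorted w h.1
      have ht := h.2.2.1
      simp only [L]
      rw [List.pairwise_flatMap]
      constructor
      · intro x hx
        split_ifs
        · simp only [List.pairwise_cons, List.mem_cons, List.not_mem_nil, or_false, forall_eq_or_imp,
            forall_eq, IsEmpty.forall_iff, implies_true, List.Pairwise.nil, and_true,
            pos_att_1, pos_att_2, pos_att_3]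
          omega
        · simp
      · refine (List.pairwise_iff_forall_sublist.2 ?_)
        intro a b hab x hx y hy
        have hlt : pos w a < pos w b := List.pairwise_iff_forall_sublist.1 ih hab
        have ha : a ∈ L w := hab.subset (by simp)
        have hb : b ∈ L w := hab.subset (by simp)
        have bound : ∀ z ∈ L w, ∀ v ∈ (if z = p then
            [some (t, d + 1), some (t, d + 2), some (t, d + 3)] else [z] : List (Port T)),
            4 * pos w z ≤ pos (.att w p t d) v ∧ pos (.att w p t d) v ≤ 4 * pos w z + 2 := by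
          intro z hz v hv
          by_cases hzp : z = p
          · rw [if_pos hzp] at hv
            rw [hzp]
            rw [List.mem_cons, List.mem_cons, List.mem_singleton] at hv
            rcases hv with rfl | rfl | rfl
            · rw [pos_att_1]; omega
            · rw [pos_att_2]; omega
            · rw [pos_att_3]; omega
          · rw [if_neg hzp, List.mem_singleton] at hv
            subst hv
            rw [pos_att_old h.1 ht p d hz]; omega
        have h1 := bound a ha x hx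
        have h2 := bound b hb y hy
        omega
  | .con w p q, h => by
      have ih := sorted w h.1
      simp only [L]
      exact ih.filter _

theorem nodup {w : Wd T} (h : Ok w) : (L w).Nodup := by
  refine (sorted w h).imp ?_
  intro a b hab e
  rw [e] at hab; exact lt_irrefl _ hab


theorem not_cyc_of_adj {w : Wd T} (h : Ok w) {p q : Port T} (ha : Adj (L w) p q) :
    ∀ z, z ∈ L w → z ≠ p → z ≠ q → ¬ cyc (pos w p) (pos w z) (pos w q) := by
  intro z hz h1 h2
  have hs := sorted w h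
  rcases ha with ⟨l1, l2, e⟩ | ⟨l1, e⟩
  · rw [e] at hs hz
    rw [List.pairwise_append] at hs
    obtain ⟨_, hs2, hs3⟩ := hs
    rw [List.pairwise_cons, List.pairwise_cons] at hs2
    have hpq := hs2.1 q (by simp)
    simp only [List.mem_append, List.mem_cons] at hz
    rcases hz with hz | hz | hz | hz
    · have := hs3 z hz p (by simp)
      unfold cyc; omega
    · exact absurd hz h1
    · exact absurd hz h2
    · have := hs2.2.1 z hz
      unfold cyc; omega
  · rw [e] at hs hz
    rw [List.cons_append, List.pairwise_cons, List.pairwise_append] at hs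
    simp only [List.cons_append, List.mem_append, List.mem_cons, List.not_mem_nil, or_false] at hz
    rcases hz with hz | hz | hz
    · exact absurd hz h2
    · have a1 := hs.1 z (by simp [hz])
      have a2 := hs.2.2.2 z hz p (by simp)
      unfold cyc; omega
    · exact absurd hz h1

theorem mem_adj {w : Wd T} {p q : Port T} (ha : Adj (L w) p q) : p ∈ L w ∧ q ∈ L w := by
  rcases ha with ⟨l1, l2, e⟩ | ⟨l1, e⟩ <;> rw [e] <;> simp

theorem tile_pos (t : T) (d : ZMod 4) : pos (.tile t) (some (t, d)) = (d.val : ℤ) + 1 := by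
  simp [pos]

theorem tile_M (s : T → Bool) (t : T) (d : ZMod 4) :
    M s (.tile t) (some (t, d)) = some (t, thru (s t) d) := by
  simp [M]

theorem tile_mem (t : T) (x : Port T) : x ∈ L (.tile t) ↔ x = none ∨ ∃ d, x = some (t, d) := by
  simp only [L, List.mem_cons, List.not_mem_nil, or_false]
  constructor
  · rintro (h | h | h | h | h)
    · exact Or.inl h
    all_goals exact Or.inr ⟨_, h⟩
  · rintro (h | ⟨d, h⟩)
    · exact Or.inl h
    · right
      have : d = 0 ∨ d = 1 ∨ d = 2 ∨ d = 3 := by clear h; revert d; decide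
      rcases this with rfl | rfl | rfl | rfl
      · left; exact h
      · right; left; exact h
      · right; right; left; exact h
      · right; right; right; exact h

theorem inv_leg (s : T → Bool) :
    Inv (fun x => x ∈ L (.leg : Wd T)) (pos .leg) (M s .leg) (S s .leg) (u s .leg) := by
  refine ⟨⟨1, ?_⟩, ?_, ?_, ?_, ?_, ?_, ?_, ?_, ?_⟩
  all_goals simp [L, pos, M, u]

theorem inv_tile (s : T → Bool) (t : T) :
    Inv (fun x => x ∈ L (.tile t)) (pos (.tile t)) (M s (.tile t)) (S s (.tile t))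
      (u s (.tile t)) := by
  have hS : ∀ d : ZMod 4, S s (.tile t) (some (t, d)) =
      decide (d = 0 ∨ d = if s t then 2 else 1) := by
    intro d
    simp [S]
  have hN : pos (.tile t) (none : Port T) = 0 := rfl
  have hMN : M s (.tile t) (none : Port T) = none := by simp [M]
  have hu : u s (.tile t) = none := rfl
  refine ⟨⟨10, ?_⟩, ?_, ?_, ?_, ?_, ?_, ?_, ?_, ?_⟩
  · intro x hx
    rcases (tile_mem t x).1 hx with rfl | ⟨d, rfl⟩
    · rw [hN]; omega
    · rw [tile_pos]
      have := ZMod.val_lt d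
      omega
  · intro x y hx hy hxy
    rcases (tile_mem t x).1 hx with rfl | ⟨d, rfl⟩ <;>
      rcases (tile_mem t y).1 hy with rfl | ⟨d', rfl⟩
    · exact absurd rfl hxy
    · rw [hN, tile_pos]; omega
    · rw [hN, tile_pos]; omega
    · rw [tile_pos, tile_pos]
      intro e
      apply hxy
      have : d.val = d'.val := by omega
      rw [ZMod.val_injective 4 this]
  · rw [hu]; exact (tile_mem t _).2 (Or.inl rfl)
  · rw [hu, hMN]
  · intro x hx
    rcases (tile_mem t x).1 hx with rfl | ⟨d, rfl⟩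
    · rw [hMN]; exact (tile_mem t _).2 (Or.inl rfl)
    · rw [tile_M]; exact (tile_mem t _).2 (Or.inr ⟨_, rfl⟩)
  · intro x hx
    rcases (tile_mem t x).1 hx with rfl | ⟨d, rfl⟩
    · rw [hMN, hMN]
    · rw [tile_M, tile_M, thru_thru]
  · intro x hx e
    rcases (tile_mem t x).1 hx with rfl | ⟨d, rfl⟩
    · rfl
    · rw [tile_M] at e
      simp only [Option.some.injEq, Prod.mk.injEq, true_and] at e
      exact absurd e (thru_ne _ _)
  · intro x hx hxu
    rcases (tile_mem t x).1 hx with rfl | ⟨d, rfl⟩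
    · exact absurd rfl hxu
    · rw [hS, tile_M, tile_pos, tile_pos, hu, hN]
      clear hx hxu hS
      generalize s t = b
      revert b d
      decide
  · intro x y hx hy hxu hyu hyx hyM
    rcases (tile_mem t x).1 hx with rfl | ⟨d, rfl⟩
    · exact absurd rfl hxu
    rcases (tile_mem t y).1 hy with rfl | ⟨d', rfl⟩
    · exact absurd rfl hyu
    rw [tile_M] at hyM
    rw [tile_M, tile_M, tile_pos, tile_pos, tile_pos, tile_pos]
    have h1 : d' ≠ d := by rintro rfl; exact hyx rfl
    have h2 : d' ≠ thru (s t) d := by rintro rfl; exact hyM rfl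
    clear hyM hyx hyu hxu hx hy hS hN hMN hu
    generalize s t = b at *
    revert b d d'
    decide

theorem att_A {w : Wd T} {p : Port T} {t : T} {d : ZMod 4} (_s : T → Bool) (hp : p ∈ L w)
    {e f g : Port T}
    (h : (e = some (t, d + 1) ∧ f = some (t, d + 2) ∧ g = some (t, d + 3)) ∨
      (e = some (t, d + 3) ∧ f = some (t, d + 1) ∧ g = some (t, d + 2))) :
    (fun x => x ∈ L (.att w p t d)) =
      fun x => (x ∈ L w ∧ x ≠ p) ∨ x = e ∨ x = f ∨ x = g := by
  funext x
  rw [mem_att hp]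
  rcases h with ⟨rfl, rfl, rfl⟩ | ⟨rfl, rfl, rfl⟩
  · rfl
  · apply propext; tauto

theorem inv_att (s : T → Bool) {w : Wd T} {p : Port T} {t : T} {d : ZMod 4}
    (h : Ok (.att w p t d))
    (ih : Inv (fun x => x ∈ L w) (pos w) (M s w) (S s w) (u s w)) :
    Inv (fun x => x ∈ L (.att w p t d)) (pos (.att w p t d)) (M s (.att w p t d))
      (S s (.att w p t d)) (u s (.att w p t d)) := by
  obtain ⟨hw, hp, ht, -⟩ := h
  obtain ⟨e12, e13, e23⟩ := d12 d
  have dne : ∀ a b : ZMod 4, a ≠ b → (some (t, a) : Port T) ≠ some (t, b) := by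
    intro a b hab e; apply hab; simpa using e
  have ht2 : ∀ b : Bool, (thru b d = d + 1 → thru b (d + 2) = d + 3 ∧ thru b (d + 3) = d + 2) ∧
      (thru b d = d + 3 → thru b (d + 1) = d + 2 ∧ thru b (d + 2) = d + 1) := by
    intro b; revert b d; clear * -; decide
  have MeG : M s (.att w p t d) (some (t, thru (s t) d)) =
      if M s w p = p then some (t, thru (s t) d) else M s w p := by simp [M]
  have Mo : ∀ a : ZMod 4, a ≠ thru (s t) d →
      M s (.att w p t d) (some (t, a)) = some (t, thru (s t) a) := by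
    intro a ha; simp [M, ha]
  have Mx : ∀ x, x ∈ L w → M s (.att w p t d) x =
      if M s w x = p then some (t, thru (s t) d) else M s w x := by
    intro x hx
    simp only [M]
    rw [if_neg (tl_ne hw ht hx)]
  have SeG : S s (.att w p t d) (some (t, thru (s t) d)) = S s w p := by simp [S]
  have So : ∀ a : ZMod 4, a ≠ thru (s t) d → S s (.att w p t d) (some (t, a)) =
      decide (a = d + 1 ∨ (a = d + 2 ∧ thru (s t) d = d + 1)) := by
    intro a ha; simp [S, ha]
  have Sx : ∀ x, x ∈ L w → S s (.att w p t d) x = S s w x := by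
    intro x hx
    simp only [S]
    rw [if_neg (tl_ne hw ht hx)]
  have hu : u s (.att w p t d) = if u s w = p then some (t, thru (s t) d) else u s w := rfl
  rw [hu]
  rcases thru_cases (s t) d with hc | hc
  · obtain ⟨c1, c2⟩ := (ht2 (s t)).1 hc
    rw [hc] at MeG Mo Mx SeG So ⊢
    rw [att_A s hp (Or.inl ⟨rfl, rfl, rfl⟩)]
    refine ih.ins ⟨hp, new_port hw ht _, new_port hw ht _, new_port hw ht _,
      dne _ _ e12, dne _ _ e13, dne _ _ e23, fun x hx _ => pos_att_old hw ht p d hx,
      ?_, ?_, ?_, ?_, ?_, ?_, SeG, ?_, ?_, fun x hx _ => Sx x hx⟩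
    · rw [pos_att_2, pos_att_3]; omega
    · rw [pos_att_1, pos_att_2]; left; omega
    · exact MeG
    · rw [Mo _ (Ne.symm e12), c1]
    · rw [Mo _ (Ne.symm e13), c2]
    · exact fun x hx _ => Mx x hx
    · rw [So _ (Ne.symm e12)]; simp
    · rw [So _ (Ne.symm e13)]
      simp only [decide_eq_false_iff_not, not_or, not_and]
      exact ⟨Ne.symm e13, fun h => absurd h.symm e23⟩
  · obtain ⟨c1, c2⟩ := (ht2 (s t)).2 hc
    rw [hc] at MeG Mo Mx SeG So ⊢
    rw [att_A s hp (Or.inr ⟨rfl, rfl, rfl⟩)]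
    refine ih.ins ⟨hp, new_port hw ht _, new_port hw ht _, new_port hw ht _,
      dne _ _ (Ne.symm e13), dne _ _ (Ne.symm e23), dne _ _ e12,
      fun x hx _ => pos_att_old hw ht p d hx,
      ?_, ?_, ?_, ?_, ?_, ?_, SeG, ?_, ?_, fun x hx _ => Sx x hx⟩
    · rw [pos_att_1, pos_att_2]; omega
    · rw [pos_att_2, pos_att_3]; right; omega
    · exact MeG
    · rw [Mo _ e13, c1]
    · rw [Mo _ e23, c2]
    · exact fun x hx _ => Mx x hx
    · rw [So _ e13]; simp
    · rw [So _ e23]
      simp only [decide_eq_false_iff_not, not_or, not_and]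
      exact ⟨Ne.symm e12, fun _ h => e13 h.symm⟩

/-- **planarity of admissible words** -/
theorem Ok.inv (s : T → Bool) : ∀ (w : Wd T), Ok w →
    Inv (fun x => x ∈ L w) (pos w) (M s w) (S s w) (u s w)
  | .leg, _ => inv_leg s
  | .tile t, _ => inv_tile s t
  | .att w p t d, h => inv_att s h (Ok.inv s w h.1)
  | .con w p q, h => by
      have ih := Ok.inv s w h.1
      obtain ⟨hp, hq⟩ := mem_adj h.2.2.2.2
      have := ih.con hp hq h.2.2.2.1 (not_cyc_of_adj h.1 h.2.2.2.2)
      have hA : (fun x => x ∈ L (.con w p q)) = fun x => x ∈ L w ∧ x ≠ p ∧ x ≠ q := by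
        funext x; exact propext mem_con
      rw [hA]
      exact this

end Crest.Agent.R158.Sw300
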