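import Crest.Agent.R158.Wf5_850
import Crest.Agent.R158.Wf6_850

-- ▼ part R158/Wf7_850
section

/-!
# Row 158, BLOCK W (helper850), part 7: three blobs, crossings between the rings

* `AA s R` : an open path of the annulus joins `sd ≤ s` to `R ≤ sd`; `aa_dep`, `aa_of`, `aa_prob`
* `sys3`, `mass3` (masses when no loop crosses), `nn_zero` (no loop between the rings when some
  loop crosses), `aa_of_cross`
* `interp` : interpolation of moments
-/

set_option autoImplicit false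

noncomputable section

namespace Crest.Agent.R158.Wf850

open Real Finset MeasureTheory Filter Topology
open Crest.Agent.R161.Geo729 Crest.Agent.R161.Dual374 Crest.Agent.R161.Tas682
open Crest.Agent.R158.Fr158 (bx mem_bx mem_bx_sd eIn mem_eIn)
open Crest.Agent.R158.Rs689 (nu hf PB Dep ArmX arm_half)
open Crest.Agent.R158.It200 (Cfz Corner fc fc_zero)
open Crest.Agent.R158.We297 (ff kap)
open Crest.Agent.R158.Cn109 (DepF lsW SS QQ smalls mem_smalls SS_eq VV VV_inc VV_diff VV_mono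
  integral_mul_indep)
open Crest.Agent.R158.Vx107 (mass W Ntr Fw tot)
open Crest.Agent.R158.Hd109 (Dens hoelder_exp rev_hoelder)

/-! ### annular arm -/

/-- edges of an annulus -/
def aE (s R : ℤ) : Finset Edge := eIn (bx (0, 0) R) \ eIn (bx (0, 0) s)

/-- an open path of the annulus crosses it -/
def AA (s R : ℤ) : Set Cfz := {z | ∃ u v : P2, sd (0, 0) u ≤ s ∧ R ≤ sd (0, 0) v ∧
  Relation.ReflTransGen (PStep (fun e => z e = true ∧ e ∈ aE s R)) u v}

theorem aa_dep (s R : ℤ) : Dep (aE s R) (AA s R) := by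
  intro z z' h
  have e : (fun e => z e = true ∧ e ∈ aE s R) = (fun e => z' e = true ∧ e ∈ aE s R) := by
    funext e
    refine propext ⟨fun h' => ⟨?_, h'.2⟩, fun h' => ⟨?_, h'.2⟩⟩
    · rw [← h e h'.2]; exact h'.1
    · rw [h e h'.2]; exact h'.1
  unfold AA
  rw [Set.mem_ofPred_eq, Set.mem_ofPred_eq, e]

theorem edge_in {z : Cfz} {s R : ℤ} {e : Edge} {a b : P2} (he : z e = true)
    (hE : (a = src e ∧ b = tgt e) ∨ (a = tgt e ∧ b = src e)) (ha : sd (0, 0) a ≤ R)
    (hb : sd (0, 0) b ≤ R) (hb' : s < sd (0, 0) b) : z e = true ∧ e ∈ aE s R := by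
  refine ⟨he, ?_⟩
  unfold aE
  rw [Finset.mem_sdiff, mem_eIn, mem_eIn, mem_bx_sd, mem_bx_sd, mem_bx_sd, mem_bx_sd]
  rcases hE with ⟨h1, h2⟩ | ⟨h1, h2⟩
  · rw [← h1, ← h2]
    exact ⟨⟨ha, hb⟩, fun h => by linarith [h.2]⟩
  · rw [← h1, ← h2]
    exact ⟨⟨hb, ha⟩, fun h => by linarith [h.1]⟩

theorem aa_of {z : Cfz} {s R : ℤ} (hsR : s < R) {u v : P2} (hu : sd (0, 0) u ≤ s)
    (hv : R ≤ sd (0, 0) v) (h : Relation.ReflTransGen (PStep (fun e => z e = true)) u v) :
    z ∈ AA s R := by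
  have key : ∀ w, Relation.ReflTransGen (PStep (fun e => z e = true)) u w →
      z ∈ AA s R ∨ (sd (0, 0) w < R ∧ ∃ u', sd (0, 0) u' ≤ s ∧
        Relation.ReflTransGen (PStep (fun e => z e = true ∧ e ∈ aE s R)) u' w) := by
    intro w hw
    induction hw with
    | refl => exact Or.inr ⟨by linarith, u, hu, .refl⟩
    | @tail a b hab hs ih =>
        rcases ih with h1 | ⟨h1, u', h2, h3⟩
        · exact Or.inl h1
        · have h4 := Lc522.sd_nbr (v := ((0 : ℤ), (0 : ℤ))) hs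
          obtain ⟨e, he, hE⟩ := hs
          rcases le_or_gt R (sd (0, 0) b) with h5 | h5
          · exact Or.inl ⟨u', b, h2, h5, h3.tail ⟨e, edge_in he hE (by linarith) (by linarith)
              (by linarith), hE⟩⟩
          · right
            refine ⟨h5, ?_⟩
            rcases le_or_gt (sd (0, 0) b) s with h6 | h6
            · exact ⟨b, h6, .refl⟩
            · exact ⟨u', h2, h3.tail ⟨e, edge_in he hE (by linarith) (by linarith) h6, hE⟩⟩
  rcases key v h with h1 | ⟨h1, _⟩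
  · exact h1
  · linarith

theorem aa_prob : ∃ C a : ℝ, 0 < C ∧ 0 < a ∧ ∀ s R : ℕ, 1 ≤ s → s ≤ R →
    (nu hf).real (AA s R) ≤ C * ((s : ℝ) / R) ^ a := by
  obtain ⟨C, a, hC, ha, h⟩ := arm_half
  refine ⟨C, a, hC, ha, fun s R hs hsR => le_trans (measureReal_mono ?_) (h (0, 0) s R hs hsR)⟩
  rintro z ⟨u, v, hu, hv, huv⟩
  unfold sd at hu hv
  dsimp only at hu hv
  rw [max_le_iff] at hu
  rw [le_max_iff] at hv
  exact ⟨u, v, hu.1, hu.2, hv, Relation.ReflTransGen.mono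
    (fun _ _ ⟨e, h1, h2⟩ => ⟨e, h1.1, h2⟩) _ _ huv⟩

/-! ### three blobs -/

variable {us ws : ℕ → Face →₀ ℝ}

/-- three densities -/
def u3 (us ws : ℕ → Face →₀ ℝ) (K L r : ℕ) (i : ℕ) : Face →₀ ℝ :=
  if i = 0 then us r else if i = 1 then ws ((K + 1) * r) else ws ((K + 1) * L * r)
/-- outer radii -/
def s3 (K L r : ℕ) (i : ℕ) : ℤ :=
  if i = 0 then r else if i = 1 then 2 * (((K + 1) * r : ℕ) : ℤ) else 2 * (((K + 1) * L * r : ℕ) : ℤ)
/-- inner radii -/
def t3 (K L r : ℕ) (i : ℕ) : ℤ :=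
  if i = 0 then -1 else if i = 1 then ((K * r / 2 : ℕ) : ℤ) else (((K + 1) * L * r : ℕ) : ℤ) / 2 - 1
/-- levels -/
def k3 (K L r : ℕ) (i : ℕ) : ℕ :=
  if i = 0 then Nat.log 2 r else if i = 1 then Nat.log 2 (K * r) - 1
  else Nat.log 2 ((K + 1) * L * r) - 1
/-- charges -/
def c3 (b : ℝ) (i : ℕ) : ℝ := if i = 0 then -2 * b else if i ≤ 2 then b else 0

theorem sum_c3 (b : ℝ) : ∑ i ∈ range (2 + 1), c3 b i = 0 := by
  rw [Finset.sum_range_succ, Finset.sum_range_succ, Finset.sum_range_one]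
  simp only [c3, if_true, one_ne_zero, if_false, Nat.one_le_ofNat, two_ne_zero, le_refl]
  ring

theorem cs_c3 (b : ℝ) : cs (c3 b) 0 = -2 * b ∧ cs (c3 b) 1 = -b := by
  unfold cs
  constructor
  · simp [c3]
  · rw [Finset.sum_range_succ, Finset.sum_range_one]
    simp only [c3, if_true, one_ne_zero, if_false, Nat.one_le_ofNat]
    ring

theorem mm3 (us ws : ℕ → Face →₀ ℝ) (b : ℝ) (K L r : ℕ) :
    mm 2 (c3 b) (u3 us ws K L r) =
      (-2 * b) • us r + b • ws ((K + 1) * r) + b • ws ((K + 1) * L * r) := by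
  unfold mm
  rw [Finset.sum_range_succ, Finset.sum_range_succ, Finset.sum_range_one]
  simp only [c3, u3, if_true, one_ne_zero, if_false, Nat.one_le_ofNat, two_ne_zero, le_refl,
    OfNat.ofNat_ne_one]

/-- sizes -/
theorem size3 {K L r : ℕ} (hK : 2 ≤ K) (hL : 6 ≤ L) (hr : 2 ≤ r) :
    2 * r ≤ K * r ∧ (K + 1) * r = K * r + r ∧ 6 * ((K + 1) * r) ≤ (K + 1) * L * r ∧
      6 ≤ (K + 1) * r := by
  have hKr : 2 * r ≤ K * r := Nat.mul_le_mul_right r hK
  have hK1 : (K + 1) * r = K * r + r := by ring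
  refine ⟨hKr, hK1, ?_, by omega⟩
  have : (K + 1) * L * r = L * ((K + 1) * r) := by ring
  rw [this]
  exact Nat.mul_le_mul_right _ hL

theorem sys3 (B : Blobs us ws) {K L r : ℕ} (hK : 2 ≤ K) (hL : 6 ≤ L) (hr : 2 ≤ r) :
    Sys 2 1 16 (s3 K L r) (t3 K L r) (k3 K L r) (u3 us ws K L r) := by
  obtain ⟨hKr, hK1, hP, hP6⟩ := size3 hK hL hr
  obtain ⟨l1, l2, l3⟩ := log_half (n := K * r) (by omega)
  have p1 := Nat.pow_log_le_self 2 (x := r) (by omega)
  have p2 := Nat.lt_pow_succ_log_self (b := 2) (by norm_num) r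
  rw [pow_succ] at p2
  have hc : ∀ i, i ≤ 2 → i = 0 ∨ i = 1 ∨ i = 2 := by intro i hi; omega
  generalize hQ : (K + 1) * L * r = Q at *
  obtain ⟨q1, q2, q3⟩ := log_half (n := Q) (by omega)
  have e0 : s3 K L r 0 = r := rfl
  have e1 : s3 K L r 1 = 2 * (((K + 1) * r : ℕ) : ℤ) := rfl
  have e2 : s3 K L r 2 = 2 * (Q : ℤ) := by rw [← hQ]; rfl
  have f0 : t3 K L r 0 = -1 := rfl
  have f1 : t3 K L r 1 = ((K * r / 2 : ℕ) : ℤ) := rfl
  have f2 : t3 K L r 2 = (Q : ℤ) / 2 - 1 := by rw [← hQ]; rfl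
  have g0 : k3 K L r 0 = Nat.log 2 r := rfl
  have g1 : k3 K L r 1 = Nat.log 2 (K * r) - 1 := rfl
  have g2 : k3 K L r 2 = Nat.log 2 Q - 1 := by rw [← hQ]; rfl
  have w0 : u3 us ws K L r 0 = us r := rfl
  have w1 : u3 us ws K L r 1 = ws ((K + 1) * r) := rfl
  have w2 : u3 us ws K L r 2 = ws Q := by rw [← hQ]; rfl
  have z1 : (2 : ℤ) ^ (Nat.log 2 (K * r) - 1) ≤ ((K * r / 2 : ℕ) : ℤ) := by exact_mod_cast l1
  have z2 : (2 : ℤ) ^ (Nat.log 2 Q - 1) ≤ ((Q / 2 : ℕ) : ℤ) := by exact_mod_cast q1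
  have hKr' : (((K + 1) * r : ℕ) : ℤ) = ((K * r : ℕ) : ℤ) + r := by rw [hK1]; push_cast; ring
  have a1 : (2 : ℤ) * r ≤ ((K * r : ℕ) : ℤ) := by exact_mod_cast hKr
  have a2 : 6 * (((K + 1) * r : ℕ) : ℤ) ≤ Q := by exact_mod_cast hP
  have a3 : (2 : ℤ) ≤ r := by exact_mod_cast hr
  refine ⟨?_, ?_, ?_, ?_, ?_, ?_, ?_, ?_⟩
  · rw [e0]; omega
  · intro i hi
    rcases hc i hi with rfl | rfl | rfl
    · rw [e0, f0]; omega
    · rw [e1, f1, hKr']; omega
    · rw [e2, f2]; omega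
  · intro i hi
    obtain rfl | rfl : i = 0 ∨ i = 1 := by omega
    · rw [e0, show 0 + 1 = 1 by rfl, f1]; omega
    · rw [e1, show 1 + 1 = 2 by rfl, f2]; omega
  · intro i hi
    rcases hc i hi with rfl | rfl | rfl
    · rw [e0, g0]
      have : (2 : ℤ) ^ Nat.log 2 r ≤ r := by exact_mod_cast p1
      omega
    · rw [e1, g1, hKr']; omega
    · rw [e2, g2]; omega
  · intro i hi hi1
    obtain rfl | rfl : i = 1 ∨ i = 2 := by omega
    · rw [g1, f1]; linarith
    · rw [g2, f2]; omega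
  · intro i hi
    rcases hc i hi with rfl | rfl | rfl
    · rw [e0, g0]
      have : (r : ℤ) < 2 ^ Nat.log 2 r * 2 := by exact_mod_cast p2
      push_cast
      have h0 : (0 : ℤ) < 2 ^ Nat.log 2 r := by positivity
      linarith
    · rw [e1, g1, hKr']
      have h5 : ((K * r : ℕ) : ℤ) < 4 * 2 ^ (Nat.log 2 (K * r) - 1) := by exact_mod_cast l2
      push_cast at h5 a1 ⊢
      linarith
    · rw [e2, g2]
      have h5 : (Q : ℤ) < 4 * 2 ^ (Nat.log 2 Q - 1) := by exact_mod_cast q2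
      push_cast
      linarith
  · intro i hi
    rcases hc i hi with rfl | rfl | rfl
    · rw [g0, w0]
      exact dens_of (B.us_nn r) (B.us_tot r (by omega)) fun f =>
        (B.us_le r f).trans (le_four p1 (by norm_num))
    · rw [g1, w1]
      refine dens_of (B.ws_nn _ (by omega)) (B.ws_tot _ (by omega)) fun f =>
        (B.ws_le _ (by omega) f).trans (le_four ?_ (by norm_num))
      omega
    · rw [g2, w2]
      refine dens_of (B.ws_nn _ (by omega)) (B.ws_tot _ (by omega)) fun f =>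
        (B.ws_le _ (by omega) f).trans (le_four ?_ (by norm_num))
      omega
  · intro i hi v hv
    rcases hc i hi with rfl | rfl | rfl
    · rw [w0] at hv
      rw [e0, f0]
      refine ⟨B.us_sub r v hv, ?_⟩
      rw [mem_BF]
      have := sd_nonneg' ((0 : ℤ), (0 : ℤ)) v.1
      have h0 : ¬ sd ((0 : ℤ), (0 : ℤ)) v.1 ≤ -1 := by omega
      exact h0
    · rw [w1] at hv
      rw [e1, f1]
      obtain ⟨h1, h2⟩ := B.ws_sub _ (by omega) v hv
      refine ⟨h1, fun h3 => h2 (BF_mono ?_ h3)⟩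
      rw [hKr']
      omega
    · rw [w2] at hv
      rw [e2, f2]
      exact B.ws_sub _ (by omega) v hv

/-- no loop crosses between the two rings -/
def NoX (K L r : ℕ) (z : Cfz) : Prop :=
  ∀ A ∈ Lps z, Splits A (BF (0, 0) (s3 K L r 1)) → A ⊆ BF (0, 0) (t3 K L r 2)

/-- masses of the three-blob system when no loop crosses -/
theorem mass3 (B : Blobs us ws) {K L r : ℕ} (hK : 2 ≤ K) (hL : 6 ≤ L) (hr : 2 ≤ r) {b : ℝ}
    (hb : 0 ≤ b) {z : Cfz} (hz : NoX K L r z) {A : Finset Face} (hA : A ∈ Lps z) :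
    -2 * b ≤ ∑ i ∈ range (2 + 1), c3 b i * mass (u3 us ws K L r i) A ∧
      ∑ i ∈ range (2 + 1), c3 b i * mass (u3 us ws K L r i) A ≤ b := by
  have H := sys3 B hK hL hr
  have h0 := H.mass_nonneg (i := 0) (by omega) A
  have h1 := H.mass_nonneg (i := 1) (by omega) A
  have h2 := H.mass_nonneg (i := 2) (by omega) A
  have k0 := H.mass_le_one (i := 0) (by omega) A
  have k1 := H.mass_le_one (i := 1) (by omega) A
  have k2 := H.mass_le_one (i := 2) (by omega) A
  rw [Finset.sum_range_succ, Finset.sum_range_succ, Finset.sum_range_one]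
  have e : c3 b 0 * mass (u3 us ws K L r 0) A + c3 b 1 * mass (u3 us ws K L r 1) A +
      c3 b 2 * mass (u3 us ws K L r 2) A = b * (-2 * mass (u3 us ws K L r 0) A +
        mass (u3 us ws K L r 1) A + mass (u3 us ws K L r 2) A) := by
    simp only [c3, if_true, one_ne_zero, if_false, Nat.one_le_ofNat, two_ne_zero, le_refl]
    ring
  rw [e]
  set m0 := mass (u3 us ws K L r 0) A
  set m1 := mass (u3 us ws K L r 1) A with hm1
  set m2 := mass (u3 us ws K L r 2) A with hm2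
  have key : m1 = 0 ∨ m2 = 0 ∨ m0 = 1 := by
    by_contra hcon
    push Not at hcon
    obtain ⟨n1, n2, n0⟩ := hcon
    obtain ⟨v, hvA, hv⟩ : ∃ v ∈ A, u3 us ws K L r 1 v ≠ 0 := by
      by_contra h
      push Not at h
      exact n1 (sum_eq_zero h)
    obtain ⟨w, hwA, hw⟩ : ∃ v ∈ A, u3 us ws K L r 2 v ≠ 0 := by
      by_contra h
      push Not at h
      exact n2 (sum_eq_zero h)
    have hv' := H.sub 1 (by omega) v hv
    have hw' := H.sub 2 (by omega) w hw
    have hsp : ¬ Splits A (BF (0, 0) (s3 K L r 1)) := fun h => hw'.2 (hz A hA h hwA)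
    have hsub : BF (0, 0) (s3 K L r 1) ⊆ A := by
      intro f hf
      by_contra hfA
      exact hsp ⟨⟨v, hv'.1, hvA⟩, ⟨f, hf, hfA⟩⟩
    exact n0 (H.mass_one (j := 1) (by omega) (by omega) hsub)
  constructor
  · nlinarith
  · rcases key with h | h | h
    · rw [h]; nlinarith
    · rw [h]; nlinarith
    · rw [h]; nlinarith

/-- if some loop crosses then no loop lies between the rings -/
theorem nn_zero {K L r : ℕ} {z : Cfz} (hz : ¬ NoX K L r z) :
    NN (0, 0) (s3 K L r 1) (t3 K L r 2) z = 0 := by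
  unfold NoX at hz
  push Not at hz
  obtain ⟨B, hB, hsp, hnot⟩ := hz
  rw [NN_zero_iff]
  intro A hA h1 h2
  rcases lam hB hA with h | h | h
  · exact hnot (h.trans h2)
  · obtain ⟨f, hf, hfB⟩ := hsp.2
    exact hfB (h (h1 hf))
  · obtain ⟨f, hf, hfB⟩ := hsp.1
    rw [Finset.disjoint_left] at h
    exact h hfB (h1 hf)

/-- a crossing loop gives an arm -/
theorem aa_of_cross {K L r : ℕ} {z : Cfz} (hz : ¬ NoX K L r z)
    (hst : s3 K L r 1 < t3 K L r 2 + 1) : z ∈ AA (s3 K L r 1) (t3 K L r 2 + 1) := by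
  unfold NoX at hz
  push Not at hz
  obtain ⟨B, hB, hsp, hnot⟩ := hz
  obtain ⟨⟨u, v, hu, hv, huv⟩, -⟩ := cross2 hB hsp hnot
  exact aa_of hst hu hv huv

/-! ### interpolation -/

theorem interp {Ω : Type*} {m : MeasurableSpace Ω} {μ : Measure Ω} {X : Ω → ℝ} {s t θ : ℝ}
    (hX : ∀ ω, 0 < X ω) (h0 : 0 ≤ θ) (h1 : θ ≤ 1) (hi1 : Integrable (fun ω => X ω ^ s) μ)
    (hi2 : Integrable (fun ω => X ω ^ t) μ)
    (hi3 : Integrable (fun ω => X ω ^ ((1 - θ) * s + θ * t)) μ)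
    (hp1 : 0 < ∫ ω, X ω ^ s ∂μ) (hp2 : 0 < ∫ ω, X ω ^ t ∂μ) :
    ∫ ω, X ω ^ ((1 - θ) * s + θ * t) ∂μ ≤
      (∫ ω, X ω ^ s ∂μ) ^ (1 - θ) * (∫ ω, X ω ^ t ∂μ) ^ θ := by
  set a := ∫ ω, X ω ^ s ∂μ with ha
  set b := ∫ ω, X ω ^ t ∂μ with hb
  have hpt : ∀ ω, X ω ^ ((1 - θ) * s + θ * t) ≤
      (a ^ (1 - θ) * b ^ θ) * ((1 - θ) * (X ω ^ s / a) + θ * (X ω ^ t / b)) := by
    intro ω
    have h3 := Real.geom_mean_le_arith_mean2_weighted (w₁ := 1 - θ) (w₂ := θ)
      (p₁ := X ω ^ s / a) (p₂ := X ω ^ t / b) (by linarith) h0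
      (div_nonneg (Real.rpow_nonneg (hX ω).le _) hp1.le)
      (div_nonneg (Real.rpow_nonneg (hX ω).le _) hp2.le) (by ring)
    rw [Real.div_rpow (Real.rpow_nonneg (hX ω).le _) hp1.le,
      Real.div_rpow (Real.rpow_nonneg (hX ω).le _) hp2.le, ← Real.rpow_mul (hX ω).le,
      ← Real.rpow_mul (hX ω).le, div_mul_div_comm, ← Real.rpow_add (hX ω),
      div_le_iff₀ (by positivity)] at h3
    rw [show (1 - θ) * s + θ * t = s * (1 - θ) + t * θ by ring]
    linarith
  calc ∫ ω, X ω ^ ((1 - θ) * s + θ * t) ∂μ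
      ≤ ∫ ω, (a ^ (1 - θ) * b ^ θ) * ((1 - θ) * (X ω ^ s / a) + θ * (X ω ^ t / b)) ∂μ :=
        integral_mono hi3 ((((hi1.div_const a).const_mul _).add
          ((hi2.div_const b).const_mul _)).const_mul _) hpt
    _ = a ^ (1 - θ) * b ^ θ := by
        rw [integral_const_mul, integral_add ((hi1.div_const a).const_mul _)
          ((hi2.div_const b).const_mul _), integral_const_mul, integral_const_mul,
          integral_div, integral_div, ← ha, ← hb, div_self hp1.ne', div_self hp2.ne']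
        ring

end Crest.Agent.R158.Wf850
end
end

-- ▼ part R158/Wf8_850
section

/-!
# Row 158, BLOCK W (helper850), part 8: F3, the inequality at fixed scales

* `lin3`, `core3`
-/

set_option autoImplicit false

noncomputable section

namespace Crest.Agent.R158.Wf850

open Real Finset MeasureTheory Filter Topology
open Crest.Agent.R161.Geo729 Crest.Agent.R161.Dual374 Crest.Agent.R161.Tas682
open Crest.Agent.R158.Fr158 (bx mem_bx mem_bx_sd eIn mem_eIn)
open Crest.Agent.R158.Rs689 (nu hf PB Dep ArmX arm_half)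
open Crest.Agent.R158.It200 (Cfz Corner fc fc_zero)
open Crest.Agent.R158.We297 (ff kap)
open Crest.Agent.R158.Cn109 (DepF lsW SS QQ smalls mem_smalls SS_eq VV VV_inc VV_diff VV_mono
  integral_mul_indep)
open Crest.Agent.R158.Vx107 (mass W Ntr Fw tot)
open Crest.Agent.R158.Hd109 (Dens hoelder_exp rev_hoelder)

variable {us ws : ℕ → Face →₀ ℝ}

/-- the exponent of the three-blob system -/
theorem lin3 : ∃ C : ℝ, 0 ≤ C ∧ ∀ (b : ℝ) (K L r : ℕ), 0 ≤ b → 2 ≤ K → 6 ≤ L → 2 ≤ r →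
    √3 * (-2 * b) * DD (K, r) ≤ -lin 2 (c3 b) (k3 K L r) + b * C * (Nat.log 2 L + 1) := by
  obtain ⟨C, hC, h⟩ := VV_diff
  refine ⟨√3 * C, by positivity, fun b K L r hb hK hL hr => ?_⟩
  obtain ⟨hKr, hK1, hP, hP6⟩ := size3 hK hL hr
  have m1 := VV_mono (show Nat.log 2 (K * r) - 1 ≤ Nat.log 2 (K * r) by omega)
  have hQ : Nat.log 2 ((K + 1) * L * r) ≤ Nat.log 2 (K * r) + Nat.log 2 L + 2 := by
    have p1 := Nat.lt_pow_succ_log_self (b := 2) (by norm_num) (K * r)
    have p2 := Nat.lt_pow_succ_log_self (b := 2) (by norm_num) L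
    have h1 : (K + 1) * L * r ≤ 2 * (L * (K * r)) := by
      have : (K + 1) * L * r ≤ (2 * K) * L * r :=
        Nat.mul_le_mul_right _ (Nat.mul_le_mul_right _ (by omega))
      calc (K + 1) * L * r ≤ (2 * K) * L * r := this
        _ = 2 * (L * (K * r)) := by ring
    have h2 : L * (K * r) < 2 ^ (Nat.log 2 L).succ * 2 ^ (Nat.log 2 (K * r)).succ :=
      Nat.mul_lt_mul'' p2 p1
    have h3 : (K + 1) * L * r < 2 ^ (Nat.log 2 (K * r) + Nat.log 2 L + 3) := by
      calc (K + 1) * L * r ≤ 2 * (L * (K * r)) := h1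
        _ < 2 * (2 ^ (Nat.log 2 L).succ * 2 ^ (Nat.log 2 (K * r)).succ) := by omega
        _ = 2 ^ (Nat.log 2 (K * r) + Nat.log 2 L + 3) := by
            rw [Nat.succ_eq_add_one, Nat.succ_eq_add_one]; ring
    have := Nat.log_lt_of_lt_pow (b := 2) (by omega) h3
    omega
  have hV : VV (Nat.log 2 ((K + 1) * L * r) - 1) - VV (Nat.log 2 (K * r)) ≤
      C * (Nat.log 2 L + 1) := by
    have h1 := h (Nat.log 2 (K * r)) (Nat.log 2 L + 1)
    have h2 := VV_mono (show Nat.log 2 ((K + 1) * L * r) - 1 ≤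
      Nat.log 2 (K * r) + (Nat.log 2 L + 1) by omega)
    have h3 := h1.2
    push_cast at h3
    linarith
  unfold lin
  rw [Finset.sum_range_succ, Finset.sum_range_succ, Finset.sum_range_one]
  simp only [c3, k3, DD, if_true, one_ne_zero, if_false, Nat.one_le_ofNat, two_ne_zero, le_refl,
    OfNat.ofNat_ne_one]
  have e1 : √3 * b * (VV (Nat.log 2 ((K + 1) * L * r) - 1) - VV (Nat.log 2 (K * r))) ≤
      √3 * b * (C * (Nat.log 2 L + 1)) := mul_le_mul_of_nonneg_left hV (by positivity)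
  have e2 : √3 * b * (VV (Nat.log 2 (K * r) - 1) - VV (Nat.log 2 (K * r))) ≤ 0 :=
    mul_nonpos_of_nonneg_of_nonpos (by positivity) (by linarith)
  linarith

/-- probability of an arm between the rings -/
def PA (K L r : ℕ) : ℝ := (nu hf).real (AA (s3 K L r 1) (t3 K L r 2 + 1))

theorem pa_nonneg (K L r : ℕ) : 0 ≤ PA K L r := measureReal_nonneg

theorem pa_le_one (K L r : ℕ) : PA K L r ≤ 1 := measureReal_le_one

theorem pa_le : ∃ C a : ℝ, 0 < C ∧ 0 < a ∧ ∀ K L r : ℕ, 2 ≤ K → 6 ≤ L → 2 ≤ r →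
    PA K L r ≤ C * (1 / (L : ℝ)) ^ a := by
  obtain ⟨C, a, hC, ha, h⟩ := aa_prob
  refine ⟨C * 8 ^ a, a, by positivity, ha, fun K L r hK hL hr => ?_⟩
  obtain ⟨hKr, hK1, hP, hP6⟩ := size3 hK hL hr
  have e1 : s3 K L r 1 = ((2 * ((K + 1) * r) : ℕ) : ℤ) := by
    show 2 * (((K + 1) * r : ℕ) : ℤ) = _
    push_cast; ring
  have e2 : t3 K L r 2 + 1 = ((((K + 1) * L * r) / 2 : ℕ) : ℤ) := by
    show (((K + 1) * L * r : ℕ) : ℤ) / 2 - 1 + 1 = _
    generalize (K + 1) * L * r = Q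
    omega
  have h1 := h (2 * ((K + 1) * r)) (((K + 1) * L * r) / 2) (by omega) (by omega)
  unfold PA
  rw [e1, e2]
  refine h1.trans ?_
  rw [mul_assoc C]
  refine mul_le_mul_of_nonneg_left ?_ hC.le
  rw [← Real.mul_rpow (by norm_num) (by positivity)]
  refine Real.rpow_le_rpow (by positivity) ?_ ha.le
  set P := (K + 1) * r with hPdef
  have hQ : (K + 1) * L * r = L * P := by rw [hPdef]; ring
  rw [hQ]
  have hP0 : (0 : ℝ) < P := by exact_mod_cast (by omega : 0 < P)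
  have hL0 : (0 : ℝ) < L := by exact_mod_cast (by omega : 0 < L)
  have h2 : L * P ≤ 4 * (L * P / 2) := by
    have : 2 ≤ L * P := by nlinarith
    omega
  have h3 : (L : ℝ) * P ≤ 4 * ((L * P / 2 : ℕ) : ℝ) := by exact_mod_cast h2
  have h4 : 0 < ((L * P / 2 : ℕ) : ℝ) := by nlinarith [mul_pos hL0 hP0]
  rw [div_le_iff₀ h4]
  have e3 : 8 * (1 / (L : ℝ)) * ((L * P / 2 : ℕ) : ℝ) = 2 * (4 * ((L * P / 2 : ℕ) : ℝ)) / L := by
    ring
  rw [e3, le_div_iff₀ hL0]
  push_cast at h3 ⊢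
  nlinarith

theorem ff_pos_of {b : ℝ} (hb : 0 < b) (hb' : b < π / 6) : 1 < ff (-2 * b) ∧ 1 < ff (-b) := by
  have hpi := Real.pi_pos
  have key : ∀ t : ℝ, 0 ≤ t → t < π / 3 → 1 < 2 * Real.cos t := by
    intro t h0 h1
    have := Real.cos_lt_cos_of_nonneg_of_le_pi_div_two h0 (by linarith) h1
    rw [Real.cos_pi_div_three] at this
    linarith
  unfold ff We297.lam
  exact ⟨key _ (by linarith) (by linarith), key _ (by linarith) (by linarith)⟩

/-- disjointness of the supports -/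
theorem disj3 {K L r : ℕ} (hK : 2 ≤ K) (hL : 6 ≤ L) (hr : 2 ≤ r) :
    Disjoint (annF (0, 0) (r : ℤ) ((K * r / 2 : ℕ) : ℤ)) (aE (s3 K L r 1) (t3 K L r 2 + 1)) := by
  obtain ⟨hKr, hK1, hP, hP6⟩ := size3 hK hL hr
  rw [Finset.disjoint_left]
  intro e he he'
  unfold annF at he
  unfold aE at he'
  rw [Finset.mem_sdiff] at he he'
  refine he'.2 ?_
  have h1 := he.1
  rw [mem_eIn, mem_bx_sd, mem_bx_sd] at h1 ⊢
  have h2 : ((K * r / 2 : ℕ) : ℤ) + 2 ≤ s3 K L r 1 := by
    show _ ≤ 2 * (((K + 1) * r : ℕ) : ℤ)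
    omega
  exact ⟨h1.1.trans h2, h1.2.trans h2⟩

/-- **the inequality at fixed scales** -/
theorem core3 (B : Blobs us ws) {b : ℝ} (hb : 0 < b) (hb' : b < π / 6) {p : ℝ} (hp : 1 < p)
    (hp2 : p ≤ 2) : ∃ G : ℝ, 1 ≤ G ∧ ∀ K L r : ℕ, 2 ≤ K → 6 ≤ L → 2 ≤ r →
      (MM (K, r) ((ff (-2 * b)) ^ (1 / p)) * (1 - PA K L r)) ^ p ≤
        G * (exp (lin 2 (c3 b) (k3 K L r)) * ∫ z, W (mm 2 (c3 b) (u3 us ws K L r)) z ∂(nu hf) +
          G * ((MM (K, r) ((ff (-2 * b)) ^ p)) ^ (1 / p) * (PA K L r) ^ (1 / p))) := by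
  classical
  have hp0 : 0 < p := by linarith
  have hp1 : 0 < p - 1 := by linarith
  have hpi := Real.pi_pos
  set q := p / (p - 1) with hq
  have hq0 : 0 ≤ q := by positivity
  have hqle : 1 / (p - 1) ≤ q := by
    rw [hq]; exact div_le_div_of_nonneg_right (by linarith) hp1.le
  obtain ⟨C', hC', hlow⟩ := ff_lower (lo := -2 * b) (hi := b) (by linarith) hb'
  obtain ⟨G, hG, hsys⟩ := sys_bd 2 (C := 1) zero_le_one 16 (c3 b) (sum_c3 b) (C' := C') hC' hq0
  obtain ⟨hx, hx1⟩ := ff_pos_of hb hb'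
  refine ⟨G, hG, fun K L r hK hL hr => ?_⟩
  have H := sys3 B hK hL hr
  obtain ⟨S, E, hE1, hE2, hE3, hE4, hE5⟩ := hsys _ _ _ _ H
  have hWi := Vx107.integrable_W (ntr_mm H (sum_c3 b)) (nu hf)
  set x := ff (-2 * b) with hxdef
  have hx0 : 0 < x := by linarith
  have hd := n0_dep K r
  set S1 := annF (0, 0) (r : ℤ) ((K * r / 2 : ℕ) : ℤ) with hS1
  set S2 := aE (s3 K L r 1) (t3 K L r 2 + 1) with hS2
  set w : Cfz → ℝ := W (mm 2 (c3 b) (u3 us ws K L r)) with hw
  set l := lin 2 (c3 b) (k3 K L r) with hl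
  set h : Cfz → ℝ := fun z => if z ∈ AA (s3 K L r 1) (t3 K L r 2 + 1) then 1 else 0 with hh
  have hhd : DepF S2 h := by
    intro z z' hz
    have := aa_dep (s3 K L r 1) (t3 K L r 2 + 1) z z' hz
    simp only [hh]
    by_cases h1 : z ∈ AA (s3 K L r 1) (t3 K L r 2 + 1)
    · rw [if_pos h1, if_pos (this.1 h1)]
    · rw [if_neg h1, if_neg (fun h2 => h1 (this.2 h2))]
  have hh01 : ∀ z, h z = 0 ∨ h z = 1 := by
    intro z; simp only [hh]; split_ifs <;> simp
  have hhint : ∫ z, h z ∂(nu hf) = PA K L r := by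
    have e : h = Set.indicator (AA (s3 K L r 1) (t3 K L r 2 + 1)) (fun _ => (1 : ℝ)) := by
      funext z; simp only [hh, Set.indicator]
    rw [e, integral_indicator (aa_dep _ _).measurableSet]
    simp [PA]
  set X : Cfz → ℝ := fun z => x ^ N0 K r z with hX
  have hXd : DepF S1 X := hd.comp fun n => x ^ n
  have hX0 : ∀ z, 0 < X z := fun z => pow_pos hx0 _
  -- product of the weights of the special loops
  have eprod : ∀ (f : ℝ → ℝ) z, ∏ j ∈ range 2, f (ff (cs (c3 b) j)) ^ NN (0, 0) (s3 K L r j)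
      (t3 K L r (j + 1)) z = f x ^ N0 K r z * f (ff (-b)) ^ NN (0, 0) (s3 K L r 1) (t3 K L r 2) z := by
    intro f z
    rw [Finset.prod_range_succ, Finset.prod_range_one, (cs_c3 b).1, (cs_c3 b).2]
    rfl
  have hs1 : 0 ≤ s3 K L r 1 := by
    show 0 ≤ 2 * (((K + 1) * r : ℕ) : ℤ)
    positivity
  have hst : s3 K L r 1 < t3 K L r 2 + 1 := by
    obtain ⟨hKr, hK1, hP, hP6⟩ := size3 hK hL hr
    show 2 * (((K + 1) * r : ℕ) : ℤ) < (((K + 1) * L * r : ℕ) : ℤ) / 2 - 1 + 1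
    generalize (K + 1) * L * r = Q at *
    omega
  -- lower bound when no loop crosses
  have hlowG : ∀ z, NoX K L r z → X z * exp (-l - E z) ≤ w z := by
    intro z hz
    have h1 := hE5 z ?_ ?_
    · have h2 := eprod id z
      simp only [id] at h2
      rw [h2] at h1
      refine le_trans ?_ h1
      refine mul_le_mul_of_nonneg_right ?_ (exp_pos _).le
      exact le_mul_of_one_le_right (pow_pos hx0 _).le (one_le_pow₀ hx1.le)
    · intro j hj
      obtain rfl | rfl : j = 0 ∨ j = 1 := by omega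
      · rw [(cs_c3 b).1]; exact hx0.le
      · rw [(cs_c3 b).2]; linarith
    · intro A hA
      rw [mem_rst] at hA
      have h1 := mass3 B hK hL hr hb.le hz hA.1.1
      exact hlow _ h1.1 h1.2
  -- upper bound when some loop crosses
  have hupG : ∀ z, ¬ NoX K L r z → |w z| ≤ X z * exp (-l + E z) := by
    intro z hz
    have h1 := hE4 z
    have h2 := eprod (fun y => |y|) z
    rw [h2, nn_zero hz, pow_zero, mul_one, abs_of_pos hx0] at h1
    exact h1
  have hpt : ∀ z, exp (-l) * (X z * (1 - h z) * exp (-E z)) -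
      exp (-l) * (X z * h z * exp (E z)) ≤ w z := by
    intro z
    rcases hh01 z with h0 | h0
    · rw [h0]
      have hz : NoX K L r z := by
        by_contra hcon
        have h1 := aa_of_cross hcon hst
        simp only [hh, if_pos h1] at h0
        exact one_ne_zero h0
      refine le_trans (le_of_eq ?_) (hlowG z hz)
      rw [sub_eq_add_neg (-l) (E z), Real.exp_add]
      ring
    · rw [h0]
      have e1 : exp (-l) * (X z * (1 - 1) * exp (-E z)) - exp (-l) * (X z * 1 * exp (E z)) =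
          -(X z * exp (-l + E z)) := by
        rw [Real.exp_add]; ring
      rw [e1]
      by_cases hz : NoX K L r z
      · have h1 := hlowG z hz
        have h2 : 0 ≤ X z * exp (-l - E z) := by have := hX0 z; positivity
        have h3 : 0 ≤ X z * exp (-l + E z) := by have := hX0 z; positivity
        linarith
      · exact (abs_le.1 (hupG z hz)).1
  -- integrability
  set T := S1 ∪ S2 ∪ S with hT
  have dX : DepF T X := hXd.mono fun e he => by simp [hT, he]
  have dh : DepF T h := hhd.mono fun e he => by simp [hT, he]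
  have dE : DepF T E := hE1.mono fun e he => by simp [hT, he]
  have d1 : DepF T (fun z => X z * (1 - h z)) := dX.mul (dh.comp fun y => 1 - y)
  have d2 : DepF T (fun z => X z * h z) := dX.mul dh
  have i1 : Integrable (fun z => X z * (1 - h z) * exp (-E z)) (nu hf) :=
    (d1.mul (dE.comp fun y => exp (-y))).integrable _
  have i2 : Integrable (fun z => X z * h z * exp (E z)) (nu hf) :=
    (d2.mul (dE.comp fun y => exp y)).integrable _
  have hI : exp (-l) * ∫ z, X z * (1 - h z) * exp (-E z) ∂(nu hf) -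
      exp (-l) * ∫ z, X z * h z * exp (E z) ∂(nu hf) ≤ ∫ z, w z ∂(nu hf) := by
    rw [← integral_const_mul, ← integral_const_mul, ← integral_sub (i1.const_mul _) (i2.const_mul _)]
    exact integral_mono ((i1.const_mul _).sub (i2.const_mul _)) hWi hpt
  have hI2 : ∫ z, X z * (1 - h z) * exp (-E z) ∂(nu hf) ≤
      exp l * ∫ z, w z ∂(nu hf) + ∫ z, X z * h z * exp (E z) ∂(nu hf) := by
    have h1 : exp l * exp (-l) = 1 := by rw [← Real.exp_add]; simp
    have h2 := mul_le_mul_of_nonneg_left hI (exp_pos l).le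
    rw [mul_sub, ← mul_assoc, ← mul_assoc, h1, one_mul, one_mul] at h2
    linarith
  -- reverse Hölder
  have hrev := rev_hoelder (μ := nu hf) hp (Y := fun z => X z * (1 - h z)) (L := E)
    (fun z => by
      have := hX0 z
      rcases hh01 z with h0 | h0 <;> rw [h0] <;> simp [this.le])
    d1.measurable.aestronglyMeasurable hE1.measurable.aestronglyMeasurable i1
    ((hE1.comp fun y => exp (y / (p - 1))).integrable _)
  have e1 : (∫ z, (X z * (1 - h z)) ^ (1 / p) ∂(nu hf)) =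
      MM (K, r) (x ^ (1 / p)) * (1 - PA K L r) := by
    have e2 : ∀ z, (X z * (1 - h z)) ^ (1 / p) = (x ^ (1 / p)) ^ N0 K r z * (1 - h z) := by
      intro z
      rcases hh01 z with h0 | h0 <;> rw [h0]
      · rw [sub_zero, mul_one, mul_one]
        exact rpow_pow_comm hx0.le (1 / p) _
      · rw [sub_self, mul_zero, mul_zero, Real.zero_rpow (by positivity)]
    simp only [e2]
    have e3 := integral_mul_indep (fun _ => hf) (disj3 hK hL hr)
      (f := fun z => (x ^ (1 / p)) ^ N0 K r z) (g := fun z => 1 - h z)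
      (hd.comp fun n => (x ^ (1 / p)) ^ n) (hhd.comp fun y => 1 - y)
    have e4 : ∫ z, (1 - h z) ∂(nu hf) = 1 - PA K L r := by
      have hi : Integrable h (nu hf) := hhd.integrable _
      rw [integral_sub (integrable_const 1) hi, hhint]
      simp
    have e5 : (∫ z, (x ^ (1 / p)) ^ N0 K r z * (1 - h z) ∂(nu hf)) =
        (∫ z, (x ^ (1 / p)) ^ N0 K r z ∂(nu hf)) * ∫ z, (1 - h z) ∂(nu hf) := e3
    rw [e5, e4]
    rfl
  rw [e1] at hrev
  have hG1 : (∫ z, exp (E z / (p - 1)) ∂(nu hf)) ^ (p - 1) ≤ G := by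
    have h1 : ∫ z, exp (E z / (p - 1)) ∂(nu hf) ≤ G := by
      refine le_trans (integral_mono ((hE1.comp fun y => exp (y / (p - 1))).integrable _)
        ((hE1.comp fun y => exp (q * y)).integrable _) fun z => ?_) hE3
      apply exp_le_exp.2
      have := mul_le_mul_of_nonneg_right hqle (hE2 z)
      calc E z / (p - 1) = 1 / (p - 1) * E z := by ring
        _ ≤ q * E z := this
    calc (∫ z, exp (E z / (p - 1)) ∂(nu hf)) ^ (p - 1) ≤ G ^ (p - 1) :=
          Real.rpow_le_rpow (integral_nonneg fun z => (exp_pos _).le) h1 hp1.le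
      _ ≤ G ^ (1 : ℝ) := Real.rpow_le_rpow_of_exponent_le hG (by linarith)
      _ = G := Real.rpow_one G
  -- Hölder
  have hho := hoelder_exp (μ := nu hf) hp (Y := fun z => X z * h z) (L := E)
    (fun z => by
      have := hX0 z
      rcases hh01 z with h0 | h0 <;> rw [h0] <;> simp [this.le])
    d2.measurable.aestronglyMeasurable hE1.measurable.aestronglyMeasurable
    ((d2.comp fun y => y ^ p).integrable _) ((hE1.comp fun y => exp (p / (p - 1) * y)).integrable _)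
  have e6 : (∫ z, (X z * h z) ^ p ∂(nu hf)) = MM (K, r) (x ^ p) * PA K L r := by
    have e2 : ∀ z, (X z * h z) ^ p = (x ^ p) ^ N0 K r z * h z := by
      intro z
      rcases hh01 z with h0 | h0 <;> rw [h0]
      · rw [mul_zero, mul_zero, Real.zero_rpow hp0.ne']
      · rw [mul_one, mul_one]
        exact rpow_pow_comm hx0.le p _
    simp only [e2]
    have e3 := integral_mul_indep (fun _ => hf) (disj3 hK hL hr)
      (f := fun z => (x ^ p) ^ N0 K r z) (g := h) (hd.comp fun n => (x ^ p) ^ n) hhd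
    have e5 : (∫ z, (x ^ p) ^ N0 K r z * h z ∂(nu hf)) =
        (∫ z, (x ^ p) ^ N0 K r z ∂(nu hf)) * ∫ z, h z ∂(nu hf) := e3
    rw [e5, hhint]
    rfl
  rw [e6] at hho
  have hM0 : 0 ≤ MM (K, r) (x ^ p) := integral_nonneg fun z => pow_nonneg (Real.rpow_nonneg hx0.le _) _
  rw [Real.mul_rpow hM0 (pa_nonneg K L r)] at hho
  have hG2 : (∫ z, exp (p / (p - 1) * E z) ∂(nu hf)) ^ ((p - 1) / p) ≤ G := by
    calc (∫ z, exp (p / (p - 1) * E z) ∂(nu hf)) ^ ((p - 1) / p) ≤ G ^ ((p - 1) / p) :=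
          Real.rpow_le_rpow (integral_nonneg fun z => (exp_pos _).le) hE3 (by positivity)
      _ ≤ G ^ (1 : ℝ) := Real.rpow_le_rpow_of_exponent_le hG (by
          rw [div_le_one hp0]; linarith)
      _ = G := Real.rpow_one G
  have hpa := pa_nonneg K L r
  have hI0 : 0 ≤ ∫ z, X z * (1 - h z) * exp (-E z) ∂(nu hf) := by
    refine integral_nonneg fun z => ?_
    have := hX0 z
    rcases hh01 z with h0 | h0
    · simp only [h0]; positivity
    · simp only [h0]; simp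
  calc (MM (K, r) (x ^ (1 / p)) * (1 - PA K L r)) ^ p
      ≤ (∫ z, X z * (1 - h z) * exp (-E z) ∂(nu hf)) * G :=
        hrev.trans (mul_le_mul_of_nonneg_left hG1 hI0)
    _ ≤ (exp l * ∫ z, w z ∂(nu hf) + ∫ z, X z * h z * exp (E z) ∂(nu hf)) * G :=
        mul_le_mul_of_nonneg_right hI2 (by linarith)
    _ ≤ (exp l * ∫ z, w z ∂(nu hf) +
          (MM (K, r) (x ^ p)) ^ (1 / p) * (PA K L r) ^ (1 / p) * G) * G := by
        refine mul_le_mul_of_nonneg_right ?_ (by linarith)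
        refine add_le_add le_rfl (hho.trans (mul_le_mul_of_nonneg_left hG2 ?_))
        positivity
    _ = _ := by ring

end Crest.Agent.R158.Wf850
end
end

-- ▼ part R158/Wf9_850

/-!
# Row 158, BLOCK W (helper850), part 9: F3 and the instance of `We297.Hyp`

* `hF3` : the field F3
* `hyp_main (hLaw) : We297.Hyp (curry atTop atTop) (fun i => log i.1) DD MM`
-/

set_option autoImplicit false

noncomputable section

namespace Crest.Agent.R158.Wf850

open Real Finset MeasureTheory Filter Topology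
open Crest.Agent.R158.Rs689 (nu hf PB Dep)
open Crest.Agent.R158.It200 (Cfz)
open Crest.Agent.R158.We297 (ff kap)
open Crest.Agent.R158.Cn109 (DepF VV)
open Crest.Agent.R158.Vx107 (mass W Ntr Fw tot)

variable {us ws : ℕ → Face →₀ ℝ}

theorem mm_one_le {K r : ℕ} {y : ℝ} (hy : 1 ≤ y) : 1 ≤ MM (K, r) y := by
  unfold MM
  have h1 : ∫ z, (1 : ℝ) ∂(nu hf) ≤ ∫ z, y ^ N0 K r z ∂(nu hf) :=
    integral_mono (integrable_const 1) (((n0_dep K r).comp fun n => y ^ n).integrable _)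
      fun z => one_le_pow₀ hy
  simpa using h1

/-- a priori bound of the generating function -/
theorem mm_apriori {x : ℝ} (hx : 1 ≤ x) : ∃ C : ℝ, 1 ≤ C ∧ ∀ K r : ℕ, 2 ≤ K → 2 ≤ r →
    MM (K, r) (x ^ (2 : ℝ)) ≤ C * (K : ℝ) ^ C := by
  have hx0 : 0 < x := by linarith
  obtain ⟨C, hC, h⟩ := Lc522.apriori_pow (2 * log x) (by have := Real.log_nonneg hx; linarith)
  refine ⟨C, hC, fun K r hK hr => ?_⟩
  have hKr : 2 * r ≤ K * r := Nat.mul_le_mul_right r hK
  have h1 := h (0, 0) r (K * r / 2) (by omega) (by omega)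
  have hr0 : (0 : ℝ) < r := by exact_mod_cast (by omega : 0 < r)
  have e : MM (K, r) (x ^ (2 : ℝ)) =
      ∫ z, exp (2 * log x * NN (0, 0) (r : ℤ) ((K * r / 2 : ℕ) : ℤ) z) ∂(nu hf) := by
    unfold MM
    refine integral_congr_ae (Filter.Eventually.of_forall fun z => ?_)
    show (x ^ (2 : ℝ)) ^ N0 K r z = exp (2 * log x * N0 K r z)
    rw [← Real.rpow_natCast, ← Real.rpow_mul hx0.le, Real.rpow_def_of_pos hx0]
    congr 1
    ring
  rw [e]
  refine h1.trans (mul_le_mul_of_nonneg_left ?_ (by linarith))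
  refine Real.rpow_le_rpow (by positivity) ?_ (by linarith)
  rw [div_le_iff₀ hr0]
  have h2 : ((K * r / 2 : ℕ) : ℝ) ≤ ((K * r : ℕ) : ℝ) := by
    exact_mod_cast Nat.div_le_self _ _
  push_cast at h2
  exact h2

/-- interpolation of the generating function -/
theorem mm_interp {x : ℝ} (hx : 1 ≤ x) {K r : ℕ} {p B : ℝ} (hp : 1 < p) (hp2 : p ≤ 2)
    (hB : 1 ≤ B) (h2 : MM (K, r) (x ^ (2 : ℝ)) ≤ B) :
    (MM (K, r) (x ^ p)) ^ (1 / p) ≤ MM (K, r) (x ^ (1 / p)) * B ^ (2 * (p - 1)) := by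
  have hx0 : 0 < x := by linarith
  have hp0 : 0 < p := by linarith
  set θ := (p ^ 2 - 1) / (2 * p - 1) with hθ
  have hden : 0 < 2 * p - 1 := by linarith
  have h0 : 0 ≤ θ := div_nonneg (by nlinarith) hden.le
  have hθ2 : θ ≤ 2 * (p - 1) := by
    rw [hθ, div_le_iff₀ hden]; nlinarith
  have h1 : θ ≤ 1 := by
    rw [hθ, div_le_one hden]; nlinarith
  have e : (1 - θ) * (1 / p) + θ * 2 = p := by
    have hd' : 2 * p - 1 ≠ 0 := hden.ne'
    have h3 : θ * (2 * p - 1) = p ^ 2 - 1 := by rw [hθ, div_mul_cancel₀ _ hd']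
    have h4 : ((1 - θ) * (1 / p) + θ * 2) * p = p * p := by
      have : (1 - θ) * (1 / p) * p = 1 - θ := by field_simp
      nlinarith
    exact mul_right_cancel₀ hp0.ne' h4
  have hpw : ∀ (s : ℝ) z, (x ^ N0 K r z) ^ s = (x ^ s) ^ N0 K r z := fun s z =>
    rpow_pow_comm hx0.le s _
  have hint : ∀ s : ℝ, Integrable (fun z => (x ^ N0 K r z) ^ s) (nu hf) := fun s =>
    ((n0_dep K r).comp fun n => (x ^ n) ^ s).integrable _
  have hMM : ∀ s : ℝ, ∫ z, (x ^ N0 K r z) ^ s ∂(nu hf) = MM (K, r) (x ^ s) := by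
    intro s
    unfold MM
    exact integral_congr_ae (Filter.Eventually.of_forall fun z => hpw s z)
  have hge : ∀ s : ℝ, 0 ≤ s → 1 ≤ MM (K, r) (x ^ s) := fun s hs =>
    mm_one_le (Real.one_le_rpow hx hs)
  have g1 := hge (1 / p) (by positivity)
  have g2 := hge 2 (by norm_num)
  have gp := hge p hp0.le
  have hi := interp (μ := nu hf) (X := fun z => x ^ N0 K r z) (s := 1 / p) (t := 2) (θ := θ)
    (fun z => pow_pos hx0 _) h0 h1 (hint _) (hint _) (by rw [e]; exact hint _)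
    (by rw [hMM]; linarith) (by rw [hMM]; linarith)
  rw [e, hMM, hMM, hMM] at hi
  calc (MM (K, r) (x ^ p)) ^ (1 / p) ≤ (MM (K, r) (x ^ p)) ^ (1 : ℝ) :=
        Real.rpow_le_rpow_of_exponent_le gp (by rw [div_le_one hp0]; linarith)
    _ = MM (K, r) (x ^ p) := Real.rpow_one _
    _ ≤ (MM (K, r) (x ^ (1 / p))) ^ (1 - θ) * (MM (K, r) (x ^ (2 : ℝ))) ^ θ := hi
    _ ≤ MM (K, r) (x ^ (1 / p)) * B ^ (2 * (p - 1)) := by
        refine mul_le_mul ?_ ?_ (Real.rpow_nonneg (by linarith) _) (by linarith)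
        · calc (MM (K, r) (x ^ (1 / p))) ^ (1 - θ) ≤ (MM (K, r) (x ^ (1 / p))) ^ (1 : ℝ) :=
              Real.rpow_le_rpow_of_exponent_le g1 (by linarith)
            _ = _ := Real.rpow_one _
        · calc (MM (K, r) (x ^ (2 : ℝ))) ^ θ ≤ B ^ θ :=
              Real.rpow_le_rpow (by linarith) h2 h0
            _ ≤ B ^ (2 * (p - 1)) := Real.rpow_le_rpow_of_exponent_le hB hθ2

theorem nlog_le {L : ℕ} (hL : 1 ≤ L) : (Nat.log 2 L : ℝ) ≤ 2 * log L := by
  have h1 := Nat.pow_log_le_self 2 (x := L) (by omega)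
  have h2 : (2 : ℝ) ^ Nat.log 2 L ≤ L := by exact_mod_cast h1
  have h3 := Real.log_le_log (by positivity) h2
  rw [Real.log_pow] at h3
  have h4 := Real.log_two_gt_d9
  have h5 : (0 : ℝ) ≤ Nat.log 2 L := Nat.cast_nonneg _
  nlinarith

/-- the ratio of the two rings -/
def Lf (τ : ℝ) (K : ℕ) : ℕ := ⌈(K : ℝ) ^ τ⌉₊ + 6

theorem lf_bds {τ : ℝ} (hτ : 0 < τ) {K : ℕ} (hK : 1 ≤ K) :
    6 ≤ Lf τ K ∧ (K : ℝ) ^ τ ≤ Lf τ K ∧ (Lf τ K : ℝ) ≤ 8 * (K : ℝ) ^ τ := by
  have hK' : (1 : ℝ) ≤ K := by exact_mod_cast hK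
  have h1 : (1 : ℝ) ≤ (K : ℝ) ^ τ := Real.one_le_rpow hK' hτ.le
  have h2 := Nat.le_ceil ((K : ℝ) ^ τ)
  have h3 := Nat.ceil_lt_add_one (a := (K : ℝ) ^ τ) (by linarith)
  unfold Lf
  refine ⟨by omega, ?_, ?_⟩
  · push_cast; linarith
  · push_cast; linarith

set_option maxHeartbeats 1000000 in
/-- **F3** -/
theorem hF3 (B : Blobs us ws) (a : ℝ) (ha1 : -(π / 3) < a) (ha2 : a < 0) {e : ℝ} (he : 0 < e) :
    ∃ p0 : ℝ, 1 < p0 ∧ ∀ p : ℝ, 1 < p → p < p0 →
      ∀ᶠ i in Filter.curry (atTop : Filter ℕ) (atTop : Filter ℕ),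
        exp (√3 * a * DD i) * (MM i ((ff a) ^ (1 / p))) ^ p ≤
          exp ((-(kap * a ^ 2 / 2) + e) * log i.1) := by
  obtain ⟨b, rfl⟩ : ∃ b, a = -2 * b := ⟨-a / 2, by ring⟩
  have hb : 0 < b := by linarith
  have hb' : b < π / 6 := by linarith
  have hx := (ff_pos_of hb hb').1
  set x := ff (-2 * b) with hxdef
  obtain ⟨Cl, hCl, hlin⟩ := lin3
  obtain ⟨Cg, hCg, hg⟩ := mm_apriori hx.le
  obtain ⟨Ca, α, hCa, hα, hpa⟩ := pa_le
  obtain ⟨Cs, hCs, hs⟩ := B.star3 b
  set θ := 2 * (b * Cl) with hθ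
  have hθ0 : 0 ≤ θ := by positivity
  set τ := e / (4 * (θ + 1)) with hτ
  have hτ0 : 0 < τ := by positivity
  have hθτ : θ * τ ≤ e / 4 := by
    rw [hτ, mul_div_assoc', div_le_div_iff₀ (by positivity) (by norm_num)]
    nlinarith
  set c1 := b * Cl * (2 * log 8 + 1) with hc1
  refine ⟨1 + min 1 (α * τ / (8 * Cg)), by
    have : 0 < min 1 (α * τ / (8 * Cg)) := lt_min one_pos (by positivity)
    linarith, fun p hp hpp => ?_⟩
  have hp2 : p ≤ 2 := by have := min_le_left 1 (α * τ / (8 * Cg)); linarith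
  have hp3 : 2 * Cg * (p - 1) ≤ α * τ / 4 := by
    have h1 : p - 1 ≤ α * τ / (8 * Cg) := by
      have := min_le_right 1 (α * τ / (8 * Cg)); linarith
    calc 2 * Cg * (p - 1) ≤ 2 * Cg * (α * τ / (8 * Cg)) :=
          mul_le_mul_of_nonneg_left h1 (by linarith)
      _ = α * τ / 4 := by field_simp; ring
  have hp0 : 0 < p := by linarith
  obtain ⟨G, hG, hcore⟩ := core3 B hb hb' hp hp2
  set D1 := G ^ 2 * (Cg ^ (2 * (p - 1)) * Ca ^ (1 / 2 : ℝ)) with hD1
  -- eventual inequalities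
  have t0 : Tendsto (fun K : ℕ => (K : ℝ)) atTop atTop := tendsto_natCast_atTop_atTop
  have t1 : Tendsto (fun K : ℕ => Ca * (K : ℝ) ^ (-(τ * α))) atTop (𝓝 (Ca * 0)) :=
    ((tendsto_rpow_neg_atTop (by positivity)).comp t0).const_mul Ca
  have t2 : Tendsto (fun K : ℕ => D1 * (K : ℝ) ^ (-(α * τ / 4))) atTop (𝓝 (D1 * 0)) :=
    ((tendsto_rpow_neg_atTop (by positivity)).comp t0).const_mul D1
  have t3 : Tendsto (fun K : ℕ => (K : ℝ) ^ (3 * e / 4)) atTop atTop :=
    (tendsto_rpow_atTop (by positivity)).comp t0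
  rw [mul_zero] at t1 t2
  have ev1 := t1.eventually (gt_mem_nhds (show (0 : ℝ) < 1 / 2 by norm_num))
  have ev2 := t2.eventually (gt_mem_nhds (show (0 : ℝ) < (1 / 2 : ℝ) ^ (p + 1) by positivity))
  have ev3 := t3.eventually (eventually_ge_atTop (8 * G * Cs * exp c1))
  refine ev_curry ?_
  filter_upwards [ev1, ev2, ev3, eventually_ge_atTop 2] with K j1 j2 j3 hK
  obtain ⟨hL6, hLge, hLle⟩ := lf_bds hτ0 (K := K) (by omega)
  set L := Lf τ K with hLdef
  filter_upwards [hs (K + 1) (by omega) L (by omega), eventually_ge_atTop 2] with r hr1 hr2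
  rw [← mm3] at hr1
  have hc := hcore K L r hK hL6 hr2
  set I := ∫ z, W (mm 2 (c3 b) (u3 us ws K L r)) z ∂(nu hf) with hI
  set l := lin 2 (c3 b) (k3 K L r) with hl
  set g := MM (K, r) (x ^ (1 / p)) with hgdef
  have hK1 : (1 : ℝ) ≤ K := by exact_mod_cast (by omega : 1 ≤ K)
  have hK0 : (0 : ℝ) < K := by linarith
  have hg1 : 1 ≤ g := mm_one_le (Real.one_le_rpow hx.le (by positivity))
  have hgp : g ≤ g ^ p := by
    calc g = g ^ (1 : ℝ) := (Real.rpow_one g).symm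
      _ ≤ g ^ p := Real.rpow_le_rpow_of_exponent_le hg1 hp.le
  -- the probability of the arm
  have hP0 := pa_nonneg K L r
  have hP1 := pa_le_one K L r
  have hPA : PA K L r ≤ Ca * (K : ℝ) ^ (-(τ * α)) := by
    refine (hpa K L r hK hL6 hr2).trans (mul_le_mul_of_nonneg_left ?_ hCa.le)
    rw [Real.rpow_neg hK0.le, Real.rpow_mul hK0.le, ← Real.inv_rpow (by positivity), one_div]
    refine Real.rpow_le_rpow (by positivity) ?_ hα.le
    exact inv_anti₀ (by positivity) hLge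
  have hPA2 : (PA K L r) ^ (1 / p) ≤ Ca ^ (1 / 2 : ℝ) * (K : ℝ) ^ (-(τ * α / 2)) := by
    calc (PA K L r) ^ (1 / p) ≤ (PA K L r) ^ (1 / 2 : ℝ) := by
          rcases hP0.lt_or_eq with h0 | h0
          · exact Real.rpow_le_rpow_of_exponent_ge h0 hP1
              (one_div_le_one_div_of_le hp0 hp2)
          · rw [← h0, Real.zero_rpow (by positivity), Real.zero_rpow (by norm_num)]
      _ ≤ (Ca * (K : ℝ) ^ (-(τ * α))) ^ (1 / 2 : ℝ) := Real.rpow_le_rpow hP0 hPA (by norm_num)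
      _ = Ca ^ (1 / 2 : ℝ) * (K : ℝ) ^ (-(τ * α / 2)) := by
          rw [Real.mul_rpow hCa.le (by positivity), ← Real.rpow_mul hK0.le]
          congr 2
          ring
  -- the moment
  have hB1 : 1 ≤ Cg * (K : ℝ) ^ Cg := by
    have := Real.one_le_rpow hK1 (by linarith : 0 ≤ Cg)
    nlinarith
  have hm := mm_interp (K := K) (r := r) hx.le hp hp2 hB1 (hg K r hK hr2)
  have hm2 : (Cg * (K : ℝ) ^ Cg) ^ (2 * (p - 1)) ≤ Cg ^ (2 * (p - 1)) * (K : ℝ) ^ (α * τ / 4) := by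
    rw [Real.mul_rpow (by linarith) (by positivity), ← Real.rpow_mul hK0.le]
    refine mul_le_mul_of_nonneg_left ?_ (by positivity)
    refine Real.rpow_le_rpow_of_exponent_le hK1 ?_
    calc Cg * (2 * (p - 1)) = 2 * Cg * (p - 1) := by ring
      _ ≤ _ := hp3
  have hprod : G ^ 2 * ((MM (K, r) (x ^ p)) ^ (1 / p) * (PA K L r) ^ (1 / p)) ≤
      (1 / 2) ^ (p + 1) * g ^ p := by
    have h1 : (MM (K, r) (x ^ p)) ^ (1 / p) * (PA K L r) ^ (1 / p) ≤
        (g * (Cg ^ (2 * (p - 1)) * (K : ℝ) ^ (α * τ / 4))) *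
          (Ca ^ (1 / 2 : ℝ) * (K : ℝ) ^ (-(τ * α / 2))) := by
      refine mul_le_mul (hm.trans (mul_le_mul_of_nonneg_left hm2 (by linarith))) hPA2
        (by positivity) (by positivity)
    have e1 : (K : ℝ) ^ (α * τ / 4) * (K : ℝ) ^ (-(τ * α / 2)) = (K : ℝ) ^ (-(α * τ / 4)) := by
      rw [← Real.rpow_add hK0]; congr 1; ring
    calc G ^ 2 * ((MM (K, r) (x ^ p)) ^ (1 / p) * (PA K L r) ^ (1 / p))
        ≤ G ^ 2 * ((g * (Cg ^ (2 * (p - 1)) * (K : ℝ) ^ (α * τ / 4))) *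
          (Ca ^ (1 / 2 : ℝ) * (K : ℝ) ^ (-(τ * α / 2)))) :=
          mul_le_mul_of_nonneg_left h1 (by positivity)
      _ = (D1 * ((K : ℝ) ^ (α * τ / 4) * (K : ℝ) ^ (-(τ * α / 2)))) * g := by rw [hD1]; ring
      _ = (D1 * (K : ℝ) ^ (-(α * τ / 4))) * g := by rw [e1]
      _ ≤ (1 / 2) ^ (p + 1) * g := mul_le_mul_of_nonneg_right j2.le (by linarith)
      _ ≤ (1 / 2) ^ (p + 1) * g ^ p := mul_le_mul_of_nonneg_left hgp (by positivity)
  have hhalf : (1 / 2 : ℝ) ^ p * g ^ p ≤ (g * (1 - PA K L r)) ^ p := by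
    rw [← Real.mul_rpow (by norm_num) (by linarith)]
    refine Real.rpow_le_rpow (by positivity) ?_ hp0.le
    have : PA K L r ≤ 1 / 2 := hPA.trans j1.le
    nlinarith
  have hmain : g ^ p ≤ 8 * G * (exp l * I) := by
    have e1 : (1 / 2 : ℝ) ^ (p + 1) = (1 / 2) ^ p * (1 / 2) := by
      rw [Real.rpow_add (by norm_num), Real.rpow_one]
    have h1 : (1 / 2 : ℝ) ^ p * g ^ p ≤ G * (exp l * I) + (1 / 2) ^ (p + 1) * g ^ p := by
      refine hhalf.trans (hc.trans ?_)
      have : G * (exp l * I + G * ((MM (K, r) (x ^ p)) ^ (1 / p) * (PA K L r) ^ (1 / p))) =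
          G * (exp l * I) + G ^ 2 * ((MM (K, r) (x ^ p)) ^ (1 / p) * (PA K L r) ^ (1 / p)) := by
        ring
      rw [this]
      linarith
    rw [e1] at h1
    have h2 : (1 / 2 : ℝ) ^ p * g ^ p ≤ 2 * (G * (exp l * I)) := by linarith
    have h3 : (1 / 4 : ℝ) ≤ (1 / 2 : ℝ) ^ p := by
      calc (1 / 4 : ℝ) = (1 / 2 : ℝ) ^ (2 : ℝ) := by norm_num
        _ ≤ (1 / 2 : ℝ) ^ p :=
          Real.rpow_le_rpow_of_exponent_ge (by norm_num) (by norm_num) hp2
    have h4 : 0 ≤ g ^ p := Real.rpow_nonneg (by linarith) _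
    have h5 := mul_le_mul_of_nonneg_right h3 h4
    linarith
  -- exponents
  have hlogK : 0 ≤ log (K : ℝ) := Real.log_nonneg hK1
  have hlogL : log (L : ℝ) ≤ τ * log K + log 8 := by
    have hL0 : (0 : ℝ) < L := by exact_mod_cast (by omega : 0 < L)
    have h1 := Real.log_le_log hL0 hLle
    rw [Real.log_mul (by norm_num) (by positivity), Real.log_rpow hK0] at h1
    linarith
  have hlin1 : exp (√3 * (-2 * b) * DD (K, r)) ≤ exp (-l) * exp ((e / 4) * log K + c1) := by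
    rw [← Real.exp_add]
    apply exp_le_exp.2
    have h1 := hlin b K L r hb.le hK hL6 hr2
    have h2 := nlog_le (L := L) (by omega)
    have h3 : b * Cl * (Nat.log 2 L + 1) ≤ b * Cl * (2 * (τ * log K + log 8) + 1) :=
      mul_le_mul_of_nonneg_left (by linarith) (by positivity)
    have h4 : b * Cl * (2 * (τ * log K + log 8) + 1) = θ * τ * log K + c1 := by
      rw [hθ, hc1]; ring
    have h5 : θ * τ * log K ≤ e / 4 * log K := mul_le_mul_of_nonneg_right hθτ hlogK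
    linarith
  have hIle : I ≤ Cs * exp (-(kap * (-2 * b) ^ 2 / 2) * log K) := by
    refine hr1.trans (mul_le_mul_of_nonneg_left ?_ hCs.le)
    apply exp_le_exp.2
    rw [kap_eq]
    have hpi := Real.pi_pos
    have h1 : log (K : ℝ) ≤ log ((K + 1 : ℕ) : ℝ) :=
      Real.log_le_log hK0 (by push_cast; linarith)
    have h2 : 0 ≤ log (L : ℝ) := Real.log_nonneg (by exact_mod_cast (by omega : 1 ≤ L))
    have h3 : 0 ≤ 3 / (4 * π ^ 2) := by positivity
    have h4 : b ^ 2 * (4 * log K) ≤ b ^ 2 * (4 * log ((K + 1 : ℕ) : ℝ) + log L) :=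
      mul_le_mul_of_nonneg_left (by linarith) (sq_nonneg b)
    have h5 := mul_le_mul_of_nonneg_left h4 h3
    have e1 : 3 * (-2 * b) ^ 2 / (4 * π ^ 2) * log (K : ℝ) =
        3 / (4 * π ^ 2) * (b ^ 2 * (4 * log K)) := by ring
    rw [neg_mul, neg_mul, e1]
    linarith
  have hconst : 8 * G * Cs * exp c1 ≤ exp (3 * e / 4 * log K) := by
    refine j3.trans (le_of_eq ?_)
    rw [Real.rpow_def_of_pos hK0]
    congr 1
    ring
  show exp (√3 * (-2 * b) * DD (K, r)) * g ^ p ≤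
    exp ((-(kap * (-2 * b) ^ 2 / 2) + e) * log (K : ℝ))
  calc exp (√3 * (-2 * b) * DD (K, r)) * g ^ p
      ≤ (exp (-l) * exp ((e / 4) * log K + c1)) * (8 * G * (exp l * I)) :=
        mul_le_mul hlin1 hmain (by positivity) (by positivity)
    _ = (exp (-l) * exp l) * (8 * G * exp ((e / 4) * log K + c1) * I) := by ring
    _ = 8 * G * exp ((e / 4) * log K + c1) * I := by
        rw [← Real.exp_add]; simp
    _ ≤ 8 * G * exp ((e / 4) * log K + c1) * (Cs * exp (-(kap * (-2 * b) ^ 2 / 2) * log K)) :=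
        mul_le_mul_of_nonneg_left hIle (by positivity)
    _ = (8 * G * Cs * exp c1) * (exp ((e / 4) * log K) *
          exp (-(kap * (-2 * b) ^ 2 / 2) * log K)) := by rw [Real.exp_add]; ring
    _ ≤ exp (3 * e / 4 * log K) * (exp ((e / 4) * log K) *
          exp (-(kap * (-2 * b) ^ 2 / 2) * log K)) :=
        mul_le_mul_of_nonneg_right hconst (by positivity)
    _ = exp ((-(kap * (-2 * b) ^ 2 / 2) + e) * log (K : ℝ)) := by
        rw [← Real.exp_add, ← Real.exp_add]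
        congr 1
        ring

/-- **the instance of `We297.Hyp`** -/
theorem hyp_main (hLaw : Bs410.Law3) :
    We297.Hyp (Filter.curry (atTop : Filter ℕ) (atTop : Filter ℕ))
      (fun i : ℕ × ℕ => Real.log i.1) DD MM where
  ell_top := by
    have h1 : Tendsto (fun K : ℕ => Real.log (K : ℝ)) atTop atTop :=
      Real.tendsto_log_atTop.comp tendsto_natCast_atTop_atTop
    rw [Filter.tendsto_atTop]
    intro c
    refine ev_curry ?_
    filter_upwards [h1.eventually (eventually_ge_atTop c)] with K hK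
    exact Filter.Eventually.of_forall fun r => hK
  nonneg := fun i x hx => integral_nonneg fun z => pow_nonneg hx _
  mono := fun i x y hx hxy => by
    unfold MM
    exact integral_mono (((n0_dep i.1 i.2).comp fun n => x ^ n).integrable _)
      (((n0_dep i.1 i.2).comp fun n => y ^ n).integrable _) fun z => pow_le_pow_left₀ hx hxy _
  F1 := fun a ha p hp => hF1 (blobs_main hLaw) a ha hp
  F2 := fun a ha p hp => hF2 (blobs_main hLaw) a ha hp
  F3 := fun a ha1 ha2 e he => hF3 (blobs_main hLaw) a ha1 ha2 he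

end Crest.Agent.R158.Wf850
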