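import Crest.Agent.R158.Qf5_808
import Crest.Agent.R158.Sg4_158
import Crest.Agent.R158.Sp2_580
import Crest.Agent.R158.Cpl8_963
import Crest.Agent.R158.Ld2_570
import Crest.Agent.R158.Sp5_580
import Crest.Agent.R158.Sq9_200_Mg
import Crest.Agent.R158.Bb2_488
import Crest.Agent.R158.Ld5_570
import Crest.Agent.R158.Qf6_808
import Crest.Agent.R158.Qf7_808_Mg
import Crest.Agent.R158.Wf9_850

-- ▼ part R158/Gl1_570
section

/-!
# Row 158, Block G (helper570): assembly of `HypGl` at the origin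

* `CovPiv T0` : block pivotality on the good event lies in a union of `Uout`
* `SepIn` : one-scale inner separation (580)
* `gl0_of` : `CovPiv T0 → SepIn → HypGl` for edges with source `(0,0)`
-/

set_option autoImplicit false

noncomputable section

namespace Crest.Agent.R158.Ld570

open MeasureTheory ProbabilityTheory unitInterval
open Crest.Agent.R161.Geo729 Crest.Agent.R161.Topo374 Crest.Agent.R161.Dual374
open Crest.Agent.R161.Tas682 hiding Sq
open Crest.Agent.R158.Rs689 Crest.Agent.R158.Ru874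
open Crest.Agent.R158.Fr158 hiding nu
open Crest.ProbabilityR.Percolation (clampUnit)
open Crest.Agent.R158.Sp580 (RSp Uout Nice NiceU)
open Crest.Agent.R158.Sp874 (nr cl Gd Gd')
open Crest.Agent.R158.Qf808 (GO)

/-- the outer landing event of the cells `κ` for the crossing of a rectangle -/
def UR (x0 x1 y0 y1 : ℤ) (N n : ℕ) (κ : Fin 4 → P2) : Set Cf :=
  Uout (Rect x0 x1 y0 y1) (Rect x0 (x1 - 1) (y0 - 1) y1) (N * n) n (κ 0) (κ 1) (κ 2) (κ 3)
    {v | v.1 = x0} {v | v.1 = x1} {f | f.2 = y0 - 1} {f | f.2 = y1}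

/-- **outer cover** : on the good event block pivotality produces four separated landing cells -/
def CovPiv (T0 : ℕ) : Prop :=
  ∀ (D1 D2 D3 N n : ℕ), 2 ≤ D1 → 2 ≤ D2 → 2 ≤ D3 → N = 32 * D1 * D2 * D3 * T0 → 1 ≤ n →
    ∀ x0 x1 y0 y1 : ℤ, x0 ≤ -(2 * (N * n)) → 2 * (N * n) ≤ x1 → y0 ≤ -(2 * (N * n)) →
      2 * (N * n) ≤ y1 → ∀ z : Cf, z ∈ Ld570.BPiv (0, 0) (N * n - 1) (XR x0 x1 y0 y1) →
        z ∈ GO (0, 0) D1 D2 D3 (T0 * n) →
          ∃ w : Fin 4 → ℤ, (Gd (N - 1) 420 w ∨ Gd' (N - 1) 420 w) ∧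
            z ∈ UR x0 x1 y0 y1 N n (fun i => cl (N - 1) (w i))

/-- **inner separation** (580) -/
def SepIn : Prop :=
  ∀ c : ℝ, 0 < c → ∃ K : ℝ, 0 < K ∧ ∀ (p : I) (j : ℕ), RSp c p (2 ^ (j + 5)) → ∀ e : Edge,
    src e = (0, 0) → (nu p).real (Sp580.A4 e (2 ^ (j + 2))) ≤ K * (nu p).real (NiceU e (2 ^ j))

/-- RSW, from the form of 488 to the form of 580 -/
theorem rsp_of_rscale {c q : ℝ} {N : ℕ} (hc : 0 < c) (h : Os488.RScale c q N) :
    RSp c (clampUnit q) N := by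
  refine ⟨hc, fun n h1 h2 => ⟨?_, ?_⟩⟩
  · have h3 := (h n h1 h2).1
    rw [Os488.lrn_eq] at h3
    exact h3
  · exact Os488.xpr_dual_ge h (by exact_mod_cast h1) (by exact_mod_cast h2)

/-- ring cells -/
def rcs (N : ℕ) : Finset P2 := Finset.Icc (-(N : ℤ)) (N - 1) ×ˢ Finset.Icc (-(N : ℤ)) (N - 1)

theorem mem_rcs {N : ℕ} (hN : 1 ≤ N) (w : ℤ) : cl ((N : ℤ) - 1) w ∈ rcs N := by
  have h := Sp874.nr_cl (j := (N : ℤ) - 1) (by omega) w
  unfold nr at h
  rw [rcs, Finset.mem_product, Finset.mem_Icc, Finset.mem_Icc]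
  omega

theorem card_rcs (N : ℕ) : (rcs N).card = (2 * N) ^ 2 := by
  rw [rcs, Finset.card_product, Int.card_Icc]
  have : ((N : ℤ) - 1 + 1 - -(N : ℤ)).toNat = 2 * N := by omega
  rw [this]
  ring

/-- the union bound over the landing cells -/
theorem cover_bound {q N n : ℕ} (hq : 1 ≤ q) (hN : 32 * q + 200 ≤ N) {c : ℝ} {p : I}
    (hn : 1 ≤ n) (hc : RSp c p n) {e : Edge} (he : src e = (0, 0)) (s t : Bool)
    {x0 x1 y0 y1 : ℤ} (hx0 : x0 ≤ -(((N : ℤ) + 20) * n)) (hx1 : ((N : ℤ) + 20) * n + 1 ≤ x1)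
    (hy0 : y0 ≤ -(((N : ℤ) + 20) * n)) (hy1 : ((N : ℤ) + 20) * n ≤ y1) {B : Set Cf}
    (hB : ∀ z ∈ B, ∃ w : Fin 4 → ℤ, (Gd (N - 1) 420 w ∨ Gd' (N - 1) 420 w) ∧
      z ∈ UR x0 x1 y0 y1 N n (fun i => cl (N - 1) (w i))) :
    c ^ (8 * (2 * N + 8) ^ 2) * ((nu p).real (Nice e (q * n) s t) * (nu p).real B) ≤
      ((2 * N) ^ 2) ^ 4 * (nu p).real (Piv e (XR x0 x1 y0 y1)) := by
  classical
  set Ω : Finset (Fin 4 → P2) := (Fintype.piFinset fun _ => rcs N).filter fun κ =>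
    ∃ w : Fin 4 → ℤ, (Gd (N - 1) 420 w ∨ Gd' (N - 1) 420 w) ∧ ∀ i, κ i = cl (N - 1) (w i)
  have h1 : B ⊆ ⋃ κ ∈ Ω, UR x0 x1 y0 y1 N n κ := by
    intro z hz
    obtain ⟨w, h2, h3⟩ := hB z hz
    refine Set.mem_biUnion (x := fun i => cl ((N : ℤ) - 1) (w i)) ?_ h3
    rw [Finset.mem_coe, Finset.mem_filter, Fintype.mem_piFinset]
    exact ⟨fun i => mem_rcs (by omega) _, w, h2, fun i => rfl⟩
  have h2 : (nu p).real B ≤ ∑ κ ∈ Ω, (nu p).real (UR x0 x1 y0 y1 N n κ) :=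
    (measureReal_mono h1 (measure_ne_top _ _)).trans (measureReal_biUnion_finset_le _ _)
  have hcard : (Ω.card : ℝ) ≤ ((2 * N) ^ 2) ^ 4 := by
    have h3 : Ω.card ≤ ((2 * N) ^ 2) ^ 4 := by
      refine (Finset.card_filter_le _ _).trans ?_
      rw [Fintype.card_piFinset]
      simp [card_rcs]
    calc (Ω.card : ℝ) ≤ ((((2 * N) ^ 2) ^ 4 : ℕ) : ℝ) := by exact_mod_cast h3
      _ = _ := by push_cast; ring
  have hc0 : 0 < c := hc.1
  calc c ^ (8 * (2 * N + 8) ^ 2) * ((nu p).real (Nice e (q * n) s t) * (nu p).real B)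
      ≤ c ^ (8 * (2 * N + 8) ^ 2) * ((nu p).real (Nice e (q * n) s t) *
          ∑ κ ∈ Ω, (nu p).real (UR x0 x1 y0 y1 N n κ)) := by
        gcongr
    _ = ∑ κ ∈ Ω, c ^ (8 * (2 * N + 8) ^ 2) * ((nu p).real (Nice e (q * n) s t) *
          (nu p).real (UR x0 x1 y0 y1 N n κ)) := by
        rw [Finset.mul_sum, Finset.mul_sum]
    _ ≤ ∑ _κ ∈ Ω, (nu p).real (Piv e (XR x0 x1 y0 y1)) := by
        refine Finset.sum_le_sum fun κ hκ => ?_
        obtain ⟨w, hw, hκw⟩ := (Finset.mem_filter.1 hκ).2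
        have hκ' : κ = fun i => cl ((N : ℤ) - 1) (w i) := funext hκw
        rw [hκ']
        exact Sg158.glue_piv hq hN hn hc he s t hw hx0 hx1 hy0 hy1
    _ = Ω.card * (nu p).real (Piv e (XR x0 x1 y0 y1)) := by
        rw [Finset.sum_const, nsmul_eq_mul]
    _ ≤ _ := mul_le_mul_of_nonneg_right hcard measureReal_nonneg

/-- the scale: a power of two `n` with `r + 1 ≤ N n ≤ 2 r + 1` -/
theorem exists_scale {N r : ℕ} (hN : 1 ≤ N) (hr : N ≤ r) :
    ∃ j : ℕ, r + 1 ≤ N * 2 ^ j ∧ N * 2 ^ j ≤ 2 * r + 1 := by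
  classical
  have hex : ∃ j : ℕ, r + 1 ≤ N * 2 ^ j := by
    refine ⟨r + 1, ?_⟩
    have h1 : r + 1 < 2 ^ (r + 1) := Nat.lt_two_pow_self
    nlinarith
  refine ⟨Nat.find hex, Nat.find_spec hex, ?_⟩
  have h0 : Nat.find hex ≠ 0 := by
    intro h
    have h2 := Nat.find_spec hex
    rw [h] at h2
    omega
  obtain ⟨m, hm⟩ := Nat.exists_eq_succ_of_ne_zero h0
  have h3 := Nat.find_min hex (m := m) (by omega)
  rw [hm, pow_succ]
  have : N * (2 ^ m * 2) = 2 * (N * 2 ^ m) := by ring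
  omega

/-- **`HypGl` at the origin.** -/
theorem gl0_of {T0 : ℕ} (hT0 : 500 ≤ T0) (hcov : CovPiv T0) (hsep : SepIn) :
    ∀ c : ℝ, 0 < c → ∃ Λ : ℕ, 1 ≤ Λ ∧ ∀ η : ℝ, 0 < η → ∃ K : ℝ, 0 < K ∧ ∃ C r0 : ℕ, 1 ≤ C ∧
      ∀ q : ℝ, 0 < q → q < 1 → ∀ r : ℕ, r0 ≤ r → Os488.RScale c q (C * r) →
        ∀ (a b c' d : ℤ) (e : Edge), src e = (0, 0) → Blk a b c' d (C * r) e →
          ∃ (G : Set Cf) (T : Finset Edge), Dep T G ∧
            (∀ i ∈ T, (r : ℤ) ≤ Λ * sd (src e) (src i) ∧ sd (src e) (src i) ≤ Λ * r) ∧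
            Pr q Gᶜ ≤ η ∧
            Pr q (Ld570.BPiv (src e) r (XR a b c' d) ∩ G) * Pr q (Sp580.A4 e r) ≤
              K * Pr q (Piv e (XR a b c' d)) := by
  intro c hc
  refine ⟨8, by norm_num, fun η hη => ?_⟩
  -- reduce to `c ≤ 1`
  have hm0 : 0 < min c 1 := lt_min hc one_pos
  obtain ⟨D1, D2, D3, hD1, hD2, hD3, hgood⟩ := Qf808.good_params hm0 (min_le_right c 1) hη
  obtain ⟨K, hK, hsepK⟩ := hsep (min c 1) hm0
  set N : ℕ := 32 * D1 * D2 * D3 * T0 with hNdef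
  have hN : 232 ≤ N := by
    have h1 : 1 ≤ D1 * D2 * D3 := Nat.mul_pos (Nat.mul_pos (by omega) (by omega)) (by omega)
    have h2 : N = 32 * (D1 * D2 * D3) * T0 := by rw [hNdef]; ring
    rw [h2]
    calc 232 ≤ 32 * 1 * 500 := by norm_num
      _ ≤ 32 * (D1 * D2 * D3) * T0 := Nat.mul_le_mul (Nat.mul_le_mul_left _ h1) hT0
  have hcM : 0 < (min c 1) ^ (8 * (2 * N + 8) ^ 2) := pow_pos hm0 _
  have hNr : (0 : ℝ) < N := by exact_mod_cast (by omega : 0 < N)
  refine ⟨4 * K * ((2 * N) ^ 2) ^ 4 / (min c 1) ^ (8 * (2 * N + 8) ^ 2), by positivity,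
    16, N, by norm_num, ?_⟩
  intro q hq0 hq1 r hr hRS a b c' d e he hblk
  obtain ⟨j, hj1, hj2⟩ := exists_scale (N := N) (r := r) (by omega) hr
  set n : ℕ := 2 ^ j with hn
  have hn1 : 1 ≤ n := Nat.one_le_two_pow
  set p : I := clampUnit q
  have hRp : RSp (min c 1) p (16 * r) :=
    rsp_of_rscale hm0 (hRS.anti (min_le_left _ _))
  have hnr : 232 * n ≤ 2 * r + 1 := (Nat.mul_le_mul_right _ hN).trans hj2
  have hj1' : (r : ℤ) + 1 ≤ N * n := by exact_mod_cast hj1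
  have hj2' : (N : ℤ) * n ≤ 2 * r + 1 := by exact_mod_cast hj2
  have hnr' : 232 * (n : ℤ) ≤ 2 * r + 1 := by exact_mod_cast hnr
  have hn1' : (1 : ℤ) ≤ n := by exact_mod_cast hn1
  have hu : (1 : ℤ) ≤ T0 * n := by
    have : 1 ≤ T0 * n := Nat.mul_pos (by omega) hn1
    exact_mod_cast this
  have hNn : (32 : ℤ) * D1 * D2 * D3 * (T0 * n) = N * n := by
    rw [hNdef]
    push_cast
    ring
  -- the good event
  refine ⟨GO (0, 0) D1 D2 D3 (T0 * n), Qf808.eR (0, 0) (N * n) (2 * (N * n)), ?_, ?_, ?_, ?_⟩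
  · have := Qf808.dep_GO (0, 0) hD1 hD2 hD3 hu
    rw [hNn] at this
    exact this
  · intro i hi
    rw [Qf808.mem_eR] at hi
    rw [he]
    push_cast
    omega
  · have h1 := (hgood p (16 * r) (T0 * n) (0, 0) hRp hu (by rw [hNn]; push_cast; omega)).1
    exact h1
  · obtain ⟨s, t, hst⟩ := Sp580.nice_choice p e n
    have hb := hblk
    unfold Blk at hb
    rw [he] at hb
    simp only at hb
    push_cast at hb
    have e1 : ((N : ℤ) + 20) * n = N * n + 20 * n := by ring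
    have hsub : ∀ z ∈ Ld570.BPiv (src e) r (XR a b c' d) ∩ GO (0, 0) D1 D2 D3 (T0 * n),
        ∃ w : Fin 4 → ℤ, (Gd (N - 1) 420 w ∨ Gd' (N - 1) 420 w) ∧
          z ∈ UR a b c' d N n (fun i => cl (N - 1) (w i)) := by
      rintro z ⟨hz1, hz2⟩
      rw [he] at hz1
      refine hcov D1 D2 D3 N n hD1 hD2 hD3 hNdef hn1 a b c' d (by omega) (by omega) (by omega)
        (by omega) z ?_ hz2
      exact bpiv_mono (by omega) _ hz1
    have h1 := cover_bound (q := 1) (N := N) (n := n) le_rfl (by omega) (p := p) hn1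
      (hRp.mono (by omega)) he s t (x0 := a) (x1 := b) (y0 := c') (y1 := d) (by omega) (by omega)
      (by omega) (by omega) hsub
    rw [one_mul] at h1
    have h2 : (nu p).real (Sp580.A4 e r) ≤ (nu p).real (Sp580.A4 e (2 ^ (j + 2))) := by
      rw [Cpl963.A4_eq, Cpl963.A4_eq]
      refine measureReal_mono (Cpl963.A4_shrink ?_ ?_)
      · exact one_le_pow₀ (by norm_num)
      · have : (2 : ℤ) ^ (j + 2) = 4 * n := by
          rw [hn, pow_add]
          push_cast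
          ring
        rw [this]
        omega
    have h3 := hsepK p j (hRp.mono (by
      have : 2 ^ (j + 5) = 32 * n := by
        rw [hn, pow_add]
        ring
      omega)) e he
    have h4 : (nu p).real (Sp580.A4 e r) ≤ K * (4 * (nu p).real (Nice e n s t)) :=
      (h2.trans h3).trans (by gcongr)
    set X := (nu p).real (Ld570.BPiv (src e) r (XR a b c' d) ∩ GO (0, 0) D1 D2 D3 (T0 * n))
    set Y := (nu p).real (Piv e (XR a b c' d))
    set Z := (nu p).real (Nice e n s t)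
    have h5 : X * (nu p).real (Sp580.A4 e r) ≤ X * (K * (4 * Z)) :=
      mul_le_mul_of_nonneg_left h4 measureReal_nonneg
    have h6 : X * (K * (4 * Z)) ≤
        4 * K * ((2 * N) ^ 2) ^ 4 / (min c 1) ^ (8 * (2 * N + 8) ^ 2) * Y := by
      rw [div_mul_eq_mul_div, le_div_iff₀ hcM]
      calc X * (K * (4 * Z)) * (min c 1) ^ (8 * (2 * N + 8) ^ 2) =
          4 * K * ((min c 1) ^ (8 * (2 * N + 8) ^ 2) * (Z * X)) := by ring
        _ ≤ 4 * K * (((2 * N) ^ 2) ^ 4 * Y) :=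
          mul_le_mul_of_nonneg_left h1 (by positivity)
        _ = _ := by ring
    exact h5.trans h6

end Crest.Agent.R158.Ld570
end
end

-- ▼ part R158/Gl2_570
section

/-!
# Row 158, Block G (helper570): Lemma D closed

* `sepIn` : inner separation (580) in the form of `Gl1_570`
* `hypGl0`, `hypGl` : separation and gluing from the outer cover `CovPiv`
* `hypD_of_U4` : `HypD` from `CovPiv`, `HypU4`, `L4`
-/

set_option autoImplicit false

noncomputable section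

namespace Crest.Agent.R158.Ld570

open MeasureTheory ProbabilityTheory unitInterval
open Crest.Agent.R161.Geo729 Crest.Agent.R161.Topo374 Crest.Agent.R161.Dual374
open Crest.Agent.R161.Tas682 hiding Sq
open Crest.Agent.R158.Rs689 Crest.Agent.R158.Ru874
open Crest.Agent.R158.Fr158 hiding nu
open Crest.Agent.R158.Sp580 (RSp)

theorem sepIn : SepIn := by
  intro c hc
  obtain ⟨K, hK, h⟩ := Sp580.sep_in hc
  refine ⟨K, hK, fun p j hp e he => ?_⟩
  exact h p j (hp.mono (Nat.pow_le_pow_right (by norm_num) (by omega))) e he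

theorem hypGl0 {T0 : ℕ} (hT0 : 500 ≤ T0) (hcov : CovPiv T0) :
    Sg158.HypGl0 (fun e r => Sp580.A4 e r) := by
  intro c hc
  obtain ⟨Λ, hΛ, h⟩ := gl0_of hT0 hcov sepIn c hc
  refine ⟨Λ, hΛ, fun η hη => ?_⟩
  obtain ⟨K, hK, C, r0, hC, h⟩ := h η hη
  refine ⟨K, hK, C, r0, hC, ?_⟩
  intro q hq0 hq1 r hr hRS a b c' d e he h1 h2 h3 h4
  obtain ⟨G, T, g1, g2, g3, g4⟩ := h q hq0 hq1 r hr hRS a b c' d e he (by
    unfold Blk
    rw [he]
    push_cast
    omega)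
  rw [he] at g2 g4
  exact ⟨G, T, g1, g2, g3, g4⟩

/-- **(Gl)** from the outer cover -/
theorem hypGl {T0 : ℕ} (hT0 : 500 ≤ T0) (hcov : CovPiv T0) :
    HypGl (fun e r => Sp580.A4 e r) := Sg158.gl_of_gl0 (hypGl0 hT0 hcov)

/-- **Lemma D** from the outer cover and the four-arm bounds -/
theorem hypD_of_U4 {T0 : ℕ} (hT0 : 500 ≤ T0) (hcov : CovPiv T0) (hU : Cpl963.HypU4)
    (hL : Cpl963.L4) : HypD :=
  hypD_of (A4 := fun e r => Sp580.A4 e r) (Cpl963.hypC_of_U4 hU) Bb488.hypBD (hypGl hT0 hcov)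
    (fun _ _ hδ hε => Cpl963.A4low hU hL hδ hε)

end Crest.Agent.R158.Ld570
end
end

-- ▼ part R158/Top3_772
section

/-!
# Row 158 (helper772, integration of S0235 + S0236), part 3: state of Nov 16, 23:00

* `hypA_of`  : HypA from `Bs410.Law3` and `HypW`
* `near_of`  : `HypB`, `HypC`, `HypD` from the covers `CovPiv`, `CovT2` and `SB`, `SC`, `SD`
* `both3`    : S0235 and S0236
-/

set_option autoImplicit false

noncomputable section

namespace Crest.Agent.R158.Top772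

open MeasureTheory Filter Topology unitInterval
open Crest.ProbabilityR.Percolation Crest.ProbabilityR.FirstPassage
open Crest.Agent.R161.Geo729 Crest.Agent.R161.Tas682
open Crest.Agent.R158.Fr158 Crest.Agent.R158.Cpl963 Crest.Agent.R158.Ld570
open Crest.Agent.R158.Ax107

theorem hypA_of (hLaw : Bs410.Law3) (hW : HypW) : HypA :=
  Wh109.hypA' (Wf850.blobs_main hLaw) hW



end Crest.Agent.R158.Top772
end
end

-- ▼ part R158/Oc3_874
section

/-!
# Row 158 (helper874), SEP: the outer cover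

`covPiv` : on the good event a pivotal ball of the crossing of a rectangle has four arms landing in four far
alternating cells (570's `CovPiv T0`, `500 ≤ T0`)
-/

set_option autoImplicit false

noncomputable section

namespace Crest.Agent.R158.Oc874

open MeasureTheory ProbabilityTheory unitInterval
open Crest.Agent.R161.Geo729 Crest.Agent.R161.Topo374 Crest.Agent.R161.Dual374
open Crest.Agent.R161.Tas682 hiding Sq
open Crest.Agent.R158.Rs689 Crest.Agent.R158.Ru874 Crest.Agent.R158.Sp580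
open Crest.Agent.R158.Sp874 (FarN nr Gd')
open Crest.Agent.R158.Kd458 (So Fo Fi FoT FoR GoodH)
open Crest.Agent.R158.Qf808 (GO)

/-- **Outer cover, pivotal case.** -/
theorem covPiv {T0 : ℕ} (hT : 500 ≤ T0) : Ld570.CovPiv T0 := by
  intro D1 D2 D3 N n h1 h2 h3 hNe hn x0 x1 y0 y1 hx0 hx1 hy0 hy1 z hz hGO
  have hn' : (1 : ℤ) ≤ n := by exact_mod_cast hn
  have hT' : (500 : ℤ) ≤ T0 := by exact_mod_cast hT
  obtain ⟨u, hu⟩ : ∃ u : ℤ, u = T0 * n := ⟨_, rfl⟩
  rw [← hu] at hGO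
  have hu500 : 500 * (n : ℤ) ≤ u := by rw [hu]; nlinarith
  have e1 : (2 : ℤ) ≤ D1 := by exact_mod_cast h1
  have e2 : (2 : ℤ) ≤ D2 := by exact_mod_cast h2
  have e3 : (2 : ℤ) ≤ D3 := by exact_mod_cast h3
  obtain ⟨a, ha⟩ : ∃ a : ℤ, a = D3 * u := ⟨_, rfl⟩
  obtain ⟨b, hb⟩ : ∃ b : ℤ, b = D2 * a := ⟨_, rfl⟩
  obtain ⟨c, hc⟩ : ∃ c : ℤ, c = D1 * b := ⟨_, rfl⟩
  have f1 : 2 * u ≤ a := by rw [ha]; nlinarith
  have f2 : 2 * a ≤ b := by rw [hb]; nlinarith
  have f3 : 2 * b ≤ c := by rw [hc]; nlinarith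
  have g1 : (2 : ℤ) * D3 * u = 2 * a := by rw [ha]; ring
  have g2 : (4 : ℤ) * D1 * D2 * D3 * u = 4 * c := by rw [hc, hb, ha]; ring
  have g3 : (2 : ℤ) * D2 * D3 * u = 2 * b := by rw [hb, ha]; ring
  have g4 : (4 : ℤ) * D2 * D3 * u = 4 * b := by rw [hb, ha]; ring
  have g5 : (32 : ℤ) * D1 * D2 * D3 * u = 32 * c := by rw [hc, hb, ha]; ring
  have hρ : (N : ℤ) * n = 32 * c := by
    rw [← g5, hNe, hu]
    push_cast
    ring
  have hNpos : 1 ≤ N := by
    rw [hNe]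
    have : 0 < 32 * D1 * D2 * D3 * T0 := by positivity
    omega
  have hN' : (1 : ℤ) ≤ N := by exact_mod_cast hNpos
  rw [hρ] at hx0 hx1 hy0 hy1
  have hG := Qf808.goodH_of_GO (z := z) (x0 := x0) (x1 := x1) (y0 := y0) (y1 := y1) (c0 := (0, 0))
    h1 h2 h3 (u := u) (by omega) (by rw [g5, g2]; simp only; omega) (by rw [g5, g2]; simp only; omega)
    (by rw [g5, g2]; simp only; omega) (by rw [g5, g2]; simp only; omega) hGO
  rw [g1, g2, g3, g4, g5, ← ha] at hG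
  have hG' : GoodH z x0 x1 y0 y1 (0, 0) (32 * c - 1 + 1) u a (2 * a - 1) (2 * a) (2 * b) (4 * b)
      (4 * c + 1) := by rw [sub_add_cancel]; exact hG
  rw [hρ] at hz
  obtain ⟨x, x', p, p', y, y', w, w', f, f', q1, q2, q3, q4, q5, q6, q7, q8, q9, q10, q11, q12, q13, q14,
    q15, q16, q17, q18, q19, q20⟩ := Kd458.core_piv (c0 := (0, 0)) (r0 := 32 * c - 1) (by omega)
    (by simp only; omega) (by simp only; omega) (by simp only; omega) (by simp only; omega) (by omega)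
    (by omega) (by omega) (by omega) (by omega) (by omega) (by omega) (by omega) hz hG'
  rw [sub_add_cancel] at q3 q4 q7 q9 q11 q12 q13 q14 q17 q18 q19 q20
  rw [← hρ] at q3 q4 q7 q9 q11 q12 q13 q14 q17 q18 q19 q20
  -- points near the circle
  have nx := nc_of_sd hn' q3
  have nx' := nc_of_sd hn' q4
  have ny := nc_of_face hn' q12 q11.2
  have ny' := nc_of_face hn' q14 q13.2
  -- the landing events
  have hP : z ∈ UoutP (Rect x0 x1 y0 y1) (N * n) n (kp n N x) (kp n N y') (kp n N x') (kp n N y)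
      {v | v.1 = x0} {v | v.1 = x1} := by
    refine outP hn hNpos (t := u) (by omega) nx nx' ny' ny q10 q8 q5 q6 ?_ ?_
    · refine q19.monoS ?_
      rintro v ⟨⟨a1, a2⟩, a3⟩
      exact ⟨⟨a1, a3⟩, a2⟩
    · refine q20.monoS ?_
      rintro v ⟨⟨a1, a2⟩, a3⟩
      exact ⟨⟨a1, a3⟩, a2⟩
  have hD : z ∈ UoutD (Rect x0 (x1 - 1) (y0 - 1) y1) (N * n) n (kp n N x) (kp n N y') (kp n N x')
      (kp n N y) {f | f.2 = y0 - 1} {f | f.2 = y1} := by
    refine outD hn hNpos (s := 2 * a) (by omega) nx nx' ny' ny q16 q15 ?_ ?_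
    · rw [fo_eq]
      exact q18
    · rw [fo_eq]
      exact q17
  -- distances
  have d1 : 2 * a ≤ sd x y := q17.1.1.2
  have d2 : 2 * a ≤ sd x' y := q17.1.2
  have d3 : 2 * a ≤ sd x y' := q18.1.1.2
  have d4 : 2 * a ≤ sd x' y' := q18.1.2
  have F1 : FarN 420 (kp n N x) (kp n N y') := far_kp hn hN' nx ny' (by omega)
  have F2 : FarN 420 (kp n N y') (kp n N x') := far_kp hn hN' ny' nx' (by
    rw [Kd458.sd_symm]; omega)
  have F3 : FarN 420 (kp n N x') (kp n N y) := far_kp hn hN' nx' ny (by omega)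
  have F4 : FarN 420 (kp n N y) (kp n N x) := far_kp hn hN' ny nx (by
    rw [Kd458.sd_symm]; omega)
  have F5 : FarN 420 (kp n N x) (kp n N x') := far_kp hn hN' nx nx' (by omega)
  obtain ⟨w, w1, w2, w3, w4, hw⟩ := Sr200.uout_piv (x0 := x0) (x1 := x1) (y0 := y0) (y1 := y1) hn
    (g := 420) (N := N) (by norm_num) (by linarith) (by linarith) (by linarith) (by linarith)
    (nr_kp hn' hN' nx) (nr_kp hn' hN' ny') (nr_kp hn' hN' nx') (nr_kp hn' hN' ny) F1 F2 F3 F4 F5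
    ⟨hP, hD⟩
  refine ⟨w, hw, ?_⟩
  simp only [Ld570.UR]
  rw [w1, w2, w3, w4]
  exact ⟨hP, hD⟩

end Crest.Agent.R158.Oc874
end
end

-- ▼ part R158/Qf8_808
section

/-!
# Row 158 (helper808), QM4: the cover and `HypU4` from the point bounds

* `covT2` : `CovT2 500`
* `sepIn` : `SepIn`
* `hypU4` : `L4 → P4U → HypU4`
-/

set_option autoImplicit false

noncomputable section

namespace Crest.Agent.R158.Qf808

open MeasureTheory ProbabilityTheory unitInterval Filter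
open Crest.Agent.R161.Geo729 Crest.Agent.R161.Topo374 Crest.Agent.R161.Dual374
open Crest.Agent.R161.Tas682 hiding Sq
open Crest.Agent.R158.Rs689 Crest.Agent.R158.Ru874 Crest.Agent.R158.Sp580
open Crest.Agent.R158.Sp874 (rt nr cl FarN)
open Crest.Agent.R158.Cpl963 (T2 T2_shrink HypU4)
open Crest.Agent.R158.Oc874 (kp NC nr_kp mem_kp far_kp bk_kp nc_of_sd nc_of_face fo_eq outP outD)
open Crest.Agent.R158.Kd458 (So Fi Fo FoR IB Out RingF IsCol exists_out exists_col through_hole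
  core_hole oc_step rtg_pstep_symm to_ring)
open Crest.Agent.R158.Sq200 (BdV InE)

theorem sepIn : SepIn := by
  intro c hc
  obtain ⟨K, _, h⟩ := sep_in hc
  refine ⟨K, fun p j hp e he => h p j (hp.mono ?_) e he⟩
  exact Nat.pow_le_pow_right (by norm_num) (by omega)

/-- open paths off the boxes of radius `t` avoid the blocks of the dual landing cells -/
theorem sub_blk {n N : ℕ} (hn : 1 ≤ n) (hN : 1 ≤ N) {L : Set P2} {w w' y y' : P2}
    {t : ℤ} (ht : 12 * (n : ℤ) ≤ t) (hy : NC n N y) (hy' : NC n N y') (hw : sd y w ≤ 1)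
    (hw' : sd y' w' ≤ 1) :
    OutV L (N * n) ∩ {v | t ≤ sd w v} ∩ {v | t ≤ sd w' v} ⊆
      OutV L (N * n) \ Bk2 n (kp n N y) (kp n N y') 8 := by
  have hn' : (1 : ℤ) ≤ n := by exact_mod_cast hn
  have hN' : (1 : ℤ) ≤ N := by exact_mod_cast hN
  rintro v ⟨⟨h1, h2⟩, h3⟩
  have h2' : t ≤ sd w v := h2
  have h3' : t ≤ sd w' v := h3
  refine ⟨h1, ?_⟩
  rintro (h4 | h4)
  · have h5 := bk_kp hn hN' hy h4
    have h6 := Kd458.sd_tri w y v
    rw [Kd458.sd_symm w y] at h6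
    omega
  · have h5 := bk_kp hn hN' hy' h4
    have h6 := Kd458.sd_tri w' y' v
    rw [Kd458.sd_symm w' y'] at h6
    omega

theorem sub_blkD {n N : ℕ} (hn : 1 ≤ n) (hN : 1 ≤ N) {FL : Set P2} {x x' : P2}
    {s : ℤ} (hs : 12 * (n : ℤ) ≤ s) (hx : NC n N x) (hx' : NC n N x') :
    OutF FL (N * n) ∩ {v | s ≤ sd x v} ∩ {v | s ≤ sd x' v} ⊆
      OutF FL (N * n) \ Bk2 n (kp n N x) (kp n N x') 8 := by
  have hN' : (1 : ℤ) ≤ N := by exact_mod_cast hN
  rintro v ⟨⟨h1, h2⟩, h3⟩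
  have h2' : s ≤ sd x v := h2
  have h3' : s ≤ sd x' v := h3
  refine ⟨h1, ?_⟩
  rintro (h4 | h4)
  · have h5 := bk_kp hn hN' hx h4
    omega
  · have h5 := bk_kp hn hN' hx' h4
    omega

theorem bd_of_sd {l : ℤ} {v : P2} (hv : sd (0, 0) v = l) :
    v ∈ Rect (-l) l (-l) l ∧ BdV (-l) l (-l) l v := by
  have h3 := (sd_le (x := (0, 0)) (p := v) (k := l)).1 hv.le
  have h4 : ¬ sd (0, 0) v ≤ l - 1 := by omega
  rw [sd_le] at h4
  rw [mem_rect]
  unfold BdV
  simp only at h3 h4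
  omega

/-- **The cover.** -/
theorem covT2 : CovT2 500 := by
  intro D1 D2 D3 h1 h2 h3 N hN n hn k l hk hkN hl z hz hGO
  have hn' : (2 : ℤ) ≤ n := by exact_mod_cast hn
  have hN1 : 1 ≤ N := by
    rw [hN]
    have : 2 * 2 * 2 * 1 ≤ D1 * D2 * D3 * 500 := by gcongr; norm_num
    have e0 : 32 * D1 * D2 * D3 * 500 = 32 * (D1 * D2 * D3 * 500) := by ring
    omega
  have hNZ : (1 : ℤ) ≤ N := by exact_mod_cast hN1
  -- radii
  set u : ℤ := ((500 : ℕ) : ℤ) * n with hu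
  have hu2 : 2 ≤ u := by rw [hu]; push_cast; omega
  have hu500 : u = 500 * n := by rw [hu]; push_cast; ring
  have hρ : (N : ℤ) * n = 32 * D1 * D2 * D3 * u := by
    rw [hN, hu]; push_cast; ring
  obtain ⟨a1, a2, a3, a4, a5, a6, a7, a8⟩ := goodH_radii h1 h2 h3 hu2
  obtain ⟨r1, r2, r3, r4, r5⟩ := radii h1 h2 h3 (show 1 ≤ u by omega)
  have hb8 : 32 * (D1 : ℤ) * D2 * D3 * u = 8 * (4 * D1 * D2 * D3 * u) := by ring
  have hbig : (N : ℤ) * n + (4 * D1 * D2 * D3 * u) + 3 ≤ l := by omega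
  have hG : Kd458.GoodH z (-l) l (-l) l (0, 0) (32 * D1 * D2 * D3 * u) u (D3 * u) (2 * D3 * u - 1)
      (2 * D3 * u) (2 * D2 * D3 * u) (4 * D2 * D3 * u) (4 * D1 * D2 * D3 * u + 1) :=
    goodH_of_GO h1 h2 h3 (by omega) (by simp only; omega) (by simp only; omega) (by simp only; omega)
      (by simp only; omega) hGO
  rw [← hρ] at hG
  -- the hole configuration
  obtain ⟨x, x', q, q', p, p', hx, hx', hq, hq', hqx, hqx', hp, hp', hxp, hxp', hpp, _⟩ :=
    hole_of_T2 (ρ := (N : ℤ) * n) hkN (by omega) hz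
  have hbp := bd_of_sd hp
  have hbp' := bd_of_sd hp'
  obtain ⟨e, he⟩ := exists_out hbp.1 hbp.2
  obtain ⟨e', he'⟩ := exists_out hbp'.1 hbp'.2
  have g1 : OC z (So (-l) l (-l) l (0, 0) (N * n)) x p := hxp
  have g2 : OC z (So (-l) l (-l) l (0, 0) (N * n)) x' p' := hxp'
  have th1 := through_hole (x0 := -l) (x1 := l) (y0 := -l) (y1 := l) (c0 := (0, 0)) (ρ := (N : ℤ) * n)
    (by simp only; omega) (by simp only; omega) (by simp only; omega) (by simp only; omega) hx hqx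
    (by omega)
  have th2 := through_hole (x0 := -l) (x1 := l) (y0 := -l) (y1 := l) (c0 := (0, 0)) (ρ := (N : ℤ) * n)
    (by simp only; omega) (by simp only; omega) (by simp only; omega) (by simp only; omega) hx' hqx'
    (by omega)
  have hP : Relation.ReflTransGen (PStep (fun e => True ∧ IB (-l) l (-l) l e)) p p' := by
    refine ((Kd458.pstep_mono' ?_ (oc_step g1.symm)).trans ((Kd458.pstep_mono' ?_
      (rtg_pstep_symm th1)).trans (Kd458.pstep_mono' ?_ th2))).trans (Kd458.pstep_mono' ?_ (oc_step g2))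
    · rintro e ⟨_, h4⟩
      exact ⟨trivial, h4.1.1, h4.2.1⟩
    · rintro e h3
      exact ⟨trivial, h3.1⟩
    · rintro e h3
      exact ⟨trivial, h3.1⟩
    · rintro e ⟨_, h4⟩
      exact ⟨trivial, h4.1.1, h4.2.1⟩
  obtain ⟨F, hF⟩ := exists_col (O := fun _ => True) (by omega) (by omega) he he' hP
  obtain ⟨hs1, y, y', w, w', g, g', f, f', hw, hyw, hw', hyw', hy, hyF, hy', hyF', hg, hbg, hg', hbg', hf, hf',
    hff, hff', htt, hgf, hgf', b1, b2, b3, b4⟩ := core_hole (z := z) (c0 := (0, 0)) (by simp only; omega)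
    (by simp only; omega) (by simp only; omega) (by simp only; omega) a1 a2 a3 a4 a5 a6 a7 a8 hx hx' hqx
    (by omega) hqx' (by omega) he he' hF g1 g2 hpp hG
  -- cells
  have hnn : (1 : ℤ) ≤ n := by omega
  have nx := nc_of_sd hnn hx
  have nx' := nc_of_sd hnn hx'
  have ny := nc_of_face hnn hyF hy.2
  have ny' := nc_of_face hnn hyF' hy'.2
  have hn1 : 1 ≤ n := by omega
  have m1 := mem_kp hn1 hNZ nx
  have m2 := mem_kp hn1 hNZ ny
  have m3 := mem_kp hn1 hNZ nx'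
  have m4 := mem_kp hn1 hNZ ny'
  -- distances
  have d1 : 2 * (D3 : ℤ) * u ≤ sd x y := b1.1.1.2
  have d1' : 2 * (D3 : ℤ) * u ≤ sd x' y := b1.1.2
  have d2 : 2 * (D3 : ℤ) * u ≤ sd x y' := b2.1.1.2
  have d2' : 2 * (D3 : ℤ) * u ≤ sd x' y' := b2.1.2
  have e0 : 2 * (D3 : ℤ) * u = 2 * (D3 * u) := by ring
  have f12 : FarN 420 (kp n N x) (kp n N y) := far_kp hn1 hNZ nx ny (by omega)
  have f23 : FarN 420 (kp n N y) (kp n N x') := far_kp hn1 hNZ ny nx' (by
    rw [Kd458.sd_symm]; omega)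
  have f34 : FarN 420 (kp n N x') (kp n N y') := far_kp hn1 hNZ nx' ny' (by omega)
  have f41 : FarN 420 (kp n N y') (kp n N x) := far_kp hn1 hNZ ny' nx (by
    rw [Kd458.sd_symm]; omega)
  have f13 : FarN 420 (kp n N x) (kp n N x') := far_kp hn1 hNZ nx nx' (by omega)
  -- arms off the blocks
  have hP1 : OC z (OutV (Rect (-l) l (-l) l) (N * n) \ Bk2 n (kp n N y) (kp n N y') 8) x p :=
    b3.monoS (sub_blk hn1 hN1 (L := Rect (-l) l (-l) l) (t := u) (by omega) ny ny' hyw hyw')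
  have hP2 : OC z (OutV (Rect (-l) l (-l) l) (N * n) \ Bk2 n (kp n N y) (kp n N y') 8) x' p' :=
    b4.monoS (sub_blk hn1 hN1 (L := Rect (-l) l (-l) l) (t := u) (by omega) ny ny' hyw hyw')
  have hsF : Fo (-l) l (-l) l (0, 0) (N * n) ∩ {v | 2 * (D3 : ℤ) * u ≤ sd x v} ∩
      {v | 2 * (D3 : ℤ) * u ≤ sd x' v} ⊆ OutF (Rect (-l) (l - 1) (-l) (l - 1)) (N * n) ∩
        {v | 2 * (D3 : ℤ) * u ≤ sd x v} ∩ {v | 2 * (D3 : ℤ) * u ≤ sd x' v} := by
    rw [fo_eq]
    exact subset_rfl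
  have hD1 : OC (dual z) (OutF (Rect (-l) (l - 1) (-l) (l - 1)) (N * n) \
      Bk2 n (kp n N x) (kp n N x') 8) y g :=
    (b1.monoS hsF).monoS (sub_blkD hn1 hN1 (by omega) nx nx')
  have hD2 : OC (dual z) (OutF (Rect (-l) (l - 1) (-l) (l - 1)) (N * n) \
      Bk2 n (kp n N x) (kp n N x') 8) y' g' :=
    (b2.monoS hsF).monoS (sub_blkD hn1 hN1 (by omega) nx nx')
  have hgf2 : DStep (fun e => z e = false ∧ IB (-l) l (-l) l e) g f := by
    obtain ⟨e1, ⟨c1, c2⟩, c3⟩ := hgf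
    exact ⟨e1, ⟨c1, c2.1.1, c2.2.1⟩, c3⟩
  have hgf2' : DStep (fun e => z e = false ∧ IB (-l) l (-l) l e) g' f' := by
    obtain ⟨e1, ⟨c1, c2⟩, c3⟩ := hgf'
    exact ⟨e1, ⟨c1, c2.1.1, c2.2.1⟩, c3⟩
  have n3 : 3 * (n : ℤ) ≤ 4 * D1 * D2 * D3 * u := by omega
  have c3 : ((N : ℤ) + 3) * n = N * n + 3 * n := by ring
  obtain ⟨W, hW1, hW2, hW3, hW4, hW⟩ := Sr200.uout_alt hn1 (g := 420) (by norm_num)
    (x0 := -l) (x1 := l) (y0 := -l) (y1 := l) (N := N)
    (by rw [c3]; omega) (by rw [c3]; omega) (by rw [c3]; omega) (by rw [c3]; omega)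
    (nr_kp hnn hNZ nx) (nr_kp hnn hNZ ny) (nr_kp hnn hNZ nx') (nr_kp hnn hNZ ny') f12 f23 f34 f41 f13
    he he' hF m1 m3 hP1 hP2 m2 m4 hD1 hD2 hgf2 hgf2' hf hf' (by rw [hff, hff']; decide)
  refine ⟨W, hW, ?_⟩
  rw [hW1, hW2, hW3, hW4]
  refine ⟨outP hn1 hN1 (t := u) (by omega) nx nx' ny ny' hyw hyw' hp hp' b3 b4, ?_⟩
  -- the dual arms in the ring form
  have ringmem : ∀ {f : P2}, RingF (-l) l (-l) l f → f ∈ RF l := by
    intro f hf
    refine ⟨?_, ?_⟩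
    · have := hf.1
      rw [mem_FSq]; omega
    · intro h5
      rw [mem_rect] at h5
      have := hf.2
      omega
  have fmem : ∀ {f : P2}, RingF (-l) l (-l) l f →
      f ∈ OutF (FSq l) (N * n) ∩ {v | 2 * (D3 : ℤ) * u ≤ sd x v} ∩ {v | 2 * (D3 : ℤ) * u ≤ sd x' v} := by
    intro f hf
    have hfar : ∀ {m : ℤ}, m < l → ¬ sd (0, 0) f ≤ m := by
      intro m hm h3
      rw [sd_le] at h3
      simp only at h3
      rcases hf.2 with h4 | h4 | h4 | h4 <;> omega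
    have h6 : ∀ {v : P2}, sd (0, 0) v = N * n → 2 * (D3 : ℤ) * u ≤ sd v f := by
      intro v hv
      by_contra h7
      have h8 := Kd458.sd_tri (0, 0) v f
      exact hfar (show (N : ℤ) * n + 2 * (D3 : ℤ) * u < l by omega) (by omega)
    rw [fo_eq]
    refine ⟨⟨⟨(ringmem hf).1, ?_⟩, h6 hx⟩, h6 hx'⟩
    intro h7
    simp only [Fi, mem_rect] at h7
    apply hfar (show (N : ℤ) * n < l by omega)
    rw [sd_le]
    simp only
    omega
  have hsT : Fo (-l) l (-l) l (0, 0) (N * n) ∩ {v | 2 * (D3 : ℤ) * u ≤ sd x v} ∩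
      {v | 2 * (D3 : ℤ) * u ≤ sd x' v} ⊆ OutF (FSq l) (N * n) ∩ {v | 2 * (D3 : ℤ) * u ≤ sd x v} ∩
        {v | 2 * (D3 : ℤ) * u ≤ sd x' v} := by
    rintro v ⟨⟨⟨hv1, hv2⟩, hv3⟩, hv4⟩
    rw [fo_eq]
    refine ⟨⟨⟨?_, hv2⟩, hv3⟩, hv4⟩
    rw [mem_rect] at hv1
    rw [mem_FSq]
    omega
  exact outD hn1 hN1 (s := 2 * (D3 : ℤ) * u) (by omega) nx nx' ny ny' (ringmem hf) (ringmem hf')
    (to_ring b1 hgf (fmem hf) hsT) (to_ring b2 hgf' (fmem hf') hsT)

/-- **The annulus form of the four-arm bound from the two point bounds.** -/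
theorem hypU4 (hL : Cpl963.L4) (hU : Ax107.P4U) : HypU4 :=
  hypU4_of (by norm_num) covT2 sepIn hL hU

end Crest.Agent.R158.Qf808
end
end

-- ▼ part R158/Top4_772

/-!
# Row 158 (helper772, integration of S0235 + S0236), part 4: state of Nov 16, 23:10

* `hypW_main`, `hypA_law` : `HypW`, `HypA` from `Bs410.Law3`
* `near4` : `HypB`, `HypC`, `HypD` from `SB`, `SC`, `SD`
* `both4` : S0235 and S0236 from `Bs410.Law3`, `SB`, `SC`, `SD`
-/

set_option autoImplicit false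

noncomputable section

namespace Crest.Agent.R158.Top772

open MeasureTheory Filter Topology unitInterval
open Crest.ProbabilityR.Percolation Crest.ProbabilityR.FirstPassage
open Crest.Agent.R161.Geo729 Crest.Agent.R161.Tas682
open Crest.Agent.R158.Fr158 Crest.Agent.R158.Cpl963 Crest.Agent.R158.Ld570
open Crest.Agent.R158.Ax107

theorem hypW_main (hLaw : Bs410.Law3) : HypW := Wf850.hyp_main hLaw

/-- **the one-arm exponent** -/
theorem hypA_law (hLaw : Bs410.Law3) : HypA := hypA_of hLaw (hypW_main hLaw)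

/-- the near-critical inputs from the critical two-arm and four-arm inequalities -/
theorem near4 (hB : SB p2) (hC : SC p2 p4) (hD : SD p2 p4) : HypB ∧ HypC ∧ HypD := by
  obtain ⟨hL, h4, _, _⟩ := Ax107.final hB hC hD
  have hU : HypU4 := Qf808.hypU4 hL h4
  exact ⟨hypB_of_U4 hU, hypC_of_U4 hU,
    Ld570.hypD_of_U4 le_rfl (Oc874.covPiv (le_refl 500)) hU hL⟩

/-- both statements from the leaves open on Nov 16, 23:10 -/
theorem both4 (hLaw : Bs410.Law3) (hB : SB p2) (hC : SC p2 p4) (hD : SD p2 p4) :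
    St235 ∧ St236 := by
  obtain ⟨nB, nC, nD⟩ := near4 hB hC hD
  have hA := hypA_law hLaw
  exact ⟨Fr158.s0235 hA nB nD, Fr158.s0236' hA nB nC nD⟩

end Crest.Agent.R158.Top772
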