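import Crest.Agent.R158.Gx3_31
import Crest.Agent.R158.Vx7_107
import Crest.Agent.R158.Ax2_107
import Crest.Agent.R158.Lc5_522
import Crest.Agent.R158.Bk11_430
import Crest.Agent.R158.Vg1_109
import Crest.Agent.R158.Sp4_580
import Crest.Agent.R158.Sh1_158
import Crest.Agent.R158.Sb3_689
import Crest.Agent.R158.Hp7_814
import Crest.Agent.R158.Qf6_808

-- ▼ part R158/Ud1_107
section

/-!
# R158, Block A4, leaf D (helper107), file 1: UB4, the left side

* `RingW C0 R w` : `w` is a probability density `≤ C0 / R²` on the ring `R / 2 ≤ sd ≤ 2 R`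
* `cg a w g = a w - a δ_g` : the charges of leaf D
* `ab_pos`, `ab_neg` : pointwise bounds of `W (cg (± 2π/3) w g)`
* `int_nab_le` : charges far from `e` : `|∫ nab m e| ≤ 2 ∫ 1_{A4} |W m|`
-/

set_option autoImplicit false

noncomputable section

namespace Crest.Agent.R158.Ud107

open Real Function MeasureTheory
open Crest.Agent.R161.Tas682 (sd)
open Crest.Agent.R161.Geo729
open Crest.Agent.R158.It200 (Cfz Corner fc)
open Crest.Agent.R158.Wf850 (Lps Face BF mem_BF Splits BF_mono sd_self sd_tri sd_symm' NN NN_dep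
  annF)
open Crest.Agent.R158.Vx107 (Fw Sw Ntr W mass tot nab op cl mass_add mass_neg mass_smul tot_add
  tot_neg tot_smul AllFin fin_supp abs_Fw_le Fw_zero)
open Crest.Agent.R158.Cn109 (VV DepF dia)
open Crest.Agent.R158.Hd109 (Dens Err)
open Crest.Agent.R158.Gx31 (Sys Loc Lin CR CR_fin shr)
open Crest.Agent.R158.Rs689 (nu hf Dep)
open Crest.Agent.R158.Em522 (starE)
open Crest.Agent.R158.Lc522 (Sh shE nnF mem_nnF nnF_card)

local notation "μh" => nu Crest.Agent.R158.Rs689.hf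

/-! ### the gradient -/

theorem A4_flip {e : Edge} {N : ℤ} {z : Cfz} : It200.flip z e ∈ Sp580.A4 e N ↔ z ∈ Sp580.A4 e N := by
  have h : Ru874.frc e false (It200.flip z e) = Ru874.frc e false z := by
    unfold Ru874.frc
    funext e'
    by_cases h' : e' = e
    · subst h'; simp
    · unfold Function.update
      rw [dif_neg h', dif_neg h', It200.flip_ne z h']
  unfold Sp580.A4
  simp only [Set.mem_ofPred_eq, h]

/-- indicator of the four arm event times `|W m|` -/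
def GA (m : Face →₀ ℝ) (e : Edge) (N : ℤ) (z : Cfz) : ℝ :=
  (Sp580.A4 e N).indicator (fun z => |W m z|) z

theorem GA_nonneg (m : Face →₀ ℝ) (e : Edge) (N : ℤ) (z : Cfz) : 0 ≤ GA m e N z :=
  Set.indicator_nonneg (fun _ _ => abs_nonneg _) z

theorem GA_int {m : Face →₀ ℝ} (hm : Ntr m) (e : Edge) (N : ℤ) : Integrable (GA m e N) μh :=
  (Vx107.integrable_W hm _).abs.indicator (Ax107.A4_meas e N)

/-- **charges far from `e`** -/
theorem int_nab_le {m : Face →₀ ℝ} (hm : Ntr m) {e : Edge} {N : ℕ} (hN : 1 ≤ N)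
    (hfar : ∀ f, m f ≠ 0 → (N : ℤ) + 2 ≤ sd (src e) f.1) :
    |∫ z, nab m e z ∂μh| ≤ 2 * ∫ z, GA m e N z ∂μh := by
  have hG := GA_int hm e N
  have hGf := Vx107.int_flip hG e
  have hp : ∀ z, AllFin z → |nab m e z| ≤ GA m e N z + GA m e N (It200.flip z e) := by
    intro z hz
    by_cases h : nab m e z = 0
    · rw [h, abs_zero]
      exact add_nonneg (GA_nonneg _ _ _ _) (GA_nonneg _ _ _ _)
    · have h4 := Vx107.nab_ne hz hm hN hfar h
      have h4' : It200.flip z e ∈ Sp580.A4 e N := A4_flip.2 h4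
      rw [← Vx107.op_add_cl (GA m e N) z e]
      have a1 : op z e ∈ Sp580.A4 e N := by
        cases hc : z e with
        | true => rw [Vx107.op_of hc]; exact h4
        | false => rw [Vx107.op_of' hc]; exact h4'
      have a2 : cl z e ∈ Sp580.A4 e N := by
        cases hc : z e with
        | true => rw [Vx107.cl_of' hc]; exact h4'
        | false => rw [Vx107.cl_of hc]; exact h4
      unfold GA
      rw [Set.indicator_of_mem a1, Set.indicator_of_mem a2]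
      unfold nab
      exact abs_sub _ _
  calc |∫ z, nab m e z ∂μh| ≤ ∫ z, |nab m e z| ∂μh := abs_integral_le_integral_abs
    _ ≤ ∫ z, (GA m e N z + GA m e N (It200.flip z e)) ∂μh :=
        integral_mono_ae (Vx107.integrable_nab hm e).abs (hG.add hGf)
          (Vx107.ae_fin.mono fun z hz => hp z hz)
    _ = 2 * ∫ z, GA m e N z ∂μh := by
        rw [integral_add hG hGf, Vx107.integral_flip hG]; ring

/-! ### the charges -/

/-- probability density `≤ C0 / R²` on the ring `R / 2 ≤ sd ≤ 2 R` -/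
structure RingW (C0 : ℝ) (R : ℕ) (w : Face →₀ ℝ) : Prop where
  nn : ∀ f, 0 ≤ w f
  tot : tot w = 1
  sub : ∀ f, w f ≠ 0 → f ∈ BF (0, 0) (2 * (R : ℤ)) ∧ f ∉ BF (0, 0) ((R : ℤ) / 2 - 1)
  le : ∀ f, w f ≤ C0 / (R : ℝ) ^ 2

theorem ringW_ws {R : ℕ} (hR : 1 ≤ R) : RingW 1 R (Bk430.ws R) where
  nn := Bk430.ws_nonneg hR
  tot := Bk430.tot_ws hR
  sub := fun f hf => by
    obtain ⟨h1, h2⟩ := Bk430.ws_support hR hf
    refine ⟨?_, ?_⟩
    · rw [mem_BF] at h1 ⊢; push_cast at h1; exact h1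
    · rw [mem_BF]; omega
  le := fun f => (Bk430.ws_le hR f).trans (by
    have h0 : (0 : ℝ) < (R : ℝ) ^ 2 := by positivity
    rw [one_div]
    exact inv_anti₀ h0 (by linarith))

/-- the charges of leaf D -/
def cg (a : ℝ) (w : Face →₀ ℝ) (g : Face) : Face →₀ ℝ := a • w - Finsupp.single g a

theorem cg_neg (a : ℝ) (w : Face →₀ ℝ) (g : Face) : -cg a w g = cg (-a) w g := by
  unfold cg
  rw [neg_sub, neg_smul, Finsupp.single_neg]
  abel

theorem mass_single (g : Face) (a : ℝ) (A : Finset Face) [Decidable (g ∈ A)] :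
    mass (Finsupp.single g a) A = if g ∈ A then a else 0 := by
  classical
  unfold mass
  simp only [Finsupp.single_apply]
  rw [Finset.sum_ite_eq]
  split_ifs <;> rfl

theorem mass_cg (a : ℝ) (w : Face →₀ ℝ) (g : Face) (A : Finset Face) [Decidable (g ∈ A)] :
    mass (cg a w g) A = a * mass w A - if g ∈ A then a else 0 := by
  unfold cg
  rw [sub_eq_add_neg, mass_add, mass_neg, mass_smul, mass_single, sub_eq_add_neg]

theorem tot_single (g : Face) (a : ℝ) : tot (Finsupp.single g a) = a := by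
  unfold tot
  rw [Finsupp.sum_single_index rfl]

section ring

variable {C0 : ℝ} {R : ℕ} {w : Face →₀ ℝ}

theorem RingW.ntr (h : RingW C0 R w) (a : ℝ) (g : Face) : Ntr (cg a w g) := by
  show Vx107.tot (cg a w g) = 0
  unfold cg
  rw [sub_eq_add_neg, tot_add, tot_neg, tot_smul, h.tot, tot_single]; ring


theorem RingW.sd_ge (h : RingW C0 R w) {f : Face} (hf : w f ≠ 0) : (R : ℤ) ≤ 2 * sd (0, 0) f.1 + 1 := by
  have := (h.sub f hf).2
  rw [mem_BF] at this
  omega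

theorem RingW.exists_mem (h : RingW C0 R w) : ∃ f, w f ≠ 0 := by
  by_contra hcon
  push Not at hcon
  have h0 : w = 0 := Finsupp.ext hcon
  have h1 := h.tot
  rw [h0] at h1
  unfold Vx107.tot at h1
  rw [Finsupp.sum_zero_index] at h1
  exact zero_ne_one h1

theorem RingW.sum_supp (h : RingW C0 R w) : ∑ f ∈ w.support, w f = 1 := h.tot


theorem RingW.mass_one (h : RingW C0 R w) {A : Finset Face} (hA : BF (0, 0) (2 * (R : ℤ)) ⊆ A) :
    mass w A = 1 := by
  classical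
  rw [← h.sum_supp]
  unfold mass
  refine (Finset.sum_subset (fun f hf => hA (h.sub f (Finsupp.mem_support_iff.1 hf)).1)
    fun f _ hf => ?_).symm
  exact Finsupp.notMem_support_iff.1 hf

theorem mass_zero_of {A : Finset Face} (hA : ∀ f ∈ A, w f = 0) : mass w A = 0 :=
  Finset.sum_eq_zero hA

/-- a nonlocal loop which meets the ring and does not contain `BF 0 2R` is crossing -/
theorem RingW.cross (h : RingW C0 R w) {κ : ℕ} (hκ : R < 8 * 2 ^ κ) {z : Cfz} {A : Finset Face}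
    (hA : A ∈ Lps z) (hm : ∃ f ∈ A, w f ≠ 0) (hl : ¬ dia A + 1 < 2 ^ κ)
    (hB : ¬ BF (0, 0) (2 * (R : ℤ)) ⊆ A) : A ∈ CR (0, 0) (2 * R) 16 z := by
  obtain ⟨f, hf, hw⟩ := hm
  rw [Finset.not_subset] at hB
  have e1 : ((2 * R : ℕ) : ℤ) = 2 * (R : ℤ) := by push_cast; ring
  refine ⟨hA, ?_, ?_⟩
  · rw [e1]
    exact ⟨⟨f, (h.sub f hw).1, hf⟩, hB⟩
  · omega

/-- `Sys` of the ring -/
theorem RingW.sys (h : RingW C0 R w) {κ : ℕ} (hκ : 4 * 2 ^ κ ≤ R) (a : ℝ) {g : Face}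
    (hg : 4 * sd (0, 0) g.1 ≤ R) (hR : 4 ≤ R) :
    Sys (fun _ : Unit => κ) (fun _ => w.support) (fun _ => w) (fun _ => a) (cg a w g) where
  nn := fun _ f _ => h.nn f
  sum := fun _ => h.sum_supp
  val := fun _ f hf => by
    have hne : g ≠ f := by
      rintro rfl
      have := h.sd_ge (Finsupp.mem_support_iff.1 hf)
      omega
    unfold cg
    rw [Finsupp.sub_apply, Finsupp.smul_apply, Finsupp.single_apply, if_neg hne, sub_zero]
    rfl
  sepV := fun i j hij => absurd (Subsingleton.elim i j) hij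
  sepm := fun _ f hf f' hf' hn => by
    have h1 : f' = g := by
      by_contra hne
      apply hf'
      unfold cg
      rw [Finsupp.sub_apply, Finsupp.smul_apply, Finsupp.single_apply, if_neg (Ne.symm hne),
        sub_zero, Finsupp.notMem_support_iff.1 hn, smul_zero]
    rw [h1]
    have h2 := h.sd_ge (Finsupp.mem_support_iff.1 hf)
    have h3 := sd_tri (0, 0) g.1 f.1
    have h4 := sd_symm' f.1 g.1
    have h5 : (4 : ℤ) * 2 ^ κ ≤ R := by exact_mod_cast hκ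
    omega

theorem RingW.dens (h : RingW C0 R w) (hC0 : 0 ≤ C0) {κ : ℕ} (hκ : 4 * 2 ^ κ ≤ R) :
    Dens C0 κ w.support w where
  nn := fun f _ => h.nn f
  sum := h.sum_supp
  le := fun f _ => by
    refine (h.le f).trans ?_
    have h1 : (4 : ℝ) * 2 ^ κ ≤ R := by exact_mod_cast hκ
    have h2 : (4 : ℝ) ^ κ = (2 ^ κ) ^ 2 := by rw [← pow_mul, mul_comm κ 2, pow_mul]; norm_num
    have h3 : (0 : ℝ) < 2 ^ κ := by positivity
    refine div_le_div_of_nonneg_left hC0 (by positivity) ?_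
    rw [h2]
    nlinarith

/-! ### values of the weight -/

theorem Fw_23 : Fw (-(2 * π / 3)) = 1 := by
  unfold Fw
  have : π / 3 + -(2 * π / 3) = -(π / 3) := by ring
  rw [this, cos_neg, cos_pi_div_three]; norm_num

/-- the error exponent of the ring -/
def Er (a : ℝ) (κ : ℕ) (w : Face →₀ ℝ) (z : Cfz) : ℝ :=
  Err (fun _ : Unit => √3 * a) (fun _ => 12 * a ^ 2) (fun _ => κ) (fun _ => w.support) (fun _ => w) z

theorem Lin_unit (a : ℝ) (κ : ℕ) : Lin (fun _ : Unit => a) (fun _ => κ) = √3 * a * VV κ := by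
  unfold Gx31.Lin
  simp [mul_assoc]

theorem mem_Loc_unit {κ : ℕ} {z : Cfz} {A : Finset Face} (hA : A ∈ Lps z)
    (hm : ∃ f ∈ A, w f ≠ 0) (hl : dia A + 1 < 2 ^ κ) :
    A ∈ Loc (fun _ : Unit => κ) (fun _ => w.support) z := by
  rw [Gx31.mem_Loc']
  obtain ⟨f, hf, hw⟩ := hm
  exact ⟨hA, (), ⟨f, Finsupp.mem_support_iff.2 hw, hf⟩, hl⟩

/-- **pointwise bound, `a = 2π/3`** -/
theorem ab_pos (h : RingW C0 R w) {κ : ℕ} (hκ : 4 * 2 ^ κ ≤ R) (hκ' : R < 8 * 2 ^ κ) {g : Face}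
    (hg : 4 * sd (0, 0) g.1 ≤ R) (hR : 4 ≤ R) (z : Cfz) :
    |W (cg (2 * π / 3) w g) z| ≤ exp (-(√3 * (2 * π / 3) * VV κ) + Er (2 * π / 3) κ w z) *
      2 ^ (CR (0, 0) (2 * R) 16 z).ncard := by
  classical
  have hs := h.sys hκ (2 * π / 3) hg hR
  have h1 := Gx31.GU hs (z := z) (S := Lps z) (fun A hA => Gx31.Loc_sub hA)
    (g := fun A => Fw (mass (cg (2 * π / 3) w g) A)) (fin_supp (h.ntr _ g) subset_rfl)
    (fun A _ => le_rfl)
  rw [Lin_unit] at h1
  refine h1.trans (mul_le_mul_of_nonneg_left ?_ (exp_pos _).le)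
  refine Gx31.free_le' (CR_fin _ _ _ z) (fun A hA hA' => ?_) fun A _ => abs_Fw_le _
  rw [mass_cg]
  by_cases hm : ∃ f ∈ A, w f ≠ 0
  · have hl : ¬ dia A + 1 < 2 ^ κ := fun hl => hA.2 (mem_Loc_unit hA.1 hm hl)
    have hB : BF (0, 0) (2 * (R : ℤ)) ⊆ A := by
      by_contra hB
      exact hA' (h.cross hκ' hA.1 hm hl hB)
    have hgA : g ∈ A := hB (by rw [mem_BF]; omega)
    rw [if_pos hgA, h.mass_one hB, mul_one, sub_self, Fw_zero, abs_one]
  · push Not at hm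
    rw [mass_zero_of hm, mul_zero, zero_sub]
    split_ifs
    · rw [Fw_23, abs_one]
    · rw [neg_zero, Fw_zero, abs_one]

/-- the loops around `g` which do not contain `BF 0 2R` -/
def FB (R : ℕ) (g : Face) (z : Cfz) : Set (Finset Face) :=
  {A | A ∈ Lps z ∧ g ∈ A ∧ ¬ BF (0, 0) (2 * (R : ℤ)) ⊆ A}

theorem FB_fin {g : Face} (hg : sd (0, 0) g.1 ≤ 2 * R) (z : Cfz) : (FB R g z).Finite := by
  refine (Wf850.fin_split z (0, 0) (2 * (R : ℤ))).subset fun A hA => ⟨hA.1, ?_⟩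
  refine ⟨⟨g, ?_, hA.2.1⟩, Finset.not_subset.1 hA.2.2⟩
  rw [mem_BF]; exact hg

/-- **pointwise bound, `a = -2π/3`** -/
theorem ab_neg (h : RingW C0 R w) {κ : ℕ} (hκ : 4 * 2 ^ κ ≤ R) (hκ' : R < 8 * 2 ^ κ) {g : Face}
    (hg : 4 * sd (0, 0) g.1 ≤ R) (hR : 4 ≤ R) (z : Cfz) :
    |W (cg (-(2 * π / 3)) w g) z| ≤ exp (√3 * (2 * π / 3) * VV κ + Er (-(2 * π / 3)) κ w z) *
      2 ^ ((CR (0, 0) (2 * R) 16 z).ncard + (FB R g z).ncard) := by
  classical
  have hs := h.sys hκ (-(2 * π / 3)) hg hR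
  have h1 := Gx31.GU hs (z := z) (S := Lps z) (fun A hA => Gx31.Loc_sub hA)
    (g := fun A => Fw (mass (cg (-(2 * π / 3)) w g) A)) (fin_supp (h.ntr _ g) subset_rfl)
    (fun A _ => le_rfl)
  rw [Lin_unit] at h1
  have e1 : -(√3 * -(2 * π / 3) * VV κ) = √3 * (2 * π / 3) * VV κ := by ring
  rw [e1] at h1
  refine h1.trans (mul_le_mul_of_nonneg_left ?_ (exp_pos _).le)
  have hF2 : (FB R g z).Finite := FB_fin (by omega) z
  refine (Gx31.free_le' ((CR_fin _ _ _ z).union hF2) (fun A hA hA' => ?_)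
    fun A _ => abs_Fw_le _).trans (pow_le_pow_right₀ (by norm_num) (Set.ncard_union_le _ _))
  rw [mass_cg]
  rw [Set.mem_union, not_or] at hA'
  by_cases hm : ∃ f ∈ A, w f ≠ 0
  · have hl : ¬ dia A + 1 < 2 ^ κ := fun hl => hA.2 (mem_Loc_unit hA.1 hm hl)
    have hB : BF (0, 0) (2 * (R : ℤ)) ⊆ A := by
      by_contra hB
      exact hA'.1 (h.cross hκ' hA.1 hm hl hB)
    have hgA : g ∈ A := hB (by rw [mem_BF]; omega)
    rw [if_pos hgA, h.mass_one hB, mul_one, sub_self, Fw_zero, abs_one]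
  · have hgA : g ∉ A := by
      intro hgA
      refine hA'.2 ⟨hA.1, hgA, fun hB => hm ?_⟩
      obtain ⟨f, hf⟩ := h.exists_mem
      exact ⟨f, hB (h.sub f hf).1, hf⟩
    push Not at hm
    rw [mass_zero_of hm, mul_zero, zero_sub, if_neg hgA, neg_zero, Fw_zero, abs_one]

end ring

end Crest.Agent.R158.Ud107
end
end

-- ▼ part R158/Ud2_107
section

/-!
# R158, Block A4, leaf D (helper107), file 2: UB4

* `card_FB` : the loops around `g = (v, b)` which do not contain `BF 0 2R`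
* `NN_tr`   : `∫ exp (s NN v r R) = ∫ exp (s NN 0 r R)`
* `ub4_pos`, `ub4_neg` : UB4
-/

set_option autoImplicit false

noncomputable section

namespace Crest.Agent.R158.Ud107

open Real Function MeasureTheory
open Crest.Agent.R161.Tas682 (sd)
open Crest.Agent.R161.Geo729
open Crest.Agent.R158.It200 (Cfz Corner fc)
open Crest.Agent.R158.Wf850 (Lps Face BF mem_BF Splits BF_mono sd_self sd_tri sd_symm' NN NN_dep
  annF)
open Crest.Agent.R158.Vx107 (Fw Sw Ntr W mass tot nab op cl mass_add mass_neg mass_smul tot_add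
  tot_neg tot_smul AllFin fin_supp abs_Fw_le Fw_zero)
open Crest.Agent.R158.Cn109 (VV DepF dia)
open Crest.Agent.R158.Hd109 (Dens Err)
open Crest.Agent.R158.Gx31 (Sys Loc Lin CR CR_fin shr)
open Crest.Agent.R158.Rs689 (nu hf Dep)
open Crest.Agent.R161.Ring421 (shiftZ measurable_shiftZ)
open Crest.Agent.R158.Em522 (starE)
open Crest.Agent.R158.Lc522 (Sh shE nnF mem_nnF nnF_card)

local notation "μh" => nu Crest.Agent.R158.Rs689.hf

/-- dyadic radii -/
abbrev dr (r : ℕ) (i : ℕ) : ℕ := 2 ^ i * r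

open Classical in
/-- **loops around `g`** -/
theorem card_FB {v : P2} {b : Bool} {R r k : ℕ} {K : ℕ → Cfz → ℕ}
    (hK : ∀ z i (s : Finset (Finset Face)), (∀ A ∈ s, Sh z v (dr r i) (dr r (i + 1)) A) →
      s.card ≤ K i z) (hv : sd (0, 0) v ≤ R) (hk : 3 * R ≤ 2 ^ k * r) (z : Cfz) :
    (FB R (v, b) z).ncard ≤ 4 + NN v 0 r z + (CR v r 1 z).ncard + ∑ i ∈ Finset.range k, K i z := by
  have hfin : (FB R (v, b) z).Finite := FB_fin (by show sd (0, 0) v ≤ 2 * (R : ℤ); omega) z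
  rw [Set.ncard_eq_toFinset_card _ hfin]
  set F := hfin.toFinset with hF
  have hmem : ∀ A, A ∈ F ↔ A ∈ FB R (v, b) z := fun A => by rw [hF, Set.Finite.mem_toFinset]
  have hC := CR_fin v r 1 z
  have hsub : F ⊆ (F.filter (fun A => ¬ BF v 0 ⊆ A) ∪ nnF v 0 r z ∪ hC.toFinset) ∪
      (Finset.range k).biUnion fun i => F.filter (Sh z v (dr r i) (dr r (i + 1))) := by
    intro A hA
    obtain ⟨h1, h2, h3⟩ := (hmem A).1 hA
    by_cases h4 : BF v 0 ⊆ A
    swap
    · exact Finset.mem_union_left _ (Finset.mem_union_left _ (Finset.mem_union_left _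
        (Finset.mem_filter.2 ⟨hA, h4⟩)))
    by_cases h5 : A ⊆ BF v r
    · exact Finset.mem_union_left _ (Finset.mem_union_left _ (Finset.mem_union_right _
        (mem_nnF.2 ⟨h5, h4, h1⟩)))
    by_cases h6 : BF v r ⊆ A
    swap
    · refine Finset.mem_union_left _ (Finset.mem_union_right _ ?_)
      rw [Set.Finite.mem_toFinset]
      have h7 := Lc522.dia_ge' (x := v) (r := 0) h4 h5
      refine ⟨h1, ⟨⟨(v, b), ?_, h2⟩, Finset.not_subset.1 h6⟩, by omega⟩
      rw [mem_BF, sd_self]; positivity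
    · refine Finset.mem_union_right _ ?_
      have h8 : ¬ BF v (dr r k) ⊆ A := by
        intro h8
        apply h3
        refine Finset.Subset.trans (fun f hf => ?_) h8
        rw [mem_BF] at hf ⊢
        have h9 := sd_tri v (0, 0) f.1
        have h10 := sd_symm' v (0, 0)
        have h11 : (3 : ℤ) * R ≤ ((dr r k : ℕ) : ℤ) := by exact_mod_cast hk
        omega
      obtain ⟨i, hi, h9, h10⟩ := Lc522.exists_first (x := v) (ρ := dr r) (A := A) (k := k)
        (by simpa [dr] using h6) h8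
      rw [Finset.mem_biUnion]
      refine ⟨i, Finset.mem_range.2 hi, Finset.mem_filter.2 ⟨hA, h1, h9,
        Lc522.splits_of h9 h10, ?_⟩⟩
      have h11 := Lc522.dia_ge h9
      have h12 : dr r (i + 1) = 2 * dr r i := by unfold dr; rw [pow_succ]; ring
      omega
  have h1 : (F.filter (fun A => ¬ BF v 0 ⊆ A)).card ≤ 4 := by
    have := Lc522.card_split_le (z := z) (x := v) (n := 0) (F.filter (fun A => ¬ BF v 0 ⊆ A))
      (fun A hA => by
        obtain ⟨h2, h3⟩ := Finset.mem_filter.1 hA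
        obtain ⟨h4, h5, h6⟩ := (hmem A).1 h2
        refine ⟨h4, ⟨(v, b), ?_, h5⟩, Finset.not_subset.1 h3⟩
        rw [mem_BF, sd_self]; positivity)
    simpa using this
  refine (Finset.card_le_card hsub).trans ((Finset.card_union_le _ _).trans (add_le_add
    ((Finset.card_union_le _ _).trans (add_le_add
      ((Finset.card_union_le _ _).trans (add_le_add h1 ?_)) ?_)) ?_))
  · rw [nnF_card]
  · rw [Set.ncard_eq_toFinset_card _ hC]
  · refine Finset.card_biUnion_le.trans (Finset.sum_le_sum fun i _ => ?_)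
    exact hK z i _ fun A hA => (Finset.mem_filter.1 hA).2

/-! ### translation of `NN` -/

theorem BF_map (v : P2) (n : ℤ) : (BF (0, 0) n).map (Wf850.shF v) = BF v n := by
  ext f
  rw [Wf850.mem_shF, mem_BF, mem_BF]
  have : sd (0, 0) (f.1 - v) = sd v f.1 := by
    unfold sd; simp
  rw [this]

theorem NN_shift (v : P2) (r R : ℤ) (z : Cfz) :
    NN v r R z = NN (0, 0) r R (shiftZ v z) := by
  classical
  rw [nnF_card, nnF_card]
  have h : nnF v r R z = (nnF (0, 0) r R (shiftZ v z)).image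
      fun A => A.map (Wf850.shF v) := by
    ext A
    rw [Finset.mem_image]
    constructor
    · intro hA
      obtain ⟨B, rfl⟩ := Cn109.shF_surj v A
      obtain ⟨h1, h2, h3⟩ := mem_nnF.1 hA
      refine ⟨B, mem_nnF.2 ⟨?_, ?_, (Wf850.lps_shift v z B).1 h3⟩, rfl⟩
      · rw [← BF_map v R, Finset.map_subset_map] at h1; exact h1
      · rw [← BF_map v r, Finset.map_subset_map] at h2; exact h2
    · rintro ⟨B, hB, rfl⟩
      obtain ⟨h1, h2, h3⟩ := mem_nnF.1 hB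
      refine mem_nnF.2 ⟨?_, ?_, (Wf850.lps_shift v z B).2 h3⟩
      · rw [← BF_map v R, Finset.map_subset_map]; exact h1
      · rw [← BF_map v r, Finset.map_subset_map]; exact h2
  rw [h, Finset.card_image_of_injective _ (Finset.map_injective _)]

theorem NN_tr (s : ℝ) (v : P2) (r R : ℤ) :
    ∫ z, exp (s * NN v r R z) ∂μh = ∫ z, exp (s * NN (0, 0) r R z) ∂μh := by
  simp only [NN_shift v]
  have h2 : Measure.map (shiftZ v) μh = μh := Rs689.tInv hf v
  have h3 := integral_map (μ := μh) (φ := shiftZ v)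
    (f := fun z => exp (s * NN (0, 0) r R z)) (measurable_shiftZ v).aemeasurable
    (((NN_dep (0, 0) r R).comp fun n : ℕ => exp (s * n)).measurable.aestronglyMeasurable)
  rw [h2] at h3
  exact h3.symm

end Crest.Agent.R158.Ud107
end
end

-- ▼ part R158/Ud3_107
section

/-!
# R158, Block A4, leaf D (helper107), file 3: UB4

* `ub4_pos`, `ub4_neg` : bounds of `∫ nab (± cg (2π/3) w g) x`
-/

set_option autoImplicit false

noncomputable section

namespace Crest.Agent.R158.Ud107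

open Real Function MeasureTheory
open Crest.Agent.R161.Tas682 (sd)
open Crest.Agent.R161.Geo729
open Crest.Agent.R158.It200 (Cfz Corner fc)
open Crest.Agent.R158.Wf850 (Lps Face BF mem_BF Splits BF_mono sd_self sd_tri sd_symm' NN NN_dep
  annF)
open Crest.Agent.R158.Vx107 (Fw Sw Ntr W mass tot nab op cl)
open Crest.Agent.R158.Cn109 (VV DepF dia)
open Crest.Agent.R158.Hd109 (Dens Err)
open Crest.Agent.R158.Gx31 (CR CR_fin)
open Crest.Agent.R158.Rs689 (nu hf Dep)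
open Crest.Agent.R158.Em522 (starE)
open Crest.Agent.R158.Lc522 (Sh shE nnF mem_nnF nnF_card)

local notation "μh" => nu Crest.Agent.R158.Rs689.hf

/-! ### tools -/

theorem exp_log2 (n : ℕ) : exp (log 2 * n) = 2 ^ n := by
  rw [exp_mul, exp_log (by norm_num), rpow_natCast]

theorem A4_depF (e : Edge) (N : ℤ) (f : Cfz → ℝ) {S : Finset Edge} (hf : DepF S f) :
    DepF (Cpl963.eAn (src e) 0 N ∪ S) (fun z => (Sp580.A4 e N).indicator f z) := by
  classical
  intro z z' h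
  have h1 : z ∈ Sp580.A4 e N ↔ z' ∈ Sp580.A4 e N := by
    rw [Cpl963.A4_eq]
    exact Cpl963.A4_dep e N z z' fun e' he' => h e' (Finset.mem_union_left _ he')
  have h2 := hf z z' fun e' he' => h e' (Finset.mem_union_right _ he')
  show (Sp580.A4 e N).indicator f z = (Sp580.A4 e N).indicator f z'
  by_cases h3 : z ∈ Sp580.A4 e N
  · rw [Set.indicator_of_mem h3, Set.indicator_of_mem (h1.1 h3), h2]
  · rw [Set.indicator_of_notMem h3, Set.indicator_of_notMem fun h4 => h3 (h1.2 h4)]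

/-- union of the supports of finitely many functions -/
theorem exp_int {S : Finset Edge} {f : Cfz → ℝ} (hf : DepF S f) (c : ℝ) :
    Integrable (fun z => exp (c * f z)) μh :=
  (hf.comp fun y => exp (c * y)).integrable _

theorem log_lev {R : ℕ} (hR : 8 ≤ R) : 4 * 2 ^ (Nat.log 2 R - 2) ≤ R ∧ R < 8 * 2 ^ (Nat.log 2 R - 2) := by
  have h1 : 3 ≤ Nat.log 2 R := (Nat.le_log_iff_pow_le (by norm_num) (by omega)).2 (by simpa using hR)
  obtain ⟨l, hl⟩ : ∃ l, Nat.log 2 R = l + 2 := ⟨Nat.log 2 R - 2, by omega⟩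
  have h2 := Nat.pow_log_le_self 2 (x := R) (by omega)
  have h3 := Nat.lt_pow_succ_log_self (b := 2) (by norm_num) R
  rw [hl] at h2 h3 ⊢
  simp only [Nat.add_sub_cancel]
  have e1 : 2 ^ (l + 2) = 4 * 2 ^ l := by rw [pow_add]; ring
  have e2 : 2 ^ (l + 2).succ = 8 * 2 ^ l := by rw [pow_succ, pow_add]; ring
  rw [e1] at h2
  rw [e2] at h3
  exact ⟨h2, h3⟩

/-- `C ^ k ≤ B (R / n) ^ B` for the dyadic number of shells -/
theorem shells_pow {C : ℝ} (hC : 1 ≤ C) : ∃ B : ℝ, 1 ≤ B ∧ ∀ n R : ℕ, 2 ≤ n → n ≤ R →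
    ∃ k : ℕ, 3 * R ≤ 2 ^ k * (n / 2) ∧ C ^ k ≤ B * ((R : ℝ) / n) ^ B := by
  have hC0 : 0 < C := by linarith
  set α : ℝ := Real.logb 2 C with hα
  have hα0 : 0 ≤ α := Real.logb_nonneg (by norm_num) hC
  have hCα : (2 : ℝ) ^ α = C := Real.rpow_logb (by norm_num) (by norm_num) hC0
  refine ⟨max (C * 9 ^ α) α, le_max_of_le_left ?_, fun n R hn hR => ?_⟩
  · have : (1 : ℝ) ≤ 9 ^ α := Real.one_le_rpow (by norm_num) hα0
    nlinarith
  have hr : 0 < n / 2 := by omega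
  set j := Nat.log 2 (3 * R / (n / 2)) with hj
  have h1 : 3 * R < 2 ^ (j + 1) * (n / 2) := by
    have h2 : 3 * R / (n / 2) < 2 ^ (j + 1) := Nat.lt_pow_succ_log_self (by norm_num) _
    exact (Nat.div_lt_iff_lt_mul hr).1 h2
  refine ⟨j + 1, h1.le, ?_⟩
  have hn0 : (0 : ℝ) < n := by exact_mod_cast (by omega : 0 < n)
  have hRn : 1 ≤ (R : ℝ) / n := by
    rw [le_div_iff₀ hn0, one_mul]; exact_mod_cast hR
  have h2 : (2 : ℝ) ^ j ≤ 9 * ((R : ℝ) / n) := by
    have h3 : 3 * R / (n / 2) ≠ 0 := by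
      have : 0 < 3 * R / (n / 2) := Nat.div_pos (by omega) hr
      omega
    have h4 : 2 ^ j ≤ 3 * R / (n / 2) := Nat.pow_log_le_self 2 h3
    have h5 : (n : ℝ) ≤ 3 * ((n / 2 : ℕ) : ℝ) := by
      have : n ≤ 3 * (n / 2) := by omega
      exact_mod_cast this
    have h6 : (0 : ℝ) < ((n / 2 : ℕ) : ℝ) := by exact_mod_cast hr
    calc (2 : ℝ) ^ j = ((2 ^ j : ℕ) : ℝ) := by push_cast; ring
      _ ≤ ((3 * R / (n / 2) : ℕ) : ℝ) := by exact_mod_cast h4
      _ ≤ ((3 * R : ℕ) : ℝ) / ((n / 2 : ℕ) : ℝ) := Nat.cast_div_le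
      _ ≤ 9 * ((R : ℝ) / n) := by
          rw [div_le_iff₀ h6]
          push_cast
          have h7 : (0 : ℝ) ≤ R := Nat.cast_nonneg _
          have h8 : (R : ℝ) / n * n = R := by field_simp
          have h9 : (0 : ℝ) ≤ (R : ℝ) / n := by positivity
          nlinarith
  calc C ^ (j + 1) = C * C ^ j := by rw [pow_succ]; ring
    _ = C * ((2 : ℝ) ^ j) ^ α := by
        rw [← hCα, ← Real.rpow_natCast, ← Real.rpow_natCast (2 : ℝ) j, ← Real.rpow_mul (by norm_num),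
          ← Real.rpow_mul (by norm_num), hCα, mul_comm α]
    _ ≤ C * (9 * ((R : ℝ) / n)) ^ α := by gcongr
    _ = C * 9 ^ α * ((R : ℝ) / n) ^ α := by
        rw [Real.mul_rpow (by norm_num) (by positivity)]; ring
    _ ≤ max (C * 9 ^ α) α * ((R : ℝ) / n) ^ (max (C * 9 ^ α) α) := by
        refine mul_le_mul (le_max_left _ _) ?_ (by positivity) (by positivity)
        exact Real.rpow_le_rpow_of_exponent_le hRn (le_max_right _ _)

/-- disjointness of the four arm event and the loops around `v` -/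
theorem disj_A4 {e : Edge} {v : P2} {n : ℕ} (he : src e = (0, 0)) (hn : 32 ≤ n)
    (hv : (n : ℤ) ≤ sd (0, 0) v) :
    Disjoint (Cpl963.eAn (src e) 0 ((n / 4 : ℕ) : ℤ)) (annF v 0 ((n / 2 : ℕ) : ℤ)) := by
  rw [Finset.disjoint_left]
  intro e' h1 h2
  rw [Cpl963.mem_eAn] at h1
  unfold Wf850.annF at h2
  rw [Finset.mem_sdiff] at h2
  have h3 := h2.1
  rw [Fr158.mem_eIn] at h3
  have h4 := h3.1
  rw [Fr158.mem_bx_sd] at h4
  have h5 := h1.1.2
  rw [he] at h5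
  have h6 := sd_tri (0, 0) (src e') v
  have h7 := sd_symm' v (src e')
  omega

/-! ### UB4 -/

/-- **UB4, charge `+`** -/
theorem ub4_pos {C0 : ℝ} (hC0 : 0 ≤ C0) {δ : ℝ} (h0 : 0 < δ) (h1 : δ < 1) : ∃ C : ℝ, 1 ≤ C ∧
    ∀ (R n : ℕ) (w : Face →₀ ℝ) (v : P2) (b : Bool) (x : Edge), 32 ≤ n → 16 * n ≤ R →
      RingW C0 R w → (n : ℤ) ≤ sd (0, 0) v → sd (0, 0) v ≤ 2 * n → src x = (0, 0) →
      |∫ z, nab (cg (2 * π / 3) w (v, b)) x z ∂μh| ≤
        C * exp (-(√3 * (2 * π / 3) * VV (Nat.log 2 R))) *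
          (μh).real (Sp580.A4 x (n / 4 : ℕ)) ^ (1 - δ) := by
  obtain ⟨G, hG, hG'⟩ := Hd109.lin_moments (ι := Unit) hC0 (fun _ => √3 * (2 * π / 3))
    (fun _ => 12 * (2 * π / 3) ^ 2) (2 * (1 / δ)) (by positivity) (fun _ => by positivity)
  obtain ⟨C1, hC1, hT⟩ := Gx31.T_mom (exp (log 2 * (2 * (1 / δ))))
    (Real.one_le_exp (by have := Real.log_pos (by norm_num : (1 : ℝ) < 2); positivity)) 16
  obtain ⟨C2, hC2, hV⟩ := Gx31.VV_abs
  set B : ℝ := exp (√3 * (2 * π / 3) * (2 * C2)) with hB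
  have hB1 : 1 ≤ B := Real.one_le_exp (by positivity)
  refine ⟨2 * B * (G + C1), by nlinarith, fun R n w v b x hn hR hw hv1 hv2 hx => ?_⟩
  obtain ⟨hκ, hκ'⟩ := log_lev (R := R) (by omega)
  set κ := Nat.log 2 R - 2 with hk
  have hfar : ∀ f, cg (2 * π / 3) w (v, b) f ≠ 0 → ((n / 4 : ℕ) : ℤ) + 2 ≤ sd (src x) f.1 := by
    intro f hf
    rw [hx]
    by_cases h2 : f = (v, b)
    · rw [h2]; show ((n / 4 : ℕ) : ℤ) + 2 ≤ sd (0, 0) v; omega
    · have h3 : w f ≠ 0 := by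
        intro h3
        apply hf
        unfold cg
        rw [Finsupp.sub_apply, Finsupp.smul_apply, Finsupp.single_apply, if_neg (Ne.symm h2), h3]
        simp
      have := hw.sd_ge h3
      omega
  refine (int_nab_le (hw.ntr _ _) (by omega) hfar).trans ?_
  obtain ⟨T, hT1, hT2, hT3⟩ := hT (0, 0) (2 * R) (by omega)
  -- pointwise
  set L : Cfz → ℝ := fun z => Er (2 * π / 3) κ w z + log 2 * T z with hL
  have hdE : DepF _ (fun z => Er (2 * π / 3) κ w z) := Hd109.Err_dep (fun _ : Unit => √3 * (2 * π / 3))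
    (fun _ => 12 * (2 * π / 3) ^ 2) (fun _ => κ) (fun _ => w.support) (fun _ => w)
  set S1 : Finset Edge := (Finset.univ : Finset Unit).biUnion fun i => (w.support).biUnion fun v =>
      (Finset.range κ).biUnion fun k => Cn109.Sup Cn109.lsW k v with hS1
  have hdL : DepF (S1 ∪ starE (0, 0) (6 * (2 * R))) L := by
    refine DepF.add (hdE.mono Finset.subset_union_left) ?_
    exact (hT1.comp fun m : ℕ => log 2 * (m : ℝ)).mono Finset.subset_union_right
  have hpt : ∀ z, GA (cg (2 * π / 3) w (v, b)) x ((n / 4 : ℕ) : ℤ) z ≤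
      exp (-(√3 * (2 * π / 3) * VV κ)) * (Sp580.A4 x ((n / 4 : ℕ) : ℤ)).indicator
        (fun z => exp (L z)) z := by
    intro z
    unfold GA
    by_cases h4 : z ∈ Sp580.A4 x ((n / 4 : ℕ) : ℤ)
    · rw [Set.indicator_of_mem h4, Set.indicator_of_mem h4]
      refine (ab_pos hw hκ hκ' (by show 4 * sd (0, 0) v ≤ (R : ℤ); omega) (by omega) z).trans ?_
      rw [hL, exp_add, exp_add, exp_log2, mul_assoc]
      refine mul_le_mul_of_nonneg_left ?_ (exp_pos _).le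
      exact mul_le_mul_of_nonneg_left (pow_le_pow_right₀ (by norm_num) (hT3 z)) (exp_pos _).le
    · rw [Set.indicator_of_notMem h4, Set.indicator_of_notMem h4, mul_zero]
  have hi1 : Integrable (fun z => (Sp580.A4 x ((n / 4 : ℕ) : ℤ)).indicator
      (fun z => exp (L z)) z) μh := (A4_depF x _ _ (hdL.comp exp)).integrable _
  have a1 : ∫ z, GA (cg (2 * π / 3) w (v, b)) x ((n / 4 : ℕ) : ℤ) z ∂μh ≤
      exp (-(√3 * (2 * π / 3) * VV κ)) *
        ∫ z, (Sp580.A4 x ((n / 4 : ℕ) : ℤ)).indicator (fun z => exp (L z)) z ∂μh := by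
    rw [← integral_const_mul]
    exact integral_mono (GA_int (hw.ntr _ _) _ _) (hi1.const_mul _) hpt
  have a2 := Gx31.ind_hoelder h0 h1 (Ax107.A4_meas x ((n / 4 : ℕ) : ℤ)) hdL.measurable
    (exp_int hdL _)
  have a3 : ∫ z, exp (1 / δ * L z) ∂μh ≤ G + C1 := by
    have e1 : ∀ z, exp (1 / δ * L z) ≤ exp (2 * (1 / δ) * Er (2 * π / 3) κ w z) +
        exp (log 2 * (2 * (1 / δ))) ^ T z := by
      intro z
      have h5 : exp (log 2 * (2 * (1 / δ))) ^ T z = exp (2 * (1 / δ) * (log 2 * T z)) := by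
        rw [← Real.exp_nat_mul]; congr 1; ring
      rw [h5]
      have h6 : 1 / δ * L z ≤ max (2 * (1 / δ) * Er (2 * π / 3) κ w z)
          (2 * (1 / δ) * (log 2 * T z)) := by
        rw [hL]
        rcases le_total (2 * (1 / δ) * Er (2 * π / 3) κ w z) (2 * (1 / δ) * (log 2 * T z)) with h | h
        · rw [max_eq_right h]; simp only; linarith
        · rw [max_eq_left h]; simp only; linarith
      refine (exp_le_exp.2 h6).trans ?_
      rcases max_cases (2 * (1 / δ) * Er (2 * π / 3) κ w z) (2 * (1 / δ) * (log 2 * T z)) with h | h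
      · rw [h.1]; linarith [exp_pos (2 * (1 / δ) * (log 2 * T z))]
      · rw [h.1]; linarith [exp_pos (2 * (1 / δ) * Er (2 * π / 3) κ w z)]
    have i1 := exp_int hdE (2 * (1 / δ))
    have i2 : Integrable (fun z => exp (log 2 * (2 * (1 / δ))) ^ T z) μh :=
      (hT1.comp fun m : ℕ => exp (log 2 * (2 * (1 / δ))) ^ m).integrable _
    calc ∫ z, exp (1 / δ * L z) ∂μh ≤ ∫ z, (exp (2 * (1 / δ) * Er (2 * π / 3) κ w z) +
        exp (log 2 * (2 * (1 / δ))) ^ T z) ∂μh := integral_mono (exp_int hdL _) (i1.add i2) e1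
      _ ≤ G + C1 := by
          rw [integral_add i1 i2]
          exact add_le_add (hG' (fun _ => κ) (fun _ => w.support) (fun _ => w)
            fun _ => hw.dens hC0 hκ) hT2
  have a4 : (∫ z, exp (1 / δ * L z) ∂μh) ^ δ ≤ G + C1 := by
    have h7 : 0 ≤ ∫ z, exp (1 / δ * L z) ∂μh := integral_nonneg fun z => (exp_pos _).le
    calc (∫ z, exp (1 / δ * L z) ∂μh) ^ δ ≤ (G + C1) ^ δ := rpow_le_rpow h7 a3 h0.le
      _ ≤ (G + C1) ^ (1 : ℝ) := rpow_le_rpow_of_exponent_le (by linarith) h1.le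
      _ = G + C1 := rpow_one _
  have a5 : exp (-(√3 * (2 * π / 3) * VV κ)) ≤ B * exp (-(√3 * (2 * π / 3) * VV (Nat.log 2 R))) := by
    rw [hB, ← exp_add]
    apply exp_le_exp.2
    have h8 := (abs_le.1 (hV κ (Nat.log 2 R))).1
    have h9 : |(κ : ℝ) - (Nat.log 2 R : ℕ)| ≤ 2 := by
      have : κ ≤ Nat.log 2 R ∧ Nat.log 2 R ≤ κ + 2 := by omega
      have b1 : (κ : ℝ) ≤ (Nat.log 2 R : ℕ) := by exact_mod_cast this.1
      have b2 : ((Nat.log 2 R : ℕ) : ℝ) ≤ κ + 2 := by exact_mod_cast this.2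
      rw [abs_le]; constructor <;> linarith
    have h10 : -(2 * C2) ≤ VV κ - VV (Nat.log 2 R) := by nlinarith
    have h11 : (0 : ℝ) ≤ √3 * (2 * π / 3) := by positivity
    nlinarith
  have hP : 0 ≤ (μh).real (Sp580.A4 x ((n / 4 : ℕ) : ℤ)) ^ (1 - δ) := by positivity
  calc 2 * ∫ z, GA (cg (2 * π / 3) w (v, b)) x ((n / 4 : ℕ) : ℤ) z ∂μh
      ≤ 2 * (exp (-(√3 * (2 * π / 3) * VV κ)) *
        ((μh).real (Sp580.A4 x ((n / 4 : ℕ) : ℤ)) ^ (1 - δ) * (G + C1))) := by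
        refine mul_le_mul_of_nonneg_left (a1.trans (mul_le_mul_of_nonneg_left ?_ (exp_pos _).le))
          (by norm_num)
        exact a2.trans (mul_le_mul_of_nonneg_left a4 hP)
    _ ≤ 2 * ((B * exp (-(√3 * (2 * π / 3) * VV (Nat.log 2 R)))) *
        ((μh).real (Sp580.A4 x ((n / 4 : ℕ) : ℤ)) ^ (1 - δ) * (G + C1))) := by
        refine mul_le_mul_of_nonneg_left (mul_le_mul_of_nonneg_right a5 ?_) (by norm_num)
        exact mul_nonneg hP (by linarith)
    _ = _ := by ring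

end Crest.Agent.R158.Ud107
end
end

-- ▼ part R158/Ud4_107
section

/-!
# R158, Block A4, leaf D (helper107), file 4: UB4, charge `-`

* `ub4_neg` : bound of `∫ nab (-cg (2π/3) w g) x`
-/

set_option autoImplicit false

noncomputable section

namespace Crest.Agent.R158.Ud107

open Real Function MeasureTheory
open Crest.Agent.R161.Tas682 (sd)
open Crest.Agent.R161.Geo729
open Crest.Agent.R158.It200 (Cfz Corner fc)
open Crest.Agent.R158.Wf850 (Lps Face BF mem_BF Splits BF_mono sd_self sd_tri sd_symm' NN NN_dep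
  annF)
open Crest.Agent.R158.Vx107 (Fw Sw Ntr W mass tot nab op cl)
open Crest.Agent.R158.Cn109 (VV DepF dia)
open Crest.Agent.R158.Hd109 (Dens Err)
open Crest.Agent.R158.Gx31 (CR CR_fin)
open Crest.Agent.R158.Rs689 (nu hf Dep)
open Crest.Agent.R158.Em522 (starE)
open Crest.Agent.R158.Lc522 (Sh shE nnF mem_nnF nnF_card)

local notation "μh" => nu Crest.Agent.R158.Rs689.hf

set_option maxHeartbeats 1000000 in
/-- **UB4, charge `-`** -/
theorem ub4_neg {C0 : ℝ} (hC0 : 0 ≤ C0) {δ : ℝ} (h0 : 0 < δ) (h1 : δ < 1) : ∃ C : ℝ, 1 ≤ C ∧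
    ∀ (R n : ℕ) (w : Face →₀ ℝ) (v : P2) (b : Bool) (x : Edge), 32 ≤ n → 16 * n ≤ R →
      RingW C0 R w → (n : ℤ) ≤ sd (0, 0) v → sd (0, 0) v ≤ 2 * n → src x = (0, 0) →
      |∫ z, nab (-cg (2 * π / 3) w (v, b)) x z ∂μh| ≤
        C * ((R : ℝ) / n) ^ C * exp (√3 * (2 * π / 3) * VV (Nat.log 2 R)) *
          (μh).real (Sp580.A4 x (n / 4 : ℕ)) ^ (1 - δ) *
            ∫ z, exp (1 / (1 - δ) * log 2 * NN (0, 0) 0 ((n / 2 : ℕ) : ℤ) z) ∂μh := by
  have hl2 : (0 : ℝ) < log 2 := Real.log_pos (by norm_num)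
  have h1' : 0 < 1 - δ := by linarith
  obtain ⟨G, hG, hG'⟩ := Hd109.lin_moments (ι := Unit) hC0 (fun _ => √3 * (-(2 * π / 3)))
    (fun _ => 12 * (-(2 * π / 3)) ^ 2) (4 * (1 / δ)) (by positivity) (fun _ => by positivity)
  obtain ⟨C1, hC1, hT⟩ := Gx31.T_mom (exp (log 2 * (4 * (1 / δ))))
    (Real.one_le_exp (by positivity)) 16
  obtain ⟨C2, hC2, hV⟩ := Gx31.VV_abs
  obtain ⟨C3, hC3, hT'⟩ := Gx31.T_mom (exp (log 2 * (4 * (1 / δ))))
    (Real.one_le_exp (by positivity)) 1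
  obtain ⟨C4, hC4, hS⟩ := Lc522.shells (4 * (1 / δ) * log 2) (by positivity)
  obtain ⟨C5, hC5, hS'⟩ := shells_pow hC4
  set B : ℝ := exp (√3 * (2 * π / 3) * (2 * C2)) with hB
  have hB1 : 1 ≤ B := Real.one_le_exp (by positivity)
  set D : ℝ := 2 * B * 16 * (G + C1 + C3 + 1) * C5 with hD
  have hD5 : C5 ≤ D := by
    rw [hD]
    have : 1 ≤ 2 * B * 16 * (G + C1 + C3 + 1) := by nlinarith
    nlinarith
  refine ⟨D, hC5.trans hD5, fun R n w v b x hn hR hw hv1 hv2 hx => ?_⟩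
  obtain ⟨hκ, hκ'⟩ := log_lev (R := R) (by omega)
  set κ := Nat.log 2 R - 2 with hk
  rw [cg_neg]
  have hfar : ∀ f, cg (-(2 * π / 3)) w (v, b) f ≠ 0 → ((n / 4 : ℕ) : ℤ) + 2 ≤ sd (src x) f.1 := by
    intro f hf
    rw [hx]
    by_cases h2 : f = (v, b)
    · rw [h2]; show ((n / 4 : ℕ) : ℤ) + 2 ≤ sd (0, 0) v; omega
    · have h3 : w f ≠ 0 := by
        intro h3
        apply hf
        unfold cg
        rw [Finsupp.sub_apply, Finsupp.smul_apply, Finsupp.single_apply, if_neg (Ne.symm h2), h3]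
        simp
      have := hw.sd_ge h3
      omega
  refine (int_nab_le (hw.ntr _ _) (by omega) hfar).trans ?_
  obtain ⟨T, hT1, hT2, hT3⟩ := hT (0, 0) (2 * R) (by omega)
  obtain ⟨T', hT1', hT2', hT3'⟩ := hT' v (n / 2) (by omega)
  obtain ⟨K, hK1, hK2, _, hK3⟩ := hS v (dr (n / 2)) (by unfold dr; simp; omega)
    (fun i => by unfold dr; rw [pow_succ]; exact le_of_eq (by ring))
  obtain ⟨k, hk1, hk2⟩ := hS' n R (by omega) (by omega)
  have hFB := fun z => card_FB (v := v) (b := b) (R := R) (r := n / 2) (k := k) hK2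
    (by omega) hk1 z
  -- the four terms
  set L2 : Cfz → ℝ := fun z => log 2 * T z with hL2
  set L3 : Cfz → ℝ := fun z => log 2 * T' z with hL3
  set L4 : Cfz → ℝ := fun z => log 2 * ∑ i ∈ Finset.range k, (K i z : ℝ) with hL4
  have hdE : DepF _ (fun z => Er (-(2 * π / 3)) κ w z) :=
    Hd109.Err_dep (fun _ : Unit => √3 * (-(2 * π / 3)))
    (fun _ => 12 * (-(2 * π / 3)) ^ 2) (fun _ => κ) (fun _ => w.support) (fun _ => w)
  have hd2 : DepF (starE (0, 0) (6 * (2 * R))) L2 := hT1.comp fun m : ℕ => log 2 * (m : ℝ)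
  have hd3 : DepF (starE v (6 * (n / 2))) L3 := hT1'.comp fun m : ℕ => log 2 * (m : ℝ)
  set S4 : Finset Edge := (Finset.range k).biUnion fun i =>
    shE v (dr (n / 2) i) (dr (n / 2) (i + 1)) with hS4
  have hd4 : DepF S4 L4 := by
    refine DepF.smul (log 2) (DepF.sum fun i hi => ?_)
    exact ((hK1 i).comp fun m : ℕ => (m : ℝ)).mono (Finset.subset_biUnion_of_mem
      (fun i => shE v (dr (n / 2) i) (dr (n / 2) (i + 1))) hi)
  set S1 : Finset Edge := (Finset.univ : Finset Unit).biUnion fun i => (w.support).biUnion fun v =>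
      (Finset.range κ).biUnion fun k => Cn109.Sup Cn109.lsW k v with hS1
  set S0 : Finset Edge := ((S1 ∪ starE (0, 0) (6 * (2 * R))) ∪ starE v (6 * (n / 2))) ∪ S4 with hS0
  set L : Cfz → ℝ := fun z => Er (-(2 * π / 3)) κ w z + L2 z + L3 z + L4 z with hL
  have hdL : DepF S0 L := by
    refine DepF.add ((DepF.add ((DepF.add (hdE.mono Finset.subset_union_left)
      (hd2.mono Finset.subset_union_right)).mono Finset.subset_union_left)
      (hd3.mono Finset.subset_union_right)).mono Finset.subset_union_left)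
      (hd4.mono Finset.subset_union_right)
  set NV : Cfz → ℕ := NN v 0 ((n / 2 : ℕ) : ℤ) with hNV
  have hdN : DepF (annF v 0 ((n / 2 : ℕ) : ℤ)) NV := NN_dep v 0 _
  set AA : Set Cfz := Sp580.A4 x ((n / 4 : ℕ) : ℤ) with hAA
  set Y : Cfz → ℝ := fun z => AA.indicator (fun z => exp (log 2 * NV z)) z with hY
  have hY0 : ∀ z, 0 ≤ Y z := fun z => Set.indicator_nonneg (fun _ _ => (exp_pos _).le) z
  have hdY : DepF _ Y := A4_depF x ((n / 4 : ℕ) : ℤ) (fun z => exp (log 2 * NV z))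
    (hdN.comp fun m : ℕ => exp (log 2 * m))
  have hpt : ∀ z, GA (cg (-(2 * π / 3)) w (v, b)) x ((n / 4 : ℕ) : ℤ) z ≤
      exp (√3 * (2 * π / 3) * VV κ) * 16 * (Y z * exp (L z)) := by
    intro z
    unfold GA
    by_cases h4 : z ∈ AA
    · rw [Set.indicator_of_mem h4]
      have e1 : Y z = exp (log 2 * NV z) := by rw [hY]; exact Set.indicator_of_mem h4 _
      refine (ab_neg hw hκ hκ' (by show 4 * sd (0, 0) v ≤ (R : ℤ); omega) (by omega) z).trans ?_
      have e2 : (2 : ℝ) ^ ((CR (0, 0) (2 * R) 16 z).ncard + (FB R (v, b) z).ncard) ≤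
          16 * (exp (log 2 * NV z) * exp (L2 z) * exp (L3 z) * exp (L4 z)) := by
        have e3 : (CR (0, 0) (2 * R) 16 z).ncard + (FB R (v, b) z).ncard ≤
            4 + (NV z + T z + T' z + ∑ i ∈ Finset.range k, K i z) := by
          have a1 := hT3 z
          have a2 := hT3' z
          have a3 := hFB z
          omega
        refine (pow_le_pow_right₀ (by norm_num) e3).trans (le_of_eq ?_)
        rw [pow_add, pow_add, pow_add, pow_add, hL2, hL3, hL4]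
        simp only
        rw [exp_log2, exp_log2, exp_log2, ← Nat.cast_sum, exp_log2]
        norm_num
      calc exp (√3 * (2 * π / 3) * VV κ + Er (-(2 * π / 3)) κ w z) *
            2 ^ ((CR (0, 0) (2 * R) 16 z).ncard + (FB R (v, b) z).ncard)
          ≤ exp (√3 * (2 * π / 3) * VV κ + Er (-(2 * π / 3)) κ w z) *
            (16 * (exp (log 2 * NV z) * exp (L2 z) * exp (L3 z) * exp (L4 z))) :=
            mul_le_mul_of_nonneg_left e2 (exp_pos _).le
        _ = _ := by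
            rw [e1, hL, exp_add]
            simp only
            rw [exp_add, exp_add, exp_add]
            ring
    · rw [Set.indicator_of_notMem h4]
      have := hY0 z
      positivity
  have hi1 : Integrable (fun z => Y z * exp (L z)) μh :=
    ((hdY.mono Finset.subset_union_left).mul ((hdL.comp exp).mono
      Finset.subset_union_right)).integrable _
  have a1 : ∫ z, GA (cg (-(2 * π / 3)) w (v, b)) x ((n / 4 : ℕ) : ℤ) z ∂μh ≤
      exp (√3 * (2 * π / 3) * VV κ) * 16 * ∫ z, Y z * exp (L z) ∂μh := by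
    rw [← integral_const_mul]
    exact integral_mono (GA_int (hw.ntr _ _) _ _) (hi1.const_mul _) hpt
  -- Hölder
  have hp : 1 < 1 / (1 - δ) := by
    rw [lt_div_iff₀ h1']; linarith
  have e1 : 1 / (1 - δ) / (1 / (1 - δ) - 1) = 1 / δ := by
    have : 1 - δ ≠ 0 := h1'.ne'
    have h2 : (1 / (1 - δ) - 1) = δ / (1 - δ) := by field_simp; ring
    rw [h2]
    field_simp
  have e2 : (1 / (1 - δ) - 1) / (1 / (1 - δ)) = δ := by
    have : 1 - δ ≠ 0 := h1'.ne'
    field_simp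
    ring
  have e3 : 1 / (1 / (1 - δ)) = 1 - δ := one_div_one_div _
  have a2 := Hd109.hoelder_exp (μ := μh) hp (Y := Y) (L := L) hY0
    hdY.measurable.aestronglyMeasurable hdL.measurable.aestronglyMeasurable
    ((hdY.comp fun y => y ^ (1 / (1 - δ))).integrable _) (exp_int hdL _)
  rw [e1, e2, e3] at a2
  -- the first factor
  set EE : ℝ := ∫ z, exp (1 / (1 - δ) * log 2 * NN (0, 0) 0 ((n / 2 : ℕ) : ℤ) z) ∂μh with hEE
  have hE1 : 1 ≤ EE := Lc522.one_le_exp_nn (by positivity)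
  have a3 : ∫ z, Y z ^ (1 / (1 - δ)) ∂μh = (μh).real AA * EE := by
    have b1 : ∀ z, Y z ^ (1 / (1 - δ)) = AA.indicator (fun _ => (1 : ℝ)) z *
        exp (1 / (1 - δ) * log 2 * NV z) := by
      intro z
      show AA.indicator (fun z => exp (log 2 * NV z)) z ^ (1 / (1 - δ)) = _
      by_cases h4 : z ∈ AA
      · rw [Set.indicator_of_mem h4, Set.indicator_of_mem h4, one_mul, ← exp_mul]
        congr 1; ring
      · rw [Set.indicator_of_notMem h4, Set.indicator_of_notMem h4, zero_mul,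
          zero_rpow (by positivity)]
    simp only [b1]
    have b2 : DepF (Cpl963.eAn (src x) 0 ((n / 4 : ℕ) : ℤ))
        (fun z => AA.indicator (fun _ => (1 : ℝ)) z) := by
      have := A4_depF x ((n / 4 : ℕ) : ℤ) (fun _ => (1 : ℝ)) (DepF.const ∅ (1 : ℝ))
      rwa [Finset.union_empty] at this
    have b3 := Cn109.integral_mul_indep (fun _ : Edge => hf) (disj_A4 hx hn hv1) b2
      (hdN.comp fun m : ℕ => exp (1 / (1 - δ) * log 2 * m))
    have b4 : ∫ z, AA.indicator (fun _ => (1 : ℝ)) z ∂μh = (μh).real AA := by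
      rw [integral_indicator_const _ (Ax107.A4_meas x _), smul_eq_mul, mul_one]
    have b5 : ∫ z, exp (1 / (1 - δ) * log 2 * NV z) ∂μh = EE :=
      NN_tr (1 / (1 - δ) * log 2) v 0 _
    refine Eq.trans b3 ?_
    exact congrArg₂ (· * ·) b4 b5
  have hP0 : 0 ≤ (μh).real AA := measureReal_nonneg
  have a4 : (∫ z, Y z ^ (1 / (1 - δ)) ∂μh) ^ (1 - δ) ≤ (μh).real AA ^ (1 - δ) * EE := by
    rw [a3, mul_rpow hP0 (by linarith)]
    refine mul_le_mul_of_nonneg_left ?_ (by positivity)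
    calc EE ^ (1 - δ) ≤ EE ^ (1 : ℝ) := rpow_le_rpow_of_exponent_le hE1 (by linarith)
      _ = EE := rpow_one _
  -- the second factor
  have hRn : 1 ≤ (R : ℝ) / n := by
    have hn0 : (0 : ℝ) < n := by exact_mod_cast (by omega : 0 < n)
    rw [le_div_iff₀ hn0, one_mul]; exact_mod_cast (by omega : n ≤ R)
  have a5 : ∫ z, exp (1 / δ * L z) ∂μh ≤ G + C1 + C3 + C4 ^ k := by
    refine (Gx31.exp_four (exp_int hdE _) (exp_int hd2 _) (exp_int hd3 _)
      (exp_int hd4 _)).trans ?_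
    have c1 : ∀ z, exp (4 * (1 / δ) * L2 z) = exp (log 2 * (4 * (1 / δ))) ^ T z := fun z => by
      rw [← Real.exp_nat_mul]; congr 1; rw [hL2]; ring
    have c2 : ∀ z, exp (4 * (1 / δ) * L3 z) = exp (log 2 * (4 * (1 / δ))) ^ T' z := fun z => by
      rw [← Real.exp_nat_mul]; congr 1; rw [hL3]; ring
    have c3 : ∀ z, exp (4 * (1 / δ) * L4 z) =
        exp (4 * (1 / δ) * log 2 * ∑ i ∈ Finset.range k, (K i z : ℝ)) := fun z => by
      congr 1; rw [hL4]; ring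
    simp only [c1, c2, c3]
    exact add_le_add (add_le_add (add_le_add (hG' (fun _ => κ) (fun _ => w.support) (fun _ => w)
      fun _ => hw.dens hC0 hκ) hT2) hT2') (hK3 k)
  have a6 : (∫ z, exp (1 / δ * L z) ∂μh) ^ δ ≤ (G + C1 + C3 + 1) * (C5 * ((R : ℝ) / n) ^ C5) := by
    have h7 : 0 ≤ ∫ z, exp (1 / δ * L z) ∂μh := integral_nonneg fun z => (exp_pos _).le
    have h8 : 1 ≤ C5 * ((R : ℝ) / n) ^ C5 := by
      have := Real.one_le_rpow hRn (by linarith : 0 ≤ C5)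
      nlinarith
    have h9 : G + C1 + C3 + C4 ^ k ≤ (G + C1 + C3 + 1) * (C5 * ((R : ℝ) / n) ^ C5) := by
      nlinarith
    calc (∫ z, exp (1 / δ * L z) ∂μh) ^ δ
        ≤ ((G + C1 + C3 + 1) * (C5 * ((R : ℝ) / n) ^ C5)) ^ δ :=
          rpow_le_rpow h7 (a5.trans h9) h0.le
      _ ≤ ((G + C1 + C3 + 1) * (C5 * ((R : ℝ) / n) ^ C5)) ^ (1 : ℝ) :=
          rpow_le_rpow_of_exponent_le (by nlinarith) h1.le
      _ = _ := rpow_one _
  have a7 : exp (√3 * (2 * π / 3) * VV κ) ≤ B * exp (√3 * (2 * π / 3) * VV (Nat.log 2 R)) := by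
    rw [hB, ← exp_add]
    apply exp_le_exp.2
    have h8 := (abs_le.1 (hV κ (Nat.log 2 R))).2
    have h9 : |(κ : ℝ) - (Nat.log 2 R : ℕ)| ≤ 2 := by
      have : κ ≤ Nat.log 2 R ∧ Nat.log 2 R ≤ κ + 2 := by omega
      have b1 : (κ : ℝ) ≤ (Nat.log 2 R : ℕ) := by exact_mod_cast this.1
      have b2 : ((Nat.log 2 R : ℕ) : ℝ) ≤ κ + 2 := by exact_mod_cast this.2
      rw [abs_le]; constructor <;> linarith
    have h10 : VV κ - VV (Nat.log 2 R) ≤ 2 * C2 := by nlinarith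
    have h11 : (0 : ℝ) ≤ √3 * (2 * π / 3) := by positivity
    nlinarith
  have hP : 0 ≤ (μh).real AA ^ (1 - δ) := by positivity
  set Q := (R : ℝ) / n with hQ
  set P := (μh).real AA ^ (1 - δ) with hPP
  set V := exp (√3 * (2 * π / 3) * VV (Nat.log 2 R)) with hVV
  have hV0 : 0 < V := exp_pos _
  have hI0 : 0 ≤ ∫ z, Y z * exp (L z) ∂μh := integral_nonneg fun z =>
    mul_nonneg (hY0 z) (exp_pos _).le
  have a8 : ∫ z, Y z * exp (L z) ∂μh ≤ P * EE * ((G + C1 + C3 + 1) * (C5 * Q ^ C5)) := by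
    refine a2.trans (mul_le_mul a4 a6 ?_ (by positivity))
    exact rpow_nonneg (integral_nonneg fun z => (exp_pos _).le) _
  have a9 : Q ^ C5 ≤ Q ^ D := Real.rpow_le_rpow_of_exponent_le hRn hD5
  calc 2 * ∫ z, GA (cg (-(2 * π / 3)) w (v, b)) x ((n / 4 : ℕ) : ℤ) z ∂μh
      ≤ 2 * (exp (√3 * (2 * π / 3) * VV κ) * 16 * ∫ z, Y z * exp (L z) ∂μh) :=
        mul_le_mul_of_nonneg_left a1 (by norm_num)
    _ ≤ 2 * ((B * V) * 16 * (P * EE * ((G + C1 + C3 + 1) * (C5 * Q ^ C5)))) := by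
        refine mul_le_mul_of_nonneg_left ?_ (by norm_num)
        refine mul_le_mul (mul_le_mul_of_nonneg_right a7 (by norm_num)) a8 hI0 (by positivity)
    _ = D * Q ^ C5 * V * P * EE := by rw [hD]; ring
    _ ≤ D * Q ^ D * V * P * EE := by
        have hD0 : 0 ≤ D := by linarith
        exact mul_le_mul_of_nonneg_right (mul_le_mul_of_nonneg_right (mul_le_mul_of_nonneg_right
          (mul_le_mul_of_nonneg_left a9 hD0) hV0.le) hP) (by linarith)

end Crest.Agent.R158.Ud107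
end
end

-- ▼ part R158/Ud5_107
section

/-!
# R158, Block A4, leaf D (helper107), file 5: the left side of (ID) and its exponent

* `dleft`     : `|∑ over the four corners, ∫ Dr (cg (2π/3) w g) c|` by (ID) and UB4
* `HE2`       : the literal form of identity E
* `dleft_exp` : exponent `5/12`
* `p2_poly`   : `n ^ (-K) ≤ p2 n`
-/

set_option autoImplicit false

noncomputable section

namespace Crest.Agent.R158.Ud107

open Real Function MeasureTheory Filter
open Crest.Agent.R161.Tas682 (sd)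
open Crest.Agent.R161.Geo729
open Crest.Agent.R158.It200 (Cfz Corner fc i1 i2 o1 o2)
open Crest.Agent.R158.Wf850 (Lps Face BF NN NN_dep)
open Crest.Agent.R158.Vx107 (Fw Sw Ntr W mass tot nab op cl Dr)
open Crest.Agent.R158.Cn109 (VV DepF dia)
open Crest.Agent.R158.Rs689 (nu hf Dep)
open Crest.Agent.R158.Vg109 (den)
open Crest.Agent.R158.Ax107 (p2 p4)

local notation "μh" => nu Crest.Agent.R158.Rs689.hf

/-- sum over the four corners at `x` -/
def S4D (m : Face →₀ ℝ) (x : Edge) : ℝ :=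
  ∫ z, Dr m (i1 x) z ∂μh + ∫ z, Dr m (i2 x) z ∂μh + ∫ z, Dr m (o1 x) z ∂μh +
    ∫ z, Dr m (o2 x) z ∂μh

theorem VV_nonneg (k : ℕ) : 0 ≤ VV k := by
  obtain ⟨C, hC, h⟩ := Cn109.VV_diff
  have h1 := (h 0 k).1
  rw [zero_add] at h1
  have h2 : VV 0 = 0 := by
    unfold Cn109.VV
    simp [Cn109.tot]
  linarith

/-- **left side of (ID)** -/
theorem dleft {C0 : ℝ} (hC0 : 0 ≤ C0) {δ : ℝ} (h0 : 0 < δ) (h1 : δ < 1) : ∃ C : ℝ, 1 ≤ C ∧
    ∀ (R n : ℕ) (w : Face →₀ ℝ) (v : P2) (b : Bool) (x : Edge), 32 ≤ n → 16 * n ≤ R →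
      RingW C0 R w → (n : ℤ) ≤ sd (0, 0) v → sd (0, 0) v ≤ 2 * n → src x = (0, 0) →
      |S4D (cg (2 * π / 3) w (v, b)) x| ≤
        C * ((R : ℝ) / n) ^ C * exp (√3 * (2 * π / 3) * VV (Nat.log 2 R)) *
          (μh).real (Sp580.A4 x (n / 4 : ℕ)) ^ (1 - δ) *
            ∫ z, exp (1 / (1 - δ) * log 2 * NN (0, 0) 0 ((n / 2 : ℕ) : ℤ) z) ∂μh := by
  have h1' : 0 < 1 - δ := by linarith
  have hl2 : (0 : ℝ) < log 2 := Real.log_pos (by norm_num)
  obtain ⟨A, hA, hpos⟩ := ub4_pos hC0 h0 h1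
  obtain ⟨B, hB, hneg⟩ := ub4_neg hC0 h0 h1
  refine ⟨2 * (A + B), by linarith, fun R n w v b x hn hR hw hv1 hv2 hx => ?_⟩
  have a1 := hpos R n w v b x hn hR hw hv1 hv2 hx
  have a2 := hneg R n w v b x hn hR hw hv1 hv2 hx
  set m := cg (2 * π / 3) w (v, b) with hm
  have hID := Vx107.IDlat Vx107.ae_fin Bk430.even_main (hw.ntr (2 * π / 3) (v, b)) x
  rw [← hm] at hID
  set P := (μh).real (Sp580.A4 x (n / 4 : ℕ)) ^ (1 - δ) with hP
  have hP0 : 0 ≤ P := by positivity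
  set E := ∫ z, exp (1 / (1 - δ) * log 2 * NN (0, 0) 0 ((n / 2 : ℕ) : ℤ) z) ∂μh with hE
  have hE1 : 1 ≤ E := Lc522.one_le_exp_nn (by positivity)
  set V := √3 * (2 * π / 3) * VV (Nat.log 2 R) with hV
  have hV0 : 0 ≤ V := by have := VV_nonneg (Nat.log 2 R); positivity
  set Q := (R : ℝ) / n with hQ
  have hQ1 : 1 ≤ Q := by
    have hn0 : (0 : ℝ) < n := by exact_mod_cast (by omega : 0 < n)
    rw [hQ, le_div_iff₀ hn0, one_mul]; exact_mod_cast (by omega : n ≤ R)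
  have e1 : tan (π / 6) * S4D m x = ∫ z, nab (-m) x z ∂μh - ∫ z, nab m x z ∂μh := by
    unfold S4D; exact hID.symm
  have ht : tan (π / 6) = 1 / √3 := tan_pi_div_six
  have h3 : (0 : ℝ) < √3 := by positivity
  have h3' : √3 ≤ 2 := by
    rw [Real.sqrt_le_left (by norm_num)]; norm_num
  have e2 : |S4D m x| ≤ 2 * (|∫ z, nab (-m) x z ∂μh| + |∫ z, nab m x z ∂μh|) := by
    have e3 : S4D m x = √3 * (∫ z, nab (-m) x z ∂μh - ∫ z, nab m x z ∂μh) := by
      rw [← e1, ht]; field_simp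
    rw [e3, abs_mul, abs_of_pos h3]
    exact mul_le_mul h3' (abs_sub _ _) (abs_nonneg _) (by norm_num)
  set T := Q ^ (2 * (A + B)) * exp V * P * E with hT
  have hQp : ∀ y : ℝ, y ≤ 2 * (A + B) → Q ^ y ≤ Q ^ (2 * (A + B)) := fun y hy =>
    Real.rpow_le_rpow_of_exponent_le hQ1 hy
  have b1 : |∫ z, nab (-m) x z ∂μh| ≤ B * T := by
    refine a2.trans ?_
    have c1 : Q ^ B ≤ Q ^ (2 * (A + B)) := hQp B (by linarith)
    have c2 : B * Q ^ B * exp V * P * E = B * (Q ^ B * exp V * P * E) := by ring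
    rw [c2, hT]
    refine mul_le_mul_of_nonneg_left ?_ (by linarith)
    exact mul_le_mul_of_nonneg_right (mul_le_mul_of_nonneg_right (mul_le_mul_of_nonneg_right c1
      (exp_pos _).le) hP0) (by linarith)
  have b2 : |∫ z, nab m x z ∂μh| ≤ A * T := by
    refine a1.trans ?_
    have c1 : 1 ≤ Q ^ (2 * (A + B)) := Real.one_le_rpow hQ1 (by linarith)
    have c2 : exp (-V) ≤ exp V := exp_le_exp.2 (by linarith)
    have c3 : A * exp (-V) * P = A * (1 * exp (-V) * P * 1) := by ring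
    rw [c3, hT]
    refine mul_le_mul_of_nonneg_left ?_ (by linarith)
    refine mul_le_mul (mul_le_mul_of_nonneg_right (mul_le_mul c1 c2 (exp_pos _).le
      (by positivity)) hP0) hE1 zero_le_one ?_
    have := exp_pos V
    positivity
  calc |S4D m x| ≤ 2 * (B * T + A * T) := e2.trans (by linarith)
    _ = _ := by rw [hT]; ring

/-! ### exponents -/

/-- identity E in the literal form of 522 -/
def HE2 : Prop := ∀ d : ℝ, d > 0 → ∃ η > 0, ∀ᶠ n : ℕ in atTop, ∀ s : ℝ, |s - Real.log 2| ≤ η →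
  (n : ℝ) ^ (1 / 12 - d) ≤ ∫ z, Real.exp (s * NN (0, 0) 0 n z) ∂(nu hf) ∧
    ∫ z, Real.exp (s * NN (0, 0) 0 n z) ∂(nu hf) ≤ (n : ℝ) ^ (1 / 12 + d)

theorem cst_den : √3 * (2 * π / 3) * den = 1 / 3 := by
  unfold Vg109.den
  have h1 : √3 ≠ 0 := by positivity
  have h2 : π ≠ 0 := Real.pi_pos.ne'
  field_simp

/-- the local factor at the level `log2 R` -/
theorem loc_factor (hD : Vg109.HD) {e : ℝ} (he : 0 < e) : ∃ K : ℝ, 0 ≤ K ∧ ∀ R : ℕ, 1 ≤ R →
    |√3 * (2 * π / 3) * VV (Nat.log 2 R) - 1 / 3 * log R| ≤ e * log R + K := by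
  have hc : 0 < √3 * (2 * π / 3) := by positivity
  obtain ⟨K, hK, h⟩ := Vg109.VV_log hD (e := e / (√3 * (2 * π / 3))) (by positivity)
  refine ⟨√3 * (2 * π / 3) * K, by positivity, fun R hR => ?_⟩
  have h1 := h R hR
  have h2 : √3 * (2 * π / 3) * VV (Nat.log 2 R) - 1 / 3 * log R =
      √3 * (2 * π / 3) * (VV (Nat.log 2 R) - den * log R) := by
    rw [← cst_den]; ring
  rw [h2, abs_mul, abs_of_pos hc]
  calc √3 * (2 * π / 3) * |VV (Nat.log 2 R) - den * log R|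
      ≤ √3 * (2 * π / 3) * (e / (√3 * (2 * π / 3)) * log R + K) :=
        mul_le_mul_of_nonneg_left h1 hc.le
    _ = _ := by field_simp

theorem exp_log_rpow {n : ℕ} (hn : 1 ≤ n) (y : ℝ) : exp (y * log n) = (n : ℝ) ^ y := by
  rw [Real.rpow_def_of_pos (by exact_mod_cast hn), mul_comm]

/-- upper and lower bound of the local factor for `n ≤ R ≤ n ^ (1 + τ)` -/
theorem loc_pow (hD : Vg109.HD) {ε : ℝ} (hε : 0 < ε) : ∃ τ0 : ℝ, 0 < τ0 ∧ ∀ᶠ n : ℕ in atTop,
    ∀ R : ℕ, n ≤ R → (R : ℝ) ≤ (n : ℝ) ^ (1 + τ0) →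
      exp (√3 * (2 * π / 3) * VV (Nat.log 2 R)) ≤ (n : ℝ) ^ (1 / 3 + ε) := by
  set e : ℝ := min (ε / 4) 1 with hedef
  have he : 0 < e := lt_min (by linarith) one_pos
  have he1 : e ≤ ε / 4 := min_le_left _ _
  have he2 : e ≤ 1 := min_le_right _ _
  obtain ⟨K, hK, h⟩ := loc_factor hD he
  have hlog : Tendsto (fun n : ℕ => Real.log (n : ℝ)) atTop atTop :=
    Real.tendsto_log_atTop.comp tendsto_natCast_atTop_atTop
  refine ⟨e, he, ?_⟩
  filter_upwards [hlog.eventually_ge_atTop (4 * K / ε), eventually_ge_atTop 1] with n hn1 hn2 R hR1 hR2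
  have hn0 : (0 : ℝ) < n := by exact_mod_cast hn2
  have hR0 : (0 : ℝ) < R := by exact_mod_cast (by omega : 0 < R)
  have h2 := (abs_le.1 (h R (by omega))).2
  have hlR : log R ≤ (1 + e) * log n := by
    have := Real.log_le_log hR0 hR2
    rwa [Real.log_rpow hn0] at this
  have hln : 0 ≤ log n := Real.log_nonneg (by exact_mod_cast hn2)
  rw [← exp_log_rpow hn2]
  apply exp_le_exp.2
  have h3 : 4 * K ≤ ε * log n := by
    rw [div_le_iff₀ hε] at hn1; linarith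
  have h4 : (1 / 3 + e) * log R ≤ (1 / 3 + e) * ((1 + e) * log n) :=
    mul_le_mul_of_nonneg_left hlR (by linarith)
  have h5 : (1 / 3 + e) * (1 + e) ≤ 1 / 3 + 3 * e := by nlinarith
  have h6 : (1 / 3 + e) * (1 + e) * log n ≤ (1 / 3 + 3 * e) * log n :=
    mul_le_mul_of_nonneg_right h5 hln
  nlinarith

theorem loc_pow_neg (hD : Vg109.HD) {ε : ℝ} (hε : 0 < ε) : ∃ τ0 : ℝ, 0 < τ0 ∧
    ∀ᶠ n : ℕ in atTop, ∀ R : ℕ, n ≤ R → (R : ℝ) ≤ (n : ℝ) ^ (1 + τ0) →
      (n : ℝ) ^ (-(1 / 3 : ℝ) - ε) ≤ exp (-(√3 * (2 * π / 3) * VV (Nat.log 2 R))) := by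
  obtain ⟨τ0, h0, h⟩ := loc_pow hD hε
  refine ⟨τ0, h0, ?_⟩
  filter_upwards [h, eventually_ge_atTop 1] with n hn hn1 R h1 h2
  have hn0 : (0 : ℝ) < n := by exact_mod_cast hn1
  have h3 := hn R h1 h2
  rw [exp_neg]
  have h4 : (n : ℝ) ^ (-(1 / 3 : ℝ) - ε) = ((n : ℝ) ^ (1 / 3 + ε))⁻¹ := by
    rw [← Real.rpow_neg hn0.le]; congr 1; ring
  rw [h4]
  exact inv_anti₀ (exp_pos _) h3

end Crest.Agent.R158.Ud107
end
end

-- ▼ part R158/Ud6_107

/-!
# R158, Block A4, leaf D (helper107), file 6: closing of D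

* `dleft_exp` : `|S4D| ≤ n ^ (5/12 + ε) P(A4) ^ (1 - ε)`
* `p2_poly`   : `n ^ (-K) ≤ p2 n`
* `DRight`    : the lower bound on the right side of (ID)
* `sd_of_right` : `DRight → SD p2 p4`
-/

set_option autoImplicit false

noncomputable section

namespace Crest.Agent.R158.Ud107

open Real Function MeasureTheory Filter
open Crest.Agent.R161.Tas682 (sd)
open Crest.Agent.R161.Geo729
open Crest.Agent.R158.It200 (Cfz Corner fc i1 i2 o1 o2)
open Crest.Agent.R158.Wf850 (Lps Face BF NN NN_dep)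
open Crest.Agent.R158.Vx107 (Fw Sw Ntr W mass tot nab op cl Dr)
open Crest.Agent.R158.Cn109 (VV DepF dia)
open Crest.Agent.R158.Rs689 (nu hf Dep)
open Crest.Agent.R158.Vg109 (den)
open Crest.Agent.R158.Ax107 (p2 p4 SD)

local notation "μh" => nu Crest.Agent.R158.Rs689.hf

theorem ev_const (C : ℝ) {d : ℝ} (hd : 0 < d) : ∀ᶠ n : ℕ in atTop, C ≤ (n : ℝ) ^ d :=
  ((tendsto_rpow_atTop hd).comp tendsto_natCast_atTop_atTop).eventually_ge_atTop C

/-- **exponent of the left side** -/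
theorem dleft_exp (hD : Vg109.HD) (hE : HE2) {C0 : ℝ} (hC0 : 0 ≤ C0) {ε : ℝ} (hε : 0 < ε)
    (hε1 : ε < 1) : ∃ τ0 : ℝ, 0 < τ0 ∧ ∀ᶠ n : ℕ in atTop,
    ∀ (R : ℕ) (w : Face →₀ ℝ) (v : P2) (b : Bool) (x : Edge), 16 * n ≤ R →
      (R : ℝ) ≤ (n : ℝ) ^ (1 + τ0) → RingW C0 R w → (n : ℤ) ≤ sd (0, 0) v → sd (0, 0) v ≤ 2 * n →
      src x = (0, 0) →
      |S4D (cg (2 * π / 3) w (v, b)) x| ≤
        (n : ℝ) ^ (5 / 12 + ε) * (μh).real (Sp580.A4 x (n / 4 : ℕ)) ^ (1 - ε) := by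
  obtain ⟨η, hη, hE'⟩ := hE (ε / 4) (by positivity)
  have hl2 : (0 : ℝ) < log 2 := Real.log_pos (by norm_num)
  -- choice of `δ`
  obtain ⟨δ, hδ0, hδε, hδη⟩ : ∃ δ : ℝ, 0 < δ ∧ δ ≤ ε ∧ |1 / (1 - δ) * log 2 - log 2| ≤ η := by
    refine ⟨min (ε / 2) (min (1 / 2) (η / 2)), by positivity, (min_le_left _ _).trans (by linarith),
      ?_⟩
    set δ := min (ε / 2) (min (1 / 2) (η / 2)) with hδ
    have h1 : δ ≤ 1 / 2 := (min_le_right _ _).trans (min_le_left _ _)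
    have h2 : δ ≤ η / 2 := (min_le_right _ _).trans (min_le_right _ _)
    have h3 : 0 < δ := by positivity
    have h4 : 1 / (1 - δ) * log 2 - log 2 = δ / (1 - δ) * log 2 := by
      have : 1 - δ ≠ 0 := by linarith
      field_simp; ring
    have h5 : log 2 ≤ 1 := by have := log_two_lt_d9; linarith
    have h6 : 0 < 1 - δ := by linarith
    rw [h4, abs_of_nonneg (by positivity)]
    have h7 : δ / (1 - δ) ≤ 2 * δ := by
      rw [div_le_iff₀ h6]; nlinarith
    have h8 : 0 ≤ δ / (1 - δ) := by positivity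
    nlinarith
  have hδ1 : δ < 1 := by linarith
  obtain ⟨C, hC, hdl⟩ := dleft hC0 hδ0 hδ1
  obtain ⟨τ1, hτ1, hloc⟩ := loc_pow hD (ε := ε / 4) (by positivity)
  refine ⟨min τ1 (ε / (4 * C)), by positivity, ?_⟩
  set τ0 := min τ1 (ε / (4 * C)) with hτ0
  filter_upwards [hE', hloc, ev_const C (d := ε / 4) (by positivity), eventually_ge_atTop 32]
    with n h1 h2 h3 h4 R w v b x hR1 hR2 hw hv1 hv2 hx
  have hn0 : (0 : ℝ) < n := by exact_mod_cast (by omega : 0 < n)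
  have hn1 : (1 : ℝ) ≤ n := by exact_mod_cast (by omega : 1 ≤ n)
  have hR0 : (0 : ℝ) < R := by exact_mod_cast (by omega : 0 < R)
  have hd := hdl R n w v b x h4 hR1 hw hv1 hv2 hx
  -- factor 2
  have a2 : ((R : ℝ) / n) ^ C ≤ (n : ℝ) ^ (ε / 4) := by
    have b1 : (R : ℝ) / n ≤ (n : ℝ) ^ τ0 := by
      rw [div_le_iff₀ hn0]
      refine hR2.trans (le_of_eq ?_)
      rw [Real.rpow_add hn0, Real.rpow_one, mul_comm]
    calc ((R : ℝ) / n) ^ C ≤ ((n : ℝ) ^ τ0) ^ C :=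
          Real.rpow_le_rpow (by positivity) b1 (by linarith)
      _ = (n : ℝ) ^ (τ0 * C) := by rw [← Real.rpow_mul hn0.le]
      _ ≤ (n : ℝ) ^ (ε / 4) := by
          refine Real.rpow_le_rpow_of_exponent_le hn1 ?_
          have : τ0 ≤ ε / (4 * C) := min_le_right _ _
          calc τ0 * C ≤ ε / (4 * C) * C := mul_le_mul_of_nonneg_right this (by linarith)
            _ = ε / 4 := by field_simp
  -- factor 3
  have a3 : exp (√3 * (2 * π / 3) * VV (Nat.log 2 R)) ≤ (n : ℝ) ^ (1 / 3 + ε / 4) := by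
    refine h2 R (by omega) (hR2.trans ?_)
    exact Real.rpow_le_rpow_of_exponent_le hn1 (by have := min_le_left τ1 (ε / (4 * C)); linarith)
  -- factor 5
  have a5 : ∫ z, exp (1 / (1 - δ) * log 2 * NN (0, 0) 0 ((n / 2 : ℕ) : ℤ) z) ∂μh ≤
      (n : ℝ) ^ (1 / 12 + ε / 4) := by
    have h1δ : 0 < 1 - δ := by linarith
    refine (Lc522.exp_mono_nn (by positivity) le_rfl ?_).trans ((h1 _ hδη).2)
    exact_mod_cast Nat.div_le_self n 2
  -- factor 4
  set P := (μh).real (Sp580.A4 x (n / 4 : ℕ)) with hP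
  have hP0 : 0 ≤ P := measureReal_nonneg
  have hP1 : P ≤ 1 := measureReal_le_one
  have a4 : P ^ (1 - δ) ≤ P ^ (1 - ε) := by
    rcases hP0.eq_or_lt with h0 | h0
    · rw [← h0, Real.zero_rpow (by linarith), Real.zero_rpow (by linarith)]
    · exact Real.rpow_le_rpow_of_exponent_ge h0 hP1 (by linarith)
  have hE0 : 0 ≤ ∫ z, exp (1 / (1 - δ) * log 2 * NN (0, 0) 0 ((n / 2 : ℕ) : ℤ) z) ∂μh :=
    integral_nonneg fun z => (exp_pos _).le
  have hP2 : 0 ≤ P ^ (1 - δ) := by positivity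
  have hP3 : 0 ≤ P ^ (1 - ε) := by positivity
  refine hd.trans ?_
  calc C * ((R : ℝ) / n) ^ C * exp (√3 * (2 * π / 3) * VV (Nat.log 2 R)) * P ^ (1 - δ) *
        ∫ z, exp (1 / (1 - δ) * log 2 * NN (0, 0) 0 ((n / 2 : ℕ) : ℤ) z) ∂μh
      ≤ (n : ℝ) ^ (ε / 4) * (n : ℝ) ^ (ε / 4) * (n : ℝ) ^ (1 / 3 + ε / 4) * P ^ (1 - ε) *
        (n : ℝ) ^ (1 / 12 + ε / 4) := by
        refine mul_le_mul (mul_le_mul (mul_le_mul (mul_le_mul h3 a2 (by positivity)
          (by positivity)) a3 (exp_pos _).le (by positivity)) a4 hP2 (by positivity)) a5 hE0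
          (by positivity)
    _ = ((n : ℝ) ^ (ε / 4) * (n : ℝ) ^ (ε / 4) * (n : ℝ) ^ (1 / 3 + ε / 4) *
        (n : ℝ) ^ (1 / 12 + ε / 4)) * P ^ (1 - ε) := by ring
    _ = (n : ℝ) ^ (5 / 12 + ε) * P ^ (1 - ε) := by
        rw [← Real.rpow_add hn0, ← Real.rpow_add hn0, ← Real.rpow_add hn0]
        congr 2
        ring

/-! ### polynomial lower bound of `p2` -/

theorem nice2_low : ∃ B D : ℝ, 0 < B ∧ 1 ≤ D ∧ ∀ j : ℕ,
    B ≤ D ^ j * (μh).real (Sb689.Nice2 (0, 0) (2 ^ j)) := by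
  obtain ⟨c, hc, hc1, hR⟩ := Qf808.rsp_half
  have hD : 1 ≤ 1 / c ^ 176 := by
    rw [le_div_iff₀ (by positivity), one_mul]
    exact pow_le_one₀ hc.le hc1
  refine ⟨(c / 2) ^ (Sh158.SN2 1).card, 1 / c ^ 176, by positivity, hD, fun j => ?_⟩
  induction j with
  | zero =>
    rw [pow_zero, pow_zero, one_mul]
    exact Sh158.nice2_base (hR 1) le_rfl Sb689.nr0
  | succ j ih =>
    refine ih.trans ?_
    have h1 := Sh158.nice2_ext' (n := 2 ^ j) Nat.one_le_two_pow (hR (2 ^ j)) (0, 0)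
    have h2 : 2 * 2 ^ j = 2 ^ (j + 1) := by rw [pow_succ]; ring
    rw [h2] at h1
    calc (1 / c ^ 176) ^ j * (μh).real (Sb689.Nice2 (0, 0) (2 ^ j))
        ≤ (1 / c ^ 176) ^ j * (1 / c ^ 176 * (μh).real (Sb689.Nice2 (0, 0) (2 ^ (j + 1)))) :=
          mul_le_mul_of_nonneg_left h1 (by positivity)
      _ = _ := by rw [pow_succ]; ring

theorem p2_poly : ∃ K : ℝ, 0 < K ∧ ∀ᶠ n : ℕ in atTop, (n : ℝ) ^ (-K) ≤ p2 n := by
  obtain ⟨B, D, hB, hD, h⟩ := nice2_low
  have hD0 : 0 < D := by linarith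
  set α : ℝ := Real.logb 2 D with hα
  have hα0 : 0 ≤ α := Real.logb_nonneg (by norm_num) hD
  have hDα : (2 : ℝ) ^ α = D := Real.rpow_logb (by norm_num) (by norm_num) hD0
  refine ⟨α + 1, by linarith, ?_⟩
  filter_upwards [ev_const (2 ^ α / B) (d := 1) one_pos, eventually_ge_atTop 1] with n h1 hn
  have hn0 : (0 : ℝ) < n := by exact_mod_cast hn
  set j := Nat.log 2 n + 1 with hj
  have h2 : n ≤ 16 * 2 ^ j := by
    have : n < 2 ^ j := Nat.lt_pow_succ_log_self (by norm_num) n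
    omega
  have h3 : (2 : ℝ) ^ j ≤ 2 * n := by
    have h4 : 2 ^ Nat.log 2 n ≤ n := Nat.pow_log_le_self 2 (by omega)
    have h5 : ((2 ^ Nat.log 2 n : ℕ) : ℝ) ≤ n := by exact_mod_cast h4
    push_cast at h5
    rw [hj, pow_succ]; linarith
  have h4 : (μh).real (Sb689.Nice2 (0, 0) (2 ^ j)) ≤ p2 n := by
    refine le_trans ?_ (Ax107.p2_anti h2)
    exact measureReal_mono (Sb689.Nice2_sub (n := 2 ^ j) Nat.one_le_two_pow)
  have h5 := h j
  have h6 : D ^ j ≤ 2 ^ α * (n : ℝ) ^ α := by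
    calc D ^ j = ((2 : ℝ) ^ j) ^ α := by
          rw [← hDα, ← Real.rpow_natCast, ← Real.rpow_natCast (2 : ℝ) j,
            ← Real.rpow_mul (by norm_num), ← Real.rpow_mul (by norm_num), mul_comm]
      _ ≤ (2 * (n : ℝ)) ^ α := Real.rpow_le_rpow (by positivity) h3 hα0
      _ = _ := Real.mul_rpow (by norm_num) hn0.le
  have h7 : B ≤ 2 ^ α * (n : ℝ) ^ α * p2 n := by
    have h8 : 0 ≤ (μh).real (Sb689.Nice2 (0, 0) (2 ^ j)) := measureReal_nonneg
    calc B ≤ D ^ j * (μh).real (Sb689.Nice2 (0, 0) (2 ^ j)) := h5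
      _ ≤ (2 ^ α * (n : ℝ) ^ α) * p2 n := mul_le_mul h6 h4 h8 (by positivity)
  have h9 : (2 : ℝ) ^ α ≤ B * n := by
    rw [div_le_iff₀ hB, Real.rpow_one] at h1; linarith
  have h10 : (n : ℝ) ^ (-(α + 1)) = ((n : ℝ) ^ α * n)⁻¹ := by
    rw [Real.rpow_neg hn0.le, Real.rpow_add hn0, Real.rpow_one]
  have h11 : (0 : ℝ) < (n : ℝ) ^ α := Real.rpow_pos_of_pos hn0 _
  rw [h10, inv_le_iff_one_le_mul₀ (by positivity)]
  have h12 : 0 ≤ p2 n := Ax107.p2_nonneg n
  have h13 : B ≤ B * n * (n : ℝ) ^ α * p2 n := h7.trans (by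
    have := mul_le_mul_of_nonneg_right h9 (mul_nonneg h11.le h12)
    nlinarith)
  have h14 : B * 1 ≤ B * (p2 n * ((n : ℝ) ^ α * n)) := by nlinarith
  exact le_of_mul_le_mul_left h14 hB

/-! ### closing -/

/-- **the right side of (ID)** for the charges at the two faces of the corner `((0,n), 0)` -/
def DRight : Prop := ∀ ε : ℝ, 0 < ε → ∃ τ0 : ℝ, 0 < τ0 ∧ ∀ τ : ℝ, 0 < τ → τ ≤ τ0 →
  ∀ᶠ j : ℕ in atTop, ∃ R : ℕ, 16 * (256 * 2 ^ j) ≤ R ∧
    (R : ℝ) ≤ ((256 * 2 ^ j : ℕ) : ℝ) ^ (1 + 2 * τ) ∧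
    ((256 * 2 ^ j : ℕ) : ℝ) ^ (-ε) * exp (-(√3 * (2 * π / 3) * VV (Nat.log 2 R))) *
        p2 (256 * 2 ^ j) ^ 2 ≤
      S4D (cg (2 * π / 3) (Bk430.ws R) (((0, ((256 * 2 ^ j : ℕ) : ℤ)), false) : Face))
          ((0, 0), false) -
        S4D (cg (2 * π / 3) (Bk430.ws R) (((0, ((256 * 2 ^ j : ℕ) : ℤ)), true) : Face))
          ((0, 0), false)

theorem p4_anti {a b : ℕ} (h1 : 1 ≤ a) (h : a ≤ b) : p4 b ≤ p4 a :=
  measureReal_mono (Sp580.A4_anti (by exact_mod_cast h1) (by exact_mod_cast h))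

theorem ev_dyadic {p : ℕ → Prop} (h : ∀ᶠ n in atTop, p n) :
    ∀ᶠ j : ℕ in atTop, p (256 * 2 ^ j) := by
  have ht : Tendsto (fun j : ℕ => 256 * 2 ^ j) atTop atTop :=
    tendsto_atTop_mono (fun j => (Nat.lt_two_pow_self (n := j)).le.trans
      (Nat.le_mul_of_pos_left _ (by norm_num))) tendsto_id
  exact ht.eventually h

/-- power manipulation -/
theorem pow_trick {X y e L N : ℝ} (hN : 1 ≤ N) (he : 0 < e) (he1 : e ≤ 1 / 2)
    (hL : 0 ≤ L) (hX : N ^ (-L) ≤ X) (hy0 : 0 ≤ y) (h : X ≤ y ^ (1 - e)) :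
    X * N ^ (-(2 * e * L)) ≤ y := by
  have hN0 : 0 < N := by linarith
  have h1 : 0 < N ^ (-L) := Real.rpow_pos_of_pos hN0 _
  have hX0 : 0 < X := h1.trans_le hX
  have h1e : 0 < 1 - e := by linarith
  have h2 : X ^ (1 / (1 - e)) ≤ y := by
    calc X ^ (1 / (1 - e)) ≤ (y ^ (1 - e)) ^ (1 / (1 - e)) :=
          Real.rpow_le_rpow hX0.le h (by positivity)
      _ = y := by
          rw [← Real.rpow_mul hy0, mul_one_div_cancel h1e.ne', Real.rpow_one]
  refine le_trans ?_ h2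
  have h3 : 1 / (1 - e) = 1 + e / (1 - e) := by field_simp; ring
  rw [h3, Real.rpow_add hX0, Real.rpow_one]
  refine mul_le_mul_of_nonneg_left ?_ hX0.le
  have h4 : e / (1 - e) ≤ 2 * e := by
    rw [div_le_iff₀ h1e]; nlinarith
  have h5 : 0 ≤ e / (1 - e) := by positivity
  calc N ^ (-(2 * e * L)) ≤ N ^ (-L * (e / (1 - e))) := by
        refine Real.rpow_le_rpow_of_exponent_le hN ?_
        nlinarith
    _ = (N ^ (-L)) ^ (e / (1 - e)) := Real.rpow_mul hN0.le _ _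
    _ ≤ X ^ (e / (1 - e)) := Real.rpow_le_rpow h1.le hX h5

/-- **closing of D** -/
theorem sd_of_right (hD : Vg109.HD) (hE : HE2) (hR : DRight) : SD p2 p4 := by
  obtain ⟨K, hK, hpoly⟩ := p2_poly
  refine Ax107.sd_of_const Ax107.p2_nonneg Ax107.p2_anti fun ε hε => ⟨256, ?_⟩
  set L : ℝ := 4 + 2 * K with hL
  set e : ℝ := min (1 / 2) (min ε 1 / (16 + 4 * L)) with he
  have hL0 : 0 < L := by positivity
  have hm0 : 0 < min ε 1 := lt_min hε one_pos
  have he0 : 0 < e := lt_min (by norm_num) (by positivity)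
  have he1 : e ≤ 1 / 2 := min_le_left _ _
  have he2 : e * (16 + 4 * L) ≤ min ε 1 := by
    have : e ≤ min ε 1 / (16 + 4 * L) := min_le_right _ _
    rwa [le_div_iff₀ (by positivity)] at this
  have he3 : e * (16 + 4 * L) ≤ ε := he2.trans (min_le_left _ _)
  have he4 : e * (16 + 4 * L) ≤ 1 := he2.trans (min_le_right _ _)
  obtain ⟨τ0, hτ0, hleft⟩ := dleft_exp hD hE (C0 := 1) zero_le_one he0 (by linarith)
  obtain ⟨τ1, hτ1, hright⟩ := hR e he0
  obtain ⟨τ2, hτ2, hloc⟩ := loc_pow_neg hD he0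
  set τ : ℝ := min (min (τ0 / 2) τ1) (τ2 / 2) with hτ
  have t0 : 0 < τ := lt_min (lt_min (by linarith) hτ1) (by linarith)
  have t1 : τ ≤ τ0 / 2 := (min_le_left _ _).trans (min_le_left _ _)
  have t2 : τ ≤ τ1 := (min_le_left _ _).trans (min_le_right _ _)
  have t3 : τ ≤ τ2 / 2 := min_le_right _ _
  have hmain : ∀ᶠ j : ℕ in atTop, ((256 * 2 ^ j : ℕ) : ℝ) ^ (-(3 / 4 : ℝ) - 4 * e - 2 * e * L) *
      p2 (256 * 2 ^ j) ^ 2 ≤ p4 (64 * 2 ^ j) := by
    filter_upwards [hright τ t0 t2, ev_dyadic hleft, ev_dyadic hloc, ev_dyadic hpoly,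
      ev_dyadic (ev_const 2 he0)] with j h1 h2 h3 h4 h5
    obtain ⟨R, hR1, hR2, h6⟩ := h1
    set n : ℕ := 256 * 2 ^ j with hn
    have hj : 1 ≤ 2 ^ j := Nat.one_le_two_pow
    have hn1 : (1 : ℝ) ≤ n := by exact_mod_cast (by omega : 1 ≤ n)
    have hn0 : (0 : ℝ) < n := by linarith
    have hR3 : (R : ℝ) ≤ (n : ℝ) ^ (1 + τ0) := hR2.trans
      (Real.rpow_le_rpow_of_exponent_le hn1 (by linarith))
    have hR4 : (R : ℝ) ≤ (n : ℝ) ^ (1 + τ2) := hR2.trans
      (Real.rpow_le_rpow_of_exponent_le hn1 (by linarith))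
    have hsd : sd (0, 0) ((0, (n : ℤ)) : P2) = n := by
      unfold sd
      simp
    have hw := ringW_ws (R := R) (by omega)
    have e4 : n / 4 = 64 * 2 ^ j := by omega
    have a1 := h2 R (Bk430.ws R) (0, (n : ℤ)) false ((0, 0), false) hR1 hR3 hw (by rw [hsd])
      (by rw [hsd]; omega) rfl
    have a2 := h2 R (Bk430.ws R) (0, (n : ℤ)) true ((0, 0), false) hR1 hR3 hw (by rw [hsd])
      (by rw [hsd]; omega) rfl
    rw [e4] at a1 a2
    set P : ℝ := (μh).real (Sp580.A4 ((0, 0), false) ((64 * 2 ^ j : ℕ) : ℤ)) with hP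
    have hPp : P = p4 (64 * 2 ^ j) := rfl
    have b1 := h3 R (by omega) hR4
    set q := p2 n with hq
    have hq0 : 0 ≤ q := Ax107.p2_nonneg n
    set V := exp (-(√3 * (2 * π / 3) * VV (Nat.log 2 R))) with hV
    -- combine
    have c1 : (n : ℝ) ^ (-e) * V * q ^ 2 ≤ 2 * ((n : ℝ) ^ (5 / 12 + e) * P ^ (1 - e)) := by
      refine h6.trans ((le_abs_self _).trans ((abs_sub _ _).trans ?_))
      linarith
    have c2 : (n : ℝ) ^ (-e) * (n : ℝ) ^ (-(1 / 3 : ℝ) - e) * q ^ 2 ≤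
        (n : ℝ) ^ e * ((n : ℝ) ^ (5 / 12 + e) * P ^ (1 - e)) := by
      have d1 : 0 ≤ (n : ℝ) ^ (5 / 12 + e) * P ^ (1 - e) := by
        have : 0 ≤ P := measureReal_nonneg
        positivity
      calc (n : ℝ) ^ (-e) * (n : ℝ) ^ (-(1 / 3 : ℝ) - e) * q ^ 2
          ≤ (n : ℝ) ^ (-e) * V * q ^ 2 := by gcongr
        _ ≤ 2 * ((n : ℝ) ^ (5 / 12 + e) * P ^ (1 - e)) := c1
        _ ≤ _ := mul_le_mul_of_nonneg_right h5 d1
    have c3 : (n : ℝ) ^ (-(3 / 4 : ℝ) - 4 * e) * q ^ 2 ≤ P ^ (1 - e) := by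
      have d2 : (0 : ℝ) < (n : ℝ) ^ (5 / 12 + 2 * e) := Real.rpow_pos_of_pos hn0 _
      have d3 : (n : ℝ) ^ (-e) * (n : ℝ) ^ (-(1 / 3 : ℝ) - e) * q ^ 2 =
          (n : ℝ) ^ (5 / 12 + 2 * e) * ((n : ℝ) ^ (-(3 / 4 : ℝ) - 4 * e) * q ^ 2) := by
        rw [← mul_assoc, ← Real.rpow_add hn0, ← Real.rpow_add hn0]
        congr 2
        ring
      have d4 : (n : ℝ) ^ e * ((n : ℝ) ^ (5 / 12 + e) * P ^ (1 - e)) =
          (n : ℝ) ^ (5 / 12 + 2 * e) * P ^ (1 - e) := by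
        rw [← mul_assoc, ← Real.rpow_add hn0]
        congr 2
        ring
      rw [d3, d4] at c2
      exact le_of_mul_le_mul_left c2 d2
    have c4 : (n : ℝ) ^ (-L) ≤ (n : ℝ) ^ (-(3 / 4 : ℝ) - 4 * e) * q ^ 2 := by
      have d5 : ((n : ℝ) ^ (-K)) ^ 2 ≤ q ^ 2 := pow_le_pow_left₀ (by positivity) h4 2
      have d6 : ((n : ℝ) ^ (-K)) ^ 2 = (n : ℝ) ^ (-(2 * K)) := by
        rw [← Real.rpow_natCast, ← Real.rpow_mul hn0.le]
        congr 1
        push_cast; ring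
      calc (n : ℝ) ^ (-L) ≤ (n : ℝ) ^ (-(3 / 4 : ℝ) - 4 * e + -(2 * K)) := by
            refine Real.rpow_le_rpow_of_exponent_le hn1 ?_
            rw [hL]; nlinarith
        _ = (n : ℝ) ^ (-(3 / 4 : ℝ) - 4 * e) * (n : ℝ) ^ (-(2 * K)) := Real.rpow_add hn0 _ _
        _ ≤ _ := by
            rw [← d6]
            exact mul_le_mul_of_nonneg_left d5 (by positivity)
    have c5 := pow_trick hn1 he0 he1 hL0.le c4 (measureReal_nonneg : 0 ≤ P) c3
    have c6 : (n : ℝ) ^ (-(3 / 4 : ℝ) - 4 * e) * q ^ 2 * (n : ℝ) ^ (-(2 * e * L)) ≤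
        p4 (64 * 2 ^ j) := c5
    refine le_trans (le_of_eq ?_) c6
    have d7 : -(3 / 4 : ℝ) - 4 * e - 2 * e * L = (-(3 / 4 : ℝ) - 4 * e) + -(2 * e * L) := by ring
    rw [d7, Real.rpow_add hn0]
    ring
  obtain ⟨J, hJ⟩ := eventually_atTop.1 hmain
  filter_upwards [eventually_ge_atTop (2 ^ J), ev_const (256 ^ 2) (d := ε / 2) (by linarith)]
    with N hN1 hN2
  have hN0 : 1 ≤ N := Nat.one_le_two_pow.trans hN1
  set j := Nat.log 2 N with hj
  have hjJ : J ≤ j := Nat.le_log_of_pow_le (by norm_num) hN1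
  have h1 := hJ j hjJ
  have h2 : 2 ^ j ≤ N := Nat.pow_log_le_self 2 (by omega)
  have h3 : N < 2 ^ (j + 1) := Nat.lt_pow_succ_log_self (by norm_num) N
  rw [pow_succ] at h3
  have h4 : p4 (64 * 2 ^ j) ≤ p4 N := p4_anti hN0 (by omega)
  have h5 : p2 (256 * N) ≤ p2 (256 * 2 ^ j) := Ax107.p2_anti (Nat.mul_le_mul_left _ h2)
  refine le_trans ?_ (h1.trans h4)
  have hNr : (1 : ℝ) ≤ N := by exact_mod_cast hN0
  have hNp : (0 : ℝ) < N := by linarith
  have hj1 : 1 ≤ 2 ^ j := Nat.one_le_two_pow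
  have hn0 : (0 : ℝ) < ((256 * 2 ^ j : ℕ) : ℝ) := by positivity
  have hnN : ((256 * 2 ^ j : ℕ) : ℝ) ≤ 256 * N := by exact_mod_cast Nat.mul_le_mul_left _ h2
  set a : ℝ := 3 / 4 + 4 * e + 2 * e * L with ha
  have ha1 : a ≤ 3 / 4 + ε / 2 := by rw [ha]; nlinarith
  have ha2 : a ≤ 2 := by rw [ha]; nlinarith
  have ha0 : 0 < a := by rw [ha]; positivity
  have h6 : (N : ℝ) ^ (-(3 / 4 : ℝ) - ε) ≤
      ((256 * 2 ^ j : ℕ) : ℝ) ^ (-(3 / 4 : ℝ) - 4 * e - 2 * e * L) := by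
    have e1 : -(3 / 4 : ℝ) - 4 * e - 2 * e * L = -a := by rw [ha]; ring
    rw [e1]
    calc (N : ℝ) ^ (-(3 / 4 : ℝ) - ε) ≤ (256 * (N : ℝ)) ^ (-a) := by
          rw [Real.mul_rpow (by norm_num) hNp.le]
          have f1 : (N : ℝ) ^ (-(3 / 4 : ℝ) - ε) ≤ (N : ℝ) ^ (-(ε / 2)) * (N : ℝ) ^ (-a) := by
            rw [← Real.rpow_add hNp]
            exact Real.rpow_le_rpow_of_exponent_le hNr (by linarith)
          refine f1.trans (mul_le_mul_of_nonneg_right ?_ (by positivity))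
          rw [Real.rpow_neg hNp.le, Real.rpow_neg (by norm_num)]
          refine inv_anti₀ (by positivity) ?_
          calc (256 : ℝ) ^ a ≤ (256 : ℝ) ^ (2 : ℝ) :=
                Real.rpow_le_rpow_of_exponent_le (by norm_num) ha2
            _ = 256 ^ 2 := by norm_num
            _ ≤ _ := hN2
      _ ≤ _ := Real.rpow_le_rpow_of_nonpos hn0 hnN (by linarith)
  exact mul_le_mul h6 (pow_le_pow_left₀ (Ax107.p2_nonneg _) h5 2) (by positivity) (by positivity)

end Crest.Agent.R158.Ud107
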