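import Crest.Agent.R158.It4_200
import Crest.Agent.R158.Wf0_850
import Crest.Agent.R158.Rz1_808
import Crest.Agent.R158.Rs5_689
import Crest.Agent.R158.Vx6_107
import Crest.Agent.R158.Ax2_107
import Crest.Agent.R158.Lc1_522
import Crest.Agent.R158.Rs10_689
import Crest.Agent.R158.Wf1_850
import Crest.Agent.R161.Sym_597

-- ▼ part R158/Zr1_110
section

/-!
# Row 158, BLOCK Z (helper110), part 1: the type of a strand is increasing, medial reflections

* `AllFin z` : all the strands of `z` are finite; `allFin_flip`, `allFin_open`, `allFin_cof`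
* `sg_mono` : opening edges keeps `sg z c = 1` (the face of the corner is inside its strand)
* `Rfl` : reflection in the line of a medial edge (exchanges `ℤ²` and its dual); `Rfl.sg_eq` :
  it changes the type of the strand through a fixed corner
* `exists_rfl` : every corner is fixed by such a reflection
-/

set_option autoImplicit false

noncomputable section

namespace Crest.Agent.R158.Zr110

open Crest.Agent.R161.Geo729 Crest.Agent.R161.Dual374
open Crest.Agent.R158.It200
open Finset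

/-! ### type along a strand -/

theorem sg_congr {z z' : Cfz} {c : Corner} (h : Lp z c = Lp z' c) : sg z c = sg z' c := by
  unfold sg hv hf JL
  rw [h]



/-- the type is constant along a finite strand -/
theorem sg_along {z : Cfz} {c d : Corner} (hfin : (Lp z c).Finite) (h : d ∈ Lp z c) :
    sg z d = sg z c := by
  have e1 : hv z d = hv z c := hv_eq h
  have e2 : hf z d = hf z c := hf_eq h
  unfold sg
  rw [e1, e2]
  rcases sgn_cases hfin with ⟨h1, -, -⟩ | ⟨h1, -, -⟩
  · have a := h1 d h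
    have b := h1 c (mem_Lp_self _ _)
    rw [a.1, a.2, b.1, b.2]
  · have a := h1 d h
    have b := h1 c (mem_Lp_self _ _)
    rw [a.1, a.2, b.1, b.2]

theorem sg_pm {z : Cfz} {c : Corner} (hfin : (Lp z c).Finite) : sg z c = 1 ∨ sg z c = -1 := by
  rcases sg_cases hfin with ⟨h, _⟩ | ⟨h, _⟩
  · exact Or.inr h
  · exact Or.inl h

/-! ### all strands finite -/

/-- all the strands are finite -/
def AllFin (z : Cfz) : Prop := ∀ c, (Lp z c).Finite

theorem allFin_flip {z : Cfz} (h : AllFin z) (e : Edge) : AllFin (flip z e) := by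
  intro c
  by_cases hc : i1 e ∈ Lp z c ∨ i2 e ∈ Lp z c
  · -- the strand of `c` in `flip z e` meets the union
    have hU : c ∈ Lp (flip z e) (i1 e) ∪ Lp (flip z e) (i2 e) := by
      rw [flip_union]
      rcases hc with h1 | h1
      · exact Or.inl h1.symm
      · exact Or.inr h1.symm
    have hfin : (Lp (flip z e) (i1 e) ∪ Lp (flip z e) (i2 e)).Finite := by
      rw [flip_union]
      exact (h _).union (h _)
    rcases hU with h2 | h2
    · refine hfin.subset ?_
      have : Lp (flip z e) c = Lp (flip z e) (i1 e) := Lp_eq h2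
      rw [this]; exact Set.subset_union_left
    · refine hfin.subset ?_
      have : Lp (flip z e) c = Lp (flip z e) (i2 e) := Lp_eq h2
      rw [this]; exact Set.subset_union_right
  · push Not at hc
    rw [flip_other hc.1 hc.2]
    exact h c

/-- in the completely open configuration every strand has at most four corners -/
theorem allFin_open : AllFin (fun _ => true) := by
  intro c
  refine Lp_finite_of_f ?_
  have : DCl (fun _ => true) (fc c) ⊆ {fc c} := by
    intro g hg
    have hg' : Relation.ReflTransGen (DStep (fun e => (fun _ => true : Cfz) e = false))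
      (fc c) g := hg
    induction hg' with
    | refl => rfl
    | tail _ hs _ =>
        obtain ⟨e, he, -⟩ := hs
        simp at he
  exact (Set.finite_singleton _).subset this

/-- in the completely closed configuration every strand is finite -/
theorem allFin_closed : AllFin (fun _ => false) := by
  intro c
  refine Lp_finite_of_v ?_
  have : OCl (fun _ => false) c.1 ⊆ {c.1} := by
    intro g hg
    have hg' : Relation.ReflTransGen (PStep (fun e => (fun _ => false : Cfz) e = true))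
      c.1 g := hg
    induction hg' with
    | refl => rfl
    | tail _ hs _ =>
        obtain ⟨e, he, -⟩ := hs
        simp at he
  exact (Set.finite_singleton _).subset this

theorem update_eq {z : Cfz} {e : Edge} {b : Bool} :
    Function.update z e b = z ∨ Function.update z e b = flip z e := by
  by_cases h : b = z e
  · left; rw [h, Function.update_eq_self]
  · right
    unfold It200.flip
    have : b = !(z e) := by cases b <;> cases hz : z e <;> simp_all
    rw [this]

/-- changing finitely many edges keeps all strands finite -/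
theorem allFin_of_agree {S : Finset Edge} : ∀ {z z' : Cfz}, AllFin z → (∀ e ∉ S, z e = z' e) →
    AllFin z' := by
  classical
  induction S using Finset.induction_on with
  | empty =>
      intro z z' h1 h2
      have : z = z' := funext fun e => h2 e (Finset.notMem_empty e)
      exact this ▸ h1
  | insert a S ha ih =>
      intro z z' h1 h2
      have h3 : AllFin (Function.update z a (z' a)) := by
        rcases update_eq (z := z) (e := a) (b := z' a) with h | h
        · rw [h]; exact h1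
        · rw [h]; exact allFin_flip h1 a
      refine ih h3 fun e he => ?_
      by_cases hea : e = a
      · rw [hea, Function.update_self]
      · rw [Function.update_of_ne hea]
        exact h2 e (by rw [Finset.mem_insert]; push Not; exact ⟨hea, he⟩)

/-! ### monotonicity -/

/-- opening one edge -/
theorem sg_mono_one {z : Cfz} {e : Edge} {c : Corner} (h : AllFin z) (he : z e = false)
    (hs : sg z c = 1) : sg (flip z e) c = 1 := by
  have h' : AllFin (flip z e) := allFin_flip h e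
  by_cases h0 : i1 e ∉ Lp z c ∧ i2 e ∉ Lp z c
  · rw [sg_congr (flip_other h0.1 h0.2)]; exact hs
  have hc : c ∈ Lp (flip z e) (i1 e) ∪ Lp (flip z e) (i2 e) := by
    rw [flip_union]
    rw [not_and_or, not_not, not_not] at h0
    rcases h0 with h1 | h1
    · exact Or.inl h1.symm
    · exact Or.inr h1.symm
  have hc0 : c ∈ Lp z (i1 e) ∪ Lp z (i2 e) := by rw [← flip_union]; exact hc
  by_cases hm : i2 e ∈ Lp z (i1 e)
  · -- split
    have hcz : c ∈ Lp z (i1 e) := by
      rcases hc0 with h1 | h1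
      · exact h1
      · rwa [Lp_eq hm] at h1
    have hs1 : sg z (i1 e) = 1 := by rw [← sg_along (h _) hcz]; exact hs
    rcases split_closed_open he (h _) hm with ⟨-, a, b, -, -⟩ | ⟨a, -⟩ | ⟨a, -⟩
    · rcases hc with h1 | h1
      · rw [sg_along (h' _) h1]; exact a
      · rw [sg_along (h' _) h1]; exact b
    · rw [hs1] at a; norm_num at a
    · rw [hs1] at a; norm_num at a
  · -- merge
    have hm' : i2 e ∈ Lp (flip z e) (i1 e) := flip_merge (h _) hm
    have hcz : c ∈ Lp (flip z e) (i1 e) := by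
      rcases hc with h1 | h1
      · exact h1
      · rwa [Lp_eq hm'] at h1
    rw [sg_along (h' _) hcz]
    have he' : flip z e e = true := by rw [flip_same, he]; rfl
    have key := split_open_closed he' (h' _) hm'
    rw [It200.flip_flip] at key
    rcases key with ⟨-, a, b, -, -⟩ | ⟨a, -⟩ | ⟨a, -⟩
    · exfalso
      rcases hc0 with h1 | h1
      · rw [sg_along (h _) h1, a] at hs; norm_num at hs
      · rw [sg_along (h _) h1, b] at hs; norm_num at hs
    · exact a
    · exact a

/-- **opening edges keeps the face of the corner inside its strand** -/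
theorem sg_mono {S : Finset Edge} : ∀ {z z' : Cfz} {c : Corner}, AllFin z →
    (∀ e, z e = true → z' e = true) → (∀ e ∉ S, z e = z' e) → sg z c = 1 → sg z' c = 1 := by
  classical
  induction S using Finset.induction_on with
  | empty =>
      intro z z' c h1 _ h3 h4
      have : z = z' := funext fun e => h3 e (Finset.notMem_empty e)
      exact this ▸ h4
  | insert a S ha ih =>
      intro z z' c h1 h2 h3 h4
      set z1 := Function.update z a (z' a) with hz1
      have hcase : z1 = z ∨ (z a = false ∧ z1 = flip z a) := by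
        rcases update_eq (z := z) (e := a) (b := z' a) with h | h
        · exact Or.inl h
        · cases hza : z a with
          | false => exact Or.inr ⟨rfl, h⟩
          | true =>
              left
              rw [hz1, h2 a hza, ← hza, Function.update_eq_self]
      have g1 : AllFin z1 := by
        rcases hcase with h | ⟨-, h⟩
        · rw [h]; exact h1
        · rw [h]; exact allFin_flip h1 a
      have g4 : sg z1 c = 1 := by
        rcases hcase with h | ⟨ha', h⟩
        · rw [h]; exact h4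
        · rw [h]; exact sg_mono_one h1 ha' h4
      refine ih (z := z1) g1 (fun e he => ?_) (fun e he => ?_) g4
      · by_cases hea : e = a
        · rw [hea] at he ⊢
          rwa [hz1, Function.update_self] at he
        · rw [hz1, Function.update_of_ne hea] at he
          exact h2 e he
      · by_cases hea : e = a
        · rw [hea, hz1, Function.update_self]
        · rw [hz1, Function.update_of_ne hea]
          exact h3 e (by rw [Finset.mem_insert]; push Not; exact ⟨hea, he⟩)

/-! ### heights far away -/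

theorem far {z : Cfz} {c : Corner} (hfin : (Lp z c).Finite) :
    ∃ N : ℤ, ∀ v : P2, N < |v.1| → hv z c v = 0 ∧ hf z c v = 0 := by
  have h1 : ∃ N : ℤ, ∀ d ∈ Lp z c, |d.1.1| ≤ N ∧ |d.1.2| ≤ N := by
    have hb := (hfin.image fun d : Corner => max |d.1.1| |d.1.2|).bddAbove
    obtain ⟨N, hN⟩ := hb
    refine ⟨N, fun d hd => ?_⟩
    have := hN ⟨d, hd, rfl⟩
    exact ⟨(le_max_left _ _).trans this, (le_max_right _ _).trans this⟩
  obtain ⟨N, hN⟩ := h1
  have hB : ∀ d, JL z c d ≠ 0 → -N ≤ d.1.1 ∧ d.1.1 ≤ N ∧ -N ≤ d.1.2 ∧ d.1.2 ≤ N := by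
    intro d hd
    have hmem : d ∈ Lp z c := by
      by_contra h
      exact hd (JL_not_mem h)
    obtain ⟨a, b⟩ := hN d hmem
    rw [abs_le] at a b
    exact ⟨a.1, a.2, b.1, b.2⟩
  refine ⟨N, fun v hv' => ?_⟩
  rw [lt_abs] at hv'
  have hout : v.1 < -N ∨ N < v.1 ∨ v.2 < -N ∨ N < v.2 := by
    rcases hv' with h | h
    · right; left; exact h
    · left; linarith
  refine ⟨Hv_out (JL_fs hfin) (JL_inv z c).cons hB hout, ?_⟩
  have := Hf_out (JL_fs hfin) (JL_inv z c).cons hB (c := (v, 0)) hout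
  rwa [fc_zero] at this

/-! ### medial reflections -/

/-- a reflection of the medial lattice exchanging vertices and faces -/
structure Rfl where
  /-- image of a vertex (a face) -/
  al : P2 → P2
  /-- image of a face (a vertex) -/
  be : P2 → P2
  /-- image of an edge -/
  ep : Edge → Edge
  /-- image of a corner -/
  ka : Corner → Corner
  ep_ep : ∀ e, ep (ep e) = e
  ka_ka : ∀ c, ka (ka c) = c
  fst_ka : ∀ c, (ka c).1 = be (fc c)
  fc_ka : ∀ c, fc (ka c) = al c.1
  ah_ka : ∀ c, ah (ka c) = ep (ah c)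
  nxo_ka : ∀ c, nxo (ka c) = ka (nxc c)
  nxc_ka : ∀ c, nxc (ka c) = ka (nxo c)
  far : ∀ N : ℤ, ∃ v : P2, N < |v.1| ∧ N < |(al v).1|
  al_be : ∀ f, al (be f) = f
  be_al : ∀ v, be (al v) = v

namespace Rfl

variable (ρ : Rfl)

/-- action on configurations -/
def act (z : Cfz) : Cfz := fun e => !z (ρ.ep e)

theorem act_act (z : Cfz) : ρ.act (ρ.act z) = z := by
  funext e; simp [act, ρ.ep_ep]

theorem nx_act (z : Cfz) (c : Corner) : nx (ρ.act z) (ρ.ka c) = ρ.ka (nx z c) := by
  have h1 : ρ.act z (ah (ρ.ka c)) = !z (ah c) := by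
    unfold act; rw [ρ.ah_ka, ρ.ep_ep]
  cases h : z (ah c) with
  | true =>
      rw [nx_open h, nx_closed (by rw [h1, h]; rfl), ρ.nxc_ka]
  | false =>
      rw [nx_closed h, nx_open (by rw [h1, h]; rfl), ρ.nxo_ka]


theorem pv_act (z : Cfz) (c : Corner) : pv (ρ.act z) (ρ.ka c) = ρ.ka (pv z c) := by
  have h := ρ.nx_act z (pv z c)
  rw [nx_pv] at h
  rw [← h, pv_nx]

theorem ka_mem {z : Cfz} {c d : Corner} (h : d ∈ Lp z c) : ρ.ka d ∈ Lp (ρ.act z) (ρ.ka c) := by
  refine Lp_induct (P := fun d => ρ.ka d ∈ Lp (ρ.act z) (ρ.ka c)) (mem_Lp_self _ _) ?_ ?_ d h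
  · intro d _ hd
    rw [← ρ.nx_act]
    exact nx_mem_Lp.2 hd
  · intro d _ hd
    rw [← ρ.pv_act]
    exact pv_mem_Lp.2 hd

theorem ka_mem_iff {z : Cfz} {c d : Corner} : ρ.ka d ∈ Lp (ρ.act z) (ρ.ka c) ↔ d ∈ Lp z c := by
  constructor
  · intro h
    have := ρ.ka_mem h
    rwa [ρ.act_act, ρ.ka_ka, ρ.ka_ka] at this
  · exact ρ.ka_mem

theorem Lp_act (z : Cfz) (c : Corner) : Lp (ρ.act z) (ρ.ka c) = ρ.ka '' Lp z c := by
  ext d
  constructor
  · intro h
    refine ⟨ρ.ka d, ?_, ρ.ka_ka d⟩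
    rw [← ρ.ka_mem_iff, ρ.ka_ka]
    exact h
  · rintro ⟨x, hx, rfl⟩
    exact ρ.ka_mem hx

theorem fin_act {z : Cfz} {c : Corner} (h : (Lp z c).Finite) :
    (Lp (ρ.act z) (ρ.ka c)).Finite := by
  rw [ρ.Lp_act]; exact h.image _

theorem JL_act (z : Cfz) (c d : Corner) : JL (ρ.act z) (ρ.ka c) (ρ.ka d) = JL z c d := by
  by_cases h : d ∈ Lp z c
  · rw [JL_mem h, JL_mem (ρ.ka_mem h)]
  · rw [JL_not_mem h, JL_not_mem fun h' => h (ρ.ka_mem_iff.1 h')]

/-- two functions without jumps are equal constants -/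
theorem const_of_grad {A B : P2 → ℤ} (h : ∀ d : Corner, B (fc d) = A d.1) (u v : P2) :
    A u = A v ∧ B u = A v := by
  have e0 : ∀ u : P2, B u = A u := fun u => by
    have := h (u, 0); rwa [fc_zero] at this
  have hx : ∀ u : P2, A (u.1 + 1, u.2) = A u := by
    intro u
    have h3 := h ((u.1 + 1, u.2), 3)
    have e : fc ((u.1 + 1, u.2), 3) = u := by simp [fc]
    rw [e, e0] at h3
    exact h3.symm
  have hy : ∀ u : P2, A (u.1, u.2 + 1) = A u := by
    intro u
    have h3 := h ((u.1, u.2 + 1), 1)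
    have e : fc ((u.1, u.2 + 1), 1) = u := by simp [fc]
    rw [e, e0] at h3
    exact h3.symm
  have hxn : ∀ (n : ℕ) (u : P2), A (u.1 + n, u.2) = A u := by
    intro n
    induction n with
    | zero => intro u; simp
    | succ n ih =>
        intro u
        have := hx (u.1 + n, u.2)
        simp only at this
        rw [Nat.cast_succ, ← add_assoc, this, ih]
  have hyn : ∀ (n : ℕ) (u : P2), A (u.1, u.2 + n) = A u := by
    intro n
    induction n with
    | zero => intro u; simp
    | succ n ih =>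
        intro u
        have := hy (u.1, u.2 + n)
        simp only at this
        rw [Nat.cast_succ, ← add_assoc, this, ih]
  have hxz : ∀ (a : ℤ) (u : P2), A (a, u.2) = A u := by
    intro a u
    rcases le_total u.1 a with h' | h'
    · have := hxn (a - u.1).toNat u
      rwa [Int.toNat_of_nonneg (by linarith), add_sub_cancel] at this
    · have := hxn (u.1 - a).toNat (a, u.2)
      simp only at this
      rw [Int.toNat_of_nonneg (by linarith), add_sub_cancel] at this
      exact this.symm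
  have hyz : ∀ (b : ℤ) (u : P2), A (u.1, b) = A u := by
    intro b u
    rcases le_total u.2 b with h' | h'
    · have := hyn (b - u.2).toNat u
      rwa [Int.toNat_of_nonneg (by linarith), add_sub_cancel] at this
    · have := hyn (u.2 - b).toNat (u.1, b)
      simp only at this
      rw [Int.toNat_of_nonneg (by linarith), add_sub_cancel] at this
      exact this.symm
  have hA : A u = A v := by
    have h1 := hxz v.1 u
    have h2 := hyz v.2 (v.1, u.2)
    simp only at h2
    rw [← h1, ← h2]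
  exact ⟨hA, by rw [e0, hA]⟩

/-- heights of the reflected strand -/
theorem height_act {z : Cfz} {c : Corner} (h : (Lp z c).Finite) (v f : P2) :
    hv (ρ.act z) (ρ.ka c) v = -hf z c (ρ.al v) ∧ hf (ρ.act z) (ρ.ka c) f = -hv z c (ρ.be f) := by
  have h' := ρ.fin_act h
  set A : P2 → ℤ := fun v => hv (ρ.act z) (ρ.ka c) v + hf z c (ρ.al v) with hA
  set B : P2 → ℤ := fun f => hf (ρ.act z) (ρ.ka c) f + hv z c (ρ.be f) with hB
  have hgrad : ∀ d : Corner, B (fc d) = A d.1 := by
    intro d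
    have g1 := hv_grad h' d
    have g2 := hv_grad h (ρ.ka d)
    rw [ρ.fc_ka, ρ.fst_ka] at g2
    have g3 : JL (ρ.act z) (ρ.ka c) d = JL z c (ρ.ka d) := by
      have := ρ.JL_act z c (ρ.ka d)
      rwa [ρ.ka_ka] at this
    show hf (ρ.act z) (ρ.ka c) (fc d) + hv z c (ρ.be (fc d)) =
      hv (ρ.act z) (ρ.ka c) d.1 + hf z c (ρ.al d.1)
    linarith
  obtain ⟨N1, hN1⟩ := Zr110.far h
  obtain ⟨N2, hN2⟩ := Zr110.far h'
  obtain ⟨w, hw1, hw2⟩ := ρ.far (max N1 N2)
  have hAw : A w = 0 := by
    show hv (ρ.act z) (ρ.ka c) w + hf z c (ρ.al w) = 0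
    rw [(hN2 w (lt_of_le_of_lt (le_max_right _ _) hw1)).1,
      (hN1 (ρ.al w) (lt_of_le_of_lt (le_max_left _ _) hw2)).2, add_zero]
  have hc1 := const_of_grad hgrad
  constructor
  · have := (hc1 v w).1
    rw [hAw] at this
    have h3 : hv (ρ.act z) (ρ.ka c) v + hf z c (ρ.al v) = 0 := this
    linarith
  · have := (hc1 f w).2
    rw [hAw] at this
    have h3 : hf (ρ.act z) (ρ.ka c) f + hv z c (ρ.be f) = 0 := this
    linarith

/-- **the reflection changes the type** -/
theorem sg_act {z : Cfz} {c : Corner} (h : (Lp z c).Finite) :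
    sg (ρ.act z) (ρ.ka c) = -sg z c := by
  unfold sg
  rw [(ρ.height_act h (ρ.ka c).1 (fc (ρ.ka c))).1, (ρ.height_act h (ρ.ka c).1 (fc (ρ.ka c))).2,
    ρ.fc_ka, ρ.fst_ka, ρ.al_be, ρ.be_al]
  ring

end Rfl

/-- reflection in an antidiagonal medial line -/
def rA (s : ℤ) : Rfl where
  al v := (s - v.2, s - v.1)
  be v := (s - v.2, s - v.1)
  ep e := ((s - e.1.2, s - e.1.1), e.2)
  ka c := match c.2 with
    | 0 => ((s - c.1.2, s - c.1.1), 0)
    | 1 => ((s - c.1.2 + 1, s - c.1.1), 3)
    | 2 => ((s - c.1.2 + 1, s - c.1.1 + 1), 2)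
    | 3 => ((s - c.1.2, s - c.1.1 + 1), 1)
  ep_ep := by rintro ⟨⟨x, y⟩, b⟩; simp
  ka_ka := by
    rintro ⟨⟨x, y⟩, q⟩
    fin_cases q <;> simp <;> first | done | omega | (constructor <;> omega)
  fst_ka := by
    rintro ⟨⟨x, y⟩, q⟩
    fin_cases q <;> simp [fc] <;> ring_nf <;> simp
  fc_ka := by
    rintro ⟨⟨x, y⟩, q⟩
    fin_cases q <;> simp [fc]
  ah_ka := by
    rintro ⟨⟨x, y⟩, q⟩
    fin_cases q <;> simp [ah] <;> ring
  nxo_ka := by
    rintro ⟨⟨x, y⟩, q⟩
    fin_cases q <;> simp [nxo, nxc, wa, rl, rr]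
  nxc_ka := by
    rintro ⟨⟨x, y⟩, q⟩
    fin_cases q <;> simp [nxo, nxc, wa, rl, rr] <;> first | done | omega | (constructor <;> omega)
  far := by
    intro N
    refine ⟨(|N| + 1, -(|N| + |s| + 1)), ?_, ?_⟩
    · simp only
      have := le_abs_self N
      have h2 := abs_nonneg N
      rw [abs_of_nonneg (by linarith)]; linarith
    · simp only
      have := le_abs_self N
      have h2 := abs_nonneg N
      have h3 := neg_abs_le s
      rw [lt_abs]; left; linarith
  al_be := by rintro ⟨x, y⟩; simp <;> first | done | omega | (constructor <;> omega)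
  be_al := by rintro ⟨x, y⟩; simp <;> first | done | omega | (constructor <;> omega)

/-- reflection in a diagonal medial line -/
def rD (t : ℤ) : Rfl where
  al v := (v.2 - t, v.1 + t - 1)
  be v := (v.2 - t + 1, v.1 + t)
  ep e := if e.2 then ((e.1.2 - t + 1, e.1.1 + t - 1), true) else ((e.1.2 - t, e.1.1 + t), false)
  ka c := match c.2 with
    | 0 => ((c.1.2 - t + 1, c.1.1 + t), 2)
    | 1 => ((c.1.2 - t, c.1.1 + t), 1)
    | 2 => ((c.1.2 - t, c.1.1 + t - 1), 0)
    | 3 => ((c.1.2 - t + 1, c.1.1 + t - 1), 3)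
  ep_ep := by
    rintro ⟨⟨x, y⟩, b⟩
    cases b <;> simp <;> first | done | omega | (constructor <;> omega)
  ka_ka := by
    rintro ⟨⟨x, y⟩, q⟩
    fin_cases q <;> simp <;> first | done | omega | (constructor <;> omega)
  fst_ka := by
    rintro ⟨⟨x, y⟩, q⟩
    fin_cases q <;> simp [fc] <;> ring_nf <;> simp
  fc_ka := by
    rintro ⟨⟨x, y⟩, q⟩
    fin_cases q <;> simp [fc] <;> ring
  ah_ka := by
    rintro ⟨⟨x, y⟩, q⟩
    fin_cases q <;> simp [ah] <;> ring
  nxo_ka := by
    rintro ⟨⟨x, y⟩, q⟩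
    fin_cases q <;> simp [nxo, nxc, wa, rl, rr] <;> ring
  nxc_ka := by
    rintro ⟨⟨x, y⟩, q⟩
    fin_cases q <;> simp [nxo, nxc, wa, rl, rr] <;> ring
  far := by
    intro N
    refine ⟨(|N| + 1, |N| + |t| + 1), ?_, ?_⟩
    · simp only
      have := le_abs_self N
      have h2 := abs_nonneg N
      rw [abs_of_nonneg (by linarith)]; linarith
    · simp only
      have := le_abs_self N
      have h2 := abs_nonneg N
      have h3 := le_abs_self t
      rw [lt_abs]; left; linarith
  al_be := by rintro ⟨x, y⟩; simp <;> first | done | omega | (constructor <;> omega)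
  be_al := by rintro ⟨x, y⟩; simp <;> first | done | omega | (constructor <;> omega)

/-- every corner is fixed by a medial reflection -/
theorem exists_rfl (c : Corner) : ∃ ρ : Rfl, ρ.ka c = c := by
  obtain ⟨⟨a, b⟩, q⟩ := c
  fin_cases q
  · refine ⟨rA (a + b), ?_⟩
    simp [rA] <;> first | done | omega | (constructor <;> omega)
  · refine ⟨rD (b - a), ?_⟩
    simp [rD] <;> first | done | omega | (constructor <;> omega)
  · refine ⟨rA (a + b - 1), ?_⟩
    simp [rA] <;> first | done | omega | (constructor <;> omega)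
  · refine ⟨rD (b - a + 1), ?_⟩
    simp [rD] <;> first | done | omega | (constructor <;> omega)

end Crest.Agent.R158.Zr110
end
end

-- ▼ part R158/Zr2_110
section

/-!
# Row 158, BLOCK Z (helper110), part 2: revealing strands

`M` = a set of edges.  A corner is *marked* if its strand visits an edge of `M`; `Xe M z` = the edges
visited by marked strands (the revealed edges).

* `mk_congr`, `xe_congr` : the revelation is self determined
* `JN M z` : indicator of the unmarked corners, an invariant flow; `col M z c` = parity of its height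
* `parity` : `(-1)^{# unmarked loops around the corner c} = col M z c * sg z c`
* `col_open` : the revealed edges visited by an unmarked strand have the colour `col`
* `inner_bounds` : the sign of the filling compared with that of an independent plane configuration
-/

set_option autoImplicit false

noncomputable section

namespace Crest.Agent.R158.Zr110

open Crest.Agent.R161.Geo729 Crest.Agent.R161.Dual374
open Crest.Agent.R158.It200 Crest.Agent.R158.Wf850
open Finset

/-! ### marks -/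

/-- marked corners -/
def Mk (M : Set Edge) (z : Cfz) : Set Corner := {c | ∃ e ∈ Ve z c, e ∈ M}

/-- revealed edges -/
def Xe (M : Set Edge) (z : Cfz) : Set Edge := {e | i1 e ∈ Mk M z ∨ i2 e ∈ Mk M z}

variable {M : Set Edge}

theorem Ve_eq {z : Cfz} {c d : Corner} (h : d ∈ Lp z c) : Ve z d = Ve z c := by
  unfold Ve; rw [Lp_eq h]

theorem mk_along {z : Cfz} {c d : Corner} (h : d ∈ Lp z c) : d ∈ Mk M z ↔ c ∈ Mk M z := by
  unfold Mk
  rw [Set.mem_ofPred_eq, Set.mem_ofPred_eq, Ve_eq h]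

theorem mk_ah {z : Cfz} {c : Corner} (h : ah c ∈ M) : c ∈ Mk M z :=
  ⟨ah c, ⟨c, mem_Lp_self _ _, rfl⟩, h⟩

theorem mk_bh {z : Cfz} {c : Corner} (h : bh c ∈ M) : c ∈ Mk M z :=
  ⟨bh c, bh_mem_Ve (mem_Lp_self _ _), h⟩

theorem sub_xe (z : Cfz) : M ⊆ Xe M z := fun e he => Or.inl (mk_ah (by rw [ah_i1]; exact he))

theorem ve_sub_xe {z : Cfz} {c : Corner} (hc : c ∈ Mk M z) : Ve z c ⊆ Xe M z := by
  rintro e ⟨d, hd, rfl⟩
  have hd' : d ∈ Mk M z := (mk_along hd).2 hc
  rcases (ah_eq_iff d (ah d)).1 rfl with h | h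
  · exact Or.inl (h ▸ hd')
  · exact Or.inr (h ▸ hd')

theorem lp_marked {z z' : Cfz} (h : ∀ e ∈ Xe M z, z' e = z e) {c : Corner} (hc : c ∈ Mk M z) :
    Lp z c = Lp z' c := Lp_congr fun e he => (h e (ve_sub_xe hc he)).symm

/-- the marked strands are determined by the revealed edges -/
theorem mk_congr {z z' : Cfz} (h : ∀ e ∈ Xe M z, z' e = z e) : Mk M z' = Mk M z := by
  have h1 : Mk M z ⊆ Mk M z' := by
    intro c hc
    obtain ⟨e, ⟨d, hd, rfl⟩, he⟩ := hc
    refine ⟨ah d, ⟨d, ?_, rfl⟩, he⟩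
    rw [← lp_marked h ⟨ah d, ⟨d, hd, rfl⟩, he⟩]
    exact hd
  refine Set.Subset.antisymm ?_ h1
  rintro c ⟨e, ⟨d, hd, rfl⟩, he⟩
  have hd' : d ∈ Mk M z := mk_ah he
  have h2 := lp_marked h hd'
  have h3 : c ∈ Lp z' d := hd.symm
  rw [← h2] at h3
  exact (mk_along h3).2 hd'

theorem xe_congr {z z' : Cfz} (h : ∀ e ∈ Xe M z, z' e = z e) : Xe M z' = Xe M z := by
  unfold Xe; rw [mk_congr h]

/-! ### the flow of the unmarked corners -/

/-- indicator of the unmarked corners -/
def JN (M : Set Edge) (z : Cfz) : Corner → ℤ := (Mk M z)ᶜ.indicator 1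

theorem JN_mk {z : Cfz} {c : Corner} (h : c ∈ Mk M z) : JN M z c = 0 :=
  Set.indicator_of_notMem (by simpa using h) _

theorem JN_un {z : Cfz} {c : Corner} (h : c ∉ Mk M z) : JN M z c = 1 := by
  unfold JN
  rw [Set.indicator_of_mem (by simpa using h)]; rfl

theorem JN_congr {z z' : Cfz} (h : ∀ e ∈ Xe M z, z' e = z e) : JN M z' = JN M z := by
  unfold JN; rw [mk_congr h]

theorem JN_inv (M : Set Edge) (z : Cfz) : Inv z (JN M z) := by
  intro c
  have h : nx z c ∈ Mk M z ↔ c ∈ Mk M z := mk_along (nx_mem_Lp.2 (mem_Lp_self z c))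
  by_cases hc : c ∈ Mk M z
  · rw [JN_mk hc, JN_mk (h.2 hc)]
  · rw [JN_un hc, JN_un fun h' => hc (h.1 h')]

theorem ah_fin {S : Set Edge} (hS : S.Finite) : {c : Corner | ah c ∈ S}.Finite := by
  have h : {c : Corner | ah c ∈ S} ⊆ (i1 '' S) ∪ (i2 '' S) := by
    intro c hc
    rcases (ah_eq_iff c (ah c)).1 rfl with h | h
    · exact Or.inl ⟨ah c, hc, h.symm⟩
    · exact Or.inr ⟨ah c, hc, h.symm⟩
  exact ((hS.image _).union (hS.image _)).subset h

theorem un_fin (hM : Mᶜ.Finite) (z : Cfz) : (Mk M z)ᶜ.Finite :=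
  (ah_fin hM).subset fun _ hc h => hc (mk_ah h)

theorem JN_fs (hM : Mᶜ.Finite) (z : Cfz) : Fs (JN M z) :=
  (un_fin hM z).subset Set.support_indicator_subset

theorem lp_un_fin (hM : Mᶜ.Finite) {z : Cfz} {c : Corner} (hc : c ∉ Mk M z) :
    (Lp z c).Finite :=
  (un_fin hM z).subset fun _ hd h => hc ((mk_along hd).1 h)

/-! ### heights along strands -/

/-- height of the unmarked flow -/
def HN (M : Set Edge) (z : Cfz) (v : P2) : ℤ := Hv (JN M z) v

/-- height of the unmarked flow at faces -/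
def HF (M : Set Edge) (z : Cfz) (f : P2) : ℤ := Hf (JN M z) f

theorem HN_congr {z z' : Cfz} (h : ∀ e ∈ Xe M z, z' e = z e) : HN M z' = HN M z := by
  funext v; unfold HN; rw [JN_congr h]


theorem HN_along (hM : Mᶜ.Finite) {z : Cfz} {c d : Corner} (h : d ∈ Lp z c) :
    HN M z d.1 = HN M z c.1 := ((JN_inv M z).const_strand (JN_fs hM z) d h).1

theorem HF_mk (hM : Mᶜ.Finite) {z : Cfz} {c : Corner} (h : c ∈ Mk M z) :
    HF M z (fc c) = HN M z c.1 := by
  have := grad (JN_fs hM z) (JN_inv M z).cons c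
  rw [JN_mk h] at this
  unfold HF HN; linarith

theorem HF_un (hM : Mᶜ.Finite) {z : Cfz} {c : Corner} (h : c ∉ Mk M z) :
    HF M z (fc c) = HN M z c.1 + 1 := by
  have := grad (JN_fs hM z) (JN_inv M z).cons c
  rw [JN_un h] at this
  unfold HF HN; linarith

/-- all the marked strands are at height `0` -/
def Gd (M : Set Edge) (z : Cfz) : Prop := ∀ d ∈ Mk M z, HN M z d.1 = 0

theorem Gd_congr {z z' : Cfz} (h : ∀ e ∈ Xe M z, z' e = z e) : Gd M z' ↔ Gd M z := by
  unfold Gd; rw [mk_congr h, HN_congr h]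


theorem fc_i2_o1 (e : Edge) : fc (i2 e) = fc (o1 e) := by rw [← nxo_i2, fc_nxo]

/-- a revealed edge visited by the unmarked strand of `c`: open means height `0`, closed height `-1` -/
theorem col_edge (hM : Mᶜ.Finite) {z : Cfz} (hG : Gd M z) {c : Corner} (hc : c ∉ Mk M z)
    {e : Edge} (h1 : e ∈ Ve z c) (h2 : e ∈ Xe M z) :
    (z e = true → HN M z c.1 = 0) ∧ (z e = false → HN M z c.1 = -1) := by
  have hJ := JN_inv M z
  have hF := JN_fs hM z
  obtain ⟨d, hd, hde⟩ := h1
  have hdu : d ∉ Mk M z := fun h => hc ((mk_along hd).1 h)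
  have hdh : HN M z d.1 = HN M z c.1 := HN_along hM hd
  -- heights at the two incoming corners
  have hop : z e = true → HN M z (i1 e).1 = HN M z (i2 e).1 := by
    intro he
    have := hJ.hv_open hF he
    rw [fst_i1, fst_i2]
    exact this
  have hcl : z e = false → HF M z (fc (i1 e)) = HF M z (fc (i2 e)) := by
    intro he
    have := hJ.hf_closed hF he
    rw [fc_i2_o1]
    rcases fA_or_fB e with ⟨a, b⟩ | ⟨a, b⟩ <;> rw [a, b]
    · exact this
    · exact this.symm
  rcases (ah_eq_iff d e).1 hde with hd1 | hd1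
  · rw [hd1] at hdu hdh
    have hm : i2 e ∈ Mk M z := by
      rcases h2 with h | h
      · exact absurd h hdu
      · exact h
    have h0 := hG _ hm
    constructor
    · intro he
      rw [← hdh, hop he, h0]
    · intro he
      have h3 := hcl he
      rw [HF_un hM hdu, HF_mk hM hm, h0, hdh] at h3
      linarith
  · rw [hd1] at hdu hdh
    have hm : i1 e ∈ Mk M z := by
      rcases h2 with h | h
      · exact h
      · exact absurd h hdu
    have h0 := hG _ hm
    constructor
    · intro he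
      rw [← hdh, ← hop he, h0]
    · intro he
      have h3 := hcl he
      rw [HF_un hM hdu, HF_mk hM hm, h0, hdh] at h3
      linarith

/-! ### parity -/

/-- `(-1)^n` -/
def par (n : ℤ) : ℤ := if Even n then 1 else -1

@[simp] theorem par_zero : par 0 = 1 := by simp [par]

theorem par_add (m n : ℤ) : par (m + n) = par m * par n := by
  unfold par
  by_cases h1 : Even m <;> by_cases h2 : Even n <;> simp [h1, h2, Int.even_add]

theorem par_one : par 1 = -1 := by simp [par]

theorem par_neg_one : par (-1) = -1 := by simp [par]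

theorem par_pm (n : ℤ) : par n = 1 ∨ par n = -1 := by
  unfold par; split_ifs <;> simp



/-- colour of the region of a corner -/
def col (M : Set Edge) (z : Cfz) (c : Corner) : ℤ := par (HN M z c.1)

theorem col_congr {z z' : Cfz} (h : ∀ e ∈ Xe M z, z' e = z e) (c : Corner) :
    col M z' c = col M z c := by
  unfold col; rw [HN_congr h]

/-- marked loops -/
def MkA (M : Set Edge) (A : Finset Face) : Prop := ∃ e ∈ bdE A, e ∈ M

theorem mkA_iff {z : Cfz} {c : Corner} (hfin : (Lp z c).Finite) {A : Finset Face}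
    (hA : ∀ f, f ∈ A ↔ ht z c f ≠ 0) : MkA M A ↔ c ∈ Mk M z := by
  unfold MkA Mk Ve
  constructor
  · rintro ⟨e, he, heM⟩
    obtain ⟨d, hd, rfl⟩ := mem_bdE.1 he
    exact ⟨ah d, ⟨d, (sep_iff hfin hA d).1 hd, rfl⟩, heM⟩
  · rintro ⟨e, ⟨d, hd, rfl⟩, heM⟩
    exact ⟨ah d, mem_bdE.2 ⟨d, (sep_iff hfin hA d).2 hd, rfl⟩, heM⟩

/-- unmarked loops -/
def UL (M : Set Edge) (z : Cfz) : Set (Finset Face) := {A | A ∈ Lps z ∧ ¬ MkA M A}

theorem UL_finite (hM : Mᶜ.Finite) (z : Cfz) : (UL M z).Finite := by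
  have h1 : ∀ A : UL M z, ∃ c : Corner, c ∉ Mk M z ∧ sepC A c := by
    rintro ⟨A, ⟨c, hc, hA⟩, hn⟩
    exact ⟨c, fun h => hn ((mkA_iff hc hA).2 h), (sep_iff hc hA c).2 (mem_Lp_self _ _)⟩
  choose φ hφ using h1
  have h2 : Function.Injective φ := fun A B h =>
    Subtype.ext (sep_uniq A.2.1 B.2.1 (hφ A).2 (h ▸ (hφ B).2))
  have h3 : (Set.range φ).Finite := (un_fin hM z).subset (by
    rintro _ ⟨A, rfl⟩; exact (hφ A).1)
  have := h3.to_subtype
  have h4 : Finite (UL M z) :=
    Finite.of_injective (fun A => (⟨φ A, ⟨A, rfl⟩⟩ : Set.range φ)) fun A B h =>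
      h2 (congrArg Subtype.val h)
  exact Set.finite_coe_iff.1 h4

open Classical in
/-- indicator of the corners of a loop -/
def Jn (A : Finset Face) : Corner → ℤ := fun d => if sepC A d then 1 else 0

theorem Jn_eq {z : Cfz} {c : Corner} (hfin : (Lp z c).Finite) {A : Finset Face}
    (hA : ∀ f, f ∈ A ↔ ht z c f ≠ 0) : Jn A = JL z c := by
  funext d
  unfold Jn
  by_cases h : d ∈ Lp z c
  · rw [if_pos ((sep_iff hfin hA d).2 h), JL_mem h]
  · rw [if_neg (fun h' => h ((sep_iff hfin hA d).1 h')), JL_not_mem h]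

theorem Jn_fs {z : Cfz} {A : Finset Face} (hA : A ∈ Lps z) : Fs (Jn A) := by
  obtain ⟨c, hc, hA⟩ := hA
  rw [Jn_eq hc hA]; exact JL_fs hc

theorem par_Jn {z : Cfz} {A : Finset Face} (hA : A ∈ Lps z) (v : P2) [Decidable ((v, false) ∈ A)] :
    par (Hv (Jn A) v) = if (v, false) ∈ A then -1 else 1 := by
  obtain ⟨c, hc, hA⟩ := hA
  rw [Jn_eq hc hA]
  by_cases h : (v, false) ∈ A
  · rw [if_pos h]
    have h1 := (hA (v, false)).1 h
    rw [ht_false] at h1
    show par (hv z c v) = -1
    rcases sg_cases hc with ⟨-, -, h2, -⟩ | ⟨-, -, h2, -⟩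
    · rcases h2 v with h3 | h3
      · rw [h3]; exact par_neg_one
      · exact absurd h3 h1
    · rcases h2 v with h3 | h3
      · exact absurd h3 h1
      · rw [h3]; exact par_one
  · rw [if_neg h]
    have h1 : ht z c (v, false) = 0 := by
      by_contra h'; exact h ((hA _).2 h')
    rw [ht_false] at h1
    show par (hv z c v) = 1
    rw [h1]; exact par_zero

open Classical in
/-- finite sums of loops -/
theorem par_sum {z : Cfz} (T : Finset (Finset Face)) (hT : ∀ A ∈ T, A ∈ Lps z) (v : P2) :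
    Fs (∑ A ∈ T, Jn A) ∧ par (Hv (∑ A ∈ T, Jn A) v) =
      (-1) ^ (T.filter fun A => (v, false) ∈ A).card := by
  induction T using Finset.induction_on with
  | empty =>
      rw [Finset.sum_empty]
      refine ⟨by simp [Fs], ?_⟩
      rw [Hv_zero, par_zero]; simp
  | insert A T hA ih =>
      obtain ⟨i1, i2⟩ := ih fun B hB => hT B (Finset.mem_insert_of_mem hB)
      have hA' := hT A (Finset.mem_insert_self _ _)
      rw [Finset.sum_insert hA]
      refine ⟨(Jn_fs hA').add i1, ?_⟩
      rw [Hv_add (Jn_fs hA') i1, par_add, i2, par_Jn hA', Finset.filter_insert]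
      by_cases h : (v, false) ∈ A
      · rw [if_pos h, if_pos h, Finset.card_insert_of_notMem (by
          rw [Finset.mem_filter]; exact fun h' => hA h'.1), pow_succ]
        ring
      · rw [if_neg h, if_neg h, one_mul]

open Classical in
theorem JN_eq_sum (hM : Mᶜ.Finite) (z : Cfz) :
    JN M z = ∑ A ∈ (UL_finite hM z).toFinset, Jn A := by
  funext d
  rw [Finset.sum_apply]
  by_cases hd : d ∈ Mk M z
  · rw [JN_mk hd]
    symm
    refine Finset.sum_eq_zero fun A hA => ?_
    obtain ⟨⟨c, hc, hA'⟩, hn⟩ := (Set.Finite.mem_toFinset _).1 hA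
    unfold Jn
    rw [if_neg]
    intro h
    rw [sep_iff hc hA'] at h
    exact hn ((mkA_iff hc hA').2 ((mk_along h).1 hd))
  · rw [JN_un hd]
    obtain ⟨A, hA, hA'⟩ := exists_int (lp_un_fin hM hd)
    have hfin := lp_un_fin hM hd
    have hAU : A ∈ (UL_finite hM z).toFinset := by
      rw [Set.Finite.mem_toFinset]
      exact ⟨hA, fun h => hd ((mkA_iff hfin hA').1 h)⟩
    have hsep : sepC A d := (sep_iff hfin hA' d).2 (mem_Lp_self _ _)
    rw [Finset.sum_eq_single_of_mem A hAU]
    · unfold Jn; rw [if_pos hsep]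
    · intro B hB hne
      unfold Jn
      rw [if_neg]
      intro h
      exact hne (sep_uniq ((Set.Finite.mem_toFinset _).1 hB).1 hA h hsep)

/-- parity of the height = parity of the number of unmarked loops around the vertex -/
theorem par_HN (hM : Mᶜ.Finite) (z : Cfz) (v : P2) :
    par (HN M z v) = (-1) ^ {A | A ∈ UL M z ∧ (v, false) ∈ A}.ncard := by
  classical
  unfold HN
  rw [JN_eq_sum hM, (par_sum _ (fun A hA => ((Set.Finite.mem_toFinset _).1 hA).1) v).2]
  congr 1
  rw [← Set.ncard_coe_finset]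
  congr 1
  ext A
  simp

/-- number of unmarked loops around the corner `c` (its own strand excluded) -/
def N0 (M : Set Edge) (z : Cfz) (c : Corner) : ℕ :=
  {A | A ∈ UL M z ∧ cv c ∈ A ∧ cf c ∈ A}.ncard

/-- **parity of the number of unmarked loops around an unmarked corner** -/
theorem parity (hM : Mᶜ.Finite) {z : Cfz} {c : Corner} (hc : c ∉ Mk M z) :
    (-1) ^ N0 M z c = col M z c * sg z c := by
  have hfin := lp_un_fin hM hc
  obtain ⟨A, hA, hA'⟩ := exists_int hfin
  have hAU : A ∈ UL M z := ⟨hA, fun h => hc ((mkA_iff hfin hA').1 h)⟩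
  have hsep : sepC A c := (sep_iff hfin hA' c).2 (mem_Lp_self _ _)
  have hS : {B | B ∈ UL M z ∧ cv c ∈ B ∧ cf c ∈ B}.Finite :=
    (UL_finite hM z).subset fun B hB => hB.1
  unfold col
  rw [par_HN hM]
  rcases sg_cases hfin with ⟨s, h1, -, -⟩ | ⟨s, h1, -, -⟩
  · -- vertices inside
    have e1 : {B | B ∈ UL M z ∧ ((c.1, false) : Face) ∈ B} =
        insert A {B | B ∈ UL M z ∧ cv c ∈ B ∧ cf c ∈ B} := by
      ext B
      simp only [Set.mem_ofPred_eq, Set.mem_insert_iff]
      constructor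
      · rintro ⟨hB, hv'⟩
        by_cases hf' : cf c ∈ B
        · exact Or.inr ⟨hB, hv', hf'⟩
        · left
          refine sep_uniq hB.1 hA (d := c) ?_ hsep
          intro h
          exact hf' (h.1 hv')
      · rintro (rfl | h)
        · refine ⟨hAU, (hA' _).2 ?_⟩
          rw [ht_false, (h1 c (mem_Lp_self _ _)).1]; norm_num
        · exact ⟨h.1, h.2.1⟩
    have hnot : A ∉ {B | B ∈ UL M z ∧ cv c ∈ B ∧ cf c ∈ B} := by
      intro h
      exact hsep ⟨fun _ => h.2.2, fun _ => h.2.1⟩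
    rw [e1, Set.ncard_insert_of_notMem hnot hS, s, pow_succ]
    unfold N0
    ring
  · have e1 : {B | B ∈ UL M z ∧ ((c.1, false) : Face) ∈ B} =
        {B | B ∈ UL M z ∧ cv c ∈ B ∧ cf c ∈ B} := by
      ext B
      simp only [Set.mem_ofPred_eq]
      constructor
      · rintro ⟨hB, hv'⟩
        refine ⟨hB, hv', ?_⟩
        by_contra hf'
        have hBA : B = A := by
          refine sep_uniq hB.1 hA (d := c) ?_ hsep
          intro h
          exact hf' (h.1 hv')
        rw [hBA, hA', ht_false, (h1 c (mem_Lp_self _ _)).1] at hv'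
        exact hv' rfl
      · rintro ⟨hB, h2, -⟩
        exact ⟨hB, h2⟩
    rw [e1, s, mul_one]
    rfl

/-! ### comparison with a plane configuration -/

open Classical in
/-- `z` on `X`, `y` off `X` -/
def mix (X : Set Edge) (z y : Cfz) : Cfz := fun e => if e ∈ X then z e else y e

theorem mix_in {X : Set Edge} {z y : Cfz} {e : Edge} (h : e ∈ X) : mix X z y e = z e := by
  simp [mix, h]

theorem mix_out {X : Set Edge} {z y : Cfz} {e : Edge} (h : e ∉ X) : mix X z y e = y e := by
  simp [mix, h]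

theorem mix_agree (M : Set Edge) (z y : Cfz) : ∀ e ∈ Xe M z, mix (Xe M z) z y e = z e :=
  fun _ he => mix_in he

theorem xe_cofin (hM : Mᶜ.Finite) (z : Cfz) : (Xe M z)ᶜ.Finite :=
  hM.subset (Set.compl_subset_compl.2 (sub_xe z))

theorem allFin_mix {X : Set Edge} (hX : Xᶜ.Finite) {z : Cfz} (hz : AllFin z) (y : Cfz) :
    AllFin (mix X z y) := by
  refine allFin_of_agree (S := hX.toFinset) hz fun e he => ?_
  rw [Set.Finite.mem_toFinset, Set.mem_compl_iff, not_not] at he
  rw [mix_in he]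

/-- all revealed edges open -/
theorem sg_le_open {X : Set Edge} (hX : Xᶜ.Finite) {y : Cfz} {c : Corner}
    (hfin : (Lp y c).Finite) (hs : sg y c = 1) : sg (mix X (fun _ => true) y) c = 1 := by
  classical
  set w := mix X (fun _ => true) y with hw
  have hwF : AllFin w := allFin_mix hX allFin_open y
  have hVf : (Ve y c).Finite := hfin.image _
  set K := hVf.toFinset with hK
  set y' : Cfz := fun e => if e ∈ K then y e else w e with hy'
  have e1 : Lp y c = Lp y' c := by
    refine Lp_congr fun e he => ?_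
    rw [hy']
    simp only
    rw [if_pos ((Set.Finite.mem_toFinset _).2 he)]
  have e2 : sg y' c = 1 := by rw [← sg_congr e1]; exact hs
  have e3 : AllFin y' := allFin_of_agree (S := K) hwF fun e he => by
    rw [hy']; simp only; rw [if_neg he]
  refine sg_mono (S := K) e3 (fun e he => ?_) (fun e he => ?_) e2
  · rw [hy'] at he
    simp only at he
    split_ifs at he with h
    · by_cases hX' : e ∈ X
      · rw [hw, mix_in hX']
      · rw [hw, mix_out hX']; exact he
    · exact he
  · rw [hy']; simp only; rw [if_neg he]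

/-- all revealed edges closed -/
theorem sg_closed_le {X : Set Edge} (hX : Xᶜ.Finite) {y : Cfz} {c : Corner}
    (hfin : (Lp y c).Finite) (hs : sg (mix X (fun _ => false) y) c = 1) : sg y c = 1 := by
  classical
  set w := mix X (fun _ => false) y with hw
  have hwF : AllFin w := allFin_mix hX allFin_closed y
  have hVf : (Ve y c).Finite := hfin.image _
  set K := hVf.toFinset with hK
  set y' : Cfz := fun e => if e ∈ K then y e else w e with hy'
  have e1 : Lp y c = Lp y' c := by
    refine Lp_congr fun e he => ?_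
    rw [hy']
    simp only
    rw [if_pos ((Set.Finite.mem_toFinset _).2 he)]
  rw [sg_congr e1]
  refine sg_mono (S := K) hwF (fun e he => ?_) (fun e he => ?_) hs
  · rw [hy']
    simp only
    split_ifs with h
    · by_cases hX' : e ∈ X
      · rw [hw, mix_in hX'] at he; simp at he
      · rw [hw, mix_out hX'] at he; exact he
    · exact he
  · rw [hy']; simp only; rw [if_neg he]

theorem sg_free {X : Set Edge} {z y : Cfz} {c : Corner} (h : Disjoint (Ve y c) X) :
    sg (mix X z y) c = sg y c := by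
  refine (sg_congr (Lp_congr fun e he => ?_)).symm
  rw [mix_out (Set.disjoint_left.1 h he)]

open Classical in
/-- **the sign of the filling**: `(-1)^{N0} - col * sg y` is nonnegative and vanishes unless the strand of `c`
in `y` visits a revealed edge -/
theorem inner_bounds (hM : Mᶜ.Finite) {z y : Cfz} (hG : Gd M z) {c : Corner} (hc : c ∉ Mk M z)
    (hfin : (Lp y c).Finite) :
    0 ≤ (-1) ^ N0 M (mix (Xe M z) z y) c - col M z c * sg y c ∧
      (-1) ^ N0 M (mix (Xe M z) z y) c - col M z c * sg y c ≤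
        if Disjoint (Ve y c) (Xe M z) then 0 else 2 := by
  set X := Xe M z with hX
  set z' := mix X z y with hz'
  have hag : ∀ e ∈ Xe M z, z' e = z e := mix_agree M z y
  have hXc : Xᶜ.Finite := xe_cofin hM z
  have hc' : c ∉ Mk M z' := by rw [mk_congr hag]; exact hc
  have hG' : Gd M z' := (Gd_congr hag).2 hG
  rw [parity hM hc', col_congr hag]
  have hfin' := lp_un_fin hM hc'
  have hXe : Xe M z' = X := xe_congr hag
  rcases par_pm (HN M z c.1) with hp | hp
  · -- open colour
    have hcol : col M z c = 1 := hp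
    rw [hcol, one_mul, one_mul]
    have hopen : ∀ e ∈ Ve z' c, e ∈ X → z' e = true := by
      intro e he heX
      by_contra hne
      have hfalse : z' e = false := by simpa using hne
      have := (col_edge hM hG' hc' he (by rw [hXe]; exact heX)).2 hfalse
      rw [HN_congr hag] at this
      rw [this, par_neg_one] at hp
      norm_num at hp
    have e1 : Lp z' c = Lp (mix X (fun _ => true) y) c := by
      refine Lp_congr fun e he => ?_
      by_cases heX : e ∈ X
      · rw [mix_in heX]; exact hopen e he heX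
      · rw [mix_out heX, hz', mix_out heX]
    rw [sg_congr e1]
    have hwF := (allFin_mix hXc allFin_open y) c
    split_ifs with hdis
    · rw [sg_free hdis]; simp
    · rcases sg_pm hfin with h | h
      · rw [h, sg_le_open hXc hfin h]; norm_num
      · rw [h]
        rcases sg_pm hwF with h' | h' <;> rw [h'] <;> norm_num
  · have hcol : col M z c = -1 := hp
    rw [hcol]
    have hclosed : ∀ e ∈ Ve z' c, e ∈ X → z' e = false := by
      intro e he heX
      by_contra hne
      have htrue : z' e = true := by simpa using hne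
      have := (col_edge hM hG' hc' he (by rw [hXe]; exact heX)).1 htrue
      rw [HN_congr hag] at this
      rw [this, par_zero] at hp
      norm_num at hp
    have e1 : Lp z' c = Lp (mix X (fun _ => false) y) c := by
      refine Lp_congr fun e he => ?_
      by_cases heX : e ∈ X
      · rw [mix_in heX]; exact hclosed e he heX
      · rw [mix_out heX, hz', mix_out heX]
    rw [sg_congr e1]
    have hwF := (allFin_mix hXc allFin_closed y) c
    split_ifs with hdis
    · rw [sg_free hdis]; simp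
    · rcases sg_pm hfin with h | h
      · rw [h]
        rcases sg_pm hwF with h' | h' <;> rw [h'] <;> norm_num
      · rw [h]
        rcases sg_pm hwF with h' | h'
        · have := sg_closed_le hXc hfin h'
          rw [this] at h; norm_num at h
        · rw [h']; norm_num

end Crest.Agent.R158.Zr110
end
end

-- ▼ part R158/Zr3_110
section

/-!
# Row 158, BLOCK Z (helper110), part 3: expectations

* `Mo x n` : the edges outside the box of radius `n`; `gd_Mo` : the marked strands are at height `0`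
* `resample` : revealing the marked strands and refilling the other edges preserves the law
* `ae_fin` : at `p = 1/2` the strand of a corner is almost surely finite
* `int_sgt` : the mean type of the strand of a corner is `0`
* `Z1` : `0 ≤ E_y (-1)^{N0(mix z y)} ≤ 2 P_y(the strand of c visits a revealed edge)`
* `Z1_int` : the same inside an expectation over `z`
-/

set_option autoImplicit false

noncomputable section

namespace Crest.Agent.R158.Zr110

open Crest.Agent.R161.Geo729 Crest.Agent.R161.Dual374 Crest.Agent.R161.Tas682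
open Crest.Agent.R158.It200 Crest.Agent.R158.Wf850
open Crest.Agent.R158.Rs689 (nu Dep PB PB_map_not PB_map_equiv sigma_hf ArmX arm_half Rch)
open Crest.Agent.R158.Fr158 (bx mem_bx mem_bx_sd)
open MeasureTheory Finset

/-- the critical law -/
abbrev nh : Measure Cfz := nu Rs689.hf

instance : IsProbabilityMeasure nh := by unfold nh nu; infer_instance

variable {M : Set Edge}

/-! ### heights of marked strands -/

/-- heights do not change across an edge of `M` -/
theorem HN_edge (hM : Mᶜ.Finite) (z : Cfz) {e : Edge} (he : e ∈ M) :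
    HN M z (src e) = HN M z (tgt e) := by
  have h1 : i1 e ∈ Mk M z := mk_ah (by rw [ah_i1]; exact he)
  have h2 : o2 e ∈ Mk M z := mk_bh (by rw [bh_o2]; exact he)
  have g1 := HF_mk hM h1
  have g2 := HF_mk hM h2
  rw [fst_i1] at g1
  rw [fst_o2] at g2
  have : fc (o2 e) = fc (i1 e) := by rw [← nxo_i1, fc_nxo]
  rw [this] at g2
  rw [← g1, ← g2]

/-- the edges outside the box of radius `n` around `x` -/
def Mo (x : P2) (n : ℤ) : Set Edge := {e | n < sd x (src e) ∨ n < sd x (tgt e)}

theorem Mo_cofin (x : P2) (n : ℤ) : (Mo x n)ᶜ.Finite := by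
  refine ((bx x n ×ˢ (Finset.univ : Finset Bool)).finite_toSet).subset ?_
  rintro ⟨v, b⟩ h
  have h' : ¬ (n < sd x v ∨ n < sd x (tgt (v, b))) := h
  push Not at h'
  rw [Finset.mem_coe, Finset.mem_product]
  exact ⟨mem_bx_sd.2 h'.1, Finset.mem_univ _⟩

/-- a vertex outside the box is at height `0` -/
theorem HN_out {x : P2} {n : ℤ} (hM : Mᶜ.Finite) (hsub : Mo x n ⊆ M) (z : Cfz) {w : P2}
    (hw : n < sd x w) : HN M z w = 0 := by
  have hsup : ∀ d : Corner, JN M z d ≠ 0 →
      x.1 - n ≤ d.1.1 ∧ d.1.1 ≤ x.1 + n ∧ x.2 - n ≤ d.1.2 ∧ d.1.2 ≤ x.2 + n := by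
    intro d hd
    by_contra hcon
    apply hd
    apply JN_mk
    apply mk_ah
    apply hsub
    have h1 : n < sd x d.1 := by
      rw [← mem_bx] at hcon
      rw [mem_bx_sd] at hcon
      exact not_le.1 hcon
    rcases ah_ends d with ⟨h, _⟩ | ⟨h, _⟩
    · left; rw [← h]; exact h1
    · right; rw [← h]; exact h1
  refine Hv_out (JN_fs hM z) (JN_inv M z).cons hsup ?_
  by_contra hcon
  have : w ∈ bx x n := by rw [mem_bx]; omega
  rw [mem_bx_sd] at this
  omega

/-- a strand visiting an edge outside the box is at height `0` -/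
theorem HN_mo {x : P2} {n : ℤ} (hM : Mᶜ.Finite) (hsub : Mo x n ⊆ M) (z : Cfz) {e : Edge}
    (he : e ∈ Mo x n) : HN M z (src e) = 0 ∧ HN M z (tgt e) = 0 := by
  have h1 := HN_edge hM z (hsub he)
  rcases he with h | h
  · have := HN_out hM hsub z h
    exact ⟨this, by rw [← h1, this]⟩
  · have := HN_out hM hsub z h
    exact ⟨by rw [h1, this], this⟩

/-- criterion for `Gd` -/
theorem gd_of (hM : Mᶜ.Finite) {z : Cfz} (h : ∀ e ∈ M, HN M z (src e) = 0) : Gd M z := by
  rintro d ⟨e, ⟨d', hd', rfl⟩, he⟩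
  have h1 : HN M z d'.1 = HN M z d.1 := HN_along hM hd'
  rw [← h1]
  rcases ah_ends d' with ⟨h2, _⟩ | ⟨h2, _⟩
  · rw [h2]; exact h _ he
  · rw [h2, ← HN_edge hM z he]; exact h _ he

theorem gd_Mo (x : P2) (n : ℤ) (z : Cfz) : Gd (Mo x n) z :=
  gd_of (Mo_cofin x n) fun _ he => (HN_mo (Mo_cofin x n) subset_rfl z he).1

/-! ### functions of finitely many edges -/

theorem meas_of_fin {β : Type*} [MeasurableSpace β] {S : Set Edge} (hS : S.Finite)
    {f : Cfz → β} (h : ∀ z z' : Cfz, (∀ e ∈ S, z e = z' e) → f z = f z') : Measurable f := by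
  classical
  set T := hS.toFinset
  have h1 : f = (fun y : T → Bool => f fun e => if he : e ∈ T then y ⟨e, he⟩ else false) ∘
      T.restrict := by
    funext z
    refine h _ _ fun e he => ?_
    have : e ∈ T := (Set.Finite.mem_toFinset _).2 he
    rw [dif_pos this]
    rfl
  rw [h1]
  exact Measurable.of_discrete.comp (Finset.measurable_restrict T)

/-- being unmarked depends on the edges outside `M` -/
theorem un_dep {z z' : Cfz} (h : ∀ e ∈ Mᶜ, z e = z' e) {c : Corner} (hc : c ∉ Mk M z) :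
    c ∉ Mk M z' ∧ Lp z c = Lp z' c := by
  have h1 : Lp z c = Lp z' c := Lp_congr fun e he => h e fun h' => hc ⟨e, he, h'⟩
  refine ⟨?_, h1⟩
  rintro ⟨e, ⟨d, hd, rfl⟩, he⟩
  rw [← h1] at hd
  exact hc ⟨ah d, ⟨d, hd, rfl⟩, he⟩

theorem mk_dep {z z' : Cfz} (h : ∀ e ∈ Mᶜ, z e = z' e) : Mk M z = Mk M z' := by
  ext c
  constructor
  · intro hc
    by_contra hc'
    exact (un_dep (fun e he => (h e he).symm) hc').1 hc
  · intro hc
    by_contra hc'
    exact (un_dep h hc').1 hc

theorem xe_dep {z z' : Cfz} (h : ∀ e ∈ Mᶜ, z e = z' e) : Xe M z = Xe M z' := by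
  unfold Xe; rw [mk_dep h]

theorem ul_dep {z z' : Cfz} (h : ∀ e ∈ Mᶜ, z e = z' e) : UL M z = UL M z' := by
  have key : ∀ z z' : Cfz, (∀ e ∈ Mᶜ, z e = z' e) → UL M z ⊆ UL M z' := by
    rintro z z' h A ⟨hA, hn⟩
    refine ⟨loc_aux (fun e he => h e fun h' => hn ⟨e, he, h'⟩) hA, hn⟩
  exact Set.Subset.antisymm (key _ _ h) (key _ _ fun e he => (h e he).symm)

theorem N0_dep {z z' : Cfz} (h : ∀ e ∈ Mᶜ, z e = z' e) (c : Corner) : N0 M z c = N0 M z' c := by
  unfold N0; rw [ul_dep h]


theorem meas_un (hM : Mᶜ.Finite) (c : Corner) : MeasurableSet {z : Cfz | c ∉ Mk M z} := by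
  have : Measurable fun z : Cfz => (c ∉ Mk M z) := meas_of_fin hM fun _ _ h => by rw [mk_dep h]
  exact measurableSet_setOfPred.2 this

/-- measurability of a function of the filling -/
theorem meas_fill {β : Type*} [MeasurableSpace β] {X : Set Edge} (hX : Xᶜ.Finite) (z : Cfz)
    (f : Cfz → β) : Measurable fun y => f (mix X z y) := by
  refine meas_of_fin hX fun y y' h => ?_
  congr 1
  funext e
  by_cases he : e ∈ X
  · rw [mix_in he, mix_in he]
  · rw [mix_out he, mix_out he]; exact h e he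

/-- the strand of `c` avoids `X` : depends on the edges off `X` -/
theorem meas_disj {X : Set Edge} (hX : Xᶜ.Finite) (c : Corner) :
    MeasurableSet {y : Cfz | Disjoint (Ve y c) X} := by
  have h1 : ∀ y : Cfz, Disjoint (Ve y c) X ↔ c ∉ Mk X y := by
    intro y
    rw [Set.disjoint_left]
    unfold Mk
    simp
  have h2 : {y : Cfz | Disjoint (Ve y c) X} = {y | c ∉ Mk X y} := by
    ext y; exact h1 y
  rw [h2]
  exact meas_un hX c

/-! ### resampling -/

theorem mix_compl_glue (D : Finset Edge) (z y : Cfz) :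
    mix ((D : Set Edge)ᶜ) z y = Rz808.glue D y z := by
  funext e
  by_cases he : e ∈ D
  · rw [Rz808.glue_in he, mix_out (by simpa using he)]
  · rw [Rz808.glue_out he, mix_in (by simpa using he)]

theorem map_mix_fin (D : Finset Edge) :
    (nh.prod nh).map (fun q => mix ((D : Set Edge)ᶜ) q.1 q.2) = nh := by
  have h1 : (fun q : Cfz × Cfz => mix ((D : Set Edge)ᶜ) q.1 q.2) =
      (fun q : Cfz × Cfz => Rz808.glue D q.1 q.2) ∘ Prod.swap := by
    funext q
    rw [mix_compl_glue]; rfl
  rw [h1, ← Measure.map_map (Rz808.meas_glue D) measurable_swap, Measure.prod_swap]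
  exact Rz808.map_glue _ D

theorem meas_mix_fin (D : Finset Edge) :
    Measurable fun q : Cfz × Cfz => mix ((D : Set Edge)ᶜ) q.1 q.2 := by
  have h1 : (fun q : Cfz × Cfz => mix ((D : Set Edge)ᶜ) q.1 q.2) =
      (fun q : Cfz × Cfz => Rz808.glue D q.1 q.2) ∘ Prod.swap := by
    funext q
    rw [mix_compl_glue]; rfl
  rw [h1]
  exact (Rz808.meas_glue D).comp measurable_swap

/-- a self determined revelation with finitely many unrevealed edges -/
structure Rev (S : Finset Edge) (X : Cfz → Set Edge) : Prop where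
  sub : ∀ z, (X z)ᶜ ⊆ (S : Set Edge)
  self : ∀ z z', (∀ e ∈ X z, z' e = z e) → X z' = X z
  dep : ∀ z z', (∀ e ∈ S, z e = z' e) → X z = X z'

namespace Rev

variable {S : Finset Edge} {X : Cfz → Set Edge}

theorem meas_eq (h : Rev S X) (Y : Set Edge) : MeasurableSet {z | X z = Y} := by
  have : Measurable fun z : Cfz => (X z = Y) :=
    meas_of_fin (S := (S : Set Edge)) S.finite_toSet fun z z' hz => by
      rw [h.dep z z' fun e he => hz e he]
  exact measurableSet_setOfPred.2 this

theorem mix_eq (h : Rev S X) {Y : Set Edge} {z y : Cfz} : X (mix Y z y) = Y ↔ X z = Y := by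
  constructor
  · intro h1
    have := h.self (mix Y z y) z fun e he => by
      rw [h1] at he; rw [mix_in he]
    rw [this, h1]
  · intro h1
    have := h.self z (mix Y z y) fun e he => by
      rw [h1] at he; rw [mix_in he]
    rw [this, h1]

theorem cover (h : Rev S X) (z : Cfz) : ∃ D ∈ S.powerset, X z = (D : Set Edge)ᶜ := by
  classical
  refine ⟨S.filter (· ∉ X z), Finset.mem_powerset.2 (Finset.filter_subset _ _), ?_⟩
  ext e
  simp only [Finset.coe_filter, Set.mem_compl_iff, Set.mem_ofPred_eq, not_and, not_not]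
  constructor
  · intro he _; exact he
  · intro he
    by_contra hn
    exact hn (he (h.sub z hn))

theorem meas_mix (h : Rev S X) : Measurable fun q : Cfz × Cfz => mix (X q.1) q.1 q.2 := by
  classical
  intro F hF
  have h1 : (fun q : Cfz × Cfz => mix (X q.1) q.1 q.2) ⁻¹' F =
      ⋃ D ∈ S.powerset, ((Prod.fst ⁻¹' {z | X z = (D : Set Edge)ᶜ}) ∩
        ((fun q : Cfz × Cfz => mix ((D : Set Edge)ᶜ) q.1 q.2) ⁻¹' F)) := by
    ext q
    simp only [Set.mem_iUnion, Set.mem_inter_iff, Set.mem_preimage, Set.mem_ofPred_eq, exists_prop]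
    constructor
    · intro hq
      obtain ⟨D, hD, hX⟩ := h.cover q.1
      exact ⟨D, hD, hX, by rw [← hX]; exact hq⟩
    · rintro ⟨D, _, hX, hq⟩
      rw [hX]; exact hq
  rw [h1]
  exact Finset.measurableSet_biUnion _ fun D _ =>
    (measurable_fst (h.meas_eq _)).inter (meas_mix_fin D hF)

/-- **resampling** -/
theorem map_mix (h : Rev S X) : (nh.prod nh).map (fun q => mix (X q.1) q.1 q.2) = nh := by
  classical
  ext F hF
  rw [Measure.map_apply h.meas_mix hF]
  have h0 : F = ⋃ D ∈ S.powerset, (F ∩ {z | X z = (D : Set Edge)ᶜ}) := by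
    ext z
    simp only [Set.mem_iUnion, Set.mem_inter_iff, Set.mem_ofPred_eq, exists_prop]
    constructor
    · intro hz
      obtain ⟨D, hD, hX⟩ := h.cover z
      exact ⟨D, hD, hz, hX⟩
    · rintro ⟨D, _, hz, _⟩
      exact hz
  have h1 : (fun q : Cfz × Cfz => mix (X q.1) q.1 q.2) ⁻¹' F =
      ⋃ D ∈ S.powerset, ((fun q : Cfz × Cfz => mix ((D : Set Edge)ᶜ) q.1 q.2) ⁻¹'
        (F ∩ {z | X z = (D : Set Edge)ᶜ})) := by
    ext q
    simp only [Set.mem_iUnion, Set.mem_inter_iff, Set.mem_preimage, Set.mem_ofPred_eq, exists_prop,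
      h.mix_eq]
    constructor
    · intro hq
      obtain ⟨D, hD, hX⟩ := h.cover q.1
      exact ⟨D, hD, by rw [← hX]; exact hq, hX⟩
    · rintro ⟨D, _, hq, hX⟩
      rw [hX]; exact hq
  have hinj : ∀ D D' : Finset Edge, (D : Set Edge)ᶜ = (D' : Set Edge)ᶜ → D = D' := by
    intro D D' hDD
    have := compl_injective hDD
    exact Finset.coe_injective this
  have hsum : nh F = ∑ D ∈ S.powerset, nh (F ∩ {z | X z = (D : Set Edge)ᶜ}) := by
    conv_lhs => rw [h0]
    refine measure_biUnion_finset ?_ fun D _ => hF.inter (h.meas_eq _)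
    intro D _ D' _ hne
    refine Set.disjoint_left.2 fun z h2 h3 => hne ?_
    exact hinj _ _ (h2.2.symm.trans h3.2)
  rw [h1, hsum, measure_biUnion_finset]
  · refine Finset.sum_congr rfl fun D _ => ?_
    rw [← Measure.map_apply (meas_mix_fin D) (hF.inter (h.meas_eq _)), map_mix_fin]
  · intro D _ D' _ hne
    refine Set.disjoint_left.2 fun q h2 h3 => hne ?_
    exact hinj _ _ ((h.mix_eq.1 h2.2).symm.trans (h.mix_eq.1 h3.2))
  · intro D _
    exact meas_mix_fin D (hF.inter (h.meas_eq _))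

theorem integral_eq (h : Rev S X) {f : Cfz → ℝ} (hf : Integrable f nh) :
    ∫ z, f z ∂nh = ∫ z, ∫ y, f (mix (X z) z y) ∂nh ∂nh := by
  have h2 : Integrable f ((nh.prod nh).map fun q => mix (X q.1) q.1 q.2) := by
    rw [h.map_mix]; exact hf
  have h1 : ∫ z, f z ∂nh = ∫ q, f (mix (X q.1) q.1 q.2) ∂(nh.prod nh) := by
    conv_lhs => rw [← h.map_mix]
    exact integral_map h.meas_mix.aemeasurable h2.aestronglyMeasurable
  rw [h1]
  exact integral_prod _ ((integrable_map_measure h2.aestronglyMeasurable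
    h.meas_mix.aemeasurable).1 h2)

end Rev

/-- revealing the marked strands -/
theorem rev_xe (hM : Mᶜ.Finite) : Rev hM.toFinset (Xe M) where
  sub z := by
    rw [Set.Finite.coe_toFinset]
    exact Set.compl_subset_compl.2 (sub_xe z)
  self z z' h := xe_congr h
  dep z z' h := xe_dep fun e he => h e ((Set.Finite.mem_toFinset _).2 he)

/-! ### finiteness of strands -/

theorem ocl_far {z : Cfz} {v : P2} (h : ¬ (OCl z v).Finite) (R : ℕ) : z ∈ ArmX v 1 R := by
  by_contra hn
  apply h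
  refine ((bx v R).finite_toSet).subset fun u hu => ?_
  rw [Finset.mem_coe, mem_bx]
  by_contra hcon
  apply hn
  refine ⟨v, u, by simp, by simp, ?_, hu⟩
  by_contra hlt
  push Not at hlt
  obtain ⟨h1, h2⟩ := hlt
  rw [abs_lt] at h1 h2
  omega

theorem ae_fin (c : Corner) : ∀ᵐ z ∂nh, (Lp z c).Finite := by
  obtain ⟨C, a, hC, ha, hb⟩ := arm_half
  have h1 : ∀ᵐ z ∂nh, ∃ R : ℕ, z ∉ ArmX c.1 1 R := by
    rw [ae_iff]
    have h2 : {z : Cfz | ¬ ∃ R : ℕ, z ∉ ArmX c.1 1 R} = ⋂ R : ℕ, ArmX c.1 1 R := by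
      ext z; simp
    rw [h2]
    have h3 : ∀ R : ℕ, 1 ≤ R → nh (⋂ R : ℕ, ArmX c.1 1 R) ≤
        ENNReal.ofReal (C * ((1 : ℝ) / R) ^ a) := by
      intro R hR
      refine (measure_mono (Set.iInter_subset _ R)).trans ?_
      have h4 := hb c.1 1 R le_rfl hR
      rw [measureReal_def] at h4
      rw [← ENNReal.ofReal_toReal (measure_ne_top nh (ArmX c.1 1 R))]
      refine ENNReal.ofReal_le_ofReal ?_
      simpa using h4
    have h5 : Filter.Tendsto (fun R : ℕ => ENNReal.ofReal (C * ((1 : ℝ) / R) ^ a))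
        Filter.atTop (nhds 0) := by
      have h6 : Filter.Tendsto (fun R : ℕ => C * ((1 : ℝ) / R) ^ a) Filter.atTop (nhds 0) := by
        have h7 : Filter.Tendsto (fun R : ℕ => ((1 : ℝ) / R)) Filter.atTop (nhds 0) :=
          tendsto_one_div_atTop_nhds_zero_nat
        have h8 := h7.rpow_const (p := a) (Or.inr ha.le)
        rw [Real.zero_rpow ha.ne'] at h8
        simpa using h8.const_mul C
      have := ENNReal.tendsto_ofReal h6
      rwa [ENNReal.ofReal_zero] at this
    have h9 : nh (⋂ R : ℕ, ArmX c.1 1 R) ≤ 0 :=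
      ge_of_tendsto h5 (Filter.eventually_atTop.2 ⟨1, h3⟩)
    exact le_antisymm h9 (zero_le)
  filter_upwards [h1] with z hz
  by_contra hfin
  obtain ⟨R, hR⟩ := hz
  exact hR (ocl_far (fun h => hfin (Lp_finite_of_v h)) R)

/-! ### the mean type -/

open Classical in
/-- type of the strand (`0` if it is infinite) -/
def sgt (c : Corner) (z : Cfz) : ℝ := if (Lp z c).Finite then (sg z c : ℝ) else 0

theorem sgt_fin {c : Corner} {z : Cfz} (h : (Lp z c).Finite) : sgt c z = sg z c := by
  simp [sgt, h]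

theorem abs_sgt (c : Corner) (z : Cfz) : |sgt c z| ≤ 1 := by
  by_cases h : (Lp z c).Finite
  · rw [sgt_fin h]
    rcases sg_pm h with h' | h' <;> rw [h'] <;> norm_num
  · simp [sgt, h]

theorem set_fin_one (c : Corner) (b : Bool) :
    MeasurableSet {z : Cfz | (Lp z c).Finite ∧ sg z c = if b then 1 else -1} := by
  classical
  have h1 : {z : Cfz | (Lp z c).Finite ∧ sg z c = if b then 1 else -1} =
      ⋃ A : {A : Finset Face // sepC A c ∧ (cf c ∈ A ↔ b = true)},
        {z | (A : Finset Face) ∈ Lps z} := by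
    ext z
    simp only [Set.mem_ofPred_eq, Set.mem_iUnion]
    constructor
    · rintro ⟨hfin, hs⟩
      obtain ⟨A, hA, hA'⟩ := exists_int hfin
      refine ⟨⟨A, (sep_iff hfin hA' c).2 (mem_Lp_self _ _), ?_⟩, hA⟩
      rw [hA', ht_cf]
      rcases sg_cases hfin with ⟨s, g, -, -⟩ | ⟨s, g, -, -⟩
      · rw [(g c (mem_Lp_self _ _)).2]
        cases b
        · simp
        · rw [s] at hs; norm_num at hs
      · rw [(g c (mem_Lp_self _ _)).2]
        cases b
        · rw [s] at hs; norm_num at hs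
        · simp
    · rintro ⟨⟨A, hsep, hcf⟩, ⟨d, hd, hA'⟩⟩
      have hcd : c ∈ Lp z d := (sep_iff hd hA' c).1 hsep
      have hfin : (Lp z c).Finite := by rw [Lp_eq hcd]; exact hd
      refine ⟨hfin, ?_⟩
      have e1 : ht z d = ht z c := by
        unfold ht; rw [hv_eq hcd, hf_eq hcd]
      rw [hA', e1, ht_cf] at hcf
      rcases sg_cases hfin with ⟨s, g, -, -⟩ | ⟨s, g, -, -⟩
      · rw [(g c (mem_Lp_self _ _)).2] at hcf
        cases b
        · rw [s]; rfl
        · simp at hcf
      · rw [(g c (mem_Lp_self _ _)).2] at hcf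
        cases b
        · simp at hcf
        · rw [s]; rfl
  rw [h1]
  exact MeasurableSet.iUnion fun A => meas_lps A

theorem sgt_eq (c : Corner) (z : Cfz) : sgt c z =
    {z : Cfz | (Lp z c).Finite ∧ sg z c = if true then 1 else -1}.indicator 1 z -
    {z : Cfz | (Lp z c).Finite ∧ sg z c = if false then 1 else -1}.indicator 1 z := by
  classical
  by_cases h : (Lp z c).Finite
  · rw [sgt_fin h]
    rcases sg_pm h with h' | h'
    · rw [Set.indicator_of_mem (by exact ⟨h, h'⟩), Set.indicator_of_notMem, h']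
      · simp
      · rintro ⟨-, h2⟩; rw [h'] at h2; simp at h2
    · rw [Set.indicator_of_notMem, Set.indicator_of_mem (by exact ⟨h, h'⟩), h']
      · simp
      · rintro ⟨-, h2⟩; rw [h'] at h2; simp at h2
  · rw [Set.indicator_of_notMem (fun h' => h h'.1), Set.indicator_of_notMem (fun h' => h h'.1)]
    simp [sgt, h]

theorem meas_sgt (c : Corner) : Measurable (sgt c) := by
  have : sgt c = fun z =>
    {z : Cfz | (Lp z c).Finite ∧ sg z c = if true then 1 else -1}.indicator 1 z -
    {z : Cfz | (Lp z c).Finite ∧ sg z c = if false then 1 else -1}.indicator 1 z := by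
    funext z; exact sgt_eq c z
  rw [this]
  exact (measurable_const.indicator (set_fin_one c true)).sub
    (measurable_const.indicator (set_fin_one c false))

theorem int_sgt_able (c : Corner) : Integrable (sgt c) nh :=
  Integrable.of_bound (meas_sgt c).aestronglyMeasurable 1
    (Filter.Eventually.of_forall fun z => by rw [Real.norm_eq_abs]; exact abs_sgt c z)

/-- edges as an equivalence -/
def Rfl.epE (ρ : Rfl) : Edge ≃ Edge := ⟨ρ.ep, ρ.ep, ρ.ep_ep, ρ.ep_ep⟩

theorem Rfl.meas_act (ρ : Rfl) : Measurable ρ.act :=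
  measurable_pi_lambda _ fun e =>
    (Measurable.of_discrete (f := fun b : Bool => !b)).comp (measurable_pi_apply (ρ.ep e))

/-- the reflection preserves the critical law -/
theorem Rfl.map_act (ρ : Rfl) : nh.map ρ.act = nh := by
  have h1 := PB_map_not (fun _ : Edge => Rs689.hf)
  have h2 := PB_map_equiv ρ.epE (fun _ : Edge => unitInterval.symm Rs689.hf)
  have h3 : (fun _ : Edge => unitInterval.symm Rs689.hf) = fun _ : Edge => Rs689.hf := by
    funext _; exact sigma_hf
  have h4 : nh.map ρ.act = PB fun _ : Edge => unitInterval.symm Rs689.hf := by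
    rw [← h2, ← h1]
    unfold nh nu
    rw [Measure.map_map]
    · rfl
    · exact measurable_pi_lambda _ fun k => measurable_pi_apply _
    · exact measurable_pi_lambda _ fun k =>
        (Measurable.of_discrete (f := fun b : Bool => !b)).comp (measurable_pi_apply k)
  rw [h4, h3]
  rfl

/-- **the mean type of the strand of a corner is zero** -/
theorem int_sgt (c : Corner) : ∫ z, sgt c z ∂nh = 0 := by
  obtain ⟨ρ, hρ⟩ := exists_rfl c
  have h1 : ∀ z, sgt c (ρ.act z) = -sgt c z := by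
    intro z
    by_cases h : (Lp z c).Finite
    · have h' := ρ.fin_act h
      have h2 := ρ.sg_act h
      rw [hρ] at h' h2
      rw [sgt_fin h, sgt_fin h', h2]; push_cast; ring
    · have h' : ¬ (Lp (ρ.act z) c).Finite := by
        intro hf
        have := ρ.fin_act hf
        rw [ρ.act_act, hρ] at this
        exact h this
      simp [sgt, h, h']
  have h2 : ∫ z, sgt c z ∂nh = ∫ z, sgt c (ρ.act z) ∂nh := by
    conv_lhs => rw [← ρ.map_act]
    rw [integral_map ρ.meas_act.aemeasurable]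
    exact (meas_sgt c).aestronglyMeasurable
  rw [integral_congr_ae (Filter.Eventually.of_forall h1), integral_neg] at h2
  linarith

/-! ### the inner expectation -/

/-- **Z1**: expectation over the filling of the sign of the unmarked loops around `c` -/
theorem Z1 (hM : Mᶜ.Finite) {z : Cfz} (hG : Gd M z) {c : Corner} (hc : c ∉ Mk M z) :
    0 ≤ ∫ y, ((-1 : ℝ) ^ N0 M (mix (Xe M z) z y) c) ∂nh ∧
    ∫ y, ((-1 : ℝ) ^ N0 M (mix (Xe M z) z y) c) ∂nh ≤
      2 * nh.real {y | ¬ Disjoint (Ve y c) (Xe M z)} := by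
  classical
  set X := Xe M z with hX
  have hXc : Xᶜ.Finite := xe_cofin hM z
  have hm1 : Measurable fun y : Cfz => ((-1 : ℝ) ^ N0 M (mix X z y) c) :=
    meas_fill hXc z fun w => ((-1 : ℝ) ^ N0 M w c)
  have hi1 : Integrable (fun y : Cfz => ((-1 : ℝ) ^ N0 M (mix X z y) c)) nh :=
    Integrable.of_bound hm1.aestronglyMeasurable 1 (Filter.Eventually.of_forall fun y => by
      simp)
  have hi2 : Integrable (fun y => (col M z c : ℝ) * sgt c y) nh := (int_sgt_able c).const_mul _
  have heq : ∫ y, ((-1 : ℝ) ^ N0 M (mix X z y) c) ∂nh =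
      ∫ y, (((-1 : ℝ) ^ N0 M (mix X z y) c) - (col M z c : ℝ) * sgt c y) ∂nh := by
    rw [integral_sub hi1 hi2, integral_const_mul, int_sgt]; ring
  have hset : MeasurableSet {y : Cfz | ¬ Disjoint (Ve y c) X} := (meas_disj hXc c).compl
  have hae : ∀ᵐ y ∂nh, 0 ≤ ((-1 : ℝ) ^ N0 M (mix X z y) c) - (col M z c : ℝ) * sgt c y ∧
      ((-1 : ℝ) ^ N0 M (mix X z y) c) - (col M z c : ℝ) * sgt c y ≤
        {y | ¬ Disjoint (Ve y c) X}.indicator (fun _ => (2 : ℝ)) y := by
    filter_upwards [ae_fin c] with y hy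
    obtain ⟨h1, h2⟩ := inner_bounds hM hG hc hy
    rw [sgt_fin hy]
    constructor
    · have : ((0 : ℤ) : ℝ) ≤ (((-1) ^ N0 M (mix X z y) c - col M z c * sg y c : ℤ) : ℝ) :=
        Int.cast_le.2 h1
      push_cast at this
      exact this
    · have := (Int.cast_le (R := ℝ)).2 h2
      by_cases hd : Disjoint (Ve y c) X
      · rw [Set.indicator_of_notMem (by simpa using hd)]
        rw [if_pos hd] at this
        push_cast at this
        exact this
      · rw [Set.indicator_of_mem (by simpa using hd)]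
        rw [if_neg hd] at this
        push_cast at this
        exact this
  rw [heq]
  refine ⟨integral_nonneg_of_ae (hae.mono fun y h => h.1), ?_⟩
  refine (integral_mono_ae (hi1.sub hi2) ?_ (hae.mono fun y h => h.2)).trans ?_
  · exact (integrable_const (2 : ℝ)).indicator hset
  · rw [integral_indicator_const _ hset, smul_eq_mul, mul_comm]

/-- adapted functions -/
def Adp (M : Set Edge) (G : Cfz → ℝ) : Prop := ∀ z z' : Cfz, (∀ e ∈ Xe M z, z' e = z e) → G z' = G z

open Classical in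
/-- **Z1, integrated form** -/
theorem Z1_int (hM : Mᶜ.Finite) {G : Cfz → ℝ} (hG : Adp M G) (hGi : Integrable G nh) (c : Corner) :
    ∫ z, G z * (if c ∉ Mk M z then ((-1 : ℝ) ^ N0 M z c) else 0) ∂nh =
      ∫ z, G z * (if c ∉ Mk M z then ∫ y, ((-1 : ℝ) ^ N0 M (mix (Xe M z) z y) c) ∂nh else 0) ∂nh := by
  have hm : Measurable fun z : Cfz => (if c ∉ Mk M z then ((-1 : ℝ) ^ N0 M z c) else 0) :=
    meas_of_fin hM fun z z' h => by rw [mk_dep h, N0_dep h]
  have hfi : Integrable (fun z => G z * (if c ∉ Mk M z then ((-1 : ℝ) ^ N0 M z c) else 0)) nh := by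
    refine hGi.mul_bdd (c := 1) hm.aestronglyMeasurable (Filter.Eventually.of_forall fun z => ?_)
    split_ifs <;> simp
  rw [(rev_xe hM).integral_eq hfi]
  refine integral_congr_ae (Filter.Eventually.of_forall fun z => ?_)
  simp only
  have h1 : ∀ y, G (mix (Xe M z) z y) = G z := fun y => hG _ _ (mix_agree M z y)
  have h2 : ∀ y, Mk M (mix (Xe M z) z y) = Mk M z := fun y => mk_congr (mix_agree M z y)
  simp only [h1, h2]
  split_ifs with hc
  · simp
  · rw [integral_const_mul]

end Crest.Agent.R158.Zr110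
end
end

-- ▼ part R158/Zs1_110
section

/-!
# Row 158, BLOCK Z / UB3b (helper110), part 1: the isolated part of `∫ Xs μ c`

* `ul_box` : the unmarked loops of `M = Mo x N` lie in the box `BF x N`
* `Xs_split` : if `c` is unmarked, `Xs μ c z = √3 * Gf μ M c z * (-1)^{N0 M z c}`, `Gf` adapted
* `iso_le` : `|∫ Xs μ c 1[c ∉ Mk]| ≤ 2 ∫ |Xs μ c z| 1[c ∉ Mk] P_y(the strand of c in y visits Xe M z)`
-/

set_option autoImplicit false

noncomputable section

namespace Crest.Agent.R158.Zs110

open Crest.Agent.R161.Geo729 Crest.Agent.R161.Dual374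
open Crest.Agent.R161.Tas682 (sd)
open Crest.Agent.R158.It200 Crest.Agent.R158.Wf850
open Crest.Agent.R158.Vx107 (mass tot Ntr Fw Sw Fv Xs Oth chv mass_chv fin_supp ntr_chv Fw_zero
  Fw_sub_pi Fv_eq Xs_eq integrable_Xs)
open Crest.Agent.R158.Zr110 hiding AllFin ae_fin
open Crest.Agent.R158.Fr158 (bx mem_bx mem_bx_sd)
open MeasureTheory Real

variable {M : Set Edge}

/-- marked loops -/
def ML (M : Set Edge) (z : Cfz) : Set (Finset Face) := {A | A ∈ Lps z ∧ MkA M A}

theorem ml_congr {z z' : Cfz} (h : ∀ e ∈ Xe M z, z' e = z e) : ML M z' = ML M z := by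
  have key : ∀ z z' : Cfz, (∀ e ∈ Xe M z, z' e = z e) → ML M z ⊆ ML M z' := by
    rintro z z' h A ⟨⟨c, hc, hA⟩, hM⟩
    have hcm : c ∈ Mk M z := (mkA_iff hc hA).1 hM
    have h1 := lp_marked h hcm
    refine ⟨⟨c, h1 ▸ hc, fun f => ?_⟩, hM⟩
    rw [hA]
    have h2 : JL z c = JL z' c := by unfold JL; rw [h1]
    unfold ht hv hf
    rw [h2]
  refine Set.Subset.antisymm ?_ (key _ _ h)
  refine key _ _ fun e he => ?_
  rw [xe_congr h] at he
  exact (h e he).symm

/-- unmarked loops lie in the box -/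
theorem ul_box {x : P2} {N : ℤ} {z : Cfz} {A : Finset Face} (hA : A ∈ UL (Mo x N) z) :
    A ⊆ BF x N := by
  obtain ⟨⟨c, hc, hA⟩, hn⟩ := hA
  have hcu : c ∉ Mk (Mo x N) z := fun h => hn ((mkA_iff hc hA).2 h)
  intro f hf
  rw [mem_BF]
  by_contra hcon
  have hsup : ∀ d : Corner, JL z c d ≠ 0 →
      x.1 - N ≤ d.1.1 ∧ d.1.1 ≤ x.1 + N ∧ x.2 - N ≤ d.1.2 ∧ d.1.2 ≤ x.2 + N := by
    intro d hd
    by_contra hcon'
    have hdm : d ∈ Lp z c := by
      by_contra h
      exact hd (JL_not_mem h)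
    refine hcu ((mk_along hdm).1 (mk_ah ?_))
    have h1 : N < sd x d.1 := by
      rw [← mem_bx] at hcon'
      rw [mem_bx_sd] at hcon'
      exact not_le.1 hcon'
    rcases ah_ends d with ⟨h, _⟩ | ⟨h, _⟩
    · left; rw [← h]; exact h1
    · right; rw [← h]; exact h1
  obtain ⟨v, b⟩ := f
  have hout : v.1 < x.1 - N ∨ x.1 + N < v.1 ∨ v.2 < x.2 - N ∨ x.2 + N < v.2 := by
    by_contra hcon'
    have : v ∈ bx x N := by rw [mem_bx]; omega
    rw [mem_bx_sd] at this
    exact hcon this
  rw [hA] at hf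
  apply hf
  cases b
  · rw [ht_false]
    exact Hv_out (JL_fs hc) (JL_inv z c).cons hsup hout
  · rw [ht_true]
    have := Hf_out (JL_fs hc) (JL_inv z c).cons hsup (c := (v, 0)) hout
    rwa [fc_zero] at this

theorem mass_off {x : P2} {N : ℤ} {μ : Face →₀ ℝ} (hoff : ∀ f ∈ BF x N, μ f = 0)
    {A : Finset Face} (hA : A ⊆ BF x N) : mass μ A = 0 :=
  Finset.sum_eq_zero fun f hf => hoff f (hA hf)

/-- product over the marked loops -/
def Gm (μ : Face →₀ ℝ) (M : Set Edge) (v : P2) (z : Cfz) : ℝ := ∏ᶠ B ∈ ML M z, Fv μ v B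

theorem gm_congr {μ : Face →₀ ℝ} {v : P2} {z z' : Cfz} (h : ∀ e ∈ Xe M z, z' e = z e) :
    Gm μ M v z' = Gm μ M v z := by
  unfold Gm; rw [ml_congr h]

theorem sw_zero : Sw 0 = √3 := by
  unfold Sw; rw [add_zero, sin_pi_div_three]; ring

/-- unmarked loops not through `c` -/
def UO (M : Set Edge) (z : Cfz) (c : Corner) : Set (Finset Face) := {A | A ∈ UL M z ∧ ¬ sepC A c}

theorem oth_eq (hM : Mᶜ.Finite) {z : Cfz} {c : Corner} (hc : c ∉ Mk M z) :
    Oth z c = ML M z ∪ UO M z c := by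
  obtain ⟨A, hA, hA'⟩ := exists_int (lp_un_fin hM hc)
  have hfin := lp_un_fin hM hc
  ext B
  constructor
  · rintro ⟨h1, h2⟩
    by_cases h3 : MkA M B
    · exact Or.inl ⟨h1, h3⟩
    · exact Or.inr ⟨⟨h1, h3⟩, h2⟩
  · rintro (⟨h1, h2⟩ | ⟨⟨h1, h2⟩, h3⟩)
    · refine ⟨h1, fun h3 => hc ?_⟩
      obtain ⟨d, hd, hB⟩ := h1
      have h4 : c ∈ Lp z d := (sep_iff hd hB c).1 h3
      exact (mk_along h4).2 ((mkA_iff hd hB).1 h2)
    · exact ⟨h1, h3⟩

theorem ml_uo_disj (z : Cfz) (c : Corner) : Disjoint (ML M z) (UO M z c) :=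
  Set.disjoint_left.2 fun _ h h' => h'.1.2 h.2

theorem uo_fin (hM : Mᶜ.Finite) (z : Cfz) (c : Corner) : (UO M z c).Finite :=
  (UL_finite hM z).subset fun _ h => h.1

/-- the product of signs -/
theorem sign_prod {S : Set (Finset Face)} (hS : S.Finite) {f : Face}
    {g : Finset Face → ℝ} (h1 : ∀ A ∈ S, f ∈ A → g A = -1) (h2 : ∀ A ∈ S, f ∉ A → g A = 1) :
    ∏ᶠ A ∈ S, g A = (-1) ^ {A | A ∈ S ∧ f ∈ A}.ncard := by
  classical
  have e1 : ∏ᶠ A ∈ S, g A = ∏ A ∈ hS.toFinset, g A := by
    refine finprod_mem_eq_finite_toFinset_prod g hS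
  rw [e1]
  have e2 : ∏ A ∈ hS.toFinset, g A = ∏ A ∈ hS.toFinset, (if f ∈ A then (-1 : ℝ) else 1) := by
    refine Finset.prod_congr rfl fun A hA => ?_
    rw [Set.Finite.mem_toFinset] at hA
    split_ifs with h
    · exact h1 A hA h
    · exact h2 A hA h
  rw [e2, Finset.prod_ite, Finset.prod_const, Finset.prod_const_one, mul_one]
  congr 1
  rw [← Set.ncard_coe_finset]
  congr 1
  ext A
  simp

/-- **factorisation at an unmarked corner** -/
theorem Xs_split {x : P2} {N : ℤ} {μ : Face →₀ ℝ} (hμ : tot μ = π) (hoff : ∀ f ∈ BF x N, μ f = 0)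
    {z : Cfz} {c : Corner} (hc : c ∉ Mk (Mo x N) z) :
    Xs μ c z = √3 * Gm μ (Mo x N) c.1 z * (-1) ^ N0 (Mo x N) z c := by
  classical
  have hM := Mo_cofin x N
  have hfin := lp_un_fin hM hc
  obtain ⟨A, hA, hA'⟩ := exists_int hfin
  have hAU : A ∈ UL (Mo x N) z := ⟨hA, fun h => hc ((mkA_iff hfin hA').1 h)⟩
  rw [Xs_eq hfin hA', mass_off hoff (ul_box hAU), sw_zero, oth_eq hM hc]
  have hsub1 : ML (Mo x N) z ⊆ Lps z := fun _ h => h.1
  have hsub2 : UO (Mo x N) z c ⊆ Lps z := fun _ h => h.1.1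
  have hf1 : (ML (Mo x N) z ∩ Function.mulSupport fun B => Fv μ c.1 B).Finite :=
    fin_supp (ntr_chv hμ c.1) hsub1
  have hf2 : (UO (Mo x N) z c ∩ Function.mulSupport fun B => Fv μ c.1 B).Finite :=
    fin_supp (ntr_chv hμ c.1) hsub2
  rw [finprod_mem_union' (ml_uo_disj z c) hf1 hf2, mul_assoc]
  congr 2
  have h1 : ∀ B ∈ UO (Mo x N) z c, (c.1, false) ∈ B → Fv μ c.1 B = -1 := by
    intro B hB h
    rw [Fv_eq, if_pos h, mass_off hoff (ul_box hB.1), Fw_zero]
  have h2 : ∀ B ∈ UO (Mo x N) z c, (c.1, false) ∉ B → Fv μ c.1 B = 1 := by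
    intro B hB h
    rw [Fv_eq, if_neg h, mass_off hoff (ul_box hB.1), Fw_zero]
  rw [sign_prod (uo_fin hM z c) h1 h2]
  congr 1
  unfold N0
  congr 1
  ext B
  simp only [Set.mem_ofPred_eq]
  constructor
  · rintro ⟨⟨hB, hs⟩, h⟩
    have hs' : cv c ∈ B ↔ cf c ∈ B := by
      unfold sepC at hs
      exact not_not.1 hs
    exact ⟨hB, h, hs'.1 h⟩
  · rintro ⟨hB, h, h'⟩
    exact ⟨⟨hB, fun hs => hs ⟨fun _ => h', fun _ => h⟩⟩, h⟩

open Classical in
/-- the adapted factor, cut off at marked corners -/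
def Gf (μ : Face →₀ ℝ) (M : Set Edge) (c : Corner) (z : Cfz) : ℝ :=
  if c ∉ Mk M z then Gm μ M c.1 z else 0

theorem gf_adp (μ : Face →₀ ℝ) (c : Corner) : Adp M (Gf μ M c) := by
  intro z z' h
  unfold Gf
  rw [mk_congr h, gm_congr h]

open Classical in
theorem gf_eq {x : P2} {N : ℤ} {μ : Face →₀ ℝ} (hμ : tot μ = π) (hoff : ∀ f ∈ BF x N, μ f = 0)
    (z : Cfz) (c : Corner) :
    Gf μ (Mo x N) c z = (1 / √3) * (Xs μ c z *
      (if c ∉ Mk (Mo x N) z then ((-1 : ℝ) ^ N0 (Mo x N) z c) else 0)) := by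
  unfold Gf
  have h3 : (√3 : ℝ) ≠ 0 := by positivity
  by_cases hc : c ∉ Mk (Mo x N) z
  · rw [if_pos hc, if_pos hc, Xs_split hμ hoff hc]
    have h4 : ((-1 : ℝ) ^ N0 (Mo x N) z c) * ((-1 : ℝ) ^ N0 (Mo x N) z c) = 1 := by
      rw [← pow_add, ← two_mul, pow_mul]; norm_num
    calc Gm μ (Mo x N) c.1 z = Gm μ (Mo x N) c.1 z * 1 := (mul_one _).symm
      _ = Gm μ (Mo x N) c.1 z * (((-1 : ℝ) ^ N0 (Mo x N) z c) * ((-1 : ℝ) ^ N0 (Mo x N) z c)) := by
          rw [h4]
      _ = _ := by field_simp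
  · rw [if_neg hc, if_neg hc, mul_zero, mul_zero]

theorem meas_sgn (hM : Mᶜ.Finite) (c : Corner) [∀ z, Decidable (c ∉ Mk M z)] :
    Measurable fun z : Cfz => (if c ∉ Mk M z then ((-1 : ℝ) ^ N0 M z c) else 0) :=
  meas_of_fin hM fun z z' h => by
    have h1 := mk_dep h
    have h2 := N0_dep h c
    by_cases hc : c ∉ Mk M z
    · rw [if_pos hc, if_pos (by rw [← h1]; exact hc), h2]
    · rw [if_neg hc, if_neg (by rw [← h1]; exact hc)]

theorem gf_int {x : P2} {N : ℤ} {μ : Face →₀ ℝ} (hμ : tot μ = π)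
    (hoff : ∀ f ∈ BF x N, μ f = 0) (c : Corner) : Integrable (Gf μ (Mo x N) c) nh := by
  classical
  have h1 : Gf μ (Mo x N) c = fun z => (1 / √3) * (Xs μ c z *
      (if c ∉ Mk (Mo x N) z then ((-1 : ℝ) ^ N0 (Mo x N) z c) else 0)) := by
    funext z
    rw [gf_eq hμ hoff]
  rw [h1]
  refine Integrable.const_mul ?_ _
  refine (integrable_Xs Vx107.ae_fin hμ c).mul_bdd (c := 1)
    (meas_sgn (Mo_cofin x N) c).aestronglyMeasurable (Filter.Eventually.of_forall fun z => ?_)
  split_ifs <;> simp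

/-- probability that the strand of `c` in a fresh configuration visits a revealed edge -/
def Pv (M : Set Edge) (c : Corner) (z : Cfz) : ℝ := nh.real {y | ¬ Disjoint (Ve y c) (Xe M z)}

theorem pv_nonneg (c : Corner) (z : Cfz) : 0 ≤ Pv M c z := measureReal_nonneg

theorem pv_le_one (c : Corner) (z : Cfz) : Pv M c z ≤ 1 := measureReal_le_one

theorem meas_pv (hM : Mᶜ.Finite) (c : Corner) : Measurable (Pv M c) :=
  meas_of_fin hM fun z z' h => by unfold Pv; rw [xe_dep h]

open Classical in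
/-- **the isolated part** -/
theorem iso_le {x : P2} {N : ℤ} {μ : Face →₀ ℝ} (hμ : tot μ = π)
    (hoff : ∀ f ∈ BF x N, μ f = 0) (c : Corner) :
    |∫ z, (if c ∉ Mk (Mo x N) z then Xs μ c z else 0) ∂nh| ≤
      2 * ∫ z, (if c ∉ Mk (Mo x N) z then |Xs μ c z| * Pv (Mo x N) c z else 0) ∂nh := by
  have hM := Mo_cofin x N
  have h3 : (0 : ℝ) < √3 := by positivity
  have hG := gf_int hμ hoff c
  -- the integrand
  have e1 : ∀ z, (if c ∉ Mk (Mo x N) z then Xs μ c z else 0) =
      √3 * (Gf μ (Mo x N) c z *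
        (if c ∉ Mk (Mo x N) z then ((-1 : ℝ) ^ N0 (Mo x N) z c) else 0)) := by
    intro z
    by_cases hc : c ∉ Mk (Mo x N) z
    · rw [if_pos hc, if_pos hc, Xs_split hμ hoff hc]
      unfold Gf
      rw [if_pos hc, mul_assoc]
    · rw [if_neg hc, if_neg hc, mul_zero, mul_zero]
  have e2 := Z1_int hM (gf_adp (M := Mo x N) μ c) hG c
  simp only [e1]
  rw [integral_const_mul, e2, ← integral_const_mul]
  -- the pointwise bound
  have hb : ∀ z, |√3 * (Gf μ (Mo x N) c z *
      (if c ∉ Mk (Mo x N) z then ∫ y, ((-1 : ℝ) ^ N0 (Mo x N) (mix (Xe (Mo x N) z) z y) c) ∂nh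
        else 0))| ≤ 2 * (if c ∉ Mk (Mo x N) z then |Xs μ c z| * Pv (Mo x N) c z else 0) := by
    intro z
    by_cases hc : c ∉ Mk (Mo x N) z
    · rw [if_pos hc, if_pos hc]
      obtain ⟨g1, g2⟩ := Z1 hM (gd_Mo x N z) hc
      have e3 : |Xs μ c z| = √3 * |Gf μ (Mo x N) c z| := by
        rw [Xs_split hμ hoff hc, abs_mul, abs_mul, abs_of_pos h3]
        unfold Gf
        rw [if_pos hc]
        simp
      rw [abs_mul, abs_mul, abs_of_pos h3, abs_of_nonneg g1, e3]
      have : √3 * |Gf μ (Mo x N) c z| *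
          (∫ y, ((-1 : ℝ) ^ N0 (Mo x N) (mix (Xe (Mo x N) z) z y) c) ∂nh) ≤
          √3 * |Gf μ (Mo x N) c z| * (2 * Pv (Mo x N) c z) :=
        mul_le_mul_of_nonneg_left g2 (by positivity)
      linarith
    · rw [if_neg hc, if_neg hc, mul_zero, mul_zero, abs_zero, mul_zero]
  have hXi : Integrable (fun z => |Xs μ c z|) nh := (integrable_Xs Vx107.ae_fin hμ c).abs
  have hmf : Measurable fun z : Cfz => (if c ∉ Mk (Mo x N) z then Pv (Mo x N) c z else 0) := by
    refine Measurable.ite ?_ (meas_pv hM c) measurable_const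
    exact meas_un hM c
  have hri : Integrable (fun z => 2 * (if c ∉ Mk (Mo x N) z then |Xs μ c z| * Pv (Mo x N) c z
      else 0)) nh := by
    refine Integrable.const_mul ?_ _
    have e4 : (fun z => if c ∉ Mk (Mo x N) z then |Xs μ c z| * Pv (Mo x N) c z else 0) =
        fun z => |Xs μ c z| * (if c ∉ Mk (Mo x N) z then Pv (Mo x N) c z else 0) := by
      funext z; split_ifs <;> simp
    rw [e4]
    refine hXi.mul_bdd (c := 1) hmf.aestronglyMeasurable (Filter.Eventually.of_forall fun z => ?_)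
    rw [Real.norm_eq_abs]
    by_cases hc : c ∉ Mk (Mo x N) z
    · rw [if_pos hc, abs_of_nonneg (pv_nonneg c z)]; exact pv_le_one c z
    · rw [if_neg hc]; simp
  refine (abs_integral_le_integral_abs).trans ?_
  rw [← integral_const_mul]
  exact integral_mono_of_nonneg (Filter.Eventually.of_forall fun z => abs_nonneg _) hri
    (Filter.Eventually.of_forall hb)

end Crest.Agent.R158.Zs110
end
end

-- ▼ part R158/Zs2_110
section

/-!
# Row 158, BLOCK Z / UB3b (helper110), part 2: arm events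

* `TA v f n m` : the open cluster of `v` reaches distance `n`, the dual cluster of `f` distance `m`
* `ta_le_p2` : at every corner the probability of two arms is at most `p2 (n - 4)`
* `mk_le` : a marked corner has two arms
* `pv_sum` : `∫ Pv (Mo 0 N) c` is bounded by the sum over dyadic scales of `p2 * P2a`
-/

set_option autoImplicit false

noncomputable section

namespace Crest.Agent.R158.Zs110

open Crest.Agent.R161.Geo729 Crest.Agent.R161.Dual374
open Crest.Agent.R161.Tas682 (sd)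
open Crest.Agent.R161.Sym597 (Refl)
open Crest.Agent.R158.It200 Crest.Agent.R158.Wf850
open Crest.Agent.R158.Rs689 (nu PB_map_equiv PArm DArm dual measurable_dual mem_dcl Rch)
open Crest.Agent.R158.Fr158 (rch_meas)
open Crest.Agent.R158.Ax107 (p2 P2ev p2_anti p2_nonneg p2_le_one)
open Crest.Agent.R158.Lc522 (rch_strand rchd_strand)
open Crest.Agent.R158.Zr110 hiding AllFin ae_fin
open MeasureTheory

/-! ### reflections of the lattice -/

/-- action of a reflection on configurations -/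
def rz (R : Refl) (z : Cfz) : Cfz := fun e => z (R.E e)

theorem meas_rz (R : Refl) : Measurable (rz R) :=
  measurable_pi_lambda _ fun e => measurable_pi_apply (R.E e)

theorem map_rz (R : Refl) : nh.map (rz R) = nh :=
  PB_map_equiv R.EEquiv.symm (fun _ : Edge => Rs689.hf)

theorem ocl_rz (R : Refl) {z : Cfz} {u v : P2} (h : u ∈ OCl (rz R z) v) :
    R.V u ∈ OCl z (R.V v) := by
  change Relation.ReflTransGen (PStep (fun e => rz R z e = true)) v u at h
  show Relation.ReflTransGen (PStep (fun e => z e = true)) (R.V v) (R.V u)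
  induction h with
  | refl => exact .refl
  | @tail b c _ hs ih =>
      obtain ⟨e, he, h3⟩ := hs
      refine ih.tail ⟨R.E e, he, ?_⟩
      rcases R.edge_v e with ⟨a1, a2⟩ | ⟨a1, a2⟩ <;> rcases h3 with ⟨rfl, rfl⟩ | ⟨rfl, rfl⟩
      · exact Or.inl ⟨a1.symm, a2.symm⟩
      · exact Or.inr ⟨a2.symm, a1.symm⟩
      · exact Or.inr ⟨a2.symm, a1.symm⟩
      · exact Or.inl ⟨a1.symm, a2.symm⟩

theorem dcl_rz (R : Refl) {z : Cfz} {u v : P2} (h : u ∈ DCl (rz R z) v) :
    R.Fc u ∈ DCl z (R.Fc v) := by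
  change Relation.ReflTransGen (DStep (fun e => rz R z e = false)) v u at h
  show Relation.ReflTransGen (DStep (fun e => z e = false)) (R.Fc v) (R.Fc u)
  induction h with
  | refl => exact .refl
  | @tail b c _ hs ih =>
      obtain ⟨e, he, h3⟩ := hs
      refine ih.tail ⟨R.E e, he, ?_⟩
      rcases R.edge_f e with ⟨a1, a2⟩ | ⟨a1, a2⟩ <;> rcases h3 with ⟨rfl, rfl⟩ | ⟨rfl, rfl⟩
      · exact Or.inl ⟨a1.symm, a2.symm⟩
      · exact Or.inr ⟨a2.symm, a1.symm⟩
      · exact Or.inr ⟨a2.symm, a1.symm⟩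
      · exact Or.inl ⟨a1.symm, a2.symm⟩

/-! ### two arms from a vertex and a face -/

/-- two arms from the vertex `v` and the face `f` -/
def TA (v f : P2) (n m : ℤ) : Set Cfz :=
  {z | (∃ u ∈ OCl z v, n ≤ sd v u) ∧ ∃ g ∈ DCl z f, m ≤ sd v g}

theorem TA_mono {v f : P2} {n m n' m' : ℤ} (h1 : n' ≤ n) (h2 : m' ≤ m) :
    TA v f n m ⊆ TA v f n' m' := by
  rintro z ⟨⟨u, hu, a⟩, g, hg, b⟩
  exact ⟨⟨u, hu, h1.trans a⟩, g, hg, h2.trans b⟩

theorem meas_ocl (v : P2) (P : P2 → Prop) : MeasurableSet {z : Cfz | ∃ u ∈ OCl z v, P u} := by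
  have h : {z : Cfz | ∃ u ∈ OCl z v, P u} = ⋃ u ∈ {u : P2 | P u}, {z : Cfz | Rch z v u} := by
    ext z
    simp only [Set.mem_ofPred_eq, Set.mem_iUnion, exists_prop]
    constructor
    · rintro ⟨u, h1, h2⟩; exact ⟨u, h2, h1⟩
    · rintro ⟨u, h1, h2⟩; exact ⟨u, h2, h1⟩
  rw [h]
  exact MeasurableSet.biUnion (Set.to_countable _) fun u _ => rch_meas v u

theorem meas_dcl (v : P2) (P : P2 → Prop) : MeasurableSet {z : Cfz | ∃ u ∈ DCl z v, P u} := by
  have h : {z : Cfz | ∃ u ∈ DCl z v, P u} = dual ⁻¹' {z : Cfz | ∃ u ∈ OCl z v, P u} := by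
    ext z
    simp only [Set.mem_ofPred_eq, Set.mem_preimage, mem_dcl]
  rw [h]
  exact measurable_dual (meas_ocl v P)

theorem meas_TA (v f : P2) (n m : ℤ) : MeasurableSet (TA v f n m) :=
  (meas_ocl v _).inter (meas_dcl f _)

/-- one reflection -/
theorem ta_refl (R : Refl) (hV : ∀ x u : P2, sd (R.V x) (R.V u) = sd x u)
    (hF : ∀ x g : P2, sd x g - 1 ≤ sd (R.V x) (R.Fc g)) (v f : P2) (n m : ℤ) :
    nh.real (TA v f n m) ≤ nh.real (TA (R.V v) (R.Fc f) n (m - 1)) := by
  have h1 : nh.real (TA v f n m) = nh.real (rz R ⁻¹' TA v f n m) := by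
    conv_lhs => rw [← map_rz R]
    rw [measureReal_def, measureReal_def, Measure.map_apply (meas_rz R) (meas_TA _ _ _ _)]
  rw [h1]
  refine measureReal_mono ?_
  rintro z ⟨⟨u, hu, a⟩, g, hg, b⟩
  refine ⟨⟨R.V u, ocl_rz R hu, by rw [hV]; exact a⟩, R.Fc g, dcl_rz R hg, ?_⟩
  have := hF v g
  linarith

theorem vert_V (k : ℤ) (x u : P2) : sd ((Refl.vert k).V x) ((Refl.vert k).V u) = sd x u := by
  show max |(k - u.1) - (k - x.1)| |u.2 - x.2| = max |u.1 - x.1| |u.2 - x.2|
  rw [show (k - u.1) - (k - x.1) = -(u.1 - x.1) by ring, abs_neg]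

theorem vert_F (k : ℤ) (x g : P2) : sd x g - 1 ≤ sd ((Refl.vert k).V x) ((Refl.vert k).Fc g) := by
  show max |g.1 - x.1| |g.2 - x.2| - 1 ≤ max |(k - 1 - g.1) - (k - x.1)| |g.2 - x.2|
  rw [show (k - 1 - g.1) - (k - x.1) = -(g.1 - x.1) - 1 by ring]
  have h1 : |g.1 - x.1| ≤ |-(g.1 - x.1) - 1| + 1 := by
    have := abs_sub (-(g.1 - x.1) - 1) (-1)
    rw [show -(g.1 - x.1) - 1 - -1 = -(g.1 - x.1) by ring, abs_neg] at this
    simpa using this
  rw [sub_le_iff_le_add]
  refine max_le ?_ ?_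
  · exact h1.trans (add_le_add (le_max_left _ _) le_rfl)
  · have : |g.2 - x.2| ≤ max |-(g.1 - x.1) - 1| |g.2 - x.2| := le_max_right _ _
    linarith

theorem horiz_V (k : ℤ) (x u : P2) : sd ((Refl.horiz k).V x) ((Refl.horiz k).V u) = sd x u := by
  show max |u.1 - x.1| |(k - u.2) - (k - x.2)| = max |u.1 - x.1| |u.2 - x.2|
  rw [show (k - u.2) - (k - x.2) = -(u.2 - x.2) by ring, abs_neg]

theorem horiz_F (k : ℤ) (x g : P2) :
    sd x g - 1 ≤ sd ((Refl.horiz k).V x) ((Refl.horiz k).Fc g) := by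
  show max |g.1 - x.1| |g.2 - x.2| - 1 ≤ max |g.1 - x.1| |(k - 1 - g.2) - (k - x.2)|
  rw [show (k - 1 - g.2) - (k - x.2) = -(g.2 - x.2) - 1 by ring]
  have h1 : |g.2 - x.2| ≤ |-(g.2 - x.2) - 1| + 1 := by
    have := abs_sub (-(g.2 - x.2) - 1) (-1)
    rw [show -(g.2 - x.2) - 1 - -1 = -(g.2 - x.2) by ring, abs_neg] at this
    simpa using this
  rw [sub_le_iff_le_add]
  refine max_le ?_ ?_
  · have : |g.1 - x.1| ≤ max |g.1 - x.1| |-(g.2 - x.2) - 1| := le_max_left _ _
    linarith
  · exact h1.trans (add_le_add (le_max_right _ _) le_rfl)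

theorem norm_x (x y a b n m : ℤ) (h : a = x ∨ a = x - 1) :
    nh.real (TA (x, y) (a, b) n m) ≤ nh.real (TA (0, y) (0, b) n (m - 2)) := by
  have h1 := ta_refl (Refl.vert x) (vert_V x) (vert_F x) (x, y) (a, b) n m
  have e1 : (Refl.vert x).V (x, y) = (0, y) := by
    show (x - x, y) = (0, y); rw [sub_self]
  have e2 : (Refl.vert x).Fc (a, b) = (x - 1 - a, b) := rfl
  rw [e1, e2] at h1
  refine h1.trans ?_
  rcases h with rfl | rfl
  · have h2 := ta_refl (Refl.vert 0) (vert_V 0) (vert_F 0) (0, y) (a - 1 - a, b) n (m - 1)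
    have e3 : (Refl.vert 0).V (0, y) = (0, y) := rfl
    have e4 : (Refl.vert 0).Fc (a - 1 - a, b) = (0, b) := by
      show (0 - 1 - (a - 1 - a), b) = (0, b)
      congr 1; ring
    rw [e3, e4] at h2
    refine h2.trans (measureReal_mono (TA_mono le_rfl (by linarith)))
  · rw [show x - 1 - (x - 1) = 0 by ring]
    exact measureReal_mono (TA_mono le_rfl (by linarith))

theorem norm_y (x y a b n m : ℤ) (h : b = y ∨ b = y - 1) :
    nh.real (TA (x, y) (a, b) n m) ≤ nh.real (TA (x, 0) (a, 0) n (m - 2)) := by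
  have h1 := ta_refl (Refl.horiz y) (horiz_V y) (horiz_F y) (x, y) (a, b) n m
  have e1 : (Refl.horiz y).V (x, y) = (x, 0) := by
    show (x, y - y) = (x, 0); rw [sub_self]
  have e2 : (Refl.horiz y).Fc (a, b) = (a, y - 1 - b) := rfl
  rw [e1, e2] at h1
  refine h1.trans ?_
  rcases h with rfl | rfl
  · have h2 := ta_refl (Refl.horiz 0) (horiz_V 0) (horiz_F 0) (x, 0) (a, b - 1 - b) n (m - 1)
    have e3 : (Refl.horiz 0).V (x, 0) = (x, 0) := rfl
    have e4 : (Refl.horiz 0).Fc (a, b - 1 - b) = (a, 0) := by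
      show (a, 0 - 1 - (b - 1 - b)) = (a, 0)
      congr 1; ring
    rw [e3, e4] at h2
    refine h2.trans (measureReal_mono (TA_mono le_rfl (by linarith)))
  · rw [show y - 1 - (y - 1) = 0 by ring]
    exact measureReal_mono (TA_mono le_rfl (by linarith))

theorem fc_near (c : Corner) : ((fc c).1 = c.1.1 ∨ (fc c).1 = c.1.1 - 1) ∧
    ((fc c).2 = c.1.2 ∨ (fc c).2 = c.1.2 - 1) := by
  obtain ⟨⟨x, y⟩, q⟩ := c
  fin_cases q <;> simp [fc]

theorem P2ev_eq (n : ℕ) : P2ev n = TA (0, 0) (0, 0) n n := rfl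

theorem p2_zero : p2 0 = 1 := by
  have h : P2ev 0 = Set.univ := by
    rw [Set.eq_univ_iff_forall]
    intro z
    exact ⟨⟨(0, 0), .refl, by simp [sd]⟩, (0, 0), .refl, by simp [sd]⟩
  show nh.real (P2ev 0) = 1
  rw [h]; simp

/-- **two arms at an arbitrary corner** -/
theorem ta_le_p2 (c : Corner) (n m : ℤ) (k : ℕ) (h1 : (k : ℤ) ≤ n) (h2 : (k : ℤ) + 4 ≤ m) :
    nh.real (TA c.1 (fc c) n m) ≤ p2 k := by
  obtain ⟨hx, hy⟩ := fc_near c
  obtain ⟨⟨x, y⟩, q⟩ := c
  set f := fc ((x, y), q) with hf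
  obtain ⟨a, b⟩ := f
  refine (norm_x x y a b n m hx).trans ((norm_y 0 y 0 b n (m - 2) hy).trans ?_)
  show _ ≤ nh.real (P2ev k)
  rw [P2ev_eq]
  exact measureReal_mono (TA_mono h1 (by linarith))

theorem ta_le_p2' (c : Corner) (n m : ℤ) (k : ℕ) (h1 : (k : ℤ) ≤ n + 4) (h2 : (k : ℤ) ≤ m) :
    nh.real (TA c.1 (fc c) n m) ≤ p2 (k - 4) := by
  rcases le_or_gt 4 k with h | h
  · refine ta_le_p2 c n m (k - 4) ?_ ?_
    · push_cast [Nat.cast_sub h]; linarith
    · push_cast [Nat.cast_sub h]; linarith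
  · rw [Nat.sub_eq_zero_of_le h.le, p2_zero]
    exact measureReal_le_one

/-! ### arms from strands -/

theorem sd_ah {d : Corner} {e : Edge} (h : ah d = e) (x : P2) :
    sd x d.1 ≤ sd x (src e) + 1 ∧ sd x (src e) ≤ sd x d.1 + 1 := by
  have h1 : d.1 = src e ∨ d.1 = tgt e := by
    rcases ah_ends d with ⟨a, -⟩ | ⟨a, -⟩
    · left; rw [← h]; exact a
    · right; rw [← h]; exact a
  have h2 : sd (src e) (tgt e) ≤ 1 := by
    obtain ⟨⟨a, b⟩, t⟩ := e
    cases t <;> simp [src, tgt, sd]
  rcases h1 with h1 | h1 <;> rw [h1]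
  · constructor <;> linarith
  · have t1 := sd_tri x (src e) (tgt e)
    have t2 := sd_tri x (tgt e) (src e)
    rw [sd_symm' (tgt e) (src e)] at t2
    constructor <;> linarith

theorem sd_fc (c : Corner) (x : P2) : sd x (fc c) ≤ sd x c.1 + 1 ∧ sd x c.1 ≤ sd x (fc c) + 1 := by
  have h2 : sd c.1 (fc c) ≤ 1 := by
    obtain ⟨⟨a, b⟩, q⟩ := c
    fin_cases q <;> simp [fc, sd]
  have t1 := sd_tri x c.1 (fc c)
  have t2 := sd_tri x (fc c) c.1
  rw [sd_symm' (fc c) c.1] at t2
  constructor <;> linarith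

/-- a strand that visits a far edge has two arms -/
theorem visit_arms {y : Cfz} {c : Corner} {e : Edge} (h : e ∈ Ve y c) (x : P2) :
    (∃ u ∈ OCl y c.1, sd x (src e) - 1 ≤ sd x u) ∧ ∃ g ∈ DCl y (fc c), sd x (src e) - 2 ≤ sd x g := by
  obtain ⟨d, hd, hde⟩ := h
  have h1 := sd_ah hde x
  have h2 := sd_fc d x
  exact ⟨⟨d.1, rch_strand hd, by linarith⟩, fc d, rchd_strand hd, by linarith⟩

/-- a strand that visits an edge outside the box -/
theorem out_arms {z : Cfz} {c : Corner} {x : P2} {N : ℤ} (h : c ∈ Mk (Mo x N) z) :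
    (∃ u ∈ OCl z c.1, N ≤ sd x u) ∧ ∃ g ∈ DCl z (fc c), N - 1 ≤ sd x g := by
  obtain ⟨e, ⟨d, hd, hde⟩, he⟩ := h
  have h2 := sd_fc d x
  have h3 : N ≤ sd x d.1 := by
    have h4 : sd (src e) (tgt e) ≤ 1 := by
      obtain ⟨⟨a, b⟩, t⟩ := e
      cases t <;> simp [src, tgt, sd]
    have t1 := sd_tri x (src e) (tgt e)
    have t2 := sd_tri x (tgt e) (src e)
    rw [sd_symm' (tgt e) (src e)] at t2
    have h1 : d.1 = src e ∨ d.1 = tgt e := by
      rcases ah_ends d with ⟨a, -⟩ | ⟨a, -⟩
      · left; rw [← hde]; exact a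
      · right; rw [← hde]; exact a
    rcases h1 with h1 | h1 <;> rw [h1] <;> rcases he with he | he <;> linarith
  exact ⟨⟨d.1, rch_strand hd, h3⟩, fc d, rchd_strand hd, by linarith⟩

/-- two arms across an annulus -/
def A2 (x : P2) (s R : ℤ) : Set Cfz := PArm x s R ∩ DArm x s R

theorem A2_mono {x : P2} {s s' R R' : ℤ} (h1 : s ≤ s') (h2 : R' ≤ R) : A2 x s R ⊆ A2 x s' R' := by
  rintro z ⟨⟨u, v, a, b, h⟩, f, g, a', b', h'⟩
  exact ⟨⟨u, v, a.trans h1, h2.trans b, h⟩, f, g, a'.trans h1, h2.trans b', h'⟩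


/-- a revealed edge near `x` gives two arms across the annulus -/
theorem xe_arms {z : Cfz} {x : P2} {N : ℤ} {e : Edge} (h : e ∈ Xe (Mo x N) z) :
    z ∈ A2 x (sd x (src e) + 2) (N - 1) := by
  have key : ∀ d : Corner, (d.1 = src e ∨ d.1 = tgt e) → d ∈ Mk (Mo x N) z →
      z ∈ A2 x (sd x (src e) + 2) (N - 1) := by
    intro d hd hm
    obtain ⟨⟨u, hu, a⟩, g, hg, b⟩ := out_arms hm
    have h4 : sd (src e) (tgt e) ≤ 1 := by
      obtain ⟨⟨a, b⟩, t⟩ := e
      cases t <;> simp [src, tgt, sd]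
    have t1 := sd_tri x (src e) (tgt e)
    have h1 : sd x d.1 ≤ sd x (src e) + 1 := by
      rcases hd with h1 | h1 <;> rw [h1] <;> linarith
    have h2 := sd_fc d x
    exact ⟨⟨d.1, u, by linarith, by linarith, hu⟩, fc d, g, by linarith, b, hg⟩
  rcases h with h | h
  · exact key _ (Or.inl (fst_i1 e)) h
  · exact key _ (Or.inr (fst_i2 e)) h

/-! ### probabilities -/

/-- the strand of `c` visits an edge at distance at least `k` -/
def YY (c : Corner) (k : ℤ) : Set Cfz := {y | ∃ e ∈ Ve y c, k ≤ sd (0, 0) (src e)}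

theorem yy_sub (c : Corner) (k : ℤ) (hc : sd (0, 0) c.1 ≤ 1) :
    YY c k ⊆ TA c.1 (fc c) (k - 2) (k - 3) := by
  rintro y ⟨e, he, hk⟩
  obtain ⟨⟨u, hu, a⟩, g, hg, b⟩ := visit_arms he (0, 0)
  have t1 := sd_tri (0, 0) c.1 u
  have t2 := sd_tri (0, 0) c.1 g
  exact ⟨⟨u, hu, by linarith⟩, g, hg, by linarith⟩

theorem yy_le (c : Corner) (k : ℕ) (hc : sd (0, 0) c.1 ≤ 1) : nh.real (YY c k) ≤ p2 (k - 7) := by
  refine (measureReal_mono (yy_sub c k hc)).trans ?_
  rcases le_or_gt 3 k with h | h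
  · have := ta_le_p2' c ((k : ℤ) - 2) ((k : ℤ) - 3) (k - 3) (by push_cast [Nat.cast_sub h]; linarith)
      (by push_cast [Nat.cast_sub h]; linarith)
    rwa [Nat.sub_sub] at this
  · rw [Nat.sub_eq_zero_of_le (by omega), p2_zero]
    exact measureReal_le_one

/-- a marked corner near the origin -/
theorem mk_le (c : Corner) (N : ℕ) (hc : sd (0, 0) c.1 ≤ 1) :
    nh.real {z | c ∈ Mk (Mo (0, 0) N) z} ≤ p2 (N - 6) := by
  have h1 : {z | c ∈ Mk (Mo (0, 0) N) z} ⊆ TA c.1 (fc c) ((N : ℤ) - 1) ((N : ℤ) - 2) := by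
    intro z hz
    obtain ⟨⟨u, hu, a⟩, g, hg, b⟩ := out_arms hz
    have t1 := sd_tri (0, 0) c.1 u
    have t2 := sd_tri (0, 0) c.1 g
    exact ⟨⟨u, hu, by linarith⟩, g, hg, by linarith⟩
  refine (measureReal_mono h1).trans ?_
  rcases le_or_gt 2 N with h | h
  · have := ta_le_p2' c ((N : ℤ) - 1) ((N : ℤ) - 2) (N - 2)
      (by push_cast [Nat.cast_sub h]; linarith) (by push_cast [Nat.cast_sub h]; linarith)
    rwa [Nat.sub_sub] at this
  · rw [Nat.sub_eq_zero_of_le (by omega), p2_zero]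
    exact measureReal_le_one

/-- probability of two arms across an annulus around the origin -/
def P2a (s R : ℤ) : ℝ := nh.real (A2 (0, 0) s R)

theorem p2a_mono {s s' R R' : ℤ} (h1 : s ≤ s') (h2 : R' ≤ R) : P2a s R ≤ P2a s' R' :=
  measureReal_mono (A2_mono h1 h2)

theorem p2a_nonneg (s R : ℤ) : 0 ≤ P2a s R := measureReal_nonneg

theorem p2a_le_one (s R : ℤ) : P2a s R ≤ 1 := measureReal_le_one



end Crest.Agent.R158.Zs110
end
end

-- ▼ part R158/Zs3_110

/-!
# Row 158, BLOCK Z (helper110): generic forms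

* `Z1_abs` : `G` adapted: `|∫ G (-1)^{N0} 1[c ∉ Mk]| ≤ 2 ∫ |G| Pv 1[c ∉ Mk]`
* `Z1_sg`  : the same with the type `sg z c`
* `W_adp`  : `W m` is adapted for neutral `m` off the box
* `XA N s` : a revealed edge within distance `s - 2` of the origin; local, `⊆ A2 (0,0) s (N-1)`;
  `pv_xa` : pointwise bound of `Pv`
-/

set_option autoImplicit false

noncomputable section

namespace Crest.Agent.R158.Zs110

open Crest.Agent.R161.Geo729 Crest.Agent.R161.Dual374
open Crest.Agent.R161.Tas682 (sd)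
open Crest.Agent.R158.It200 Crest.Agent.R158.Wf850
open Crest.Agent.R158.Rs689 (nu Dep)
open Crest.Agent.R158.Fr158 (bx mem_bx mem_bx_sd eIn mem_eIn)
open Crest.Agent.R158.Vx107 (mass tot Ntr Fw W fin_supp Fw_zero)
open Crest.Agent.R158.Ax107 (p2 p2_nonneg p2_le_one)
open Crest.Agent.R158.Zr110 hiding AllFin ae_fin
open MeasureTheory

variable {M : Set Edge}

open Classical in
/-- **Z1, absolute form** -/
theorem Z1_abs (hM : Mᶜ.Finite) (hGd : ∀ z, Gd M z) {G : Cfz → ℝ} (hG : Adp M G)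
    (hGi : Integrable G nh) (c : Corner) :
    |∫ z, G z * (if c ∉ Mk M z then ((-1 : ℝ) ^ N0 M z c) else 0) ∂nh| ≤
      2 * ∫ z, |G z| * (if c ∉ Mk M z then Pv M c z else 0) ∂nh := by
  rw [Z1_int hM hG hGi c]
  have hb : ∀ z, |G z * (if c ∉ Mk M z then
      ∫ y, ((-1 : ℝ) ^ N0 M (mix (Xe M z) z y) c) ∂nh else 0)| ≤
      2 * (|G z| * (if c ∉ Mk M z then Pv M c z else 0)) := by
    intro z
    by_cases hc : c ∉ Mk M z
    · rw [if_pos hc, if_pos hc]
      obtain ⟨g1, g2⟩ := Z1 hM (hGd z) hc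
      rw [abs_mul, abs_of_nonneg g1]
      have : |G z| * (∫ y, ((-1 : ℝ) ^ N0 M (mix (Xe M z) z y) c) ∂nh) ≤
          |G z| * (2 * Pv M c z) := mul_le_mul_of_nonneg_left g2 (abs_nonneg _)
      linarith
    · rw [if_neg hc, if_neg hc, mul_zero, mul_zero, abs_zero, mul_zero]
  have hmf : Measurable fun z : Cfz => (if c ∉ Mk M z then Pv M c z else 0) := by
    refine Measurable.ite ?_ (meas_pv hM c) measurable_const
    exact meas_un hM c
  have hri : Integrable (fun z => 2 * (|G z| * (if c ∉ Mk M z then Pv M c z else 0))) nh := by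
    refine Integrable.const_mul ?_ _
    refine hGi.abs.mul_bdd (c := 1) hmf.aestronglyMeasurable
      (Filter.Eventually.of_forall fun z => ?_)
    rw [Real.norm_eq_abs]
    by_cases hc : c ∉ Mk M z
    · rw [if_pos hc, abs_of_nonneg (pv_nonneg c z)]; exact pv_le_one c z
    · rw [if_neg hc]; simp
  refine (abs_integral_le_integral_abs).trans ?_
  rw [← integral_const_mul]
  exact integral_mono_of_nonneg (Filter.Eventually.of_forall fun z => abs_nonneg _) hri
    (Filter.Eventually.of_forall hb)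

theorem col_dep {z z' : Cfz} (h : ∀ e ∈ Mᶜ, z e = z' e) (c : Corner) : col M z c = col M z' c := by
  unfold col HN JN
  rw [mk_dep h]

open Classical in
/-- **Z1 with the type of the strand** -/
theorem Z1_sg (hM : Mᶜ.Finite) (hGd : ∀ z, Gd M z) {G : Cfz → ℝ} (hG : Adp M G)
    (hGi : Integrable G nh) (c : Corner) :
    |∫ z, G z * (if c ∉ Mk M z then (sg z c : ℝ) else 0) ∂nh| ≤
      2 * ∫ z, |G z| * (if c ∉ Mk M z then Pv M c z else 0) ∂nh := by
  have hA : Adp M (fun z => G z * (col M z c : ℝ)) := by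
    intro z z' h
    simp only
    rw [hG z z' h, col_congr h]
  have hmc : Measurable fun z : Cfz => ((col M z c : ℤ) : ℝ) :=
    meas_of_fin hM fun z z' h => by rw [col_dep h]
  have hcol : ∀ z, ((col M z c : ℤ) : ℝ) = 1 ∨ ((col M z c : ℤ) : ℝ) = -1 := by
    intro z
    rcases par_pm (HN M z c.1) with h | h
    · left; unfold col; rw [h]; norm_num
    · right; unfold col; rw [h]; norm_num
  have hI : Integrable (fun z => G z * (col M z c : ℝ)) nh := by
    refine hGi.mul_bdd (c := 1) hmc.aestronglyMeasurable (Filter.Eventually.of_forall fun z => ?_)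
    rcases hcol z with h | h <;> rw [h] <;> norm_num
  have h1 := Z1_abs hM hGd hA hI c
  have e1 : ∀ z, G z * (col M z c : ℝ) * (if c ∉ Mk M z then ((-1 : ℝ) ^ N0 M z c) else 0) =
      G z * (if c ∉ Mk M z then (sg z c : ℝ) else 0) := by
    intro z
    by_cases hc : c ∉ Mk M z
    · rw [if_pos hc, if_pos hc, mul_assoc]
      congr 1
      have h2 : (((-1) ^ N0 M z c : ℤ) : ℝ) = ((col M z c * sg z c : ℤ) : ℝ) := by
        rw [parity hM hc]
      push_cast at h2
      rw [h2, ← mul_assoc]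
      rcases hcol z with h | h <;> rw [h] <;> ring
    · rw [if_neg hc, if_neg hc, mul_zero, mul_zero]
  have e2 : ∀ z, |G z * (col M z c : ℝ)| = |G z| := by
    intro z
    rw [abs_mul]
    rcases hcol z with h | h <;> rw [h] <;> simp
  simp only [e1, e2] at h1
  exact h1

/-! ### adapted weights -/

/-- only the marked loops carry mass -/
theorem W_ml {x : P2} {N : ℤ} {m : Face →₀ ℝ} (hm : Ntr m) (hoff : ∀ f ∈ BF x N, m f = 0)
    (z : Cfz) : W m z = ∏ᶠ A ∈ ML (Mo x N) z, Fw (mass m A) := by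
  have h1 : Lps z = ML (Mo x N) z ∪ UL (Mo x N) z := by
    ext A
    constructor
    · intro h
      by_cases h3 : MkA (Mo x N) A
      · exact Or.inl ⟨h, h3⟩
      · exact Or.inr ⟨h, h3⟩
    · rintro (h | h)
      · exact h.1
      · exact h.1
  have hd : Disjoint (ML (Mo x N) z) (UL (Mo x N) z) :=
    Set.disjoint_left.2 fun _ h h' => h'.2 h.2
  have hs1 : ML (Mo x N) z ⊆ Lps z := fun _ h => h.1
  have hs2 : UL (Mo x N) z ⊆ Lps z := fun _ h => h.1
  unfold W
  rw [h1, finprod_mem_union' hd (fin_supp hm hs1) (fin_supp hm hs2)]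
  have h2 : ∏ᶠ A ∈ UL (Mo x N) z, Fw (mass m A) = 1 := by
    refine finprod_mem_of_eqOn_one fun A hA => ?_
    show Fw (mass m A) = 1
    rw [mass_off hoff (ul_box hA), Fw_zero]
  rw [h2, mul_one]

/-- **the weight of charges off the box is adapted** -/
theorem W_adp {x : P2} {N : ℤ} {m : Face →₀ ℝ} (hm : Ntr m) (hoff : ∀ f ∈ BF x N, m f = 0) :
    Adp (Mo x N) (W m) := by
  intro z z' h
  rw [W_ml hm hoff, W_ml hm hoff, ml_congr h]

/-! ### local events -/

/-- a revealed edge near the origin -/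
def XA (N s : ℤ) : Set Cfz := {z | ∃ e ∈ Xe (Mo (0, 0) N) z, sd (0, 0) (src e) + 2 ≤ s}


theorem xa_sub (N s : ℤ) : XA N s ⊆ A2 (0, 0) s (N - 1) := by
  rintro z ⟨e, he, h⟩
  exact A2_mono h le_rfl (xe_arms he)

theorem mo_compl_sub (x : P2) (N : ℤ) {e : Edge} (h : e ∉ Mo x N) : e ∈ eIn (bx x N) := by
  have h' : ¬ (N < sd x (src e) ∨ N < sd x (tgt e)) := h
  push Not at h'
  rw [mem_eIn, mem_bx_sd, mem_bx_sd]
  exact h'

/-- the revelation depends on the edges of the box -/
theorem xe_box {x : P2} {N : ℤ} {z z' : Cfz} (h : ∀ e ∈ eIn (bx x N), z e = z' e) :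
    Xe (Mo x N) z = Xe (Mo x N) z' :=
  xe_dep fun e he => h e (mo_compl_sub x N he)

theorem mk_box {x : P2} {N : ℤ} {z z' : Cfz} (h : ∀ e ∈ eIn (bx x N), z e = z' e) :
    Mk (Mo x N) z = Mk (Mo x N) z' :=
  mk_dep fun e he => h e (mo_compl_sub x N he)

theorem xa_dep (N s : ℤ) : Dep (eIn (bx (0, 0) N)) (XA N s) := by
  intro z z' h
  show (∃ e ∈ Xe (Mo (0, 0) N) z, _) ↔ (∃ e ∈ Xe (Mo (0, 0) N) z', _)
  rw [xe_box h]

theorem mk_dep_box (c : Corner) (N : ℤ) : Dep (eIn (bx (0, 0) N)) {z | c ∈ Mk (Mo (0, 0) N) z} := by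
  intro z z' h
  show c ∈ Mk (Mo (0, 0) N) z ↔ c ∈ Mk (Mo (0, 0) N) z'
  rw [mk_box h]

theorem meas_xa (N s : ℤ) : MeasurableSet (XA N s) := (xa_dep N s).measurableSet

theorem xa_le (N s : ℤ) : nh.real (XA N s) ≤ P2a s (N - 1) := measureReal_mono (xa_sub N s)

/-- **pointwise bound of `Pv` by local events** -/
theorem pv_xa (c : Corner) (N J : ℕ) (hc : sd (0, 0) c.1 ≤ 1) (z : Cfz) :
    Pv (Mo (0, 0) N) c z ≤ p2 (2 ^ J - 7) + ∑ j ∈ Finset.range (J + 1),
      p2 (2 ^ j - 8) * (XA N (2 ^ (j + 1))).indicator 1 z := by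
  classical
  have hsub : {y | ¬ Disjoint (Ve y c) (Xe (Mo (0, 0) N) z)} ⊆
      YY c ((2 ^ J : ℕ) : ℤ) ∪ ⋃ j ∈ (Finset.range (J + 1)).filter
        (fun j => z ∈ XA N (2 ^ (j + 1))), YY c ((2 ^ j - 1 : ℕ) : ℤ) := by
    intro y hy
    rw [Set.mem_ofPred_eq, Set.not_disjoint_iff] at hy
    obtain ⟨e, he, hX⟩ := hy
    have h0 : 0 ≤ sd (0, 0) (src e) := sd_nonneg' _ _
    obtain ⟨k, hk⟩ := Int.eq_ofNat_of_zero_le h0
    rcases le_or_gt (2 ^ J) k with h1 | h1
    · left
      refine ⟨e, he, ?_⟩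
      rw [hk]
      exact_mod_cast h1
    · right
      have h2 : 2 ^ Nat.log 2 (k + 1) ≤ k + 1 := Nat.pow_log_le_self 2 (by omega)
      have h3 : k + 1 < 2 ^ (Nat.log 2 (k + 1) + 1) := Nat.lt_pow_succ_log_self (by norm_num) _
      have h4 : Nat.log 2 (k + 1) ≤ J := by
        by_contra hcon
        push Not at hcon
        have : 2 ^ (J + 1) ≤ 2 ^ Nat.log 2 (k + 1) := Nat.pow_le_pow_right (by norm_num) hcon
        rw [pow_succ] at this
        omega
      rw [Set.mem_iUnion₂]
      refine ⟨Nat.log 2 (k + 1), ?_, e, he, ?_⟩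
      · rw [Finset.mem_filter, Finset.mem_range]
        refine ⟨by omega, e, hX, ?_⟩
        rw [hk]
        have : ((k + 1 : ℕ) : ℤ) < ((2 ^ (Nat.log 2 (k + 1) + 1) : ℕ) : ℤ) := by exact_mod_cast h3
        push_cast at this ⊢
        linarith
      · rw [hk]
        have : 2 ^ Nat.log 2 (k + 1) - 1 ≤ k := by omega
        exact_mod_cast this
  unfold Pv
  refine (measureReal_mono hsub).trans ((measureReal_union_le _ _).trans ?_)
  refine add_le_add (yy_le c (2 ^ J) hc) ?_
  refine (measureReal_biUnion_finset_le _ _).trans ?_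
  rw [Finset.sum_filter]
  refine Finset.sum_le_sum fun j _ => ?_
  split_ifs with h
  · rw [Set.indicator_of_mem h, Pi.one_apply, mul_one]
    have := yy_le c (2 ^ j - 1) hc
    rwa [Nat.sub_sub] at this
  · rw [Set.indicator_of_notMem h, mul_zero]

end Crest.Agent.R158.Zs110
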