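import Crest.Agent.R158.Bs2_410
import Crest.Agent.R158.Top4_772
import Crest.Agent.R158.Sh3_158_Mg
import Crest.Agent.R158.Zs4_110
import Crest.Agent.R158.Lb5_841
import Crest.Agent.R158.Mc7_468
import Crest.Agent.R158.Bf1_109_Mg
import Crest.Agent.R158.Ud6_107
import Crest.Agent.R158.Uc4_31
import Crest.Agent.R158.Vg1_109
import Crest.Agent.R158.Bk10_430
import Crest.Agent.R158.Ax2_107
import Crest.Agent.R158.Wf9_850
import Crest.Agent.R158.Sp4_580
import Crest.Agent.R158.Fd5_61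
import Crest.Agent.R158.Zs3_110
import Crest.Agent.R158.Vx7_107
import Crest.Agent.R158.Mc2_468
import Crest.Agent.R158.Cpl2_963
import Crest.Agent.R158.Wf0_850
import Crest.Agent.R158.Ac1_109

-- ▼ part R158/Sc4_689
section

/-!
# Row 158, Block SEP2 (helper689): `QM2`

* `sep2_ok : Sep2` (from 158's `sep2`)
* `qm2 : Zs110.QM2`
-/

set_option autoImplicit false

noncomputable section

namespace Crest.Agent.R158.Sc689

open Filter MeasureTheory ProbabilityTheory unitInterval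
open Crest.Agent.R158.Rs689 Crest.Agent.R158.Sp580 Crest.Agent.R158.Sb689
open Crest.Agent.R158.Ax107 (p2 p2_anti p2_nonneg p2_le_one P2ev)

theorem sep2_ok : Sep2 := by
  intro c hc
  obtain ⟨K, -, hK⟩ := Sh158.sep2 hc
  exact ⟨K, fun p j hp => hK p j
    (hp.mono (Nat.pow_le_pow_right (by norm_num) (by omega))) (0, 0) nr0⟩

/-- **quasi-multiplicativity of two arms** -/
theorem qm2 : Zs110.QM2 := by
  intro ε hε
  obtain ⟨C, hC1, hC⟩ := p2_dbl sep2_ok
  obtain ⟨k0, hk0⟩ := qm2_aux sep2_ok (ε / 2) (by positivity)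
  refine ⟨max k0 4, 4, ?_⟩
  have htend : Tendsto (fun n : ℕ => (n : ℝ) ^ (ε / 2)) atTop atTop :=
    (tendsto_rpow_atTop (by positivity)).comp tendsto_natCast_atTop_atTop
  filter_upwards [hk0, htend.eventually_ge_atTop (C * C), eventually_ge_atTop 1] with n h1 h2 hn
    k l hk hkl hl
  have hn0 : (0 : ℝ) < n := by exact_mod_cast hn
  have hk4 : 4 ≤ k := (le_max_right _ _).trans hk
  have h3 := h1 (4 * k) l (by have := (le_max_left k0 4).trans hk; omega) hkl hl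
  have h4 : p2 k ≤ C * C * p2 (4 * k) := by
    have h5 := hC k hk4
    have h6 := hC (2 * k) (by omega)
    rw [show 2 * (2 * k) = 4 * k by ring] at h6
    calc p2 k ≤ C * p2 (2 * k) := h5
      _ ≤ C * (C * p2 (4 * k)) := mul_le_mul_of_nonneg_left h6 (by linarith)
      _ = C * C * p2 (4 * k) := by ring
  have h7 : Zs110.P2a (4 * (k : ℤ)) l =
      (nu Rs689.hf).real (An2 ((4 * k : ℕ) : ℤ) (l : ℤ)) := by
    push_cast
    rfl
  rw [h7]
  calc p2 k * (nu Rs689.hf).real (An2 ((4 * k : ℕ) : ℤ) (l : ℤ))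
      ≤ (C * C * p2 (4 * k)) * (nu Rs689.hf).real (An2 ((4 * k : ℕ) : ℤ) (l : ℤ)) :=
        mul_le_mul_of_nonneg_right h4 measureReal_nonneg
    _ = (C * C) * (p2 (4 * k) * (nu Rs689.hf).real (An2 ((4 * k : ℕ) : ℤ) (l : ℤ))) := by ring
    _ ≤ (C * C) * ((n : ℝ) ^ (ε / 2) * p2 l) := mul_le_mul_of_nonneg_left h3 (by nlinarith)
    _ ≤ (n : ℝ) ^ (ε / 2) * ((n : ℝ) ^ (ε / 2) * p2 l) :=
        mul_le_mul_of_nonneg_right h2
          (mul_nonneg (Real.rpow_nonneg hn0.le _) (p2_nonneg l))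
    _ = (n : ℝ) ^ ε * p2 l := by
        rw [← mul_assoc, ← Real.rpow_add hn0]
        congr 2
        ring

end Crest.Agent.R158.Sc689
end
end

-- ▼ part R158/Lb6_841
section

/-!
# R158, leaf LB3 of doc 1912 (helper841), part 6: the final form

* `Arith` : helper468's arithmetic
* `LB3`, `lb3_of`
-/

set_option autoImplicit false

noncomputable section

namespace Crest.Agent.R158.Lb841

open Crest.Agent.R161.Geo729 Crest.Agent.R161.Dual374
open Crest.Agent.R161.Tas682 (sd)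
open Crest.Agent.R158.It200 Crest.Agent.R158.Wf850
open Crest.Agent.R158.Rs689 (nu hf)
open Crest.Agent.R158.Gx31
open Real Function MeasureTheory Filter

/-- the arithmetic of LB3 (helper468) -/
def Arith : Prop := ∀ ε : ℝ, 0 < ε → ∃ τ0 : ℝ, 0 < τ0 ∧ τ0 < 1 / 2 ∧ ∀ τ : ℝ, 0 < τ → τ ≤ τ0 →
  ∃ δ : ℝ, 0 < δ ∧ δ < 1 ∧ ∀ C : ℝ, 1 ≤ C → ∀ᶠ j : ℕ in atTop,
    Par (2 ^ j) (rr τ (2 ^ j)) (RR τ (2 ^ j)) ∧ ∀ e : Edge, src e = (0, 0) → ∃ s t : Bool,
      ((256 * 2 ^ j : ℕ) : ℝ) ^ (-ε) * (nu hf).real (Sp580.A4 e (4 * 2 ^ j)) ≤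
        (nu hf).real (Mc468.MainE e (2 ^ j) (rr τ (2 ^ j)) (RR τ (2 ^ j)) s t) ^ (1 + δ) / C -
          C * (nu hf).real (BAD e (2 ^ j) (rr τ (2 ^ j)) (RR τ (2 ^ j))) ^ (1 - δ)

/-- **LB3** : the lower bound of identity C -/
def LB3 : Prop := ∀ ε : ℝ, 0 < ε → ∃ τ0 : ℝ, 0 < τ0 ∧ τ0 < 1 / 2 ∧ ∀ τ : ℝ, 0 < τ → τ ≤ τ0 →
  ∀ᶠ j : ℕ in atTop, Uc31.Geo (256 * 2 ^ j) (rr τ (2 ^ j)) (RR τ (2 ^ j)) ∧
    ∀ e : Edge, src e = (0, 0) →
      ((256 * 2 ^ j : ℕ) : ℝ) ^ (-ε) * Uc31.WC (256 * 2 ^ j) (-1) *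
        (nu hf).real (Sp580.A4 e (4 * 2 ^ j)) ≤
      ∫ z, Vn841.nab (Uc31.mC (256 * 2 ^ j) (rr τ (2 ^ j)) (RR τ (2 ^ j)) (-1) (0, 0)) z e ∂(nu hf)

theorem lb3_of (h : Arith) : LB3 := by
  intro ε hε
  obtain ⟨c, hc, hconv⟩ := lin_conv
  obtain ⟨τ1, h1, h1', harith⟩ := h (ε / 2) (by linarith)
  refine ⟨min τ1 (ε / (8 * (c + 1))), lt_min h1 (by positivity), (min_le_left _ _).trans_lt h1',
    fun τ hτ hτ0 => ?_⟩
  have hτ1 : τ ≤ τ1 := hτ0.trans (min_le_left _ _)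
  have hτ2 : τ ≤ ε / (8 * (c + 1)) := hτ0.trans (min_le_right _ _)
  obtain ⟨δ, hδ0, hδ1, hC⟩ := harith τ hτ hτ1
  obtain ⟨C, hC1, hlb⟩ := LB3n hδ0 hδ1
  have hsm : 2 * τ * c ≤ ε / 2 / 2 := by
    rw [le_div_iff₀ (by positivity)] at hτ2
    nlinarith
  filter_upwards [hC C hC1, conv_small hc (half_pos hε) hτ (hτ1.trans_lt h1') hsm] with j hj hcs
  obtain ⟨hpar, hj⟩ := hj
  refine ⟨hpar.geo, fun e he => ?_⟩
  obtain ⟨s, t, hst⟩ := hj e he
  have k1 := hlb _ _ _ hpar e he s t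
  refine le_trans ?_ k1
  rw [← lin_eq]
  have k2 := hconv _ _ _ hpar
  set n : ℝ := ((256 * 2 ^ j : ℕ) : ℝ) with hn
  have hn0 : (0 : ℝ) < n := by
    rw [hn]
    exact_mod_cast (by have := Nat.one_le_two_pow (n := j); omega : 0 < 256 * 2 ^ j)
  have hP : 0 ≤ (nu hf).real (Sp580.A4 e (4 * 2 ^ j)) := measureReal_nonneg
  have hW := Uc31.WC_pos (256 * 2 ^ j) (-1)
  have e1 : n ^ (-ε) = n ^ (-(ε / 2)) * n ^ (-(ε / 2)) := by
    rw [← rpow_add hn0]; congr 1; ring
  calc n ^ (-ε) * Uc31.WC (256 * 2 ^ j) (-1) * (nu hf).real (Sp580.A4 e (4 * 2 ^ j))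
      = (Uc31.WC (256 * 2 ^ j) (-1) * n ^ (-(ε / 2))) *
          (n ^ (-(ε / 2)) * (nu hf).real (Sp580.A4 e (4 * 2 ^ j))) := by rw [e1]; ring
    _ ≤ exp (-Lin aC (kC (rr τ (2 ^ j)) (RR τ (2 ^ j)))) *
          ((nu hf).real (Mc468.MainE e (2 ^ j) (rr τ (2 ^ j)) (RR τ (2 ^ j)) s t) ^ (1 + δ) / C -
          C * (nu hf).real (BAD e (2 ^ j) (rr τ (2 ^ j)) (RR τ (2 ^ j))) ^ (1 - δ)) := by
        refine mul_le_mul ?_ hst (by positivity) (exp_pos _).le
        exact (mul_le_mul_of_nonneg_left hcs hW.le).trans k2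

end Crest.Agent.R158.Lb841
end
end

-- ▼ part R158/Top5_772
section

/-!
# Row 158 (helper772, integration of S0235 + S0236), part 5: state of Nov 16, 23:15

* `sb_law` : `SB p2` from `Bs410.Law3` (identity B)
* `sd_law` : `SD p2 p4` from `DRight` (identity D, right side)
* `both6`  : S0235 and S0236 from `Bs410.Law3`, `SC p2 p4`, `DRight`
-/

set_option autoImplicit false

noncomputable section

namespace Crest.Agent.R158.Top772

open MeasureTheory Filter Topology unitInterval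
open Crest.Agent.R158.Ax107

/-- lower bound of two arms -/
theorem sb_law (hLaw : Bs410.Law3) : SB p2 :=
  Bf109.sb_of_hyp B612.main_est (hypW_main hLaw)

/-- `SD` from the right side of identity D -/
theorem sd_law (hLaw : Bs410.Law3) (hR : Ud107.DRight) : SD p2 p4 :=
  Ud107.sd_of_right (HD_main (hypW_main hLaw)) (E2_main (hypW_main hLaw)) hR

/-- both statements from the leaves open on Nov 16, 23:15 -/
theorem both6 (hLaw : Bs410.Law3) (hC : SC p2 p4) (hR : Ud107.DRight) : St235 ∧ St236 :=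
  both4 hLaw (sb_law hLaw) hC (sd_law hLaw hR)

end Crest.Agent.R158.Top772
end
end

-- ▼ part R158/Uc6_31
section

/-!
# Row 158, Block A4 (helper31), closing of `SC` (upper bound of four arms by two arms)

* `LB3P`  : the operator lower bound (841 / 468), as a `Prop`
* `core`  : the real-variable argument
* `sc_of` : `LB3P → Vg109.HD → QM2 → SB p2 → SC p2 p4`
* `sc_law` : `LB3P → Bs410.Law3 → QM2 → SB p2 → SC p2 p4`
-/

set_option autoImplicit false

noncomputable section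

namespace Crest.Agent.R158.Uc31

open Real Function MeasureTheory Filter Topology
open Crest.Agent.R161.Tas682 (sd)
open Crest.Agent.R161.Geo729
open Crest.Agent.R158.It200 (Cfz Corner fc i1 i2 o1 o2)
open Crest.Agent.R158.Vn841 (Xs nab)
open Crest.Agent.R158.Cn109 (VV)
open Crest.Agent.R158.Rs689 (nu hf)
open Crest.Agent.R158.Ax107 (p2 p4 SB SC p2_nonneg p2_le_one p2_anti p4_nonneg p4_le_one A4_prob)
open Crest.Agent.R158.Zs110 (QM2 UB3b p2_pos)

/-- the standard edge -/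
def e00 : Edge := ((0, 0), false)

/-- **the operator lower bound** -/
def LB3P : Prop := ∀ ε : ℝ, 0 < ε → ∀ κ : ℝ, 0 < κ → ∀ᶠ j : ℕ in atTop, ∃ r R : ℕ,
  Geo (256 * 2 ^ j) r R ∧ (R : ℝ) ≤ ((256 * 2 ^ j : ℕ) : ℝ) ^ κ * r ∧
  ((256 * 2 ^ j : ℕ) : ℝ) ^ (-ε) * WC (256 * 2 ^ j) (-1) *
      (nu hf).real (Sp580.A4 e00 ((4 * 2 ^ j : ℕ) : ℤ)) ≤
    ∫ z, nab (mC (256 * 2 ^ j) r R (-1) (0, 0)) z e00 ∂(nu hf)

/-- the real-variable argument -/
theorem core {ε C D N x y w u : ℝ} (he : 0 < ε) (he1 : ε ≤ 1 / 20) (hC : 1 ≤ C) (hD : 1 ≤ D)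
    (hN : 1 ≤ N) (hx0 : 0 ≤ x) (hw : 0 < w)
    (hy0 : 0 < y) (hy : N ^ (-1 : ℝ) ≤ y)
    (hw2 : w ^ 2 ≤ D * N ^ (-1 + ε)) (huC : u ^ C ≤ N ^ ε)
    (hbig : 20 * C * D ≤ N ^ ε)
    (h : N ^ (-ε) * w⁻¹ * x ≤ C * u ^ C * w * x ^ (1 - ε) +
      4 * (C * u ^ C * w * N ^ ε * y ^ (1 - ε))) :
    x ≤ N ^ (-1 + 10 * ε) * y := by
  have hN0 : 0 < N := by linarith
  have hpow : ∀ a b : ℝ, a ≤ b → N ^ a ≤ N ^ b := fun a b hab =>
    Real.rpow_le_rpow_of_exponent_le hN hab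
  by_cases hc : x ≤ N ^ (-2 : ℝ)
  · calc x ≤ N ^ (-2 : ℝ) := hc
      _ ≤ N ^ (-1 + 10 * ε) * N ^ (-1 : ℝ) := by
          rw [← Real.rpow_add hN0]
          exact hpow _ _ (by linarith)
      _ ≤ N ^ (-1 + 10 * ε) * y :=
          mul_le_mul_of_nonneg_left hy (Real.rpow_nonneg hN0.le _)
  · push Not at hc
    have hx : 0 < x := lt_of_lt_of_le (Real.rpow_pos_of_pos hN0 _) hc.le
    have gen : ∀ t a : ℝ, 0 < t → N ^ (-a) ≤ t → t ^ (1 - ε) ≤ t * N ^ (a * ε) := by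
      intro t a ht h1
      rw [sub_eq_add_neg, Real.rpow_add ht, Real.rpow_one]
      refine mul_le_mul_of_nonneg_left ?_ ht.le
      calc t ^ (-ε) ≤ (N ^ (-a)) ^ (-ε) :=
            Real.rpow_le_rpow_of_nonpos (Real.rpow_pos_of_pos hN0 _) h1 (by linarith)
        _ = N ^ (a * ε) := by rw [← Real.rpow_mul hN0.le]; congr 1; ring
    have hx1 := gen x 2 hx hc.le
    have hy1 := gen y 1 hy0 hy
    have hCu : C * u ^ C ≤ C * N ^ ε := mul_le_mul_of_nonneg_left huC (by linarith)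
    have hCN : 0 ≤ C * N ^ ε := by positivity
    -- multiply by `N ^ ε * w`
    have h2 : x ≤ N ^ ε * w ^ 2 * (C * N ^ ε * (x * N ^ (2 * ε)) +
        4 * (C * N ^ ε * N ^ ε * (y * N ^ (1 * ε)))) := by
      have h3 : x = N ^ ε * w * (N ^ (-ε) * w⁻¹ * x) := by
        rw [Real.rpow_neg hN0.le]
        field_simp
      have h4 : C * u ^ C * w * x ^ (1 - ε) ≤ w * (C * N ^ ε * (x * N ^ (2 * ε))) := by
        calc C * u ^ C * w * x ^ (1 - ε) = w * (C * u ^ C * x ^ (1 - ε)) := by ring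
          _ ≤ w * (C * N ^ ε * (x * N ^ (2 * ε))) :=
              mul_le_mul_of_nonneg_left (mul_le_mul hCu hx1 (Real.rpow_nonneg hx.le _) hCN) hw.le
      have h5 : C * u ^ C * w * N ^ ε * y ^ (1 - ε) ≤
          w * (C * N ^ ε * N ^ ε * (y * N ^ (1 * ε))) := by
        calc C * u ^ C * w * N ^ ε * y ^ (1 - ε) = w * (C * u ^ C * N ^ ε * y ^ (1 - ε)) := by ring
          _ ≤ w * (C * N ^ ε * N ^ ε * (y * N ^ (1 * ε))) := by
              refine mul_le_mul_of_nonneg_left ?_ hw.le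
              exact mul_le_mul (mul_le_mul_of_nonneg_right hCu (Real.rpow_nonneg hN0.le _)) hy1
                (Real.rpow_nonneg hy0.le _) (mul_nonneg hCN (Real.rpow_nonneg hN0.le _))
      have hm : 0 ≤ N ^ ε * w := mul_nonneg (Real.rpow_nonneg hN0.le _) hw.le
      calc x = N ^ ε * w * (N ^ (-ε) * w⁻¹ * x) := h3
        _ ≤ N ^ ε * w * (w * (C * N ^ ε * (x * N ^ (2 * ε))) +
            4 * (w * (C * N ^ ε * N ^ ε * (y * N ^ (1 * ε))))) :=
            mul_le_mul_of_nonneg_left (h.trans (add_le_add h4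
              (mul_le_mul_of_nonneg_left h5 (by norm_num)))) hm
        _ = _ := by ring
    have h6 : x ≤ C * D * N ^ (-1 + 5 * ε) * x + 4 * (C * D * N ^ (-1 + 5 * ε) * y) := by
      have h7 : 0 ≤ C * N ^ ε * (x * N ^ (2 * ε)) +
          4 * (C * N ^ ε * N ^ ε * (y * N ^ (1 * ε))) := by
        have a1 : 0 ≤ N ^ ε := Real.rpow_nonneg hN0.le _
        have a2 : 0 ≤ N ^ (2 * ε) := Real.rpow_nonneg hN0.le _
        have a3 : 0 ≤ N ^ (1 * ε) := Real.rpow_nonneg hN0.le _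
        have a4 : 0 ≤ C := by linarith
        positivity
      have h8 : x ≤ N ^ ε * (D * N ^ (-1 + ε)) * (C * N ^ ε * (x * N ^ (2 * ε)) +
          4 * (C * N ^ ε * N ^ ε * (y * N ^ (1 * ε)))) :=
        h2.trans (mul_le_mul_of_nonneg_right
          (mul_le_mul_of_nonneg_left hw2 (Real.rpow_nonneg hN0.le _)) h7)
      refine h8.trans (le_of_eq ?_)
      have e1 : N ^ ε * N ^ (-1 + ε) * (N ^ ε * N ^ (2 * ε)) = N ^ (-1 + 5 * ε) := by
        rw [← Real.rpow_add hN0, ← Real.rpow_add hN0, ← Real.rpow_add hN0]; congr 1; ring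
      have e2 : N ^ ε * N ^ (-1 + ε) * (N ^ ε * N ^ ε * N ^ (1 * ε)) = N ^ (-1 + 5 * ε) := by
        rw [← Real.rpow_add hN0, ← Real.rpow_add hN0, ← Real.rpow_add hN0, ← Real.rpow_add hN0]
        congr 1; ring
      calc N ^ ε * (D * N ^ (-1 + ε)) * (C * N ^ ε * (x * N ^ (2 * ε)) +
            4 * (C * N ^ ε * N ^ ε * (y * N ^ (1 * ε))))
          = C * D * (N ^ ε * N ^ (-1 + ε) * (N ^ ε * N ^ (2 * ε))) * x +
            4 * (C * D * (N ^ ε * N ^ (-1 + ε) * (N ^ ε * N ^ ε * N ^ (1 * ε))) * y) := by ring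
        _ = _ := by rw [e1, e2]
    have hCD : 0 ≤ C * D := by positivity
    have h9 : C * D * N ^ (-1 + 5 * ε) ≤ 1 / 2 := by
      have b1 : N ^ ε * N ^ (-1 + 5 * ε) ≤ 1 := by
        rw [← Real.rpow_add hN0]
        calc N ^ (ε + (-1 + 5 * ε)) ≤ N ^ (0 : ℝ) := hpow _ _ (by linarith)
          _ = 1 := Real.rpow_zero _
      have b2 : 0 ≤ N ^ (-1 + 5 * ε) := Real.rpow_nonneg hN0.le _
      nlinarith
    have h10 : x ≤ 8 * (C * D * N ^ (-1 + 5 * ε) * y) := by nlinarith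
    calc x ≤ 8 * (C * D * N ^ (-1 + 5 * ε) * y) := h10
      _ = 8 * (C * D) * (N ^ (-1 + 5 * ε) * y) := by ring
      _ ≤ N ^ ε * (N ^ (-1 + 5 * ε) * y) := by
          refine mul_le_mul_of_nonneg_right (by nlinarith) ?_
          exact mul_nonneg (Real.rpow_nonneg hN0.le _) hy0.le
      _ = N ^ (-1 + 6 * ε) * y := by
          rw [← mul_assoc, ← Real.rpow_add hN0]; congr 2; ring
      _ ≤ N ^ (-1 + 10 * ε) * y := by
          refine mul_le_mul_of_nonneg_right (hpow _ _ (by linarith)) hy0.le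


/-- the order of magnitude is `n ^ (-1/2)` -/
theorem WC_sq (hD : Vg109.HD) {e : ℝ} (he : 0 < e) : ∃ D : ℝ, 1 ≤ D ∧ ∀ n : ℕ, 1 ≤ n →
    WC n 1 ^ 2 ≤ D * (n : ℝ) ^ (-1 + e) := by
  have h3 : 0 < √(3 : ℝ) := Real.sqrt_pos.2 (by norm_num)
  have h3p : 0 < 2 * √3 * π := by have := pi_pos; positivity
  obtain ⟨K, hK, hV⟩ := Vg109.VV_log hD (e := e / (2 * √3 * π)) (div_pos he h3p)
  refine ⟨exp (2 * √3 * π * K), ?_, fun n hn => ?_⟩
  · exact Real.one_le_exp (mul_nonneg h3p.le hK)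
  · have hn0 : (0 : ℝ) < n := by exact_mod_cast hn
    have h1 := (abs_le.1 (hV n hn)).1
    have h2 : Vg109.den * log n - (e / (2 * √3 * π) * log n + K) ≤ VV (Nat.log 2 n) := by
      linarith
    have h4 : 2 * √3 * π * (Vg109.den * log n - (e / (2 * √3 * π) * log n + K)) =
        log n - e * log n - 2 * √3 * π * K := by
      unfold Vg109.den
      field_simp
      ring
    have h5 := mul_le_mul_of_nonneg_left h2 h3p.le
    rw [h4] at h5
    unfold WC
    rw [← Real.exp_nat_mul, Real.rpow_def_of_pos hn0, ← Real.exp_add]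
    refine Real.exp_le_exp.2 ?_
    push_cast
    nlinarith

theorem WC_neg (n : ℕ) : WC n (-1) = (WC n 1)⁻¹ := by
  unfold WC
  rw [← Real.exp_neg]
  congr 1
  ring

theorem sd_corners {c : Corner} (h : c = i1 e00 ∨ c = i2 e00 ∨ c = o1 e00 ∨ c = o2 e00) :
    sd (0, 0) c.1 ≤ 1 := by
  rcases h with rfl | rfl | rfl | rfl <;> simp [i1, i2, o1, o2, e00, sd]

/-- the identity `(X1)` at the standard edge -/
theorem x1_e00 {n r R : ℕ} (h : Geo n r R) :
    ∫ z, nab (mC n r R (-1) (0, 0)) z e00 ∂(nu hf) ≤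
      |∫ z, nab (mC n r R 1 (0, 0)) z e00 ∂(nu hf)| +
        (|∫ z, Xs (mu n r R) (i1 e00) z ∂(nu hf)| + |∫ z, Xs (mu n r R) (i2 e00) z ∂(nu hf)| +
          |∫ z, Xs (mu n r R) (o1 e00) z ∂(nu hf)| + |∫ z, Xs (mu n r R) (o2 e00) z ∂(nu hf)|) := by
  have ht : Vx107.tot (mu n r R) = π := tot_mu h.R1
  have h1 := Vx107.X1v Bk430.even_main ht e00 (0, 0) (0, 0)
  have e1 : mC n r R (-1) (0, 0) = -mu n r R + Finsupp.single (((0, 0) : P2), false) π := by
    unfold mC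
    rw [neg_one_smul, neg_one_mul, neg_neg]
  have e2 : mC n r R 1 (0, 0) = mu n r R + Finsupp.single (((0, 0) : P2), false) (-π) := by
    unfold mC
    rw [one_smul, one_mul]
  rw [e1, e2]
  have ht1 : 0 ≤ tan (π / 6) := by rw [Real.tan_pi_div_six]; positivity
  have ht2 : tan (π / 6) ≤ 1 := by
    rw [Real.tan_pi_div_six, div_le_one (Real.sqrt_pos.2 (by norm_num))]
    exact Real.one_le_sqrt.2 (by norm_num)
  have k0 := le_abs_self
    (∫ z, nab (mu n r R + Finsupp.single (((0, 0) : P2), false) (-π)) z e00 ∂(nu hf))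
  have k1 := le_abs_self (∫ z, Xs (mu n r R) (i1 e00) z ∂(nu hf))
  have k2 := le_abs_self (∫ z, Xs (mu n r R) (i2 e00) z ∂(nu hf))
  have k3 := le_abs_self (∫ z, Xs (mu n r R) (o1 e00) z ∂(nu hf))
  have k4 := le_abs_self (∫ z, Xs (mu n r R) (o2 e00) z ∂(nu hf))
  have p1 := abs_nonneg (∫ z, Xs (mu n r R) (i1 e00) z ∂(nu hf))
  have p2 := abs_nonneg (∫ z, Xs (mu n r R) (i2 e00) z ∂(nu hf))
  have p3 := abs_nonneg (∫ z, Xs (mu n r R) (o1 e00) z ∂(nu hf))
  have p4 := abs_nonneg (∫ z, Xs (mu n r R) (o2 e00) z ∂(nu hf))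
  have key : tan (π / 6) * (∫ z, Xs (mu n r R) (i1 e00) z ∂(nu hf) +
        ∫ z, Xs (mu n r R) (i2 e00) z ∂(nu hf) + ∫ z, Xs (mu n r R) (o1 e00) z ∂(nu hf) +
        ∫ z, Xs (mu n r R) (o2 e00) z ∂(nu hf)) ≤
      1 * (|∫ z, Xs (mu n r R) (i1 e00) z ∂(nu hf)| + |∫ z, Xs (mu n r R) (i2 e00) z ∂(nu hf)| +
        |∫ z, Xs (mu n r R) (o1 e00) z ∂(nu hf)| + |∫ z, Xs (mu n r R) (o2 e00) z ∂(nu hf)|) := by
    refine (mul_le_mul_of_nonneg_left (c := |∫ z, Xs (mu n r R) (i1 e00) z ∂(nu hf)| +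
      |∫ z, Xs (mu n r R) (i2 e00) z ∂(nu hf)| +
      |∫ z, Xs (mu n r R) (o1 e00) z ∂(nu hf)| + |∫ z, Xs (mu n r R) (o2 e00) z ∂(nu hf)|)
      (by linarith) ht1).trans ?_
    exact mul_le_mul_of_nonneg_right ht2 (by linarith)
  linarith

/-- one dyadic scale -/
theorem sc_dyadic (hX : LB3P) (hD : Vg109.HD) (hQ : QM2) (hB : SB p2) {ε : ℝ} (he : 0 < ε)
    (he1 : ε ≤ 1 / 20) : ∃ K : ℕ, 1 ≤ K ∧ ∀ᶠ j : ℕ in atTop,
      p4 (4 * 2 ^ j) ≤ ((256 * 2 ^ j : ℕ) : ℝ) ^ (-1 + 10 * ε) * p2 (256 * 2 ^ j / K) := by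
  obtain ⟨C1, hC1, h3a⟩ := UB3a he (by linarith : ε < 1)
  obtain ⟨C2, hC2, K, hK, h3b⟩ := UB3b hQ he (by linarith : ε < 1)
  obtain ⟨D, hD1, hW⟩ := WC_sq hD he
  set C : ℝ := max C1 C2 with hC
  have hC1' : C1 ≤ C := le_max_left _ _
  have hC2' : C2 ≤ C := le_max_right _ _
  have hC0 : 1 ≤ C := hC1.trans hC1'
  have hj : Tendsto (fun j : ℕ => 256 * 2 ^ j) atTop atTop :=
    Tendsto.const_mul_atTop' (by norm_num) (tendsto_pow_atTop_atTop_of_one_lt (by norm_num))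
  refine ⟨K, hK, ?_⟩
  filter_upwards [hX ε he (ε / C) (by positivity), hj.eventually h3b,
    hj.eventually (hB (3 / 4) (by norm_num)),
    hj.eventually (Ax107.ev_pow ε he (20 * C * D))] with j h1 h2 h3 h4
  obtain ⟨r, R, hg, hRr, hL⟩ := h1
  set n : ℕ := 256 * 2 ^ j with hn
  have hn1 : 1 ≤ n := by rw [hn]; have := Nat.one_le_two_pow (n := j); omega
  have hN : (1 : ℝ) ≤ n := by exact_mod_cast hn1
  have hr0 : (0 : ℝ) < r := by exact_mod_cast (by have := hg.r3; omega : 0 < r)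
  have hu : 1 ≤ (R : ℝ) / r := by
    rw [le_div_iff₀ hr0, one_mul]
    exact_mod_cast (by have := hg.rn; have := hg.nR; omega : r ≤ R)
  have hu2 : (R : ℝ) / r ≤ (n : ℝ) ^ (ε / C) := by rwa [div_le_iff₀ hr0]
  have huC : ((R : ℝ) / r) ^ C ≤ (n : ℝ) ^ ε := by
    calc ((R : ℝ) / r) ^ C ≤ ((n : ℝ) ^ (ε / C)) ^ C :=
          Real.rpow_le_rpow (by linarith) hu2 (by linarith)
      _ = (n : ℝ) ^ ε := by
          rw [← Real.rpow_mul (by linarith), div_mul_cancel₀ _ (by positivity)]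
  -- the two-arm lower bound
  have hy : (n : ℝ) ^ (-1 : ℝ) ≤ p2 (n / K) := by
    refine le_trans ?_ (p2_anti (Nat.div_le_self n K))
    have := h3
    rwa [show (-(1 / 4 : ℝ) - 3 / 4) = -1 by norm_num] at this
  -- the bounds
  have hw : 0 < WC n 1 := WC_pos _ _
  have hCu : ∀ c : ℝ, 1 ≤ c → c ≤ C → c * ((R : ℝ) / r) ^ c ≤ C * ((R : ℝ) / r) ^ C := by
    intro c hc hcC
    exact mul_le_mul hcC (Real.rpow_le_rpow_of_exponent_le hu hcC)
      (Real.rpow_nonneg (by linarith) _) (by linarith)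
  have hp4 : (nu hf).real (Sp580.A4 e00 ((4 * 2 ^ j : ℕ) : ℤ)) = p4 (4 * 2 ^ j) := rfl
  have hA : (nu hf).real (Sp580.A4 e00 (n / 4 : ℕ)) ≤ p4 (4 * 2 ^ j) := by
    rw [← hp4]
    refine measureReal_mono (Sp580.A4_anti ?_ ?_)
    · exact_mod_cast (by have := Nat.one_le_two_pow (n := j); omega : 1 ≤ 4 * 2 ^ j)
    · exact_mod_cast (by omega : 4 * 2 ^ j ≤ n / 4)
  have g1 : |∫ z, nab (mC n r R 1 (0, 0)) z e00 ∂(nu hf)| ≤
      C * ((R : ℝ) / r) ^ C * WC n 1 * p4 (4 * 2 ^ j) ^ (1 - ε) := by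
    refine (h3a n r R hg 1 (Or.inl rfl) e00 (0, 0) rfl (Or.inl rfl)).trans ?_
    refine mul_le_mul (mul_le_mul_of_nonneg_right (hCu C1 hC1 hC1') hw.le)
      (Real.rpow_le_rpow measureReal_nonneg hA (by linarith))
      (Real.rpow_nonneg measureReal_nonneg _) ?_
    exact mul_nonneg (mul_nonneg (by linarith) (Real.rpow_nonneg (by linarith) _)) hw.le
  have g2 : ∀ c : Corner, (c = i1 e00 ∨ c = i2 e00 ∨ c = o1 e00 ∨ c = o2 e00) →
      |∫ z, Xs (mu n r R) c z ∂(nu hf)| ≤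
        C * ((R : ℝ) / r) ^ C * WC n 1 * (n : ℝ) ^ ε * p2 (n / K) ^ (1 - ε) := by
    intro c hc
    refine (h2 r R hg c (sd_corners hc)).trans ?_
    refine mul_le_mul_of_nonneg_right (mul_le_mul_of_nonneg_right
      (mul_le_mul_of_nonneg_right (hCu C2 hC2 hC2') hw.le) (Real.rpow_nonneg (by linarith) _))
      (Real.rpow_nonneg (p2_nonneg _) _)
  have g3 := x1_e00 hg
  have i1' := g2 (i1 e00) (Or.inl rfl)
  have i2' := g2 (i2 e00) (Or.inr (Or.inl rfl))
  have o1' := g2 (o1 e00) (Or.inr (Or.inr (Or.inl rfl)))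
  have o2' := g2 (o2 e00) (Or.inr (Or.inr (Or.inr rfl)))
  have hfin : (n : ℝ) ^ (-ε) * (WC n 1)⁻¹ * p4 (4 * 2 ^ j) ≤
      C * ((R : ℝ) / r) ^ C * WC n 1 * p4 (4 * 2 ^ j) ^ (1 - ε) +
      4 * (C * ((R : ℝ) / r) ^ C * WC n 1 * (n : ℝ) ^ ε * p2 (n / K) ^ (1 - ε)) := by
    rw [hp4, WC_neg] at hL
    linarith
  exact core he he1 hC0 hD1 hN (p4_nonneg _) hw (p2_pos _) hy (hW n hn1) huC h4 hfin

/-- **closing of `SC`** -/
theorem sc_of (hX : LB3P) (hD : Vg109.HD) (hQ : QM2) (hB : SB p2) : SC p2 p4 := by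
  intro ε hε
  set η : ℝ := min (1 / 20) (ε / 10) with hη
  have hη0 : 0 < η := by positivity
  have hη1 : η ≤ 1 / 20 := min_le_left _ _
  have hη2 : 10 * η ≤ ε := by have := min_le_right (1 / 20 : ℝ) (ε / 10); linarith
  obtain ⟨K, hK, hj⟩ := sc_dyadic hX hD hQ hB hη0 hη1
  obtain ⟨J, hJ⟩ := eventually_atTop.1 hj
  have hfl := Ax107.fl_tendsto (b := 1 + ε) (by linarith)
  filter_upwards [hfl.eventually (eventually_ge_atTop (4 * 2 ^ J)),
    Ax107.ev_pow ε hε (K + 4 : ℝ), eventually_ge_atTop 1] with n h1 h2 hn1 m hm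
  set M : ℕ := ⌊(n : ℝ) ^ (1 + ε)⌋₊ with hM
  have hn0 : (0 : ℝ) < n := by exact_mod_cast hn1
  have hn1' : (1 : ℝ) ≤ n := by exact_mod_cast hn1
  have hM1 : (M : ℝ) ≤ (n : ℝ) ^ (1 + ε) := Nat.floor_le (Real.rpow_nonneg hn0.le _)
  have hM2 : (n : ℝ) ^ (1 + ε) < M + 1 := Nat.lt_floor_add_one _
  have hMm : M ≤ m := by
    have : (M : ℝ) ≤ m := hM1.trans hm
    exact_mod_cast this
  have h4 : 2 ^ J ≤ M / 4 := by omega
  set j : ℕ := Nat.log 2 (M / 4) with hjdef
  have hM4 : M / 4 ≠ 0 := by have := Nat.one_le_two_pow (n := J); omega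
  have hjJ : J ≤ j := Nat.le_log_of_pow_le (by norm_num) h4
  have k1 : 2 ^ j ≤ M / 4 := Nat.pow_log_le_self 2 hM4
  have k2 : M / 4 < 2 ^ (j + 1) := Nat.lt_pow_succ_log_self (by norm_num) _
  have k3 : 4 * 2 ^ j ≤ m := by omega
  have k4 : K * n ≤ 256 * 2 ^ j := by
    have e1 : (n : ℝ) ^ (1 + ε) = n * (n : ℝ) ^ ε := by
      rw [Real.rpow_add hn0, Real.rpow_one]
    have e2 : (K : ℝ) * n + 4 ≤ (n : ℝ) ^ (1 + ε) := by
      rw [e1]
      nlinarith
    have e3 : (K : ℝ) * n + 3 < M := by linarith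
    have e4 : K * n + 3 < M := by exact_mod_cast e3
    rw [pow_succ] at k2
    omega
  have k5 : n ≤ 256 * 2 ^ j / K := by
    rw [Nat.le_div_iff_mul_le (by omega), mul_comm]
    exact k4
  have k6 := hJ j hjJ
  have k7 : p4 m ≤ p4 (4 * 2 ^ j) := by
    refine measureReal_mono (Sp580.A4_anti ?_ ?_)
    · exact_mod_cast (by have := Nat.one_le_two_pow (n := j); omega : 1 ≤ 4 * 2 ^ j)
    · exact_mod_cast k3
  have k8 : (n : ℝ) ≤ ((256 * 2 ^ j : ℕ) : ℝ) := by
    have : n ≤ 256 * 2 ^ j := by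
      refine le_trans ?_ k4
      exact Nat.le_mul_of_pos_left n (by omega)
    exact_mod_cast this
  calc p4 m ≤ p4 (4 * 2 ^ j) := k7
    _ ≤ ((256 * 2 ^ j : ℕ) : ℝ) ^ (-1 + 10 * η) * p2 (256 * 2 ^ j / K) := k6
    _ ≤ (n : ℝ) ^ (-1 + 10 * η) * p2 n := by
        refine mul_le_mul ?_ (p2_anti k5) (p2_nonneg _) (Real.rpow_nonneg hn0.le _)
        exact Real.rpow_le_rpow_of_nonpos hn0 k8 (by linarith)
    _ ≤ (n : ℝ) ^ (-1 + ε) * p2 n :=
        mul_le_mul_of_nonneg_right (Real.rpow_le_rpow_of_exponent_le hn1' (by linarith))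
          (p2_nonneg _)

/-- the density from the law of the crossing clusters -/
theorem hd_law (hLaw : Bs410.Law3) : Vg109.HD := Vg109.HD_of_hyp (Wf850.hyp_main hLaw)

/-- **`SC` from the law, the operator lower bound, quasi-multiplicativity and `SB`** -/
theorem sc_law (hLaw : Bs410.Law3) (hX : LB3P) (hQ : QM2) (hB : SB p2) : SC p2 p4 :=
  sc_of hX (hd_law hLaw) hQ hB

end Crest.Agent.R158.Uc31
end
end

-- ▼ part R158/Mc8_468
section

/-!
# R158, leaf LB3 of doc 1912: closing (helper468)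

* `arith_lb : Lb841.Arith`
* `lb3 : Lb841.LB3` — the lower bound of identity C, with no open input
-/

set_option autoImplicit false

noncomputable section

namespace Crest.Agent.R158.Mc468

open Crest.Agent.R161.Geo729 Crest.Agent.R161.Dual374
open Crest.Agent.R161.Tas682 (sd)
open Crest.Agent.R158.It200 Crest.Agent.R158.Wf850
open Crest.Agent.R158.Rs689 (nu hf)
open Real Function MeasureTheory Filter

/-- **the arithmetic of LB3** -/
theorem arith_lb : Lb841.Arith := by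
  intro ε hε
  obtain ⟨τ0, h1, h2, h3⟩ := arith841 ε hε
  refine ⟨τ0, h1, h2, fun τ hτ hτ0 => ?_⟩
  obtain ⟨δ, h4, h5, h6⟩ := h3 τ hτ hτ0
  refine ⟨δ, h4, h5, fun C hC => ?_⟩
  filter_upwards [h6 C hC] with j hj
  exact hj

/-- **LB3** : the lower bound of identity C, complete -/
theorem lb3 : Lb841.LB3 := Lb841.lb3_of arith_lb

end Crest.Agent.R158.Mc468
end
end

-- ▼ part R158/Uc7_31
section

/-!
# Row 158, Block A4 (helper31), `SC` over the operator lower bound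

* `lb3p` : `LB3P` (from 468's `Mc468.lb3 : Lb841.LB3`)
* `sc_final (hLaw) (hQ) (hB) : SC p2 p4`
-/

set_option autoImplicit false

noncomputable section

namespace Crest.Agent.R158.Uc31

open Real Function MeasureTheory Filter Topology
open Crest.Agent.R158.Rs689 (nu hf)

/-- **the operator lower bound** -/
theorem lb3p : LB3P := by
  intro ε hε κ hκ
  obtain ⟨τ0, h0, h1, hX⟩ := Mc468.lb3 ε hε
  have hτ : 0 < min τ0 (κ / 4) := lt_min h0 (by linarith)
  have hτ1 : min τ0 (κ / 4) ≤ τ0 := min_le_left _ _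
  have hτ2 : min τ0 (κ / 4) ≤ κ / 4 := min_le_right _ _
  generalize min τ0 (κ / 4) = τ at hτ hτ1 hτ2
  have hj : Tendsto (fun j : ℕ => 256 * 2 ^ j) atTop atTop :=
    Tendsto.const_mul_atTop' (by norm_num) (tendsto_pow_atTop_atTop_of_one_lt (by norm_num))
  filter_upwards [hX τ hτ hτ1, hj.eventually (Ax107.ev_pow (κ / 2) (by linarith) 4),
    hj.eventually (Ax107.ev_pow (1 - τ) (by linarith) 2)] with j hj1 hj2 hj3
  obtain ⟨hg, hL⟩ := hj1
  refine ⟨_, _, hg, ?_, ?_⟩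
  · have hn : (1 : ℝ) ≤ ((256 * 2 ^ j : ℕ) : ℝ) := by
      exact_mod_cast (by have := Nat.one_le_two_pow (n := j); omega : 1 ≤ 256 * 2 ^ j)
    have hr0 : (0 : ℝ) < (Lb841.rr τ (2 ^ j) : ℝ) := by
      exact_mod_cast (by have := hg.r3; omega : 0 < Lb841.rr τ (2 ^ j))
    rw [← div_le_iff₀ hr0]
    calc (Lb841.RR τ (2 ^ j) : ℝ) / Lb841.rr τ (2 ^ j)
        ≤ 4 * ((256 * 2 ^ j : ℕ) : ℝ) ^ (2 * τ) :=
          Lb841.ratio_le (Nat.one_le_two_pow) hτ.le hj3
      _ ≤ ((256 * 2 ^ j : ℕ) : ℝ) ^ (κ / 2) * ((256 * 2 ^ j : ℕ) : ℝ) ^ (2 * τ) :=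
          mul_le_mul_of_nonneg_right hj2 (Real.rpow_nonneg (by linarith) _)
      _ = ((256 * 2 ^ j : ℕ) : ℝ) ^ (κ / 2 + 2 * τ) := by
          rw [← Real.rpow_add (by linarith)]
      _ ≤ ((256 * 2 ^ j : ℕ) : ℝ) ^ κ :=
          Real.rpow_le_rpow_of_exponent_le hn (by linarith)
  · have := hL e00 rfl
    push_cast at this ⊢
    exact this

/-- **`SC` modulo quasi-multiplicativity and `SB`** -/
theorem sc_final (hLaw : Bs410.Law3) (hQ : Zs110.QM2) (hB : Ax107.SB Ax107.p2) :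
    Ax107.SC Ax107.p2 Ax107.p4 :=
  sc_law hLaw lb3p hQ hB

end Crest.Agent.R158.Uc31
end
end

-- ▼ part R158/Top6_772
section

/-!
# Row 158 (helper772, integration of S0235 + S0236), part 6: `SC` plugged in

* `sc_law' (hLaw)` : `SC p2 p4`
* `both7 (hLaw) (hR : Ud107.DRight)` : S0235 and S0236
-/

set_option autoImplicit false

noncomputable section

namespace Crest.Agent.R158.Top772

open MeasureTheory Filter Topology unitInterval
open Crest.Agent.R158.Ax107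

/-- upper bound of four arms -/
theorem sc_law' (hLaw : Bs410.Law3) : SC p2 p4 :=
  Uc31.sc_final hLaw Sc689.qm2 (sb_law hLaw)

/-- both statements from the law of the first moments and `DRight` -/
theorem both7 (hLaw : Bs410.Law3) (hR : Ud107.DRight) : St235 ∧ St236 :=
  both6 hLaw (sc_law' hLaw) hR

end Crest.Agent.R158.Top772
end
end

-- ▼ part R158/Fd6_61
section

/-!
# Row 158, leaf D of doc 1912 (helper61), part 6: the two-point operator, pointwise

* `same_eq` : `Dr (mg v) s - Dr (mg f) s = 2 √3 cos (q) OP` if `e` lies on the strand of `s`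
* `diff_le` : `≤ 4 √3 |sin (aa w(l_e))| |PP|` otherwise
* `Dr_unmk` : `Dr m s = √3 sg W m` for unmarked `s`
* `Wd_le` : `|W (mg v) - W (mg f)| ≤ 2 √3 |sin (aa w(l_e))| |OP|`
* `mk_of_not_sub`, `touch` : arms
-/

set_option autoImplicit false

noncomputable section

namespace Crest.Agent.R158.Fd61

open Crest.Agent.R161.Geo729 Crest.Agent.R161.Dual374
open Crest.Agent.R161.Tas682 (sd)
open Crest.Agent.R158.It200 hiding hf
open Crest.Agent.R158.Wf850
open Crest.Agent.R158.Vx107 hiding tot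
open Crest.Agent.R158.Cn109 (lsW smalls mem_smalls SS QQ SS_eq tot tot_eq VV DepF SS_dep QQ_dep)
open Crest.Agent.R158.Hd109 (Dens)
open Crest.Agent.R158.Cpl963 (A1)
open Crest.Agent.R158.Fr158 (bx mem_bx mem_bx_sd eIn mem_eIn)
open Crest.Agent.R158.Rs689 (nu PB)
open Crest.Agent.R158.Vn841 (In In_spec mem_In In_mem sep_In eq_In ht_pos ht_neg)
open Crest.Agent.R158.Zr110 (Mk Mo Mo_cofin mk_along mk_ah MkA mkA_iff UL Xe Adp lp_un_fin)
open Crest.Agent.R158.Zs110 (ul_box mass_off)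
open Function Real MeasureTheory ProbabilityTheory unitInterval

local notation "μh" => nu Crest.Agent.R158.Rs689.hf

variable {z : Cfz} {U : Finset Face} {u : Face → ℝ}

/-! ### trigonometry -/

theorem Sw_diff (x : ℝ) : Sw (aa * (x - 1)) - Sw (aa * x) = -(2 * √3 * cos (aa * x)) := by
  unfold Sw
  have h1 : π / 3 + aa * (x - 1) = aa * x - π / 3 := by unfold aa; ring
  have h2 : π / 3 + aa * x = aa * x + π / 3 := by ring
  rw [h1, h2, sin_sub, sin_add, cos_pi_div_three, sin_pi_div_three]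
  ring

theorem Fw_diff (x : ℝ) : Fw (aa * (x - 1)) - Fw (aa * x) = 2 * √3 * sin (aa * x) := by
  unfold Fw
  have h1 : π / 3 + aa * (x - 1) = aa * x - π / 3 := by unfold aa; ring
  have h2 : π / 3 + aa * x = aa * x + π / 3 := by ring
  rw [h1, h2, cos_sub, cos_add, cos_pi_div_three, sin_pi_div_three]
  ring

theorem abs_Sw_le (x : ℝ) : |Sw x| ≤ 2 := by
  unfold Sw
  rw [abs_mul, abs_two]
  nlinarith [abs_sin_le_one (π / 3 + x)]

/-! ### masses of the two charges -/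

theorem mass_other {e : Corner} {A : Finset Face} (h : ¬ sepC A e) :
    Vx107.mass (mg U u (cv e)) A = Vx107.mass (mg U u (cf e)) A := by
  classical
  unfold sepC at h
  rw [not_not] at h
  rw [mass_mg, mass_mg]
  by_cases h1 : cv e ∈ A
  · rw [if_pos h1, if_pos (h.1 h1)]
  · rw [if_neg h1, if_neg fun h2 => h1 (h.2 h2)]

/-- mass of the ring in the strand -/
def wI (U : Finset Face) (u : Face → ℝ) (z : Cfz) (c : Corner) : ℝ := Cn109.mass u U (In z c)

/-- the masses at the own loop according to the sign -/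
theorem mass_own {e c : Corner} (hfin : (Lp z c).Finite) (he : e ∈ Lp z c) :
    (sg z c = -1 ∧ Vx107.mass (mg U u (cv e)) (In z c) = aa * (wI U u z c - 1) ∧
      Vx107.mass (mg U u (cf e)) (In z c) = aa * wI U u z c) ∨
    (sg z c = 1 ∧ Vx107.mass (mg U u (cv e)) (In z c) = aa * wI U u z c ∧
      Vx107.mass (mg U u (cf e)) (In z c) = aa * (wI U u z c - 1)) := by
  classical
  rw [mass_mg, mass_mg]
  rcases sg_one hfin with h | h
  · right
    have h1 := (ht_pos hfin h).2 e he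
    have h2 : cv e ∉ In z c := by rw [mem_In hfin, h1.1]; simp
    have h3 : cf e ∈ In z c := by rw [mem_In hfin, h1.2]; simp
    rw [if_neg h2, if_pos h3, sub_zero]
    exact ⟨h, rfl, rfl⟩
  · left
    have h1 := (ht_neg hfin h).2 e he
    have h2 : cv e ∈ In z c := by rw [mem_In hfin, h1.1]; simp
    have h3 : cf e ∉ In z c := by rw [mem_In hfin, h1.2]; simp
    rw [if_pos h2, if_neg h3, sub_zero]
    exact ⟨h, rfl, rfl⟩

theorem oth_notSep {s e : Corner} (he : e ∈ Lp z s) {A : Finset Face} (hA : A ∈ Lps z)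
    (h : ¬ sepC A s) : ¬ sepC A e := by
  intro h1
  have h2 := (mem_Lp_iff_sep hA h1 s).2 he.symm
  exact h h2

/-- **the same strand** -/
theorem same_eq {s e : Corner} (hfin : (Lp z s).Finite) (he : e ∈ Lp z s) :
    Dr (mg U u (cv e)) s z - Dr (mg U u (cf e)) s z =
      2 * √3 * cos (aa * wI U u z s) * OP (mg U u (cv e)) z s := by
  have h1 : OP (mg U u (cf e)) z s = OP (mg U u (cv e)) z s := by
    rw [OP_eq_PP, OP_eq_PP]
    refine PP_congr fun A hA h => ?_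
    rw [mass_other (oth_notSep he hA h)]
  rw [Dr_eq hfin (In_spec hfin).2, Dr_eq hfin (In_spec hfin).2, h1]
  rcases mass_own (U := U) (u := u) hfin he with ⟨h2, h3, h4⟩ | ⟨h2, h3, h4⟩
  · rw [h2, h3, h4]
    have h5 := Sw_diff (wI U u z s)
    push_cast
    linear_combination (-1) * OP (mg U u (cv e)) z s * h5
  · rw [h2, h3, h4]
    have h5 := Sw_diff (wI U u z s)
    push_cast
    linear_combination (-1) * OP (mg U u (cv e)) z s * h5

/-- the product over the other loops is the weight if the own loop misses the ring -/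
theorem OP_eq_W {s e : Corner} (hm : Ntr (mg U u (cv e))) (hfin : (Lp z s).Finite)
    (he : e ∈ Lp z s) (h0 : wI U u z s = 0) :
    OP (mg U u (cv e)) z s = W (mg U u (cv e)) z := by
  have hA := In_spec hfin
  rw [W_at hfin hm, ← mass_eq hfin hA.2]
  rcases mass_own (U := U) (u := u) hfin he with ⟨-, h3, -⟩ | ⟨-, h3, -⟩
  · rw [h3, h0, zero_sub, mul_neg, mul_one, Fw_neg_aa, one_mul]
  · rw [h3, h0, mul_zero, Fw_zero, one_mul]

/-- splitting off the strand of `e` -/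
theorem OP_two {s e : Corner} {m : Face →₀ ℝ} (hm : Ntr m) (he' : (Lp z e).Finite)
    (h : e ∉ Lp z s) :
    OP m z s = Fw (Vx107.mass m (In z e)) * PP (fun A => ¬ sepC A s ∧ ¬ sepC A e) m z := by
  have h1 : In z e ∈ Lps z := In_mem he'
  have hse : ¬ sepC (In z e) s := fun h2 => h ((sep_In he' s).1 h2).symm
  have hee : sepC (In z e) e := (sep_In he' e).2 (mem_Lp_self z e)
  rw [OP_eq_PP]
  have h2 : {A | A ∈ Lps z ∧ ¬ sepC A s} =
      insert (In z e) {A | A ∈ Lps z ∧ ¬ sepC A s ∧ ¬ sepC A e} := by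
    ext A
    simp only [Set.mem_ofPred_eq, Set.mem_insert_iff]
    constructor
    · rintro ⟨h3, h4⟩
      by_cases h5 : sepC A e
      · exact Or.inl (eq_In h3 h5).2
      · exact Or.inr ⟨h3, h4, h5⟩
    · rintro (rfl | ⟨h3, h4, -⟩)
      · exact ⟨h1, hse⟩
      · exact ⟨h3, h4⟩
  unfold PP PW
  rw [h2, finprod_mem_insert' _ (fun h3 => h3.2.2 hee) (fin_supp hm fun _ h3 => h3.1)]

theorem Fw_own {e : Corner} (hfin : (Lp z e).Finite) :
    |Fw (Vx107.mass (mg U u (cv e)) (In z e)) - Fw (Vx107.mass (mg U u (cf e)) (In z e))| =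
      2 * √3 * |sin (aa * wI U u z e)| := by
  have h5 := Fw_diff (wI U u z e)
  rcases mass_own (U := U) (u := u) hfin (mem_Lp_self z e) with ⟨-, h3, h4⟩ | ⟨-, h3, h4⟩
  · rw [h3, h4, h5, abs_mul, abs_of_nonneg (by positivity : 0 ≤ 2 * √3)]
  · rw [h3, h4, abs_sub_comm, h5, abs_mul, abs_of_nonneg (by positivity : 0 ≤ 2 * √3)]

/-- **different strands** -/
theorem diff_le {s e : Corner} (hv : Ntr (mg U u (cv e))) (hf : Ntr (mg U u (cf e)))
    (hfin : (Lp z s).Finite) (he' : (Lp z e).Finite) (h : e ∉ Lp z s) :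
    |Dr (mg U u (cv e)) s z - Dr (mg U u (cf e)) s z| ≤ 4 * √3 * |sin (aa * wI U u z e)| *
      |PP (fun A => ¬ sepC A s ∧ ¬ sepC A e) (mg U u (cv e)) z| := by
  have hse : ¬ sepC (In z s) e := fun h2 => h ((sep_In hfin e).1 h2)
  have h1 : PP (fun A => ¬ sepC A s ∧ ¬ sepC A e) (mg U u (cf e)) z =
      PP (fun A => ¬ sepC A s ∧ ¬ sepC A e) (mg U u (cv e)) z :=
    PP_congr fun A _ h => by rw [mass_other h.2]
  rw [Dr_eq hfin (In_spec hfin).2, Dr_eq hfin (In_spec hfin).2, OP_two hv he' h, OP_two hf he' h,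
    h1, ← mass_other hse]
  set P := PP (fun A => ¬ sepC A s ∧ ¬ sepC A e) (mg U u (cv e)) z
  set S := Sw (Vx107.mass (mg U u (cv e)) (In z s))
  have h2 := Fw_own (U := U) (u := u) he'
  have h3 : (sg z s : ℝ) * S * (Fw (Vx107.mass (mg U u (cv e)) (In z e)) * P) -
      (sg z s : ℝ) * S * (Fw (Vx107.mass (mg U u (cf e)) (In z e)) * P) =
      (sg z s : ℝ) * S * (Fw (Vx107.mass (mg U u (cv e)) (In z e)) -
        Fw (Vx107.mass (mg U u (cf e)) (In z e))) * P := by ring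
  rw [h3, abs_mul, abs_mul, abs_mul, h2]
  have h4 : |(sg z s : ℝ)| = 1 := by rcases sg_one' hfin with h | h <;> rw [h] <;> norm_num
  rw [h4, one_mul]
  have h5 : |S| ≤ 2 := abs_Sw_le _
  have h6 : 0 ≤ 2 * √3 * |sin (aa * wI U u z e)| := by positivity
  calc |S| * (2 * √3 * |sin (aa * wI U u z e)|) * |P|
      ≤ 2 * (2 * √3 * |sin (aa * wI U u z e)|) * |P| :=
        mul_le_mul_of_nonneg_right (mul_le_mul_of_nonneg_right h5 h6) (abs_nonneg _)
    _ = _ := by ring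

/-- **the difference of the weights** -/
theorem Wd_le {e : Corner} (hv : Ntr (mg U u (cv e))) (hf : Ntr (mg U u (cf e)))
    (he' : (Lp z e).Finite) :
    |W (mg U u (cv e)) z - W (mg U u (cf e)) z| ≤ 2 * √3 * |sin (aa * wI U u z e)| *
      |OP (mg U u (cv e)) z e| := by
  have h1 : OP (mg U u (cf e)) z e = OP (mg U u (cv e)) z e := by
    rw [OP_eq_PP, OP_eq_PP]
    exact PP_congr fun A _ h => by rw [mass_other h]
  rw [W_at he' hv, W_at he' hf, h1, ← mass_eq he' (In_spec he').2,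
    ← mass_eq he' (In_spec he').2, ← sub_mul, abs_mul, Fw_own he']

/-! ### unmarked corners -/

/-- a strand leaving the box is marked -/
theorem mk_of_not_sub {x : P2} {N : ℤ} {c : Corner} (hfin : (Lp z c).Finite)
    (h : ¬ In z c ⊆ BF x N) : c ∈ Mk (Mo x N) z := by
  by_contra hc
  exact h (ul_box ⟨In_mem hfin, fun h' => hc ((mkA_iff hfin (In_spec hfin).2).1 h')⟩)

theorem sub_of_unmk {x : P2} {N : ℤ} {c : Corner} (hc : c ∉ Mk (Mo x N) z) :
    In z c ⊆ BF x N := by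
  by_contra h
  exact hc (mk_of_not_sub (lp_un_fin (Mo_cofin x N) hc) h)

theorem Dr_unmk {x : P2} {N : ℤ} {c : Corner} {m : Face →₀ ℝ} (hm : Ntr m)
    (hoff : ∀ f ∈ BF x N, m f = 0) (hc : c ∉ Mk (Mo x N) z) :
    Dr m c z = √3 * ((sg z c : ℝ) * W m z) := by
  have hfin := lp_un_fin (Mo_cofin x N) hc
  have h1 : Vx107.mass m (In z c) = 0 := mass_off hoff (sub_of_unmk hc)
  rw [Dr_eq hfin (In_spec hfin).2, W_at hfin hm, ← mass_eq hfin (In_spec hfin).2, h1, Zs110.sw_zero,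
    Fw_zero, one_mul]
  ring

/-- a corner of the same strand outside the box marks -/
theorem mk_of_far {x : P2} {N : ℤ} {c d : Corner} (hd : d ∈ Lp z c) (h : N < sd x d.1) :
    c ∈ Mk (Mo x N) z := by
  refine (mk_along hd).1 (mk_ah ?_)
  rcases ah_ends d with ⟨h1, _⟩ | ⟨h1, _⟩
  · left; rw [← h1]; exact h
  · right; rw [← h1]; exact h

theorem splits_of_sep {A B : Finset Face} {c : Corner} (hA : sepC A c) (h1 : cv c ∈ B)
    (h2 : cf c ∈ B) : Splits A B := by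
  unfold sepC at hA
  by_cases h : cv c ∈ A
  · refine ⟨⟨cv c, h1, h⟩, cf c, h2, fun h3 => hA ⟨fun _ => h3, fun _ => h⟩⟩
  · refine ⟨⟨cf c, h2, ?_⟩, cv c, h1, h⟩
    by_contra h3
    exact hA ⟨fun h' => absurd h' h, fun h' => absurd h' h3⟩

/-- the strand of `e` meets the ring only if it is long -/
theorem touch {C : ℝ} {κ : ℕ} {r0 r1 : ℤ} (h : RD C κ r0 r1 U u) {e : Corner}
    (he' : (Lp z e).Finite) {k : ℤ} (hk : k ≤ r0) (h1 : cv e ∈ BF (0, 0) k)
    (h2 : cf e ∈ BF (0, 0) k) (hw : wI U u z e ≠ 0) : ¬ In z e ⊆ BF (0, 0) r0 ∧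
      z ∈ A1 (0, 0) k r0 := by
  have h3 : ¬ In z e ⊆ BF (0, 0) r0 := by
    intro h4
    exact hw (wm_zero_of_sub h le_rfl h4)
  exact ⟨h3, cross_A1 (In_mem he') hk
    (splits_of_sep ((sep_In he' e).2 (mem_Lp_self z e)) h1 h2) h3⟩

end Crest.Agent.R158.Fd61
end
end

-- ▼ part R158/Fd7_61
section

/-!
# Row 158, leaf D of doc 1912 (helper61), part 7: events and bounds of the two-point operator

* `MkS`, `MkE`, `GdE` : marked / marked / same strand inside the box; locality, probabilities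
* `dd` : the two-point operator, `Gw` : difference of the weights
* `dd_mk` : off `GdE` a marked corner costs four arms and a crossing
* `dd_un` : unmarked corners
-/

set_option autoImplicit false

noncomputable section

namespace Crest.Agent.R158.Fd61

open Crest.Agent.R161.Geo729 Crest.Agent.R161.Dual374
open Crest.Agent.R161.Tas682 (sd)
open Crest.Agent.R158.It200 hiding hf
open Crest.Agent.R158.Wf850
open Crest.Agent.R158.Vx107 hiding tot
open Crest.Agent.R158.Cn109 (lsW smalls mem_smalls SS QQ SS_eq tot tot_eq VV DepF SS_dep QQ_dep)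
open Crest.Agent.R158.Hd109 (Dens)
open Crest.Agent.R158.Cpl963 (A1 eAn mem_eAn mem_An A1_dep)
open Crest.Agent.R158.Fr158 (bx mem_bx mem_bx_sd eIn mem_eIn)
open Crest.Agent.R158.Rs689 (nu PB Dep)
open Crest.Agent.R158.Bk430 (ws us)
open Crest.Agent.R158.Vn841 (In In_spec mem_In In_mem sep_In eq_In ht_pos ht_neg)
open Crest.Agent.R158.Zr110 (Mk Mo Mo_cofin mk_along mk_ah MkA mkA_iff UL Xe Adp lp_un_fin un_dep)
open Crest.Agent.R158.Zs110 (ul_box mass_off mk_box mo_compl_sub out_arms TA TA_mono ta_le_p2 mk_le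
  sd_fc)
open Crest.Agent.R158.Ax107 (p2 p2_nonneg p2_le_one p2_anti)
open Function Real MeasureTheory ProbabilityTheory unitInterval

local notation "μh" => nu Crest.Agent.R158.Rs689.hf

variable {z : Cfz} {s e : Corner} {n N q R : ℕ}

/-! ### events -/

/-- the strand of `s` leaves the box of radius `N` around the origin -/
def MkS (s : Corner) (N : ℕ) : Set Cfz := {z | s ∈ Mk (Mo (0, 0) (N : ℤ)) z}

/-- the strand of `e` leaves the box of radius `N` around `e` -/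
def MkE (e : Corner) (N : ℕ) : Set Cfz := {z | e ∈ Mk (Mo e.1 (N : ℤ)) z}

/-- `s`, `e` on the same strand, which stays in the box -/
def GdE (s e : Corner) (q : ℕ) : Set Cfz :=
  {z | e ∈ Lp z s ∧ s ∉ Mk (Mo (0, 0) ((q + 3 : ℕ) : ℤ)) z}

theorem dep_MkS (s : Corner) (N : ℕ) : Dep (eIn (bx (0, 0) (N : ℤ))) (MkS s N) := by
  intro z z' h
  show s ∈ Mk (Mo (0, 0) (N : ℤ)) z ↔ s ∈ Mk (Mo (0, 0) (N : ℤ)) z'
  rw [mk_box h]

theorem dep_MkE (e : Corner) (N : ℕ) : Dep (eIn (bx e.1 (N : ℤ))) (MkE e N) := by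
  intro z z' h
  show e ∈ Mk (Mo e.1 (N : ℤ)) z ↔ e ∈ Mk (Mo e.1 (N : ℤ)) z'
  rw [mk_box h]

theorem dep_GdE (s e : Corner) (q : ℕ) :
    Dep (eIn (bx (0, 0) ((q + 3 : ℕ) : ℤ))) (GdE s e q) := by
  have key : ∀ z z' : Cfz, (∀ i ∈ eIn (bx (0, 0) ((q + 3 : ℕ) : ℤ)), z i = z' i) →
      z ∈ GdE s e q → z' ∈ GdE s e q := by
    rintro z z' h ⟨h1, h2⟩
    obtain ⟨h3, h4⟩ := un_dep (M := Mo (0, 0) ((q + 3 : ℕ) : ℤ))
      (fun i hi => h i (mo_compl_sub (0, 0) _ hi)) h2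
    exact ⟨by rw [← h4]; exact h1, h3⟩
  intro z z' h
  exact ⟨key z z' h, key z' z fun i hi => (h i hi).symm⟩

theorem meas_MkS (s : Corner) (N : ℕ) : MeasurableSet (MkS s N) := (dep_MkS s N).measurableSet
theorem meas_MkE (e : Corner) (N : ℕ) : MeasurableSet (MkE e N) := (dep_MkE e N).measurableSet
theorem meas_GdE (s e : Corner) (q : ℕ) : MeasurableSet (GdE s e q) :=
  (dep_GdE s e q).measurableSet

theorem P_MkS (s : Corner) (N : ℕ) (hs : sd (0, 0) s.1 ≤ 1) : (μh).real (MkS s N) ≤ p2 (N - 6) :=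
  mk_le s N hs

theorem P_MkE (e : Corner) (N : ℕ) : (μh).real (MkE e N) ≤ p2 (N - 6) := by
  rcases le_or_gt N 6 with h | h
  · have h0 : N - 6 = 0 := by omega
    rw [h0, Zs110.p2_zero]
    exact measureReal_le_one
  · refine (measureReal_mono (fun z hz => ?_)).trans
      (ta_le_p2 e (N : ℤ) ((N : ℤ) - 1) (N - 6) (by omega) (by omega))
    exact out_arms hz

theorem sdp (v : P2) (m : ℤ) (x : P2) : sd x v ≤ m ↔
    x.1 - m ≤ v.1 ∧ v.1 ≤ x.1 + m ∧ x.2 - m ≤ v.2 ∧ v.2 ≤ x.2 + m := by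
  rw [← mem_bx, mem_bx_sd]

/-- independence of the three regions -/
theorem P3 {A : Set Cfz} (hA : Dep (eIn (bx (0, 0) (N : ℤ))) A) {k : ℤ} {q : ℤ}
    (h1 : 2 * (N : ℤ) < n) (h2 : (n : ℤ) + N < k) :
    (μh).real (A ∩ (MkE (((0, (n : ℤ)), 0) : Corner) N ∩ A1 (0, 0) k q)) =
      (μh).real A * ((μh).real (MkE (((0, (n : ℤ)), 0) : Corner) N) *
        (μh).real (A1 (0, 0) k q)) := by
  have hE := dep_MkE (((0, (n : ℤ)), 0) : Corner) N
  have hC := A1_dep (0, 0) k q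
  have d1 : Disjoint (eIn (bx ((0 : ℤ), (n : ℤ)) (N : ℤ))) (eAn (0, 0) k q) := by
    rw [Finset.disjoint_left]
    intro i hi hi'
    rw [mem_eIn, mem_bx] at hi
    rw [mem_eAn, mem_An] at hi'
    have h3 := hi'.1.1
    have h4 : ¬ sd (0, 0) (src i) ≤ k - 1 := by omega
    rw [sdp] at h4
    apply h4
    simp only at hi ⊢
    omega
  have d2 : Disjoint (eIn (bx (0, 0) (N : ℤ))) (eIn (bx ((0 : ℤ), (n : ℤ)) (N : ℤ)) ∪
      eAn (0, 0) k q) := by
    rw [Finset.disjoint_left]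
    intro i hi hi'
    rw [mem_eIn, mem_bx] at hi
    rw [Finset.mem_union, mem_eIn, mem_bx, mem_eAn, mem_An] at hi'
    rcases hi' with hi' | hi'
    · simp only at hi hi'
      omega
    · have h3 := hi'.1.1
      have h4 : ¬ sd (0, 0) (src i) ≤ k - 1 := by omega
      rw [sdp] at h4
      apply h4
      simp only at hi ⊢
      omega
  have hB : Dep (eIn (bx ((0 : ℤ), (n : ℤ)) (N : ℤ)) ∪ eAn (0, 0) k q)
      (MkE (((0, (n : ℤ)), 0) : Corner) N ∩ A1 (0, 0) k q) := by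
    intro z z' h
    exact and_congr (hE z z' fun i hi => h i (Finset.mem_union_left _ hi))
      (hC z z' fun i hi => h i (Finset.mem_union_right _ hi))
  have g1 := Rs689.PB_indep_real (fun _ : Edge => Rs689.hf) d2 hA hB
  have g2 := Rs689.PB_indep_real (fun _ : Edge => Rs689.hf) d1 hE hC
  show (PB fun _ : Edge => Rs689.hf).real _ = _
  rw [g1, g2]
  rfl

/-- independence of the main event and a crossing outside -/
theorem P2i (s e : Corner) {q : ℕ} {k l : ℤ} (h : ((q + 3 : ℕ) : ℤ) < k) :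
    (μh).real (GdE s e q ∩ A1 (0, 0) k l) = (μh).real (GdE s e q) * (μh).real (A1 (0, 0) k l) := by
  have d1 : Disjoint (eIn (bx (0, 0) ((q + 3 : ℕ) : ℤ))) (eAn (0, 0) k l) := by
    rw [Finset.disjoint_left]
    intro i hi hi'
    rw [mem_eIn, mem_bx_sd] at hi
    rw [mem_eAn, mem_An] at hi'
    omega
  have g2 := Rs689.PB_indep_real (fun _ : Edge => Rs689.hf) d1 (dep_GdE s e q)
    (A1_dep (0, 0) k l)
  exact g2

/-! ### bounds of the products -/

/-- the majorant hypothesis -/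
def MH (R : ℕ) (Y : Cfz → ℝ) : Prop :=
  ∀ z, exp (√3 * aa * |SS lsW (ws R) (ws R).support (lv R) z - VV (lv R)| +
      12 * aa ^ 2 * QQ lsW (ws R) (ws R).support (lv R) z) *
        2 ^ (TT (lv R) ((2 * R : ℕ) : ℤ) z).ncard ≤ Y z

/-- the weight of the ring -/
def EE (R : ℕ) : ℝ := exp (-(b0 * VV (lv R)))

theorem EE_pos (R : ℕ) : 0 < EE R := exp_pos _

theorem abs_PP_ws (hR : 64 ≤ R) {Y : Cfz → ℝ} (hY : MH R Y) {g : Face}
    (hg : sd (0, 0) g.1 ≤ ((R / 8 : ℕ) : ℤ)) {P : Finset Face → Prop}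
    (hP : ∀ A ∈ smalls lsW (ws R).support (lv R) z, P A) :
    |PP P (wg R g) z| ≤ EE R * Y z := by
  refine (gu_pos (rd_ws hR) (by push_cast; omega) hg (PP_sub P z) fun A hA => ?_).trans
    (bd_neg (by positivity) (hY z))
  exact ⟨((mem_smalls lsW).1 hA).1, hP A hA⟩

theorem nsep_small (hR : 64 ≤ R) {c : Corner} (h1 : cv c ∈ BF (0, 0) ((R / 8 : ℕ) : ℤ))
    (h2 : cf c ∈ BF (0, 0) ((R / 8 : ℕ) : ℤ)) {A : Finset Face}
    (hA : A ∈ smalls lsW (ws R).support (lv R) z) : ¬ sepC A c := by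
  unfold sepC
  rw [not_not]
  have h3 := small_off (rd_ws hR) hA (mem_BF.1 h1)
  have h4 := small_off (rd_ws hR) hA (mem_BF.1 h2)
  exact ⟨fun h => absurd h h3, fun h => absurd h h4⟩

/-! ### the operator -/

/-- the far corner -/
def eP (n : ℕ) : Corner := ((0, (n : ℤ)), 0)

theorem cv_eP (n : ℕ) : cv (eP n) = ((0, (n : ℤ)), false) := rfl

theorem cf_eP (n : ℕ) : cf (eP n) = ((0, (n : ℤ)), true) := by
  unfold cf eP
  rw [fc_zero]

theorem sd_eP (n : ℕ) : sd (0, 0) (eP n).1 = n := by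
  show sd (0, 0) (0, (n : ℤ)) = n
  unfold sd
  simp

theorem near_eP {n : ℕ} {k : ℤ} (h : (n : ℤ) ≤ k) : cv (eP n) ∈ BF (0, 0) k ∧
    cf (eP n) ∈ BF (0, 0) k := by
  have h1 := sd_eP n
  rw [cv_eP, cf_eP, mem_BF, mem_BF]
  exact ⟨h1.trans_le h, h1.trans_le h⟩

theorem near_s {k : ℤ} (hs : sd (0, 0) s.1 ≤ 1) (h : 2 ≤ k) : cv s ∈ BF (0, 0) k ∧
    cf s ∈ BF (0, 0) k := by
  rw [mem_BF, mem_BF]
  have h1 := (sd_fc s (0, 0)).1
  refine ⟨by show sd (0, 0) s.1 ≤ k; omega, by show sd (0, 0) (fc s) ≤ k; omega⟩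

/-- the two-point operator -/
def dd (R n : ℕ) (s : Corner) (z : Cfz) : ℝ :=
  Dr (wg R (cv (eP n))) s z - Dr (wg R (cf (eP n))) s z

/-- the difference of the weights -/
def Gw (R n : ℕ) (z : Cfz) : ℝ := W (wg R (cv (eP n))) z - W (wg R (cf (eP n))) z

/-- sizes -/
structure Sz (n N k q R : ℕ) : Prop where
  hR : 64 ≤ R
  hn : 2 * N + 2 < n
  hk : n + N + 1 < k
  hq : k ≤ q
  hr : q + 6 ≤ R / 8

/-- the strand of the far corner meets the ring -/
theorem touch_E {k : ℕ} (hz : Sz n N k q R) (he : (Lp z (eP n)).Finite)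
    (hw : wI (ws R).support (ws R) z (eP n) ≠ 0) :
    z ∈ MkE (eP n) N ∩ A1 (0, 0) k q := by
  obtain ⟨h1, h2, h3, h4, h5⟩ := hz
  have e1 := near_eP (n := n) (k := (k : ℤ)) (by omega)
  obtain ⟨g1, g2⟩ := touch (rd_ws h1) he (k := (k : ℤ)) (by omega) e1.1 e1.2 hw
  have g3 : ¬ In z (eP n) ⊆ BF (0, 0) (q : ℤ) := fun h => g1 (h.trans fun f hf => by
    rw [mem_BF] at hf ⊢; omega)
  refine ⟨?_, cross_A1 (In_mem he) (by omega)
    (splits_of_sep ((sep_In he (eP n)).2 (mem_Lp_self z _)) e1.1 e1.2) g3⟩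
  refine mk_of_not_sub he fun h => g3 (h.trans fun f hf => ?_)
  rw [mem_BF] at hf ⊢
  have h6 := Cpl963.sd_tri (0, 0) (eP n).1 f.1
  rw [sd_eP] at h6
  omega

theorem sin_wI (h : wI (ws R).support (ws R) z (eP n) = 0) :
    |sin (aa * wI (ws R).support (ws R) z (eP n))| = 0 := by
  rw [h, mul_zero, sin_zero, abs_zero]

/-- **the difference of the weights** -/
theorem Gw_le {k : ℕ} (hs : Sz n N k q R) {Y : Cfz → ℝ} (hY : MH R Y)
    (he : (Lp z (eP n)).Finite) :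
    |Gw R n z| ≤ 2 * √3 * EE R * (ind (MkE (eP n) N ∩ A1 (0, 0) k q) z * Y z) := by
  have hR1 : 1 ≤ R := by have := hs.hR; omega
  have h1 := Wd_le (U := (ws R).support) (u := ws R) (z := z) (e := eP n) (ntr_wg hR1 _)
    (ntr_wg hR1 _) he
  by_cases h0 : wI (ws R).support (ws R) z (eP n) = 0
  · rw [sin_wI h0, mul_zero, zero_mul] at h1
    have h1' : |Gw R n z| ≤ 0 := h1
    have h2 : |Gw R n z| = 0 := le_antisymm h1' (abs_nonneg _)
    rw [h2]
    have h3 : 0 ≤ Y z := le_trans (by positivity) (hY z)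
    have h4 := ind_nonneg (MkE (eP n) N ∩ A1 (0, 0) k q) z
    have h5 := EE_pos R
    positivity
  · rw [ind_of (touch_E hs he h0), one_mul]
    have hn8 : (n : ℤ) ≤ ((R / 8 : ℕ) : ℤ) := by
      obtain ⟨h1, h2, h3, h4, h5⟩ := hs; omega
    have e1 := near_eP hn8
    have h2 : |OP (wg R (cv (eP n))) z (eP n)| ≤ EE R * Y z := by
      rw [OP_eq_PP]
      exact abs_PP_ws hs.hR hY (mem_BF.1 e1.1) fun A hA => nsep_small hs.hR e1.1 e1.2 hA
    have h3 : |sin (aa * wI (ws R).support (ws R) z (eP n))| ≤ 1 := abs_sin_le_one _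
    calc |Gw R n z| ≤ 2 * √3 * |sin (aa * wI (ws R).support (ws R) z (eP n))| *
          |OP (wg R (cv (eP n))) z (eP n)| := h1
      _ ≤ 2 * √3 * 1 * (EE R * Y z) := by
          refine mul_le_mul (mul_le_mul_of_nonneg_left h3 (by positivity)) h2 (abs_nonneg _)
            (by positivity)
      _ = _ := by ring

/-- **general bound** -/
theorem dd_le {k : ℕ} (hs : Sz n N k q R) (h1 : sd (0, 0) s.1 ≤ 1) {Y : Cfz → ℝ} (hY : MH R Y)
    (hfin : (Lp z s).Finite) (he : (Lp z (eP n)).Finite) :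
    |dd R n s z| ≤ 4 * √3 * EE R * Y z := by
  have hR1 : 1 ≤ R := by have := hs.hR; omega
  have hn8 : (n : ℤ) ≤ ((R / 8 : ℕ) : ℤ) := by
    obtain ⟨h1, h2, h3, h4, h5⟩ := hs; omega
  have h8 : (2 : ℤ) ≤ ((R / 8 : ℕ) : ℤ) := by
    obtain ⟨h1, h2, h3, h4, h5⟩ := hs; omega
  have e1 := near_eP hn8
  have e2 := near_s h1 h8
  have hY0 : 0 ≤ Y z := le_trans (by positivity) (hY z)
  have hE := EE_pos R
  by_cases h : eP n ∈ Lp z s
  · have g1 := same_eq (U := (ws R).support) (u := ws R) hfin h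
    have g2 : |OP (wg R (cv (eP n))) z s| ≤ EE R * Y z := by
      rw [OP_eq_PP]
      exact abs_PP_ws hs.hR hY (mem_BF.1 e1.1) fun A hA => nsep_small hs.hR e2.1 e2.2 hA
    have g3 : dd R n s z = 2 * √3 * cos (aa * wI (ws R).support (ws R) z s) *
        OP (wg R (cv (eP n))) z s := g1
    rw [g3, abs_mul, abs_mul, abs_of_nonneg (by positivity : (0 : ℝ) ≤ 2 * √3)]
    calc 2 * √3 * |cos (aa * wI (ws R).support (ws R) z s)| * |OP (wg R (cv (eP n))) z s|
        ≤ 2 * √3 * 1 * (EE R * Y z) :=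
          mul_le_mul (mul_le_mul_of_nonneg_left (abs_cos_le_one _) (by positivity)) g2
            (abs_nonneg _) (by positivity)
      _ ≤ 4 * √3 * EE R * Y z := by
          have : 0 ≤ √3 * (EE R * Y z) := by positivity
          nlinarith
  · have g1 := diff_le (U := (ws R).support) (u := ws R) (ntr_wg hR1 _) (ntr_wg hR1 _) hfin he h
    refine le_trans (b := 4 * √3 * |sin (aa * wI (ws R).support (ws R) z (eP n))| *
      |PP (fun A => ¬ sepC A s ∧ ¬ sepC A (eP n)) (wg R (cv (eP n))) z|) g1 ?_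
    have g2 : |PP (fun A => ¬ sepC A s ∧ ¬ sepC A (eP n)) (wg R (cv (eP n))) z| ≤
        EE R * Y z :=
      abs_PP_ws hs.hR hY (mem_BF.1 e1.1) fun A hA =>
        ⟨nsep_small hs.hR e2.1 e2.2 hA, nsep_small hs.hR e1.1 e1.2 hA⟩
    calc 4 * √3 * |sin (aa * wI (ws R).support (ws R) z (eP n))| *
          |PP (fun A => ¬ sepC A s ∧ ¬ sepC A (eP n)) (wg R (cv (eP n))) z|
        ≤ 4 * √3 * 1 * (EE R * Y z) :=
          mul_le_mul (mul_le_mul_of_nonneg_left (abs_sin_le_one _) (by positivity)) g2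
            (abs_nonneg _) (by positivity)
      _ = _ := by ring

/-- **the main event** -/
theorem dd_good {k : ℕ} (hs : Sz n N k q R) (hz : z ∈ GdE s (eP n) q) :
    dd R n s z = 2 * √3 * W (wg R (cv (eP n))) z := by
  have hR1 : 1 ≤ R := by have := hs.hR; omega
  obtain ⟨h1, h2⟩ := hz
  have hfin := lp_un_fin (Mo_cofin _ _) h2
  have g1 := same_eq (U := (ws R).support) (u := ws R) hfin h1
  have g0 : wI (ws R).support (ws R) z s = 0 :=
    wm_zero_of_sub (rd_ws hs.hR) (by have := hs.hr; push_cast; omega) (sub_of_unmk h2)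
  have g3 : dd R n s z = 2 * √3 * cos (aa * wI (ws R).support (ws R) z s) *
      OP (wg R (cv (eP n))) z s := g1
  have g4 : OP (wg R (cv (eP n))) z s = W (wg R (cv (eP n))) z :=
    OP_eq_W (ntr_wg hR1 _) hfin h1 g0
  rw [g3, g4, g0, mul_zero, cos_zero, mul_one]

/-- corners of a strand inside a box -/
theorem unmk_of_sub {q : ℤ} (hfin : (Lp z s).Finite) (h : In z s ⊆ BF (0, 0) q) :
    s ∉ Mk (Mo (0, 0) (q + 3)) z := by
  intro hm
  obtain ⟨i, ⟨d, hd, hdi⟩, hM⟩ := hm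
  have h1 := (sep_In hfin d).2 hd
  have h2 : sd (0, 0) d.1 ≤ q + 1 := by
    have h1' : cv d ∈ In z s ∨ cf d ∈ In z s := by
      by_contra h3
      rw [not_or] at h3
      apply h1
      constructor
      · intro h4; exact absurd h4 h3.1
      · intro h4; exact absurd h4 h3.2
    rcases h1' with h3 | h3
    · have h4 := mem_BF.1 (h h3)
      have h5 : sd (0, 0) d.1 ≤ q := h4
      linarith
    · have h4 := mem_BF.1 (h h3)
      have h5 : sd (0, 0) (fc d) ≤ q := h4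
      have h6 := (sd_fc d (0, 0)).2
      linarith
  have h7 : q + 3 < sd (0, 0) (src i) ∨ q + 3 < sd (0, 0) (tgt i) := hM
  rcases ah_ends d with ⟨h8, h9⟩ | ⟨h8, h9⟩
  · have h10 := Vx107.sd_st (ah d)
    have h11 := Cpl963.sd_tri (0, 0) (src (ah d)) (tgt (ah d))
    rw [← hdi] at h7
    rw [h8] at h2
    omega
  · have h10 := Vx107.sd_st (ah d)
    have h11 := Cpl963.sd_tri (0, 0) (tgt (ah d)) (src (ah d))
    have h12 := Cpl963.sd_comm (tgt (ah d)) (src (ah d))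
    rw [← hdi] at h7
    rw [h8] at h2
    omega

/-- **a marked corner off the main event** -/
theorem dd_bad {k : ℕ} (hs : Sz n N k q R) (h1 : sd (0, 0) s.1 ≤ 1)
    (hfin : (Lp z s).Finite) (he : (Lp z (eP n)).Finite) (hm : z ∈ MkS s N)
    (hg : z ∉ GdE s (eP n) q) (hne : dd R n s z ≠ 0) :
    z ∈ MkS s N ∩ (MkE (eP n) N ∩ A1 (0, 0) k q) := by
  have hR1 : 1 ≤ R := by have := hs.hR; omega
  refine ⟨hm, ?_⟩
  by_cases h : eP n ∈ Lp z s
  · have hmk : s ∈ Mk (Mo (0, 0) ((q + 3 : ℕ) : ℤ)) z := by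
      by_contra h2
      exact hg ⟨h, h2⟩
    have hns : ¬ In z s ⊆ BF (0, 0) (q : ℤ) := by
      intro h2
      refine unmk_of_sub hfin h2 ?_
      have : ((q : ℤ) + 3) = ((q + 3 : ℕ) : ℤ) := by push_cast; ring
      rw [this]; exact hmk
    obtain ⟨g1, g2, g3, g4, g5⟩ := hs
    have e2 := near_s h1 (k := (k : ℤ)) (by omega)
    refine ⟨mk_of_far h.symm ?_, cross_A1 (In_mem hfin) (by omega)
      (splits_of_sep ((sep_In hfin s).2 (mem_Lp_self z _)) e2.1 e2.2) hns⟩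
    have h3 := Cpl963.sd_tri (0, 0) s.1 (eP n).1
    have h4 := Cpl963.sd_comm s.1 (eP n).1
    rw [sd_eP] at h3
    omega
  · refine touch_E hs he fun h0 => hne ?_
    have g1 := diff_le (U := (ws R).support) (u := ws R) (ntr_wg hR1 _) (ntr_wg hR1 _) hfin he h
    rw [sin_wI h0, mul_zero, zero_mul] at g1
    have g2 : |dd R n s z| ≤ 0 := g1
    exact abs_nonpos_iff.1 g2

/-- **unmarked corners** -/
theorem dd_un {k : ℕ} (hs : Sz n N k q R) (hm : z ∉ MkS s N) :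
    dd R n s z = √3 * (Gw R n z * (sg z s : ℝ)) := by
  have hR1 : 1 ≤ R := by have := hs.hR; omega
  have hoff : ∀ b : Bool, ∀ f ∈ BF (0, 0) (N : ℤ), wg R ((0, (n : ℤ)), b) f = 0 := by
    intro b f hf
    rw [wg_eq, Finsupp.smul_apply, Finsupp.sub_apply]
    rw [mem_BF] at hf
    have h1 : ws R f = 0 := by
      by_contra h2
      have h3 := (rd_ws hs.hR).inn f (Finsupp.mem_support_iff.2 h2)
      have h4 : (0 : ℤ) < 2 ^ lv R := by positivity
      obtain ⟨g1, g2, g3, g4, g5⟩ := hs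
      omega
    have h2 : (Finsupp.single (((0, (n : ℤ)), b) : Face) (1 : ℝ)) f = 0 := by
      rw [Finsupp.single_apply, if_neg]
      rintro rfl
      have h3 := sd_eP n
      have h4 : sd (0, 0) (0, (n : ℤ)) = n := h3
      rw [h4] at hf
      obtain ⟨g1, g2, g3, g4, g5⟩ := hs
      omega
    rw [h1, h2, sub_zero, smul_zero]
  have hm' : s ∉ Mk (Mo (0, 0) (N : ℤ)) z := hm
  have h1 := Dr_unmk (ntr_wg hR1 (cv (eP n))) (by rw [cv_eP]; exact hoff false) hm'
  have h2 := Dr_unmk (ntr_wg hR1 (cf (eP n))) (by rw [cf_eP]; exact hoff true) hm'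
  unfold dd Gw
  rw [h1, h2]
  ring

end Crest.Agent.R158.Fd61
end
end

-- ▼ part R158/Fd8_61
section

/-!
# Row 158, leaf D of doc 1912 (helper61), part 8: the integrated inequality

* `tr_set` : truncation on an event
* `LB4_raw` : `∫ dd ≥ 2 √3 P(GdE) (∫ Bn - 4 T E P(A1)) - E (24 T M A (M + Σ) + 24 (J+3) η)`
-/

set_option autoImplicit false

noncomputable section

namespace Crest.Agent.R158.Fd61

open Crest.Agent.R161.Geo729 Crest.Agent.R161.Dual374
open Crest.Agent.R161.Tas682 (sd)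
open Crest.Agent.R158.It200 hiding hf
open Crest.Agent.R158.Wf850
open Crest.Agent.R158.Vx107 hiding tot
open Crest.Agent.R158.Cn109 (lsW smalls mem_smalls SS QQ SS_eq tot tot_eq VV DepF SS_dep QQ_dep)
open Crest.Agent.R158.Hd109 (Dens)
open Crest.Agent.R158.Cpl963 (A1 eAn mem_eAn mem_An A1_dep)
open Crest.Agent.R158.Fr158 (bx mem_bx mem_bx_sd eIn mem_eIn)
open Crest.Agent.R158.Rs689 (nu PB Dep)
open Crest.Agent.R158.Bk430 (ws us)
open Crest.Agent.R158.Vn841 (In In_spec mem_In In_mem sep_In eq_In ht_pos ht_neg)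
open Crest.Agent.R158.Zr110 (Mk Mo Mo_cofin mk_along mk_ah MkA mkA_iff UL Xe Adp lp_un_fin un_dep)
open Crest.Agent.R158.Zs110 (XA xa_dep meas_xa xa_le Pv pv_nonneg pv_xa Z1_sg W_adp P2a p2a_nonneg)
open Crest.Agent.R158.Ax107 (p2 p2_nonneg p2_le_one p2_anti)
open Function Real MeasureTheory ProbabilityTheory unitInterval

local notation "μh" => nu Crest.Agent.R158.Rs689.hf

variable {z : Cfz} {s e : Corner} {n N q R : ℕ}

/-! ### truncation on an event -/

theorem ind_mul (E : Set Cfz) (f : Cfz → ℝ) : (fun z => ind E z * f z) = E.indicator f := by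
  funext z
  by_cases h : z ∈ E
  · rw [ind_of h, one_mul, Set.indicator_of_mem h]
  · rw [ind_not h, zero_mul, Set.indicator_of_notMem h]

theorem ind_mul_int {E : Set Cfz} (hE : MeasurableSet E) {f : Cfz → ℝ} (hf : Integrable f μh) :
    Integrable (fun z => ind E z * f z) μh := by
  rw [ind_mul]
  exact hf.indicator hE

/-- truncation constants -/
structure Tc (Y : Cfz → ℝ) (T η : ℝ) : Prop where
  yi : Integrable Y μh
  y0 : ∀ z, 0 ≤ Y z
  t0 : 0 ≤ T
  e0 : 0 ≤ η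
  tr : ∀ X : Set Cfz, MeasurableSet X → ∫ z, ind X z * Y z ∂μh ≤ 2 * T * (μh).real X + η

theorem tr_set {G : ℝ} {k : ℕ} {Y : Cfz → ℝ} (hM : Mj G (2 * k + 2) Y) {T : ℝ} (hT : 1 ≤ T) :
    Tc Y T (G / T ^ (2 * k + 1)) := by
  have hG := hM.one_le
  have hT0 : 0 < T := by linarith
  refine ⟨hM.int', fun z => by have := hM.one z; linarith, hT0.le, by positivity,
    fun X hX => ?_⟩
  obtain ⟨i1, i2⟩ := int_ind hX
  have h2 := tr_int (μ := μh) (X := ind X) (Y := Y) (f := fun z => ind X z * Y z)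
    (T := T) (l := T) hT0 hT0 k (ind_nonneg _) (fun z => by have := hM.one z; linarith)
    (fun z => by
      rw [abs_of_nonneg (mul_nonneg (ind_nonneg _ _) (by have := hM.one z; linarith))]) i1
    (by simp_rw [ind_sq]; exact i1) (hM.int _)
  simp_rw [ind_sq] at h2
  rw [i2] at h2
  have h3 := le_abs_self (∫ z, ind X z * Y z ∂μh)
  have e1 : T * T ^ (2 * k) = T ^ (2 * k + 1) := by rw [pow_succ]; ring
  rw [e1] at h2
  have h4 : (∫ z, Y z ^ (2 * k + 2) ∂μh) / T ^ (2 * k + 1) ≤ G / T ^ (2 * k + 1) :=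
    div_le_div_of_nonneg_right hM.mom (by positivity)
  have h5 : 0 ≤ T * (μh).real X := mul_nonneg hT0.le measureReal_nonneg
  have h6 : 0 ≤ G / T ^ (2 * k + 1) := by positivity
  linarith

/-- bound of an integral by the truncated majorant -/
theorem int_le_tr {Y : Cfz → ℝ} {T η : ℝ} (hT : Tc Y T η) {X : Set Cfz} (hX : MeasurableSet X)
    {c : ℝ} (hc : 0 ≤ c) {f : Cfz → ℝ} (hf : ∀ᵐ z ∂μh, |f z| ≤ c * (ind X z * Y z)) :
    |∫ z, f z ∂μh| ≤ c * (2 * T * (μh).real X + η) := by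
  have h1 : |∫ z, f z ∂μh| ≤ ∫ z, |f z| ∂μh := abs_integral_le_integral_abs
  have h2 : ∫ z, |f z| ∂μh ≤ ∫ z, c * (ind X z * Y z) ∂μh :=
    integral_mono_of_nonneg (Filter.Eventually.of_forall fun z => abs_nonneg _)
      ((ind_mul_int hX hT.yi).const_mul c) hf
  rw [integral_const_mul] at h2
  exact h1.trans (h2.trans (mul_le_mul_of_nonneg_left (hT.tr X hX) hc))

/-! ### integrability -/

theorem dd_int (hR : 1 ≤ R) (n : ℕ) (s : Corner) : Integrable (dd R n s) μh :=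
  (integrable_Dr Vx107.ae_fin (ntr_wg hR _) s).sub (integrable_Dr Vx107.ae_fin (ntr_wg hR _) s)

theorem Gw_int (hR : 1 ≤ R) (n : ℕ) : Integrable (Gw R n) μh :=
  (integrable_W (ntr_wg hR _) μh).sub (integrable_W (ntr_wg hR _) μh)

/-- the far corner marks the strand of `s` -/
theorem gd_sub_mk {k : ℕ} (hs : Sz n N k q R) : GdE s (eP n) q ⊆ MkS s N := by
  rintro z ⟨h1, -⟩
  refine mk_of_far h1 ?_
  rw [sd_eP]
  have := hs.hn
  omega

/-- the charges are off the box -/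
theorem wg_off {k : ℕ} (hs : Sz n N k q R) (b : Bool) :
    ∀ f ∈ BF (0, 0) (N : ℤ), wg R ((0, (n : ℤ)), b) f = 0 := by
  intro f hf
  rw [wg_eq, Finsupp.smul_apply, Finsupp.sub_apply]
  rw [mem_BF] at hf
  have h1 : ws R f = 0 := by
    by_contra h2
    have h3 := (rd_ws hs.hR).inn f (Finsupp.mem_support_iff.2 h2)
    have h4 : (0 : ℤ) < 2 ^ lv R := by positivity
    obtain ⟨g1, g2, g3, g4, g5⟩ := hs
    omega
  have h2 : (Finsupp.single (((0, (n : ℤ)), b) : Face) (1 : ℝ)) f = 0 := by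
    rw [Finsupp.single_apply, if_neg]
    rintro rfl
    have h3 := sd_eP n
    have h4 : sd (0, 0) (0, (n : ℤ)) = n := h3
    rw [h4] at hf
    obtain ⟨g1, g2, g3, g4, g5⟩ := hs
    omega
  rw [h1, h2, sub_zero, smul_zero]

theorem Gw_adp {k : ℕ} (hs : Sz n N k q R) : Adp (Mo (0, 0) (N : ℤ)) (Gw R n) := by
  have hR1 : 1 ≤ R := by have := hs.hR; omega
  intro z z' h
  have h1 := W_adp (ntr_wg hR1 (cv (eP n))) (by rw [cv_eP]; exact wg_off hs false) z z' h
  have h2 := W_adp (ntr_wg hR1 (cf (eP n))) (by rw [cf_eP]; exact wg_off hs true) z z' h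
  unfold Gw
  rw [h1, h2]

/-! ### the isolated part -/

/-- the sum over the scales -/
def Sg (N J : ℕ) : ℝ := p2 (2 ^ J - 7) + ∑ j ∈ Finset.range (J + 1),
  p2 (2 ^ j - 8) * P2a (2 ^ (j + 1)) ((N : ℤ) - 1)

theorem Sg_nonneg (N J : ℕ) : 0 ≤ Sg N J :=
  add_nonneg (p2_nonneg _) (Finset.sum_nonneg fun _ _ => mul_nonneg (p2_nonneg _) (p2a_nonneg _ _))

open Classical in
/-- **the isolated part** -/
theorem iso_part {k : ℕ} (hs : Sz n N k q R) (h1 : sd (0, 0) s.1 ≤ 1) {Y : Cfz → ℝ}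
    (hY : MH R Y) {T η : ℝ} (hT : Tc Y T η) (J : ℕ) :
    |∫ z, Gw R n z * (if s ∉ Mk (Mo (0, 0) (N : ℤ)) z then (sg z s : ℝ) else 0) ∂μh| ≤
      4 * √3 * EE R * (2 * T * (p2 (N - 6) * (μh).real (A1 (0, 0) k q)) * Sg N J +
        (J + 2) * η) := by
  have hR1 : 1 ≤ R := by have := hs.hR; omega
  have hM := Mo_cofin (0, 0) (N : ℤ)
  have hZ := Z1_sg hM (fun z => Zr110.gd_Mo (0, 0) (N : ℤ) z) (Gw_adp hs) (Gw_int hR1 n) s
  refine hZ.trans ?_
  set F : Set Cfz := MkE (eP n) N ∩ A1 (0, 0) k q with hF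
  have mF : MeasurableSet F := (meas_MkE _ _).inter (meas_A1 _ _ _)
  set A := (μh).real (A1 (0, 0) k q) with hA
  have hA0 : 0 ≤ A := measureReal_nonneg
  have hE := EE_pos R
  have hT0 := hT.t0
  have he0 := hT.e0
  have hk2 : (n : ℤ) + N < ((k : ℕ) : ℤ) := by have := hs.hk; omega
  have hn2 : 2 * (N : ℤ) < n := by have := hs.hn; omega
  -- probabilities
  have pF : (μh).real F ≤ p2 (N - 6) * A := by
    have g := P3 (n := n) (N := N) (A := Set.univ) (k := (k : ℤ)) (q := (q : ℤ))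
      (fun _ _ _ => Iff.rfl) hn2 hk2
    rw [Set.univ_inter, probReal_univ, one_mul] at g
    rw [hF]
    refine g.trans_le (mul_le_mul_of_nonneg_right (P_MkE _ _) hA0)
  have pX : ∀ j : ℕ, (μh).real (XA N (2 ^ (j + 1)) ∩ F) ≤
      P2a (2 ^ (j + 1)) ((N : ℤ) - 1) * (p2 (N - 6) * A) := by
    intro j
    have g := P3 (n := n) (N := N) (A := XA N (2 ^ (j + 1))) (k := (k : ℤ)) (q := (q : ℤ))
      (xa_dep _ _) hn2 hk2
    rw [hF]
    refine g.trans_le ?_
    exact mul_le_mul (xa_le _ _) (mul_le_mul_of_nonneg_right (P_MkE _ _) hA0)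
      (mul_nonneg measureReal_nonneg hA0) (p2a_nonneg _ _)
  -- the majorant
  set g : Cfz → ℝ := fun z => 2 * √3 * EE R * (p2 (2 ^ J - 7) * (ind F z * Y z) +
    ∑ j ∈ Finset.range (J + 1), p2 (2 ^ j - 8) * (ind (XA N (2 ^ (j + 1)) ∩ F) z * Y z)) with hg
  have i1 : ∀ X : Set Cfz, MeasurableSet X → Integrable (fun z => ind X z * Y z) μh :=
    fun X hX => ind_mul_int hX hT.yi
  have mX : ∀ j : ℕ, MeasurableSet (XA N (2 ^ (j + 1)) ∩ F) := fun j => (meas_xa _ _).inter mF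
  have i2 : Integrable (fun z => ∑ j ∈ Finset.range (J + 1),
      p2 (2 ^ j - 8) * (ind (XA N (2 ^ (j + 1)) ∩ F) z * Y z)) μh :=
    integrable_finsetSum _ fun j _ => (i1 _ (mX j)).const_mul _
  have gi : Integrable g μh := (((i1 F mF).const_mul _).add i2).const_mul _
  have hle : ∀ᵐ z ∂μh, |Gw R n z| * (if s ∉ Mk (Mo (0, 0) (N : ℤ)) z then
      Pv (Mo (0, 0) (N : ℤ)) s z else 0) ≤ g z := by
    filter_upwards [Vx107.ae_fin] with z hz
    have h3 := pv_xa s N J h1 z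
    have h4 := Gw_le hs hY (hz (eP n))
    have h5 : |Gw R n z| * (if s ∉ Mk (Mo (0, 0) (N : ℤ)) z then
        Pv (Mo (0, 0) (N : ℤ)) s z else 0) ≤ |Gw R n z| * Pv (Mo (0, 0) (N : ℤ)) s z := by
      refine mul_le_mul_of_nonneg_left ?_ (abs_nonneg _)
      split_ifs
      · exact pv_nonneg _ _
      · exact le_rfl
    refine h5.trans ?_
    have h6 : 0 ≤ 2 * √3 * EE R * (ind F z * Y z) := by
      have := ind_nonneg F z
      have := hT.y0 z
      positivity
    refine (mul_le_mul h4 h3 (pv_nonneg _ _) h6).trans (le_of_eq ?_)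
    rw [hg]
    simp only
    rw [mul_add, mul_add, Finset.mul_sum, Finset.mul_sum]
    congr 1
    · ring
    · refine Finset.sum_congr rfl fun j _ => ?_
      by_cases h7 : z ∈ XA N (2 ^ (j + 1))
      · rw [Set.indicator_of_mem h7, Pi.one_apply]
        by_cases h8 : z ∈ F
        · rw [ind_of h8, ind_of (show z ∈ XA N (2 ^ (j + 1)) ∩ F from ⟨h7, h8⟩)]; ring
        · rw [ind_not h8, ind_not (fun h => h8 h.2)]; ring
      · rw [Set.indicator_of_notMem h7, ind_not (E := XA N (2 ^ (j + 1)) ∩ F) (fun h => h7 h.1)]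
        ring
  have h0 : ∀ z, 0 ≤ |Gw R n z| * (if s ∉ Mk (Mo (0, 0) (N : ℤ)) z then
      Pv (Mo (0, 0) (N : ℤ)) s z else 0) := by
    intro z
    refine mul_nonneg (abs_nonneg _) ?_
    split_ifs
    · exact le_rfl
    · exact pv_nonneg _ _
  have h2 : ∫ z, |Gw R n z| * (if s ∉ Mk (Mo (0, 0) (N : ℤ)) z then
      Pv (Mo (0, 0) (N : ℤ)) s z else 0) ∂μh ≤ ∫ z, g z ∂μh :=
    integral_mono_of_nonneg (Filter.Eventually.of_forall h0) gi hle
  have h3 : ∫ z, g z ∂μh = 2 * √3 * EE R * (p2 (2 ^ J - 7) * (∫ z, ind F z * Y z ∂μh) +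
      ∑ j ∈ Finset.range (J + 1), p2 (2 ^ j - 8) *
        ∫ z, ind (XA N (2 ^ (j + 1)) ∩ F) z * Y z ∂μh) := by
    rw [hg, integral_const_mul, integral_add ((i1 F mF).const_mul _) i2, integral_const_mul,
      integral_finsetSum _ fun j _ => (i1 _ (mX j)).const_mul _]
    congr 2
    refine Finset.sum_congr rfl fun j _ => ?_
    rw [integral_const_mul]
  have h4 : p2 (2 ^ J - 7) * (∫ z, ind F z * Y z ∂μh) ≤
      p2 (2 ^ J - 7) * (2 * T * (p2 (N - 6) * A)) + η := by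
    have g1 := hT.tr F mF
    have g2 : 2 * T * (μh).real F ≤ 2 * T * (p2 (N - 6) * A) :=
      mul_le_mul_of_nonneg_left pF (by positivity)
    calc p2 (2 ^ J - 7) * (∫ z, ind F z * Y z ∂μh)
        ≤ p2 (2 ^ J - 7) * (2 * T * (p2 (N - 6) * A) + η) :=
          mul_le_mul_of_nonneg_left (by linarith) (p2_nonneg _)
      _ = p2 (2 ^ J - 7) * (2 * T * (p2 (N - 6) * A)) + p2 (2 ^ J - 7) * η := by ring
      _ ≤ _ := by
          have := mul_le_of_le_one_left he0 (p2_le_one (2 ^ J - 7))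
          linarith
  have h5 : ∀ j : ℕ, p2 (2 ^ j - 8) * ∫ z, ind (XA N (2 ^ (j + 1)) ∩ F) z * Y z ∂μh ≤
      (p2 (2 ^ j - 8) * P2a (2 ^ (j + 1)) ((N : ℤ) - 1)) * (2 * T * (p2 (N - 6) * A)) + η := by
    intro j
    have g1 := hT.tr _ (mX j)
    have g2 : 2 * T * (μh).real (XA N (2 ^ (j + 1)) ∩ F) ≤
        2 * T * (P2a (2 ^ (j + 1)) ((N : ℤ) - 1) * (p2 (N - 6) * A)) :=
      mul_le_mul_of_nonneg_left (pX j) (by positivity)
    calc p2 (2 ^ j - 8) * ∫ z, ind (XA N (2 ^ (j + 1)) ∩ F) z * Y z ∂μh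
        ≤ p2 (2 ^ j - 8) * (2 * T * (P2a (2 ^ (j + 1)) ((N : ℤ) - 1) * (p2 (N - 6) * A)) + η) :=
          mul_le_mul_of_nonneg_left (by linarith) (p2_nonneg _)
      _ = (p2 (2 ^ j - 8) * P2a (2 ^ (j + 1)) ((N : ℤ) - 1)) * (2 * T * (p2 (N - 6) * A)) +
          p2 (2 ^ j - 8) * η := by ring
      _ ≤ _ := by
          have := mul_le_of_le_one_left he0 (p2_le_one (2 ^ j - 8))
          linarith
  have h6 : ∑ j ∈ Finset.range (J + 1), p2 (2 ^ j - 8) *
      ∫ z, ind (XA N (2 ^ (j + 1)) ∩ F) z * Y z ∂μh ≤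
      (∑ j ∈ Finset.range (J + 1), p2 (2 ^ j - 8) * P2a (2 ^ (j + 1)) ((N : ℤ) - 1)) *
        (2 * T * (p2 (N - 6) * A)) + (J + 1) * η := by
    refine (Finset.sum_le_sum fun j _ => h5 j).trans (le_of_eq ?_)
    rw [Finset.sum_add_distrib, ← Finset.sum_mul, Finset.sum_const, Finset.card_range,
      nsmul_eq_mul]
    push_cast
    ring
  rw [h3] at h2
  have h7 : ∫ z, |Gw R n z| * (if s ∉ Mk (Mo (0, 0) (N : ℤ)) z then
      Pv (Mo (0, 0) (N : ℤ)) s z else 0) ∂μh ≤ 2 * √3 * EE R *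
      (2 * T * (p2 (N - 6) * A) * Sg N J + (J + 2) * η) := by
    refine h2.trans (mul_le_mul_of_nonneg_left ?_ (by positivity))
    unfold Sg
    linarith
  linarith

/-! ### the inequality -/

/-- **the integrated lower bound** -/
theorem LB4_raw {k : ℕ} (hs : Sz n N k q R) (h1 : sd (0, 0) s.1 ≤ 1) {Y : Cfz → ℝ}
    (hY : MH R Y) {T η : ℝ} (hT : Tc Y T η) (J : ℕ) :
    2 * √3 * ((μh).real (GdE s (eP n) q) *
        (∫ z, Bn ((q + 5 : ℕ) : ℤ) (wg R (cv (eP n))) z ∂μh -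
          4 * T * EE R * (μh).real (A1 (0, 0) ((q + 5 : ℕ) : ℤ) ((R / 8 : ℕ) : ℤ)))) -
      EE R * (24 * T * (p2 (N - 6) * (μh).real (A1 (0, 0) k q)) * (p2 (N - 6) + Sg N J) +
        24 * (J + 4) * η) ≤ ∫ z, dd R n s z ∂μh := by
  classical
  have hR1 : 1 ≤ R := by have := hs.hR; omega
  have hE := EE_pos R
  have hT0 := hT.t0
  have he0 := hT.e0
  have hiso := iso_part hs h1 hY hT J
  set m := wg R (cv (eP n)) with hm
  have hmN : Ntr m := ntr_wg hR1 _
  set ρ : ℤ := ((q + 5 : ℕ) : ℤ) with hρ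
  set r0 : ℤ := ((R / 8 : ℕ) : ℤ) with hr0
  have hρr : ρ ≤ r0 := by have := hs.hr; rw [hρ, hr0]; omega
  have hn8 : (n : ℤ) ≤ r0 := by
    obtain ⟨h1, h2, h3, h4, h5⟩ := hs; rw [hr0]; omega
  have hg8 : sd (0, 0) (cv (eP n)).1 ≤ r0 := mem_BF.1 (near_eP hn8).1
  set Gd := GdE s (eP n) q with hGd
  have mG : MeasurableSet Gd := meas_GdE _ _ _
  set F : Set Cfz := MkE (eP n) N ∩ A1 (0, 0) k q with hF
  have mF : MeasurableSet F := (meas_MkE _ _).inter (meas_A1 _ _ _)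
  have mS : MeasurableSet (MkS s N) := meas_MkS _ _
  set a : Cfz → ℝ := fun z => ind Gd z * (2 * √3 * (W m z - Bn ρ m z)) with ha
  set b : Cfz → ℝ := fun z => ind (MkS s N \ Gd) z * dd R n s z with hb
  set d : Cfz → ℝ := fun z => Gw R n z * (if s ∉ Mk (Mo (0, 0) (N : ℤ)) z then (sg z s : ℝ) else 0)
    with hd
  have ai : Integrable a μh :=
    ind_mul_int mG ((((integrable_W hmN μh).sub (Bn_int hmN ρ))).const_mul _)
  have bi : Integrable b μh := ind_mul_int (mS.diff mG) (dd_int hR1 n s)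
  have ci : Integrable (fun z => ind Gd z * (2 * √3 * Bn ρ m z)) μh :=
    ind_mul_int mG ((Bn_int hmN ρ).const_mul _)
  have key : ∀ z, dd R n s z = ind Gd z * (2 * √3 * Bn ρ m z) + a z + b z + √3 * d z := by
    intro z
    by_cases g1 : z ∈ Gd
    · have g2 := gd_sub_mk hs g1
      have g3 := dd_good hs g1
      have g4 : d z = 0 := by
        rw [hd]
        simp only
        rw [if_neg (not_not.2 (show s ∈ Mk (Mo (0, 0) (N : ℤ)) z from g2)), mul_zero]
      rw [g4, ha, hb]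
      simp only
      rw [ind_of g1, ind_not (E := MkS s N \ Gd) (fun h => h.2 g1), g3]
      ring
    · by_cases g2 : z ∈ MkS s N
      · have g4 : d z = 0 := by
          rw [hd]
          simp only
          rw [if_neg (not_not.2 (show s ∈ Mk (Mo (0, 0) (N : ℤ)) z from g2)), mul_zero]
        rw [g4, ha, hb]
        simp only
        rw [ind_not g1, ind_of (show z ∈ MkS s N \ Gd from ⟨g2, g1⟩)]
        ring
      · have g3 := dd_un hs g2
        have g4 : d z = Gw R n z * (sg z s : ℝ) := by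
          rw [hd]
          simp only
          rw [if_pos (show s ∉ Mk (Mo (0, 0) (N : ℤ)) z from g2)]
        rw [g4, ha, hb]
        simp only
        rw [ind_not g1, ind_not (E := MkS s N \ Gd) (fun h => g2 h.1), g3]
        ring
  have di : Integrable (fun z => √3 * d z) μh := by
    have g : (fun z => √3 * d z) = fun z => dd R n s z -
        (ind Gd z * (2 * √3 * Bn ρ m z) + a z + b z) := by
      funext z; rw [key z]; ring
    rw [g]
    exact (dd_int hR1 n s).sub ((ci.add ai).add bi)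
  have hint : ∫ z, dd R n s z ∂μh = ∫ z, ind Gd z * (2 * √3 * Bn ρ m z) ∂μh + ∫ z, a z ∂μh +
      ∫ z, b z ∂μh + √3 * ∫ z, d z ∂μh := by
    have s1 : ∫ z, (ind Gd z * (2 * √3 * Bn ρ m z) + a z) ∂μh =
        ∫ z, ind Gd z * (2 * √3 * Bn ρ m z) ∂μh + ∫ z, a z ∂μh := integral_add ci ai
    have s2 : ∫ z, (ind Gd z * (2 * √3 * Bn ρ m z) + a z + b z) ∂μh =
        ∫ z, (ind Gd z * (2 * √3 * Bn ρ m z) + a z) ∂μh + ∫ z, b z ∂μh :=
      integral_add (ci.add ai) bi
    have s3 : ∫ z, (ind Gd z * (2 * √3 * Bn ρ m z) + a z + b z + √3 * d z) ∂μh =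
        ∫ z, (ind Gd z * (2 * √3 * Bn ρ m z) + a z + b z) ∂μh + ∫ z, √3 * d z ∂μh :=
      integral_add ((ci.add ai).add bi) di
    rw [← integral_const_mul, ← s1, ← s2, ← s3]
    exact integral_congr_ae (Filter.Eventually.of_forall key)
  -- the main term
  have hmain : ∫ z, ind Gd z * (2 * √3 * Bn ρ m z) ∂μh =
      2 * √3 * ((μh).real Gd * ∫ z, Bn ρ m z ∂μh) := by
    have g1 : DepF (eIn (bx (0, 0) ((q + 3 : ℕ) : ℤ))) (ind Gd) := by
      intro z z' h
      have g := dep_GdE s (eP n) q z z' h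
      by_cases h2 : z ∈ Gd
      · rw [ind_of h2, ind_of (g.1 h2)]
      · rw [ind_not h2, ind_not fun h' => h2 (g.2 h')]
    have g2 : DepOff (eIn (bx (0, 0) ((q + 3 : ℕ) : ℤ))) (Bn ρ m) := by
      refine (Bn_off ρ m).mono fun i hi => ?_
      rw [mem_eIn, mem_bx_sd, mem_bx_sd] at hi ⊢
      rw [hρ]
      omega
    have g3 := indep_off g1 g2 (measurable_PP hmN _)
    have g4 : (fun z => ind Gd z * (2 * √3 * Bn ρ m z)) =
        fun z => 2 * √3 * (ind Gd z * Bn ρ m z) := by funext z; ring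
    rw [g4, integral_const_mul, g3, (int_ind mG).2]
  -- the first error
  have e1 : |∫ z, a z ∂μh| ≤ 4 * √3 * EE R *
      (2 * T * ((μh).real Gd * (μh).real (A1 (0, 0) ρ r0)) + η) := by
    have g1 : (μh).real (Gd ∩ A1 (0, 0) ρ r0) = (μh).real Gd * (μh).real (A1 (0, 0) ρ r0) :=
      P2i s (eP n) (by rw [hρ]; omega)
    rw [← g1]
    refine int_le_tr hT (mG.inter (meas_A1 _ _ _)) (by positivity)
      (Filter.Eventually.of_forall fun z => ?_)
    rw [ha]
    simp only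
    by_cases g2 : z ∈ Gd
    · rw [ind_of g2, one_mul]
      by_cases g3 : z ∈ A1 (0, 0) ρ r0
      · rw [ind_of (show z ∈ Gd ∩ A1 (0, 0) ρ r0 from ⟨g2, g3⟩), one_mul, abs_mul,
          abs_of_nonneg (by positivity : (0 : ℝ) ≤ 2 * √3)]
        have g4 : |W m z| ≤ EE R * Y z := by
          rw [W_eq_PP]
          exact abs_PP_ws hs.hR hY hg8 fun _ _ => trivial
        have g5 : |Bn ρ m z| ≤ EE R * Y z := abs_Bn_ws hs.hR hY hρr hg8 z
        have g6 : |W m z - Bn ρ m z| ≤ 2 * (EE R * Y z) :=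
          (abs_sub _ _).trans (by linarith)
        calc 2 * √3 * |W m z - Bn ρ m z| ≤ 2 * √3 * (2 * (EE R * Y z)) :=
              mul_le_mul_of_nonneg_left g6 (by positivity)
          _ = _ := by ring
      · have g4 : W m z = Bn ρ m z := W_Bn (rd_ws hs.hR) hρr _ g3
        rw [g4, sub_self, mul_zero, abs_zero]
        have := ind_nonneg (Gd ∩ A1 (0, 0) ρ r0) z
        have := hT.y0 z
        positivity
    · rw [ind_not g2, zero_mul, abs_zero]
      have := ind_nonneg (Gd ∩ A1 (0, 0) ρ r0) z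
      have := hT.y0 z
      positivity
  -- the second error
  have e2 : |∫ z, b z ∂μh| ≤ 4 * √3 * EE R *
      (2 * T * (p2 (N - 6) * (p2 (N - 6) * (μh).real (A1 (0, 0) k q))) + η) := by
    have g0 : (μh).real (MkS s N ∩ F) ≤
        p2 (N - 6) * (p2 (N - 6) * (μh).real (A1 (0, 0) k q)) := by
      have hk2 : (n : ℤ) + N < ((k : ℕ) : ℤ) := by have := hs.hk; omega
      have hn2 : 2 * (N : ℤ) < n := by have := hs.hn; omega
      have g := P3 (n := n) (N := N) (A := MkS s N) (k := (k : ℤ)) (q := (q : ℤ))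
        (dep_MkS s N) hn2 hk2
      rw [hF]
      refine g.trans_le ?_
      exact mul_le_mul (P_MkS s N h1) (mul_le_mul_of_nonneg_right (P_MkE _ _) measureReal_nonneg)
        (mul_nonneg measureReal_nonneg measureReal_nonneg) (p2_nonneg _)
    have g1 := int_le_tr hT (mS.inter mF) (c := 4 * √3 * EE R) (by positivity) (f := b) (by
      filter_upwards [Vx107.ae_fin] with z hz
      rw [hb]
      simp only
      by_cases g2 : z ∈ MkS s N \ Gd
      · rw [ind_of g2, one_mul]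
        by_cases g3 : dd R n s z = 0
        · rw [g3, abs_zero]
          have := ind_nonneg (MkS s N ∩ F) z
          have := hT.y0 z
          positivity
        · rw [ind_of (dd_bad hs h1 (hz s) (hz (eP n)) g2.1 g2.2 g3), one_mul]
          exact dd_le hs h1 hY (hz s) (hz (eP n))
      · rw [ind_not g2, zero_mul, abs_zero]
        have := ind_nonneg (MkS s N ∩ F) z
        have := hT.y0 z
        positivity)
    refine g1.trans (mul_le_mul_of_nonneg_left ?_ (by positivity))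
    have g2 : 2 * T * (μh).real (MkS s N ∩ F) ≤
        2 * T * (p2 (N - 6) * (p2 (N - 6) * (μh).real (A1 (0, 0) k q))) :=
      mul_le_mul_of_nonneg_left g0 (by positivity)
    linarith
  -- assembly
  have e3 : |√3 * ∫ z, d z ∂μh| ≤ 12 * EE R * (2 * T * (p2 (N - 6) *
      (μh).real (A1 (0, 0) k q)) * Sg N J + (J + 2) * η) := by
    rw [abs_mul, abs_of_nonneg (Real.sqrt_nonneg 3)]
    have g1 := mul_le_mul_of_nonneg_left hiso (Real.sqrt_nonneg 3)
    have g2 : √3 * √3 = 3 := Real.mul_self_sqrt (by norm_num)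
    calc √3 * |∫ z, d z ∂μh| ≤ √3 * (4 * √3 * EE R * (2 * T * (p2 (N - 6) *
          (μh).real (A1 (0, 0) k q)) * Sg N J + (J + 2) * η)) := g1
      _ = (√3 * √3) * (4 * EE R * (2 * T * (p2 (N - 6) *
          (μh).real (A1 (0, 0) k q)) * Sg N J + (J + 2) * η)) := by ring
      _ = _ := by rw [g2]; ring
  rw [hint, hmain]
  have l1 := neg_abs_le (∫ z, a z ∂μh)
  have l2 := neg_abs_le (∫ z, b z ∂μh)
  have l3 := neg_abs_le (√3 * ∫ z, d z ∂μh)
  set P := (μh).real Gd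
  set A := (μh).real (A1 (0, 0) k q)
  set B := (μh).real (A1 (0, 0) ρ r0)
  set M := p2 (N - 6)
  have hS : 0 ≤ Sg N J := Sg_nonneg N J
  have hA : 0 ≤ A := measureReal_nonneg
  have hM : 0 ≤ M := p2_nonneg _
  have h3 : √3 ≤ 2 := by
    rw [Real.sqrt_le_left (by norm_num)]; norm_num
  have h30 : 0 ≤ √3 := Real.sqrt_nonneg 3
  have hJ : (0 : ℝ) ≤ J := Nat.cast_nonneg J
  have f1 : 4 * √3 * EE R * (2 * T * (P * B) + η) ≤ 2 * √3 * (P * (4 * T * EE R * B)) +
      8 * EE R * η := by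
    have : √3 * (EE R * η) ≤ 2 * (EE R * η) := mul_le_mul_of_nonneg_right h3 (by positivity)
    nlinarith
  have f2 : 4 * √3 * EE R * (2 * T * (M * (M * A)) + η) ≤
      16 * (EE R * (T * (M * A) * M)) + 8 * EE R * η := by
    have k1 : √3 * (EE R * η) ≤ 2 * (EE R * η) := mul_le_mul_of_nonneg_right h3 (by positivity)
    have k2 : √3 * (EE R * (T * (M * A) * M)) ≤ 2 * (EE R * (T * (M * A) * M)) :=
      mul_le_mul_of_nonneg_right h3 (by positivity)
    nlinarith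
  have f3 : 0 ≤ EE R * (T * (M * A) * M) := by positivity
  have f4 : 0 ≤ EE R * η := by positivity
  have f5 : 0 ≤ EE R * ((J : ℝ) * η) := by positivity
  have f6 : EE R * (24 * T * (M * A) * (M + Sg N J) + 24 * (J + 4) * η) =
      24 * (EE R * (T * (M * A) * M)) + 12 * EE R * (2 * T * (M * A) * Sg N J) +
        24 * (EE R * ((J : ℝ) * η)) + 96 * (EE R * η) := by ring
  have f7 : 12 * EE R * (2 * T * (M * A) * Sg N J + (J + 2) * η) =
      12 * EE R * (2 * T * (M * A) * Sg N J) + 12 * (EE R * ((J : ℝ) * η)) +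
        24 * (EE R * η) := by ring
  have f8 : 2 * √3 * (P * (∫ z, Bn ρ m z ∂μh - 4 * T * EE R * B)) =
      2 * √3 * (P * ∫ z, Bn ρ m z ∂μh) - 2 * √3 * (P * (4 * T * EE R * B)) := by ring
  rw [f6, f8]
  rw [f7] at e3
  linarith

end Crest.Agent.R158.Fd61
end
end

-- ▼ part R158/Md1_468
section

/-!
# Row 158, Block A4 / D (helper468), part 1: two nice two-arm points on the same strand

* `dO b`, `dD b` : exit directions of the open and the dual arm (`b = true` : open east, dual west)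
* `NP2 m b`, `ND2 m f b`, `N2 m f b` : nice two arms at the origin (580's gates)
* `dep_shift`, `dual_shift` : translations
* `Tb m b` : tube joining the exits of the points `0` and `(0, 256 m)` on the side `b`
-/

set_option autoImplicit false

noncomputable section

namespace Crest.Agent.R158.Mc468

open MeasureTheory ProbabilityTheory unitInterval
open Crest.Agent.R161.Geo729 Crest.Agent.R161.Topo374 Crest.Agent.R161.Dual374
open Crest.Agent.R161.Tas682 Crest.Agent.R161.Ring421 Crest.Agent.R161.Sym597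
open Crest.Agent.R161.Ifc372 Crest.Agent.R161.Hull374 Crest.Agent.R161.Ann374
open Crest.Agent.R158.It200 (OCl DCl Lp fc Corner)
open Crest.Agent.R158.Qm522 Crest.Agent.R158.Rs689
open Crest.Agent.R158.Ru874 Crest.Agent.R158.Sp580
open Crest.Agent.R158.Cpl963 (OC_shift_iff)

/-! ### same strand -/

/-- two corners with the same open cluster and the same dual cluster lie on the same strand -/
theorem same_strand {z : Cfz} {s e : Corner} (hfin : (Lp z s).Finite) (hv : e.1 ∈ OCl z s.1)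
    (hf : fc e ∈ DCl z (fc s)) : e ∈ Lp z s := by
  obtain ⟨A, hA, hAf⟩ := Wf850.exists_int hfin
  have h1 : Wf850.sepC A s := (Wf850.sep_iff hfin hAf s).2 (It200.mem_Lp_self z s)
  have h2 : Wf850.cv s ∈ A ↔ Wf850.cv e ∈ A := Wf850.lps_cl hA ⟨rfl, Or.inl ⟨rfl, hv⟩⟩
  have h3 : Wf850.cf s ∈ A ↔ Wf850.cf e ∈ A := Wf850.lps_cl hA ⟨rfl, Or.inr ⟨rfl, hf⟩⟩
  rw [← Wf850.sep_iff hfin hAf e]
  unfold Wf850.sepC at h1 ⊢
  rw [← h2, ← h3]
  exact h1

/-! ### translations -/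

theorem dual_shift (a : P2) (z : Cfz) : dual (shiftZ a z) = shiftZ a (dual z) := by
  funext e
  obtain ⟨⟨i, j⟩, c⟩ := e
  obtain ⟨a1, a2⟩ := a
  cases c
  · show (!z ((i + 1 + a1, j + a2), true)) = !z ((i + a1 + 1, j + a2), true)
    rw [show i + 1 + a1 = i + a1 + 1 by ring]
  · show (!z ((i + a1, j + 1 + a2), false)) = !z ((i + a1, j + a2 + 1), false)
    rw [show j + 1 + a2 = j + a2 + 1 by ring]

theorem dep_shift {S : Finset Edge} {A : Set Cfz} (hA : Dep S A) (a : P2) :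
    Dep (S.map (shE a).toEmbedding) (shiftZ a ⁻¹' A) := by
  intro z z' h
  refine hA _ _ fun e he => ?_
  exact h (shE a e) (Finset.mem_map.2 ⟨e, he, rfl⟩)

theorem inc_shift {A : Set Cfz} (hA : Inc A) (a : P2) : Inc (shiftZ a ⁻¹' A) :=
  fun _ _ h hz => hA _ _ (fun _ he => h _ he) hz

theorem decr_shift {A : Set Cfz} (hA : Decr A) (a : P2) : Decr (shiftZ a ⁻¹' A) :=
  fun _ _ h hz => hA _ _ (fun _ he => h _ he) hz

theorem prob_shift {A : Set Cfz} (hA : MeasurableSet A) (a : P2) :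
    (nu hf).real (shiftZ a ⁻¹' A) = (nu hf).real A := by
  have ht := tInv hf a
  conv_rhs => rw [← ht]
  rw [measureReal_def, measureReal_def, Measure.map_apply (measurable_shiftZ a) hA]

/-! ### nice two arms -/

/-- direction of the open arm -/
def dO (b : Bool) : Fin 4 := if b then 0 else 2

/-- direction of the dual arm -/
def dD (b : Bool) : Fin 4 := if b then 2 else 0

/-- open part -/
def NP2 (m : ℕ) (b : Bool) : Set Cfz := {z | GArm z (dO b) m (0, 0)}

/-- dual part -/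
def ND2 (m : ℕ) (f : P2) (b : Bool) : Set Cfz := {z | GArm (dual z) (dD b) m f}

/-- nice two arms of the vertex `(0,0)` and the face `f` -/
def N2 (m : ℕ) (f : P2) (b : Bool) : Set Cfz := NP2 m b ∩ ND2 m f b

/-- support -/
def VS (d : Fin 4) (m : ℕ) : Set P2 := Sq (16 * m) ∪ Corr d m

theorem VS_finite (d : Fin 4) (m : ℕ) : (VS d m).Finite :=
  (Sq_finite _).union ((Sq_finite _).subset (Corr_sub d m))

theorem dep_garm (d : Fin 4) (m : ℕ) (u : P2) : Dep (edF (VS d m)) {z : Cfz | GArm z d m u} :=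
  fun _ _ h => garm_iff (VS_finite d m) subset_rfl h

theorem dep_NP2 (m : ℕ) (b : Bool) : Dep (edF (VS (dO b) m)) (NP2 m b) := dep_garm _ _ _

theorem dep_ND2 (m : ℕ) (f : P2) (b : Bool) :
    Dep ((edF (VS (dD b) m)).map dE.symm.toEmbedding) (ND2 m f b) := (dep_garm _ _ _).dual

theorem inc_NP2 (m : ℕ) (b : Bool) : Inc (NP2 m b) := fun _ _ h hz => GArm.mono h hz

theorem decr_ND2 (m : ℕ) (f : P2) (b : Bool) : Decr (ND2 m f b) := fun _ _ h hz =>
  GArm.mono (dual_anti h) hz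

/-! ### gates at a translate -/

theorem garm_E {z : Cfz} {a : P2} {m : ℕ} {u p q : P2} {X : ℤ} (hu : GArm (shiftZ a z) 0 m u)
    (h : OC z (Rect (a.1 + 20 * m) (a.1 + X) (a.2 - 4 * m) (a.2 + 4 * m)) p q)
    (hp : p.1 = a.1 + 20 * m) (hq : q.1 = a.1 + X) (hX : 32 * (m : ℤ) ≤ X) :
    Rch z (u + a) p := by
  have h1 : OC (shiftZ a z) (Rect (20 * m) X (-(4 * m)) (4 * m)) (p - a) (q - a) := by
    rw [OC_shift_iff, sub_add_cancel, sub_add_cancel]
    refine h.monoS fun w hw => ?_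
    rw [mem_rect] at hw
    show w - a ∈ Rect _ _ _ _
    rw [mem_rect, Prod.fst_sub, Prod.snd_sub]
    omega
  have h2 := gateE hu h1 (by rw [Prod.fst_sub]; omega) (by rw [Prod.fst_sub]; omega) hX
  have h3 := rch_shift a h2
  rwa [sub_add_cancel] at h3

theorem garm_W {z : Cfz} {a : P2} {m : ℕ} {u p q : P2} {X : ℤ} (hu : GArm (shiftZ a z) 2 m u)
    (h : OC z (Rect (a.1 + X) (a.1 - 20 * m) (a.2 - 4 * m) (a.2 + 4 * m)) p q)
    (hp : p.1 = a.1 + X) (hq : q.1 = a.1 - 20 * m) (hX : X ≤ -(32 * (m : ℤ))) :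
    Rch z (u + a) p := by
  have h1 : OC (shiftZ a z) (Rect X (-(20 * m)) (-(4 * m)) (4 * m)) (p - a) (q - a) := by
    rw [OC_shift_iff, sub_add_cancel, sub_add_cancel]
    refine h.monoS fun w hw => ?_
    rw [mem_rect] at hw
    show w - a ∈ Rect _ _ _ _
    rw [mem_rect, Prod.fst_sub, Prod.snd_sub]
    omega
  have h2 := gateW hu h1 (by rw [Prod.fst_sub]; omega) (by rw [Prod.fst_sub]; omega) hX
  have h3 := rch_shift a h2
  rwa [sub_add_cancel] at h3

/-! ### the tubes -/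

/-- tube joining the exits at `0` and at `(0, 256 m)`, east (`b = true`) or west -/
def Tb (m : ℕ) (b : Bool) : Set Cfz :=
  if b then
    {z | LRc z (20 * m) (128 * m) (-(4 * m)) (4 * m)} ∩
      ({z | BTc z (64 * m) (128 * m) (-(4 * m)) (260 * m)} ∩
        {z | LRc z (20 * m) (128 * m) (252 * m) (260 * m)})
  else
    {z | LRc z (-(128 * m)) (-(20 * m)) (-(4 * m)) (4 * m)} ∩
      ({z | BTc z (-(128 * m)) (-(64 * m)) (-(4 * m)) (260 * m)} ∩
        {z | LRc z (-(128 * m)) (-(20 * m)) (252 * m) (260 * m)})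

/-- support of the tube -/
def VT (m : ℕ) (b : Bool) : Set P2 :=
  if b then Rect (20 * m) (128 * m) (-(4 * m)) (260 * m)
  else Rect (-(128 * m)) (-(20 * m)) (-(4 * m)) (260 * m)

theorem VT_finite (m : ℕ) (b : Bool) : (VT m b).Finite := by
  cases b
  · exact rect_finite _ _ _ _
  · exact rect_finite _ _ _ _

/-- the second point -/
def y2 (m : ℕ) : P2 := (0, 256 * (m : ℤ))

theorem tube_link {z : Cfz} {m : ℕ} {b : Bool} {u u' : P2} (hz : z ∈ Tb m b)
    (h : GArm z (dO b) m u) (h' : GArm (shiftZ (y2 m) z) (dO b) m u') : Rch z u (u' + y2 m) := by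
  cases b
  · obtain ⟨⟨a1, b1, ha1, hb1, h1⟩, ⟨a2, b2, ha2, hb2, h2⟩, ⟨a3, b3, ha3, hb3, h3⟩⟩ := hz
    have g1 := gateW h h1 ha1 hb1 (by omega)
    have g2 := garm_W (X := -(128 * m)) h' (p := a3) (q := b3) (h3.monoS (fun w hw => by
      rw [mem_rect] at hw ⊢; simp only [y2]; omega)) (by simp only [y2]; omega)
      (by simp only [y2]; omega) (by omega)
    obtain ⟨w1, p1, q1⟩ := glue h1 h2
      (by rintro w ⟨k1, k2, k3, k4⟩; constructor <;> omega)
      (by rintro w ⟨k1, k2, k3, k4⟩; constructor <;> omega)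
    obtain ⟨w2, p2, q2⟩ := glue h3 h2
      (by rintro w ⟨k1, k2, k3, k4⟩; constructor <;> omega)
      (by rintro w ⟨k1, k2, k3, k4⟩; constructor <;> omega)
    exact (((((g1.trans (OC.rch p1)).trans (rch_symm (OC.rch q1))).trans (OC.rch q2)).trans
      (rch_symm (OC.rch p2)))).trans (rch_symm g2)
  · obtain ⟨⟨a1, b1, ha1, hb1, h1⟩, ⟨a2, b2, ha2, hb2, h2⟩, ⟨a3, b3, ha3, hb3, h3⟩⟩ := hz
    have g1 := gateE h h1 ha1 hb1 (by omega)
    have g2 := garm_E (X := 128 * m) h' (p := a3) (q := b3) (h3.monoS (fun w hw => by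
      rw [mem_rect] at hw ⊢; simp only [y2]; omega)) (by simp only [y2]; omega)
      (by simp only [y2]; omega) (by omega)
    obtain ⟨w1, p1, q1⟩ := glue h1 h2
      (by rintro w ⟨k1, k2, k3, k4⟩; constructor <;> omega)
      (by rintro w ⟨k1, k2, k3, k4⟩; constructor <;> omega)
    obtain ⟨w2, p2, q2⟩ := glue h3 h2
      (by rintro w ⟨k1, k2, k3, k4⟩; constructor <;> omega)
      (by rintro w ⟨k1, k2, k3, k4⟩; constructor <;> omega)
    exact (((((g1.trans (OC.rch p1)).trans (rch_symm (OC.rch q1))).trans (OC.rch q2)).trans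
      (rch_symm (OC.rch p2)))).trans (rch_symm g2)

theorem Tb_ge : ∃ c : ℝ, 0 < c ∧ ∀ (m : ℕ) (b : Bool), 1 ≤ m → GE (edF (VT m b)) c (Tb m b) := by
  obtain ⟨c, hc, _, h⟩ := rsw_rect 14
  refine ⟨c * (c * c), by positivity, fun m b hm => ?_⟩
  have fin := VT_finite m b
  cases b
  · have e1 := (lr_ge hc.le (x0 := -(128 * m)) (x1 := -(20 * m)) (y0 := -(4 * m)) (y1 := 4 * m)
      (h _ _ (by omega) (by omega) (by omega))).mono (edF_sub fin (fun v hv => by
        show v ∈ Rect _ _ _ _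
        rw [mem_rect] at hv ⊢; omega))
    have e2 := (bt_ge hc.le (x0 := -(128 * m)) (x1 := -(64 * m)) (y0 := -(4 * m)) (y1 := 260 * m)
      (h _ _ (by omega) (by omega) (by omega))).mono (edF_sub fin (fun v hv => by
        show v ∈ Rect _ _ _ _
        rw [mem_rect] at hv ⊢; omega))
    have e3 := (lr_ge hc.le (x0 := -(128 * m)) (x1 := -(20 * m)) (y0 := 252 * m) (y1 := 260 * m)
      (h _ _ (by omega) (by omega) (by omega))).mono (edF_sub fin (fun v hv => by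
        show v ∈ Rect _ _ _ _
        rw [mem_rect] at hv ⊢; omega))
    exact e1.inter (e2.inter e3)
  · have e1 := (lr_ge hc.le (x0 := 20 * m) (x1 := 128 * m) (y0 := -(4 * m)) (y1 := 4 * m)
      (h _ _ (by omega) (by omega) (by omega))).mono (edF_sub fin (fun v hv => by
        show v ∈ Rect _ _ _ _
        rw [mem_rect] at hv ⊢; omega))
    have e2 := (bt_ge hc.le (x0 := 64 * m) (x1 := 128 * m) (y0 := -(4 * m)) (y1 := 260 * m)
      (h _ _ (by omega) (by omega) (by omega))).mono (edF_sub fin (fun v hv => by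
        show v ∈ Rect _ _ _ _
        rw [mem_rect] at hv ⊢; omega))
    have e3 := (lr_ge hc.le (x0 := 20 * m) (x1 := 128 * m) (y0 := 252 * m) (y1 := 260 * m)
      (h _ _ (by omega) (by omega) (by omega))).mono (edF_sub fin (fun v hv => by
        show v ∈ Rect _ _ _ _
        rw [mem_rect] at hv ⊢; omega))
    exact e1.inter (e2.inter e3)

end Crest.Agent.R158.Mc468
end
end

-- ▼ part R158/Md2_468
section

/-!
# Row 158, Block A4 / D (helper468), part 2: probability of the main event of identity D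

* `MD m q b` : local event (two nice two-arm points of corner type `q`, tubes of both colours, one
  open circuit)
* `md_prob` : `c P(N2)² ≤ P(MD)`
* `md_sub` : on `MD` the corners `((0,0), q)` and `((0, 256 m), q)` lie on the same strand, and this
  strand stays in the ball of radius `1024 m + 1`
* `i6` : the two together
-/

set_option autoImplicit false

noncomputable section

namespace Crest.Agent.R158.Mc468

open MeasureTheory ProbabilityTheory unitInterval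
open Crest.Agent.R161.Geo729 Crest.Agent.R161.Topo374 Crest.Agent.R161.Dual374
open Crest.Agent.R161.Tas682 Crest.Agent.R161.Ring421 Crest.Agent.R161.Sym597
open Crest.Agent.R161.Ifc372 Crest.Agent.R161.Hull374 Crest.Agent.R161.Ann374
open Crest.Agent.R158.It200 (OCl DCl Lp fc Corner)
open Crest.Agent.R158.Qm522 Crest.Agent.R158.Rs689
open Crest.Agent.R158.Ru874 Crest.Agent.R158.Sp580
open Crest.Agent.R158.Cpl963 (OC_shift_iff)

/-! ### supports -/

theorem near_dual {D : Set P2} {e : Edge} (h : e ∈ (edF D).map dE.symm.toEmbedding) :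
    ∃ v ∈ D, (src e).1 - 1 ≤ v.1 ∧ v.1 ≤ (src e).1 + 1 ∧ (src e).2 - 1 ≤ v.2 ∧
      v.2 ≤ (src e).2 + 1 := by
  rw [Finset.mem_map] at h
  obtain ⟨e', he', rfl⟩ := h
  refine ⟨_, (of_mem_edF he').1, ?_⟩
  obtain ⟨⟨i, j⟩, c⟩ := e'
  cases c <;> simp [dE, src] <;> omega

theorem near_shift {S : Finset Edge} {a : P2} {e : Edge} (h : e ∈ S.map (shE a).toEmbedding) :
    ∃ e' ∈ S, (src e).1 = (src e').1 + a.1 ∧ (src e).2 = (src e').2 + a.2 := by
  rw [Finset.mem_map] at h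
  obtain ⟨e', he', rfl⟩ := h
  exact ⟨e', he', rfl, rfl⟩

theorem VS_box {d : Fin 4} {m : ℕ} (hd : d = 0 ∨ d = 2) {v : P2} (hv : v ∈ VS d m) :
    (if d = 0 then -(16 * (m : ℤ)) ≤ v.1 ∧ v.1 ≤ 32 * m else -(32 * (m : ℤ)) ≤ v.1 ∧ v.1 ≤ 16 * m) ∧
      -(16 * (m : ℤ)) ≤ v.2 ∧ v.2 ≤ 16 * m := by
  rcases hv with hv | hv
  · rw [mem_Sq] at hv
    rcases hd with rfl | rfl <;> simp <;> omega
  · obtain ⟨g1, g2, g3, g4⟩ := hv
    rcases hd with rfl | rfl <;> simp only [co] at g1 g2 g3 g4 <;> simp <;> omega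

/-- edges used by the open arms at both points -/
def TP (m : ℕ) (d : Fin 4) : Finset Edge := by
  classical
  exact edF (VS d m) ∪ (edF (VS d m)).map (shE (y2 m)).toEmbedding

/-- edges used by the dual arms at both points -/
def TD (m : ℕ) (d : Fin 4) : Finset Edge := by
  classical
  exact (edF (VS d m)).map dE.symm.toEmbedding ∪
    ((edF (VS d m)).map dE.symm.toEmbedding).map (shE (y2 m)).toEmbedding

theorem TP_box {m : ℕ} {d : Fin 4} (hd : d = 0 ∨ d = 2) {e : Edge} (h : e ∈ TP m d) :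
    (if d = 0 then -(16 * (m : ℤ)) ≤ (src e).1 ∧ (src e).1 ≤ 32 * m
      else -(32 * (m : ℤ)) ≤ (src e).1 ∧ (src e).1 ≤ 16 * m) ∧
      -(16 * (m : ℤ)) ≤ (src e).2 ∧ (src e).2 ≤ 272 * m := by
  classical
  unfold TP at h
  rw [Finset.mem_union] at h
  rcases h with h | h
  · have h1 := VS_box hd (of_mem_edF h).1
    refine ⟨h1.1, h1.2.1, ?_⟩
    omega
  · obtain ⟨e', he', k1, k2⟩ := near_shift h
    have h1 := VS_box hd (of_mem_edF he').1
    simp only [y2, add_zero] at k1 k2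
    rw [k1, k2]
    refine ⟨h1.1, ?_, ?_⟩ <;> omega

theorem TD_box {m : ℕ} {d : Fin 4} (hd : d = 0 ∨ d = 2) {e : Edge} (h : e ∈ TD m d) :
    (if d = 0 then -(16 * (m : ℤ)) - 1 ≤ (src e).1 ∧ (src e).1 ≤ 32 * m + 1
      else -(32 * (m : ℤ)) - 1 ≤ (src e).1 ∧ (src e).1 ≤ 16 * m + 1) ∧
      -(16 * (m : ℤ)) - 1 ≤ (src e).2 ∧ (src e).2 ≤ 272 * m + 1 := by
  classical
  unfold TD at h
  rw [Finset.mem_union] at h
  rcases h with h | h
  · obtain ⟨v, hv, k1, k2, k3, k4⟩ := near_dual h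
    have h1 := VS_box hd hv
    rcases hd with rfl | rfl <;> simp at h1 ⊢ <;> omega
  · obtain ⟨e', he', k1, k2⟩ := near_shift h
    obtain ⟨v, hv, g1, g2, g3, g4⟩ := near_dual he'
    have h1 := VS_box hd hv
    simp only [y2, add_zero] at k1 k2
    rcases hd with rfl | rfl <;> simp at h1 ⊢ <;> omega

theorem dO_cases (b : Bool) : dO b = 0 ∨ dO b = 2 := by cases b <;> simp [dO]

theorem dD_cases (b : Bool) : dD b = 0 ∨ dD b = 2 := by cases b <;> simp [dD]

theorem dD_eq (b : Bool) : dD b = dO (!b) := by cases b <;> rfl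

/-- vertices used by the forced open event -/
def VQ (m : ℕ) (b : Bool) : Set P2 := VT m b ∪ An (0, 0) (512 * m) (1024 * m)

theorem VQ_finite (m : ℕ) (b : Bool) : (VQ m b).Finite := (VT_finite m b).union (an_finite _ _ _)

theorem VT_box {m : ℕ} {b : Bool} {v : P2} (h : v ∈ VT m b) :
    (if b then 20 * (m : ℤ) ≤ v.1 ∧ v.1 ≤ 128 * m else -(128 * (m : ℤ)) ≤ v.1 ∧ v.1 ≤ -(20 * m)) ∧
      -(4 * (m : ℤ)) ≤ v.2 ∧ v.2 ≤ 260 * m := by
  cases b
  · have h : v ∈ Rect _ _ _ _ := h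
    rw [mem_rect] at h
    simp; omega
  · have h : v ∈ Rect _ _ _ _ := h
    rw [mem_rect] at h
    simp; omega

theorem ddisj1 {m : ℕ} (hm : 1 ≤ m) (b : Bool) :
    Disjoint (TP m (dO b)) ((edF (VT m (!b))).map dE.symm.toEmbedding) := by
  rw [Finset.disjoint_left]
  intro e h1 h2
  have k1 := TP_box (dO_cases b) h1
  obtain ⟨v, hv, g1, g2, g3, g4⟩ := near_dual h2
  have k2 := VT_box hv
  cases b <;> simp [dO] at k1 k2 <;> omega

theorem ddisj2 {m : ℕ} (hm : 1 ≤ m) (b : Bool) :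
    Disjoint (TD m (dD b)) (edF (VQ m b)) := by
  rw [Finset.disjoint_left]
  intro e h1 h2
  have k1 := TD_box (dD_cases b) h1
  rcases (of_mem_edF h2).1 with h3 | h3
  · have k2 := VT_box h3
    cases b <;> simp [dD] at k1 k2 <;> omega
  · have k2 := h3.1
    rw [le_sd] at k2
    cases b <;> simp [dD] at k1 k2 <;> omega

theorem ddisj3 {m : ℕ} (hm : 1 ≤ m) (b : Bool) :
    Disjoint (edF (VQ m b)) ((edF (VT m (!b))).map dE.symm.toEmbedding) := by
  rw [Finset.disjoint_left]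
  intro e h1 h2
  obtain ⟨v, hv, g1, g2, g3, g4⟩ := near_dual h2
  have k1 := VT_box hv
  rcases (of_mem_edF h1).1 with h3 | h3
  · have k2 := VT_box h3
    cases b <;> simp at k1 k2 <;> omega
  · have k2 := h3.1
    rw [le_sd] at k2
    cases b <;> simp at k1 k2 <;> omega

/-! ### the event -/

/-- the face of the corner of type `q` at the origin -/
def f0 (q : Fin 4) : P2 := fc ((0, 0), q)

/-- arms at both points -/
def MDa (m : ℕ) (q : Fin 4) (b : Bool) : Set Cfz :=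
  (NP2 m b ∩ shiftZ (y2 m) ⁻¹' NP2 m b) ∩ (ND2 m (f0 q) b ∩ shiftZ (y2 m) ⁻¹' ND2 m (f0 q) b)

/-- forced open event -/
def MDp (m : ℕ) (b : Bool) : Set Cfz := Tb m b ∩ CircZ (0, 0) (512 * m) (2 * (512 * m))

/-- the main event of D -/
def MD (m : ℕ) (q : Fin 4) (b : Bool) : Set Cfz := MDa m q b ∩ (MDp m b ∩ dual ⁻¹' Tb m (!b))

theorem MDp_ge : ∃ c : ℝ, 0 < c ∧ ∀ (m : ℕ) (b : Bool), 1 ≤ m → GE (edF (VQ m b)) c (MDp m b) := by
  obtain ⟨c, hc, h⟩ := Tb_ge
  obtain ⟨q, hq, _, hq'⟩ := rsw_circ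
  refine ⟨c * q, by positivity, fun m b hm => ?_⟩
  have fin := VQ_finite m b
  have e1 := (h m b hm).mono (edF_sub fin Set.subset_union_left)
  have e2 := (circz_ge hq.le (hq' (0, 0) (512 * m) (by omega))).mono
    (edF_sub fin (fun v hv => Or.inr (by
      refine ⟨?_, ?_⟩
      · have := hv.1; push_cast at this; omega
      · have := hv.2; push_cast at this; omega)))
  exact e1.inter e2

theorem dep_TPa (m : ℕ) (b : Bool) :
    Dep (TP m (dO b)) (NP2 m b ∩ shiftZ (y2 m) ⁻¹' NP2 m b) := by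
  classical
  unfold TP
  exact ((dep_NP2 m b).mono Finset.subset_union_left).inter
    ((dep_shift (dep_NP2 m b) (y2 m)).mono Finset.subset_union_right)

theorem dep_TDa (m : ℕ) (f : P2) (b : Bool) :
    Dep (TD m (dD b)) (ND2 m f b ∩ shiftZ (y2 m) ⁻¹' ND2 m f b) := by
  classical
  unfold TD
  exact ((dep_ND2 m f b).mono Finset.subset_union_left).inter
    ((dep_shift (dep_ND2 m f b) (y2 m)).mono Finset.subset_union_right)

theorem MD_dep {m : ℕ} (hm : 1 ≤ m) (q : Fin 4) (b : Bool) : ∃ S : Finset Edge, Dep S (MD m q b) := by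
  classical
  obtain ⟨c, _, h⟩ := MDp_ge
  obtain ⟨c', _, h'⟩ := Tb_ge
  refine ⟨(TP m (dO b) ∪ TD m (dD b)) ∪ (edF (VQ m b) ∪ (edF (VT m (!b))).map dE.symm.toEmbedding),
    Dep.inter (Dep.mono Finset.subset_union_left (Dep.inter (Dep.mono Finset.subset_union_left
      (dep_TPa m b)) (Dep.mono Finset.subset_union_right (dep_TDa m (f0 q) b))))
      (Dep.mono Finset.subset_union_right (Dep.inter (Dep.mono Finset.subset_union_left
        (h m b hm).dep) (Dep.mono Finset.subset_union_right (h' m (!b) hm).dep.dual)))⟩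

/-- the two points are independent -/
theorem MDa_prob {m : ℕ} (hm : 1 ≤ m) (q : Fin 4) (b : Bool) :
    (nu hf).real (MDa m q b) = (nu hf).real (N2 m (f0 q) b) * (nu hf).real (N2 m (f0 q) b) := by
  classical
  have e1 : MDa m q b = N2 m (f0 q) b ∩ shiftZ (y2 m) ⁻¹' N2 m (f0 q) b := by
    unfold MDa N2
    rw [Set.preimage_inter, Set.inter_inter_inter_comm]
  set S : Finset Edge := edF (VS (dO b) m) ∪ (edF (VS (dD b) m)).map dE.symm.toEmbedding
  have h1 : Dep S (N2 m (f0 q) b) := ((dep_NP2 m b).mono Finset.subset_union_left).inter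
    ((dep_ND2 m (f0 q) b).mono Finset.subset_union_right)
  have hbox : ∀ e ∈ S, -(17 * (m : ℤ)) ≤ (src e).2 ∧ (src e).2 ≤ 17 * m := by
    intro e he
    rcases Finset.mem_union.1 he with he | he
    · have k := VS_box (dO_cases b) (of_mem_edF he).1
      omega
    · obtain ⟨v, hv, g1, g2, g3, g4⟩ := near_dual he
      have k := VS_box (dD_cases b) hv
      omega
  have hd : Disjoint S (S.map (shE (y2 m)).toEmbedding) := by
    rw [Finset.disjoint_left]
    intro e he he'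
    obtain ⟨e', he', k1, k2⟩ := near_shift he'
    have g1 := hbox e he
    have g2 := hbox e' he'
    simp only [y2] at k2
    omega
  have h2 := PB_indep_real (fun _ : Edge => hf) hd h1 (dep_shift h1 (y2 m))
  rw [e1]
  have h3 := prob_shift h1.measurableSet (y2 m)
  calc (nu hf).real (N2 m (f0 q) b ∩ shiftZ (y2 m) ⁻¹' N2 m (f0 q) b)
      = (nu hf).real (N2 m (f0 q) b) * (nu hf).real (shiftZ (y2 m) ⁻¹' N2 m (f0 q) b) := h2
    _ = _ := by rw [h3]

/-- **probability of the main event of D** -/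
theorem md_prob : ∃ c : ℝ, 0 < c ∧ ∀ (m : ℕ) (q : Fin 4) (b : Bool), 1 ≤ m →
    c * ((nu hf).real (N2 m (f0 q) b) * (nu hf).real (N2 m (f0 q) b)) ≤
      (nu hf).real (MD m q b) := by
  obtain ⟨c1, hc1, h1⟩ := MDp_ge
  obtain ⟨c2, hc2, h2⟩ := Tb_ge
  refine ⟨c1 * c2, by positivity, fun m q b hm => ?_⟩
  have e1 := h1 m b hm
  have e2 := h2 m (!b) hm
  have g := gen_fkg_dual hf (dep_TPa m b) (dep_TDa m (f0 q) b) e1.dep e2.dep (ddisj1 hm b)
    (ddisj2 hm b) (ddisj3 hm b) ((inc_NP2 m b).inter (inc_shift (inc_NP2 m b) _))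
    ((decr_ND2 m (f0 q) b).inter (decr_shift (decr_ND2 m (f0 q) b) _)) e1.inc e2.inc
  refine le_trans ?_ g
  have e3 := MDa_prob hm q b
  have e4 : (nu hf).real ((NP2 m b ∩ shiftZ (y2 m) ⁻¹' NP2 m b) ∩
      (ND2 m (f0 q) b ∩ shiftZ (y2 m) ⁻¹' ND2 m (f0 q) b)) =
      (nu hf).real (N2 m (f0 q) b) * (nu hf).real (N2 m (f0 q) b) := e3
  rw [e4, sigma_hf, mul_comm]
  refine mul_le_mul_of_nonneg_left ?_ (mul_nonneg measureReal_nonneg measureReal_nonneg)
  exact mul_le_mul e1.le e2.le hc2.le measureReal_nonneg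

/-! ### the strand -/

theorem fc_shift (a : P2) (q : Fin 4) : fc (a, q) = f0 q + a := by
  obtain ⟨x, y⟩ := a
  fin_cases q <;> refine Prod.ext ?_ ?_ <;> simp [f0, fc] <;> ring

theorem f0_box (q : Fin 4) : -1 ≤ (f0 q).1 ∧ (f0 q).1 ≤ 0 ∧ -1 ≤ (f0 q).2 ∧ (f0 q).2 ≤ 0 := by
  fin_cases q <;> simp [f0, fc]

/-- **on the main event the two corners are on the same strand, inside the ball of radius `4n`** -/
theorem md_sub {m : ℕ} (hm : 1 ≤ m) (q : Fin 4) (b : Bool) {z : Cfz} (hz : z ∈ MD m q b) :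
    (Lp z ((0, 0), q)).Finite ∧ (y2 m, q) ∈ Lp z ((0, 0), q) ∧
      ∀ d ∈ Lp z ((0, 0), q), sd (0, 0) (fc d) ≤ 1024 * m ∧ sd (0, 0) d.1 ≤ 1024 * m + 1 := by
  obtain ⟨⟨⟨hP1, hP2⟩, hD1, hD2⟩, ⟨hT, hC⟩, hT'⟩ := hz
  have hball : ∀ g ∈ DCl z (fc ((0, 0), q)), g ∈ ball (0, 0) (2 * (512 * m)) := by
    intro g hg
    rw [mem_dcl] at hg
    refine circ_block' hC ?_ hg
    have h1 := f0_box q
    have h2 : fc ((0, 0), q) = f0 q := rfl
    rw [h2, mem_ball]
    push_cast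
    omega
  have hfinD : (DCl z (fc ((0, 0), q))).Finite :=
    (Finset.finite_toSet (ball (0, 0) (2 * (512 * m)))).subset fun g hg => hball g hg
  have hfin : (Lp z ((0, 0), q)).Finite := It200.Lp_finite_of_f hfinD
  have hopen : Rch z (0, 0) ((0, 0) + y2 m) := tube_link hT hP1 hP2
  have hdual : Rch (dual z) (f0 q) (f0 q + y2 m) := by
    have k1 : GArm (dual z) (dO (!b)) m (f0 q) := by rw [← dD_eq]; exact hD1
    have k2 : GArm (shiftZ (y2 m) (dual z)) (dO (!b)) m (f0 q) := by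
      rw [← dD_eq, ← dual_shift]; exact hD2
    exact tube_link hT' k1 k2
  refine ⟨hfin, same_strand hfin ?_ ?_, fun d hd => ?_⟩
  · have : ((0, 0) : P2) + y2 m = y2 m := zero_add _
    rw [this] at hopen
    exact hopen
  · have e2 : fc (y2 m, q) = f0 q + y2 m := fc_shift _ _
    rw [mem_dcl, e2]
    exact hdual
  · have h1 := hball _ (It200.Lp_f d hd)
    rw [mem_ball] at h1
    push_cast at h1
    have h2 : sd (0, 0) (fc d) ≤ 1024 * m := by
      rw [sd_le]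
      omega
    exact ⟨h2, (Wf850.sd_corner (0, 0) d).1.trans (by omega)⟩

/-- **(i6)** -/
theorem i6 : ∃ c : ℝ, 0 < c ∧ ∀ (m : ℕ) (q : Fin 4) (b : Bool), 1 ≤ m →
    ∃ E : Set Cfz, (∃ S : Finset Edge, Dep S E) ∧
      c * (nu hf).real (N2 m (f0 q) b) ^ 2 ≤ (nu hf).real E ∧
      ∀ z ∈ E, (Lp z ((0, 0), q)).Finite ∧ (y2 m, q) ∈ Lp z ((0, 0), q) ∧
        ∀ d ∈ Lp z ((0, 0), q), sd (0, 0) (fc d) ≤ 1024 * m ∧ sd (0, 0) d.1 ≤ 1024 * m + 1 := by
  obtain ⟨c, hc, h⟩ := md_prob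
  refine ⟨c, hc, fun m q b hm => ⟨MD m q b, MD_dep hm q b, ?_, fun z hz => md_sub hm q b hz⟩⟩
  have := h m q b hm
  rwa [← pow_two] at this

end Crest.Agent.R158.Mc468
end
end

-- ▼ part R158/Fe2_110
section

/-!
# Row 158, A4 identity D (helper110): the final sum

* `sg_le` : the isolated sum of `LB4_raw`
* `scales`, `A1_small`, `p2_div`, `main_sub`
* `dright : Bs410.Law3 → Vg109.HD → DRight`
-/

set_option autoImplicit false

noncomputable section

namespace Crest.Agent.R158.Fe110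

open Real Function MeasureTheory Filter
open Crest.Agent.R161.Tas682 (sd)
open Crest.Agent.R161.Geo729
open Crest.Agent.R158.It200 (Cfz Corner fc i1 i2 o1 o2 Lp ah)
open Crest.Agent.R158.Wf850 (Lps Face BF sepC sep_iff exists_int sep_uniq cv cf)
open Crest.Agent.R158.Vx107 (Dr Ntr)
open Crest.Agent.R158.Cn109 (VV DepF)
open Crest.Agent.R158.Rs689 (nu Dep)
open Crest.Agent.R158.Ax107 (p2 p4)
open Crest.Agent.R158.Zr110 (nh Mk Mo)
open Crest.Agent.R158.Fd61
open Crest.Agent.R158.Ud107 (cg S4D DRight p2_poly ev_const)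
open Crest.Agent.R158.Cpl963 (A1)

theorem cg_wg (R : ℕ) (g : Face) : cg (2 * π / 3) (Bk430.ws R) g = wg R g := by
  rw [wg_eq]
  unfold cg Fd61.aa
  rw [smul_sub, Finsupp.smul_single, smul_eq_mul, mul_one]

/-- the sum over the four corners -/
theorem S4D_diff {R : ℕ} (hR : 1 ≤ R) (n : ℕ) (x : Edge) :
    S4D (cg (2 * π / 3) (Bk430.ws R) (((0, (n : ℤ)), false) : Face)) x -
      S4D (cg (2 * π / 3) (Bk430.ws R) (((0, (n : ℤ)), true) : Face)) x =
      ∫ z, dd R n (i1 x) z ∂nh + ∫ z, dd R n (i2 x) z ∂nh + ∫ z, dd R n (o1 x) z ∂nh +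
        ∫ z, dd R n (o2 x) z ∂nh := by
  have hfin : ∀ᵐ z ∂nh, Crest.Agent.R158.Vx107.AllFin z := Crest.Agent.R158.Vx107.ae_fin
  have key : ∀ s, ∫ z, dd R n s z ∂nh =
      ∫ z, Dr (cg (2 * π / 3) (Bk430.ws R) (((0, (n : ℤ)), false) : Face)) s z ∂nh -
        ∫ z, Dr (cg (2 * π / 3) (Bk430.ws R) (((0, (n : ℤ)), true) : Face)) s z ∂nh := by
    intro s
    rw [cg_wg, cg_wg, ← integral_sub (Crest.Agent.R158.Vx107.integrable_Dr hfin (ntr_wg hR _) s)
      (Crest.Agent.R158.Vx107.integrable_Dr hfin (ntr_wg hR _) s)]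
    unfold dd
    rw [cv_eP, cf_eP]
  unfold S4D
  rw [key, key, key, key]
  ring

/-! ### arithmetic -/

/-- doubling, iterated -/
theorem p2_div (K : ℕ) (hK : 1 ≤ K) : ∃ C : ℝ, 1 ≤ C ∧ ∀ᶠ n : ℕ in atTop, p2 (n / K) ≤ C * p2 n := by
  obtain ⟨C, hC, hd⟩ := Sc689.p2_dbl Sc689.sep2_ok
  have hpow : ∀ (j m : ℕ), 4 ≤ m → p2 m ≤ C ^ j * p2 (2 ^ j * m) := by
    intro j
    induction j with
    | zero => intro m _; simp
    | succ j ih =>
        intro m hm
        have h1 := ih m hm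
        have h2 : 4 ≤ 2 ^ j * m := le_trans hm (Nat.le_mul_of_pos_left _ (by positivity))
        have h3 := hd (2 ^ j * m) h2
        calc p2 m ≤ C ^ j * p2 (2 ^ j * m) := h1
          _ ≤ C ^ j * (C * p2 (2 * (2 ^ j * m))) := mul_le_mul_of_nonneg_left h3 (by positivity)
          _ = C ^ (j + 1) * p2 (2 ^ (j + 1) * m) := by
              rw [pow_succ, pow_succ, show 2 * (2 ^ j * m) = 2 ^ j * 2 * m by ring]; ring
  refine ⟨C ^ (K + 1), one_le_pow₀ hC, ?_⟩
  filter_upwards [eventually_ge_atTop (4 * K)] with n hn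
  have h1 : 4 ≤ n / K := by rw [Nat.le_div_iff_mul_le (by omega)]; exact hn
  refine (hpow (K + 1) _ h1).trans (mul_le_mul_of_nonneg_left ?_ (by positivity))
  refine Ax107.p2_anti ?_
  have h2 : n < (n / K + 1) * K := by
    have := Nat.lt_div_mul_add (a := n) (b := K) (by omega)
    nlinarith
  have h3 : K < 2 ^ K := Nat.lt_two_pow_self
  have h4 : (n / K + 1) * K ≤ 2 ^ (K + 1) * (n / K) := by
    rw [pow_succ]
    nlinarith
  omega

/-- the isolated sum -/
theorem sg_le {ε : ℝ} (hε : 0 < ε) : ∃ C : ℝ, 1 ≤ C ∧ ∀ᶠ n : ℕ in atTop,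
    p2 (n / 4 - 6) ≤ C * p2 n ∧ Sg (n / 4) (Nat.log 2 (n / 4)) ≤ C * (n : ℝ) ^ ε * p2 n := by
  obtain ⟨K, hK, hT⟩ := Zs110.term_le Sc689.qm2 (ε := ε / 2) (by linarith)
  obtain ⟨C, hC, hd⟩ := p2_div (4 * K) (by omega)
  have h4 : Tendsto (fun n : ℕ => n / 4) atTop atTop :=
    Nat.tendsto_div_const_atTop (by norm_num)
  refine ⟨2 * C, by linarith, ?_⟩
  filter_upwards [h4.eventually hT, h4.eventually (Zs110.log_le (ε := ε / 2) (by linarith)), hd,
    eventually_ge_atTop 4] with n g1 g2 g3 g4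
  obtain ⟨t1, t2, t3⟩ := g1
  obtain ⟨l1, l2⟩ := g2
  rw [Nat.div_div_eq_div_mul] at t1 t2 t3
  have hp0 : 0 ≤ p2 n := Ax107.p2_nonneg n
  have hn4 : 1 ≤ n / 4 := by omega
  have hN0 : (0 : ℝ) < ((n / 4 : ℕ) : ℝ) := by exact_mod_cast hn4
  have hNn : ((n / 4 : ℕ) : ℝ) ≤ n := by exact_mod_cast Nat.div_le_self n 4
  set q : ℝ := ((n / 4 : ℕ) : ℝ) ^ (ε / 2) with hq
  have hqq : q * q ≤ (n : ℝ) ^ ε := by
    rw [hq, ← Real.rpow_add hN0]
    have : ε / 2 + ε / 2 = ε := by ring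
    rw [this]
    exact Real.rpow_le_rpow hN0.le hNn hε.le
  constructor
  · nlinarith [t2, g3]
  set P := p2 (n / (4 * K)) with hP
  have hP0 : 0 ≤ P := Ax107.p2_nonneg _
  have h5 : Sg (n / 4) (Nat.log 2 (n / 4)) ≤ P * (1 + q * q) := by
    unfold Sg
    have h6 : ∑ j ∈ Finset.range (Nat.log 2 (n / 4) + 1),
        p2 (2 ^ j - 8) * Zs110.P2a (2 ^ (j + 1)) (((n / 4 : ℕ) : ℤ) - 1) ≤
        ∑ _j ∈ Finset.range (Nat.log 2 (n / 4) + 1), q * P := Finset.sum_le_sum fun j _ => t3 j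
    rw [Finset.sum_const, Finset.card_range, nsmul_eq_mul] at h6
    have h7 : ((Nat.log 2 (n / 4) + 1 : ℕ) : ℝ) * (q * P) ≤ q * (q * P) :=
      mul_le_mul_of_nonneg_right l1 (mul_nonneg (by linarith) hP0)
    linarith
  calc Sg (n / 4) (Nat.log 2 (n / 4)) ≤ P * (1 + q * q) := h5
    _ ≤ (C * p2 n) * (2 * (n : ℝ) ^ ε) := by
        refine mul_le_mul g3 ?_ (by nlinarith) (by positivity)
        nlinarith
    _ = _ := by ring

/-- one-arm factor -/
theorem A1_small : ∃ C a : ℝ, 1 ≤ C ∧ 0 < a ∧ ∀ (s R : ℕ) (N t : ℝ), 1 ≤ s → s ≤ R → 1 ≤ N → 0 ≤ t →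
    (s : ℝ) / R ≤ 64 * N ^ (-t) → nh.real (A1 (0, 0) (s : ℤ) (R : ℤ)) ≤ C * N ^ (-(a * t)) := by
  obtain ⟨C, a, hC, ha, h⟩ := A1_le
  refine ⟨C * 64 ^ a, a, ?_, ha, fun s R N t hs hR hN ht hx => ?_⟩
  · have : (1 : ℝ) ≤ 64 ^ a := Real.one_le_rpow (by norm_num) ha.le
    nlinarith
  have hN0 : (0 : ℝ) < N := by linarith
  have hs0 : (0 : ℝ) < s := by exact_mod_cast hs
  have hR0 : (0 : ℝ) < R := by exact_mod_cast (by omega : 0 < R)
  calc nh.real (A1 (0, 0) (s : ℤ) (R : ℤ)) ≤ C * ((s : ℝ) / R) ^ a := h (0, 0) s R hs hR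
    _ ≤ C * (64 * N ^ (-t)) ^ a :=
        mul_le_mul_of_nonneg_left (Real.rpow_le_rpow (by positivity) hx ha.le) (by linarith)
    _ = C * 64 ^ a * N ^ (-(a * t)) := by
        rw [Real.mul_rpow (by norm_num) (by positivity), ← Real.rpow_mul hN0.le]
        have : -t * a = -(a * t) := by ring
        rw [this]; ring

theorem VV_mono {i j : ℕ} (h : i ≤ j) : VV i ≤ VV j := by
  obtain ⟨C, hC, h1⟩ := Cn109.VV_diff
  obtain ⟨k, rfl⟩ := Nat.exists_eq_add_of_le h
  linarith [(h1 i k).1]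

/-! ### the main corner -/

theorem sd_ah (d : Corner) : sd (0, 0) (src (ah d)) ≤ sd (0, 0) d.1 + 1 ∧
    sd (0, 0) (tgt (ah d)) ≤ sd (0, 0) d.1 + 1 := by
  have h1 := Ac109.sd_tri (0, 0) d.1 (tgt (ah d))
  have h2 := Ac109.sd_tri (0, 0) d.1 (src (ah d))
  rcases Crest.Agent.R158.Wf850.ah_ends' d with ⟨h3, h4⟩ | ⟨h3, h4⟩
  · rw [h3]; exact ⟨by linarith, by linarith⟩
  · rw [h3]; exact ⟨by linarith, by linarith⟩

theorem main_sub {m n S : ℕ} (hn : n = 256 * m) (hm : 1 ≤ m) (hS : 16 * n ≤ S) {z : Cfz}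
    (h1 : (Mc468.y2 m, 0) ∈ Lp z ((0, 0), 0))
    (h2 : ∀ d ∈ Lp z ((0, 0), 0), sd (0, 0) d.1 ≤ 1024 * m + 1) :
    z ∈ GdE ((0, 0), 0) (eP n) S := by
  have e : (Mc468.y2 m, 0) = eP n := by
    unfold Mc468.y2 eP
    rw [hn]; push_cast; rfl
  rw [e] at h1
  refine ⟨h1, ?_⟩
  rintro ⟨e, ⟨d, hd, rfl⟩, he⟩
  have h3 := h2 d hd
  have h4 := sd_ah d
  have h5 : (((S + 3 : ℕ) : ℤ)) < sd (0, 0) (src (ah d)) ∨
      (((S + 3 : ℕ) : ℤ)) < sd (0, 0) (tgt (ah d)) := he
  push_cast at h5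
  rcases h5 with h5 | h5 <;> omega

/-! ### scales -/

/-- all the scale facts, eventually in `n` -/
theorem scales {t : ℝ} (ht : 0 < t) {K' : ℕ} (hK' : 1 ≤ K') : ∀ᶠ n : ℕ in atTop,
    ∃ S r : ℕ, 16 * n ≤ S ∧ 16 * S ≤ r ∧ (n : ℝ) ^ t ≤ r ∧
      ((K' * r : ℕ) : ℝ) ≤ (n : ℝ) ^ (1 + 4 * t) ∧ 2 * n ≤ S ∧ S + 5 ≤ K' * r / 8 ∧
      ((2 * n : ℕ) : ℝ) / (S : ℝ) ≤ 64 * (n : ℝ) ^ (-t) ∧
      ((S + 5 : ℕ) : ℝ) / ((K' * r / 8 : ℕ) : ℝ) ≤ 64 * (n : ℝ) ^ (-t) := by
  filter_upwards [Ax107.fl_bounds (b := 1 + t) (by linarith), Ax107.fl_bounds (b := 1 + 2 * t)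
    (by linarith), ev_const 64 ht, ev_const (K' : ℝ) (d := 2 * t) (by linarith),
    eventually_ge_atTop 1] with n h1 h2 h3 h4 h5
  have hn1 : (1 : ℝ) ≤ n := by exact_mod_cast h5
  have hn0 : (0 : ℝ) < n := by linarith
  set S := ⌊(n : ℝ) ^ (1 + t)⌋₊ with hS
  set r := ⌊(n : ℝ) ^ (1 + 2 * t)⌋₊ with hr
  set x : ℝ := (n : ℝ) ^ t with hx
  have e1 : (n : ℝ) ^ (1 + t) = n * x := by rw [Real.rpow_add hn0, Real.rpow_one]
  have e2 : (n : ℝ) ^ (1 + 2 * t) = n * x * x := by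
    rw [Real.rpow_add hn0, Real.rpow_one, two_mul, Real.rpow_add hn0]; ring
  have e3 : (n : ℝ) ^ (1 + 4 * t) = n * x * x * (n : ℝ) ^ (2 * t) := by
    rw [← e2, ← Real.rpow_add hn0]; congr 1; ring
  have e4 : (n : ℝ) ^ (-t) = x⁻¹ := Real.rpow_neg hn0.le _
  rw [e1] at h1
  rw [e2] at h2
  have hx0 : 0 < x := by linarith
  have hnx : 0 < n * x := by positivity
  have hnx64 : (64 : ℝ) ≤ n * x := by nlinarith
  have a1 : 16 * n ≤ S := by
    have : (16 : ℝ) * n ≤ S := by nlinarith [h1.2]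
    exact_mod_cast this
  have a2 : 16 * S ≤ r := by
    have : (16 : ℝ) * S ≤ r := by
      have b1 : (16 : ℝ) * S ≤ 16 * (n * x) := by linarith [h1.1]
      have b2 : 16 * (n * x) ≤ n * x * x / 2 := by nlinarith
      linarith [h2.2]
    exact_mod_cast this
  have a3 : r ≤ K' * r := Nat.le_mul_of_pos_left _ (by omega)
  refine ⟨S, r, a1, a2, ?_, ?_, ?_, ?_, ?_, ?_⟩
  · have b2 : x ≤ n * x * x / 2 := by nlinarith
    linarith [h2.2]
  · push_cast
    rw [e3]
    calc (K' : ℝ) * r ≤ (n : ℝ) ^ (2 * t) * (n * x * x) := mul_le_mul h4 h2.1 (by positivity)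
          (by positivity)
      _ = _ := by ring
  · omega
  · omega
  · rw [e4]
    rw [div_le_iff₀ (by linarith [h1.2])]
    calc (((2 * n : ℕ)) : ℝ) = 4 * x⁻¹ * (n * x / 2) := by
          push_cast; field_simp; ring
      _ ≤ 64 * x⁻¹ * (n * x / 2) := by
          refine mul_le_mul_of_nonneg_right ?_ (by positivity)
          have : 0 < x⁻¹ := by positivity
          linarith
      _ ≤ _ := mul_le_mul_of_nonneg_left h1.2 (by positivity)
  · rw [e4]
    have b1 : (n : ℝ) * x * x / 32 ≤ ((K' * r / 8 : ℕ) : ℝ) := by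
      have b2 : (r : ℝ) ≤ 8 * ((K' * r / 8 : ℕ) : ℝ) + 7 := by
        exact_mod_cast (by omega : r ≤ 8 * (K' * r / 8) + 7)
      have b4 : (64 : ℝ) * 64 ≤ n * x * x := by nlinarith
      linarith [h2.2]
    have b5 : 0 < (n : ℝ) * x * x / 32 := by positivity
    rw [div_le_iff₀ (by linarith)]
    calc (((S + 5 : ℕ)) : ℝ) ≤ 2 * (n * x) := by push_cast; linarith [h1.1]
      _ = 64 * x⁻¹ * (n * x * x / 32) := by field_simp; ring
      _ ≤ _ := mul_le_mul_of_nonneg_left b1 (by positivity)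

set_option maxHeartbeats 2000000 in
/-- **the right side of identity D** -/
theorem dright (hLaw : Bs410.Law3) (hD : Vg109.HD) : DRight := by
  intro ε hε
  refine ⟨1, one_pos, fun τ hτ _ => ?_⟩
  obtain ⟨K', hK', c', hc', hEB⟩ := EB_pos hLaw hD
  obtain ⟨c6, hc6, h6⟩ := Mc468.i6
  obtain ⟨Kn, hKn, hn2⟩ := Sc689.p2_nice Sc689.sep2_ok
  obtain ⟨L0, hL0, hpoly⟩ := p2_poly
  obtain ⟨C1, a, hC1, ha, hA1⟩ := A1_small
  set t : ℝ := τ / 2 with ht
  have ht0 : 0 < t := by positivity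
  set b : ℝ := a * t with hb
  have hb0 : 0 < b := by positivity
  set θ : ℝ := b / 4 with hθ
  have hθ0 : 0 < θ := by positivity
  set L : ℝ := 2 * L0 with hL
  have hLp : 0 ≤ L := by positivity
  obtain ⟨kk, hkk⟩ := exists_nat_ge ((L + 2) / θ)
  have hkk' : L + 2 ≤ θ * (2 * kk + 1 : ℕ) := by
    rw [div_le_iff₀ hθ0] at hkk
    push_cast
    nlinarith
  obtain ⟨G, hG, hmaj⟩ := maj_ws (2 * kk + 2)
  obtain ⟨C, hC, hsg⟩ := sg_le hθ0
  obtain ⟨r0, hr0⟩ := eventually_atTop.1 hEB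
  set κ : ℝ := c6 / Kn ^ 2 * c' / 2 with hκ
  have hκ0 : 0 < κ := by positivity
  set M : ℝ := 48 * C ^ 2 * C1 + 120 * G with hM
  have hM0 : 0 < M := by positivity
  set β : ℝ := min (b / 2) 1 with hβ
  have hβ0 : 0 < β := lt_min (by linarith) one_pos
  have hfin : ∀ᶠ n : ℕ in atTop, ∀ m : ℕ, n = 256 * m → (∃ j, m = 2 ^ j) → ∃ R : ℕ,
      16 * n ≤ R ∧ (R : ℝ) ≤ (n : ℝ) ^ (1 + 2 * τ) ∧
      (n : ℝ) ^ (-ε) * exp (-(√3 * (2 * π / 3) * VV (Nat.log 2 R))) * p2 n ^ 2 ≤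
        S4D (cg (2 * π / 3) (Bk430.ws R) (((0, (n : ℤ)), false) : Face)) ((0, 0), false) -
        S4D (cg (2 * π / 3) (Bk430.ws R) (((0, (n : ℤ)), true) : Face)) ((0, 0), false) := by
    filter_upwards [scales ht0 hK', hsg, hpoly, ev_const (r0 : ℝ) ht0,
      ev_const (4 * M / κ) hβ0, ev_const (1 / κ) hε, ev_const (8 * C1 / c') (d := b / 2)
      (by positivity), eventually_ge_atTop 8] with n g1 g2 g6 g7 g8 g9 g11 g10 m hnm hj
    obtain ⟨j, hj⟩ := hj
    obtain ⟨S, r, s1, s2, s3, s4, s5, s6, s8, s9⟩ := g1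
    obtain ⟨g4, g5⟩ := g2
    have hn1 : (1 : ℝ) ≤ n := by exact_mod_cast (by omega : 1 ≤ n)
    have hn0 : (0 : ℝ) < n := by linarith
    have hm1 : 1 ≤ m := by omega
    set R : ℕ := K' * r with hR
    have hrR : r ≤ R := Nat.le_mul_of_pos_left _ (by omega)
    have hR1 : 1 ≤ R := by omega
    have hR64 : 64 ≤ R := by omega
    refine ⟨R, by omega, ?_, ?_⟩
    · refine s4.trans (le_of_eq ?_)
      congr 1
      rw [ht]; ring
    rw [S4D_diff hR1]
    obtain ⟨Y, hMj, hY⟩ := hmaj R hR64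
    set N : ℝ := (n : ℝ) with hN
    set T : ℝ := N ^ θ with hT
    have hT1 : 1 ≤ T := Real.one_le_rpow hn1 hθ0.le
    have hTc := tr_set hMj hT1
    set η : ℝ := G / T ^ (2 * kk + 1) with hη
    have hη1 : η ≤ G * N ^ (-(L + 2)) := by
      have h1 : T ^ (2 * kk + 1) = N ^ (θ * (2 * kk + 1 : ℕ)) := by
        rw [hT, ← Real.rpow_natCast, ← Real.rpow_mul hn0.le]
      have h2 : N ^ (L + 2) ≤ T ^ (2 * kk + 1) := by
        rw [h1]; exact Real.rpow_le_rpow_of_exponent_le hn1 hkk'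
      rw [hη, Real.rpow_neg hn0.le, ← div_eq_mul_inv]
      exact div_le_div_of_nonneg_left (by linarith) (by positivity) h2
    set X : ℝ := p2 n ^ 2 with hX
    have hp0 : 0 ≤ p2 n := Ax107.p2_nonneg n
    have hX0 : N ^ (-L) ≤ X := by
      calc N ^ (-L) = (N ^ (-L0)) ^ 2 := by
            rw [← Real.rpow_natCast, ← Real.rpow_mul hn0.le]
            congr 1
            rw [hL]; push_cast; ring
        _ ≤ X := pow_le_pow_left₀ (by positivity) g6 2
    have hXp : 0 < X := (Real.rpow_pos_of_pos hn0 _).trans_le hX0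
    set E : ℝ := EE R with hE
    have hEp : 0 < E := EE_pos R
    set B : ℝ := ∫ z, Bn ((S + 5 : ℕ) : ℤ) (wg R (cv (eP n))) z ∂nh with hB
    have hBp : c' * E ≤ B := by
      refine hr0 r ?_ _ _ (by positivity) (by exact_mod_cast (by omega : S + 5 ≤ r)) ?_
      · exact_mod_cast g7.trans s3
      · rw [cv_eP]
        have : sd (0, 0) (0, (n : ℤ)) = n := by
          unfold sd
          simp
        show sd (0, 0) (0, (n : ℤ)) ≤ ((S + 5 : ℕ) : ℤ)
        rw [this]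
        exact_mod_cast (by omega : n ≤ S + 5)
    -- one-arm factors
    set a1 : ℝ := nh.real (A1 (0, 0) ((S + 5 : ℕ) : ℤ) ((R / 8 : ℕ) : ℤ)) with ha1
    set a2 : ℝ := nh.real (A1 (0, 0) ((2 * n : ℕ) : ℤ) (S : ℤ)) with ha2
    have p1 : a1 ≤ C1 * N ^ (-b) := hA1 _ _ N t (by omega) s6 hn1 ht0.le s9
    have p2' : a2 ≤ C1 * N ^ (-b) := hA1 _ _ N t (by omega) s5 hn1 ht0.le s8
    have ha10 : 0 ≤ a1 := measureReal_nonneg
    have ha20 : 0 ≤ a2 := measureReal_nonneg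
    have hNb : 0 < N ^ (-b) := Real.rpow_pos_of_pos hn0 _
    have hsz : Sz n (n / 4) (2 * n) S R :=
      ⟨hR64, by omega, by omega, s5, by omega⟩
    -- the first bracket
    have hbr : c' * E / 2 ≤ B - 4 * T * E * a1 := by
      have h1 : 4 * T * a1 ≤ c' / 2 := by
        have h2 : T * N ^ (-b) ≤ N ^ (-(b / 2)) := by
          rw [hT, ← Real.rpow_add hn0]
          refine Real.rpow_le_rpow_of_exponent_le hn1 ?_
          rw [hθ]; linarith
        have h3 : 4 * C1 * N ^ (-(b / 2)) ≤ c' / 2 := by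
          rw [Real.rpow_neg hn0.le, ← div_eq_mul_inv, div_le_iff₀ (by positivity)]
          rw [div_le_iff₀ hc'] at g11
          linarith
        calc 4 * T * a1 ≤ 4 * T * (C1 * N ^ (-b)) := mul_le_mul_of_nonneg_left p1 (by positivity)
          _ = 4 * C1 * (T * N ^ (-b)) := by ring
          _ ≤ 4 * C1 * N ^ (-(b / 2)) := mul_le_mul_of_nonneg_left h2 (by positivity)
          _ ≤ _ := h3
      have h4 : 4 * T * E * a1 ≤ c' / 2 * E := by
        calc 4 * T * E * a1 = 4 * T * a1 * E := by ring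
          _ ≤ _ := mul_le_mul_of_nonneg_right h1 hEp.le
      linarith
    have hbr0 : 0 < B - 4 * T * E * a1 := lt_of_lt_of_le (by positivity) hbr
    -- the error
    have herr : 24 * T * (p2 (n / 4 - 6) * a2) * (p2 (n / 4 - 6) + Sg (n / 4) (Nat.log 2 (n / 4))) +
        24 * ((Nat.log 2 (n / 4) : ℕ) + 4) * η ≤ M * (X * N ^ (-β)) := by
      have hpN0 : 0 ≤ p2 (n / 4 - 6) := Ax107.p2_nonneg _
      have hSg0 := Sg_nonneg (n / 4) (Nat.log 2 (n / 4))
      have h1 : p2 (n / 4 - 6) + Sg (n / 4) (Nat.log 2 (n / 4)) ≤ 2 * C * T * p2 n := by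
        have h2 : C * p2 n ≤ C * T * p2 n := by
          have : 0 ≤ C * p2 n := by positivity
          nlinarith
        linarith
      have h3 : p2 (n / 4 - 6) * a2 ≤ C * p2 n * (C1 * N ^ (-b)) :=
        mul_le_mul g4 p2' ha20 (by positivity)
      have h4 : 24 * T * (p2 (n / 4 - 6) * a2) * (p2 (n / 4 - 6) + Sg (n / 4) (Nat.log 2 (n / 4))) ≤
          48 * C ^ 2 * C1 * (X * N ^ (-β)) := by
        calc 24 * T * (p2 (n / 4 - 6) * a2) * (p2 (n / 4 - 6) + Sg (n / 4) (Nat.log 2 (n / 4)))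
            ≤ 24 * T * (C * p2 n * (C1 * N ^ (-b))) * (2 * C * T * p2 n) := by
              refine mul_le_mul (mul_le_mul_of_nonneg_left h3 (by positivity)) h1
                (by linarith) (by positivity)
          _ = 48 * C ^ 2 * C1 * (X * (T * T * N ^ (-b))) := by rw [hX]; ring
          _ ≤ 48 * C ^ 2 * C1 * (X * N ^ (-β)) := by
              refine mul_le_mul_of_nonneg_left ?_ (by positivity)
              refine mul_le_mul_of_nonneg_left ?_ hXp.le
              rw [hT, ← Real.rpow_add hn0, ← Real.rpow_add hn0]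
              refine Real.rpow_le_rpow_of_exponent_le hn1 ?_
              have : β ≤ b / 2 := min_le_left _ _
              rw [hθ]; linarith
      have h5 : 24 * ((Nat.log 2 (n / 4) : ℕ) + 4 : ℝ) * η ≤ 120 * G * (X * N ^ (-β)) := by
        have h6 : ((Nat.log 2 (n / 4) : ℕ) + 4 : ℝ) ≤ 5 * N := by
          have h7 : Nat.log 2 (n / 4) ≤ n := (Nat.log_le_self 2 _).trans (Nat.div_le_self n 4)
          have h8 : ((Nat.log 2 (n / 4) : ℕ) : ℝ) ≤ n := by exact_mod_cast h7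
          linarith
        have hη0 : 0 ≤ η := hTc.e0
        calc 24 * ((Nat.log 2 (n / 4) : ℕ) + 4 : ℝ) * η ≤ 24 * (5 * N) * (G * N ^ (-(L + 2))) := by
              refine mul_le_mul (by linarith) hη1 hη0 (by positivity)
          _ = 120 * G * (N ^ (1 : ℝ) * N ^ (-(L + 2))) := by rw [Real.rpow_one]; ring
          _ ≤ 120 * G * (X * N ^ (-β)) := by
              refine mul_le_mul_of_nonneg_left ?_ (by positivity)
              calc N ^ (1 : ℝ) * N ^ (-(L + 2)) = N ^ (-L) * N ^ (-1 : ℝ) := by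
                    rw [← Real.rpow_add hn0, ← Real.rpow_add hn0]; congr 1; ring
                _ ≤ X * N ^ (-β) := by
                    refine mul_le_mul hX0 ?_ (by positivity) hXp.le
                    refine Real.rpow_le_rpow_of_exponent_le hn1 ?_
                    have : β ≤ 1 := min_le_right _ _
                    linarith
      calc _ ≤ 48 * C ^ 2 * C1 * (X * N ^ (-β)) + 120 * G * (X * N ^ (-β)) := add_le_add h4 h5
        _ = _ := by rw [hM]; ring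
    -- a corner
    have hcor : ∀ s : Corner, sd (0, 0) s.1 ≤ 1 →
        2 * √3 * (nh.real (GdE s (eP n) S) * (B - 4 * T * E * a1)) -
          E * (M * (X * N ^ (-β))) ≤ ∫ z, dd R n s z ∂nh := by
      intro s hs
      have u1 := LB4_raw (s := s) hsz hs hY hTc (Nat.log 2 (n / 4))
      have u2 : E * (24 * T * (p2 (n / 4 - 6) * a2) *
          (p2 (n / 4 - 6) + Sg (n / 4) (Nat.log 2 (n / 4))) +
          24 * ((Nat.log 2 (n / 4) : ℕ) + 4) * η) ≤ E * (M * (X * N ^ (-β))) :=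
        mul_le_mul_of_nonneg_left herr hEp.le
      linarith
    -- the main corner
    have hmain : c6 / Kn ^ 2 * X ≤ nh.real (GdE ((0, 0), 0) (eP n) S) := by
      obtain ⟨E6, _, q1, q2⟩ := h6 m 0 true hm1
      have q3 : E6 ⊆ GdE ((0, 0), 0) (eP n) S := fun z hz =>
        main_sub hnm hm1 s1 (q2 z hz).2.1 fun d hd => ((q2 z hz).2.2 d hd).2
      have q4 := hn2 j n (by rw [hnm, hj, pow_add]; omega)
      have q5 : (nu Rs689.hf).real (Mc468.N2 m (Mc468.f0 0) true) =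
          (nu Rs689.hf).real (Sb689.Nice2 (0, 0) (2 ^ j)) := by
        rw [← hj]
        rfl
      rw [q5] at q1
      have q6 : X ≤ Kn ^ 2 * (nu Rs689.hf).real (Sb689.Nice2 (0, 0) (2 ^ j)) ^ 2 := by
        rw [hX, ← mul_pow]
        exact pow_le_pow_left₀ hp0 q4 2
      calc c6 / Kn ^ 2 * X ≤ c6 / Kn ^ 2 *
            (Kn ^ 2 * (nu Rs689.hf).real (Sb689.Nice2 (0, 0) (2 ^ j)) ^ 2) :=
            mul_le_mul_of_nonneg_left q6 (by positivity)
        _ = c6 * (nu Rs689.hf).real (Sb689.Nice2 (0, 0) (2 ^ j)) ^ 2 := by field_simp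
        _ ≤ _ := q1.trans (measureReal_mono q3)
    have w1 := hcor (i1 ((0, 0), false)) (by simp [i1, sd])
    have w2 := hcor (i2 ((0, 0), false)) (by simp [i2, sd])
    have w3 := hcor (o1 ((0, 0), false)) (by simp [o1, sd])
    have w4 := hcor (o2 ((0, 0), false)) (by simp [o2, sd])
    have z0 : ∀ s, 0 ≤ 2 * √3 * (nh.real (GdE s (eP n) S) * (B - 4 * T * E * a1)) := fun s =>
      mul_nonneg (by positivity) (mul_nonneg measureReal_nonneg hbr0.le)
    have z2 := z0 (i2 ((0, 0), false))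
    have z3 := z0 (o1 ((0, 0), false))
    have z4 := z0 (o2 ((0, 0), false))
    have z1 : 2 * (E * (κ * X)) ≤
        2 * √3 * (nh.real (GdE (i1 ((0, 0), false)) (eP n) S) * (B - 4 * T * E * a1)) := by
      have v1 : i1 ((0, 0), false) = (((0, 0), 0) : Corner) := rfl
      rw [v1]
      have v2 : (1 : ℝ) ≤ √3 := by
        rw [show (1 : ℝ) = √1 by simp]
        exact Real.sqrt_le_sqrt (by norm_num)
      have v3 : c6 / Kn ^ 2 * X * (c' * E / 2) ≤
          nh.real (GdE ((0, 0), 0) (eP n) S) * (B - 4 * T * E * a1) :=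
        mul_le_mul hmain hbr (by positivity) measureReal_nonneg
      have v4 : 0 ≤ nh.real (GdE ((0, 0), 0) (eP n) S) * (B - 4 * T * E * a1) :=
        mul_nonneg measureReal_nonneg hbr0.le
      calc 2 * (E * (κ * X)) = 2 * (c6 / Kn ^ 2 * X * (c' * E / 2)) := by rw [hκ]; ring
        _ ≤ 2 * (nh.real (GdE ((0, 0), 0) (eP n) S) * (B - 4 * T * E * a1)) := by linarith
        _ ≤ _ := by nlinarith
    -- the error is small
    have y1 : 4 * (M * (X * N ^ (-β))) ≤ κ * X := by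
      have y2 : 4 * M * N ^ (-β) ≤ κ := by
        rw [Real.rpow_neg hn0.le, ← div_eq_mul_inv, div_le_iff₀ (by positivity)]
        rw [div_le_iff₀ hκ0] at g8
        linarith
      calc 4 * (M * (X * N ^ (-β))) = 4 * M * N ^ (-β) * X := by ring
        _ ≤ κ * X := mul_le_mul_of_nonneg_right y2 hXp.le
    have y3 : 4 * (E * (M * (X * N ^ (-β)))) ≤ E * (κ * X) := by
      calc 4 * (E * (M * (X * N ^ (-β)))) = E * (4 * (M * (X * N ^ (-β)))) := by ring
        _ ≤ _ := mul_le_mul_of_nonneg_left y1 hEp.le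
    have y4 : E * (κ * X) ≤ ∫ z, dd R n (i1 ((0, 0), false)) z ∂nh +
        ∫ z, dd R n (i2 ((0, 0), false)) z ∂nh + ∫ z, dd R n (o1 ((0, 0), false)) z ∂nh +
        ∫ z, dd R n (o2 ((0, 0), false)) z ∂nh := by linarith
    refine le_trans ?_ y4
    have x1 : exp (-(√3 * (2 * π / 3) * VV (Nat.log 2 R))) ≤ E := by
      have x2 : VV (lv R) ≤ VV (Nat.log 2 R) := VV_mono (Nat.sub_le _ _)
      have x3 : b0 = √3 * (2 * π / 3) := rfl
      rw [hE, EE, Real.exp_le_exp, ← x3]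
      have := b0_pos
      nlinarith
    have x4 : N ^ (-ε) ≤ κ := by
      rw [Real.rpow_neg hn0.le]
      rw [div_le_iff₀ hκ0] at g9
      rw [inv_le_iff_one_le_mul₀ (by positivity)]
      linarith
    calc N ^ (-ε) * exp (-(√3 * (2 * π / 3) * VV (Nat.log 2 R))) * X
        ≤ κ * E * X := by
          refine mul_le_mul_of_nonneg_right ?_ hXp.le
          exact mul_le_mul x4 x1 (exp_pos _).le hκ0.le
      _ = E * (κ * X) := by ring
  have h := Ud107.ev_dyadic hfin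
  filter_upwards [h] with j hj
  exact hj (2 ^ j) rfl ⟨j, rfl⟩


end Crest.Agent.R158.Fe110
end
end

-- ▼ part R158/TopZ_772

/-!
# Row 158 (helper772, integration): the statements S0235 and S0236

All inputs are plugged in: the law of the first moments (`Bs410.law3`, from S0211), `SB`, `SC`, `DRight`.
-/

set_option autoImplicit false

noncomputable section

namespace Crest.Agent.R158.Top772

open Crest.Agent.R158.Ax107

/-- both statements -/
theorem both_main : St235 ∧ St236 :=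
  both7 Bs410.law3 (Fe110.dright Bs410.law3 (HD_main (hypW_main Bs410.law3)))

theorem st0235 : St235 := both_main.1

theorem st0236 : St236 := both_main.2

end Crest.Agent.R158.Top772
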