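import Mathlib
import Crest.Agent.R158.It4_200
import Crest.Agent.R158.Wf0_850
import Crest.Agent.R158.Vx3_107

-- ▼ part R158/Vn1_841
section

/-!
# R158, V4 (helper841): trigonometric normal forms at one vertex

`F q = 2 cos (π/3 + q)` is the weight of a loop with enclosed charge `q`; in canonical orientation
a loop has a sign `k = ±1` and a pairing `t` with `q = k t`, and the weight is
`2 cos (k π/3 + t)`.

* `side`  : two loops of sign `k = k_S` (side by side) minus the merged loop `= 4 sin t1 sin t2`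
* `nest`  : loops of signs `k` (inner) and `-k` (outer) minus the merged loop
  `= -4 k sin t1 cos (t2 - k π/6)`
* `side_mass`, `nest_mass` : the same in terms of the enclosed masses of `μ` with the base point
  `-π` in any of the admissible positions (doc 1849 (P))
* `F_sub_pi`, `F_add_pi`, values of `F` at the multiples of `π/6`
-/

set_option autoImplicit false

noncomputable section

namespace Crest.Agent.R158.Vn841

open Real

/-- weight of a loop with enclosed charge `q` -/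
def F (q : ℝ) : ℝ := 2 * cos (π / 3 + q)





























end Crest.Agent.R158.Vn841
end
end

-- ▼ part R158/Vn2_841
section

/-!
# R158, V4 (helper841), part 2: surgery of the interiors of the loops at one edge

In the language of `Wf0_850` (`Lps z : Set (Finset Face)`):

* `In z c` : interior of the (finite) strand through the corner `c`
* `Rst z e` : the loops that do not visit `e` (common to both states of `e`), `rst_four`: they contain all
  the four faces at `e` or none of them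
* `lps_two`, `lps_one` : `Lps z = Rst z e ∪ {In z (i1 e), In z (i2 e)}`
* `surg` : relation between the two loops of the two-loop state and the merged loop: `Side` or `Nest`
-/

set_option autoImplicit false

noncomputable section

namespace Crest.Agent.R158.Vn841

open Crest.Agent.R161.Geo729 Crest.Agent.R161.Dual374
open Crest.Agent.R158.Rs689 (Dep)
open Crest.Agent.R158.It200 Crest.Agent.R158.Wf850

/-! ### interiors -/

open Classical in
/-- interior of the strand through `c` (`∅` if it is infinite) -/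
def In (z : Cfz) (c : Corner) : Finset Face :=
  if h : (Lp z c).Finite then (exists_int h).choose else ∅

theorem In_spec {z : Cfz} {c : Corner} (h : (Lp z c).Finite) :
    In z c ∈ Lps z ∧ ∀ f, f ∈ In z c ↔ ht z c f ≠ 0 := by
  unfold In
  rw [dif_pos h]
  exact (exists_int h).choose_spec

theorem mem_In {z : Cfz} {c : Corner} (h : (Lp z c).Finite) {f : Face} :
    f ∈ In z c ↔ ht z c f ≠ 0 := (In_spec h).2 f

theorem In_mem {z : Cfz} {c : Corner} (h : (Lp z c).Finite) : In z c ∈ Lps z := (In_spec h).1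

theorem ht_eq {z : Cfz} {c d : Corner} (h : d ∈ Lp z c) : ht z d = ht z c := by
  funext f; unfold ht; rw [hv_eq h, hf_eq h]

theorem In_eq {z : Cfz} {c d : Corner} (hfin : (Lp z c).Finite) (h : d ∈ Lp z c) :
    In z d = In z c := by
  have hd : (Lp z d).Finite := by rw [Lp_eq h]; exact hfin
  ext f
  rw [mem_In hd, mem_In hfin, ht_eq h]

theorem sep_In {z : Cfz} {c : Corner} (hfin : (Lp z c).Finite) (d : Corner) :
    sepC (In z c) d ↔ d ∈ Lp z c := sep_iff hfin (In_spec hfin).2 d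


theorem eq_In {z : Cfz} {A : Finset Face} {d : Corner} (hA : A ∈ Lps z) (h : sepC A d) :
    (Lp z d).Finite ∧ A = In z d := by
  obtain ⟨c, hc, hA'⟩ := id hA
  have h1 := (sep_iff hc hA' d).1 h
  have hd : (Lp z d).Finite := by rw [Lp_eq h1]; exact hc
  exact ⟨hd, sep_uniq hA (In_mem hd) h ((sep_In hd d).2 (mem_Lp_self z d))⟩

/-! ### the four faces at an edge -/

theorem cf_o2 (e : Edge) : cf (o2 e) = cf (i1 e) := by
  unfold cf; rw [← nxo_i1, fc_nxo]

theorem cf_o1 (e : Edge) : cf (o1 e) = cf (i2 e) := by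
  unfold cf; rw [← nxo_i2, fc_nxo]

theorem cv_o1 (e : Edge) : cv (o1 e) = cv (i1 e) := by
  unfold cv; rw [fst_o1, fst_i1]

theorem cv_o2 (e : Edge) : cv (o2 e) = cv (i2 e) := by
  unfold cv; rw [fst_o2, fst_i2]

theorem cv_i1 (e : Edge) : cv (i1 e) = (src e, false) := by unfold cv; rw [fst_i1]
theorem cv_i2 (e : Edge) : cv (i2 e) = (tgt e, false) := by unfold cv; rw [fst_i2]

theorem cf_cases (e : Edge) : (cf (i1 e) = (fA e, true) ∧ cf (i2 e) = (fB e, true)) ∨
    (cf (i1 e) = (fB e, true) ∧ cf (i2 e) = (fA e, true)) := by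
  rw [← cf_o1]
  unfold cf
  rcases fA_or_fB e with ⟨h1, h2⟩ | ⟨h1, h2⟩
  · exact Or.inl ⟨by rw [h1], by rw [h2]⟩
  · exact Or.inr ⟨by rw [h1], by rw [h2]⟩

theorem mem_bdE' {A : Finset Face} {e : Edge} : e ∈ bdE A ↔ sepC A (i1 e) ∨ sepC A (i2 e) := by
  rw [mem_bdE]
  constructor
  · rintro ⟨d, hd, h⟩
    rcases (ah_eq_iff d e).1 h with rfl | rfl
    · exact Or.inl hd
    · exact Or.inr hd
  · rintro (h | h)
    · exact ⟨_, h, ah_i1 e⟩
    · exact ⟨_, h, ah_i2 e⟩

/-! ### the loops that do not visit the edge -/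

/-- the loops that do not visit `e` -/
def Rst (z : Cfz) (e : Edge) : Set (Finset Face) := {A | A ∈ Lps z ∧ e ∉ bdE A}

theorem rst_congr {z z' : Cfz} {e : Edge} (h : ∀ e', e' ≠ e → z e' = z' e') :
    Rst z e = Rst z' e := by
  ext A
  constructor
  · rintro ⟨h1, h2⟩
    exact ⟨(loc A z z' fun e' he' => h e' fun h' => h2 (h' ▸ he')).1 h1, h2⟩
  · rintro ⟨h1, h2⟩
    exact ⟨(loc A z z' fun e' he' => h e' fun h' => h2 (h' ▸ he')).2 h1, h2⟩

theorem rst_flip (z : Cfz) (e : Edge) : Rst (flip z e) e = Rst z e :=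
  rst_congr fun _ h => flip_ne z h

/-- a loop that does not visit `e` contains all the four faces at `e` or none -/
theorem rst_four {z : Cfz} {e : Edge} {A : Finset Face} (hA : A ∈ Rst z e) :
    (cf (i1 e) ∈ A ↔ cv (i1 e) ∈ A) ∧ (cf (i2 e) ∈ A ↔ cv (i1 e) ∈ A) ∧
      (cv (i2 e) ∈ A ↔ cv (i1 e) ∈ A) := by
  obtain ⟨h1, h2⟩ := hA
  rw [mem_bdE', not_or] at h2
  obtain ⟨h3, h4⟩ := h2
  unfold sepC at h3 h4
  rw [not_not] at h3 h4
  cases hz : z e with
  | true =>
      have h5 : cv (i1 e) ∈ A ↔ cv (i2 e) ∈ A := by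
        rw [cv_i1, cv_i2]
        exact lps_open h1 (Relation.ReflTransGen.single ⟨e, hz, Or.inl ⟨rfl, rfl⟩⟩)
      exact ⟨h3.symm, h4.symm.trans h5.symm, h5.symm⟩
  | false =>
      have h5 : cf (i1 e) ∈ A ↔ cf (i2 e) ∈ A := by
        rcases cf_cases e with ⟨ha, hb⟩ | ⟨ha, hb⟩
        · rw [ha, hb]
          exact lps_closed h1 (Relation.ReflTransGen.single ⟨e, hz, Or.inl ⟨rfl, rfl⟩⟩)
        · rw [ha, hb]
          exact lps_closed h1 (Relation.ReflTransGen.single ⟨e, hz, Or.inr ⟨rfl, rfl⟩⟩)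
      exact ⟨h3.symm, h5.symm.trans h3.symm, h4.trans (h5.symm.trans h3.symm)⟩




/-! ### surgery -/

/-- two loops side by side, `A` = the merged loop; `X1, X2` the separated faces, `Y1, Y2` the others -/
structure Side (X1 X2 Y1 Y2 : Face) (A1 A2 A : Finset Face) : Prop where
  dis : Disjoint A1 A2
  mem : ∀ f, f ∈ A ↔ f ∈ A1 ∨ f ∈ A2
  x1 : X1 ∈ A1
  x2 : X2 ∈ A2
  y1 : Y1 ∉ A
  y2 : Y2 ∉ A

/-- `Ai` inside `Ao`, `A` = the merged loop -/
structure Nest (Xo Xi Y1 Y2 : Face) (Ao Ai A : Finset Face) : Prop where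
  sub : Ai ⊆ Ao
  mem : ∀ f, f ∈ A ↔ f ∈ Ao ∧ f ∉ Ai
  xo : Xo ∉ Ao
  xi : Xi ∈ Ai
  y1 : Y1 ∈ A
  y2 : Y2 ∈ A

/-- first separated face of the two-loop state `z` at `e` -/
def X1 (z : Cfz) (e : Edge) : Face := if z e then cf (i1 e) else cv (i1 e)
/-- second separated face -/
def X2 (z : Cfz) (e : Edge) : Face := if z e then cf (i2 e) else cv (i2 e)
/-- the faces on the other side of both strands -/
def Y1 (z : Cfz) (e : Edge) : Face := if z e then cv (i1 e) else cf (i1 e)
/-- the faces on the other side of both strands -/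
def Y2 (z : Cfz) (e : Edge) : Face := if z e then cv (i2 e) else cf (i2 e)

theorem ht_split {z : Cfz} {e : Edge} (hfin : (Lp z (i1 e)).Finite) (h : i2 e ∈ Lp z (i1 e))
    (f : Face) : ht z (i1 e) f = ht (flip z e) (i1 e) f + ht (flip z e) (i2 e) f := by
  unfold ht
  split_ifs
  · exact hf_split hfin h f.1
  · exact hv_split hfin h f.1

/-- values of the heights according to the sign -/
theorem ht_pos {z : Cfz} {c : Corner} (hfin : (Lp z c).Finite) (h : sg z c = 1) :
    (∀ f, ht z c f = 0 ∨ ht z c f = 1) ∧ ∀ d ∈ Lp z c, ht z c (cv d) = 0 ∧ ht z c (cf d) = 1 := by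
  rcases sg_cases hfin with ⟨h0, _⟩ | ⟨_, h1, h2, h3⟩
  · rw [h] at h0; norm_num at h0
  · refine ⟨fun f => ?_, fun d hd => ?_⟩
    · unfold ht; split_ifs
      · exact h3 _
      · exact h2 _
    · rw [ht_cv, ht_cf]; exact h1 d hd

theorem ht_neg {z : Cfz} {c : Corner} (hfin : (Lp z c).Finite) (h : sg z c = -1) :
    (∀ f, ht z c f = 0 ∨ ht z c f = -1) ∧ ∀ d ∈ Lp z c, ht z c (cv d) = -1 ∧ ht z c (cf d) = 0 := by
  rcases sg_cases hfin with ⟨_, h1, h2, h3⟩ | ⟨h0, _⟩
  · refine ⟨fun f => ?_, fun d hd => ?_⟩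
    · unfold ht; split_ifs
      · exact (h3 _).symm
      · exact (h2 _).symm
    · rw [ht_cv, ht_cf]; exact h1 d hd
  · rw [h] at h0; norm_num at h0

/-- the strands at `e` of `flip z e` are finite -/
theorem fin_flip1 {z : Cfz} {e : Edge} (h1 : (Lp z (i1 e)).Finite) (h2 : (Lp z (i2 e)).Finite) :
    (Lp (flip z e) (i1 e)).Finite :=
  (h1.union h2).subset (by rw [← flip_union z e]; exact Set.subset_union_left)

theorem fin_flip2 {z : Cfz} {e : Edge} (h1 : (Lp z (i1 e)).Finite) (h2 : (Lp z (i2 e)).Finite) :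
    (Lp (flip z e) (i2 e)).Finite :=
  (h1.union h2).subset (by rw [← flip_union z e]; exact Set.subset_union_right)

/-- **surgery**: `z` is the two-loop state -/
theorem surg {z : Cfz} {e : Edge} (h1 : (Lp z (i1 e)).Finite) (h2 : (Lp z (i2 e)).Finite)
    (hne : i2 e ∉ Lp z (i1 e)) :
    Side (X1 z e) (X2 z e) (Y1 z e) (Y2 z e) (In z (i1 e)) (In z (i2 e)) (In (flip z e) (i1 e)) ∨
    Nest (X1 z e) (X2 z e) (Y1 z e) (Y2 z e) (In z (i1 e)) (In z (i2 e)) (In (flip z e) (i1 e)) ∨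
    Nest (X2 z e) (X1 z e) (Y1 z e) (Y2 z e) (In z (i2 e)) (In z (i1 e))
      (In (flip z e) (i1 e)) := by
  have hm := flip_merge h2 hne
  have f1 := fin_flip1 h1 h2
  have f2 := fin_flip2 h1 h2
  have hsp := ht_split f1 hm
  rw [It200.flip_flip] at hsp
  have a1 : i1 e ∈ Lp z (i1 e) := mem_Lp_self _ _
  have a2 : i2 e ∈ Lp z (i2 e) := mem_Lp_self _ _
  -- the sign pattern
  have hpat : (sg (flip z e) (i1 e) = 1 ∧ sg z (i1 e) = 1 ∧ sg z (i2 e) = 1 ∧ z e = true) ∨
      (sg (flip z e) (i1 e) = -1 ∧ sg z (i1 e) = -1 ∧ sg z (i2 e) = 1 ∧ z e = true) ∨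
      (sg (flip z e) (i1 e) = -1 ∧ sg z (i1 e) = 1 ∧ sg z (i2 e) = -1 ∧ z e = true) ∨
      (sg (flip z e) (i1 e) = -1 ∧ sg z (i1 e) = -1 ∧ sg z (i2 e) = -1 ∧ z e = false) ∨
      (sg (flip z e) (i1 e) = 1 ∧ sg z (i1 e) = 1 ∧ sg z (i2 e) = -1 ∧ z e = false) ∨
      (sg (flip z e) (i1 e) = 1 ∧ sg z (i1 e) = -1 ∧ sg z (i2 e) = 1 ∧ z e = false) := by
    cases hz : z e with
    | true =>
        have hz' : flip z e e = false := by rw [flip_same, hz]; rfl
        have h := split_closed_open hz' f1 hm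
        rw [It200.flip_flip] at h
        rcases h with ⟨b, c, d, -, -⟩ | ⟨b, c, d, -, -⟩ | ⟨b, c, d, -, -⟩ <;> simp [b, c, d]
    | false =>
        have hz' : flip z e e = true := by rw [flip_same, hz]; rfl
        have h := split_open_closed hz' f1 hm
        rw [It200.flip_flip] at h
        rcases h with ⟨b, c, d, -, -⟩ | ⟨b, c, d, -, -⟩ | ⟨b, c, d, -, -⟩ <;> simp [b, c, d]
  rcases hpat with ⟨s0, s1, s2, hz⟩ | ⟨s0, s1, s2, hz⟩ | ⟨s0, s1, s2, hz⟩ | ⟨s0, s1, s2, hz⟩ |
    ⟨s0, s1, s2, hz⟩ | ⟨s0, s1, s2, hz⟩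
  · -- side by side, open
    left
    obtain ⟨p0, -⟩ := ht_pos f1 s0
    obtain ⟨p1, q1⟩ := ht_pos h1 s1
    obtain ⟨p2, q2⟩ := ht_pos h2 s2
    have o1' := q1 _ (o2_mem_open hz)
    have o2' := q2 _ (o1_mem_open hz)
    rw [cv_o2, cf_o2] at o1'
    rw [cv_o1, cf_o1] at o2'
    refine ⟨?_, ?_, ?_, ?_, ?_, ?_⟩
    · rw [Finset.disjoint_left]
      intro f hf1 hf2
      rw [mem_In h1] at hf1
      rw [mem_In h2] at hf2
      have := hsp f
      rcases p0 f with h | h <;> rcases p1 f with h' | h' <;> rcases p2 f with h'' | h'' <;> omega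
    · intro f
      rw [mem_In f1, mem_In h1, mem_In h2]
      have := hsp f
      rcases p0 f with h | h <;> rcases p1 f with h' | h' <;> rcases p2 f with h'' | h'' <;> omega
    · rw [X1, hz, if_pos rfl, mem_In h1, (q1 _ a1).2]; norm_num
    · rw [X2, hz, if_pos rfl, mem_In h2, (q2 _ a2).2]; norm_num
    · rw [Y1, hz, if_pos rfl, mem_In f1, hsp, (q1 _ a1).1, o2'.1]; norm_num
    · rw [Y2, hz, if_pos rfl, mem_In f1, hsp, (q2 _ a2).1, o1'.1]; norm_num
  · right; left
    obtain ⟨p0, -⟩ := ht_neg f1 s0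
    obtain ⟨p1, q1⟩ := ht_neg h1 s1
    obtain ⟨p2, q2⟩ := ht_pos h2 s2
    have o1' := q1 _ (o2_mem_open hz)
    have o2' := q2 _ (o1_mem_open hz)
    rw [cv_o2, cf_o2] at o1'
    rw [cv_o1, cf_o1] at o2'
    refine ⟨?_, ?_, ?_, ?_, ?_, ?_⟩
    · intro f hf2
      rw [mem_In h2] at hf2
      rw [mem_In h1]
      have := hsp f
      rcases p0 f with h | h <;> rcases p1 f with h' | h' <;> rcases p2 f with h'' | h'' <;> omega
    · intro f
      rw [mem_In f1, mem_In h1, mem_In h2]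
      have := hsp f
      rcases p0 f with h | h <;> rcases p1 f with h' | h' <;> rcases p2 f with h'' | h'' <;> omega
    · rw [X1, hz, if_pos rfl, mem_In h1, (q1 _ a1).2]; norm_num
    · rw [X2, hz, if_pos rfl, mem_In h2, (q2 _ a2).2]; norm_num
    · rw [Y1, hz, if_pos rfl, mem_In f1, hsp, (q1 _ a1).1, o2'.1]; norm_num
    · rw [Y2, hz, if_pos rfl, mem_In f1, hsp, (q2 _ a2).1, o1'.1]; norm_num
  · right; right
    obtain ⟨p0, -⟩ := ht_neg f1 s0
    obtain ⟨p1, q1⟩ := ht_pos h1 s1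
    obtain ⟨p2, q2⟩ := ht_neg h2 s2
    have o1' := q1 _ (o2_mem_open hz)
    have o2' := q2 _ (o1_mem_open hz)
    rw [cv_o2, cf_o2] at o1'
    rw [cv_o1, cf_o1] at o2'
    refine ⟨?_, ?_, ?_, ?_, ?_, ?_⟩
    · intro f hf2
      rw [mem_In h1] at hf2
      rw [mem_In h2]
      have := hsp f
      rcases p0 f with h | h <;> rcases p1 f with h' | h' <;> rcases p2 f with h'' | h'' <;> omega
    · intro f
      rw [mem_In f1, mem_In h1, mem_In h2]
      have := hsp f
      rcases p0 f with h | h <;> rcases p1 f with h' | h' <;> rcases p2 f with h'' | h'' <;> omega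
    · rw [X2, hz, if_pos rfl, mem_In h2, (q2 _ a2).2]; norm_num
    · rw [X1, hz, if_pos rfl, mem_In h1, (q1 _ a1).2]; norm_num
    · rw [Y1, hz, if_pos rfl, mem_In f1, hsp, (q1 _ a1).1, o2'.1]; norm_num
    · rw [Y2, hz, if_pos rfl, mem_In f1, hsp, (q2 _ a2).1, o1'.1]; norm_num
  · -- side by side, closed
    left
    obtain ⟨p0, -⟩ := ht_neg f1 s0
    obtain ⟨p1, q1⟩ := ht_neg h1 s1
    obtain ⟨p2, q2⟩ := ht_neg h2 s2
    have o1' := q1 _ (o1_mem_closed hz)
    have o2' := q2 _ (o2_mem_closed hz)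
    rw [cv_o1, cf_o1] at o1'
    rw [cv_o2, cf_o2] at o2'
    have hb : ¬ (false = true) := by simp
    refine ⟨?_, ?_, ?_, ?_, ?_, ?_⟩
    · rw [Finset.disjoint_left]
      intro f hf1 hf2
      rw [mem_In h1] at hf1
      rw [mem_In h2] at hf2
      have := hsp f
      rcases p0 f with h | h <;> rcases p1 f with h' | h' <;> rcases p2 f with h'' | h'' <;> omega
    · intro f
      rw [mem_In f1, mem_In h1, mem_In h2]
      have := hsp f
      rcases p0 f with h | h <;> rcases p1 f with h' | h' <;> rcases p2 f with h'' | h'' <;> omega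
    · rw [X1, hz, if_neg hb, mem_In h1, (q1 _ a1).1]; norm_num
    · rw [X2, hz, if_neg hb, mem_In h2, (q2 _ a2).1]; norm_num
    · rw [Y1, hz, if_neg hb, mem_In f1, hsp, (q1 _ a1).2, o2'.2]; norm_num
    · rw [Y2, hz, if_neg hb, mem_In f1, hsp, (q2 _ a2).2, o1'.2]; norm_num
  · right; left
    obtain ⟨p0, -⟩ := ht_pos f1 s0
    obtain ⟨p1, q1⟩ := ht_pos h1 s1
    obtain ⟨p2, q2⟩ := ht_neg h2 s2
    have o1' := q1 _ (o1_mem_closed hz)
    have o2' := q2 _ (o2_mem_closed hz)
    rw [cv_o1, cf_o1] at o1'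
    rw [cv_o2, cf_o2] at o2'
    have hb : ¬ (false = true) := by simp
    refine ⟨?_, ?_, ?_, ?_, ?_, ?_⟩
    · intro f hf2
      rw [mem_In h2] at hf2
      rw [mem_In h1]
      have := hsp f
      rcases p0 f with h | h <;> rcases p1 f with h' | h' <;> rcases p2 f with h'' | h'' <;> omega
    · intro f
      rw [mem_In f1, mem_In h1, mem_In h2]
      have := hsp f
      rcases p0 f with h | h <;> rcases p1 f with h' | h' <;> rcases p2 f with h'' | h'' <;> omega
    · rw [X1, hz, if_neg hb, mem_In h1, (q1 _ a1).1]; norm_num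
    · rw [X2, hz, if_neg hb, mem_In h2, (q2 _ a2).1]; norm_num
    · rw [Y1, hz, if_neg hb, mem_In f1, hsp, (q1 _ a1).2, o2'.2]; norm_num
    · rw [Y2, hz, if_neg hb, mem_In f1, hsp, (q2 _ a2).2, o1'.2]; norm_num
  · right; right
    obtain ⟨p0, -⟩ := ht_pos f1 s0
    obtain ⟨p1, q1⟩ := ht_neg h1 s1
    obtain ⟨p2, q2⟩ := ht_pos h2 s2
    have o1' := q1 _ (o1_mem_closed hz)
    have o2' := q2 _ (o2_mem_closed hz)
    rw [cv_o1, cf_o1] at o1'
    rw [cv_o2, cf_o2] at o2'
    have hb : ¬ (false = true) := by simp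
    refine ⟨?_, ?_, ?_, ?_, ?_, ?_⟩
    · intro f hf2
      rw [mem_In h1] at hf2
      rw [mem_In h2]
      have := hsp f
      rcases p0 f with h | h <;> rcases p1 f with h' | h' <;> rcases p2 f with h'' | h'' <;> omega
    · intro f
      rw [mem_In f1, mem_In h1, mem_In h2]
      have := hsp f
      rcases p0 f with h | h <;> rcases p1 f with h' | h' <;> rcases p2 f with h'' | h'' <;> omega
    · rw [X2, hz, if_neg hb, mem_In h2, (q2 _ a2).1]; norm_num
    · rw [X1, hz, if_neg hb, mem_In h1, (q1 _ a1).1]; norm_num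
    · rw [Y1, hz, if_neg hb, mem_In f1, hsp, (q1 _ a1).2, o2'.2]; norm_num
    · rw [Y2, hz, if_neg hb, mem_In f1, hsp, (q2 _ a2).2, o1'.2]; norm_num

end Crest.Agent.R158.Vn841
end
end

-- ▼ part R158/Vn3_841

/-!
# R158, V4 (helper841), part 3: normal forms of the weight functional at one edge / one corner

`m = μ + single u (±π)` neutral, `W`, `mass`, `Rest` as in `Vx2_107`.

* `nab m z e = W m (open) - W m (closed)`
* `RX μ u z e` : product over the loops not visiting `e`, `-Fw (mass μ A)` if `u ∈ A`, `Fw (mass μ A)`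
  otherwise;  `RP_base`
* `nab_side`, `nab_nest1`, `nab_nest2` (X2): `4 sin M₁ sin M₂ · RX`, `-4 sin (Mo - π/3) sin Mi · RX`
* `Oth z c` : loops not visiting the corner `c`;  `W_corner`
* `two_strand_pos`, `two_strand_neg` (X3), `charge_corner` ((D), pointwise), `X3'`
-/

set_option autoImplicit false

noncomputable section

namespace Crest.Agent.R158.Vn841

open Crest.Agent.R161.Geo729 Crest.Agent.R161.Dual374
open Crest.Agent.R158.It200 Crest.Agent.R158.Wf850
open Crest.Agent.R158.Vx107 (Fw Sw mass tot Ntr W Rest RP mass_add mass_single mass_sub mass_neg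
  mass_smul fin_supp rest_sub dC Fw_add_pi Fw_sub_pi Fw_zero)
open Function Real

/-! ### the two states -/

/-- `e` opened -/
def op (z : Cfz) (e : Edge) : Cfz := Function.update z e true

/-- `e` closed -/
def cl (z : Cfz) (e : Edge) : Cfz := Function.update z e false

theorem op_of_true {z : Cfz} {e : Edge} (h : z e = true) : op z e = z ∧ cl z e = It200.flip z e := by
  unfold op cl It200.flip
  rw [h]
  refine ⟨?_, rfl⟩
  rw [← h, Function.update_eq_self]

theorem op_of_false {z : Cfz} {e : Edge} (h : z e = false) :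
    cl z e = z ∧ op z e = It200.flip z e := by
  unfold op cl It200.flip
  rw [h]
  refine ⟨?_, rfl⟩
  rw [← h, Function.update_eq_self]

@[simp] theorem op_flip (z : Cfz) (e : Edge) : op (It200.flip z e) e = op z e := by
  unfold op It200.flip; rw [Function.update_idem]

@[simp] theorem cl_flip (z : Cfz) (e : Edge) : cl (It200.flip z e) e = cl z e := by
  unfold cl It200.flip; rw [Function.update_idem]

/-- open minus closed -/
def nab (m : Face →₀ ℝ) (z : Cfz) (e : Edge) : ℝ := W m (op z e) - W m (cl z e)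

theorem nab_flip (m : Face →₀ ℝ) (z : Cfz) (e : Edge) : nab m (It200.flip z e) e = nab m z e := by
  unfold nab; rw [op_flip, cl_flip]

theorem nab_true {m : Face →₀ ℝ} {z : Cfz} {e : Edge} (h : z e = true) :
    nab m z e = W m z - W m (It200.flip z e) := by
  unfold nab; rw [(op_of_true h).1, (op_of_true h).2]

theorem nab_false {m : Face →₀ ℝ} {z : Cfz} {e : Edge} (h : z e = false) :
    nab m z e = W m (It200.flip z e) - W m z := by
  unfold nab; rw [(op_of_false h).1, (op_of_false h).2]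

theorem rest_eq (z : Cfz) (e : Edge) : Rest z e = Rst z e := by
  ext A
  unfold Rest Rst
  rw [Set.mem_ofPred_eq, Set.mem_ofPred_eq, mem_bdE', not_or]

/-! ### the product over the other loops with a base charge -/

open Classical in
/-- factor of the loop `A` seen from the base point `u` -/
def fx (μ : Face →₀ ℝ) (u : Face) (A : Finset Face) : ℝ :=
  if u ∈ A then -Fw (mass μ A) else Fw (mass μ A)

theorem fx_in {μ : Face →₀ ℝ} {u : Face} {A : Finset Face} (h : u ∈ A) :
    fx μ u A = -Fw (mass μ A) := by unfold fx; rw [if_pos h]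

theorem fx_out {μ : Face →₀ ℝ} {u : Face} {A : Finset Face} (h : u ∉ A) :
    fx μ u A = Fw (mass μ A) := by unfold fx; rw [if_neg h]

/-- base charge `± π` -/
def Bs (r : ℝ) : Prop := r = π ∨ r = -π

theorem Fw_bs {r : ℝ} (hr : Bs r) (q : ℝ) : Fw (q + r) = -Fw q := by
  rcases hr with rfl | rfl
  · exact Fw_add_pi q
  · rw [← sub_eq_add_neg]; exact Fw_sub_pi q

theorem mass_base_in {μ : Face →₀ ℝ} {u : Face} {r : ℝ} {A : Finset Face} (h : u ∈ A) :
    mass (μ + Finsupp.single u r) A = mass μ A + r := by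
  classical
  rw [mass_add, mass_single, if_pos h]

theorem mass_base_out {μ : Face →₀ ℝ} {u : Face} {r : ℝ} {A : Finset Face} (h : u ∉ A) :
    mass (μ + Finsupp.single u r) A = mass μ A := by
  classical
  rw [mass_add, mass_single, if_neg h, add_zero]

/-- **factor of a loop in the presence of the base charge** -/
theorem Fw_base {r : ℝ} (hr : Bs r) (μ : Face →₀ ℝ) (u : Face) (A : Finset Face) :
    Fw (mass (μ + Finsupp.single u r) A) = fx μ u A := by
  by_cases h : u ∈ A
  · rw [mass_base_in h, Fw_bs hr, fx_in h]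
  · rw [mass_base_out h, fx_out h]

/-- product over the loops that do not visit `e`, base point `u` -/
def RX (μ : Face →₀ ℝ) (u : Face) (z : Cfz) (e : Edge) : ℝ := ∏ᶠ A ∈ Rest z e, fx μ u A

theorem RP_base {r : ℝ} (hr : Bs r) (μ : Face →₀ ℝ) (u : Face) (z : Cfz) (e : Edge) :
    RP (μ + Finsupp.single u r) z e = RX μ u z e := by
  unfold RP RX
  exact finprod_mem_congr rfl fun A _ => Fw_base hr μ u A

theorem RX_flip (μ : Face →₀ ℝ) (u : Face) (z : Cfz) (e : Edge) :
    RX μ u (It200.flip z e) e = RX μ u z e := by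
  unfold RX; rw [Vx107.rest_flip]

/-! ### the weight at an edge -/

theorem W_two' {z : Cfz} {e : Edge} (h1 : (Lp z (i1 e)).Finite) (h2 : (Lp z (i2 e)).Finite)
    (hne : i2 e ∉ Lp z (i1 e)) {m : Face →₀ ℝ} (hm : Ntr m) :
    W m z = Fw (mass m (In z (i1 e))) * Fw (mass m (In z (i2 e))) * RP m z e := by
  rw [Vx107.W_two h1 h2 hne hm, Vx107.mass_eq h1 (In_spec h1).2, Vx107.mass_eq h2 (In_spec h2).2]

theorem W_one' {z : Cfz} {e : Edge} (h1 : (Lp z (i1 e)).Finite)
    (hne : i2 e ∈ Lp z (i1 e)) {m : Face →₀ ℝ} (hm : Ntr m) :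
    W m z = Fw (mass m (In z (i1 e))) * RP m z e := by
  rw [Vx107.W_one h1 hne hm, Vx107.mass_eq h1 (In_spec h1).2]

/-- the merged state -/
theorem W_merged {z : Cfz} {e : Edge} (h1 : (Lp z (i1 e)).Finite) (h2 : (Lp z (i2 e)).Finite)
    (hne : i2 e ∉ Lp z (i1 e)) {m : Face →₀ ℝ} (hm : Ntr m) :
    W m (It200.flip z e) = Fw (mass m (In (It200.flip z e) (i1 e))) * RP m z e := by
  rw [W_one' (fin_flip1 h1 h2) (flip_merge h2 hne) hm, Vx107.RP_flip]

theorem mass_union {m : Face →₀ ℝ} {A1 A2 A : Finset Face} (hd : Disjoint A1 A2)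
    (h : ∀ f, f ∈ A ↔ f ∈ A1 ∨ f ∈ A2) : mass m A = mass m A1 + mass m A2 := by
  classical
  have : A = A1 ∪ A2 := by ext f; rw [h, Finset.mem_union]
  unfold mass
  rw [this, Finset.sum_union hd]

theorem mass_sdiff {m : Face →₀ ℝ} {Ao Ai A : Finset Face} (hs : Ai ⊆ Ao)
    (h : ∀ f, f ∈ A ↔ f ∈ Ao ∧ f ∉ Ai) : mass m A = mass m Ao - mass m Ai := by
  classical
  have : A = Ao \ Ai := by ext f; rw [h, Finset.mem_sdiff]
  unfold mass
  rw [this, ← Finset.sum_sdiff hs]
  ring

section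

variable {z : Cfz} {e : Edge} {μ : Face →₀ ℝ} {u : Face} {r : ℝ}

/-- **(X2), side by side** -/
theorem nab_side (h1 : (Lp z (i1 e)).Finite) (h2 : (Lp z (i2 e)).Finite)
    (hne : i2 e ∉ Lp z (i1 e)) (hr : Bs r) (hm : Ntr (μ + Finsupp.single u r))
    (hu : u = cv (i1 e) ∨ u = cv (i2 e))
    (hs : Side (X1 z e) (X2 z e) (Y1 z e) (Y2 z e) (In z (i1 e)) (In z (i2 e))
      (In (It200.flip z e) (i1 e))) :
    nab (μ + Finsupp.single u r) z e =
      4 * sin (mass μ (In z (i1 e))) * sin (mass μ (In z (i2 e))) * RX μ u z e := by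
  have hW2 := W_two' h1 h2 hne hm
  have hW1 := W_merged h1 h2 hne hm
  rw [RP_base hr, Fw_base hr] at hW1
  rw [RP_base hr, Fw_base hr, Fw_base hr] at hW2
  have hmas := mass_union (m := μ) hs.dis hs.mem
  have key := Vx107.Fw_mul_sub_side (mass μ (In z (i1 e))) (mass μ (In z (i2 e)))
  rw [← hmas] at key
  cases hz : z e with
  | true =>
      rw [nab_true hz, hW2, hW1]
      have y1 := hs.y1
      have y2 := hs.y2
      rw [Y1, hz, if_pos rfl] at y1
      rw [Y2, hz, if_pos rfl] at y2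
      have hu0 : u ∉ In (It200.flip z e) (i1 e) := by
        rcases hu with rfl | rfl
        · exact y1
        · exact y2
      have hu1 : u ∉ In z (i1 e) := fun h => hu0 ((hs.mem u).2 (Or.inl h))
      have hu2 : u ∉ In z (i2 e) := fun h => hu0 ((hs.mem u).2 (Or.inr h))
      rw [fx_out hu0, fx_out hu1, fx_out hu2]
      linear_combination RX μ u z e * key
  | false =>
      rw [nab_false hz, hW2, hW1]
      have x1 := hs.x1
      have x2 := hs.x2
      rw [X1, hz, if_neg (by simp)] at x1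
      rw [X2, hz, if_neg (by simp)] at x2
      have hd := Finset.disjoint_left.1 hs.dis
      rcases hu with rfl | rfl
      · rw [fx_in ((hs.mem _).2 (Or.inl x1)), fx_in x1, fx_out (hd x1)]
        linear_combination RX μ (cv (i1 e)) z e * key
      · rw [fx_in ((hs.mem _).2 (Or.inr x2)), fx_in x2, fx_out (fun h => hd h x2)]
        linear_combination RX μ (cv (i2 e)) z e * key

/-- **(X2), nested, abstract form** (`Ao` outer, `Ai` inner) -/
theorem nab_nest_aux {Xo Xi : Face} {Ao Ai : Finset Face}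
    (h1 : (Lp z (i1 e)).Finite) (h2 : (Lp z (i2 e)).Finite)
    (hne : i2 e ∉ Lp z (i1 e)) (hr : Bs r) (hm : Ntr (μ + Finsupp.single u r))
    (hu : u = cv (i1 e) ∨ u = cv (i2 e))
    (hA : (Ao = In z (i1 e) ∧ Ai = In z (i2 e) ∧ Xo = X1 z e ∧ Xi = X2 z e) ∨
      (Ao = In z (i2 e) ∧ Ai = In z (i1 e) ∧ Xo = X2 z e ∧ Xi = X1 z e))
    (hs : Nest Xo Xi (Y1 z e) (Y2 z e) Ao Ai (In (It200.flip z e) (i1 e))) :
    nab (μ + Finsupp.single u r) z e =
      -4 * sin (mass μ Ao - π / 3) * sin (mass μ Ai) * RX μ u z e := by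
  have hW2 := W_two' h1 h2 hne hm
  have hW1 := W_merged h1 h2 hne hm
  rw [RP_base hr, Fw_base hr] at hW1
  rw [RP_base hr, Fw_base hr, Fw_base hr] at hW2
  have hW2' : W (μ + Finsupp.single u r) z = fx μ u Ao * fx μ u Ai * RX μ u z e := by
    rcases hA with ⟨a, b, -⟩ | ⟨a, b, -⟩
    · rw [a, b]; exact hW2
    · rw [a, b, hW2]; ring
  have hmas := mass_sdiff (m := μ) hs.sub hs.mem
  have key := Vx107.Fw_mul_sub_nest (mass μ Ao) (mass μ Ai)
  rw [← hmas] at key
  cases hz : z e with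
  | true =>
      rw [nab_true hz, hW2', hW1]
      have y1 := hs.y1
      have y2 := hs.y2
      rw [Y1, hz, if_pos rfl] at y1
      rw [Y2, hz, if_pos rfl] at y2
      have hu0 : u ∈ In (It200.flip z e) (i1 e) := by
        rcases hu with rfl | rfl
        · exact y1
        · exact y2
      obtain ⟨hu1, hu2⟩ := (hs.mem u).1 hu0
      rw [fx_in hu0, fx_in hu1, fx_out hu2]
      linear_combination -RX μ u z e * key
  | false =>
      rw [nab_false hz, hW2', hW1]
      have hcases : (u = Xo) ∨ (u = Xi) := by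
        rcases hA with ⟨-, -, c, d⟩ | ⟨-, -, c, d⟩ <;> rw [c, d, X1, X2, hz, if_neg (by simp),
          if_neg (by simp)]
        · exact hu
        · exact hu.symm
      rcases hcases with h | h
      · have hu1 : u ∉ Ao := h ▸ hs.xo
        have hu2 : u ∉ Ai := fun h' => hu1 (hs.sub h')
        have hu0 : u ∉ In (It200.flip z e) (i1 e) := fun h' => hu1 ((hs.mem u).1 h').1
        rw [fx_out hu0, fx_out hu1, fx_out hu2]
        linear_combination -RX μ u z e * key
      · have hu2 : u ∈ Ai := h ▸ hs.xi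
        have hu1 : u ∈ Ao := hs.sub hu2
        have hu0 : u ∉ In (It200.flip z e) (i1 e) := fun h' => ((hs.mem u).1 h').2 hu2
        rw [fx_out hu0, fx_in hu1, fx_in hu2]
        linear_combination -RX μ u z e * key

/-- **(X2), nested, outer strand `i1`** -/
theorem nab_nest1 (h1 : (Lp z (i1 e)).Finite) (h2 : (Lp z (i2 e)).Finite)
    (hne : i2 e ∉ Lp z (i1 e)) (hr : Bs r) (hm : Ntr (μ + Finsupp.single u r))
    (hu : u = cv (i1 e) ∨ u = cv (i2 e))
    (hs : Nest (X1 z e) (X2 z e) (Y1 z e) (Y2 z e) (In z (i1 e)) (In z (i2 e))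
      (In (It200.flip z e) (i1 e))) :
    nab (μ + Finsupp.single u r) z e =
      -4 * sin (mass μ (In z (i1 e)) - π / 3) * sin (mass μ (In z (i2 e))) * RX μ u z e :=
  nab_nest_aux h1 h2 hne hr hm hu (Or.inl ⟨rfl, rfl, rfl, rfl⟩) hs

/-- **(X2), nested, outer strand `i2`** -/
theorem nab_nest2 (h1 : (Lp z (i1 e)).Finite) (h2 : (Lp z (i2 e)).Finite)
    (hne : i2 e ∉ Lp z (i1 e)) (hr : Bs r) (hm : Ntr (μ + Finsupp.single u r))
    (hu : u = cv (i1 e) ∨ u = cv (i2 e))
    (hs : Nest (X2 z e) (X1 z e) (Y1 z e) (Y2 z e) (In z (i2 e)) (In z (i1 e))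
      (In (It200.flip z e) (i1 e))) :
    nab (μ + Finsupp.single u r) z e =
      -4 * sin (mass μ (In z (i2 e)) - π / 3) * sin (mass μ (In z (i1 e))) * RX μ u z e :=
  nab_nest_aux h1 h2 hne hr hm hu (Or.inr ⟨rfl, rfl, rfl, rfl⟩) hs

end


/-- one of the two states has two loops at `e` -/
theorem exists_two {z : Cfz} {e : Edge} (h1 : (Lp z (i1 e)).Finite) (h2 : (Lp z (i2 e)).Finite) :
    ∃ z', (z' = z ∨ z' = It200.flip z e) ∧ (Lp z' (i1 e)).Finite ∧ (Lp z' (i2 e)).Finite ∧
      i2 e ∉ Lp z' (i1 e) := by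
  by_cases h : i2 e ∈ Lp z (i1 e)
  · exact ⟨_, Or.inr rfl, fin_flip1 h1 h2, fin_flip2 h1 h2, flip_split h1 h⟩
  · exact ⟨_, Or.inl rfl, h1, h2, h⟩

/-- **(X2)**: summary.  `Ao, Ai` are the outer / inner loop in the nested case. -/
theorem nab_cases {z : Cfz} {e : Edge} {μ : Face →₀ ℝ} {u : Face} {r : ℝ}
    (h1 : (Lp z (i1 e)).Finite) (h2 : (Lp z (i2 e)).Finite) (hr : Bs r)
    (hm : Ntr (μ + Finsupp.single u r)) (hu : u = cv (i1 e) ∨ u = cv (i2 e)) :
    ∃ z', (z' = z ∨ z' = It200.flip z e) ∧ (Lp z' (i1 e)).Finite ∧ (Lp z' (i2 e)).Finite ∧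
      i2 e ∉ Lp z' (i1 e) ∧
      ((Side (X1 z' e) (X2 z' e) (Y1 z' e) (Y2 z' e) (In z' (i1 e)) (In z' (i2 e))
          (In (It200.flip z' e) (i1 e)) ∧
        nab (μ + Finsupp.single u r) z e =
          4 * sin (mass μ (In z' (i1 e))) * sin (mass μ (In z' (i2 e))) * RX μ u z e) ∨
      (Nest (X1 z' e) (X2 z' e) (Y1 z' e) (Y2 z' e) (In z' (i1 e)) (In z' (i2 e))
          (In (It200.flip z' e) (i1 e)) ∧
        nab (μ + Finsupp.single u r) z e =
          -4 * sin (mass μ (In z' (i1 e)) - π / 3) * sin (mass μ (In z' (i2 e))) * RX μ u z e) ∨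
      (Nest (X2 z' e) (X1 z' e) (Y1 z' e) (Y2 z' e) (In z' (i2 e)) (In z' (i1 e))
          (In (It200.flip z' e) (i1 e)) ∧
        nab (μ + Finsupp.single u r) z e =
          -4 * sin (mass μ (In z' (i2 e)) - π / 3) * sin (mass μ (In z' (i1 e))) * RX μ u z e)) := by
  obtain ⟨z', hz', f1, f2, hne⟩ := exists_two h1 h2
  have e1 : nab (μ + Finsupp.single u r) z e = nab (μ + Finsupp.single u r) z' e := by
    rcases hz' with rfl | rfl
    · rfl
    · rw [nab_flip]
  have e2 : RX μ u z e = RX μ u z' e := by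
    rcases hz' with rfl | rfl
    · rfl
    · rw [RX_flip]
  refine ⟨z', hz', f1, f2, hne, ?_⟩
  rw [e1, e2]
  rcases surg f1 f2 hne with h | h | h
  · exact Or.inl ⟨h, nab_side f1 f2 hne hr hm hu h⟩
  · exact Or.inr (Or.inl ⟨h, nab_nest1 f1 f2 hne hr hm hu h⟩)
  · exact Or.inr (Or.inr ⟨h, nab_nest2 f1 f2 hne hr hm hu h⟩)

/-! ### one corner -/

/-- the loops that do not visit the corner `c` -/
def Oth (z : Cfz) (c : Corner) : Set (Finset Face) := {A | A ∈ Lps z ∧ ¬ sepC A c}

theorem oth_sub (z : Cfz) (c : Corner) : Oth z c ⊆ Lps z := fun _ h => h.1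

theorem oth_iff {z : Cfz} {c : Corner} {A : Finset Face} (h : A ∈ Oth z c) :
    cv c ∈ A ↔ cf c ∈ A := by
  have := h.2
  unfold sepC at this
  exact not_not.1 this

theorem lps_corner {z : Cfz} {c : Corner} (hfin : (Lp z c).Finite) :
    Lps z = insert (In z c) (Oth z c) ∧ In z c ∉ Oth z c := by
  have s1 : sepC (In z c) c := (sep_In hfin c).2 (mem_Lp_self z c)
  refine ⟨?_, fun h => h.2 s1⟩
  ext A
  constructor
  · intro hA
    by_cases h : sepC A c
    · exact Or.inl (eq_In hA h).2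
    · exact Or.inr ⟨hA, h⟩
  · rintro (rfl | h)
    · exact In_mem hfin
    · exact h.1

/-- **the weight at a corner** -/
theorem W_corner {z : Cfz} {c : Corner} (hfin : (Lp z c).Finite) {m : Face →₀ ℝ} (hm : Ntr m) :
    W m z = Fw (mass m (In z c)) * ∏ᶠ A ∈ Oth z c, Fw (mass m A) := by
  obtain ⟨h1, h2⟩ := lps_corner hfin
  unfold W
  rw [h1, finprod_mem_insert' _ h2 (fin_supp hm (oth_sub z c))]

/-- exactly one of the two faces is inside -/
theorem corner_cases {z : Cfz} {c : Corner} (hfin : (Lp z c).Finite) :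
    (cv c ∈ In z c ∧ cf c ∉ In z c) ∨ (cv c ∉ In z c ∧ cf c ∈ In z c) := by
  have s1 : sepC (In z c) c := (sep_In hfin c).2 (mem_Lp_self z c)
  unfold sepC at s1
  by_cases h : cv c ∈ In z c <;> by_cases h' : cf c ∈ In z c
  · exact absurd ⟨fun _ => h', fun _ => h⟩ s1
  · exact Or.inl ⟨h, h'⟩
  · exact Or.inr ⟨h, h'⟩
  · exact absurd ⟨fun h'' => absurd h'' h, fun h'' => absurd h'' h'⟩ s1

theorem Sw_bs {r : ℝ} (hr : Bs r) (q : ℝ) : Sw (q + r) = -Sw q := by
  unfold Sw
  rcases hr with rfl | rfl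
  · rw [← add_assoc, sin_add_pi]; ring
  · rw [show π / 3 + (q + -π) = (π / 3 + q) - π by ring, sin_sub_pi]; ring

/-- the operator (D) at the corner `c` for the charge `μ` (total `π`), pointwise -/
def Xs (μ : Face →₀ ℝ) (c : Corner) (z : Cfz) : ℝ :=
  Sw (mass μ (In z c)) * ∏ᶠ A ∈ Oth z c, fx μ (cv c) A

theorem mass_dC_oth {z : Cfz} {c : Corner} {A : Finset Face} (h : A ∈ Oth z c) :
    mass (dC c) A = 0 := Vx107.mass_pair (oth_iff h).symm

theorem mass_dC_v {c : Corner} {A : Finset Face} (h : cv c ∈ A) (h' : cf c ∉ A) :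
    mass (dC c) A = -1 := by
  classical
  unfold dC
  rw [mass_sub, mass_single, mass_single, if_neg h', if_pos h]; ring

theorem mass_dC_f {c : Corner} {A : Finset Face} (h : cv c ∉ A) (h' : cf c ∈ A) :
    mass (dC c) A = 1 := by
  classical
  unfold dC
  rw [mass_sub, mass_single, mass_single, if_pos h', if_neg h]; ring

/-- **half charge at a corner**, base point at its vertex: `W (μ ± π δ + (π/2) dC) = - Xs` -/
theorem W_half {z : Cfz} {c : Corner} (hfin : (Lp z c).Finite) {μ : Face →₀ ℝ} {r : ℝ} (hr : Bs r)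
    (hm : Ntr (μ + Finsupp.single (cv c) r)) :
    W (μ + Finsupp.single (cv c) r + (π / 2) • dC c) z = -Xs μ c z := by
  rw [W_corner hfin (hm.add ((Vx107.ntr_dC c).smul _))]
  have e1 : ∏ᶠ A ∈ Oth z c, Fw (mass (μ + Finsupp.single (cv c) r + (π / 2) • dC c) A) =
      ∏ᶠ A ∈ Oth z c, fx μ (cv c) A := by
    refine finprod_mem_congr rfl fun A hA => ?_
    rw [mass_add, mass_smul, mass_dC_oth hA, mul_zero, add_zero, Fw_base hr]
  rw [e1, Xs]
  rcases corner_cases hfin with ⟨a, b⟩ | ⟨a, b⟩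
  · rw [mass_add, mass_smul, mass_dC_v a b, mass_base_in a, mul_neg, mul_one, ← sub_eq_add_neg,
      Vx107.Fw_sub_half, Sw_bs hr]
    ring
  · rw [mass_add, mass_smul, mass_dC_f a b, mass_base_out a, mul_one, Vx107.Fw_add_half]
    ring

/-! ### two-strand operators (X3) -/











/-! ### a two-strand charge inside the operator `Xs` (X3') -/





end Crest.Agent.R158.Vn841
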