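import Crest.Agent.R158.Gx3_31
import Crest.Agent.R158.Vn3_841
import Crest.Agent.R158.Vx6_107

-- ▼ part R158/Uc1_31
section

/-!
# Row 158, Block A4 (helper31), C upper bounds, file 1: geometry and the pointwise bound

`n` main scale, `y0 n = (n, 0)`, box `BF (y0 n) (4 r)` with charge `5π/6`, ring `rg 0 R` with
charge `π/6`, base point near `0`; `Geo n r R : 3 ≤ r, 128 r ≤ n, 16 n ≤ R`.

* `mu n r R`, `tot_mu = π`, `sys` : the system (any point charge within distance `2` of `0`)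
* `loc_far` : a local loop does not contain faces within distance `2` of `0`
* `Fs`, `Fs_sub` : the free loops with a non trivial weight
* `pt_bound` : `|∏ᶠ A ∈ S, fx (s • mu) u A| ≤ exp (-s Lin + EC) * 2 ^ #Fs`, `s = ± 1`
-/

set_option autoImplicit false

noncomputable section

namespace Crest.Agent.R158.Uc31

open Real Function MeasureTheory
open Crest.Agent.R161.Tas682 (sd)
open Crest.Agent.R161.Geo729
open Crest.Agent.R158.It200 (Cfz Corner fc i1 i2)
open Crest.Agent.R158.Wf850 (Lps Face BF mem_BF Splits sd_self sd_tri sd_symm' sepC cv cf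
  sd_corner NN)
open Crest.Agent.R158.Vx107 (Fw Ntr W Rest mass_add mass_smul mass_single tot_add tot_smul
  tot_single rest_sub fin_supp)
open Crest.Agent.R158.Vn841 (fx Bs Fw_base)
open Crest.Agent.R158.Cn109 (lsW smalls mem_smalls VV DepF)
open Crest.Agent.R158.Hd109 (Err)
open Crest.Agent.R158.Rs689 (nu hf)
open Crest.Agent.R158.Gx31
open Crest.Agent.R158.Lc522 (nnF mem_nnF nnF_card)

/-! ### geometry -/

/-- centre of the box -/
def y0 (n : ℕ) : P2 := ((n : ℤ), 0)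

/-- the scales -/
structure Geo (n r R : ℕ) : Prop where
  r3 : 3 ≤ r
  rn : 128 * r ≤ n
  nR : 16 * n ≤ R

/-- the box -/
def Vb (n r : ℕ) : Finset Face := BF (y0 n) (4 * r : ℕ)

/-- supports -/
def VC (n r R : ℕ) (b : Bool) : Finset Face := if b then Vb n r else rg (0, 0) R

/-- levels -/
def kC (r R : ℕ) (b : Bool) : ℕ := if b then Nat.log 2 (4 * r) else Nat.log 2 (R / 2)

/-- amplitudes -/
def aC (b : Bool) : ℝ := if b then 5 * π / 6 else π / 6

/-- the smeared charge, total `π` -/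
def mu (n r R : ℕ) : Face →₀ ℝ := (5 * π / 6) • ud (Vb n r) + (π / 6) • ud (rg (0, 0) R)

theorem sd_y0 (n : ℕ) : sd (0, 0) (y0 n) = n := by
  unfold sd y0
  simp

theorem Vb_ne (n r : ℕ) : (Vb n r).Nonempty := BF_nonempty _ _

theorem tot_mu {n r R : ℕ} (hR : 1 ≤ R) : Vx107.tot (mu n r R) = π := by
  unfold mu
  rw [tot_add, tot_smul, tot_smul, tot_ud (Vb_ne n r), tot_ud (rg_nonempty hR)]
  ring

theorem mass_mu (n r R : ℕ) (A : Finset Face) : Vx107.mass (mu n r R) A =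
    (5 * π / 6) * Vx107.mass (ud (Vb n r)) A + (π / 6) * Vx107.mass (ud (rg (0, 0) R)) A := by
  unfold mu
  rw [mass_add, mass_smul, mass_smul]

section geo

variable {n r R : ℕ}

theorem Geo.ints (h : Geo n r R) : (3 : ℤ) ≤ r ∧ (128 : ℤ) * r ≤ n ∧ (16 : ℤ) * n ≤ R :=
  ⟨by exact_mod_cast h.r3, by exact_mod_cast h.rn, by exact_mod_cast h.nR⟩

theorem two_pow_log_le {a : ℕ} (ha : 1 ≤ a) : (2 : ℤ) ^ Nat.log 2 a ≤ a := by
  have : 2 ^ Nat.log 2 a ≤ a := Nat.pow_log_le_self 2 (by omega)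
  exact_mod_cast this

theorem Geo.kb (h : Geo n r R) : (2 : ℤ) ^ kC r R true ≤ 4 * r := by
  have := two_pow_log_le (a := 4 * r) (by have := h.r3; omega)
  unfold kC
  simpa using this

theorem Geo.kw (h : Geo n r R) : (2 : ℤ) * 2 ^ kC r R false ≤ R := by
  have h1 := h.r3
  have h2 := h.rn
  have h3 := h.nR
  have := two_pow_log_le (a := R / 2) (by omega)
  unfold kC
  simp only [Bool.false_eq_true, if_false]
  omega

/-- distances from the origin -/
theorem Geo.box_far (h : Geo n r R) {v : Face} (hv : v ∈ Vb n r) :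
    (n : ℤ) - 4 * r ≤ sd (0, 0) v.1 ∧ sd (0, 0) v.1 ≤ n + 4 * r := by
  unfold Vb at hv
  rw [mem_BF] at hv
  have h1 := sd_tri (0, 0) (y0 n) v.1
  have h2 := sd_tri (0, 0) v.1 (y0 n)
  rw [sd_y0] at h1 h2
  rw [sd_symm' v.1] at h2
  push_cast at hv
  constructor <;> linarith

theorem far_of_sd {v w : P2} {a b : ℤ} (hv : sd (0, 0) v ≤ a) (hw : b ≤ sd (0, 0) w) :
    b - a ≤ sd v w := by
  have := sd_tri (0, 0) v w
  linarith

/-- all the charges near the origin are far -/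
theorem Geo.far0 (h : Geo n r R) {b : Bool} {v : Face} (hv : v ∈ VC n r R b) {w : P2}
    (hw : sd (0, 0) w ≤ 2) : (2 : ℤ) ^ kC r R b ≤ sd v.1 w ∧ 2 < sd (0, 0) v.1 := by
  obtain ⟨i1, i2, i3⟩ := h.ints
  cases b
  · have hv' : v ∈ rg (0, 0) R := hv
    rw [mem_rg] at hv'
    have h1 := far_of_sd hw hv'.1.le
    rw [sd_symm'] at h1
    have h2 := h.kw
    have h3 : (0 : ℤ) < 2 ^ kC r R false := by positivity
    constructor <;> linarith
  · have hv' : v ∈ Vb n r := hv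
    have h1 := h.box_far hv'
    have h2 := far_of_sd hw h1.1
    rw [sd_symm'] at h2
    have h3 := h.kb
    constructor <;> linarith

theorem Geo.sepV (h : Geo n r R) {b b' : Bool} (hb : b ≠ b') {v w : Face} (hv : v ∈ VC n r R b)
    (hw : w ∈ VC n r R b') : (2 : ℤ) ^ kC r R b ≤ sd v.1 w.1 ∧ 1 ≤ sd v.1 w.1 := by
  obtain ⟨i1, i2, i3⟩ := h.ints
  have key : ∀ v w : Face, v ∈ Vb n r → w ∈ rg (0, 0) R →
      (R : ℤ) - n - 4 * r ≤ sd v.1 w.1 := by
    intro v w hv hw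
    rw [mem_rg] at hw
    have := far_of_sd (h.box_far hv).2 hw.1.le
    linarith
  cases b <;> cases b'
  · exact absurd rfl hb
  · have h1 := key w v hw hv
    rw [sd_symm'] at h1
    have h2 := h.kw
    have h3 : (0 : ℤ) < 2 ^ kC r R false := by positivity
    constructor <;> linarith
  · have h1 := key v w hv hw
    have h2 := h.kb
    constructor <;> linarith
  · exact absurd rfl hb

/-- **the system** -/
theorem Geo.sys (h : Geo n r R) {u : Face} (hu : sd (0, 0) u.1 ≤ 2) (s : ℝ) (t : ℝ) :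
    Sys (kC r R) (VC n r R) (fun b => uf (VC n r R b)) (fun b => s * aC b)
      (s • mu n r R + Finsupp.single u t) := by
  have hR : 1 ≤ R := by
    have h1 := h.r3
    have h2 := h.rn
    have h3 := h.nR
    omega
  refine Sys.of_ud (m0 := Finsupp.single u t) ?_ ?_ ?_ ?_ ?_ ?_
  · intro f
    rw [Fintype.sum_bool]
    show (s • mu n r R) f + _ = _
    rw [Finsupp.smul_apply]
    unfold mu VC aC
    simp only [Finsupp.add_apply, Finsupp.smul_apply, smul_eq_mul, if_true, Bool.false_eq_true,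
      if_false]
    ring
  · intro b
    cases b
    · exact rg_nonempty hR
    · exact Vb_ne n r
  · intro b b' hb v hv hv'
    have := (h.sepV hb hv hv').2
    rw [sd_self] at this
    linarith
  · intro b b' hb v hv w hw
    have := (h.sepV hb hv hw).1
    linarith
  · intro b v hv
    rw [Finsupp.single_apply, if_neg]
    rintro rfl
    have := (h.far0 hv hu).2
    linarith
  · intro b v hv w hw
    rw [Finsupp.single_apply] at hw
    have hw' : u = w := by
      by_contra hne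
      exact hw (if_neg hne)
    subst hw'
    have := (h.far0 hv hu).1
    linarith

/-- a local loop does not reach the origin -/
theorem Geo.loc_far (h : Geo n r R) {z : Cfz} {A : Finset Face}
    (hA : A ∈ Loc (kC r R) (VC n r R) z) {u : Face} (hu : sd (0, 0) u.1 ≤ 2) : u ∉ A := by
  intro huA
  obtain ⟨_, b, ⟨v, hv, hvA⟩, hd⟩ := mem_Loc'.1 hA
  have h1 := (h.far0 hv hu).1
  have h2 := Cn109.sd_le_dia hvA huA
  have h3 : ((Cn109.dia A + 1 : ℕ) : ℤ) < ((2 ^ kC r R b : ℕ) : ℤ) := by exact_mod_cast hd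
  push_cast at h3
  linarith

theorem Geo.loc_sep (h : Geo n r R) {z : Cfz} {A : Finset Face}
    (hA : A ∈ Loc (kC r R) (VC n r R) z) {c : Corner} (hc : sd (0, 0) c.1 ≤ 1) : ¬ sepC A c := by
  have h1 : cv c ∉ A := h.loc_far hA (u := cv c) (by show sd (0, 0) c.1 ≤ 2; linarith)
  have h2 : cf c ∉ A := h.loc_far hA (u := cf c) (by
    show sd (0, 0) (fc c) ≤ 2
    have := (sd_corner (0, 0) c).2
    linarith)
  unfold sepC
  rw [not_not]
  exact ⟨fun h' => absurd h' h1, fun h' => absurd h' h2⟩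

/-! ### free loops -/

/-- the free loops with a non trivial weight -/
def Fs (n r R : ℕ) (z : Cfz) : Set (Finset Face) :=
  {A | A ∈ Lps z ∧ A ∉ Loc (kC r R) (VC n r R) z ∧ Vx107.mass (mu n r R) A ≠ 0 ∧
    Vx107.mass (mu n r R) A ≠ π}

theorem lt_two_pow_log (a : ℕ) : a < 2 * 2 ^ Nat.log 2 a := by
  have := Nat.lt_pow_succ_log_self (b := 2) (by norm_num) a
  rw [pow_succ] at this
  omega

theorem not_splits {A B : Finset Face} (h : ¬ Splits A B) {f : Face} (hf : f ∈ B) (hfA : f ∈ A) :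
    B ⊆ A := by
  intro g hg
  by_contra hgA
  exact h ⟨⟨f, hf, hfA⟩, g, hg, hgA⟩

theorem Geo.Fs_sub (h : Geo n r R) (z : Cfz) : Fs n r R z ⊆
    CR (y0 n) (4 * r) 2 z ∪ CR (0, 0) (2 * R) 8 z ∪ (nnF (y0 n) (4 * r : ℕ) (R : ℕ) z : Set _) := by
  rintro A ⟨hA, hloc, h0, h1⟩
  have hR : 1 ≤ R := by
    have h1 := h.r3
    have h2 := h.rn
    have h3 := h.nR
    omega
  have hl : ∀ b : Bool, ∀ v ∈ VC n r R b, v ∈ A → 2 ^ kC r R b ≤ Cn109.dia A + 1 := by
    intro b v hv hvA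
    by_contra hcon
    push Not at hcon
    exact hloc (mem_Loc'.2 ⟨hA, b, ⟨v, hv, hvA⟩, hcon⟩)
  by_cases hw : Cn109.dia A + 1 < 2 ^ kC r R false
  · -- no ring mass
    have e1 : Vx107.mass (ud (rg (0, 0) R)) A = 0 := mass_ud_zero fun v hv hvA => by
      have := hl false v hv hvA
      omega
    obtain ⟨v, hv, hvA⟩ : ∃ v ∈ Vb n r, v ∈ A := by
      by_contra hcon
      push Not at hcon
      apply h0
      rw [mass_mu, e1, mass_ud_zero hcon]
      ring
    have h2 : 2 ^ Nat.log 2 (4 * r) ≤ Cn109.dia A + 1 := hl true v hv hvA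
    have h3 := lt_two_pow_log (4 * r)
    by_cases hs : Splits A (BF (y0 n) (4 * r : ℕ))
    · exact Or.inl (Or.inl ⟨hA, hs, by omega⟩)
    · have h4 := not_splits hs hv hvA
      refine Or.inr (mem_nnF.2 ⟨fun f hf => ?_, h4, hA⟩)
      have hc : ((y0 n, false) : Face) ∈ A := h4 (by rw [mem_BF, sd_self]; positivity)
      have h5 := Cn109.sd_le_dia hc hf
      have h6 : ((Cn109.dia A + 1 : ℕ) : ℤ) < ((2 ^ kC r R false : ℕ) : ℤ) := by exact_mod_cast hw
      have h7 := h.kw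
      push_cast at h6
      rw [mem_BF]
      have h8 : (0 : ℤ) ≤ Cn109.dia A := Nat.cast_nonneg _
      linarith
  · -- a big loop
    push Not at hw
    have h3 := lt_two_pow_log (R / 2)
    have h4 : 2 ^ Nat.log 2 (R / 2) ≤ Cn109.dia A + 1 := hw
    by_cases hs : Splits A (BF (0, 0) (2 * R : ℕ))
    · exact Or.inl (Or.inr ⟨hA, hs, by omega⟩)
    · exfalso
      have hin : ∀ v, v ∈ Vb n r ∨ v ∈ rg (0, 0) R → v ∈ BF (0, 0) (2 * R : ℕ) := by
        obtain ⟨i1, i2, i3⟩ := h.ints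
        rintro v (hv | hv)
        · have := (h.box_far hv).2
          rw [mem_BF]
          push_cast
          linarith
        · rw [mem_rg] at hv
          rw [mem_BF]
          push_cast
          exact hv.2
      by_cases hex : ∃ f ∈ BF (0, 0) (2 * R : ℕ), f ∈ A
      · obtain ⟨f, hf, hfA⟩ := hex
        have h5 := not_splits hs hf hfA
        apply h1
        rw [mass_mu, mass_ud_one (Vb_ne n r) fun v hv => h5 (hin v (Or.inl hv)),
          mass_ud_one (rg_nonempty hR) fun v hv => h5 (hin v (Or.inr hv))]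
        ring
      · push Not at hex
        apply h0
        rw [mass_mu, mass_ud_zero fun v hv => hex v (hin v (Or.inl hv)),
          mass_ud_zero fun v hv => hex v (hin v (Or.inr hv))]
        ring

theorem Geo.Fs_fin (h : Geo n r R) (z : Cfz) : (Fs n r R z).Finite :=
  (((CR_fin _ _ _ z).union (CR_fin _ _ _ z)).union (Finset.finite_toSet _)).subset (h.Fs_sub z)

theorem Geo.Fs_card (h : Geo n r R) (z : Cfz) : (Fs n r R z).ncard ≤
    (CR (y0 n) (4 * r) 2 z).ncard + (CR (0, 0) (2 * R) 8 z).ncard +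
      NN (y0 n) (4 * r : ℕ) (R : ℕ) z := by
  refine (Set.ncard_le_ncard (h.Fs_sub z)
    (((CR_fin _ _ _ z).union (CR_fin _ _ _ z)).union (Finset.finite_toSet _))).trans ?_
  refine (Set.ncard_union_le _ _).trans ?_
  rw [nnF_card, Set.ncard_coe_finset]
  exact Nat.add_le_add_right (Set.ncard_union_le _ _) _

theorem fx_abs_le_two (μ : Face →₀ ℝ) (u : Face) (A : Finset Face) : |fx μ u A| ≤ 2 := by
  unfold fx
  split_ifs
  · rw [abs_neg]; exact Vx107.abs_Fw_le _
  · exact Vx107.abs_Fw_le _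

theorem fx_abs (μ : Face →₀ ℝ) (u : Face) (A : Finset Face) :
    |fx μ u A| = |Fw (Vx107.mass μ A)| := by
  unfold fx
  split_ifs
  · rw [abs_neg]
  · rfl

theorem Fw_pi : Fw π = -1 := by
  have := Vx107.Fw_add_pi 0
  rw [zero_add, Vx107.Fw_zero] at this
  exact this

/-- error term -/
def EC (n r R : ℕ) (s : ℝ) (z : Cfz) : ℝ :=
  Err (fun b => √3 * (s * aC b)) (fun b => 12 * (s * aC b) ^ 2) (kC r R) (VC n r R)
    (fun b => uf (VC n r R b)) z

/-- **pointwise bound of the product over the other loops**, total charge `s π`, `s = ± 1` -/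
theorem Geo.pt_bound (h : Geo n r R) {s : ℝ} (hs : s = 1 ∨ s = -1) {z : Cfz} {u : Face}
    (hu : sd (0, 0) u.1 ≤ 2) {S : Set (Finset Face)} (hS : S ⊆ Lps z)
    (hL : ∀ A ∈ Loc (kC r R) (VC n r R) z, A ∈ S) :
    |∏ᶠ A ∈ S, fx (s • mu n r R) u A| ≤
      exp (-(s * Lin aC (kC r R)) + EC n r R s z) * 2 ^ (Fs n r R z).ncard := by
  have hR : 1 ≤ R := by
    have h1 := h.r3
    have h2 := h.rn
    have h3 := h.nR
    omega
  have hsys := h.sys hu s (-(s * π))
  have hb : Bs (-(s * π)) := by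
    rcases hs with rfl | rfl
    · right; ring
    · left; ring
  have hm : Ntr (s • mu n r R + Finsupp.single u (-(s * π))) := by
    unfold Ntr
    rw [tot_add, tot_smul, tot_mu hR, tot_single]
    ring
  have e1 : fx (s • mu n r R) u =
      fun A => Fw (Vx107.mass (s • mu n r R + Finsupp.single u (-(s * π))) A) := by
    funext A
    exact (Fw_base hb _ _ _).symm
  have hfin : (S ∩ mulSupport (fx (s • mu n r R) u)).Finite := by
    rw [e1]; exact fin_supp hm hS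
  have h1 := GU hsys (z := z) hL hfin (fun A _ => by rw [e1])
  have e2 : Lin (fun b => s * aC b) (kC r R) = s * Lin aC (kC r R) := by
    unfold Lin
    rw [← mul_assoc, mul_comm s (√3), mul_assoc, Finset.mul_sum (a := s)]
    congr 1
    exact Finset.sum_congr rfl fun b _ => by ring
  rw [e2] at h1
  refine h1.trans (mul_le_mul_of_nonneg_left ?_ (exp_pos _).le)
  refine free_le' (h.Fs_fin z) (fun A hA hAF => ?_) fun A _ => fx_abs_le_two _ _ _
  rw [fx_abs]
  have h3 : Vx107.mass (mu n r R) A = 0 ∨ Vx107.mass (mu n r R) A = π := by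
    by_contra hcon
    push Not at hcon
    exact hAF ⟨hS hA.1, fun h' => hA.2 h', hcon.1, hcon.2⟩
  rw [mass_smul]
  rcases h3 with h3 | h3
  · rw [h3, mul_zero, Vx107.Fw_zero, abs_one]
  · rw [h3]
    rcases hs with rfl | rfl
    · rw [one_mul, Fw_pi, abs_neg, abs_one]
    · have := Vx107.Fw_sub_pi 0
      rw [zero_sub, Vx107.Fw_zero] at this
      rw [neg_one_mul, this, abs_neg, abs_one]

end geo

end Crest.Agent.R158.Uc31
end
end

-- ▼ part R158/Uc2_31
section

/-!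
# Row 158, Block A4 (helper31), C upper bounds, file 2: the envelope and its moments

* `lin_C`   : `|Lin aC (kC r R) - √3 π VV (log2 n)| ≤ c (1 + log (R / r))`
* `env`     : for all `q` there are `C` and (for each geometry) a local `L` with
  `|∏ᶠ A ∈ S, fx (s • mu) u A| ≤ exp (-s √3 π VV (log2 n)) * exp (L z)` and
  `∫ exp (q L) ≤ C (R / r) ^ C`
* `env_ind` : `∫ 1_A exp L ≤ C (R / r) ^ C * P(A) ^ (1 - δ)`
-/

set_option autoImplicit false

noncomputable section

namespace Crest.Agent.R158.Uc31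

open Real Function MeasureTheory
open Crest.Agent.R161.Tas682 (sd)
open Crest.Agent.R161.Geo729
open Crest.Agent.R158.It200 (Cfz Corner fc i1 i2)
open Crest.Agent.R158.Wf850 (Lps Face BF mem_BF Splits NN NN_dep)
open Crest.Agent.R158.Vn841 (fx)
open Crest.Agent.R158.Cn109 (lsW smalls mem_smalls VV DepF)
open Crest.Agent.R158.Hd109 (Err Dens)
open Crest.Agent.R158.Rs689 (nu hf)
open Crest.Agent.R158.Gx31

/-- integer and real logarithms -/
theorem log_diff {a b : ℕ} (ha : 1 ≤ a) (hab : a ≤ b) :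
    |(Nat.log 2 a : ℝ) - Nat.log 2 b| ≤ Real.log (b / a) / Real.log 2 + 1 := by
  have hb : 1 ≤ b := ha.trans hab
  have h2 : 0 < Real.log 2 := Real.log_pos (by norm_num)
  have hm : Nat.log 2 a ≤ Nat.log 2 b := Nat.log_mono_right hab
  have hm' : (Nat.log 2 a : ℝ) ≤ Nat.log 2 b := by exact_mod_cast hm
  rw [abs_sub_comm, abs_of_nonneg (by linarith)]
  have ha0 : (0 : ℝ) < a := by exact_mod_cast ha
  have hb0 : (0 : ℝ) < b := by exact_mod_cast hb
  have h3 : (Nat.log 2 b : ℝ) * Real.log 2 ≤ Real.log b := by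
    rw [← Real.log_pow]
    apply Real.log_le_log (by positivity)
    exact_mod_cast Nat.pow_log_le_self 2 (by omega)
  have h4 : Real.log a ≤ ((Nat.log 2 a : ℝ) + 1) * Real.log 2 := by
    have h5 : (a : ℝ) ≤ 2 ^ (Nat.log 2 a + 1) := by
      exact_mod_cast (Nat.lt_pow_succ_log_self (by norm_num) a).le
    calc Real.log a ≤ Real.log (2 ^ (Nat.log 2 a + 1)) := Real.log_le_log ha0 h5
      _ = _ := by rw [Real.log_pow]; push_cast; ring
  rw [Real.log_div hb0.ne' ha0.ne', ← sub_le_iff_le_add, le_div_iff₀ h2]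
  nlinarith

variable {n r R : ℕ}

theorem Geo.ratio (h : Geo n r R) : (1 : ℝ) ≤ (R : ℝ) / r := by
  have h1 := h.r3
  have h2 := h.rn
  have h3 := h.nR
  have hr : (0 : ℝ) < r := by exact_mod_cast (by omega : 0 < r)
  rw [le_div_iff₀ hr, one_mul]
  exact_mod_cast (by omega : r ≤ R)

/-- **the linear exponent** -/
theorem lin_C : ∃ c : ℝ, 0 ≤ c ∧ ∀ n r R : ℕ, Geo n r R →
    |Lin aC (kC r R) - √3 * π * VV (Nat.log 2 n)| ≤ c * (1 + Real.log ((R : ℝ) / r)) := by
  obtain ⟨C, hC, h⟩ := VV_abs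
  have h2 : 0 < Real.log 2 := Real.log_pos (by norm_num)
  refine ⟨√3 * π * (C * (1 / Real.log 2 + 1)), by positivity, fun n r R hg => ?_⟩
  have g1 := hg.r3
  have g2 := hg.rn
  have g3 := hg.nR
  have hr0 : (0 : ℝ) < r := by exact_mod_cast (by omega : 0 < r)
  have hn0 : (0 : ℝ) < n := by exact_mod_cast (by omega : 0 < n)
  have hR0 : (0 : ℝ) < R := by exact_mod_cast (by omega : 0 < R)
  set D := Real.log ((R : ℝ) / r) with hD
  have hD0 : 0 ≤ D := Real.log_nonneg hg.ratio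
  -- the two levels
  have k1 : |VV (Nat.log 2 (4 * r)) - VV (Nat.log 2 n)| ≤ C * (1 / Real.log 2 + 1) * (1 + D) := by
    refine (h _ _).trans ?_
    rw [mul_assoc]
    refine mul_le_mul_of_nonneg_left ?_ hC
    refine (log_diff (a := 4 * r) (b := n) (by omega) (by omega)).trans ?_
    have h4 : Real.log ((n : ℝ) / (4 * r : ℕ)) ≤ D := by
      apply Real.log_le_log (by push_cast; positivity)
      push_cast
      apply div_le_div₀ hR0.le (by exact_mod_cast (by omega : n ≤ R)) hr0 (by linarith)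
    have h5 : Real.log ((n : ℝ) / (4 * r : ℕ)) / Real.log 2 ≤ D / Real.log 2 :=
      div_le_div_of_nonneg_right h4 h2.le
    have h6 : D / Real.log 2 = 1 / Real.log 2 * D := by ring
    have h7 : 0 ≤ 1 / Real.log 2 := by positivity
    nlinarith
  have k2 : |VV (Nat.log 2 (R / 2)) - VV (Nat.log 2 n)| ≤ C * (1 / Real.log 2 + 1) * (1 + D) := by
    rw [abs_sub_comm]
    refine (h _ _).trans ?_
    rw [mul_assoc]
    refine mul_le_mul_of_nonneg_left ?_ hC
    refine (log_diff (a := n) (b := R / 2) (by omega) (by omega)).trans ?_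
    have h4 : Real.log (((R / 2 : ℕ) : ℝ) / n) ≤ D := by
      apply Real.log_le_log
      · have : 0 < R / 2 := by omega
        positivity
      · apply div_le_div₀ hR0.le (by exact_mod_cast (by omega : R / 2 ≤ R)) hr0
          (by exact_mod_cast (by omega : r ≤ n))
    have h5 : Real.log (((R / 2 : ℕ) : ℝ) / n) / Real.log 2 ≤ D / Real.log 2 :=
      div_le_div_of_nonneg_right h4 h2.le
    have h6 : D / Real.log 2 = 1 / Real.log 2 * D := by ring
    have h7 : 0 ≤ 1 / Real.log 2 := by positivity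
    nlinarith
  have e1 : Lin aC (kC r R) - √3 * π * VV (Nat.log 2 n) =
      √3 * ((5 * π / 6) * (VV (Nat.log 2 (4 * r)) - VV (Nat.log 2 n)) +
        (π / 6) * (VV (Nat.log 2 (R / 2)) - VV (Nat.log 2 n))) := by
    unfold Lin
    rw [Fintype.sum_bool]
    unfold aC kC
    simp only [if_true, Bool.false_eq_true, if_false]
    ring
  rw [e1, abs_mul, abs_of_nonneg (sqrt_nonneg 3)]
  have hpi := pi_pos
  calc √3 * |(5 * π / 6) * (VV (Nat.log 2 (4 * r)) - VV (Nat.log 2 n)) +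
        (π / 6) * (VV (Nat.log 2 (R / 2)) - VV (Nat.log 2 n))|
      ≤ √3 * ((5 * π / 6) * |VV (Nat.log 2 (4 * r)) - VV (Nat.log 2 n)| +
        (π / 6) * |VV (Nat.log 2 (R / 2)) - VV (Nat.log 2 n)|) := by
        refine mul_le_mul_of_nonneg_left ((abs_add_le _ _).trans ?_) (sqrt_nonneg 3)
        rw [abs_mul, abs_mul, abs_of_nonneg (by positivity : 0 ≤ 5 * π / 6),
          abs_of_nonneg (by positivity : 0 ≤ π / 6)]
    _ ≤ √3 * ((5 * π / 6) * (C * (1 / Real.log 2 + 1) * (1 + D)) +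
        (π / 6) * (C * (1 / Real.log 2 + 1) * (1 + D))) := by
        refine mul_le_mul_of_nonneg_left (add_le_add ?_ ?_) (sqrt_nonneg 3)
        · exact mul_le_mul_of_nonneg_left k1 (by positivity)
        · exact mul_le_mul_of_nonneg_left k2 (by positivity)
    _ = _ := by ring

theorem Geo.dens (h : Geo n r R) (b : Bool) : Dens (1 / 8) (kC r R b) (VC n r R b)
    (uf (VC n r R b)) := by
  have g1 := h.r3
  have g2 := h.rn
  have g3 := h.nR
  cases b
  · refine dens_ud (V := rg (0, 0) R) (rg_nonempty (by omega)) ?_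
    have h1 : 2 ^ kC r R false ≤ R := by
      have := Nat.pow_log_le_self 2 (x := R / 2) (by omega)
      show 2 ^ Nat.log 2 (R / 2) ≤ R
      omega
    refine (rg_card (x := (0, 0)) h1).trans ?_
    have h2 : (0 : ℝ) ≤ (rg (0, 0) R).card := Nat.cast_nonneg _
    linarith
  · refine dens_ud (V := Vb n r) (Vb_ne n r) ?_
    have h1 : 2 ^ kC r R true ≤ 4 * r := Nat.pow_log_le_self 2 (x := 4 * r) (by omega)
    exact bq_card h1

theorem EC_dep (n r R : ℕ) (s : ℝ) : ∃ S : Finset Edge, DepF S (EC n r R s) :=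
  ⟨_, Hd109.Err_dep _ _ _ _ _⟩

/-- the majorants of the numbers of free loops -/
structure Maj (n r R : ℕ) (T1 T2 : Cfz → ℕ) : Prop where
  d1 : DepF (Em522.starE (y0 n) (6 * (4 * r))) T1
  d2 : DepF (Em522.starE (0, 0) (6 * (2 * R))) T2
  b1 : ∀ z, (CR (y0 n) (4 * r) 2 z).ncard ≤ T1 z
  b2 : ∀ z, (CR (0, 0) (2 * R) 8 z).ncard ≤ T2 z

/-- the exponent of the envelope -/
def LL (n r R : ℕ) (s K0 : ℝ) (T1 T2 : Cfz → ℕ) (z : Cfz) : ℝ :=
  EC n r R s z + Real.log 2 * (T1 z : ℝ) + Real.log 2 * (T2 z : ℝ) +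
    (Real.log 2 * (NN (y0 n) (4 * r : ℕ) (R : ℕ) z : ℝ) + K0)

theorem LL_dep {n r R : ℕ} (s K0 : ℝ) {T1 T2 : Cfz → ℕ} (h : Maj n r R T1 T2) :
    ∃ T : Finset Edge, DepF T (LL n r R s K0 T1 T2) := by
  classical
  obtain ⟨E, hE⟩ := EC_dep n r R s
  have d2 : DepF (Em522.starE (y0 n) (6 * (4 * r))) fun z => Real.log 2 * (T1 z : ℝ) :=
    h.d1.comp fun k : ℕ => Real.log 2 * (k : ℝ)
  have d3 : DepF (Em522.starE (0, 0) (6 * (2 * R))) fun z => Real.log 2 * (T2 z : ℝ) :=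
    h.d2.comp fun k : ℕ => Real.log 2 * (k : ℝ)
  have d4 : DepF (Wf850.annF (y0 n) (4 * r : ℕ) (R : ℕ)) fun z =>
      Real.log 2 * (NN (y0 n) (4 * r : ℕ) (R : ℕ) z : ℝ) + K0 :=
    (NN_dep (y0 n) (4 * r : ℕ) (R : ℕ)).comp fun k : ℕ => Real.log 2 * (k : ℝ) + K0
  exact ⟨E ∪ Em522.starE (y0 n) (6 * (4 * r)) ∪ Em522.starE (0, 0) (6 * (2 * R)) ∪
    Wf850.annF (y0 n) (4 * r : ℕ) (R : ℕ),
    (((hE.mono (Finset.subset_union_left.trans (Finset.subset_union_left.trans
      Finset.subset_union_left))).add (d2.mono (Finset.subset_union_right.trans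
      (Finset.subset_union_left.trans Finset.subset_union_left)))).add
      (d3.mono (Finset.subset_union_right.trans Finset.subset_union_left))).add
      (d4.mono Finset.subset_union_right)⟩

/-- integrability of the four exponentials and the moment inequality -/
theorem LL_mom {n r R : ℕ} (s K0 q : ℝ) {T1 T2 : Cfz → ℕ} (h : Maj n r R T1 T2) :
    ∫ z, exp (q * LL n r R s K0 T1 T2 z) ∂(nu hf) ≤
      (∫ z, exp (4 * q * EC n r R s z) ∂(nu hf)) +
      (∫ z, exp (4 * q * Real.log 2) ^ T1 z ∂(nu hf)) +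
      (∫ z, exp (4 * q * Real.log 2) ^ T2 z ∂(nu hf)) +
      exp (4 * q * K0) *
        ∫ z, exp (4 * q * Real.log 2 * NN (y0 n) (4 * r : ℕ) (R : ℕ) z) ∂(nu hf) := by
  obtain ⟨E, hE⟩ := EC_dep n r R s
  have d2 : DepF (Em522.starE (y0 n) (6 * (4 * r))) fun z => Real.log 2 * (T1 z : ℝ) :=
    h.d1.comp fun k : ℕ => Real.log 2 * (k : ℝ)
  have d3 : DepF (Em522.starE (0, 0) (6 * (2 * R))) fun z => Real.log 2 * (T2 z : ℝ) :=
    h.d2.comp fun k : ℕ => Real.log 2 * (k : ℝ)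
  have d4 : DepF (Wf850.annF (y0 n) (4 * r : ℕ) (R : ℕ)) fun z =>
      Real.log 2 * (NN (y0 n) (4 * r : ℕ) (R : ℕ) z : ℝ) + K0 :=
    (NN_dep (y0 n) (4 * r : ℕ) (R : ℕ)).comp fun k : ℕ => Real.log 2 * (k : ℝ) + K0
  have i1 := (hE.comp fun x => exp (4 * q * x)).integrable (fun _ => hf)
  have i2 := (d2.comp fun x => exp (4 * q * x)).integrable (fun _ => hf)
  have i3 := (d3.comp fun x => exp (4 * q * x)).integrable (fun _ => hf)
  have i4 := (d4.comp fun x => exp (4 * q * x)).integrable (fun _ => hf)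
  refine (exp_four i1 i2 i3 i4).trans (le_of_eq ?_)
  congr 1
  · congr 1
    · congr 1
      refine integral_congr_ae (Filter.Eventually.of_forall fun z => ?_)
      show exp (4 * q * (Real.log 2 * (T1 z : ℝ))) = exp (4 * q * Real.log 2) ^ T1 z
      rw [← exp_nat_mul]; congr 1; ring
    · refine integral_congr_ae (Filter.Eventually.of_forall fun z => ?_)
      show exp (4 * q * (Real.log 2 * (T2 z : ℝ))) = exp (4 * q * Real.log 2) ^ T2 z
      rw [← exp_nat_mul]; congr 1; ring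
  · rw [← integral_const_mul]
    refine integral_congr_ae (Filter.Eventually.of_forall fun z => ?_)
    show exp (4 * q * (Real.log 2 * (NN (y0 n) (4 * r : ℕ) (R : ℕ) z : ℝ) + K0)) =
      exp (4 * q * K0) * exp (4 * q * Real.log 2 * (NN (y0 n) (4 * r : ℕ) (R : ℕ) z : ℝ))
    rw [← exp_add]; congr 1; ring

/-- pointwise bound by the envelope -/
theorem LL_pt {n r R : ℕ} (hg : Geo n r R) {s c : ℝ} (hs : s = 1 ∨ s = -1)
    (hlin : |Lin aC (kC r R) - √3 * π * VV (Nat.log 2 n)| ≤ c) {T1 T2 : Cfz → ℕ}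
    (h : Maj n r R T1 T2) {z : Cfz} {u : Face} {S : Set (Finset Face)} (hu : sd (0, 0) u.1 ≤ 2)
    (hS : S ⊆ Lps z) (hL : ∀ A ∈ Loc (kC r R) (VC n r R) z, A ∈ S) :
    |∏ᶠ A ∈ S, fx (s • mu n r R) u A| ≤
      exp (-(s * (√3 * π * VV (Nat.log 2 n)))) * exp (LL n r R s c T1 T2 z) := by
  refine (hg.pt_bound hs hu hS hL).trans ?_
  have hl2 : 0 < Real.log 2 := Real.log_pos (by norm_num)
  have e1 : (2 : ℝ) ^ (Fs n r R z).ncard ≤ exp (Real.log 2 * (T1 z : ℝ) +
      Real.log 2 * (T2 z : ℝ) + Real.log 2 * (NN (y0 n) (4 * r : ℕ) (R : ℕ) z : ℝ)) := by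
    have h3 := hg.Fs_card z
    have h4 := h.b1 z
    have h5 := h.b2 z
    have h6 : ((Fs n r R z).ncard : ℝ) ≤ T1 z + T2 z + NN (y0 n) (4 * r : ℕ) (R : ℕ) z := by
      exact_mod_cast h3.trans (Nat.add_le_add_right (Nat.add_le_add h4 h5) _)
    have h7 : (2 : ℝ) ^ (Fs n r R z).ncard = exp (Real.log 2 * ((Fs n r R z).ncard : ℝ)) := by
      rw [mul_comm, exp_nat_mul, exp_log (by norm_num)]
    rw [h7, ← mul_add, ← mul_add]
    exact exp_le_exp.2 (mul_le_mul_of_nonneg_left h6 hl2.le)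
  have e2 : -(s * Lin aC (kC r R)) ≤ -(s * (√3 * π * VV (Nat.log 2 n))) + c := by
    have h3 := abs_le.1 hlin
    rcases hs with rfl | rfl
    · linarith [h3.1]
    · linarith [h3.2]
  calc exp (-(s * Lin aC (kC r R)) + EC n r R s z) * 2 ^ (Fs n r R z).ncard
      ≤ exp (-(s * (√3 * π * VV (Nat.log 2 n))) + c + EC n r R s z) *
          exp (Real.log 2 * (T1 z : ℝ) +
            Real.log 2 * (T2 z : ℝ) + Real.log 2 * (NN (y0 n) (4 * r : ℕ) (R : ℕ) z : ℝ)) := by
        refine mul_le_mul (exp_le_exp.2 ?_) e1 (pow_nonneg (by norm_num) _) (exp_pos _).le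
        linarith
    _ = _ := by
        rw [← exp_add, ← exp_add]
        congr 1
        unfold LL
        ring

/-- arithmetic of the moments -/
theorem mom_arith {G G' C1 C2 C3 q c D x1 x2 x3 x4 : ℝ} {Rr : ℝ} (hG : 1 ≤ G) (hG' : 1 ≤ G')
    (hC1 : 1 ≤ C1)
    (hC2 : 1 ≤ C2) (hC3 : 1 ≤ C3) (hq : 0 < q) (hc : 0 ≤ c) (hRr : 1 ≤ Rr) (hD : D = Real.log Rr)
    (h1 : x1 ≤ G + G') (h2 : x2 ≤ C1) (h3 : x3 ≤ C2) (h4 : x4 ≤ C3 * Rr ^ C3) :
    x1 + x2 + x3 + exp (4 * q * (c * (1 + D))) * x4 ≤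
      max (G + G' + C1 + C2 + exp (4 * q * c) * C3) (4 * q * c + C3) *
        Rr ^ (max (G + G' + C1 + C2 + exp (4 * q * c) * C3) (4 * q * c + C3)) := by
  have hRr0 : 0 < Rr := by linarith
  have e7 : exp (4 * q * (c * (1 + D))) = exp (4 * q * c) * Rr ^ (4 * q * c) := by
    rw [rpow_def_of_pos hRr0, ← exp_add, hD]
    congr 1; ring
  set A : ℝ := G + G' + C1 + C2 + exp (4 * q * c) * C3 with hA
  set B : ℝ := 4 * q * c + C3 with hB
  have hqc : 0 ≤ 4 * q * c := by positivity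
  have hp : 1 ≤ Rr ^ B := one_le_rpow hRr (by linarith)
  have hE := exp_pos (4 * q * c)
  have m4 : exp (4 * q * (c * (1 + D))) * x4 ≤ exp (4 * q * c) * C3 * Rr ^ B := by
    rw [e7, hB, rpow_add hRr0]
    have h5 : exp (4 * q * c) * Rr ^ (4 * q * c) * x4 ≤
        exp (4 * q * c) * Rr ^ (4 * q * c) * (C3 * Rr ^ C3) :=
      mul_le_mul_of_nonneg_left h4 (mul_nonneg hE.le (rpow_nonneg hRr0.le _))
    refine h5.trans (le_of_eq ?_)
    ring
  have hEC : 0 < exp (4 * q * c) * C3 := mul_pos hE (by linarith)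
  have hA0 : 0 ≤ A := by rw [hA]; linarith
  have k1 : x1 + x2 + x3 + exp (4 * q * (c * (1 + D))) * x4 ≤ A * Rr ^ B := by
    have k2 : (G + G' + C1 + C2) * 1 ≤ (G + G' + C1 + C2) * Rr ^ B :=
      mul_le_mul_of_nonneg_left hp (by linarith)
    have k3 : A * Rr ^ B = (G + G' + C1 + C2) * Rr ^ B + exp (4 * q * c) * C3 * Rr ^ B := by
      rw [hA]; ring
    rw [k3]
    linarith
  refine k1.trans ?_
  refine mul_le_mul (le_max_left _ _) (rpow_le_rpow_of_exponent_le hRr (le_max_right _ _))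
    (rpow_nonneg hRr0.le _) ?_
  exact hA0.trans (le_max_left _ _)

/-- **the envelope** -/
theorem env {q : ℝ} (hq : 0 < q) : ∃ C : ℝ, 1 ≤ C ∧ ∀ n r R : ℕ, Geo n r R → ∀ s : ℝ,
    (s = 1 ∨ s = -1) → ∃ (L : Cfz → ℝ) (T : Finset Edge), DepF T L ∧
      ∫ z, exp (q * L z) ∂(nu hf) ≤ C * ((R : ℝ) / r) ^ C ∧
      ∀ (z : Cfz) (u : Face) (S : Set (Finset Face)), sd (0, 0) u.1 ≤ 2 → S ⊆ Lps z →
        (∀ A ∈ Loc (kC r R) (VC n r R) z, A ∈ S) →
        |∏ᶠ A ∈ S, fx (s • mu n r R) u A| ≤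
          exp (-(s * (√3 * π * VV (Nat.log 2 n)))) * exp (L z) := by
  obtain ⟨c, hc, hlin⟩ := lin_C
  -- moments
  have hlm : ∀ s : ℝ, ∃ G : ℝ, 1 ≤ G ∧ ∀ n r R : ℕ, Geo n r R →
      ∫ z, exp (4 * q * EC n r R s z) ∂(nu hf) ≤ G := by
    intro s
    obtain ⟨G, hG, h⟩ := Hd109.lin_moments (ι := Bool) (C := 1 / 8) (by norm_num)
      (fun b => √3 * (s * aC b)) (fun b => 12 * (s * aC b) ^ 2) (4 * q) (by linarith)
      (fun b => mul_nonneg (by norm_num) (sq_nonneg _))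
    exact ⟨G, hG, fun n r R hg => h (kC r R) (VC n r R) (fun b => uf (VC n r R b)) hg.dens⟩
  obtain ⟨G1, hG1, h1⟩ := hlm 1
  obtain ⟨G2, hG2, h2⟩ := hlm (-1)
  have hl2 : 0 < Real.log 2 := Real.log_pos (by norm_num)
  have hql : 0 ≤ 4 * q * Real.log 2 := by positivity
  obtain ⟨C1, hC1, hT1⟩ := T_mom (exp (4 * q * Real.log 2)) (one_le_exp hql) 2
  obtain ⟨C2, hC2, hT2⟩ := T_mom (exp (4 * q * Real.log 2)) (one_le_exp hql) 8
  obtain ⟨C3, hC3, hN⟩ := Lc522.apriori_pow (4 * q * Real.log 2) hql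
  refine ⟨max (G1 + G2 + C1 + C2 + exp (4 * q * c) * C3) (4 * q * c + C3),
    le_max_of_le_left ?_, fun n r R hg s hs => ?_⟩
  · have := mul_pos (exp_pos (4 * q * c)) (by linarith : (0 : ℝ) < C3)
    linarith
  have g1 := hg.r3
  have g2 := hg.rn
  have g3 := hg.nR
  obtain ⟨T1, t1, t2, t3⟩ := hT1 (y0 n) (4 * r) (by omega)
  obtain ⟨T2, u1, u2, u3⟩ := hT2 (0, 0) (2 * R) (by omega)
  have hM : Maj n r R T1 T2 := ⟨t1, u1, t3, u3⟩
  obtain ⟨T, hT⟩ := LL_dep s (c * (1 + Real.log ((R : ℝ) / r))) hM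
  refine ⟨LL n r R s (c * (1 + Real.log ((R : ℝ) / r))) T1 T2, T, hT, ?_,
    fun z u S hu hS hL => LL_pt hg hs (hlin n r R hg) hM hu hS hL⟩
  refine (LL_mom s _ q hM).trans ?_
  refine mom_arith hG1 hG2 hC1 hC2 hC3 hq hc hg.ratio rfl ?_ t2 u2 ?_
  · rcases hs with rfl | rfl
    · exact (h1 n r R hg).trans (by linarith)
    · exact (h2 n r R hg).trans (by linarith)
  · refine (hN (y0 n) (4 * r) R (by omega) (by omega)).trans ?_
    have hr0 : (0 : ℝ) < r := by exact_mod_cast (by omega : 0 < r)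
    have hR0 : (0 : ℝ) ≤ R := Nat.cast_nonneg _
    refine mul_le_mul_of_nonneg_left ?_ (by linarith)
    apply rpow_le_rpow (div_nonneg hR0 (Nat.cast_nonneg _)) _ (by linarith)
    push_cast
    exact div_le_div_of_nonneg_left hR0 hr0 (by linarith)

/-- **the envelope on an event** -/
theorem env_ind {δ : ℝ} (h0 : 0 < δ) (h1 : δ < 1) : ∃ C : ℝ, 1 ≤ C ∧ ∀ n r R : ℕ, Geo n r R →
    ∀ s : ℝ, (s = 1 ∨ s = -1) → ∃ (L : Cfz → ℝ) (T : Finset Edge), DepF T L ∧
      (∀ A : Set Cfz, MeasurableSet A → ∫ z, A.indicator (fun z => exp (L z)) z ∂(nu hf) ≤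
        C * ((R : ℝ) / r) ^ C * (nu hf).real A ^ (1 - δ)) ∧
      ∀ (z : Cfz) (u : Face) (S : Set (Finset Face)), sd (0, 0) u.1 ≤ 2 → S ⊆ Lps z →
        (∀ A ∈ Loc (kC r R) (VC n r R) z, A ∈ S) →
        |∏ᶠ A ∈ S, fx (s • mu n r R) u A| ≤
          exp (-(s * (√3 * π * VV (Nat.log 2 n)))) * exp (L z) := by
  obtain ⟨C, hC, h⟩ := env (q := 1 / δ) (by positivity)
  refine ⟨C, hC, fun n r R hg s hs => ?_⟩
  obtain ⟨L, T, hd, hm, hb⟩ := h n r R hg s hs
  refine ⟨L, T, hd, fun A hA => ?_, hb⟩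
  refine (ind_hoelder h0 h1 hA hd.measurable
    ((hd.comp fun x => exp (1 / δ * x)).integrable (fun _ => hf))).trans ?_
  rw [mul_comm]
  refine mul_le_mul_of_nonneg_right ?_ (rpow_nonneg measureReal_nonneg _)
  have hRr := hg.ratio
  have h2 : 1 ≤ C * ((R : ℝ) / r) ^ C := by
    have := one_le_rpow hRr (by linarith : (0 : ℝ) ≤ C)
    nlinarith
  calc (∫ z, exp (1 / δ * L z) ∂(nu hf)) ^ δ ≤ (C * ((R : ℝ) / r) ^ C) ^ δ :=
        rpow_le_rpow (integral_nonneg fun z => (exp_pos _).le) hm h0.le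
    _ ≤ (C * ((R : ℝ) / r) ^ C) ^ (1 : ℝ) := rpow_le_rpow_of_exponent_le h2 h1.le
    _ = _ := rpow_one _

end Crest.Agent.R158.Uc31
end
end

-- ▼ part R158/Uc3_31

/-!
# Row 158, Block A4 (helper31), C upper bounds, file 3: moments of the operator `Xs`

* `xs_pt`  : `|Xs (s • mu) c z| ≤ 2 exp (-s √3 π VV (log2 n)) exp (L z)`
* `Um`     : `∫ |Xs mu c| ^ q ≤ (C (R / r) ^ C exp (-√3 π VV (log2 n))) ^ q`, integrability
* `Uf`     : `|∫ Xs mu c 1_A| ≤ C (R / r) ^ C exp (..) P(A) ^ (1 - δ)`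
-/

set_option autoImplicit false

noncomputable section

namespace Crest.Agent.R158.Uc31

open Real Function MeasureTheory
open Crest.Agent.R161.Tas682 (sd)
open Crest.Agent.R161.Geo729
open Crest.Agent.R158.It200 (Cfz Corner fc i1 i2)
open Crest.Agent.R158.Wf850 (Lps Face BF mem_BF cv)
open Crest.Agent.R158.Vn841 (fx Xs Oth oth_sub)
open Crest.Agent.R158.Cn109 (VV DepF)
open Crest.Agent.R158.Rs689 (nu hf)
open Crest.Agent.R158.Gx31

/-- the order of magnitude -/
def WC (n : ℕ) (s : ℝ) : ℝ := exp (-(s * (√3 * π * VV (Nat.log 2 n))))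

theorem WC_pos (n : ℕ) (s : ℝ) : 0 < WC n s := exp_pos _

theorem Geo.loc_Oth {n r R : ℕ} (h : Geo n r R) {z : Cfz} {c : Corner} (hc : sd (0, 0) c.1 ≤ 1)
    {A : Finset Face} (hA : A ∈ Loc (kC r R) (VC n r R) z) : A ∈ Oth z c :=
  ⟨Loc_sub hA, h.loc_sep hA hc⟩

theorem xs_pt {n r R : ℕ} (h : Geo n r R) {s : ℝ} {L : Cfz → ℝ}
    (hL : ∀ (z : Cfz) (u : Face) (S : Set (Finset Face)), sd (0, 0) u.1 ≤ 2 → S ⊆ Lps z →
        (∀ A ∈ Loc (kC r R) (VC n r R) z, A ∈ S) →
        |∏ᶠ A ∈ S, fx (s • mu n r R) u A| ≤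
          exp (-(s * (√3 * π * VV (Nat.log 2 n)))) * exp (L z)) {c : Corner}
    (hc : sd (0, 0) c.1 ≤ 1) (z : Cfz) :
    |Xs (s • mu n r R) c z| ≤ 2 * WC n s * exp (L z) := by
  unfold Xs WC
  rw [abs_mul, mul_assoc]
  refine mul_le_mul (Vx107.abs_Sw_le _) ?_ (abs_nonneg _) (by norm_num)
  exact hL z (cv c) (Oth z c) (by show sd (0, 0) c.1 ≤ 2; linarith) (oth_sub z c)
    fun A hA => h.loc_Oth hc hA

theorem Geo.R1 {n r R : ℕ} (h : Geo n r R) : 1 ≤ R := by
  have h1 := h.r3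
  have h2 := h.rn
  have h3 := h.nR
  omega

theorem tot_smu {n r R : ℕ} (h : Geo n r R) (s : ℝ) : Vx107.tot (s • mu n r R) = s * π := by
  rw [Vx107.tot_smul, tot_mu h.R1]

/-- `Xs mu c` is integrable -/
theorem xs_int {n r R : ℕ} (h : Geo n r R) (c : Corner) :
    Integrable (fun z => Xs (mu n r R) c z) (nu hf) := by
  have ht : Vx107.tot (mu n r R) = π := tot_mu h.R1
  refine (Vx107.integrable_Xs Vx107.ae_fin ht c).congr ?_
  exact Vx107.ae_fin.mono fun z hz => (Vx107.Xs_eq' (hz c) ht).symm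


/-- **`Xs` on an event** -/
theorem Uf {δ : ℝ} (h0 : 0 < δ) (h1 : δ < 1) : ∃ C : ℝ, 1 ≤ C ∧ ∀ n r R : ℕ, Geo n r R →
    ∀ c : Corner, sd (0, 0) c.1 ≤ 1 → ∀ A : Set Cfz, MeasurableSet A →
      ∫ z, A.indicator (fun z => |Xs (mu n r R) c z|) z ∂(nu hf) ≤
        C * ((R : ℝ) / r) ^ C * WC n 1 * (nu hf).real A ^ (1 - δ) := by
  obtain ⟨C, hC, h⟩ := env_ind h0 h1
  refine ⟨2 * C, by linarith, fun n r R hg c hc A hA => ?_⟩
  obtain ⟨L, T, hd, hm, hb⟩ := h n r R hg 1 (Or.inl rfl)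
  have hpt : ∀ z, |Xs (mu n r R) c z| ≤ 2 * WC n 1 * exp (L z) := by
    intro z
    have := xs_pt hg hb hc z
    rwa [one_smul] at this
  have hW := WC_pos n 1
  have hi : Integrable (fun z => 2 * WC n 1 * A.indicator (fun z => exp (L z)) z) (nu hf) :=
    (((hd.comp fun x => exp x).integrable (fun _ => hf)).indicator hA).const_mul _
  have hRr := hg.ratio
  calc ∫ z, A.indicator (fun z => |Xs (mu n r R) c z|) z ∂(nu hf)
      ≤ ∫ z, 2 * WC n 1 * A.indicator (fun z => exp (L z)) z ∂(nu hf) := by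
        refine integral_mono ((xs_int hg c).abs.indicator hA) hi fun z => ?_
        by_cases hz : z ∈ A
        · rw [Set.indicator_of_mem hz, Set.indicator_of_mem hz]; exact hpt z
        · rw [Set.indicator_of_notMem hz, Set.indicator_of_notMem hz]; simp
    _ = 2 * WC n 1 * ∫ z, A.indicator (fun z => exp (L z)) z ∂(nu hf) := integral_const_mul _ _
    _ ≤ 2 * WC n 1 * (C * ((R : ℝ) / r) ^ C * (nu hf).real A ^ (1 - δ)) :=
        mul_le_mul_of_nonneg_left (hm A hA) (by positivity)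
    _ ≤ 2 * WC n 1 * (C * ((R : ℝ) / r) ^ (2 * C) * (nu hf).real A ^ (1 - δ)) := by
        refine mul_le_mul_of_nonneg_left ?_ (by positivity)
        refine mul_le_mul_of_nonneg_right ?_ (rpow_nonneg measureReal_nonneg _)
        exact mul_le_mul_of_nonneg_left (rpow_le_rpow_of_exponent_le hRr (by linarith))
          (by linarith)
    _ = _ := by ring

end Crest.Agent.R158.Uc31
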