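import Crest.Agent.R158.Wb1_290
import Crest.Agent.R158.Sk3_656
import Mathlib
import Crest.Agent.R158.Wl1_290
import Crest.Agent.R158.Cd6_83
import Crest.Agent.R158.Un1_434
import Crest.Agent.R158.Cd8_83
import Crest.Agent.R158.Cd10_83

-- ▼ part R158/Wk1_290
section

/-!
R158 (helper290): the triangle `1, om, om²` and the boundary estimate on one domain.

`lam`, `Tri`, formulas for `sd1, sd2, sd3`, affine real functionals `Aff`,
`side_bound`: the weak Beurling estimate for affine functionals of (anti)holomorphic functions.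
-/

set_option autoImplicit false
open Complex Metric Set Topology Filter

namespace Crest.Agent.R158.Wl290

open Crest.Agent.R158.Cd83
open Crest.Agent.R158.Sk656 (sd1 sd2 sd3 sd1_cont sd2_cont sd3_cont)

/-- coordinate along the first side -/
noncomputable def lam (w : ℂ) : ℝ := ((w - 1) / (om - 1)).re

/-- the closed triangle `1, om, om²` -/
def Tri : Set ℂ := {w | 0 ≤ sd1 w ∧ 0 ≤ sd2 w ∧ 0 ≤ sd3 w}

theorem sqrt3_pos : 0 < Real.sqrt 3 := Real.sqrt_pos.mpr (by norm_num)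

theorem sqrt3_sq : Real.sqrt 3 * Real.sqrt 3 = 3 := Real.mul_self_sqrt (by norm_num)

theorem sqrt3_lt : Real.sqrt 3 < 2 := by
  nlinarith [sqrt3_sq, sqrt3_pos]

theorem om_sq_eq : om ^ 2 = ⟨-1/2, -(Real.sqrt 3 / 2)⟩ := by
  have h3 := sqrt3_sq
  rw [om_eq, sq]
  apply Complex.ext
  · simp only [mul_re]; nlinarith
  · simp only [mul_im]; ring

theorem inv_om_sub : (om - 1)⁻¹ = ⟨-1/2, -(Real.sqrt 3 / 6)⟩ := by
  have h3 := sqrt3_sq
  apply inv_eq_of_mul_eq_one_right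
  rw [om_eq]
  apply Complex.ext
  · simp only [mul_re, sub_re, one_re, sub_im, one_im]; nlinarith
  · simp only [mul_im, sub_re, one_re, sub_im, one_im]; ring

theorem om_ne : om ≠ 0 := by
  intro h
  have := om_cube
  rw [h] at this
  norm_num at this

theorem om_sub_ne : om - 1 ≠ 0 := by
  intro h
  have := inv_om_sub
  rw [h, inv_zero] at this
  have := congrArg Complex.re this
  norm_num at this





theorem sd2_eq (w : ℂ) : sd2 w = Real.sqrt 3 / 2 * (1 - lam w) - sd1 w / 2 := by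
  have e : (w - om) / (om * (om - 1)) = ((w - 1) / (om - 1) - 1) * om ^ 2 := by
    have h1 := om_sub_ne
    have h2 := om_ne
    have h3 := om_cube
    field_simp
    linear_combination (-(w - om)) * h3
  have h : sd2 w = (((w - 1) / (om - 1) - 1) * om ^ 2).im := by
    unfold sd2; rw [e]
  rw [h, om_sq_eq, mul_im, sub_re, sub_im, one_re, one_im]
  unfold lam sd1
  ring

theorem sd3_eq (w : ℂ) : sd3 w = Real.sqrt 3 / 2 * lam w - sd1 w / 2 := by
  have e : (w - om ^ 2) / (om ^ 2 * (om - 1)) = ((w - 1) / (om - 1)) * om + 1 := by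
    have h1 := om_sub_ne
    have h2 := om_ne
    have h3 := om_cube
    field_simp
    linear_combination (-w) * h3
  have h : sd3 w = (((w - 1) / (om - 1)) * om + 1).im := by
    unfold sd3; rw [e]
  have hre : om.re = -1/2 := by rw [om_eq]
  have him : om.im = Real.sqrt 3 / 2 := by rw [om_eq]
  rw [h, add_im, one_im, mul_im, hre, him]
  unfold lam sd1
  ring

theorem Tri_closed : IsClosed Tri := by
  unfold Tri
  exact (isClosed_le continuous_const sd1_cont).inter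
    ((isClosed_le continuous_const sd2_cont).inter (isClosed_le continuous_const sd3_cont))

theorem Tri_lam {w : ℂ} (h : w ∈ Tri) : 0 ≤ lam w ∧ lam w ≤ 1 := by
  obtain ⟨h1, h2, h3⟩ := h
  rw [sd2_eq] at h2
  rw [sd3_eq] at h3
  have := sqrt3_pos
  constructor
  · by_contra hc
    push Not at hc
    nlinarith
  · by_contra hc
    push Not at hc
    nlinarith

theorem Tri_sd {w : ℂ} (h : w ∈ Tri) : sd1 w ≤ 1 ∧ sd2 w ≤ 1 ∧ sd3 w ≤ 1 := by
  obtain ⟨l0, l1⟩ := Tri_lam h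
  obtain ⟨h1, h2, h3⟩ := h
  have e2 := sd2_eq w
  have e3 := sd3_eq w
  have := sqrt3_pos
  have := sqrt3_lt
  have hsum : sd1 w + sd2 w + sd3 w = Real.sqrt 3 / 2 := by rw [e2, e3]; ring
  refine ⟨by linarith, by linarith, by linarith⟩

theorem Tri_norm {w : ℂ} (h : w ∈ Tri) : ‖w‖ ≤ 5 := by
  obtain ⟨l0, l1⟩ := Tri_lam h
  obtain ⟨s1, -, -⟩ := Tri_sd h
  have s0 := h.1
  have hX : ‖(w - 1) / (om - 1)‖ ≤ 2 := by
    refine (norm_le_abs_re_add_abs_im _).trans ?_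
    have h1 : |((w - 1) / (om - 1)).re| ≤ 1 := by
      rw [abs_le]; constructor
      · have : 0 ≤ ((w - 1) / (om - 1)).re := l0
        linarith
      · exact l1
    have h2 : |((w - 1) / (om - 1)).im| ≤ 1 := by
      rw [abs_le]; constructor
      · have : 0 ≤ ((w - 1) / (om - 1)).im := s0
        linarith
      · exact s1
    linarith
  have hom : ‖om‖ = 1 := by
    unfold om
    rw [norm_exp_ofReal_mul_I]
  have hom1 : ‖om - 1‖ ≤ 2 := by
    have := norm_sub_le om 1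
    rw [hom, norm_one] at this
    linarith
  have e : w = (w - 1) / (om - 1) * (om - 1) + 1 := by
    rw [div_mul_cancel₀ _ om_sub_ne]; ring
  calc ‖w‖ = ‖(w - 1) / (om - 1) * (om - 1) + 1‖ := by rw [← e]
    _ ≤ ‖(w - 1) / (om - 1)‖ * ‖om - 1‖ + 1 := by
        refine (norm_add_le _ _).trans ?_
        rw [norm_mul, norm_one]
    _ ≤ 2 * 2 + 1 := by
        have := mul_le_mul hX hom1 (norm_nonneg _) (by norm_num)
        linarith
    _ = 5 := by norm_num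

theorem lam_point (X : ℝ) : lam (1 + (om - 1) * (X : ℂ)) = X := by
  unfold lam
  rw [add_sub_cancel_left, mul_div_cancel_left₀ _ om_sub_ne, ofReal_re]

theorem lam_cont : Continuous lam := by unfold lam; fun_prop

/-- real affine functionals -/
def Aff (u : ℂ → ℝ) : Prop := ∃ α β : ℂ, ∀ w, u w = (α * w + β).re

theorem Aff.sub_const {u : ℂ → ℝ} (h : Aff u) (c : ℝ) : Aff fun w => u w - c := by
  obtain ⟨α, β, h⟩ := h
  refine ⟨α, β - c, fun w => ?_⟩
  simp only [h w, add_re, sub_re, ofReal_re]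
  ring

theorem Aff.const_sub {u : ℂ → ℝ} (h : Aff u) (c : ℝ) : Aff fun w => c - u w := by
  obtain ⟨α, β, h⟩ := h
  refine ⟨-α, c - β, fun w => ?_⟩
  simp only [h w, add_re, sub_re, ofReal_re, neg_mul, neg_re]
  ring

theorem aff_lam : Aff lam := by
  refine ⟨(om - 1)⁻¹, -(om - 1)⁻¹, fun w => ?_⟩
  unfold lam
  congr 1
  rw [div_eq_mul_inv]; ring

theorem aff_sd1 : Aff sd1 := by
  refine ⟨-I * (om - 1)⁻¹, I * (om - 1)⁻¹, fun w => ?_⟩
  unfold sd1
  have : -I * (om - 1)⁻¹ * w + I * (om - 1)⁻¹ = -I * ((w - 1) / (om - 1)) := by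
    rw [div_eq_mul_inv]; ring
  rw [this]
  simp

theorem Aff.comb {u v : ℂ → ℝ} (hu : Aff u) (hv : Aff v) (a b c : ℝ) :
    Aff fun w => a * u w + b * v w + c := by
  obtain ⟨α, β, hu⟩ := hu
  obtain ⟨α', β', hv⟩ := hv
  refine ⟨a * α + b * α', a * β + b * β' + c, fun w => ?_⟩
  have : (a * α + b * α') * w + (a * β + b * β' + c) =
      a * (α * w + β) + b * (α' * w + β') + c := by ring
  simp only [hu w, hv w, this, add_re, re_ofReal_mul, ofReal_re]

theorem aff_sd2 : Aff sd2 := by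
  have := aff_lam.comb aff_sd1 (-(Real.sqrt 3 / 2)) (-(1/2)) (Real.sqrt 3 / 2)
  refine (funext fun w => ?_ : sd2 = _) ▸ this
  rw [sd2_eq]; ring

theorem aff_sd3 : Aff sd3 := by
  have := aff_lam.comb aff_sd1 (Real.sqrt 3 / 2) (-(1/2)) 0
  refine (funext fun w => ?_ : sd3 = _) ▸ this
  rw [sd3_eq]; ring

theorem Aff.cont {u : ℂ → ℝ} (h : Aff u) : Continuous u := by
  obtain ⟨α, β, h⟩ := h
  have : u = fun w => (α * w + β).re := funext h
  rw [this]; fun_prop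

theorem Aff.convex {u : ℂ → ℝ} (h : Aff u) (c : ℝ) : Convex ℝ {w | u w ≤ c} := by
  obtain ⟨α, β, h⟩ := h
  intro x hx y hy a b ha hb hab
  simp only [mem_ofPred_eq, h] at hx hy ⊢
  have e : α * (a • x + b • y) + β = a • (α * x + β) + b • (α * y + β) := by
    simp only [real_smul]
    have : (a : ℂ) + b = 1 := by exact_mod_cast hab
    linear_combination (-β) * this
  rw [e, add_re, real_smul, real_smul, re_ofReal_mul, re_ofReal_mul]
  calc a * (α * x + β).re + b * (α * y + β).re ≤ a * c + b * c := by gcongr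
    _ = c := by rw [← add_mul, hab, one_mul]

theorem Aff.convex' {u : ℂ → ℝ} (h : Aff u) (c : ℝ) : Convex ℝ {w | c ≤ u w} := by
  have := (h.const_sub 0).convex (-c)
  refine (Set.ext fun w => ?_ : {w | c ≤ u w} = _) ▸ this
  simp only [mem_ofPred_eq]
  constructor <;> intro h <;> linarith

theorem Tri_convex : Convex ℝ Tri := by
  unfold Tri
  exact (aff_sd1.convex' 0).inter ((aff_sd2.convex' 0).inter (aff_sd3.convex' 0))

/-- circles meet the complement -/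
theorem circ_meets {Ω : Set ℂ} (hbd : Bornology.IsBounded Ω) (hcon : IsPreconnected Ωᶜ) {b : ℂ}
    {s : ℝ} {w0 : ℂ} (hw0 : w0 ∉ Ω) (hs : ‖w0 - b‖ ≤ s) :
    ∀ ρ ∈ Icc s (2 * s), ∃ w : ℂ, ‖w - b‖ = ρ ∧ w ∉ Ω := by
  intro ρ hρ
  obtain ⟨C, hC⟩ := hbd.subset_closedBall b
  set T : ℝ := max C 0 + |ρ| + 1 with hT
  have hTpos : 0 < T := by positivity
  have hfar : b + (T : ℂ) ∉ Ω := by
    intro h
    have h1 := hC h
    rw [mem_closedBall, dist_eq_norm, add_sub_cancel_left, Complex.norm_real, Real.norm_eq_abs,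
      abs_of_pos hTpos] at h1
    have := le_max_left C 0
    have := abs_nonneg ρ
    linarith
  have hcont : ContinuousOn (fun w : ℂ => ‖w - b‖) Ωᶜ := by fun_prop
  have h1 := hcon.intermediate_value (a := w0) (b := b + (T : ℂ)) hw0 hfar hcont
  have h2 : ρ ∈ Icc (‖w0 - b‖) (‖b + (T : ℂ) - b‖) := by
    refine ⟨hs.trans hρ.1, ?_⟩
    rw [add_sub_cancel_left, Complex.norm_real, Real.norm_eq_abs, abs_of_pos hTpos]
    have := le_abs_self ρ
    have := le_max_right C 0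
    linarith
  obtain ⟨w, hw, hw2⟩ := h1 h2
  exact ⟨w, hw2, hw⟩

/-- conjugation if `an` -/
noncomputable def cj (an : Bool) (w : ℂ) : ℂ := bif an then (starRingEnd ℂ) w else w

/-- holomorphic (`an = false`) or antiholomorphic (`an = true`) -/
def HA (an : Bool) (h : ℂ → ℂ) (Ω : Set ℂ) : Prop := DifferentiableOn ℂ (fun z => cj an (h z)) Ω

/-- **Boundary estimate on one domain.** -/
theorem side_bound {Ω : Set ℂ} (hΩ : IsOpen Ω) (hcone : Cone Ω) (hbd : Bornology.IsBounded Ω)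
    (hcon : IsPreconnected Ωᶜ) {b : ℂ} {s R : ℝ} (hs : 0 < s) (hR : 4 * s ≤ R)
    {w0 : ℂ} (hw0 : w0 ∉ Ω) (hw0b : ‖w0 - b‖ ≤ s) {an : Bool} {h : ℂ → ℂ} (hh : HA an h Ω)
    {u : ℂ → ℝ} (hu : Aff u) (h1 : ∀ z ∈ Ω, u (h z) ≤ 1) (E : Finset ℂ)
    (hE : ∀ e ∈ E, e ∉ Ω)
    (hb : ∀ ζ ∈ frontier Ω, ‖ζ - b‖ < R → ζ ∉ E → ∀ ε > 0, ∀ᶠ z in 𝓝[Ω] ζ, u (h z) ≤ ε)
    {z : ℂ} (hz : z ∈ Ω) (hzb : ‖z - b‖ ≤ s) : u (h z) ≤ 5 / Real.log (R / s) := by
  obtain ⟨α, β, hu⟩ := hu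
  have hw := circ_meets hbd hcon hw0 hw0b
  unfold HA cj at hh
  cases an
  · simp only [cond_false] at hh
    have key := weak_beurling hΩ hcone hs hR hw (f := fun z => α * h z + β)
      ((hh.const_mul α).add_const β) (fun z hz => by
        have := h1 z hz; rw [hu] at this; exact this) E hE
      (fun ζ h2 h3 h4 ε hε => by
        have := hb ζ h2 h3 h4 ε hε
        simp only [hu] at this
        exact this) hz hzb
    rw [hu]
    exact key
  · simp only [cond_true] at hh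
    have e : ∀ w : ℂ, (α * w + β).re =
        ((starRingEnd ℂ) α * (starRingEnd ℂ) w + (starRingEnd ℂ) β).re := by
      intro w
      rw [← map_mul, ← map_add, conj_re]
    have key := weak_beurling hΩ hcone hs hR hw
      (f := fun z => (starRingEnd ℂ) α * (starRingEnd ℂ) (h z) + (starRingEnd ℂ) β)
      ((hh.const_mul _).add_const _) (fun z hz => by
        have := h1 z hz; rw [hu, e] at this; exact this) E hE
      (fun ζ h2 h3 h4 ε hε => by
        have := hb ζ h2 h3 h4 ε hε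
        simp only [hu, e] at this
        exact this) hz hzb
    rw [hu, e]
    exact key

end Crest.Agent.R158.Wl290
end

-- ▼ part R158/Wl2_290
section

/-!
R158 (helper290), part 2: the weak limit along an ultrafilter is holomorphic, and closed convex
constraints pass to it.
-/

set_option autoImplicit false
open Complex MeasureTheory Metric Set Topology Filter
open scoped Interval

namespace Crest.Agent.R158.Wl290

open Crest.Agent.R158.Pv470

variable {ι : Type*}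

/-- limit along an ultrafilter -/
noncomputable def ulim (U : Ultrafilter ι) (g : ι → ℂ) : ℂ := limUnder (U : Filter ι) g

theorem tendsto_ulim {U : Ultrafilter ι} {g : ι → ℂ} {C : ℝ} (h : ∀ᶠ n in (U : Filter ι), ‖g n‖ ≤ C) :
    Tendsto g U (𝓝 (ulim U g)) := by
  have hc : IsCompact (closedBall (0:ℂ) C) := isCompact_closedBall _ _
  have hm : closedBall (0:ℂ) C ∈ (U.map g : Filter ℂ) := by
    change ∀ᶠ n in (U : Filter ι), g n ∈ closedBall (0:ℂ) C
    filter_upwards [h] with n hn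
    simpa using hn
  obtain ⟨z, -, hz⟩ := hc.ultrafilter_le_nhds' (U.map g) hm
  have hz' : Tendsto g U (𝓝 z) := hz
  unfold ulim
  rw [hz'.limUnder_eq]
  exact hz'

section lims

variable (U : Ultrafilter ι) (d : ι → ℝ) (H : ι → ℤ → ℤ → ℂ)

noncomputable def Al (x1 x2 y : ℝ) : ℂ := ulim U fun n => An (d n) (H n) x1 x2 y

noncomputable def Sl (x1 x2 y1 y2 : ℝ) : ℂ := ulim U fun n => Sn (d n) (H n) x1 x2 y1 y2

end lims

variable {U : Ultrafilter ι} {d : ι → ℝ} {H : ι → ℤ → ℤ → ℂ}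

theorem Al_tendsto (hd : ∀ n, 0 < d n) (hd0 : Tendsto d U (𝓝 0)) (hH : ∀ n i j, ‖H n i j‖ ≤ 1)
    {x1 x2 : ℝ} (h : x1 ≤ x2) (y : ℝ) :
    Tendsto (fun n => An (d n) (H n) x1 x2 y) U (𝓝 (Al U d H x1 x2 y)) := by
  have h1 : ∀ᶠ n in (U : Filter ι), d n < 1 := hd0.eventually (gt_mem_nhds one_pos)
  refine tendsto_ulim (C := x2 - x1 + 1) ?_
  filter_upwards [h1] with n hn
  exact (An_norm (hd n) (hH n) h y).trans (by linarith)

theorem Al_norm (hd : ∀ n, 0 < d n) (hd0 : Tendsto d U (𝓝 0)) (hH : ∀ n i j, ‖H n i j‖ ≤ 1)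
    {x1 x2 : ℝ} (h : x1 ≤ x2) (y : ℝ) : ‖Al U d H x1 x2 y‖ ≤ x2 - x1 := by
  have t1 := (Al_tendsto hd hd0 hH h y).norm
  have t2 : Tendsto (fun n => x2 - x1 + d n) U (𝓝 (x2 - x1 + 0)) := hd0.const_add _
  rw [add_zero] at t2
  exact le_of_tendsto_of_tendsto t1 t2 (Eventually.of_forall fun n => An_norm (hd n) (hH n) h y)

theorem Al_add (hd : ∀ n, 0 < d n) (hd0 : Tendsto d U (𝓝 0)) (hH : ∀ n i j, ‖H n i j‖ ≤ 1)
    {x1 x2 x3 : ℝ} (h1 : x1 ≤ x2) (h2 : x2 ≤ x3) (y : ℝ) :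
    Al U d H x1 x2 y + Al U d H x2 x3 y = Al U d H x1 x3 y := by
  have t1 := (Al_tendsto hd hd0 hH h1 y).add (Al_tendsto hd hd0 hH h2 y)
  have t2 := Al_tendsto hd hd0 hH (h1.trans h2) y
  refine tendsto_nhds_unique t1 (t2.congr fun n => ?_)
  exact (An_add (hd n) (H n) h1 h2 y).symm

theorem Sn_norm {d : ℝ} (hd : 0 < d) {H : ℤ → ℤ → ℂ} (hH : ∀ i j, ‖H i j‖ ≤ 1) {x1 x2 y1 y2 : ℝ}
    (hx : x1 ≤ x2) (hy : y1 ≤ y2) :
    ‖Sn d H x1 x2 y1 y2‖ ≤ (y2 - y1 + d) * (x2 - x1 + d) := by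
  unfold Sn
  have hdn : ‖(d:ℂ)‖ = d := by simp [abs_of_nonneg hd.le]
  rw [norm_mul, hdn]
  have hcard : ((Finset.Ico (fl d y1) (fl d y2)).card : ℝ) = (fl d y2 : ℝ) - fl d y1 := by
    rw [Int.card_Ico]
    have m12 := fl_mono hd hy
    have : ((fl d y2 - fl d y1).toNat : ℤ) = fl d y2 - fl d y1 := Int.toNat_of_nonneg (by omega)
    have h2 : (((fl d y2 - fl d y1).toNat : ℤ) : ℝ) = ((fl d y2 - fl d y1 : ℤ) : ℝ) := by rw [this]
    push_cast at h2
    exact_mod_cast h2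
  have hr : ∀ j, ‖row d H (fl d x1) (fl d x2) j‖ ≤ x2 - x1 + d := fun j =>
    (row_norm hd.le hH (fl_mono hd hx) _).trans (fl_sub_le hd)
  have b1 : ‖∑ j ∈ Finset.Ico (fl d y1) (fl d y2), row d H (fl d x1) (fl d x2) j‖ ≤
      ((fl d y2 : ℝ) - fl d y1) * (x2 - x1 + d) := by
    refine (norm_sum_le _ _).trans ((Finset.sum_le_sum fun j _ => hr j).trans ?_)
    rw [Finset.sum_const, nsmul_eq_mul, hcard]
  calc _ ≤ d * (((fl d y2 : ℝ) - fl d y1) * (x2 - x1 + d)) := mul_le_mul_of_nonneg_left b1 hd.le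
    _ = (d * ((fl d y2 : ℝ) - fl d y1)) * (x2 - x1 + d) := by ring
    _ ≤ _ := mul_le_mul_of_nonneg_right (fl_sub_le hd) (by linarith)

theorem Sl_tendsto (hd : ∀ n, 0 < d n) (hd0 : Tendsto d U (𝓝 0)) (hH : ∀ n i j, ‖H n i j‖ ≤ 1)
    {x1 x2 y1 y2 : ℝ} (hx : x1 ≤ x2) (hy : y1 ≤ y2) :
    Tendsto (fun n => Sn (d n) (H n) x1 x2 y1 y2) U (𝓝 (Sl U d H x1 x2 y1 y2)) := by
  have h1 : ∀ᶠ n in (U : Filter ι), d n < 1 := hd0.eventually (gt_mem_nhds one_pos)
  refine tendsto_ulim (C := (y2 - y1 + 1) * (x2 - x1 + 1)) ?_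
  filter_upwards [h1] with n hn
  have := hd n
  refine (Sn_norm (hd n) (hH n) hx hy).trans ?_
  apply mul_le_mul <;> linarith

theorem Sl_add (hd : ∀ n, 0 < d n) (hd0 : Tendsto d U (𝓝 0)) (hH : ∀ n i j, ‖H n i j‖ ≤ 1)
    {x1 x2 y1 y2 y3 : ℝ} (hx : x1 ≤ x2) (h1 : y1 ≤ y2) (h2 : y2 ≤ y3) :
    Sl U d H x1 x2 y1 y2 + Sl U d H x1 x2 y2 y3 = Sl U d H x1 x2 y1 y3 := by
  have t1 := (Sl_tendsto hd hd0 hH hx h1).add (Sl_tendsto hd hd0 hH hx h2)
  have t2 := Sl_tendsto hd hd0 hH hx (h1.trans h2)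
  refine tendsto_nhds_unique t1 (t2.congr fun n => ?_)
  exact (Sn_add (hd n) (H n) x1 x2 h1 h2).symm

theorem Sl_swap (x1 x2 y1 y2 : ℝ) :
    Sl U d (fun n i j => H n j i) y1 y2 x1 x2 = Sl U d H x1 x2 y1 y2 := by
  unfold Sl
  congr 1
  funext n
  exact Sn_swap (d n) (H n) x1 x2 y1 y2

/-- block estimate in the limit -/
theorem Sl_block (hd : ∀ n, 0 < d n) (hd0 : Tendsto d U (𝓝 0)) (hH : ∀ n i j, ‖H n i j‖ ≤ 1)
    {s : ℂ} (hs : ‖s‖ = 1) {a b c e : ℝ} (hCS : CSr (U : Filter ι) s d H a b c e)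
    {x1 x2 y1 y2 y : ℝ} (hx1 : a < x1) (hx : x1 ≤ x2) (hx2 : x2 ≤ b) (hy1 : c < y1)
    (hy2 : y2 ≤ e) (h1 : y1 ≤ y) (h2 : y ≤ y2) :
    ‖Sl U d H x1 x2 y1 y2 - ((y2 - y1 : ℝ) : ℂ) * Al U d H x1 x2 y‖ ≤ 2 * (y2 - y1) ^ 2 := by
  have t1 := (Sl_tendsto hd hd0 hH hx (h1.trans h2)).sub
    ((Al_tendsto hd hd0 hH hx y).const_mul ((y2 - y1 : ℝ) : ℂ))
  have t1' := t1.norm
  refine le_of_forall_pos_le_add fun η hη => ?_
  -- bound with ε
  have key : ∀ ε > 0, ‖Sl U d H x1 x2 y1 y2 - ((y2 - y1 : ℝ) : ℂ) * Al U d H x1 x2 y‖ ≤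
      (y2 - y1 + 0) * (ε + 2 * (y2 - y1 + 0)) + 0 * (x2 - x1 + 0) := by
    intro ε hε
    have t2 : Tendsto (fun n => (y2 - y1 + d n) * (ε + 2 * (y2 - y1 + d n)) + d n * (x2 - x1 + d n)) U
        (𝓝 ((y2 - y1 + 0) * (ε + 2 * (y2 - y1 + 0)) + 0 * (x2 - x1 + 0))) := by
      refine Tendsto.add (Tendsto.mul (hd0.const_add _) ?_) (hd0.mul (hd0.const_add _))
      exact ((hd0.const_add _).const_mul 2).const_add ε
    refine le_of_tendsto_of_tendsto t1' t2 ?_
    have s1 : ∀ᶠ n in (U : Filter ι), d n < x1 - a := hd0.eventually (gt_mem_nhds (by linarith))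
    have s2 : ∀ᶠ n in (U : Filter ι), d n < y1 - c := hd0.eventually (gt_mem_nhds (by linarith))
    filter_upwards [s1, s2, hCS ε hε] with n n1 n2 n3
    refine Sn_block hs (hd n) (hH n) hx h1 h2 ?_ hε.le
    intro j1 j2 k1 k2 k3
    refine n3 _ _ _ _ (fl_mono (hd n) hx) k2 ?_ ?_ ?_ ?_
    · have := lt_fl (x := x1) (hd n); linarith
    · exact (fl_le (hd n)).trans hx2
    · have w1 := lt_fl (x := y1) (hd n)
      have w2 : d n * (fl (d n) y1 : ℝ) ≤ d n * (j1 : ℝ) :=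
        mul_le_mul_of_nonneg_left (by exact_mod_cast k1) (hd n).le
      linarith
    · have w1 := fl_le (x := y2) (hd n)
      have w2 : d n * (j2 : ℝ) ≤ d n * (fl (d n) y2 : ℝ) :=
        mul_le_mul_of_nonneg_left (by exact_mod_cast k3) (hd n).le
      linarith
  have hlen : 0 ≤ y2 - y1 := by linarith
  rcases eq_or_lt_of_le hlen with h0 | h0
  · have := key 1 one_pos
    rw [← h0] at this ⊢
    nlinarith
  · have := key (η / (y2 - y1)) (div_pos hη h0)
    have e1 : (y2 - y1 + 0) * (η / (y2 - y1) + 2 * (y2 - y1 + 0)) + 0 * (x2 - x1 + 0) =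
        η + 2 * (y2 - y1) ^ 2 := by
      field_simp
      ring
    rw [e1] at this
    linarith

theorem Al_lip (hd : ∀ n, 0 < d n) (hd0 : Tendsto d U (𝓝 0)) (hH : ∀ n i j, ‖H n i j‖ ≤ 1)
    {s : ℂ} (hs : ‖s‖ = 1) {a b c e : ℝ} (hCS : CSr (U : Filter ι) s d H a b c e)
    {x1 x2 y1 y2 : ℝ} (hx1 : a < x1) (hx : x1 ≤ x2) (hx2 : x2 ≤ b) (hy1 : c < y1)
    (hy2 : y2 ≤ e) (h1 : y1 ≤ y2) :
    ‖Al U d H x1 x2 y2 - Al U d H x1 x2 y1‖ ≤ 4 * (y2 - y1) := by
  rcases eq_or_lt_of_le h1 with h | h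
  · subst h; simp
  have p1 := Sl_block hd hd0 hH hs hCS hx1 hx hx2 hy1 hy2 le_rfl h1
  have p2 := Sl_block hd hd0 hH hs hCS hx1 hx hx2 hy1 hy2 h1 le_rfl
  have hpos : 0 < y2 - y1 := by linarith
  have e1 : ((y2 - y1 : ℝ) : ℂ) * (Al U d H x1 x2 y2 - Al U d H x1 x2 y1) =
      (Sl U d H x1 x2 y1 y2 - ((y2 - y1 : ℝ) : ℂ) * Al U d H x1 x2 y1) -
      (Sl U d H x1 x2 y1 y2 - ((y2 - y1 : ℝ) : ℂ) * Al U d H x1 x2 y2) := by ring
  have e2 : (y2 - y1) * ‖Al U d H x1 x2 y2 - Al U d H x1 x2 y1‖ ≤ 4 * (y2 - y1) ^ 2 := by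
    have : (y2 - y1) * ‖Al U d H x1 x2 y2 - Al U d H x1 x2 y1‖ =
        ‖((y2 - y1 : ℝ) : ℂ) * (Al U d H x1 x2 y2 - Al U d H x1 x2 y1)‖ := by
      rw [norm_mul, Complex.norm_real, Real.norm_eq_abs, abs_of_pos hpos]
    rw [this, e1]
    refine (norm_sub_le _ _).trans ?_
    linarith
  have : (y2 - y1) * ‖Al U d H x1 x2 y2 - Al U d H x1 x2 y1‖ ≤ (y2 - y1) * (4 * (y2 - y1)) := by
    calc _ ≤ 4 * (y2 - y1) ^ 2 := e2
      _ = _ := by ring
  exact le_of_mul_le_mul_left this hpos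

/-- a function whose increments are second-order close to `g` is a primitive of `g` -/
theorem integral_of_block {S : ℝ → ℝ → ℂ} {g : ℝ → ℂ} {c e C : ℝ}
    (hadd : ∀ y1 y2 y3, c ≤ y1 → y1 ≤ y2 → y2 ≤ y3 → y3 ≤ e → S y1 y2 + S y2 y3 = S y1 y3)
    (hbl1 : ∀ y1 y2, c ≤ y1 → y1 ≤ y2 → y2 ≤ e → ‖S y1 y2 - ((y2 - y1 : ℝ) : ℂ) * g y1‖ ≤ C * (y2 - y1) ^ 2)
    (hlip : ∀ y1 y2, c ≤ y1 → y1 ≤ y2 → y2 ≤ e → ‖g y2 - g y1‖ ≤ C * (y2 - y1))
    (hce : c ≤ e) : S c e = ∫ y in c..e, g y := by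
  have hC : ∀ y1 y2, c ≤ y1 → y1 < y2 → y2 ≤ e → 0 ≤ C := by
    intro y1 y2 h1 h2 h3
    have := (norm_nonneg _).trans (hlip y1 y2 h1 h2.le h3)
    by_contra hneg
    rw [not_le] at hneg
    nlinarith
  rcases eq_or_lt_of_le hce with h | h
  · subst h
    have := hbl1 c c le_rfl le_rfl le_rfl
    simp at this
    simp [this]
  have hC0 := hC c e le_rfl h le_rfl
  have hcont : ContinuousOn g (Icc c e) := by
    have : LipschitzOnWith (Real.toNNReal C) g (Icc c e) := by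
      refine LipschitzOnWith.of_dist_le_mul fun x hx y hy => ?_
      rw [Real.coe_toNNReal _ hC0, dist_eq_norm, Real.dist_eq]
      rcases le_total x y with hxy | hxy
      · rw [norm_sub_rev, abs_sub_comm, abs_of_nonneg (by linarith : 0 ≤ y - x)]
        exact hlip x y hx.1 hxy hy.2
      · rw [abs_of_nonneg (by linarith : 0 ≤ x - y)]
        exact hlip y x hy.1 hxy hx.2
    exact this.continuousOn
  have hint : IntervalIntegrable g volume c e := (hcont.mono (by rw [uIcc_of_le hce])).intervalIntegrable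
  have hSc : ContinuousOn (fun y => S c y) (Icc c e) := by
    have hb : ∀ y1 y2, c ≤ y1 → y1 ≤ y2 → y2 ≤ e →
        ‖S c y2 - S c y1‖ ≤ (C * (e - c) + (‖g c‖ + C * (e - c))) * (y2 - y1) := by
      intro y1 y2 h1 h2 h3
      have e1 : S c y2 - S c y1 = S y1 y2 := by
        rw [← hadd c y1 y2 le_rfl h1 h2 h3]; ring
      rw [e1]
      have b1 := hbl1 y1 y2 h1 h2 h3
      have b2 := hlip c y1 le_rfl h1 (h2.trans h3)
      have b3 : ‖g y1‖ ≤ ‖g c‖ + C * (e - c) := by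
        have : ‖g y1‖ ≤ ‖g c‖ + ‖g y1 - g c‖ := by
          have := norm_add_le (g c) (g y1 - g c); simpa using this
        have h5 : C * (y1 - c) ≤ C * (e - c) := mul_le_mul_of_nonneg_left (by linarith) hC0
        linarith
      have b4 : ‖S y1 y2‖ ≤ ‖S y1 y2 - ((y2 - y1 : ℝ) : ℂ) * g y1‖ + ‖((y2 - y1 : ℝ) : ℂ) * g y1‖ := by
        have := norm_add_le (S y1 y2 - ((y2 - y1 : ℝ) : ℂ) * g y1) (((y2 - y1 : ℝ) : ℂ) * g y1)
        simpa using this
      have b5 : ‖((y2 - y1 : ℝ) : ℂ) * g y1‖ ≤ (y2 - y1) * (‖g c‖ + C * (e - c)) := by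
        rw [norm_mul, Complex.norm_real, Real.norm_eq_abs, abs_of_nonneg (by linarith : 0 ≤ y2 - y1)]
        exact mul_le_mul_of_nonneg_left b3 (by linarith)
      have b6 : C * (y2 - y1) ^ 2 ≤ C * (e - c) * (y2 - y1) := by
        have : (y2 - y1) ^ 2 ≤ (e - c) * (y2 - y1) := by nlinarith
        calc _ ≤ C * ((e - c) * (y2 - y1)) := mul_le_mul_of_nonneg_left this hC0
          _ = _ := by ring
      linarith
    set K := C * (e - c) + (‖g c‖ + C * (e - c)) with hK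
    have hK0 : 0 ≤ K := by
      have := norm_nonneg (g c)
      have : 0 ≤ C * (e - c) := mul_nonneg hC0 (by linarith)
      linarith
    have : LipschitzOnWith (Real.toNNReal K) (fun y => S c y) (Icc c e) := by
      refine LipschitzOnWith.of_dist_le_mul fun x hx y hy => ?_
      rw [Real.coe_toNNReal _ hK0, dist_eq_norm, Real.dist_eq]
      rcases le_total x y with hxy | hxy
      · rw [norm_sub_rev, abs_sub_comm, abs_of_nonneg (by linarith : 0 ≤ y - x)]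
        exact hb x y hx.1 hxy hy.2
      · rw [abs_of_nonneg (by linarith : 0 ≤ x - y)]
        exact hb y x hy.1 hxy hx.2
    exact this.continuousOn
  have hderiv : ∀ y ∈ Ioo c e, HasDerivWithinAt (fun y => S c y) (g y) (Ioi y) y := by
    intro y hy
    rw [hasDerivWithinAt_iff_isLittleO]
    rw [Asymptotics.isLittleO_iff]
    intro η hη
    have hmem : Ioo y (min e (y + η / (C + 1))) ∈ 𝓝[>] y := by
      apply Ioo_mem_nhdsGT
      apply lt_min hy.2
      have : 0 < η / (C + 1) := div_pos hη (by linarith)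
      linarith
    filter_upwards [hmem] with t ht
    have ht1 := ht.1
    have ht2 : t < e := ht.2.trans_le (min_le_left _ _)
    have ht3 : t < y + η / (C + 1) := ht.2.trans_le (min_le_right _ _)
    have e1 : S c t - S c y = S y t := by
      rw [← hadd c y t le_rfl hy.1.le ht1.le ht2.le]; ring
    have b1 := hbl1 y t hy.1.le ht1.le ht2.le
    have : S c t - S c y - (t - y) • g y = S y t - ((t - y : ℝ) : ℂ) * g y := by
      rw [e1]; simp
    rw [this, Real.norm_eq_abs, abs_of_pos (by linarith : 0 < t - y)]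
    refine b1.trans ?_
    have h5 : C * (t - y) ≤ η := by
      have h6 : (t - y) ≤ η / (C + 1) := by linarith
      calc C * (t - y) ≤ (C + 1) * (t - y) := by nlinarith
        _ ≤ (C + 1) * (η / (C + 1)) := mul_le_mul_of_nonneg_left h6 (by linarith)
        _ = η := by field_simp
    nlinarith
  have := intervalIntegral.integral_eq_sub_of_hasDeriv_right_of_le hce hSc hderiv hint
  rw [this]
  have hcc : S c c = 0 := by
    have := hbl1 c c le_rfl le_rfl hce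
    simpa using this
  rw [hcc, sub_zero]

end Crest.Agent.R158.Wl290
end

-- ▼ part R158/Wl3_290
section

/-!
R158 (helper290), part 3: the weak limit is holomorphic; closed convex constraints pass to it.
-/

set_option autoImplicit false
open Complex MeasureTheory Metric Set Topology Filter
open scoped Interval

namespace Crest.Agent.R158.Wl290

open Crest.Agent.R158.Pv470

variable {ι : Type*} {U : Ultrafilter ι} {d : ι → ℝ} {H : ι → ℤ → ℤ → ℂ}

/-- `S = ∫ A dy` -/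
theorem Sl_eq_integral (hd : ∀ n, 0 < d n) (hd0 : Tendsto d U (𝓝 0)) (hH : ∀ n i j, ‖H n i j‖ ≤ 1)
    {s : ℂ} (hs : ‖s‖ = 1) {a b c e : ℝ} (hCS : CSr (U : Filter ι) s d H a b c e)
    {x1 x2 y1 y2 : ℝ} (hx1 : a < x1) (hx : x1 ≤ x2) (hx2 : x2 ≤ b) (hy1 : c < y1)
    (hy2 : y2 ≤ e) (hy : y1 ≤ y2) :
    Sl U d H x1 x2 y1 y2 = ∫ y in y1..y2, Al U d H x1 x2 y := by
  refine integral_of_block (S := fun p q => Sl U d H x1 x2 p q) (C := 4) ?_ ?_ ?_ hy
  · intro p q r _ h2 h3 _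
    exact Sl_add hd hd0 hH hx h2 h3
  · intro p q h1 h2 h3
    have := Sl_block hd hd0 hH hs hCS hx1 hx hx2 (hy1.trans_le h1) (h3.trans hy2) le_rfl h2
    refine this.trans ?_
    nlinarith [sq_nonneg (q - p)]
  · intro p q h1 h2 h3
    exact Al_lip hd hd0 hH hs hCS hx1 hx hx2 (hy1.trans_le h1) (h3.trans hy2) h2

theorem swapH (hH : ∀ n i j, ‖H n i j‖ ≤ 1) : ∀ n i j, ‖(fun n i j => H n j i) n i j‖ ≤ 1 :=
  fun n i j => hH n j i

theorem norm_inv_one {s : ℂ} (hs : ‖s‖ = 1) : ‖s⁻¹‖ = 1 := by rw [norm_inv, hs]; simp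

/-- the contour relation in the limit -/
theorem Al_contour (hd : ∀ n, 0 < d n) (hd0 : Tendsto d U (𝓝 0)) (hH : ∀ n i j, ‖H n i j‖ ≤ 1)
    {s : ℂ} {a b c e : ℝ} (hCS : CSr (U : Filter ι) s d H a b c e)
    {x1 x2 y1 y2 : ℝ} (hx1 : a < x1) (hx : x1 ≤ x2) (hx2 : x2 ≤ b) (hy1 : c < y1)
    (hy2 : y2 ≤ e) (hy : y1 ≤ y2) :
    Al U d H x1 x2 y2 - Al U d H x1 x2 y1 =
      s * (Al U d (fun n i j => H n j i) y1 y2 x2 - Al U d (fun n i j => H n j i) y1 y2 x1) := by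
  have t1 := (Al_tendsto hd hd0 hH hx y2).sub (Al_tendsto hd hd0 hH hx y1)
  have t2 := ((Al_tendsto hd hd0 (swapH hH) hy x2).sub
    (Al_tendsto hd hd0 (swapH hH) hy x1)).const_mul s
  have t3 := t1.sub t2
  have t4 : Tendsto (fun n => An (d n) (H n) x1 x2 y2 - An (d n) (H n) x1 x2 y1 -
      s * (An (d n) (fun i j => H n j i) y1 y2 x2 - An (d n) (fun i j => H n j i) y1 y2 x1)) U
      (𝓝 0) := by
    rw [tendsto_zero_iff_norm_tendsto_zero]
    rw [Metric.tendsto_nhds]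
    intro ε hε
    have s1 : ∀ᶠ n in (U : Filter ι), d n < x1 - a := hd0.eventually (gt_mem_nhds (by linarith))
    have s2 : ∀ᶠ n in (U : Filter ι), d n < y1 - c := hd0.eventually (gt_mem_nhds (by linarith))
    filter_upwards [s1, s2, hCS (ε / 2) (half_pos hε)] with n n1 n2 n3
    have h5 := n3 (fl (d n) x1) (fl (d n) x2) (fl (d n) y1) (fl (d n) y2) (fl_mono (hd n) hx)
      (fl_mono (hd n) hy) (by have := lt_fl (x := x1) (hd n); linarith)
      ((fl_le (hd n)).trans hx2) (by have := lt_fl (x := y1) (hd n); linarith)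
      ((fl_le (hd n)).trans hy2)
    have e1 : An (d n) (H n) x1 x2 y2 - An (d n) (H n) x1 x2 y1 -
      s * (An (d n) (fun i j => H n j i) y1 y2 x2 - An (d n) (fun i j => H n j i) y1 y2 x1) =
      (d n : ℂ) * csum s (H n) (fl (d n) x1) (fl (d n) x2) (fl (d n) y1) (fl (d n) y2) := by
      unfold An row csum
      rw [Finset.sum_sub_distrib, Finset.sum_sub_distrib]
      ring
    rw [e1, norm_mul, Complex.norm_real, Real.norm_eq_abs, abs_of_pos (hd n), dist_zero_right,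
      Real.norm_eq_abs, abs_of_nonneg (mul_nonneg (hd n).le (norm_nonneg _))]
    linarith
  have := tendsto_nhds_unique t3 t4
  linear_combination this

/-- local primitive -/
noncomputable def Fp (U : Ultrafilter ι) (d : ι → ℝ) (H : ι → ℤ → ℤ → ℂ) (x0 y0 : ℝ) (z : ℂ) : ℂ :=
  Al U d H x0 z.re z.im + I * Al U d (fun n i j => H n j i) y0 z.im x0

theorem Fp_re (hd : ∀ n, 0 < d n) (hd0 : Tendsto d U (𝓝 0)) (hH : ∀ n i j, ‖H n i j‖ ≤ 1)
    {x0 x1 x2 y0 y : ℝ} (h1 : x0 ≤ x1) (h2 : x1 ≤ x2) :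
    Fp U d H x0 y0 (x2 + y * I) - Fp U d H x0 y0 (x1 + y * I) = Al U d H x1 x2 y := by
  unfold Fp
  simp only [add_re, ofReal_re, mul_re, I_re, mul_zero, ofReal_im, I_im, mul_one, sub_self,
    add_zero, add_im, mul_im, zero_add]
  rw [← Al_add hd hd0 hH h1 h2 y]
  ring

theorem Fp_im (hd : ∀ n, 0 < d n) (hd0 : Tendsto d U (𝓝 0)) (hH : ∀ n i j, ‖H n i j‖ ≤ 1)
    {a b c e : ℝ} (hCS : CSr (U : Filter ι) I d H a b c e)
    {x0 x y0 y1 y2 : ℝ} (h0 : a < x0) (h1 : x0 ≤ x) (hxb : x ≤ b) (hy0 : c < y0) (h2 : y0 ≤ y1)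
    (h3 : y1 ≤ y2) (h4 : y2 ≤ e) :
    Fp U d H x0 y0 (x + y2 * I) - Fp U d H x0 y0 (x + y1 * I) =
      I * Al U d (fun n i j => H n j i) y1 y2 x := by
  unfold Fp
  simp only [add_re, ofReal_re, mul_re, I_re, mul_zero, ofReal_im, I_im, mul_one, sub_self,
    add_zero, add_im, mul_im, zero_add]
  have e1 := Al_contour hd hd0 hH hCS h0 h1 hxb (hy0.trans_le h2) h4 h3
  have e2 := Al_add hd hd0 (swapH hH) h2 h3 x0
  linear_combination e1 - I * e2

theorem Fp_cont (hd : ∀ n, 0 < d n) (hd0 : Tendsto d U (𝓝 0)) (hH : ∀ n i j, ‖H n i j‖ ≤ 1)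
    {a b c e : ℝ} (hCS : CSr (U : Filter ι) I d H a b c e)
    {x0 y0 : ℝ} (h0 : a < x0) (hy0 : c < y0) :
    ContinuousOn (Fp U d H x0 y0) (Rc x0 b y0 e) := by
  have key : ∀ z ∈ Rc x0 b y0 e, ∀ w ∈ Rc x0 b y0 e,
      ‖Fp U d H x0 y0 z - Fp U d H x0 y0 w‖ ≤ |z.re - w.re| + |z.im - w.im| := by
    intro z hz w hw
    rw [mem_Rc] at hz hw
    have ez : z = (z.re : ℂ) + (z.im : ℂ) * I := (re_add_im z).symm
    have ew : w = (w.re : ℂ) + (w.im : ℂ) * I := (re_add_im w).symm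
    have p1 : ‖Fp U d H x0 y0 (z.re + z.im * I) - Fp U d H x0 y0 (w.re + z.im * I)‖ ≤
        |z.re - w.re| := by
      rcases le_total z.re w.re with h | h
      · rw [norm_sub_rev, Fp_re hd hd0 hH hz.1.1 h, abs_sub_comm, abs_of_nonneg (by linarith)]
        exact Al_norm hd hd0 hH h _
      · rw [Fp_re hd hd0 hH hw.1.1 h, abs_of_nonneg (by linarith)]
        exact Al_norm hd hd0 hH h _
    have p2 : ‖Fp U d H x0 y0 (w.re + z.im * I) - Fp U d H x0 y0 (w.re + w.im * I)‖ ≤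
        |z.im - w.im| := by
      rcases le_total z.im w.im with h | h
      · rw [norm_sub_rev, Fp_im hd hd0 hH hCS h0 hw.1.1 hw.1.2 hy0 hz.2.1 h hw.2.2, abs_sub_comm,
          abs_of_nonneg (by linarith), norm_mul, norm_I, one_mul]
        exact Al_norm hd hd0 (swapH hH) h _
      · rw [Fp_im hd hd0 hH hCS h0 hw.1.1 hw.1.2 hy0 hw.2.1 h hz.2.2,
          abs_of_nonneg (by linarith), norm_mul, norm_I, one_mul]
        exact Al_norm hd hd0 (swapH hH) h _
    rw [ez, ew]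
    simp only [add_re, ofReal_re, mul_re, I_re, mul_zero, ofReal_im, I_im, mul_one, sub_self,
      add_zero, add_im, mul_im, zero_add]
    calc _ = ‖(Fp U d H x0 y0 (z.re + z.im * I) - Fp U d H x0 y0 (w.re + z.im * I)) +
          (Fp U d H x0 y0 (w.re + z.im * I) - Fp U d H x0 y0 (w.re + w.im * I))‖ := by
          congr 1; ring
      _ ≤ _ := (norm_add_le _ _).trans (add_le_add p1 p2)
  have : LipschitzOnWith 2 (Fp U d H x0 y0) (Rc x0 b y0 e) := by
    refine LipschitzOnWith.of_dist_le_mul fun z hz w hw => ?_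
    rw [dist_eq_norm, dist_eq_norm]
    refine (key z hz w hw).trans ?_
    have h1 : |z.re - w.re| ≤ ‖z - w‖ := by
      rw [← sub_re]; exact abs_re_le_norm _
    have h2 : |z.im - w.im| ≤ ‖z - w‖ := by
      rw [← sub_im]; exact abs_im_le_norm _
    push_cast
    linarith
  exact this.continuousOn

/-- Morera for the primitive -/
theorem Fp_holo (hd : ∀ n, 0 < d n) (hd0 : Tendsto d U (𝓝 0)) (hH : ∀ n i j, ‖H n i j‖ ≤ 1)
    {a b c e : ℝ} (hCS : CSr (U : Filter ι) I d H a b c e)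
    {x0 y0 : ℝ} (h0 : a < x0) (hy0 : c < y0) :
    DifferentiableOn ℂ (Fp U d H x0 y0) (Ioo x0 b ×ℂ Ioo y0 e) := by
  have hsub : Ioo x0 b ×ℂ Ioo y0 e ⊆ Rc x0 b y0 e := by
    intro z hz
    rw [mem_reProdIm] at hz
    rw [mem_Rc]
    exact ⟨⟨hz.1.1.le, hz.1.2.le⟩, hz.2.1.le, hz.2.2.le⟩
  refine morera (isOpen_Ioo.reProdIm isOpen_Ioo) ((Fp_cont hd hd0 hH hCS h0 hy0).mono hsub) ?_
  intro a' b' c' e' hab hce hR
  have m1 : ((a' : ℂ) + c' * I) ∈ Ioo x0 b ×ℂ Ioo y0 e :=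
    hR (by rw [mem_Rc]; simp [hab, hce])
  have m2 : ((b' : ℂ) + e' * I) ∈ Ioo x0 b ×ℂ Ioo y0 e :=
    hR (by rw [mem_Rc]; simp [hab, hce])
  rw [mem_reProdIm] at m1 m2
  simp only [add_re, ofReal_re, mul_re, I_re, mul_zero, ofReal_im, I_im, mul_one, sub_self,
      add_zero, add_im, mul_im, zero_add] at m1 m2
  obtain ⟨⟨q1, q2⟩, q3, q4⟩ := m1
  obtain ⟨⟨q5, q6⟩, q7, q8⟩ := m2
  have hFc := Fp_cont hd hd0 hH hCS h0 hy0
  have hRs : Rc a' b' c' e' ⊆ Rc x0 b y0 e := hR.trans hsub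
  have hFr := hFc.mono hRs
  have I1 : IntervalIntegrable (fun x : ℝ => Fp U d H x0 y0 (x + c' * I)) volume a' b' := by
    refine ContinuousOn.intervalIntegrable ?_
    rw [uIcc_of_le hab]
    exact cont_hor hFr ⟨le_rfl, hce⟩
  have I2 : IntervalIntegrable (fun x : ℝ => Fp U d H x0 y0 (x + e' * I)) volume a' b' := by
    refine ContinuousOn.intervalIntegrable ?_
    rw [uIcc_of_le hab]
    exact cont_hor hFr ⟨hce, le_rfl⟩
  have I3 : IntervalIntegrable (fun y : ℝ => Fp U d H x0 y0 (b' + y * I)) volume c' e' := by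
    refine ContinuousOn.intervalIntegrable ?_
    rw [uIcc_of_le hce]
    exact cont_ver hFr ⟨hab, le_rfl⟩
  have I4 : IntervalIntegrable (fun y : ℝ => Fp U d H x0 y0 (a' + y * I)) volume c' e' := by
    refine ContinuousOn.intervalIntegrable ?_
    rw [uIcc_of_le hce]
    exact cont_ver hFr ⟨le_rfl, hab⟩
  have J1 : (∫ x : ℝ in a'..b', Fp U d H x0 y0 (x + c' * I)) -
      (∫ x : ℝ in a'..b', Fp U d H x0 y0 (x + e' * I)) =
      - (I * Sl U d H a' b' c' e') := by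
    rw [← intervalIntegral.integral_sub I1 I2]
    have : ∀ x ∈ uIcc a' b', Fp U d H x0 y0 (x + c' * I) - Fp U d H x0 y0 (x + e' * I) =
        - (I * Al U d (fun n i j => H n j i) c' e' x) := by
      intro x hx
      rw [uIcc_of_le hab] at hx
      have := Fp_im hd hd0 hH hCS h0 (q1.le.trans hx.1) (hx.2.trans q6.le) hy0 q3.le hce q8.le
      rw [← this]; ring
    rw [intervalIntegral.integral_congr this, intervalIntegral.integral_neg,
      intervalIntegral.integral_const_mul]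
    have hsw := Sl_eq_integral hd hd0 (swapH hH) (norm_inv_one norm_I)
      (CSr.swap norm_I hCS) (x1 := c') (x2 := e') (y1 := a') (y2 := b')
      (hy0.trans q3) hce q8.le (h0.trans q1) q6.le hab
    rw [← hsw]
    rw [Sl_swap (U := U) (d := d) (H := H) a' b' c' e']
  have J2 : (∫ y : ℝ in c'..e', Fp U d H x0 y0 (b' + y * I)) -
      (∫ y : ℝ in c'..e', Fp U d H x0 y0 (a' + y * I)) = Sl U d H a' b' c' e' := by
    rw [← intervalIntegral.integral_sub I3 I4]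
    have : ∀ y ∈ uIcc c' e', Fp U d H x0 y0 (b' + y * I) - Fp U d H x0 y0 (a' + y * I) =
        Al U d H a' b' y := by
      intro y hy
      exact Fp_re hd hd0 hH q1.le hab
    rw [intervalIntegral.integral_congr this]
    exact (Sl_eq_integral hd hd0 hH norm_I hCS (h0.trans q1) hab q6.le (hy0.trans q3) q8.le hce).symm
  unfold per
  have : I • (∫ y : ℝ in c'..e', Fp U d H x0 y0 (b' + y * I)) -
      I • (∫ y : ℝ in c'..e', Fp U d H x0 y0 (a' + y * I)) = I * Sl U d H a' b' c' e' := by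
    rw [← J2, smul_eq_mul, smul_eq_mul]; ring
  calc _ = ((∫ x : ℝ in a'..b', Fp U d H x0 y0 (x + c' * I)) -
      (∫ x : ℝ in a'..b', Fp U d H x0 y0 (x + e' * I))) +
      (I • (∫ y : ℝ in c'..e', Fp U d H x0 y0 (b' + y * I)) -
      I • (∫ y : ℝ in c'..e', Fp U d H x0 y0 (a' + y * I))) := by ring
    _ = 0 := by rw [J1, this]; ring

/-- the weak limit at a point -/
noncomputable def wlim (U : Ultrafilter ι) (d : ι → ℝ) (H : ι → ℤ → ℤ → ℂ) (z : ℂ) : ℂ :=
  limUnder (𝓝[>] (0:ℝ)) fun r => ((r:ℂ))⁻¹ * Al U d H z.re (z.re + r) z.im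

theorem wlim_tendsto (hd : ∀ n, 0 < d n) (hd0 : Tendsto d U (𝓝 0)) (hH : ∀ n i j, ‖H n i j‖ ≤ 1)
    {a b c e : ℝ} (hCS : CSr (U : Filter ι) I d H a b c e)
    {x0 y0 : ℝ} (h0 : a < x0) (hy0 : c < y0) {z : ℂ} (hz : z ∈ Ioo x0 b ×ℂ Ioo y0 e) :
    Tendsto (fun r : ℝ => ((r:ℂ))⁻¹ * Al U d H z.re (z.re + r) z.im) (𝓝[>] (0:ℝ))
      (𝓝 (deriv (Fp U d H x0 y0) z)) := by
  have hopen : IsOpen (Ioo x0 b ×ℂ Ioo y0 e) := isOpen_Ioo.reProdIm isOpen_Ioo
  have hD := (Fp_holo hd hd0 hH hCS h0 hy0).differentiableAt (hopen.mem_nhds hz)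
  have hder := hD.hasDerivAt
  have h1 : HasDerivAt (fun r : ℝ => Fp U d H x0 y0 (z + (r:ℂ))) (deriv (Fp U d H x0 y0) z) 0 := by
    have h2 : HasDerivAt (fun r : ℝ => z + (r:ℂ)) 1 0 := by
      simpa using (ofRealCLM.hasDerivAt (x := (0:ℝ))).const_add z
    have h3 : HasDerivAt (Fp U d H x0 y0) (deriv (Fp U d H x0 y0) z) (z + ((0:ℝ):ℂ)) := by
      simpa using hder
    have h5 := h3.comp_of_eq (0:ℝ) h2 rfl
    rw [mul_one] at h5
    exact h5
  have h4 := h1.hasDerivWithinAt (s := Ioi (0:ℝ))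
  rw [hasDerivWithinAt_iff_tendsto_slope' (by simp)] at h4
  refine h4.congr' ?_
  filter_upwards [self_mem_nhdsWithin] with r hr
  rw [slope_def_module]
  rw [mem_reProdIm] at hz
  have hr' : (0:ℝ) < r := hr
  have e1 := Fp_re (U := U) (d := d) (H := H) hd hd0 hH (x0 := x0) (x1 := z.re) (x2 := z.re + r)
    (y0 := y0) (y := z.im) hz.1.1.le (by linarith)
  have e2 : ((z.re + r : ℝ) : ℂ) + (z.im : ℂ) * I = z + (r:ℂ) := by
    push_cast
    rw [add_right_comm, re_add_im]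
  have e3 : (z.re : ℂ) + (z.im : ℂ) * I = z := re_add_im z
  rw [e2, e3] at e1
  simp only [sub_zero, ofReal_zero, add_zero]
  rw [e1]
  simp

theorem wlim_eq (hd : ∀ n, 0 < d n) (hd0 : Tendsto d U (𝓝 0)) (hH : ∀ n i j, ‖H n i j‖ ≤ 1)
    {a b c e : ℝ} (hCS : CSr (U : Filter ι) I d H a b c e)
    {x0 y0 : ℝ} (h0 : a < x0) (hy0 : c < y0) {z : ℂ} (hz : z ∈ Ioo x0 b ×ℂ Ioo y0 e) :
    wlim U d H z = deriv (Fp U d H x0 y0) z :=
  (wlim_tendsto hd hd0 hH hCS h0 hy0 hz).limUnder_eq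

/-- every point of an open set is the centre of a closed square in it -/
theorem exists_square {V : Set ℂ} (hV : IsOpen V) {z : ℂ} (hz : z ∈ V) :
    ∃ r > 0, Rc (z.re - r) (z.re + r) (z.im - r) (z.im + r) ⊆ V := by
  obtain ⟨δ, hδ, hb⟩ := Metric.isOpen_iff.mp hV z hz
  refine ⟨δ / 4, by positivity, fun w hw => hb ?_⟩
  rw [mem_Rc] at hw
  rw [mem_ball, dist_eq_norm]
  have h1 := norm_le_abs_re_add_abs_im (w - z)
  have h2 : |(w - z).re| ≤ δ / 4 := by
    rw [sub_re, abs_le]; constructor <;> linarith [hw.1.1, hw.1.2]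
  have h3 : |(w - z).im| ≤ δ / 4 := by
    rw [sub_im, abs_le]; constructor <;> linarith [hw.2.1, hw.2.2]
  linarith

/-- **Weak limits are holomorphic.** -/
theorem wlim_holo (hd : ∀ n, 0 < d n) (hd0 : Tendsto d U (𝓝 0)) (hH : ∀ n i j, ‖H n i j‖ ≤ 1)
    {V : Set ℂ} (hV : IsOpen V)
    (hCS : ∀ a b c e : ℝ, a ≤ b → c ≤ e → Rc a b c e ⊆ V → CSr (U : Filter ι) I d H a b c e) :
    DifferentiableOn ℂ (wlim U d H) V := by
  intro z hz
  obtain ⟨r, hr, hR⟩ := exists_square hV hz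
  have hCS' := hCS _ _ _ _ (by linarith) (by linarith) hR
  have h0 : z.re - r < z.re - r / 2 := by linarith
  have h1 : z.im - r < z.im - r / 2 := by linarith
  have hopen : IsOpen (Ioo (z.re - r / 2) (z.re + r) ×ℂ Ioo (z.im - r / 2) (z.im + r)) :=
    isOpen_Ioo.reProdIm isOpen_Ioo
  have hzm : z ∈ Ioo (z.re - r / 2) (z.re + r) ×ℂ Ioo (z.im - r / 2) (z.im + r) := by
    rw [mem_reProdIm]
    exact ⟨⟨by linarith, by linarith⟩, by linarith, by linarith⟩
  have hF := Fp_holo hd hd0 hH hCS' h0 h1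
  have hdF : DifferentiableOn ℂ (deriv (Fp U d H (z.re - r / 2) (z.im - r / 2)))
      (Ioo (z.re - r / 2) (z.re + r) ×ℂ Ioo (z.im - r / 2) (z.im + r)) := hF.deriv hopen
  have h2 : DifferentiableAt ℂ (deriv (Fp U d H (z.re - r / 2) (z.im - r / 2))) z :=
    hdF.differentiableAt (hopen.mem_nhds hzm)
  have h3 : wlim U d H =ᶠ[𝓝 z] deriv (Fp U d H (z.re - r / 2) (z.im - r / 2)) := by
    filter_upwards [hopen.mem_nhds hzm] with w hw
    exact wlim_eq hd hd0 hH hCS' h0 h1 hw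
  exact (h3.differentiableAt_iff.mpr h2).differentiableWithinAt

/-- convex averages -/
theorem avg_mem {K : Set ℂ} (hK : Convex ℝ K) {f : ℤ → ℂ} {i1 i2 : ℤ} (h : i1 < i2)
    (hf : ∀ i ∈ Finset.Ico i1 i2, f i ∈ K) :
    (((i2 - i1 : ℝ) : ℂ))⁻¹ * ∑ i ∈ Finset.Ico i1 i2, f i ∈ K := by
  have hcard : ((Finset.Ico i1 i2).card : ℝ) = (i2 : ℝ) - i1 := by
    rw [Int.card_Ico]
    have : ((i2 - i1).toNat : ℤ) = i2 - i1 := Int.toNat_of_nonneg (by omega)
    have h2 : (((i2 - i1).toNat : ℤ) : ℝ) = ((i2 - i1 : ℤ) : ℝ) := by rw [this]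
    push_cast at h2
    exact_mod_cast h2
  have hpos : (0:ℝ) < (i2:ℝ) - i1 := by
    have : (i1:ℝ) < i2 := by exact_mod_cast h
    linarith
  have hw : ∑ _i ∈ Finset.Ico i1 i2, ((i2:ℝ) - i1)⁻¹ = 1 := by
    rw [Finset.sum_const, nsmul_eq_mul, hcard]
    field_simp
  have := hK.sum_mem (t := Finset.Ico i1 i2) (w := fun _ => ((i2:ℝ) - i1)⁻¹) (z := f)
    (fun i _ => by positivity) hw hf
  have e : (((i2 - i1 : ℝ) : ℂ))⁻¹ * ∑ i ∈ Finset.Ico i1 i2, f i =
      ∑ i ∈ Finset.Ico i1 i2, ((i2:ℝ) - i1)⁻¹ • f i := by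
    rw [Finset.mul_sum]
    refine Finset.sum_congr rfl fun i _ => ?_
    rw [Complex.real_smul]
    push_cast
    ring
  rw [e]
  exact this

/-- **Closed convex constraints pass to the weak limit.** -/
theorem wlim_mem (hd : ∀ n, 0 < d n) (hd0 : Tendsto d U (𝓝 0)) (hH : ∀ n i j, ‖H n i j‖ ≤ 1)
    {V : Set ℂ} (hV : IsOpen V)
    (hCS : ∀ a b c e : ℝ, a ≤ b → c ≤ e → Rc a b c e ⊆ V → CSr (U : Filter ι) I d H a b c e)
    {W K : Set ℂ} (hW : IsOpen W) (hWV : W ⊆ V) (hK : Convex ℝ K) (hKc : IsClosed K)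
    (hHK : ∀ᶠ n in (U : Filter ι), ∀ i j : ℤ, ((d n * i : ℝ) : ℂ) + ((d n * j : ℝ) : ℂ) * I ∈ W →
      H n i j ∈ K) {z : ℂ} (hz : z ∈ W) : wlim U d H z ∈ K := by
  obtain ⟨r, hr, hR⟩ := exists_square hW hz
  have hCS' := hCS _ _ _ _ (by linarith) (by linarith) (hR.trans hWV)
  have h0 : z.re - r < z.re - r / 2 := by linarith
  have h1 : z.im - r < z.im - r / 2 := by linarith
  have hzm : z ∈ Ioo (z.re - r / 2) (z.re + r) ×ℂ Ioo (z.im - r / 2) (z.im + r) := by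
    rw [mem_reProdIm]
    exact ⟨⟨by linarith, by linarith⟩, by linarith, by linarith⟩
  have t := wlim_tendsto hd hd0 hH hCS' h0 h1 hzm
  rw [← wlim_eq hd hd0 hH hCS' h0 h1 hzm] at t
  refine hKc.mem_of_tendsto t ?_
  have hmem : Ioo (0:ℝ) (r / 2) ∈ 𝓝[>] (0:ℝ) := Ioo_mem_nhdsGT (by linarith)
  filter_upwards [hmem] with ρ hρ
  -- limit of averages
  have hA := Al_tendsto hd hd0 hH (x1 := z.re) (x2 := z.re + ρ) (by linarith [hρ.1]) z.im
  have hA2 := hA.const_mul ((ρ:ℂ))⁻¹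
  -- compare with exact averages
  have hlen : Tendsto (fun n => (d n : ℝ) * ((fl (d n) (z.re + ρ) : ℝ) - fl (d n) z.re)) U (𝓝 ρ) := by
    have l1 : Tendsto (fun n => ρ - d n) U (𝓝 ρ) := by simpa using hd0.const_sub ρ
    have l2 : Tendsto (fun n => ρ + d n) U (𝓝 ρ) := by simpa using hd0.const_add ρ
    refine tendsto_of_tendsto_of_tendsto_of_le_of_le l1 l2 (fun n => ?_) (fun n => ?_)
    · have := le_fl_sub (x := z.re) (y := z.re + ρ) (hd n)
      simp only [add_sub_cancel_left] at this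
      exact this
    · have := fl_sub_le (x := z.re) (y := z.re + ρ) (hd n)
      simp only [add_sub_cancel_left] at this
      exact this
  have hρ0 : (ρ:ℂ) ≠ 0 := by
    have : ρ ≠ 0 := hρ.1.ne'
    exact_mod_cast this
  have hlenC : Tendsto (fun n => ((d n : ℝ) : ℂ) * (((fl (d n) (z.re + ρ) : ℝ) - fl (d n) z.re : ℝ) : ℂ))
      U (𝓝 (ρ:ℂ)) := by
    have := (Complex.continuous_ofReal.tendsto ρ).comp hlen
    refine this.congr fun n => ?_
    simp
  have hquot : Tendsto (fun n => (((d n : ℝ) : ℂ) *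
      (((fl (d n) (z.re + ρ) : ℝ) - fl (d n) z.re : ℝ) : ℂ))⁻¹ * An (d n) (H n) z.re (z.re + ρ) z.im)
      U (𝓝 ((ρ:ℂ)⁻¹ * Al U d H z.re (z.re + ρ) z.im)) := (hlenC.inv₀ hρ0).mul hA
  refine hKc.mem_of_tendsto hquot ?_
  have s1 : ∀ᶠ n in (U : Filter ι), d n < r / 2 := hd0.eventually (gt_mem_nhds (by linarith))
  have s2 : ∀ᶠ n in (U : Filter ι), d n < ρ := hd0.eventually (gt_mem_nhds hρ.1)
  filter_upwards [s1, s2, hHK] with n n1 n2 n3
  have hdn := hd n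
  have hlt : fl (d n) z.re < fl (d n) (z.re + ρ) := by
    have := le_fl_sub (x := z.re) (y := z.re + ρ) hdn
    simp only [add_sub_cancel_left] at this
    have h5 : 0 < d n * ((fl (d n) (z.re + ρ) : ℝ) - fl (d n) z.re) := by linarith
    have h6 : (0:ℝ) < (fl (d n) (z.re + ρ) : ℝ) - fl (d n) z.re :=
      (mul_pos_iff_of_pos_left hdn).mp h5
    have : (fl (d n) z.re : ℝ) < fl (d n) (z.re + ρ) := by linarith
    exact_mod_cast this
  have hav := avg_mem hK hlt (f := fun i => H n i (fl (d n) z.im)) ?_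
  · have hd0' : ((d n : ℝ) : ℂ) ≠ 0 := by exact_mod_cast hdn.ne'
    have e : (((d n : ℝ) : ℂ) * (((fl (d n) (z.re + ρ) : ℝ) - fl (d n) z.re : ℝ) : ℂ))⁻¹ *
        An (d n) (H n) z.re (z.re + ρ) z.im =
        ((((fl (d n) (z.re + ρ) : ℝ) - fl (d n) z.re : ℝ) : ℂ))⁻¹ *
          ∑ i ∈ Finset.Ico (fl (d n) z.re) (fl (d n) (z.re + ρ)), H n i (fl (d n) z.im) := by
      unfold An row
      rw [mul_inv]
      field_simp
    rw [e]
    exact hav
  · intro i hi
    rw [Finset.mem_Ico] at hi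
    refine n3 i _ (hR ?_)
    rw [mem_Rc]
    simp only [add_re, ofReal_re, mul_re, I_re, mul_zero, ofReal_im, I_im, mul_one, sub_self,
      add_zero, add_im, mul_im, zero_add]
    have g1 := lt_fl (x := z.re) hdn
    have g2 := fl_le (x := z.re + ρ) hdn
    have g3 := lt_fl (x := z.im) hdn
    have g4 := fl_le (x := z.im) hdn
    have g5 : d n * (fl (d n) z.re : ℝ) ≤ d n * (i:ℝ) :=
      mul_le_mul_of_nonneg_left (by exact_mod_cast hi.1) hdn.le
    have g6 : d n * (i:ℝ) ≤ d n * (fl (d n) (z.re + ρ) : ℝ) :=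
      mul_le_mul_of_nonneg_left (by exact_mod_cast hi.2.le) hdn.le
    have g7 := hρ.2
    refine ⟨⟨by linarith, by linarith⟩, by linarith, by linarith⟩

end Crest.Agent.R158.Wl290
end

-- ▼ part R158/Wk2_290
section

/-!
R158 (helper290): from lattice functions on one domain to an (anti)holomorphic function.
-/

set_option autoImplicit false
open Complex Metric Set Topology Filter

namespace Crest.Agent.R158.Wl290

open Crest.Agent.R158.Cd83 Crest.Agent.R158.Pv470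

theorem cj_cj (an : Bool) (w : ℂ) : cj an (cj an w) = w := by
  cases an <;> simp [cj]

theorem norm_cj (an : Bool) (w : ℂ) : ‖cj an w‖ = ‖w‖ := by
  cases an <;> simp [cj]


theorem cj_add (an : Bool) (w z : ℂ) : cj an (w + z) = cj an w + cj an z := by
  cases an <;> simp [cj]

theorem cj_smul (an : Bool) (r : ℝ) (w : ℂ) : cj an (r * w) = r * cj an w := by
  cases an <;> simp [cj]

theorem cj_cont (an : Bool) : Continuous (cj an) := by
  cases an
  · exact continuous_id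
  · exact continuous_conj

theorem cj_sub (an : Bool) (w z : ℂ) : cj an (w - z) = cj an w - cj an z := by
  cases an <;> simp [cj]

/-- the sign: `I` for holomorphic, `-I` for antiholomorphic -/
noncomputable def sg (an : Bool) : ℂ := bif an then -I else I

theorem cj_sg (an : Bool) (w : ℂ) : cj an (sg an * w) = I * cj an w := by
  cases an <;> simp [cj, sg]

theorem cj_sum (an : Bool) {α : Type*} (s : Finset α) (f : α → ℂ) :
    cj an (∑ i ∈ s, f i) = ∑ i ∈ s, cj an (f i) := by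
  cases an <;> simp [cj]

theorem csum_cj (an : Bool) (H : ℤ → ℤ → ℂ) (i1 i2 j1 j2 : ℤ) :
    csum I (fun i j => ((1/5 : ℝ) : ℂ) * cj an (H i j)) i1 i2 j1 j2 =
      ((1/5 : ℝ) : ℂ) * cj an (csum (sg an) H i1 i2 j1 j2) := by
  unfold csum
  rw [cj_sub, cj_sg, cj_sum, cj_sum]
  simp only [cj_sub, ← mul_sub, ← Finset.mul_sum]
  ring

theorem csum_congr {s : ℂ} {H H' : ℤ → ℤ → ℂ} {i1 i2 j1 j2 : ℤ} (hi : i1 ≤ i2) (hj : j1 ≤ j2)
    (h : ∀ i j, i1 ≤ i → i ≤ i2 → j1 ≤ j → j ≤ j2 → H' i j = H i j) :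
    csum s H' i1 i2 j1 j2 = csum s H i1 i2 j1 j2 := by
  unfold csum
  congr 1
  · refine Finset.sum_congr rfl fun i hi' => ?_
    rw [Finset.mem_Ico] at hi'
    rw [h i j2 hi'.1 hi'.2.le hj le_rfl, h i j1 hi'.1 hi'.2.le le_rfl hj]
  · congr 1
    refine Finset.sum_congr rfl fun j hj' => ?_
    rw [Finset.mem_Ico] at hj'
    rw [h i2 j hi le_rfl hj'.1 hj'.2.le, h i1 j le_rfl hi hj'.1 hj'.2.le]

/-- position of a lattice point -/
noncomputable def pos (c a : ℂ) (d : ℝ) (i j : ℤ) : ℂ :=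
  c + a * (((d * i : ℝ) : ℂ) + ((d * j : ℝ) : ℂ) * I)

/-- **Lattice functions to an (anti)holomorphic function on one domain.** -/
theorem disc_lim {Ω : Set ℂ} (hΩ : IsOpen Ω) (U : Ultrafilter ℕ) {d : ℕ → ℝ}
    (hd : ∀ᶠ n in (U : Filter ℕ), 0 < d n) (hd0 : Tendsto d U (𝓝 0)) {c a : ℂ} (ha : a ≠ 0)
    {H : ℕ → ℤ → ℤ → ℂ}
    (hT : ∀ᶠ n in (U : Filter ℕ), ∀ i j : ℤ, pos c a (d n) i j ∈ Ω → ‖H n i j‖ ≤ 5) (an : Bool)
    (hCS : ∀ x1 x2 y1 y2 : ℝ, x1 ≤ x2 → y1 ≤ y2 →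
      (∀ x ∈ Icc x1 x2, ∀ y ∈ Icc y1 y2, c + a * ((x : ℂ) + (y : ℂ) * I) ∈ Ω) →
      CSr (U : Filter ℕ) (sg an) d H x1 x2 y1 y2) :
    ∃ h : ℂ → ℂ, HA an h Ω ∧ ∀ W K : Set ℂ, IsOpen W → W ⊆ Ω → Convex ℝ K → IsClosed K →
      (∀ᶠ n in (U : Filter ℕ), ∀ i j : ℤ, pos c a (d n) i j ∈ W → H n i j ∈ K) →
      ∀ z ∈ W, h z ∈ K := by
  classical
  set d' : ℕ → ℝ := fun n => if 0 < d n then d n else 1 with hd'
  have hd'pos : ∀ n, 0 < d' n := by
    intro n
    simp only [hd']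
    split_ifs with h
    · exact h
    · exact one_pos
  have hdd : ∀ᶠ n in (U : Filter ℕ), d' n = d n := by
    filter_upwards [hd] with n hn
    simp only [hd', if_pos hn]
  have hd'0 : Tendsto d' U (𝓝 0) := hd0.congr' (hdd.mono fun n hn => hn.symm)
  set H' : ℕ → ℤ → ℤ → ℂ := fun n i j =>
    if pos c a (d' n) i j ∈ Ω ∧ ‖H n i j‖ ≤ 5 then ((1/5 : ℝ) : ℂ) * cj an (H n i j) else 0 with hH'
  have hH'1 : ∀ n i j, ‖H' n i j‖ ≤ 1 := by
    intro n i j
    simp only [hH']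
    split_ifs with h
    · rw [norm_mul, norm_cj, Complex.norm_real]
      have := h.2
      norm_num
      linarith
    · simp
  set f : ℂ → ℂ := fun w => c + a * w with hf
  have hfc : Continuous f := by fun_prop
  set V : Set ℂ := f ⁻¹' Ω with hV
  have hVo : IsOpen V := hΩ.preimage hfc
  have hfpos : ∀ (e : ℝ) (i j : ℤ), f (((e * i : ℝ) : ℂ) + ((e * j : ℝ) : ℂ) * I) = pos c a e i j :=
    fun e i j => rfl
  have hCS' : ∀ x1 x2 y1 y2 : ℝ, x1 ≤ x2 → y1 ≤ y2 → Rc x1 x2 y1 y2 ⊆ V →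
      CSr (U : Filter ℕ) I d' H' x1 x2 y1 y2 := by
    intro x1 x2 y1 y2 hx hy hR ε hε
    have hin : ∀ x ∈ Icc x1 x2, ∀ y ∈ Icc y1 y2, c + a * ((x : ℂ) + (y : ℂ) * I) ∈ Ω := by
      intro x hx y hy
      refine hR (?_ : ((x : ℂ) + (y : ℂ) * I) ∈ Rc x1 x2 y1 y2)
      rw [mem_Rc]
      simp [hx.1, hx.2, hy.1, hy.2]
    filter_upwards [hCS x1 x2 y1 y2 hx hy hin ε hε, hdd, hT] with n h1 h2 h3 i1 i2 j1 j2 hi hj g1
      g2 g3 g4
    rw [h2] at g1 g2 g3 g4 ⊢
    have hdn : 0 < d n := by rw [← h2]; exact hd'pos n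
    have key := h1 i1 i2 j1 j2 hi hj g1 g2 g3 g4
    have e1 : csum I (H' n) i1 i2 j1 j2 =
        csum I (fun i j => ((1/5 : ℝ) : ℂ) * cj an (H n i j)) i1 i2 j1 j2 := by
      refine csum_congr hi hj fun i j k1 k2 k3 k4 => ?_
      have hmem : pos c a (d n) i j ∈ Ω := by
        have a1 : d n * (i1 : ℝ) ≤ d n * (i : ℝ) :=
          mul_le_mul_of_nonneg_left (by exact_mod_cast k1) hdn.le
        have a2 : d n * (i : ℝ) ≤ d n * (i2 : ℝ) :=
          mul_le_mul_of_nonneg_left (by exact_mod_cast k2) hdn.le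
        have a3 : d n * (j1 : ℝ) ≤ d n * (j : ℝ) :=
          mul_le_mul_of_nonneg_left (by exact_mod_cast k3) hdn.le
        have a4 : d n * (j : ℝ) ≤ d n * (j2 : ℝ) :=
          mul_le_mul_of_nonneg_left (by exact_mod_cast k4) hdn.le
        exact hin (d n * i) ⟨by linarith, by linarith⟩ (d n * j) ⟨by linarith, by linarith⟩
      simp only [hH', h2]
      rw [if_pos ⟨hmem, h3 i j hmem⟩]
    rw [e1, csum_cj, norm_mul, norm_cj, Complex.norm_real]
    have h5 : ‖(1/5 : ℝ)‖ = 1/5 := by norm_num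
    rw [h5]
    have h6 : 0 ≤ d n * ‖csum (sg an) (H n) i1 i2 j1 j2‖ := by positivity
    nlinarith
  set g : ℂ → ℂ := wlim U d' H' with hg
  have hgh : DifferentiableOn ℂ g V := wlim_holo hd'pos hd'0 hH'1 hVo hCS'
  refine ⟨fun z => ((5 : ℝ) : ℂ) * cj an (g ((z - c) / a)), ?_, ?_⟩
  · unfold HA
    have e : (fun z => cj an (((5 : ℝ) : ℂ) * cj an (g ((z - c) / a)))) =
        fun z => ((5 : ℝ) : ℂ) * g ((z - c) / a) := by
      funext z
      rw [cj_smul, cj_cj]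
    rw [e]
    refine DifferentiableOn.const_mul ?_ _
    refine hgh.comp (by fun_prop) ?_
    intro z hz
    simp only [hV, mem_preimage, hf]
    rw [mul_div_cancel₀ _ ha, add_sub_cancel]
    exact hz
  · intro W K hW hWΩ hK hKc hHK z hz
    set K' : Set ℂ := {w | ((5 : ℝ) : ℂ) * cj an w ∈ K} with hK'
    have hc5 : Continuous fun w : ℂ => ((5 : ℝ) : ℂ) * cj an w := continuous_const.mul (cj_cont an)
    have hK'c : IsClosed K' := hKc.preimage hc5
    have hK'v : Convex ℝ K' := by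
      intro x hx y hy p q hp hq hpq
      simp only [hK', mem_ofPred_eq] at hx hy ⊢
      have e : ((5 : ℝ) : ℂ) * cj an (p • x + q • y) =
          p • (((5 : ℝ) : ℂ) * cj an x) + q • (((5 : ℝ) : ℂ) * cj an y) := by
        simp only [real_smul]
        rw [cj_add, cj_smul, cj_smul]; ring
      rw [e]
      exact hK hx hy hp hq hpq
    have hW'o : IsOpen (f ⁻¹' W) := hW.preimage hfc
    have hW'V : f ⁻¹' W ⊆ V := preimage_mono hWΩ
    have hz' : (z - c) / a ∈ f ⁻¹' W := by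
      simp only [mem_preimage, hf]
      rw [mul_div_cancel₀ _ ha, add_sub_cancel]
      exact hz
    refine wlim_mem hd'pos hd'0 hH'1 hVo hCS' hW'o hW'V hK'v hK'c ?_ hz'
    filter_upwards [hHK, hdd, hT] with n h1 h2 h3 i j hij
    have hij' : pos c a (d n) i j ∈ W := by rw [← h2]; exact hij
    have h4 := h1 i j hij'
    have h5 := h3 i j (hWΩ hij')
    simp only [hK', mem_ofPred_eq, hH', h2]
    rw [if_pos ⟨hWΩ hij', h5⟩, cj_smul, cj_cj, ← mul_assoc]
    have : ((5 : ℝ) : ℂ) * ((1/5 : ℝ) : ℂ) = 1 := by norm_num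
    rw [this, one_mul]
    exact h4

end Crest.Agent.R158.Wl290
end

-- ▼ part R158/Un2_434
section

/-!
R158, S0237 endgame, identification in LIMIT FORM on the disc.

* `disc_match` : a bounded holomorphic function on the disc whose values approach the three sides
  of the triangle on the three OPEN arcs (right order) is `Cd83.tri`.
* `disc_mis` : the wrong cyclic order is impossible.
No continuity up to the circle and nothing at the marks is assumed.
-/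

set_option autoImplicit false

namespace Crest.Agent.R158.Un434

open Complex Set Filter Topology MeasureTheory
open Crest.ProbabilityR.Percolation
open Crest.Agent.R158.Cd83



theorem exists_angle (α : ℝ) {b : ℂ} (hb : ‖b‖ = 1) :
    ∃ s ∈ Ico α (α + 2 * Real.pi), exp ((s : ℂ) * I) = b := by
  refine ⟨toIcoMod Real.two_pi_pos α (arg b), toIcoMod_mem_Ico _ _ _, ?_⟩
  have h1 : exp ((arg b : ℂ) * I) = b := by
    have := Complex.norm_mul_exp_arg_mul_I b
    rwa [hb, Complex.ofReal_one, one_mul] at this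
  rw [toIcoMod, zsmul_eq_mul]
  have h2 : (((arg b - (toIcoDiv Real.two_pi_pos α (arg b) : ℤ) * (2 * Real.pi) : ℝ) : ℂ) * I) =
      (arg b : ℂ) * I - (toIcoDiv Real.two_pi_pos α (arg b) : ℤ) * (2 * Real.pi * I) := by
    push_cast; ring
  rw [h2, Complex.exp_sub, Complex.exp_int_mul_two_pi_mul_I, div_one, h1]

/-- boundary hypothesis: `f` approaches the line through `A` in direction `D` at `exp (s I)`. -/
def Apr (f : ℂ → ℂ) (A D : ℂ) (s : ℝ) : Prop :=
  Tendsto (fun z => ((starRingEnd ℂ) D * (f z - A)).im)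
    (𝓝[Metric.ball 0 1] (exp ((s : ℂ) * I))) (𝓝 0)

theorem om_sub_one_norm_pos : 0 < ‖om - 1‖ := norm_pos_iff.mpr om_sub_ne

/-- matched order: the function is the triangle map. -/
theorem disc_match {α β γ : ℝ} (h : Marks α β γ) {f : ℂ → ℂ}
    (hfd : DifferentiableOn ℂ f (Metric.ball 0 1)) {M : ℝ}
    (hM : ∀ z ∈ Metric.ball (0 : ℂ) 1, ‖f z‖ ≤ M)
    (h1 : ∀ s ∈ Ioo α β, Apr f 1 (om - 1) s)
    (h2 : ∀ s ∈ Ioo β γ, Apr f om (om ^ 2 - om) s)
    (h3 : ∀ s ∈ Ioo γ (α + 2 * Real.pi), Apr f (om ^ 2) (1 - om ^ 2) s) :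
    ∀ z ∈ Metric.ball (0 : ℂ) 1, f z = tri α β γ z := by
  classical
  obtain ⟨tc, td, t1, t2, t3, -⟩ := tri_main h
  obtain ⟨g1, g2, g3⟩ := h
  have h : Marks α β γ := ⟨g1, g2, g3⟩
  have hpi := Real.pi_pos
  obtain ⟨M', hM'⟩ : ∃ M' : ℝ, ∀ w ∈ Metric.closedBall (0:ℂ) 1, ‖tri α β γ w‖ ≤ M' :=
    (isCompact_closedBall 0 1).exists_bound_of_continuousOn tc
  have hom3 := om_cube
  -- unit direction
  set N : ℝ := ‖om - 1‖ with hN
  have hNpos : 0 < N := om_sub_one_norm_pos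
  set d : ℂ := (om - 1) / (N : ℂ) with hd
  have hdn : ‖d‖ = 1 := by
    rw [hd, norm_div, Complex.norm_real, Real.norm_of_nonneg hNpos.le, ← hN, div_self hNpos.ne']
  have homn : ‖om‖ = 1 := by
    unfold om; exact Complex.norm_exp_ofReal_mul_I _
  have hdd : (starRingEnd ℂ) d * d = 1 := by
    rw [mul_comm, Complex.mul_conj, Complex.normSq_eq_norm_sq, hdn]; simp
  have hd0 : d ≠ 0 := by
    intro h0; rw [h0, norm_zero] at hdn; exact zero_ne_one hdn
  -- the boundary behaviour of the difference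
  have tri_side : ∀ (s : ℝ) (A D : ℂ) (y : ℝ), tri α β γ (exp ((s : ℂ) * I)) = A + D * (y : ℂ) →
      Tendsto (fun z => ((starRingEnd ℂ) D * (tri α β γ z - A)).im)
        (𝓝[Metric.ball 0 1] (exp ((s : ℂ) * I))) (𝓝 0) := by
    intro s A D y hy
    have hc : ContinuousWithinAt (tri α β γ) (Metric.closedBall 0 1) (exp ((s : ℂ) * I)) :=
      tc _ (by simp [Complex.norm_exp_ofReal_mul_I])
    have hc2 : Tendsto (tri α β γ) (𝓝[Metric.ball 0 1] (exp ((s : ℂ) * I)))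
        (𝓝 (tri α β γ (exp ((s : ℂ) * I)))) :=
      hc.tendsto.mono_left (nhdsWithin_mono _ Metric.ball_subset_closedBall)
    have hc3 := (Complex.continuous_im.tendsto _).comp ((hc2.sub_const A).const_mul ((starRingEnd ℂ) D))
    have e : ((starRingEnd ℂ) D * (tri α β γ (exp ((s : ℂ) * I)) - A)).im = 0 := by
      rw [hy]
      have : (starRingEnd ℂ) D * (A + D * (y : ℂ) - A) = ((Complex.normSq D * y : ℝ) : ℂ) := by
        have := Complex.mul_conj D
        push_cast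
        rw [← this]; ring
      rw [this, Complex.ofReal_im]
    rw [e] at hc3
    exact hc3
  -- scaling of a direction
  have scal : ∀ (s : ℝ) (A : ℂ) (k : ℂ) (D : ℂ), D = (N : ℂ) * (k * d) → Apr f A D s →
      (∃ y : ℝ, tri α β γ (exp ((s : ℂ) * I)) = A + D * (y : ℂ)) →
      Tendsto (fun z => ((starRingEnd ℂ) (k * d) * (f z - tri α β γ z)).im)
        (𝓝[Metric.ball 0 1] (exp ((s : ℂ) * I))) (𝓝 0) := by
    intro s A k D hD ha ⟨y, hy⟩
    have l1 := (ha.sub (tri_side s A D y hy)).const_mul (1 / N)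
    rw [sub_zero, mul_zero] at l1
    refine l1.congr fun z => ?_
    have e : (starRingEnd ℂ) D * (f z - A) - (starRingEnd ℂ) D * (tri α β γ z - A) =
        (N : ℂ) * ((starRingEnd ℂ) (k * d) * (f z - tri α β γ z)) := by
      rw [hD]; simp only [map_mul, Complex.conj_ofReal]; ring
    have e2 : ((starRingEnd ℂ) D * (f z - A)).im - ((starRingEnd ℂ) D * (tri α β γ z - A)).im =
        N * ((starRingEnd ℂ) (k * d) * (f z - tri α β γ z)).im := by
      rw [← Complex.sub_im, e, Complex.im_ofReal_mul]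
    rw [e2]; field_simp
  have hNd : om - 1 = (N : ℂ) * (1 * d) := by
    rw [hd, one_mul, mul_div_cancel₀]; exact_mod_cast hNpos.ne'
  have hNd2 : om ^ 2 - om = (N : ℂ) * (om * d) := by
    have : om ^ 2 - om = om * (om - 1) := by ring
    rw [this, hNd]; ring
  have hNd3 : 1 - om ^ 2 = (N : ℂ) * (om ^ 2 * d) := by
    have : 1 - om ^ 2 = om ^ 2 * (om - 1) := by
      have : om ^ 2 * (om - 1) = om ^ 3 - om ^ 2 := by ring
      rw [this, hom3]
    rw [this, hNd]; ring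
  have A1 : ∀ s ∈ Ioo α β, Tendsto (fun z => ((starRingEnd ℂ) (1 * d) * (f z - tri α β γ z)).im)
      (𝓝[Metric.ball 0 1] (exp ((s : ℂ) * I))) (𝓝 0) := fun s hs =>
    scal s 1 1 _ hNd (h1 s hs) ⟨_, t1 s ⟨hs.1.le, hs.2.le⟩⟩
  have A2 : ∀ s ∈ Ioo β γ, Tendsto (fun z => ((starRingEnd ℂ) (om * d) * (f z - tri α β γ z)).im)
      (𝓝[Metric.ball 0 1] (exp ((s : ℂ) * I))) (𝓝 0) := fun s hs =>
    scal s om om _ hNd2 (h2 s hs) (t2 s ⟨hs.1.le, hs.2.le⟩)
  have A3 : ∀ s ∈ Ioo γ (α + 2 * Real.pi),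
      Tendsto (fun z => ((starRingEnd ℂ) (om ^ 2 * d) * (f z - tri α β γ z)).im)
      (𝓝[Metric.ball 0 1] (exp ((s : ℂ) * I))) (𝓝 0) := fun s hs =>
    scal s (om ^ 2) (om ^ 2) _ hNd3 (h3 s hs) (t3 s ⟨hs.1.le, hs.2.le⟩)
  have hsph : ∀ s : ℝ, exp ((s : ℂ) * I) ∈ closure (Metric.ball (0 : ℂ) 1) := by
    intro s
    rw [closure_ball (0 : ℂ) one_ne_zero]
    simp [Complex.norm_exp_ofReal_mul_I]
  have hc3 : ∀ k : ℂ, k ^ 3 = 1 → (((starRingEnd ℂ) d) ^ 3 * (k * d) ^ 3).im = 0 := by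
    intro k hk
    have : ((starRingEnd ℂ) d) ^ 3 * (k * d) ^ 3 = ((starRingEnd ℂ) d * d) ^ 3 * k ^ 3 := by ring
    rw [this, hdd, hk]; simp
  intro z hz
  have key := tri_zero (U := Metric.ball (0 : ℂ) 1) Metric.isOpen_ball Metric.isBounded_ball
    (convex_ball (0 : ℂ) 1).isPreconnected (g := fun z => f z - tri α β γ z) (hfd.sub td)
    (B := M + M') ?_ ({exp ((α : ℂ) * I), exp ((β : ℂ) * I), exp ((γ : ℂ) * I)} : Finset ℂ) ?_
    (c := ((starRingEnd ℂ) d) ^ 3) (pow_ne_zero 3 ((map_ne_zero _).mpr hd0)) ?_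
    (b1 := exp ((((α + β) / 2 : ℝ) : ℂ) * I)) (b2 := exp ((((β + γ) / 2 : ℝ) : ℂ) * I))
    (d1 := 1 * d) (d2 := om * d) (hsph _) (hsph _) ?_
    (A1 _ ⟨by linarith, by linarith⟩) (A2 _ ⟨by linarith, by linarith⟩) hz
  · exact sub_eq_zero.mp key
  · intro w hw
    exact (norm_sub_le _ _).trans (add_le_add (hM w hw) (hM' w (Metric.ball_subset_closedBall hw)))
  · intro e he
    have hn : ∀ s : ℝ, exp ((s : ℂ) * I) ∉ Metric.ball (0 : ℂ) 1 := by
      intro s; simp [Complex.norm_exp_ofReal_mul_I]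
    simp only [Finset.mem_insert, Finset.mem_singleton] at he
    rcases he with rfl | rfl | rfl <;> exact hn _
  · intro b hb hbE
    rw [frontier_ball (0 : ℂ) one_ne_zero, mem_sphere_zero_iff_norm] at hb
    obtain ⟨s, hs, rfl⟩ := exists_angle α hb
    simp only [Finset.mem_insert, Finset.mem_singleton, not_or] at hbE
    obtain ⟨n1, n2, n3⟩ := hbE
    have hsα : s ≠ α := by rintro rfl; exact n1 rfl
    have hsβ : s ≠ β := by rintro rfl; exact n2 rfl
    have hsγ : s ≠ γ := by rintro rfl; exact n3 rfl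
    rcases lt_or_gt_of_ne hsβ with q | q
    · exact ⟨1 * d, by rw [norm_mul, norm_one, one_mul, hdn], hc3 1 (by norm_num),
        A1 s ⟨lt_of_le_of_ne hs.1 (Ne.symm hsα), q⟩⟩
    · rcases lt_or_gt_of_ne hsγ with q' | q'
      · exact ⟨om * d, by rw [norm_mul, homn, one_mul, hdn], hc3 om hom3, A2 s ⟨q, q'⟩⟩
      · refine ⟨om ^ 2 * d, by rw [norm_mul, norm_pow, homn, one_pow, one_mul, hdn],
          hc3 (om ^ 2) ?_, A3 s ⟨q', hs.2⟩⟩
        have : (om ^ 2) ^ 3 = (om ^ 3) ^ 2 := by ring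
        rw [this, hom3, one_pow]
  · have : (starRingEnd ℂ) (1 * d) * (om * d) = om * ((starRingEnd ℂ) d * d) := by
      rw [one_mul]; ring
    rw [this, hdd, mul_one, om_eq]
    have : (0 : ℝ) < Real.sqrt 3 := Real.sqrt_pos.mpr (by norm_num)
    simp only [ne_eq]
    positivity


theorem arc_R {R x : ℝ → ℝ} {a b : ℝ} (hab : a < b) (hx : ContinuousOn x (Icc a b))
    (hd : ∀ s ∈ Ioo a b, HasDerivAt x (R s) s) (hR : ∀ s ∈ Ioo a b, 0 ≤ R s) :
    IntervalIntegrable R volume a b ∧ ∫ s in a..b, R s = x b - x a := by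
  have hint0 := intervalIntegral.integrableOn_deriv_of_nonneg hx hd hR
  have hint : IntervalIntegrable R volume a b :=
    (intervalIntegrable_iff_integrableOn_Ioc_of_le hab.le).mpr hint0
  exact ⟨hint, intervalIntegral.integral_eq_sub_of_hasDerivAt_of_le hab.le hx hd hint⟩

/-- pointwise limit on one arc. -/
theorem lim_arc {α β γ s M : ℝ} {f : ℂ → ℂ} (hM : ∀ z ∈ Metric.ball (0 : ℂ) 1, ‖f z‖ ≤ M)
    {A B k : ℂ} (hk : A * k = 1) (hB : B * k = om ^ 2 - 1)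
    (hdir : Wf α β γ (exp ((s : ℂ) * I)) * (exp ((s : ℂ) * I) * I) =
      (Rd α β γ s : ℂ) * (k * Dd α β γ))
    (hne : exp ((s : ℂ) * I) ≠ exp ((α : ℂ) * I) ∧ exp ((s : ℂ) * I) ≠ exp ((β : ℂ) * I) ∧
        exp ((s : ℂ) * I) ≠ exp ((γ : ℂ) * I))
    (ha : Apr f A B s) :
    Tendsto (fun r : ℝ => ((f ((r : ℂ) * exp ((s : ℂ) * I)) *
      (Wf α β γ ((r : ℂ) * exp ((s : ℂ) * I)) * (((r : ℂ) * exp ((s : ℂ) * I)) * I))) /
        ((om ^ 2 - 1) * Dd α β γ)).im) (𝓝[<] 1)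
      (𝓝 ((1 / (om ^ 2 - 1)).im * Rd α β γ s)) := by
  have hD := Dd_ne α β γ
  have hom : om ^ 2 - 1 ≠ 0 := by
    intro hh; apply om_sq_sub_im; rw [hh]; simp
  have hk0 : k ≠ 0 := by rintro rfl; simp at hk
  have hB0 : B ≠ 0 := by rintro rfl; rw [zero_mul] at hB; exact hom hB.symm
  obtain ⟨k1, k2, k3⟩ := hne
  have hzc : Tendsto (fun r : ℝ => (r : ℂ) * exp ((s : ℂ) * I)) (𝓝[<] 1)
      (𝓝 (exp ((s : ℂ) * I))) := by
    have : Continuous (fun r : ℝ => (r : ℂ) * exp ((s : ℂ) * I)) := by fun_prop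
    have h0 := this.tendsto 1
    simp only [Complex.ofReal_one, one_mul] at h0
    exact h0.mono_left nhdsWithin_le_nhds
  have hev : ∀ᶠ r : ℝ in 𝓝[<] 1, (r : ℂ) * exp ((s : ℂ) * I) ∈ Metric.ball (0 : ℂ) 1 := by
    have e1 : ∀ᶠ r : ℝ in 𝓝[<] 1, r < 1 := self_mem_nhdsWithin
    have e2 : ∀ᶠ r : ℝ in 𝓝[<] 1, 0 < r :=
      mem_nhdsWithin_of_mem_nhds (Ioi_mem_nhds zero_lt_one)
    filter_upwards [e1, e2] with r a b
    simp only [Metric.mem_ball, dist_zero_right, norm_mul, Complex.norm_exp_ofReal_mul_I,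
      mul_one, Complex.norm_real, Real.norm_of_nonneg b.le]
    exact a
  have hzc' : Tendsto (fun r : ℝ => (r : ℂ) * exp ((s : ℂ) * I)) (𝓝[<] 1)
      (𝓝[Metric.ball 0 1] (exp ((s : ℂ) * I))) := tendsto_nhdsWithin_iff.mpr ⟨hzc, hev⟩
  -- the weight
  have t2 : Tendsto (fun r : ℝ => Wf α β γ ((r : ℂ) * exp ((s : ℂ) * I))) (𝓝[<] 1)
      (𝓝 (Wf α β γ (exp ((s : ℂ) * I)))) :=
    (Wf_diffAt (circle_slit k1) (circle_slit k2) (circle_slit k3)).continuousAt.tendsto.comp hzc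
  have t3 := t2.mul (hzc.mul_const I)
  rw [hdir] at t3
  -- first part: `f * (weight - limit) / K → 0`
  have t4 : Tendsto (fun r : ℝ => (f ((r : ℂ) * exp ((s : ℂ) * I)) *
      (Wf α β γ ((r : ℂ) * exp ((s : ℂ) * I)) * (((r : ℂ) * exp ((s : ℂ) * I)) * I) -
        (Rd α β γ s : ℂ) * (k * Dd α β γ))) / ((om ^ 2 - 1) * Dd α β γ)) (𝓝[<] 1) (𝓝 0) := by
    have t5 : Tendsto (fun r : ℝ => M * ‖Wf α β γ ((r : ℂ) * exp ((s : ℂ) * I)) *
        (((r : ℂ) * exp ((s : ℂ) * I)) * I) - (Rd α β γ s : ℂ) * (k * Dd α β γ)‖) (𝓝[<] 1)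
        (𝓝 0) := by
      have := ((t3.sub_const ((Rd α β γ s : ℂ) * (k * Dd α β γ))).norm).const_mul M
      simpa using this
    have t6 : Tendsto (fun r : ℝ => f ((r : ℂ) * exp ((s : ℂ) * I)) *
      (Wf α β γ ((r : ℂ) * exp ((s : ℂ) * I)) * (((r : ℂ) * exp ((s : ℂ) * I)) * I) -
        (Rd α β γ s : ℂ) * (k * Dd α β γ))) (𝓝[<] 1) (𝓝 0) := by
      refine squeeze_zero_norm' ?_ t5
      filter_upwards [hev] with r hr
      rw [norm_mul]
      exact mul_le_mul_of_nonneg_right (hM _ hr) (norm_nonneg _)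
    have := t6.div_const ((om ^ 2 - 1) * Dd α β γ)
    simpa using this
  -- second part
  have t7 := (ha.comp hzc').div_const (Complex.normSq B)
  rw [zero_div] at t7
  have t8 := ((t7.add_const (1 / (om ^ 2 - 1)).im).mul_const (Rd α β γ s)).add
    ((Complex.continuous_im.tendsto _).comp t4)
  simp only [zero_add, Complex.zero_im, add_zero] at t8
  refine t8.congr fun r => ?_
  simp only [Function.comp_apply]
  set w := f ((r : ℂ) * exp ((s : ℂ) * I)) with hw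
  set W := Wf α β γ ((r : ℂ) * exp ((s : ℂ) * I)) * (((r : ℂ) * exp ((s : ℂ) * I)) * I) with hW
  have e1 : ((starRingEnd ℂ) B * (w - A)).im / Complex.normSq B = ((w - A) / B).im := by
    have hn : Complex.normSq B ≠ 0 := by simpa [Complex.normSq_eq_zero] using hB0
    have : (w - A) / B = ((Complex.normSq B)⁻¹ : ℝ) * ((starRingEnd ℂ) B * (w - A)) := by
      rw [div_eq_mul_inv, Complex.inv_def]; push_cast; ring
    rw [this, Complex.im_ofReal_mul]; field_simp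
  rw [e1]
  have e2 : ((w - A) / B).im + (1 / (om ^ 2 - 1)).im = (w * k / (om ^ 2 - 1)).im := by
    rw [← Complex.add_im]
    congr 1
    have hkB : B = (om ^ 2 - 1) / k := by rw [eq_div_iff hk0, hB]
    rw [hkB]
    field_simp
    linear_combination (-1 : ℂ) * hk
  rw [e2]
  have e3 : (w * k / (om ^ 2 - 1)).im * Rd α β γ s =
      (w * ((Rd α β γ s : ℂ) * (k * Dd α β γ)) / ((om ^ 2 - 1) * Dd α β γ)).im := by
    have : w * ((Rd α β γ s : ℂ) * (k * Dd α β γ)) / ((om ^ 2 - 1) * Dd α β γ) =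
        (Rd α β γ s : ℂ) * (w * k / (om ^ 2 - 1)) := by
      field_simp
    rw [this, Complex.im_ofReal_mul]; ring
  rw [e3, ← Complex.add_im]
  congr 1
  ring


/-- the wrong cyclic order is impossible. -/
theorem disc_mis {α β γ : ℝ} (h : Marks α β γ) {f : ℂ → ℂ}
    (hfd : DifferentiableOn ℂ f (Metric.ball 0 1)) {M : ℝ}
    (hM : ∀ z ∈ Metric.ball (0 : ℂ) 1, ‖f z‖ ≤ M)
    (h1 : ∀ s ∈ Ioo α β, Apr f 1 (om ^ 2 - 1) s)
    (h2 : ∀ s ∈ Ioo β γ, Apr f (om ^ 2) (om - om ^ 2) s)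
    (h3 : ∀ s ∈ Ioo γ (α + 2 * Real.pi), Apr f om (1 - om) s) : False := by
  obtain ⟨g1, g2, g3⟩ := h
  have h : Marks α β γ := ⟨g1, g2, g3⟩
  have hpi := Real.pi_pos
  obtain ⟨x, hxc, hx0, hx1, -, hxd⟩ := side1 h
  obtain ⟨y, hyc, hy0, hy1, -, hyd⟩ := side2 h
  obtain ⟨z, hzc, hz0, hz1, -, hzd⟩ := side3 h
  have hR0 : ∀ s, 0 ≤ Rd α β γ s := fun s => by unfold Rd; positivity
  have hom3 := om_cube
  have hD := Dd_ne α β γ
  have hom : om ^ 2 - 1 ≠ 0 := by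
    intro hh; apply om_sq_sub_im; rw [hh]; simp
  have hM0 : 0 ≤ M := (norm_nonneg _).trans (hM 0 (by simp))
  obtain ⟨i1, e1⟩ := arc_R g1 hxc hxd (fun s _ => hR0 s)
  obtain ⟨i2, e2⟩ := arc_R g2 hyc hyd (fun s _ => hR0 s)
  obtain ⟨i3, e3⟩ := arc_R g3 hzc hzd (fun s _ => hR0 s)
  have hiR : IntervalIntegrable (Rd α β γ) volume α (α + 2 * Real.pi) := (i1.trans i2).trans i3
  have hRpos : 0 < ∫ s in α..(α + 2 * Real.pi), Rd α β γ s := by
    rw [← intervalIntegral.integral_add_adjacent_intervals (i1.trans i2) i3,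
      ← intervalIntegral.integral_add_adjacent_intervals i1 i2, e1, e2, e3]
    linarith
  have hnull : ∀ᵐ s : ℝ ∂volume, s ≠ β ∧ s ≠ γ ∧ s ≠ α + 2 * Real.pi := by
    have a1 : ∀ᵐ t : ℝ ∂volume, t ≠ β := by simp [ae_iff, measure_singleton]
    have a2 : ∀ᵐ t : ℝ ∂volume, t ≠ γ := by simp [ae_iff, measure_singleton]
    have a3 : ∀ᵐ t : ℝ ∂volume, t ≠ α + 2 * Real.pi := by simp [ae_iff, measure_singleton]
    filter_upwards [a1, a2, a3] with t b1 b2 b3 using ⟨b1, b2, b3⟩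
  have hsin : ∀ s : ℝ, s ∈ Ioo α (α + 2 * Real.pi) → s ≠ β → s ≠ γ →
      Real.sin ((s - α) / 2) ≠ 0 ∧ Real.sin ((s - β) / 2) ≠ 0 ∧ Real.sin ((s - γ) / 2) ≠ 0 := by
    intro s hs hb hc
    refine ⟨(sin_half_ne (x := α) (y := s) hs.1 hs.2).2, ?_, ?_⟩
    · rcases lt_or_gt_of_ne hb with hlt | hlt
      · exact (sin_half_ne (x := s) (y := β) hlt (by linarith [hs.1])).1
      · exact (sin_half_ne (x := β) (y := s) hlt (by linarith [hs.2])).2
    · rcases lt_or_gt_of_ne hc with hlt | hlt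
      · exact (sin_half_ne (x := s) (y := γ) hlt (by linarith [hs.1])).1
      · exact (sin_half_ne (x := γ) (y := s) hlt (by linarith [hs.2])).2
  have hne : ∀ s : ℝ, s ∈ Ioo α (α + 2 * Real.pi) → s ≠ β → s ≠ γ →
      exp ((s : ℂ) * I) ≠ exp ((α : ℂ) * I) ∧ exp ((s : ℂ) * I) ≠ exp ((β : ℂ) * I) ∧
        exp ((s : ℂ) * I) ≠ exp ((γ : ℂ) * I) := by
    intro s hs hb hc
    refine ⟨(exp_ne_of hs.1 hs.2).symm, ?_, ?_⟩
    · rcases lt_or_gt_of_ne hb with hlt | hlt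
      · exact exp_ne_of hlt (by linarith [hs.1])
      · exact (exp_ne_of hlt (by linarith [hs.2])).symm
    · rcases lt_or_gt_of_ne hc with hlt | hlt
      · exact exp_ne_of hlt (by linarith [hs.1])
      · exact (exp_ne_of hlt (by linarith [hs.2])).symm
  let J : ℝ → ℝ → ℂ := fun r s => f ((r : ℂ) * exp ((s : ℂ) * I)) *
    (Wf α β γ ((r : ℂ) * exp ((s : ℂ) * I)) * (((r : ℂ) * exp ((s : ℂ) * I)) * I))
  have hin : ∀ r : ℝ, 0 < r → r < 1 → ∀ s : ℝ, ‖(r : ℂ) * exp ((s : ℂ) * I)‖ < 1 := by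
    intro r hr0 hr1 s
    rw [norm_mul, Complex.norm_exp_ofReal_mul_I, mul_one, Complex.norm_real,
      Real.norm_of_nonneg hr0.le]
    exact hr1
  have hJc : ∀ r : ℝ, 0 < r → r < 1 → Continuous (J r) := by
    intro r hr0 hr1
    have c0 : Continuous (fun s : ℝ => (r : ℂ) * exp ((s : ℂ) * I)) := by fun_prop
    have c1 : Continuous (fun s : ℝ => f ((r : ℂ) * exp ((s : ℂ) * I))) :=
      hfd.continuousOn.comp_continuous c0 (fun s => by simpa using (hin r hr0 hr1 s))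
    have c2 : Continuous (fun s : ℝ => Wf α β γ ((r : ℂ) * exp ((s : ℂ) * I))) := by
      have : ContinuousOn (Wf α β γ) (Metric.ball 0 1) := fun w hw =>
        (Wf_diffAt_ball (by simpa using hw)).continuousAt.continuousWithinAt
      exact this.comp_continuous c0 (fun s => by simpa using hin r hr0 hr1 s)
    exact c1.mul (c2.mul (c0.mul continuous_const))
  have hJzero : ∀ r : ℝ, 0 < r → r < 1 → ∫ s in α..(α + 2 * Real.pi), J r s = 0 := by
    intro r hr0 hr1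
    have hper : Function.Periodic (J r) (2 * Real.pi) := by
      intro s
      simp only [J]
      have := shift_exp s
      rw [this]
    rw [hper.intervalIntegral_add_eq α 0, zero_add]
    have hsub : Metric.closedBall (0:ℂ) r ⊆ Metric.ball 0 1 := Metric.closedBall_subset_ball hr1
    have hW : DifferentiableOn ℂ (fun w => f w * Wf α β γ w) (Metric.ball 0 1) :=
      hfd.mul (fun w hw => (Wf_diffAt_ball (by simpa using hw)).differentiableWithinAt)
    have hC := Complex.circleIntegral_eq_zero_of_differentiable_on_off_countable hr0.le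
      (c := 0) (f := fun w => f w * Wf α β γ w) countable_empty (hW.continuousOn.mono hsub)
      (fun w hw => (hW.differentiableAt (Metric.isOpen_ball.mem_nhds
        (hsub (Metric.ball_subset_closedBall hw.1)))))
    rw [circleIntegral] at hC
    rw [← hC]
    apply intervalIntegral.integral_congr
    intro s _
    simp only [J, deriv_circleMap, circleMap, zero_add, smul_eq_mul]
    ring
  set K : ℂ := (om ^ 2 - 1) * Dd α β γ with hK
  have hK0 : K ≠ 0 := mul_ne_zero hom hD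
  have hvzero : ∀ r : ℝ, 0 < r → r < 1 → ∫ s in α..(α + 2 * Real.pi), (J r s / K).im = 0 := by
    intro r hr0 hr1
    have e1 : ∫ s in α..(α + 2 * Real.pi), J r s / K = 0 := by
      rw [intervalIntegral.integral_div, hJzero r hr0 hr1, zero_div]
    have hi : IntervalIntegrable (fun s => J r s / K) volume α (α + 2 * Real.pi) :=
      ((hJc r hr0 hr1).div_const K).intervalIntegrable _ _
    have e2 := Complex.imCLM.intervalIntegral_comp_comm hi
    simp only [Complex.imCLM_apply] at e2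
    rw [e2, e1, Complex.zero_im]
  have hlim : Tendsto (fun r : ℝ => ∫ s in α..(α + 2 * Real.pi), (J r s / K).im) (𝓝[<] 1)
      (𝓝 (∫ s in α..(α + 2 * Real.pi), (1 / (om ^ 2 - 1)).im * Rd α β γ s)) := by
    apply intervalIntegral.tendsto_integral_filter_of_dominated_convergence
      (fun s => M * (4 * Rd α β γ s) / ‖K‖)
    · have hev : ∀ᶠ r : ℝ in 𝓝[<] 1, 0 < r ∧ r < 1 := by
        have e1 : ∀ᶠ r : ℝ in 𝓝[<] 1, r < 1 := self_mem_nhdsWithin
        have e2 : ∀ᶠ r : ℝ in 𝓝[<] 1, 0 < r :=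
          mem_nhdsWithin_of_mem_nhds (Ioi_mem_nhds zero_lt_one)
        filter_upwards [e1, e2] with r a b using ⟨b, a⟩
      filter_upwards [hev] with r hr
      exact (Complex.continuous_im.comp ((hJc r hr.1 hr.2).div_const K)).aestronglyMeasurable
    · have hev : ∀ᶠ r : ℝ in 𝓝[<] 1, 1/4 < r ∧ r < 1 := by
        have e1 : ∀ᶠ r : ℝ in 𝓝[<] 1, r < 1 := self_mem_nhdsWithin
        have e2 : ∀ᶠ r : ℝ in 𝓝[<] 1, 1/4 < r :=
          mem_nhdsWithin_of_mem_nhds (Ioi_mem_nhds (by norm_num))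
        filter_upwards [e1, e2] with r a b using ⟨b, a⟩
      filter_upwards [hev] with r hr
      filter_upwards [hnull] with s hs hsI
      rw [uIoc_of_le (by linarith)] at hsI
      have hs' : s ∈ Ioo α (α + 2 * Real.pi) := ⟨hsI.1, lt_of_le_of_ne hsI.2 hs.2.2⟩
      obtain ⟨k1, k2, k3⟩ := hsin s hs' hs.1 hs.2.1
      have hr0 : 0 < r := by linarith [hr.1]
      have hnz : ‖(r : ℂ) * exp ((s : ℂ) * I)‖ = r := by
        rw [norm_mul, Complex.norm_exp_ofReal_mul_I, mul_one, Complex.norm_real,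
          Real.norm_of_nonneg hr0.le]
      rw [Real.norm_eq_abs]
      refine (Complex.abs_im_le_norm _).trans ?_
      rw [norm_div]
      refine div_le_div_of_nonneg_right ?_ (norm_nonneg K)
      simp only [J]
      rw [norm_mul, norm_mul, norm_mul, hnz, Complex.norm_I, mul_one]
      have b1 := hM ((r : ℂ) * exp ((s : ℂ) * I))
        (by rw [Metric.mem_ball, dist_zero_right, hnz]; exact hr.2)
      have b2 := Wf_circle_bound (α := α) (β := β) (γ := γ) (s := s) (r := r) hr.1.le k1 k2 k3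
      apply mul_le_mul b1 _ (by positivity) hM0
      calc ‖Wf α β γ ((r : ℂ) * exp ((s : ℂ) * I))‖ * r
          ≤ ‖Wf α β γ ((r : ℂ) * exp ((s : ℂ) * I))‖ * 1 := by gcongr; exact hr.2.le
        _ ≤ 4 * Rd α β γ s := by rw [mul_one]; exact b2
    · exact ((hiR.const_mul 4).const_mul M).div_const _
    · filter_upwards [hnull] with s hs hsI
      rw [uIoc_of_le (by linarith)] at hsI
      have hs' : s ∈ Ioo α (α + 2 * Real.pi) := ⟨hsI.1, lt_of_le_of_ne hsI.2 hs.2.2⟩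
      have hn := hne s hs' hs.1 hs.2.1
      rcases lt_or_gt_of_ne hs.1 with q | q
      · exact lim_arc hM (A := 1) (B := om ^ 2 - 1) (k := 1) (by ring) (by ring)
          (by rw [one_mul]; exact Wf_arc1 g2 g3 hs'.1 q) hn (h1 s ⟨hs'.1, q⟩)
      · rcases lt_or_gt_of_ne hs.2.1 with q' | q'
        · exact lim_arc hM (A := om ^ 2) (B := om - om ^ 2) (k := om)
            (by rw [← hom3]; ring)
            (by have : (om - om ^ 2) * om = om ^ 2 - om ^ 3 := by ring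
                rw [this, hom3])
            (Wf_arc2 g1 g3 q q') hn (h2 s ⟨q, q'⟩)
        · exact lim_arc hM (A := om) (B := 1 - om) (k := om ^ 2)
            (by rw [← hom3]; ring)
            (by have : (1 - om) * om ^ 2 = om ^ 2 - om ^ 3 := by ring
                rw [this, hom3])
            (Wf_arc3 g1 g2 q' hs'.2) hn (h3 s ⟨q', hs'.2⟩)
  have hlim0 : Tendsto (fun r : ℝ => ∫ s in α..(α + 2 * Real.pi), (J r s / K).im) (𝓝[<] 1)
      (𝓝 0) := by
    apply tendsto_const_nhds.congr'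
    have e1 : ∀ᶠ r : ℝ in 𝓝[<] 1, r < 1 := self_mem_nhdsWithin
    have e2 : ∀ᶠ r : ℝ in 𝓝[<] 1, 0 < r :=
      mem_nhdsWithin_of_mem_nhds (Ioi_mem_nhds zero_lt_one)
    filter_upwards [e1, e2] with r a b
    exact (hvzero r b a).symm
  have hfin := tendsto_nhds_unique hlim hlim0
  rw [intervalIntegral.integral_const_mul] at hfin
  have hκ : (1 / (om ^ 2 - 1)).im ≠ 0 := by
    rw [one_div, Complex.inv_im]
    exact div_ne_zero (neg_ne_zero.mpr om_sq_sub_im) (by simpa [Complex.normSq_eq_zero] using hom)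
  rcases mul_eq_zero.mp hfin with q | q
  · exact hκ q
  · exact hRpos.ne' q

end Crest.Agent.R158.Un434
end

-- ▼ part R158/Un3_434
section

/-!
R158, S0237 endgame: literal identification in limit form.

`ident` : `h` bounded on the Jordan interior, `h` or `conj h` holomorphic there, `h` approaches the
line of the side `j` at every point of the OPEN arc `j` (nothing at the marks, no continuity up to
the boundary, no orientation input) ⟹ `h` has the Cardy limit at `γ (1/4)`.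
-/

set_option autoImplicit false

namespace Crest.Agent.R158.Un434

open Complex Set Filter Topology MeasureTheory
open Crest.ProbabilityR.Percolation
open Crest.Agent.R158.Cd83

/-- `h` approaches the line through `A` in direction `D` at the boundary point `γ t`. -/
def Arc (γ : ℝ → ℂ) (h : ℂ → ℂ) (A D : ℂ) (t : ℝ) : Prop :=
  Tendsto (fun z => ((h z - A) / D).im) (𝓝[jordanInterior γ] (γ t)) (𝓝 0)

theorem im_conj_mul (x D : ℂ) : ((starRingEnd ℂ) D * x).im = Complex.normSq D * (x / D).im := by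
  by_cases hD : D = 0
  · simp [hD]
  have hn : Complex.normSq D ≠ 0 := by simpa [Complex.normSq_eq_zero] using hD
  have : x / D = ((Complex.normSq D)⁻¹ : ℝ) * ((starRingEnd ℂ) D * x) := by
    rw [div_eq_mul_inv, Complex.inv_def]; push_cast; ring
  rw [this, Complex.im_ofReal_mul]; field_simp


variable {γ : ℝ → ℂ} {φ : ℂ → ℂ}

/-- boundary transport. -/
theorem psi_tendsto (C : CDat γ φ) {σ : ℂ → ℂ} (hσc : Continuous σ) (hσn : ∀ w, ‖σ w‖ = ‖w‖)
    {t s : ℝ} (ht : t ∈ Icc (0 : ℝ) 1) (hst : σ (exp ((s : ℂ) * I)) = φ (γ t)) :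
    Tendsto (fun w => psi γ φ (σ w)) (𝓝[Metric.ball 0 1] (exp ((s : ℂ) * I)))
      (𝓝[jordanInterior γ] (γ t)) := by
  have hb : ∀ᶠ w in 𝓝[Metric.ball 0 1] (exp ((s : ℂ) * I)), σ w ∈ Metric.ball (0 : ℂ) 1 := by
    filter_upwards [self_mem_nhdsWithin] with w hw
    simpa [hσn] using hw
  have h1 : Tendsto σ (𝓝[Metric.ball 0 1] (exp ((s : ℂ) * I)))
      (𝓝[Metric.closedBall 0 1] (φ (γ t))) := by
    rw [tendsto_nhdsWithin_iff]
    refine ⟨?_, hb.mono fun w hw => Metric.ball_subset_closedBall hw⟩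
    rw [← hst]
    exact (hσc.tendsto _).mono_left nhdsWithin_le_nhds
  have hmem : φ (γ t) ∈ Metric.closedBall (0 : ℂ) 1 := by
    rw [mem_closedBall_zero_iff, C.norm_gam ht]
  have h2 := (C.psi_cont _ hmem).tendsto.comp h1
  rw [C.psi_phi (C.gam_mem ht)] at h2
  exact tendsto_nhdsWithin_iff.mpr ⟨h2, hb.mono fun w hw => C.psi_mem_int hw⟩

theorem Arc.apr (C : CDat γ φ) {h : ℂ → ℂ} {A D : ℂ} {t s : ℝ} (ha : Arc γ h A D t)
    {σ : ℂ → ℂ} (hσc : Continuous σ) (hσn : ∀ w, ‖σ w‖ = ‖w‖)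
    (ht : t ∈ Icc (0 : ℝ) 1) (hst : σ (exp ((s : ℂ) * I)) = φ (γ t)) :
    Apr (fun w => h (psi γ φ (σ w))) A D s := by
  have h1 := (ha.comp (psi_tendsto C hσc hσn ht hst)).const_mul (Complex.normSq D)
  rw [mul_zero] at h1
  refine h1.congr fun w => ?_
  simp only [Function.comp_apply]
  rw [im_conj_mul]

theorem Arc.conj {h : ℂ → ℂ} {A D : ℂ} {t : ℝ} (ha : Arc γ h A D t) :
    Arc γ (fun z => (starRingEnd ℂ) (h z)) ((starRingEnd ℂ) A) ((starRingEnd ℂ) D) t := by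
  unfold Arc at *
  have h1 := ha.neg
  rw [neg_zero] at h1
  refine h1.congr fun z => ?_
  rw [← map_sub, ← map_div₀, Complex.conj_im]

theorem conj_om : (starRingEnd ℂ) om = om ^ 2 := by
  have h1 : om * (starRingEnd ℂ) om = 1 := by
    rw [Complex.mul_conj, Complex.normSq_eq_norm_sq]
    have : ‖om‖ = 1 := by unfold om; exact Complex.norm_exp_ofReal_mul_I _
    rw [this]; simp
  have h2 : om * om ^ 2 = 1 := by rw [← om_cube]; ring
  exact mul_left_cancel₀ om_ne (h1.trans h2.symm)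

theorem crossRatio_conj (p q r s : ℂ) :
    crossRatioAt ((starRingEnd ℂ) p) ((starRingEnd ℂ) q) ((starRingEnd ℂ) r) ((starRingEnd ℂ) s) =
      crossRatioAt p q r s := by
  unfold crossRatioAt
  have : ((starRingEnd ℂ) q - (starRingEnd ℂ) p) * ((starRingEnd ℂ) r - (starRingEnd ℂ) s) /
      (((starRingEnd ℂ) q - (starRingEnd ℂ) s) * ((starRingEnd ℂ) r - (starRingEnd ℂ) p)) =
      (starRingEnd ℂ) ((q - p) * (r - s) / ((q - s) * (r - p))) := by
    simp only [map_div₀, map_mul, map_sub]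
  rw [this, Complex.conj_re]

theorem conj_exp (s : ℝ) : (starRingEnd ℂ) (exp ((s : ℂ) * I)) = exp (((-s : ℝ) : ℂ) * I) := by
  rw [← Complex.exp_conj]
  simp

/-- The conclusion of `ident`. -/
def Conc (γ : ℝ → ℂ) (φ h : ℂ → ℂ) : Prop :=
  Tendsto h (𝓝[jordanInterior γ] (γ (1 / 4)))
    (𝓝 (1 + (om - 1) * ((cardyRatio (crossRatioAt (φ (γ 0)) (φ (γ (1 / 4))) (φ (γ (1 / 2)))
      (φ (γ (3 / 4)))) : ℝ) : ℂ)))

/-- matched case: `h (psi (σ w)) = tri w`. -/
theorem conc_of_tri (C : CDat γ φ) {h : ℂ → ℂ} {σ : ℂ → ℂ} (hσc : Continuous σ)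
    (hσn : ∀ w, ‖σ w‖ = ‖w‖) (hσσ : ∀ w, σ (σ w) = w) {ϑ : ℝ → ℝ}
    (hϑ : ∀ t ∈ Icc (0 : ℝ) 1, σ (φ (γ t)) = exp ((ϑ t : ℂ) * I))
    (hm : StrictMonoOn ϑ (Icc 0 1)) (h1 : ϑ 1 = ϑ 0 + 2 * Real.pi)
    (hcr : crossRatioAt (σ (φ (γ 0))) (σ (φ (γ (1 / 4)))) (σ (φ (γ (1 / 2)))) (σ (φ (γ (3 / 4)))) =
      crossRatioAt (φ (γ 0)) (φ (γ (1 / 4))) (φ (γ (1 / 2))) (φ (γ (3 / 4))))
    (hf : ∀ w ∈ Metric.ball (0 : ℂ) 1,
      h (psi γ φ (σ w)) = tri (ϑ 0) (ϑ (1 / 2)) (ϑ (3 / 4)) w) : Conc γ φ h := by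
  have m : ∀ {a b : ℝ}, a ∈ Icc (0 : ℝ) 1 → b ∈ Icc (0 : ℝ) 1 → a < b → ϑ a < ϑ b :=
    fun ha hb hab => hm ha hb hab
  have i0 : (0 : ℝ) ∈ Icc (0 : ℝ) 1 := by norm_num
  have i1 : (1 / 4 : ℝ) ∈ Icc (0 : ℝ) 1 := by constructor <;> norm_num
  have i2 : (1 / 2 : ℝ) ∈ Icc (0 : ℝ) 1 := by constructor <;> norm_num
  have i3 : (3 / 4 : ℝ) ∈ Icc (0 : ℝ) 1 := by constructor <;> norm_num
  have i4 : (1 : ℝ) ∈ Icc (0 : ℝ) 1 := by norm_num
  have hM : Marks (ϑ 0) (ϑ (1 / 2)) (ϑ (3 / 4)) :=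
    ⟨m i0 i2 (by norm_num), m i2 i3 (by norm_num), by rw [← h1]; exact m i3 i4 (by norm_num)⟩
  obtain ⟨tc, -, t1, -, -, -⟩ := tri_main hM
  -- `h z = tri (σ (φ z))` on the interior
  have hh : ∀ z ∈ jordanInterior γ, h z = tri (ϑ 0) (ϑ (1 / 2)) (ϑ (3 / 4)) (σ (φ z)) := by
    intro z hz
    have hw : σ (φ z) ∈ Metric.ball (0 : ℂ) 1 := by
      have := C.phi_mem_ball hz
      simpa [hσn] using this
    have := hf _ hw
    rwa [hσσ, C.psi_phi (subset_closure hz)] at this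
  unfold Conc
  have hlim : Tendsto (fun z => tri (ϑ 0) (ϑ (1 / 2)) (ϑ (3 / 4)) (σ (φ z)))
      (𝓝[jordanInterior γ] (γ (1 / 4)))
      (𝓝 (tri (ϑ 0) (ϑ (1 / 2)) (ϑ (3 / 4)) (σ (φ (γ (1 / 4)))))) := by
    have hmem : σ (φ (γ (1 / 4))) ∈ Metric.closedBall (0 : ℂ) 1 := by
      rw [mem_closedBall_zero_iff, hσn, C.norm_gam i1]
    refine (tc _ hmem).tendsto.comp ?_
    rw [tendsto_nhdsWithin_iff]
    constructor
    · have : Tendsto φ (𝓝[jordanInterior γ] (γ (1 / 4))) (𝓝 (φ (γ (1 / 4)))) :=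
        (C.hc _ (C.gam_mem i1)).tendsto.mono_left (nhdsWithin_mono _ subset_closure)
      exact (hσc.tendsto _).comp this
    · filter_upwards [self_mem_nhdsWithin] with z hz
      rw [mem_closedBall_zero_iff, hσn]
      exact mem_closedBall_zero_iff.mp (C.phi_mem (subset_closure hz))
  have hval : tri (ϑ 0) (ϑ (1 / 2)) (ϑ (3 / 4)) (σ (φ (γ (1 / 4)))) =
      1 + (om - 1) * ((cardyRatio (crossRatioAt (φ (γ 0)) (φ (γ (1 / 4))) (φ (γ (1 / 2)))
      (φ (γ (3 / 4)))) : ℝ) : ℂ) := by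
    rw [hϑ _ i1, t1 (ϑ (1 / 4)) ⟨(m i0 i1 (by norm_num)).le, (m i1 i2 (by norm_num)).le⟩,
      ← hϑ _ i0, ← hϑ _ i1, ← hϑ _ i2, ← hϑ _ i3, hcr]
  rw [hval] at hlim
  refine hlim.congr' ?_
  filter_upwards [self_mem_nhdsWithin] with z hz
  exact (hh z hz).symm

/-- Points of the circle between two marks come from the arc. -/
theorem exists_param {ϑ : ℝ → ℝ} (hc : Continuous ϑ) {a b s : ℝ} (hab : a < b)
    (hs : s ∈ Ioo (ϑ a) (ϑ b)) : ∃ t ∈ Ioo a b, ϑ t = s :=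
  intermediate_value_Ioo hab.le hc.continuousOn hs

/-- Generic step: given a holomorphic function on the disc obtained from `h` through `σ`. -/
theorem match_step (C : CDat γ φ) {h : ℂ → ℂ} {M : ℝ} (hM : ∀ z ∈ jordanInterior γ, ‖h z‖ ≤ M)
    {σ : ℂ → ℂ} (hσc : Continuous σ) (hσn : ∀ w, ‖σ w‖ = ‖w‖) (hσσ : ∀ w, σ (σ w) = w)
    {ϑ : ℝ → ℝ} (hϑc : Continuous ϑ)
    (hϑ : ∀ t ∈ Icc (0 : ℝ) 1, σ (φ (γ t)) = exp ((ϑ t : ℂ) * I))
    (hm : StrictMonoOn ϑ (Icc 0 1)) (h1 : ϑ 1 = ϑ 0 + 2 * Real.pi)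
    (_hd : DifferentiableOn ℂ (fun w => h (psi γ φ (σ w))) (Metric.ball 0 1)) :
    (∀ {A D : ℂ} {a b : ℝ}, 0 ≤ a → a < b → b ≤ 1 → (∀ t ∈ Ioo a b, Arc γ h A D t) →
      ∀ s ∈ Ioo (ϑ a) (ϑ b), Apr (fun w => h (psi γ φ (σ w))) A D s) ∧
    Marks (ϑ 0) (ϑ (1 / 2)) (ϑ (3 / 4)) ∧
    (∀ w ∈ Metric.ball (0 : ℂ) 1, ‖h (psi γ φ (σ w))‖ ≤ M) := by
  have m : ∀ {a b : ℝ}, a ∈ Icc (0 : ℝ) 1 → b ∈ Icc (0 : ℝ) 1 → a < b → ϑ a < ϑ b :=
    fun ha hb hab => hm ha hb hab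
  have i0 : (0 : ℝ) ∈ Icc (0 : ℝ) 1 := by norm_num
  have i2 : (1 / 2 : ℝ) ∈ Icc (0 : ℝ) 1 := by constructor <;> norm_num
  have i3 : (3 / 4 : ℝ) ∈ Icc (0 : ℝ) 1 := by constructor <;> norm_num
  have i4 : (1 : ℝ) ∈ Icc (0 : ℝ) 1 := by norm_num
  refine ⟨?_, ⟨m i0 i2 (by norm_num), m i2 i3 (by norm_num), by
    rw [← h1]; exact m i3 i4 (by norm_num)⟩, ?_⟩
  · intro A D a b ha hab hb harc s hs
    obtain ⟨t, ht, hts⟩ := exists_param hϑc hab hs
    have htI : t ∈ Icc (0 : ℝ) 1 := ⟨ha.trans ht.1.le, ht.2.le.trans hb⟩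
    refine (harc t ht).apr C hσc hσn htI ?_
    rw [← hts, ← hϑ t htI, hσσ]
  · intro w hw
    refine hM _ (C.psi_mem_int ?_)
    simpa [hσn] using hw



/-- **Literal identification in limit form.** -/
theorem ident (C : CDat γ φ) {h : ℂ → ℂ} {M : ℝ} (hM : ∀ z ∈ jordanInterior γ, ‖h z‖ ≤ M)
    (hh : DifferentiableOn ℂ h (jordanInterior γ) ∨
      DifferentiableOn ℂ (fun z => (starRingEnd ℂ) (h z)) (jordanInterior γ))
    (h1 : ∀ t ∈ Ioo (0 : ℝ) (1 / 2), Arc γ h 1 (om - 1) t)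
    (h2 : ∀ t ∈ Ioo (1 / 2 : ℝ) (3 / 4), Arc γ h om (om ^ 2 - om) t)
    (h3 : ∀ t ∈ Ioo (3 / 4 : ℝ) 1, Arc γ h (om ^ 2) (1 - om ^ 2) t) : Conc γ φ h := by
  obtain ⟨θ, hθc, hθ, hcase⟩ := C.lift
  have hM' : ∀ z ∈ jordanInterior γ, ‖(starRingEnd ℂ) (h z)‖ ≤ M := by
    intro z hz; rw [RCLike.norm_conj]; exact hM z hz
  -- conjugated arcs
  have c1 : ∀ t ∈ Ioo (0 : ℝ) (1 / 2), Arc γ (fun z => (starRingEnd ℂ) (h z)) 1 (om ^ 2 - 1) t := by
    intro t ht
    have := (h1 t ht).conj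
    simpa [conj_om] using this
  have e4 : (om ^ 2) ^ 2 = om := by
    have : (om ^ 2) ^ 2 = om ^ 3 * om := by ring
    rw [this, om_cube, one_mul]
  have c2 : ∀ t ∈ Ioo (1 / 2 : ℝ) (3 / 4),
      Arc γ (fun z => (starRingEnd ℂ) (h z)) (om ^ 2) (om - om ^ 2) t := by
    intro t ht
    have := (h2 t ht).conj
    simpa [conj_om, e4] using this
  have c3 : ∀ t ∈ Ioo (3 / 4 : ℝ) 1,
      Arc γ (fun z => (starRingEnd ℂ) (h z)) om (1 - om) t := by
    intro t ht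
    have := (h3 t ht).conj
    simpa [conj_om, e4] using this
  -- the two maps
  have cc : Continuous (starRingEnd ℂ) := Complex.continuous_conj
  have cn : ∀ w : ℂ, ‖(starRingEnd ℂ) w‖ = ‖w‖ := fun w => RCLike.norm_conj w
  have hpsid := C.psi_diff
  -- differentiability through conjugation
  have dconj : ∀ {F : ℂ → ℂ}, DifferentiableOn ℂ F (Metric.ball 0 1) →
      DifferentiableOn ℂ (fun w => (starRingEnd ℂ) (F ((starRingEnd ℂ) w))) (Metric.ball 0 1) := by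
    intro F hF w hw
    have hw' : (starRingEnd ℂ) w ∈ Metric.ball (0 : ℂ) 1 := by
      rw [mem_ball_zero_iff, cn]; exact mem_ball_zero_iff.mp hw
    have hdF := hF.differentiableAt (Metric.isOpen_ball.mem_nhds hw')
    have h2 : DifferentiableAt ℂ ((starRingEnd ℂ) ∘ F ∘ (starRingEnd ℂ)) w :=
      differentiableAt_conj_conj_iff.mpr hdF
    exact h2.differentiableWithinAt
  rcases hcase with ⟨hm, h01⟩ | ⟨hm, h01⟩
  · -- increasing
    have hid : ∀ t ∈ Icc (0 : ℝ) 1, id (φ (γ t)) = exp ((θ t : ℂ) * I) := hθ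
    rcases hh with hh | hh
    · have hd : DifferentiableOn ℂ (fun w => h (psi γ φ (id w))) (Metric.ball 0 1) :=
        hh.comp hpsid (fun w hw => C.psi_mem_int hw)
      obtain ⟨T, hMk, hB⟩ := match_step C hM continuous_id (fun _ => rfl) (fun _ => rfl) hθc hid hm
        h01 hd
      refine conc_of_tri C continuous_id (fun _ => rfl) (fun _ => rfl) hid hm h01 rfl ?_
      refine disc_match hMk hd hB (T le_rfl (by norm_num) (by norm_num) h1)
        (T (by norm_num) (by norm_num) (by norm_num) h2) ?_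
      rw [← h01]
      exact T (by norm_num) (by norm_num) le_rfl h3
    · exfalso
      have hd : DifferentiableOn ℂ (fun w => (fun z => (starRingEnd ℂ) (h z)) (psi γ φ (id w)))
          (Metric.ball 0 1) := hh.comp hpsid (fun w hw => C.psi_mem_int hw)
      obtain ⟨T, hMk, hB⟩ := match_step C hM' continuous_id (fun _ => rfl) (fun _ => rfl) hθc hid hm
        h01 hd
      refine disc_mis hMk hd hB (T le_rfl (by norm_num) (by norm_num) c1)
        (T (by norm_num) (by norm_num) (by norm_num) c2) ?_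
      rw [← h01]
      exact T (by norm_num) (by norm_num) le_rfl c3
  · -- decreasing: use the conjugated angle
    have hϑ' : ∀ t ∈ Icc (0 : ℝ) 1,
        (starRingEnd ℂ) (φ (γ t)) = exp ((((-θ) t : ℝ) : ℂ) * I) := by
      intro t ht
      rw [hθ t ht, conj_exp, Pi.neg_apply]
    have hm' : StrictMonoOn (-θ) (Icc 0 1) := hm.neg
    have h01' : (-θ) 1 = (-θ) 0 + 2 * Real.pi := by
      simp only [Pi.neg_apply]; linarith
    rcases hh with hh | hh
    · exfalso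
      have hF : DifferentiableOn ℂ (fun w => h (psi γ φ w)) (Metric.ball 0 1) :=
        hh.comp hpsid (fun w hw => C.psi_mem_int hw)
      have hd : DifferentiableOn ℂ
          (fun w => (fun z => (starRingEnd ℂ) (h z)) (psi γ φ ((starRingEnd ℂ) w)))
          (Metric.ball 0 1) := dconj hF
      obtain ⟨T, hMk, hB⟩ := match_step C hM' cc cn (fun w => Complex.conj_conj w) hθc.neg hϑ' hm'
        h01' hd
      refine disc_mis hMk hd hB (T le_rfl (by norm_num) (by norm_num) c1)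
        (T (by norm_num) (by norm_num) (by norm_num) c2) ?_
      rw [← h01']
      exact T (by norm_num) (by norm_num) le_rfl c3
    · have hF : DifferentiableOn ℂ (fun w => (starRingEnd ℂ) (h (psi γ φ w))) (Metric.ball 0 1) :=
        hh.comp hpsid (fun w hw => C.psi_mem_int hw)
      have hd : DifferentiableOn ℂ (fun w => h (psi γ φ ((starRingEnd ℂ) w)))
          (Metric.ball 0 1) := by
        refine (dconj hF).congr fun w _ => ?_
        simp
      obtain ⟨T, hMk, hB⟩ := match_step C hM cc cn (fun w => Complex.conj_conj w) hθc.neg hϑ' hm'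
        h01' hd
      refine conc_of_tri C cc cn (fun w => Complex.conj_conj w) hϑ' hm' h01'
        (crossRatio_conj _ _ _ _) ?_
      refine disc_match hMk hd hB (T le_rfl (by norm_num) (by norm_num) h1)
        (T (by norm_num) (by norm_num) (by norm_num) h2) ?_
      rw [← h01']
      exact T (by norm_num) (by norm_num) le_rfl h3

end Crest.Agent.R158.Un434
end

-- ▼ part R158/Un4_434
section

/-!
R158, S0237 endgame.

* `ident_full` : as `ident`, with the full conclusion: `h` extends to a continuous function on the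
  closure which takes Cardy's value at `γ (1/4)`.
* `ultra_hol` : pointwise limits along an ultrafilter of uniformly bounded holomorphic functions on
  domains exhausting `D` are holomorphic on `D`.
-/

set_option autoImplicit false

namespace Crest.Agent.R158.Un434

open Complex Set Filter Topology MeasureTheory
open Crest.ProbabilityR.Percolation
open Crest.Agent.R158.Cd83

variable {γ : ℝ → ℂ} {φ : ℂ → ℂ}



/-! ### Ultrafilter limits -/

/-- Cauchy estimate in Lipschitz form. -/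
theorem lip_of_bdd {f : ℂ → ℂ} {c : ℂ} {r B : ℝ} (hr : 0 < r)
    (hf : DifferentiableOn ℂ f (Metric.ball c (2 * r))) (hB : ∀ z ∈ Metric.ball c (2 * r), ‖f z‖ ≤ B)
    {z w : ℂ} (hz : z ∈ Metric.ball c r) (hw : w ∈ Metric.ball c r) :
    ‖f z - f w‖ ≤ 2 * B / r * ‖z - w‖ := by
  have hB0 : 0 ≤ B := (norm_nonneg _).trans (hB c (by simp [hr]))
  have hsub : ∀ x ∈ Metric.ball c r, Metric.closedBall x (r / 2) ⊆ Metric.ball c (2 * r) := by
    intro x hx y hy
    rw [Metric.mem_ball] at *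
    have h1 := Metric.mem_closedBall.mp hy
    have := dist_triangle y x c
    linarith
  have hder : ∀ x ∈ Metric.ball c r, ‖deriv f x‖ ≤ 2 * B / r := by
    intro x hx
    have h1 := Complex.norm_deriv_le_of_forall_mem_sphere_norm_le (c := x) (R := r / 2) (f := f)
      (C := B) (by linarith) ((hf.mono (hsub x hx)).diffContOnCl_ball le_rfl)
      (fun y hy => hB y (hsub x hx (Metric.sphere_subset_closedBall hy)))
    calc ‖deriv f x‖ ≤ B / (r / 2) := h1
      _ = 2 * B / r := by field_simp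
  have hd : ∀ x ∈ Metric.ball c r, DifferentiableAt ℂ f x := by
    intro x hx
    refine hf.differentiableAt (Metric.isOpen_ball.mem_nhds ?_)
    rw [Metric.mem_ball] at *
    linarith
  exact (convex_ball c r).norm_image_sub_le_of_norm_deriv_le hd hder hw hz

/-- Pointwise ultrafilter limits of bounded holomorphic functions are holomorphic. -/
theorem ultra_hol {D : Set ℂ} (hD : IsOpen D) {ι : Type*} (U : Ultrafilter ι) {Om : ι → Set ℂ}
    {h : ι → ℂ → ℂ} {B : ℝ} (hex : ∀ K : Set ℂ, IsCompact K → K ⊆ D → ∀ᶠ k in (U : Filter ι), K ⊆ Om k)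
    (hd : ∀ k, DifferentiableOn ℂ (h k) (Om k)) (hB : ∀ k, ∀ z ∈ Om k, ‖h k z‖ ≤ B) :
    ∃ g : ℂ → ℂ, DifferentiableOn ℂ g D ∧ (∀ z ∈ D, ‖g z‖ ≤ B) ∧
      ∀ z ∈ D, Tendsto (fun k => h k z) (U : Filter ι) (𝓝 (g z)) := by
  classical
  have hpt : ∀ z ∈ D, ∃ y : ℂ, ‖y‖ ≤ B ∧ Tendsto (fun k => h k z) (U : Filter ι) (𝓝 y) := by
    intro z hz
    have hev : ∀ᶠ k in (U : Filter ι), h k z ∈ Metric.closedBall (0 : ℂ) B := by
      filter_upwards [hex {z} isCompact_singleton (singleton_subset_iff.mpr hz)] with k hk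
      rw [mem_closedBall_zero_iff]
      exact hB k z (hk (mem_singleton z))
    have hle : ((U.map fun k => h k z : Ultrafilter ℂ) : Filter ℂ) ≤
        𝓟 (Metric.closedBall (0 : ℂ) B) := by
      rw [le_principal_iff]; exact hev
    obtain ⟨y, hy, hyl⟩ := (isCompact_closedBall (0 : ℂ) B).ultrafilter_le_nhds _ hle
    exact ⟨y, by simpa using hy, hyl⟩
  choose! g hgB hg using hpt
  refine ⟨g, ?_, hgB, hg⟩
  intro z0 hz0
  obtain ⟨R, hR, hRD⟩ := Metric.isOpen_iff.mp hD z0 hz0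
  set r : ℝ := R / 4 with hr
  have hr0 : 0 < r := by rw [hr]; linarith
  have hcb : Metric.closedBall z0 (2 * r) ⊆ D := by
    refine (Metric.closedBall_subset_ball ?_).trans hRD
    rw [hr]; linarith
  have hevk : ∀ᶠ k in (U : Filter ι), Metric.closedBall z0 (2 * r) ⊆ Om k :=
    hex _ (isCompact_closedBall _ _) hcb
  have hbD : Metric.ball z0 r ⊆ D :=
    (Metric.ball_subset_closedBall.trans (Metric.closedBall_subset_closedBall (by linarith))).trans hcb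
  have hB0 : 0 ≤ B := (norm_nonneg _).trans (hgB z0 hz0)
  set L : ℝ := 2 * B / r with hL
  have hL0 : 0 ≤ L := by rw [hL]; positivity
  -- Lipschitz bounds
  have hlipk : ∀ᶠ k in (U : Filter ι), ∀ z ∈ Metric.ball z0 r, ∀ w ∈ Metric.ball z0 r,
      ‖h k z - h k w‖ ≤ L * ‖z - w‖ := by
    filter_upwards [hevk] with k hk z hz w hw
    exact lip_of_bdd hr0 ((hd k).mono (Metric.ball_subset_closedBall.trans hk))
      (fun x hx => hB k x (hk (Metric.ball_subset_closedBall hx))) hz hw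
  have hlipg : ∀ z ∈ Metric.ball z0 r, ∀ w ∈ Metric.ball z0 r, ‖g z - g w‖ ≤ L * ‖z - w‖ := by
    intro z hz w hw
    have h1 := ((hg z (hbD hz)).sub (hg w (hbD hw))).norm
    exact le_of_tendsto h1 (hlipk.mono fun k hk => hk z hz w hw)
  -- uniform convergence on the ball of radius `r`
  have hunif : TendstoUniformlyOn h g (U : Filter ι) (Metric.ball z0 r) := by
    rw [Metric.tendstoUniformlyOn_iff]
    intro ε hε
    set δ : ℝ := ε / (4 * (L + 1)) with hδ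
    have hδ0 : 0 < δ := by rw [hδ]; positivity
    have hLδ : L * δ ≤ ε / 4 := by
      rw [hδ]
      have : L * (ε / (4 * (L + 1))) = (L / (L + 1)) * (ε / 4) := by field_simp
      rw [this]
      have h2 : L / (L + 1) ≤ 1 := by rw [div_le_one (by positivity)]; linarith
      nlinarith
    -- finite net inside the ball
    have htb : TotallyBounded (Metric.ball z0 r) :=
      (isCompact_closedBall z0 r).totallyBounded.subset Metric.ball_subset_closedBall
    obtain ⟨F, hFsub, hFfin, hFcov⟩ := Metric.finite_approx_of_totallyBounded htb δ hδ0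
    have hnet : ∀ᶠ k in (U : Filter ι), ∀ x ∈ F, ‖g x - h k x‖ < ε / 4 := by
      rw [Filter.eventually_all_finite hFfin]
      intro x hx
      have h1 := (hg x (hbD (hFsub hx)))
      rw [Metric.tendsto_nhds] at h1
      filter_upwards [h1 (ε / 4) (by linarith)] with k hk
      rwa [dist_comm, dist_eq_norm] at hk
    filter_upwards [hnet, hlipk] with k hk1 hk2 z hz
    obtain ⟨x, hx, hzx⟩ : ∃ x ∈ F, z ∈ Metric.ball x δ := by
      have := hFcov hz
      simpa using this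
    rw [Metric.mem_ball, dist_eq_norm] at hzx
    rw [dist_eq_norm]
    have e : g z - h k z = (g z - g x) + (g x - h k x) + (h k x - h k z) := by ring
    rw [e]
    have a1 := hlipg z hz x (hFsub hx)
    have a2 := hk1 x hx
    have a3 := hk2 x (hFsub hx) z hz
    have a4 : L * ‖z - x‖ ≤ ε / 4 := (mul_le_mul_of_nonneg_left hzx.le hL0).trans hLδ
    have a5 : ‖x - z‖ = ‖z - x‖ := norm_sub_rev _ _
    rw [a5] at a3
    calc ‖(g z - g x) + (g x - h k x) + (h k x - h k z)‖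
        ≤ ‖g z - g x‖ + ‖g x - h k x‖ + ‖h k x - h k z‖ := norm_add₃_le
      _ < ε := by linarith
  have hdiff : DifferentiableOn ℂ g (Metric.ball z0 r) := by
    refine hunif.tendstoLocallyUniformlyOn.differentiableOn ?_ Metric.isOpen_ball
    filter_upwards [hevk] with k hk
    refine (hd k).mono ?_
    exact (Metric.ball_subset_closedBall.trans
      (Metric.closedBall_subset_closedBall (by linarith))).trans hk
  exact (hdiff.differentiableAt (Metric.ball_mem_nhds z0 hr0)).differentiableWithinAt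

end Crest.Agent.R158.Un434
end

-- ▼ part R158/Wk3_290
section

/-!
R158 (helper290): section 5 of S0237 — from lattice functions on approximating domains to Cardy's
formula.

* `Geo γ` : a sequence of domains with labelled boundary converging to the Jordan domain;
* `Obs G p up` : lattice functions on them (contour sums vanish, values in the triangle, one-sided
  boundary values), one-sided comparison with `p n` near the arc before / after `γ (1/4)`;
* `cardy_of_obs` : one family of each kind gives `p n → cardyRatio`.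
-/

set_option autoImplicit false
open Complex Metric Set Topology Filter

namespace Crest.Agent.R158.Wl290

open Crest.Agent.R158.Cd83 Crest.Agent.R158.Un434
open Crest.ProbabilityR.Percolation
open Crest.Agent.R158.Sk656 (sd1 sd2 sd3 sd1_cont sd2_cont sd3_cont)

/-- approximating domains `Ω k` with exceptional boundary points `E k` and boundary arcs `A k j`,
label `j` near `γ '' [j/4, (j+1)/4]` -/
structure Geo (γ : ℝ → ℂ) where
  /-- domains -/
  Ω : ℕ → Set ℂ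
  /-- exceptional boundary points -/
  E : ℕ → Finset ℂ
  /-- boundary arcs -/
  A : ℕ → Fin 4 → Set ℂ
  opn : ∀ k, IsOpen (Ω k)
  bdd : ∀ k, Bornology.IsBounded (Ω k)
  con : ∀ k, IsPreconnected (Ω k)ᶜ
  cone : ∀ k, Cone (Ω k)
  Enot : ∀ k, ∀ e ∈ E k, e ∉ Ω k
  exh : ∀ K : Set ℂ, IsCompact K → K ⊆ jordanInterior γ → ∀ᶠ k in atTop, K ⊆ Ω k
  cover : ∀ k, ∀ ζ ∈ frontier (Ω k), ζ ∉ E k → ∃ j, ζ ∈ A k j
  near : ∀ j : Fin 4, ∀ ε > 0, ∀ᶠ k in atTop, ∀ ζ ∈ A k j,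
    ∃ t ∈ Icc (((j : ℕ) : ℝ) / 4) ((((j : ℕ) : ℝ) + 1) / 4), ‖ζ - γ t‖ < ε
  app : ∀ t ∈ Icc (0 : ℝ) 1, ∀ ε > 0, ∀ᶠ k in atTop, ∃ w, w ∉ Ω k ∧ ‖w - γ t‖ < ε

/-- one-sided boundary value of lattice functions at the boundary point `ζ` -/
def NearB (Ω : Set ℂ) (c a : ℂ) (d : ℕ → ℝ) (H : ℕ → ℤ → ℤ → ℂ) (ζ : ℂ) (u : ℕ → ℂ → ℝ) : Prop :=
  ∀ ε > 0, ∃ r > 0, ∀ᶠ n in atTop, ∀ i j : ℤ, pos c a (d n) i j ∈ Ω →
    ‖pos c a (d n) i j - ζ‖ < r → u n (H n i j) ≤ ε

/-- lattice functions on the domains of `G`; `up = false`: `lam ≤ p` near the arc `0`,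
`up = true`: `lam ≥ p` near the arc `1` -/
structure Obs {γ : ℝ → ℂ} (G : Geo γ) (p : ℕ → ℝ) (up : Bool) where
  /-- antiholomorphic -/
  an : Bool
  /-- translation -/
  c : ℕ → ℂ
  /-- scale and rotation -/
  a : ℕ → ℂ
  /-- mesh -/
  d : ℕ → ℕ → ℝ
  /-- lattice functions -/
  H : ℕ → ℕ → ℤ → ℤ → ℂ
  a0 : ∀ k, a k ≠ 0
  dpos : ∀ k, ∀ᶠ n in atTop, 0 < d k n
  dlim : ∀ k, Tendsto (d k) atTop (𝓝 0)
  tri : ∀ k, ∀ᶠ n in atTop, ∀ i j : ℤ, pos (c k) (a k) (d k n) i j ∈ G.Ω k → H k n i j ∈ Tri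
  cs : ∀ k, ∀ x1 x2 y1 y2 : ℝ, x1 ≤ x2 → y1 ≤ y2 →
    (∀ x ∈ Icc x1 x2, ∀ y ∈ Icc y1 y2, c k + a k * ((x : ℂ) + (y : ℂ) * I) ∈ G.Ω k) →
    CSr atTop (sg an) (d k) (H k) x1 x2 y1 y2
  b0 : ∀ k, ∀ ζ ∈ frontier (G.Ω k), ζ ∉ G.E k → ζ ∈ G.A k 0 →
    NearB (G.Ω k) (c k) (a k) (d k) (H k) ζ fun _ => sd1
  b1 : ∀ k, ∀ ζ ∈ frontier (G.Ω k), ζ ∉ G.E k → ζ ∈ G.A k 1 →
    NearB (G.Ω k) (c k) (a k) (d k) (H k) ζ fun _ => sd1
  b2 : ∀ k, ∀ ζ ∈ frontier (G.Ω k), ζ ∉ G.E k → ζ ∈ G.A k 2 →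
    NearB (G.Ω k) (c k) (a k) (d k) (H k) ζ fun _ => sd2
  b3 : ∀ k, ∀ ζ ∈ frontier (G.Ω k), ζ ∉ G.E k → ζ ∈ G.A k 3 →
    NearB (G.Ω k) (c k) (a k) (d k) (H k) ζ fun _ => sd3
  lo : up = false → ∀ k, ∀ ζ ∈ frontier (G.Ω k), ζ ∉ G.E k → ζ ∈ G.A k 0 →
    NearB (G.Ω k) (c k) (a k) (d k) (H k) ζ fun n w => lam w - p n
  hi : up = true → ∀ k, ∀ ζ ∈ frontier (G.Ω k), ζ ∉ G.E k → ζ ∈ G.A k 1 →
    NearB (G.Ω k) (c k) (a k) (d k) (H k) ζ fun n w => p n - lam w

/-- distance of a point to a compact arc -/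
theorem arc_pos {γ : ℝ → ℂ} (hγ : ContinuousOn γ (Icc 0 1)) {b : ℂ} (l : Fin 4)
    (hb : ∀ t ∈ Icc (((l : ℕ) : ℝ) / 4) ((((l : ℕ) : ℝ) + 1) / 4), γ t ≠ b) :
    ∃ R > 0, ∀ t ∈ Icc (((l : ℕ) : ℝ) / 4) ((((l : ℕ) : ℝ) + 1) / 4), 2 * R ≤ ‖γ t - b‖ := by
  have hl : ((l : ℕ) : ℝ) ≤ 3 := by
    have : (l : ℕ) ≤ 3 := by omega
    exact_mod_cast this
  have hl0 : (0 : ℝ) ≤ ((l : ℕ) : ℝ) := Nat.cast_nonneg _
  have hsub : Icc (((l : ℕ) : ℝ) / 4) ((((l : ℕ) : ℝ) + 1) / 4) ⊆ Icc (0 : ℝ) 1 :=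
    Icc_subset_Icc (by positivity) (by linarith)
  have hc : ContinuousOn (fun t => ‖γ t - b‖) (Icc (((l : ℕ) : ℝ) / 4) ((((l : ℕ) : ℝ) + 1) / 4)) :=
    ((hγ.mono hsub).sub continuousOn_const).norm
  obtain ⟨t0, ht0, hmin⟩ := isCompact_Icc.exists_isMinOn
    ⟨((l : ℕ) : ℝ) / 4, ⟨le_rfl, by linarith⟩⟩ hc
  have hpos : 0 < ‖γ t0 - b‖ := norm_pos_iff.mpr (sub_ne_zero.mpr (hb t0 ht0))
  refine ⟨‖γ t0 - b‖ / 2, by linarith, fun t ht => ?_⟩
  have := hmin ht
  simp only [mem_ofPred_eq] at this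
  linarith

/-- separation of the arcs -/
theorem sep {γ : ℝ → ℂ} (hγ : ContinuousOn γ (Icc 0 1)) (G : Geo γ) (J : Set (Fin 4)) {b : ℂ}
    (hb : ∀ l, l ∉ J → ∀ t ∈ Icc (((l : ℕ) : ℝ) / 4) ((((l : ℕ) : ℝ) + 1) / 4), γ t ≠ b) :
    ∃ R > 0, ∀ᶠ k in atTop, ∀ ζ ∈ frontier (G.Ω k), ζ ∉ G.E k → ‖ζ - b‖ < R →
      ∃ j ∈ J, ζ ∈ G.A k j := by
  have h1 : ∀ l : Fin 4, ∃ R > 0, l ∉ J →
      ∀ t ∈ Icc (((l : ℕ) : ℝ) / 4) ((((l : ℕ) : ℝ) + 1) / 4), 2 * R ≤ ‖γ t - b‖ := by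
    intro l
    by_cases hl : l ∈ J
    · exact ⟨1, one_pos, fun h => absurd hl h⟩
    · obtain ⟨R, hR, h⟩ := arc_pos hγ l (hb l hl)
      exact ⟨R, hR, fun _ => h⟩
  choose R hR hRl using h1
  have hne : (Finset.univ : Finset (Fin 4)).Nonempty := ⟨0, Finset.mem_univ _⟩
  refine ⟨Finset.univ.inf' hne R, (Finset.lt_inf'_iff hne).mpr fun l _ => hR l, ?_⟩
  set R0 := Finset.univ.inf' hne R with hR0
  have hR0p : 0 < R0 := (Finset.lt_inf'_iff hne).mpr fun l _ => hR l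
  have hle : ∀ l, R0 ≤ R l := fun l => Finset.inf'_le R (Finset.mem_univ l)
  have hnear : ∀ᶠ k in atTop, ∀ l : Fin 4, ∀ ζ ∈ G.A k l,
      ∃ t ∈ Icc (((l : ℕ) : ℝ) / 4) ((((l : ℕ) : ℝ) + 1) / 4), ‖ζ - γ t‖ < R0 :=
    Filter.eventually_all.mpr fun l => G.near l R0 hR0p
  filter_upwards [hnear] with k hk ζ hζ hζE hζb
  obtain ⟨j, hj⟩ := G.cover k ζ hζ hζE
  refine ⟨j, ?_, hj⟩
  by_contra hjJ
  obtain ⟨t, ht, hζt⟩ := hk j ζ hj
  have h2 := hRl j hjJ t ht
  have h3 := hle j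
  have h4 : ‖γ t - b‖ ≤ ‖ζ - γ t‖ + ‖ζ - b‖ := by
    have h5 := norm_add_le (γ t - ζ) (ζ - b)
    rw [norm_sub_rev (γ t) ζ] at h5
    simpa using h5
  linarith

/-- boundary values of the limit function of one domain -/
theorem bdry {Ω : Set ℂ} (hΩ : IsOpen Ω) {U : Ultrafilter ℕ} (hU : (U : Filter ℕ) ≤ atTop)
    {c a : ℂ} {d : ℕ → ℝ} {H : ℕ → ℤ → ℤ → ℂ} {h : ℂ → ℂ}
    (hh : ∀ W K : Set ℂ, IsOpen W → W ⊆ Ω → Convex ℝ K → IsClosed K →
      (∀ᶠ n in (U : Filter ℕ), ∀ i j : ℤ, pos c a (d n) i j ∈ W → H n i j ∈ K) →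
      ∀ z ∈ W, h z ∈ K) {ζ : ℂ} {v : ℂ → ℝ} (hv : Aff v) {e : ℕ → ℝ} {x : ℝ}
    (he : Tendsto e U (𝓝 x)) (hN : NearB Ω c a d H ζ fun n w => v w + e n) :
    ∀ ε > 0, ∀ᶠ z in 𝓝[Ω] ζ, v (h z) + x ≤ ε := by
  intro ε hε
  obtain ⟨r, hr, hN⟩ := hN (ε / 2) (half_pos hε)
  have hmem : ball ζ r ∩ Ω ∈ 𝓝[Ω] ζ :=
    inter_mem (mem_nhdsWithin_of_mem_nhds (ball_mem_nhds ζ hr)) self_mem_nhdsWithin
  filter_upwards [hmem] with z hz
  have h1 : h z ∈ {w | v w ≤ ε - x} := by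
    refine hh (ball ζ r ∩ Ω) _ (isOpen_ball.inter hΩ) inter_subset_right (hv.convex _)
      (isClosed_le hv.cont continuous_const) ?_ z hz
    have h2 : ∀ᶠ n in (U : Filter ℕ), x - ε / 2 < e n :=
      he.eventually (lt_mem_nhds (by linarith))
    filter_upwards [hU hN, h2] with n h3 h4 i j hij
    have h5 := h3 i j hij.2 (by have := hij.1; rwa [mem_ball, dist_eq_norm] at this)
    show v (H n i j) ≤ ε - x
    linarith
  have h1' : v (h z) ≤ ε - x := h1
  linarith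

/-- **Uniform boundary estimate**, passed to the limit function. -/
theorem k_bound {γ : ℝ → ℂ} (G : Geo γ) {V : Ultrafilter ℕ} (hV : (V : Filter ℕ) ≤ atTop)
    {an : Bool} {h : ℕ → ℂ → ℂ} (hh : ∀ k, HA an (h k) (G.Ω k))
    (hT : ∀ k, ∀ z ∈ G.Ω k, h k z ∈ Tri) {g : ℂ → ℂ}
    (hg : ∀ z ∈ jordanInterior γ, Tendsto (fun k => h k z) V (𝓝 (g z))) {J : Set (Fin 4)} {t : ℝ}
    (ht : t ∈ Icc (0 : ℝ) 1)
    (hsep : ∃ R > 0, ∀ᶠ k in atTop, ∀ ζ ∈ frontier (G.Ω k), ζ ∉ G.E k → ‖ζ - γ t‖ < R →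
      ∃ j ∈ J, ζ ∈ G.A k j)
    {u : ℂ → ℝ} (hu : Aff u) (hu1 : ∀ w ∈ Tri, u w ≤ 1)
    (hbd : ∀ k, ∀ j ∈ J, ∀ ζ ∈ frontier (G.Ω k), ζ ∉ G.E k → ζ ∈ G.A k j →
      ∀ ε > 0, ∀ᶠ z in 𝓝[G.Ω k] ζ, u (h k z) ≤ ε) :
    ∀ ε > 0, ∀ᶠ z in 𝓝[jordanInterior γ] (γ t), u (g z) ≤ ε := by
  intro ε hε
  obtain ⟨R, hR, hsep⟩ := hsep
  set s : ℝ := min (R / 4) (R * Real.exp (-(5 / ε))) with hs
  have hs0 : 0 < s := lt_min (by positivity) (by positivity)
  have hs4 : 4 * s ≤ R := by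
    have := min_le_left (R / 4) (R * Real.exp (-(5 / ε)))
    rw [← hs] at this
    linarith
  have hlog : 5 / ε ≤ Real.log (R / s) := by
    rw [Real.le_log_iff_exp_le (by positivity), le_div_iff₀ hs0]
    have := min_le_right (R / 4) (R * Real.exp (-(5 / ε)))
    rw [← hs] at this
    calc Real.exp (5 / ε) * s ≤ Real.exp (5 / ε) * (R * Real.exp (-(5 / ε))) := by gcongr
      _ = R * (Real.exp (5 / ε) * Real.exp (-(5 / ε))) := by ring
      _ = R := by rw [← Real.exp_add]; simp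
  have hbound : 5 / Real.log (R / s) ≤ ε := by
    have hpos : 0 < 5 / ε := by positivity
    rw [div_le_iff₀ (hpos.trans_le hlog)]
    have := (div_le_iff₀ hε).mp hlog
    linarith
  have hmem : ball (γ t) s ∩ jordanInterior γ ∈ 𝓝[jordanInterior γ] (γ t) :=
    inter_mem (mem_nhdsWithin_of_mem_nhds (ball_mem_nhds _ hs0)) self_mem_nhdsWithin
  filter_upwards [hmem] with z hz
  have hzs : ‖z - γ t‖ ≤ s := by
    have := hz.1
    rw [mem_ball, dist_eq_norm] at this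
    exact this.le
  have hlim : Tendsto (fun k => u (h k z)) V (𝓝 (u (g z))) :=
    (hu.cont.tendsto _).comp (hg z hz.2)
  refine le_of_tendsto hlim ?_
  have e1 : ∀ᶠ k in (V : Filter ℕ), ({z} : Set ℂ) ⊆ G.Ω k :=
    hV (G.exh {z} isCompact_singleton (singleton_subset_iff.mpr hz.2))
  filter_upwards [e1, hV hsep, hV (G.app t ht s hs0)] with k k1 k2 k3
  obtain ⟨w0, hw0, hw0b⟩ := k3
  refine (side_bound (G.opn k) (G.cone k) (G.bdd k) (G.con k) hs0 hs4 hw0 hw0b.le (hh k) hu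
    (fun z hz => hu1 _ (hT k z hz)) (G.E k) (G.Enot k) ?_ (singleton_subset_iff.mp k1) hzs).trans
    hbound
  intro ζ hζ hζR hζE ε' hε'
  obtain ⟨j, hj, hζA⟩ := k2 ζ hζ hζE hζR
  exact hbd k j hj ζ hζ hζE hζA ε' hε'

theorem tend0 {α : Type*} {l : Filter α} {f : α → ℝ} (h0 : ∀ᶠ x in l, 0 ≤ f x)
    (h : ∀ ε > 0, ∀ᶠ x in l, f x ≤ ε) : Tendsto f l (𝓝 0) := by
  rw [Metric.tendsto_nhds]
  intro ε hε
  filter_upwards [h0, h (ε / 2) (half_pos hε)] with x h1 h2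
  rw [Real.dist_eq, sub_zero, abs_of_nonneg h1]
  linarith

theorem jinj {γ : ℝ → ℂ} (hγ : IsJordanCurve γ) {t t' : ℝ} (ht : t ∈ Ioo (0 : ℝ) 1)
    (ht' : t' ∈ Icc (0 : ℝ) 1) (h : γ t' = γ t) : t' = t := by
  rcases ht'.2.lt_or_eq with h1 | h1
  · exact hγ.2.1 ⟨ht'.1, h1⟩ ⟨ht.1.le, ht.2⟩ h
  · rw [h1, ← hγ.2.2] at h
    have := hγ.2.1 ⟨le_rfl, zero_lt_one⟩ ⟨ht.1.le, ht.2⟩ h
    exact absurd this ht.1.ne

/-- **The limit of one family.** -/
theorem fam_lim {γ : ℝ → ℂ} (hγ : IsJordanCurve γ) (hD : IsOpen (jordanInterior γ)) {G : Geo γ}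
    {p : ℕ → ℝ} {up : Bool} (O : Obs G p up) {U : Ultrafilter ℕ} (hU : (U : Filter ℕ) ≤ atTop)
    {P : ℝ} (hP : Tendsto p U (𝓝 P)) (hP0 : 0 ≤ P) (hP1 : P ≤ 1) :
    ∃ g : ℂ → ℂ, HA O.an g (jordanInterior γ) ∧ (∀ z ∈ jordanInterior γ, g z ∈ Tri) ∧
      (∀ t ∈ Ioo (0 : ℝ) (1/2), ∀ ε > 0, ∀ᶠ z in 𝓝[jordanInterior γ] (γ t), sd1 (g z) ≤ ε) ∧
      (∀ t ∈ Ioo (1/2 : ℝ) (3/4), ∀ ε > 0, ∀ᶠ z in 𝓝[jordanInterior γ] (γ t), sd2 (g z) ≤ ε) ∧
      (∀ t ∈ Ioo (3/4 : ℝ) 1, ∀ ε > 0, ∀ᶠ z in 𝓝[jordanInterior γ] (γ t), sd3 (g z) ≤ ε) ∧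
      (up = false → ∀ t ∈ Ioo (0 : ℝ) (1/4), ∀ ε > 0, ∀ᶠ z in 𝓝[jordanInterior γ] (γ t),
        lam (g z) - P ≤ ε) ∧
      (up = true → ∀ t ∈ Ioo (1/4 : ℝ) (1/2), ∀ ε > 0, ∀ᶠ z in 𝓝[jordanInterior γ] (γ t),
        P - lam (g z) ≤ ε) := by
  have hfix : ∀ k, ∃ h : ℂ → ℂ, HA O.an h (G.Ω k) ∧ ∀ W K : Set ℂ, IsOpen W → W ⊆ G.Ω k →
      Convex ℝ K → IsClosed K →
      (∀ᶠ n in (U : Filter ℕ), ∀ i j : ℤ, pos (O.c k) (O.a k) (O.d k n) i j ∈ W →
        O.H k n i j ∈ K) → ∀ z ∈ W, h z ∈ K := by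
    intro k
    refine disc_lim (G.opn k) U (hU (O.dpos k)) ((O.dlim k).mono_left hU) (O.a0 k) ?_ O.an ?_
    · filter_upwards [hU (O.tri k)] with n hn i j hij
      exact Tri_norm (hn i j hij)
    · intro x1 x2 y1 y2 hx hy hin
      exact (O.cs k x1 x2 y1 y2 hx hy hin).mono hU le_rfl le_rfl le_rfl le_rfl
  choose h hHA hconv using hfix
  have hT : ∀ k, ∀ z ∈ G.Ω k, h k z ∈ Tri := by
    intro k
    exact hconv k (G.Ω k) Tri (G.opn k) subset_rfl Tri_convex Tri_closed (hU (O.tri k))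
  set V : Ultrafilter ℕ := Ultrafilter.of atTop with hVdef
  have hV : (V : Filter ℕ) ≤ atTop := Ultrafilter.of_le atTop
  obtain ⟨g0, hg0, -, hg0lim⟩ := ultra_hol (D := jordanInterior γ) hD V (Om := G.Ω)
    (h := fun k z => cj O.an (h k z)) (B := 5) (fun K hK hKD => hV (G.exh K hK hKD)) hHA
    (fun k z hz => by simp only [norm_cj]; exact Tri_norm (hT k z hz))
  have hglim : ∀ z ∈ jordanInterior γ, Tendsto (fun k => h k z) V (𝓝 (cj O.an (g0 z))) := by
    intro z hz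
    have := ((cj_cont O.an).tendsto _).comp (hg0lim z hz)
    refine this.congr fun k => ?_
    simp only [Function.comp, cj_cj]
  have hgT : ∀ z ∈ jordanInterior γ, cj O.an (g0 z) ∈ Tri := by
    intro z hz
    refine Tri_closed.mem_of_tendsto (hglim z hz) ?_
    filter_upwards [hV (G.exh {z} isCompact_singleton (singleton_subset_iff.mpr hz))] with k hk
    exact hT k z (singleton_subset_iff.mp hk)
  have hc0 : Tendsto (fun _ : ℕ => (0 : ℝ)) (U : Filter ℕ) (𝓝 0) := tendsto_const_nhds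
  have hfin : ∀ l : Fin 4, l = 0 ∨ l = 1 ∨ l = 2 ∨ l = 3 := by decide
  -- boundary values on the domains
  have B : ∀ {u : ℂ → ℝ} (_ : Aff u) (k : ℕ) (ζ : ℂ),
      NearB (G.Ω k) (O.c k) (O.a k) (O.d k) (O.H k) ζ (fun _ => u) →
      ∀ ε > 0, ∀ᶠ z in 𝓝[G.Ω k] ζ, u (h k z) ≤ ε := by
    intro u hu k ζ hN ε hε
    have := bdry (G.opn k) hU (hconv k) hu hc0 (by simpa using hN) ε hε
    simpa using this
  refine ⟨fun z => cj O.an (g0 z), ?_, hgT, ?_, ?_, ?_, ?_, ?_⟩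
  · unfold HA
    simp only [cj_cj]
    exact hg0
  · intro t ht
    refine k_bound G hV hHA hT hglim (J := {0, 1}) (t := t) ⟨ht.1.le, by linarith [ht.2]⟩
      (sep hγ.1 G {0, 1} ?_) aff_sd1 (fun w hw => (Tri_sd hw).1) ?_
    · intro l hl t' ht' he
      have hl2 : 2 ≤ (l : ℕ) := by
        rcases hfin l with h | h | h | h <;> subst h <;> simp_all
      have hl2' : (2 : ℝ) ≤ ((l : ℕ) : ℝ) := by exact_mod_cast hl2
      have hl3 : ((l : ℕ) : ℝ) ≤ 3 := by
        have : (l : ℕ) ≤ 3 := by omega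
        exact_mod_cast this
      have h1 := jinj hγ (t := t) (t' := t') ⟨ht.1, by linarith [ht.2]⟩
        ⟨by linarith [ht'.1], by linarith [ht'.2]⟩ he
      have := ht'.1
      have := ht.2
      linarith
    · intro k j hj ζ hζ hζE hζA
      rcases hj with rfl | hj
      · exact B aff_sd1 k ζ (O.b0 k ζ hζ hζE hζA)
      · rw [mem_singleton_iff] at hj
        subst hj
        exact B aff_sd1 k ζ (O.b1 k ζ hζ hζE hζA)
  · intro t ht
    refine k_bound G hV hHA hT hglim (J := {2}) (t := t)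
      ⟨by linarith [ht.1], by linarith [ht.2]⟩
      (sep hγ.1 G {2} ?_) aff_sd2 (fun w hw => (Tri_sd hw).2.1) ?_
    · intro l hl t' ht' he
      have ht0 : t ∈ Ioo (0 : ℝ) 1 := ⟨by linarith [ht.1], by linarith [ht.2]⟩
      have h3 := ht'.1
      have h4 := ht'.2
      have h5 := ht.1
      have h6 := ht.2
      rcases hfin l with h | h | h | h <;> subst h
      · norm_num at h3 h4
        have := jinj hγ ht0 ⟨by linarith, by linarith⟩ he
        linarith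
      · norm_num at h3 h4
        have := jinj hγ ht0 ⟨by linarith, by linarith⟩ he
        linarith
      · simp at hl
      · norm_num at h3 h4
        have := jinj hγ ht0 ⟨by linarith, by linarith⟩ he
        linarith
    · intro k j hj ζ hζ hζE hζA
      rw [mem_singleton_iff] at hj
      subst hj
      exact B aff_sd2 k ζ (O.b2 k ζ hζ hζE hζA)
  · intro t ht
    refine k_bound G hV hHA hT hglim (J := {3}) (t := t)
      ⟨by linarith [ht.1], by linarith [ht.2]⟩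
      (sep hγ.1 G {3} ?_) aff_sd3 (fun w hw => (Tri_sd hw).2.2) ?_
    · intro l hl t' ht' he
      have ht0 : t ∈ Ioo (0 : ℝ) 1 := ⟨by linarith [ht.1], by linarith [ht.2]⟩
      have h3 := ht'.1
      have h4 := ht'.2
      have h5 := ht.1
      have h6 := ht.2
      rcases hfin l with h | h | h | h <;> subst h
      · norm_num at h3 h4
        have := jinj hγ ht0 ⟨by linarith, by linarith⟩ he
        linarith
      · norm_num at h3 h4
        have := jinj hγ ht0 ⟨by linarith, by linarith⟩ he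
        linarith
      · norm_num at h3 h4
        have := jinj hγ ht0 ⟨by linarith, by linarith⟩ he
        linarith
      · simp at hl
    · intro k j hj ζ hζ hζE hζA
      rw [mem_singleton_iff] at hj
      subst hj
      exact B aff_sd3 k ζ (O.b3 k ζ hζ hζE hζA)
  · intro hup t ht
    refine k_bound G hV hHA hT hglim (J := {0}) (t := t)
      ⟨by linarith [ht.1], by linarith [ht.2]⟩
      (sep hγ.1 G {0} ?_) (aff_lam.sub_const P) (fun w hw => by linarith [(Tri_lam hw).2]) ?_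
    · intro l hl t' ht' he
      have ht0 : t ∈ Ioo (0 : ℝ) 1 := ⟨by linarith [ht.1], by linarith [ht.2]⟩
      have h3 := ht'.1
      have h4 := ht'.2
      have h5 := ht.1
      have h6 := ht.2
      rcases hfin l with h | h | h | h <;> subst h
      · simp at hl
      · norm_num at h3 h4
        have := jinj hγ ht0 ⟨by linarith, by linarith⟩ he
        linarith
      · norm_num at h3 h4
        have := jinj hγ ht0 ⟨by linarith, by linarith⟩ he
        linarith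
      · norm_num at h3 h4
        have := jinj hγ ht0 ⟨by linarith, by linarith⟩ he
        linarith
    · intro k j hj ζ hζ hζE hζA ε hε
      rw [mem_singleton_iff] at hj
      subst hj
      have := bdry (G.opn k) hU (hconv k) aff_lam hP.neg (e := fun n => -p n)
        (by simpa [sub_eq_add_neg] using O.lo hup k ζ hζ hζE hζA) ε hε
      simpa [sub_eq_add_neg] using this
  · intro hup t ht
    refine k_bound G hV hHA hT hglim (J := {1}) (t := t)
      ⟨by linarith [ht.1], by linarith [ht.2]⟩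
      (sep hγ.1 G {1} ?_) (aff_lam.const_sub P) (fun w hw => by linarith [(Tri_lam hw).1]) ?_
    · intro l hl t' ht' he
      have ht0 : t ∈ Ioo (0 : ℝ) 1 := ⟨by linarith [ht.1], by linarith [ht.2]⟩
      have h3 := ht'.1
      have h4 := ht'.2
      have h5 := ht.1
      have h6 := ht.2
      rcases hfin l with h | h | h | h <;> subst h
      · norm_num at h3 h4
        have := jinj hγ ht0 ⟨by linarith, by linarith⟩ he
        linarith
      · simp at hl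
      · norm_num at h3 h4
        have := jinj hγ ht0 ⟨by linarith, by linarith⟩ he
        linarith
      · norm_num at h3 h4
        have := jinj hγ ht0 ⟨by linarith, by linarith⟩ he
        linarith
    · intro k j hj ζ hζ hζE hζA ε hε
      rw [mem_singleton_iff] at hj
      subst hj
      have hN : NearB (G.Ω k) (O.c k) (O.a k) (O.d k) (O.H k) ζ
          (fun n w => (0 - lam w) + p n) := by
        have := O.hi hup k ζ hζ hζE hζA
        have e : (fun (n : ℕ) (w : ℂ) => (0 - lam w) + p n) = fun n w => p n - lam w := by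
          funext n w; ring
        rw [e]
        exact this
      have := bdry (G.opn k) hU (hconv k) (aff_lam.const_sub 0) hP hN ε hε
      filter_upwards [this] with z hz
      linarith

end Crest.Agent.R158.Wl290
end

-- ▼ part R158/Wk4_290

/-!
R158 (helper290): Cardy's formula from two one-sided families of lattice functions.
-/

set_option autoImplicit false
open Complex Metric Set Topology Filter

namespace Crest.Agent.R158.Wl290

open Crest.Agent.R158.Cd83 Crest.Agent.R158.Un434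
open Crest.ProbabilityR.Percolation
open Crest.Agent.R158.Sk656 (sd1 sd2 sd3 sd1_cont sd2_cont sd3_cont)

variable {γ : ℝ → ℂ} {φ : ℂ → ℂ}

/-- one-sided bounds near `γ t`, `t → 1/4`, bound the boundary value at `γ (1/4)` -/
theorem near_quarter (C : CDat γ φ) {v : ℂ → ℝ} {X : ℝ}
    (hv : Tendsto v (𝓝[jordanInterior γ] (γ (1/4))) (𝓝 X)) {S : Set ℝ} (hS : S ⊆ Icc 0 1)
    (hS4 : (1/4 : ℝ) ∈ closure S) {P : ℝ}
    (h : ∀ t ∈ S, ∀ ε > 0, ∀ᶠ z in 𝓝[jordanInterior γ] (γ t), v z - P ≤ ε) : X ≤ P := by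
  refine le_of_forall_pos_le_add fun ε hε => ?_
  have h1 : ∀ᶠ z in 𝓝[jordanInterior γ] (γ (1/4)), X - ε / 2 < v z :=
    hv.eventually (lt_mem_nhds (by linarith))
  rw [eventually_nhdsWithin_iff, _root_.eventually_nhds_iff] at h1
  obtain ⟨N, hN, hNo, hNm⟩ := h1
  have hγ4 : Tendsto γ (𝓝[S] (1/4)) (𝓝 (γ (1/4))) :=
    (C.hγ.1 (1/4) ⟨by norm_num, by norm_num⟩).mono hS
  have : (𝓝[S] (1/4 : ℝ)).NeBot := mem_closure_iff_nhdsWithin_neBot.mp hS4
  obtain ⟨t, htN, htS⟩ := ((hγ4.eventually (hNo.mem_nhds hNm)).and self_mem_nhdsWithin).exists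
  have : (𝓝[jordanInterior γ] (γ t)).NeBot :=
    mem_closure_iff_nhdsWithin_neBot.mp (C.gam_mem (hS htS))
  have h2 : ∀ᶠ z in 𝓝[jordanInterior γ] (γ t), z ∈ N :=
    mem_nhdsWithin_of_mem_nhds (hNo.mem_nhds htN)
  obtain ⟨z, ⟨hz1, hz2⟩, hz3⟩ :=
    ((h2.and self_mem_nhdsWithin).and (h t htS (ε / 2) (half_pos hε))).exists
  have := hN z hz1 hz2
  linarith

/-- identification of the limit of one family -/
theorem fam_ident (C : CDat γ φ) {g : ℂ → ℂ} {an : Bool} (hg : HA an g (jordanInterior γ))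
    (hT : ∀ z ∈ jordanInterior γ, g z ∈ Tri)
    (h1 : ∀ t ∈ Ioo (0 : ℝ) (1/2), ∀ ε > 0, ∀ᶠ z in 𝓝[jordanInterior γ] (γ t), sd1 (g z) ≤ ε)
    (h2 : ∀ t ∈ Ioo (1/2 : ℝ) (3/4), ∀ ε > 0, ∀ᶠ z in 𝓝[jordanInterior γ] (γ t), sd2 (g z) ≤ ε)
    (h3 : ∀ t ∈ Ioo (3/4 : ℝ) 1, ∀ ε > 0, ∀ᶠ z in 𝓝[jordanInterior γ] (γ t), sd3 (g z) ≤ ε) :
    Tendsto (fun z => lam (g z)) (𝓝[jordanInterior γ] (γ (1/4)))
      (𝓝 (cardyRatio (crossRatioAt (φ (γ 0)) (φ (γ (1/4))) (φ (γ (1/2))) (φ (γ (3/4)))))) := by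
  have hmem : ∀ t : ℝ, ∀ᶠ z in 𝓝[jordanInterior γ] (γ t), g z ∈ Tri := fun t => by
    filter_upwards [self_mem_nhdsWithin] with z hz using hT z hz
  have key := ident C (h := g) (M := 5) (fun z hz => Tri_norm (hT z hz)) (by
      unfold HA cj at hg
      cases an
      · left; simpa using hg
      · right; simpa using hg)
    (fun t ht => tend0 ((hmem t).mono fun z hz => hz.1) (h1 t ht))
    (fun t ht => tend0 ((hmem t).mono fun z hz => hz.2.1) (h2 t ht))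
    (fun t ht => tend0 ((hmem t).mono fun z hz => hz.2.2) (h3 t ht))
  have := (lam_cont.tendsto _).comp key
  rwa [lam_point] at this

/-- one-sided, ultrafilter form, `up = false` -/
theorem obs_le (C : CDat γ φ) {p : ℕ → ℝ} (hp : ∀ n, p n ∈ Icc (0 : ℝ) 1)
    {G0 : Geo γ} (O0 : Obs G0 p false) {U : Ultrafilter ℕ} (hU : (U : Filter ℕ) ≤ atTop) {P : ℝ}
    (hP : Tendsto p U (𝓝 P)) :
    cardyRatio (crossRatioAt (φ (γ 0)) (φ (γ (1/4))) (φ (γ (1/2))) (φ (γ (3/4)))) ≤ P := by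
  have hP01 : P ∈ Icc (0 : ℝ) 1 := isClosed_Icc.mem_of_tendsto hP (Eventually.of_forall hp)
  obtain ⟨g, g1, g2, g3, g4, g5, g6, -⟩ := fam_lim C.hγ C.opn O0 hU hP hP01.1 hP01.2
  have tg := fam_ident C g1 g2 g3 g4 g5
  refine near_quarter C tg (S := Ioo 0 (1/4)) (fun t ht => ⟨ht.1.le, by linarith [ht.2]⟩) ?_
    (g6 rfl)
  rw [closure_Ioo (by norm_num)]
  exact ⟨by norm_num, le_rfl⟩

/-- one-sided, ultrafilter form, `up = true` -/
theorem obs_ge (C : CDat γ φ) {p : ℕ → ℝ} (hp : ∀ n, p n ∈ Icc (0 : ℝ) 1)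
    {G1 : Geo γ} (O1 : Obs G1 p true) {U : Ultrafilter ℕ} (hU : (U : Filter ℕ) ≤ atTop) {P : ℝ}
    (hP : Tendsto p U (𝓝 P)) :
    P ≤ cardyRatio (crossRatioAt (φ (γ 0)) (φ (γ (1/4))) (φ (γ (1/2))) (φ (γ (3/4)))) := by
  have hP01 : P ∈ Icc (0 : ℝ) 1 := isClosed_Icc.mem_of_tendsto hP (Eventually.of_forall hp)
  obtain ⟨f, f1, f2, f3, f4, f5, -, f6⟩ := fam_lim C.hγ C.opn O1 hU hP hP01.1 hP01.2
  have tf := fam_ident C f1 f2 f3 f4 f5
  have hge : -cardyRatio (crossRatioAt (φ (γ 0)) (φ (γ (1/4))) (φ (γ (1/2))) (φ (γ (3/4)))) ≤ -P := by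
    refine near_quarter C tf.neg (S := Ioo (1/4) (1/2))
      (fun t ht => ⟨by linarith [ht.1], by linarith [ht.2]⟩) ?_ ?_
    · rw [closure_Ioo (by norm_num)]
      exact ⟨le_rfl, by norm_num⟩
    · intro t ht ε hε
      filter_upwards [f6 rfl t ht ε hε] with z hz
      linarith
  linarith

theorem ev_of_ultra {Q : ℕ → Prop}
    (h : ∀ U : Ultrafilter ℕ, (U : Filter ℕ) ≤ atTop → (∀ᶠ n in (U : Filter ℕ), ¬ Q n) → False) :
    ∀ᶠ n in atTop, Q n := by
  have : {n | Q n} ∈ (atTop : Filter ℕ) := by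
    rw [mem_iff_ultrafilter]
    intro U hU
    by_contra hc
    exact h U hU (Ultrafilter.compl_mem_iff_notMem.mpr hc)
  exact this

theorem exists_ulim {p : ℕ → ℝ} (hp : ∀ n, p n ∈ Icc (0 : ℝ) 1) (U : Ultrafilter ℕ) :
    ∃ P, Tendsto p U (𝓝 P) := by
  obtain ⟨x, hx, hx2⟩ := isCompact_Icc.ultrafilter_le_nhds (U.map p) (by
    rw [le_principal_iff]
    exact Filter.Eventually.of_forall (f := (U : Filter ℕ)) hp)
  exact ⟨x, hx2⟩

/-- one-sided, eventual form, `up = false` -/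
theorem obs_lower (C : CDat γ φ) {p : ℕ → ℝ} (hp : ∀ n, p n ∈ Icc (0 : ℝ) 1)
    {G0 : Geo γ} (O0 : Obs G0 p false) {ε : ℝ} (hε : 0 < ε) :
    ∀ᶠ n in atTop,
      cardyRatio (crossRatioAt (φ (γ 0)) (φ (γ (1/4))) (φ (γ (1/2))) (φ (γ (3/4)))) - ε < p n := by
  refine ev_of_ultra fun U hU hcon => ?_
  obtain ⟨P, hP⟩ := exists_ulim hp U
  have h1 := obs_le C hp O0 hU hP
  have h2 : P ≤ cardyRatio (crossRatioAt (φ (γ 0)) (φ (γ (1/4))) (φ (γ (1/2))) (φ (γ (3/4)))) - ε :=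
    le_of_tendsto hP (hcon.mono fun n hn => not_lt.mp hn)
  linarith

/-- one-sided, eventual form, `up = true` -/
theorem obs_upper (C : CDat γ φ) {p : ℕ → ℝ} (hp : ∀ n, p n ∈ Icc (0 : ℝ) 1)
    {G1 : Geo γ} (O1 : Obs G1 p true) {ε : ℝ} (hε : 0 < ε) :
    ∀ᶠ n in atTop, p n <
      cardyRatio (crossRatioAt (φ (γ 0)) (φ (γ (1/4))) (φ (γ (1/2))) (φ (γ (3/4)))) + ε := by
  refine ev_of_ultra fun U hU hcon => ?_
  obtain ⟨P, hP⟩ := exists_ulim hp U
  have h1 := obs_ge C hp O1 hU hP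
  have h2 : cardyRatio (crossRatioAt (φ (γ 0)) (φ (γ (1/4))) (φ (γ (1/2))) (φ (γ (3/4)))) + ε ≤ P :=
    ge_of_tendsto hP (hcon.mono fun n hn => not_lt.mp hn)
  linarith

/-- the two sides together -/
theorem tendsto_of_sides {p : ℕ → ℝ} {X : ℝ} (h0 : ∀ ε > 0, ∀ᶠ n in atTop, X - ε < p n)
    (h1 : ∀ ε > 0, ∀ᶠ n in atTop, p n < X + ε) : Tendsto p atTop (𝓝 X) := by
  rw [Metric.tendsto_nhds]
  intro ε hε
  filter_upwards [h0 ε hε, h1 ε hε] with n h2 h3
  rw [Real.dist_eq, abs_lt]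
  constructor <;> linarith


theorem arc_prob_mem (δ : ℝ) (g : ℝ → ℂ) : (arcCrossingProb δ g).toReal ∈ Icc (0 : ℝ) 1 := by
  refine ⟨ENNReal.toReal_nonneg, ?_⟩
  unfold arcCrossingProb
  have h := MeasureTheory.prob_le_one
    (μ := ProbabilityTheory.setBernoulli (regionGraph δ g).edgeSet (clampUnit (1 / 2)))
    (s := {ω | ∃ u v : ℤ × ℤ, gridPoint δ u ∈ g '' Set.Icc 0 (1 / 4) ∧
      gridPoint δ v ∈ g '' Set.Icc (1 / 2) (3 / 4) ∧
        (openSubgraph (regionGraph δ g) ω).Reachable u v})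
  have := ENNReal.toReal_mono ENNReal.one_ne_top h
  simpa using this


end Crest.Agent.R158.Wl290
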